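import Vale.Agent.Lib.P154.PChain.BF.R5_0

set_option linter.all false

namespace Vale.Agent.Lib.P154.PChain.BF.S6

open Vale.Agent.Lib.P154.Chain

noncomputable def pc0 : PT := (PT.nd (nat_lit 4372368) (PT.nd (nat_lit 4160130) (PT.nd (nat_lit 4106934) (PT.nd (nat_lit 3947736) (PT.nd (nat_lit 3894696) (PT.nd (nat_lit 3894618) PT.nil (PT.lf (nat_lit 76) (nat_lit 6) (nat_lit 1) (nat_lit 3) (nat_lit 218) (nat_lit 73) (nat_lit 219))) (PT.lf (nat_lit 76) (nat_lit 6) (nat_lit 1) (nat_lit 1) (nat_lit 219) (nat_lit 73) (nat_lit 218))) (PT.nd (nat_lit 106158) (PT.lf (nat_lit 152) (nat_lit 3) (nat_lit 2) (nat_lit 1) (nat_lit 218) (nat_lit 74) (nat_lit 218)) (PT.lf (nat_lit 228) (nat_lit 3) (nat_lit 3) (nat_lit 1) (nat_lit 217) (nat_lit 76) (nat_lit 217)))) (PT.nd (nat_lit 53040) (PT.nd (nat_lit 78) (PT.lf (nat_lit 304) (nat_lit 6) (nat_lit 4) (nat_lit 3) (nat_lit 216) (nat_lit 77) (nat_lit 217)) (PT.lf (nat_lit 304) (nat_lit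 6) (nat_lit 4) (nat_lit 1) (nat_lit 217) (nat_lit 77) (nat_lit 216))) (PT.nd (nat_lit 78) (PT.lf (nat_lit 380) (nat_lit 6) (nat_lit 5) (nat_lit 3) (nat_lit 215) (nat_lit 78) (nat_lit 217)) (PT.lf (nat_lit 456) (nat_lit 3) (nat_lit 6) (nat_lit 1) (nat_lit 216) (nat_lit 78) (nat_lit 216))))) (PT.nd (nat_lit 106080) (PT.nd (nat_lit 53040) (PT.nd (nat_lit 52962) (PT.lf (nat_lit 380) (nat_lit 6) (nat_lit 5) (nat_lit 1) (nat_lit 217) (nat_lit 78) (nat_lit 215)) (PT.lf (nat_lit 532) (nat_lit 6) (nat_lit 7) (nat_lit 3) (nat_lit 215) (nat_lit 79) (nat_lit 216))) (PT.nd (nat_lit 52962) (PT.lf (nat_lit 532) (nat_lit 6) (nat_lit 7) (nat_lit 1) (nat_lit 216) (nat_lit 79) (nat_lit 215)) (PT.lf (nat_lit 608) (nat_lit 6) (nat_lit 8) (nat_lit 3) (nat_lit 214) (nat_lit 80) (nat_lit 216)))) (PT.nd (nat_lit 53040) (PT.nd (nat_lit 78) (PT.lf (nat_lit 684) (nat_lit 3) (nat_lit 9) (nat_lit 1) (nat_lit 215) (nat_lit 80) (nat_lit 215))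 (PT.lf (nat_lit 608) (nat_lit 6) (nat_lit 8) (nat_lit 1) (nat_lit 216) (nat_lit 80) (nat_lit 214))) (PT.nd (nat_lit 78) (PT.lf (nat_lit 760) (nat_lit 6) (nat_lit 10) (nat_lit 3) (nat_lit 214) (nat_lit 81) (nat_lit 215)) (PT.nd (nat_lit 52962) (PT.lf (nat_lit 760) (nat_lit 6) (nat_lit 10) (nat_lit 1) (nat_lit 215) (nat_lit 81) (nat_lit 214)) (PT.lf (nat_lit 836) (nat_lit 6) (nat_lit 11) (nat_lit 3) (nat_lit 213) (nat_lit 82) (nat_lit 215))))))) (PT.nd (nat_lit 159276) (PT.nd (nat_lit 106080) (PT.nd (nat_lit 53040) (PT.nd (nat_lit 78) (PT.lf (nat_lit 912) (nat_lit 3) (nat_lit 12) (nat_lit 1) (nat_lit 214) (nat_lit 82) (nat_lit 214)) (PT.lf (nat_lit 836) (nat_lit 6) (nat_lit 11) (nat_lit 1) (nat_lit 215) (nat_lit 82) (nat_lit 213))) (PT.nd (nat_lit 78) (PT.lf (nat_lit 988) (nat_lit 6) (nat_lit 13) (nat_lit 3) (nat_lit 213) (nat_lit 83) (nat_lit 214)) (PT.lf (nat_lit 988) (nat_lit 6) (nat_lit 13) (nat_lit 1) (nat_lit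 214) (nat_lit 83) (nat_lit 213)))) (PT.nd (nat_lit 156) (PT.nd (nat_lit 78) (PT.lf (nat_lit 1064) (nat_lit 6) (nat_lit 14) (nat_lit 3) (nat_lit 212) (nat_lit 84) (nat_lit 214)) (PT.lf (nat_lit 1140) (nat_lit 3) (nat_lit 15) (nat_lit 1) (nat_lit 213) (nat_lit 84) (nat_lit 213))) (PT.nd (nat_lit 52962) (PT.lf (nat_lit 1064) (nat_lit 6) (nat_lit 14) (nat_lit 1) (nat_lit 214) (nat_lit 84) (nat_lit 212)) (PT.lf (nat_lit 1216) (nat_lit 6) (nat_lit 16) (nat_lit 3) (nat_lit 212) (nat_lit 85) (nat_lit 213))))) (PT.nd (nat_lit 106080) (PT.nd (nat_lit 53040) (PT.nd (nat_lit 52962) (PT.lf (nat_lit 1216) (nat_lit 6) (nat_lit 16) (nat_lit 1) (nat_lit 213) (nat_lit 85) (nat_lit 212)) (PT.lf (nat_lit 1292) (nat_lit 6) (nat_lit 17) (nat_lit 3) (nat_lit 211) (nat_lit 86) (nat_lit 213))) (PT.nd (nat_lit 78) (PT.lf (nat_lit 1368) (nat_lit 3) (nat_lit 18) (nat_lit 1) (nat_lit 212) (nat_lit 86) (nat_lit 212)) (PT.lf (nat_lit 1292) (nat_lit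 6) (nat_lit 17) (nat_lit 1) (nat_lit 213) (nat_lit 86) (nat_lit 211)))) (PT.nd (nat_lit 53040) (PT.nd (nat_lit 78) (PT.lf (nat_lit 1444) (nat_lit 6) (nat_lit 19) (nat_lit 3) (nat_lit 211) (nat_lit 87) (nat_lit 212)) (PT.lf (nat_lit 1444) (nat_lit 6) (nat_lit 19) (nat_lit 1) (nat_lit 212) (nat_lit 87) (nat_lit 211))) (PT.nd (nat_lit 78) (PT.lf (nat_lit 1520) (nat_lit 6) (nat_lit 20) (nat_lit 3) (nat_lit 210) (nat_lit 88) (nat_lit 212)) (PT.nd (nat_lit 78) (PT.lf (nat_lit 1596) (nat_lit 3) (nat_lit 21) (nat_lit 1) (nat_lit 211) (nat_lit 88) (nat_lit 211)) (PT.lf (nat_lit 1520) (nat_lit 6) (nat_lit 20) (nat_lit 1) (nat_lit 212) (nat_lit 88) (nat_lit 210))))))))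
noncomputable def pc1 : PT := (PT.nd (nat_lit 371514) (PT.nd (nat_lit 159276) (PT.nd (nat_lit 53196) (PT.nd (nat_lit 53040) (PT.nd (nat_lit 78) (PT.lf (nat_lit 1672) (nat_lit 6) (nat_lit 22) (nat_lit 3) (nat_lit 210) (nat_lit 89) (nat_lit 211)) (PT.lf (nat_lit 1672) (nat_lit 6) (nat_lit 22) (nat_lit 1) (nat_lit 211) (nat_lit 89) (nat_lit 210))) (PT.nd (nat_lit 78) (PT.lf (nat_lit 1748) (nat_lit 6) (nat_lit 23) (nat_lit 3) (nat_lit 209) (nat_lit 90) (nat_lit 211)) (PT.lf (nat_lit 1824) (nat_lit 3) (nat_lit 24) (nat_lit 1) (nat_lit 210) (nat_lit 90) (nat_lit 210)))) (PT.nd (nat_lit 53040) (PT.nd (nat_lit 52962) (PT.lf (nat_lit 1748) (nat_lit 6) (nat_lit 23) (nat_lit 1) (nat_lit 211) (nat_lit 90) (nat_lit 209)) (PT.lf (nat_lit 1900) (nat_lit 6) (nat_lit 25) (nat_lit 3) (nat_lit 209) (nat_lit 91) (nat_lit 210))) (PT.nd (nat_lit 52962) (PT.lf (nat_lit 1900) (nat_lit 6) (nat_lit 25) (nat_lit 1) (nat_lit 210) (nat_lit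 91) (nat_lit 209)) (PT.lf (nat_lit 1976) (nat_lit 6) (nat_lit 26) (nat_lit 3) (nat_lit 208) (nat_lit 92) (nat_lit 210))))) (PT.nd (nat_lit 106080) (PT.nd (nat_lit 53040) (PT.nd (nat_lit 78) (PT.lf (nat_lit 2052) (nat_lit 3) (nat_lit 27) (nat_lit 1) (nat_lit 209) (nat_lit 92) (nat_lit 209)) (PT.lf (nat_lit 1976) (nat_lit 6) (nat_lit 26) (nat_lit 1) (nat_lit 210) (nat_lit 92) (nat_lit 208))) (PT.nd (nat_lit 78) (PT.lf (nat_lit 2128) (nat_lit 6) (nat_lit 28) (nat_lit 3) (nat_lit 208) (nat_lit 93) (nat_lit 209)) (PT.lf (nat_lit 2128) (nat_lit 6) (nat_lit 28) (nat_lit 1) (nat_lit 209) (nat_lit 93) (nat_lit 208)))) (PT.nd (nat_lit 156) (PT.nd (nat_lit 78) (PT.lf (nat_lit 2204) (nat_lit 6) (nat_lit 29) (nat_lit 3) (nat_lit 207) (nat_lit 94) (nat_lit 209)) (PT.lf (nat_lit 2280) (nat_lit 3) (nat_lit 30) (nat_lit 1) (nat_lit 208) (nat_lit 94) (nat_lit 208))) (PT.nd (nat_lit 52962) (PT.lf (nat_lit 2204) (nat_lit 6) (nat_lit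 29) (nat_lit 1) (nat_lit 209) (nat_lit 94) (nat_lit 207)) (PT.nd (nat_lit 78) (PT.lf (nat_lit 2356) (nat_lit 6) (nat_lit 31) (nat_lit 3) (nat_lit 207) (nat_lit 95) (nat_lit 208)) (PT.lf (nat_lit 2356) (nat_lit 6) (nat_lit 31) (nat_lit 1) (nat_lit 208) (nat_lit 95) (nat_lit 207))))))) (PT.nd (nat_lit 159354) (PT.nd (nat_lit 53196) (PT.nd (nat_lit 156) (PT.nd (nat_lit 78) (PT.lf (nat_lit 2432) (nat_lit 6) (nat_lit 32) (nat_lit 3) (nat_lit 206) (nat_lit 96) (nat_lit 208)) (PT.lf (nat_lit 2508) (nat_lit 3) (nat_lit 33) (nat_lit 1) (nat_lit 207) (nat_lit 96) (nat_lit 207))) (PT.nd (nat_lit 52962) (PT.lf (nat_lit 2432) (nat_lit 6) (nat_lit 32) (nat_lit 1) (nat_lit 208) (nat_lit 96) (nat_lit 206)) (PT.lf (nat_lit 2584) (nat_lit 6) (nat_lit 34) (nat_lit 3) (nat_lit 206) (nat_lit 97) (nat_lit 207)))) (PT.nd (nat_lit 53040) (PT.nd (nat_lit 52962) (PT.lf (nat_lit 2584) (nat_lit 6) (nat_lit 34) (nat_lit 1) (nat_lit 207) (nat_lit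 97) (nat_lit 206)) (PT.lf (nat_lit 2660) (nat_lit 6) (nat_lit 35) (nat_lit 3) (nat_lit 205) (nat_lit 98) (nat_lit 207))) (PT.nd (nat_lit 78) (PT.lf (nat_lit 2736) (nat_lit 3) (nat_lit 36) (nat_lit 1) (nat_lit 206) (nat_lit 98) (nat_lit 206)) (PT.nd (nat_lit 52962) (PT.lf (nat_lit 2660) (nat_lit 6) (nat_lit 35) (nat_lit 1) (nat_lit 207) (nat_lit 98) (nat_lit 205)) (PT.lf (nat_lit 2812) (nat_lit 6) (nat_lit 37) (nat_lit 3) (nat_lit 205) (nat_lit 99) (nat_lit 206)))))) (PT.nd (nat_lit 106002) (PT.nd (nat_lit 53040) (PT.nd (nat_lit 52962) (PT.lf (nat_lit 2812) (nat_lit 6) (nat_lit 37) (nat_lit 1) (nat_lit 206) (nat_lit 99) (nat_lit 205)) (PT.lf (nat_lit 2888) (nat_lit 6) (nat_lit 38) (nat_lit 3) (nat_lit 204) (nat_lit 100) (nat_lit 206))) (PT.nd (nat_lit 78) (PT.lf (nat_lit 2964) (nat_lit 3) (nat_lit 39) (nat_lit 1) (nat_lit 205) (nat_lit 100) (nat_lit 205)) (PT.lf (nat_lit 2888) (nat_lit 6) (nat_lit 38) (nat_lit 1)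 (nat_lit 206) (nat_lit 100) (nat_lit 204)))) (PT.nd (nat_lit 156) (PT.nd (nat_lit 78) (PT.lf (nat_lit 3040) (nat_lit 6) (nat_lit 40) (nat_lit 3) (nat_lit 203) (nat_lit 101) (nat_lit 206)) (PT.lf (nat_lit 3116) (nat_lit 6) (nat_lit 41) (nat_lit 3) (nat_lit 204) (nat_lit 101) (nat_lit 205))) (PT.nd (nat_lit 78) (PT.lf (nat_lit 3116) (nat_lit 6) (nat_lit 41) (nat_lit 1) (nat_lit 205) (nat_lit 101) (nat_lit 204)) (PT.nd (nat_lit 52884) (PT.lf (nat_lit 3040) (nat_lit 6) (nat_lit 40) (nat_lit 1) (nat_lit 206) (nat_lit 101) (nat_lit 203)) (PT.lf (nat_lit 3192) (nat_lit 6) (nat_lit 42) (nat_lit 3) (nat_lit 203) (nat_lit 102) (nat_lit 205))))))))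
noncomputable def pc2 : PT := (PT.nd (nat_lit 265356) (PT.nd (nat_lit 106236) (PT.nd (nat_lit 53118) (PT.nd (nat_lit 52962) (PT.nd (nat_lit 78) (PT.lf (nat_lit 3268) (nat_lit 3) (nat_lit 43) (nat_lit 1) (nat_lit 204) (nat_lit 102) (nat_lit 204)) (PT.lf (nat_lit 3192) (nat_lit 6) (nat_lit 42) (nat_lit 1) (nat_lit 205) (nat_lit 102) (nat_lit 203))) (PT.nd (nat_lit 78) (PT.lf (nat_lit 3344) (nat_lit 6) (nat_lit 44) (nat_lit 3) (nat_lit 202) (nat_lit 103) (nat_lit 205)) (PT.lf (nat_lit 3420) (nat_lit 6) (nat_lit 45) (nat_lit 3) (nat_lit 203) (nat_lit 103) (nat_lit 204)))) (PT.nd (nat_lit 52962) (PT.nd (nat_lit 78) (PT.lf (nat_lit 3420) (nat_lit 6) (nat_lit 45) (nat_lit 1) (nat_lit 204) (nat_lit 103) (nat_lit 203)) (PT.lf (nat_lit 3344) (nat_lit 6) (nat_lit 44) (nat_lit 1) (nat_lit 205) (nat_lit 103) (nat_lit 202))) (PT.nd (nat_lit 78) (PT.lf (nat_lit 3496) (nat_lit 6) (nat_lit 46) (nat_lit 3) (nat_lit 202) (nat_lit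 104) (nat_lit 204)) (PT.lf (nat_lit 3572) (nat_lit 3) (nat_lit 47) (nat_lit 1) (nat_lit 203) (nat_lit 104) (nat_lit 203))))) (PT.nd (nat_lit 53118) (PT.nd (nat_lit 52962) (PT.nd (nat_lit 52884) (PT.lf (nat_lit 3496) (nat_lit 6) (nat_lit 46) (nat_lit 1) (nat_lit 204) (nat_lit 104) (nat_lit 202)) (PT.lf (nat_lit 3648) (nat_lit 6) (nat_lit 48) (nat_lit 3) (nat_lit 201) (nat_lit 105) (nat_lit 204))) (PT.nd (nat_lit 78) (PT.lf (nat_lit 3724) (nat_lit 6) (nat_lit 49) (nat_lit 3) (nat_lit 202) (nat_lit 105) (nat_lit 203)) (PT.lf (nat_lit 3724) (nat_lit 6) (nat_lit 49) (nat_lit 1) (nat_lit 203) (nat_lit 105) (nat_lit 202)))) (PT.nd (nat_lit 52962) (PT.nd (nat_lit 52884) (PT.lf (nat_lit 3648) (nat_lit 6) (nat_lit 48) (nat_lit 1) (nat_lit 204) (nat_lit 105) (nat_lit 201)) (PT.lf (nat_lit 3800) (nat_lit 6) (nat_lit 50) (nat_lit 3) (nat_lit 201) (nat_lit 106) (nat_lit 203))) (PT.nd (nat_lit 78) (PT.lf (nat_lit 3876) (nat_lit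 3) (nat_lit 51) (nat_lit 1) (nat_lit 202) (nat_lit 106) (nat_lit 202)) (PT.nd (nat_lit 52884) (PT.lf (nat_lit 3800) (nat_lit 6) (nat_lit 50) (nat_lit 1) (nat_lit 203) (nat_lit 106) (nat_lit 201)) (PT.lf (nat_lit 3952) (nat_lit 6) (nat_lit 52) (nat_lit 3) (nat_lit 200) (nat_lit 107) (nat_lit 203))))))) (PT.nd (nat_lit 106314) (PT.nd (nat_lit 53118) (PT.nd (nat_lit 156) (PT.nd (nat_lit 78) (PT.lf (nat_lit 4028) (nat_lit 6) (nat_lit 53) (nat_lit 3) (nat_lit 201) (nat_lit 107) (nat_lit 202)) (PT.lf (nat_lit 4028) (nat_lit 6) (nat_lit 53) (nat_lit 1) (nat_lit 202) (nat_lit 107) (nat_lit 201))) (PT.nd (nat_lit 52884) (PT.lf (nat_lit 3952) (nat_lit 6) (nat_lit 52) (nat_lit 1) (nat_lit 203) (nat_lit 107) (nat_lit 200)) (PT.lf (nat_lit 4104) (nat_lit 6) (nat_lit 54) (nat_lit 3) (nat_lit 200) (nat_lit 108) (nat_lit 202)))) (PT.nd (nat_lit 52962) (PT.nd (nat_lit 78) (PT.lf (nat_lit 4180) (nat_lit 3) (nat_lit 55) (nat_lit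 1) (nat_lit 201) (nat_lit 108) (nat_lit 201)) (PT.lf (nat_lit 4104) (nat_lit 6) (nat_lit 54) (nat_lit 1) (nat_lit 202) (nat_lit 108) (nat_lit 200))) (PT.nd (nat_lit 78) (PT.lf (nat_lit 4256) (nat_lit 6) (nat_lit 56) (nat_lit 3) (nat_lit 199) (nat_lit 109) (nat_lit 202)) (PT.nd (nat_lit 78) (PT.lf (nat_lit 4332) (nat_lit 6) (nat_lit 57) (nat_lit 3) (nat_lit 200) (nat_lit 109) (nat_lit 201)) (PT.lf (nat_lit 4332) (nat_lit 6) (nat_lit 57) (nat_lit 1) (nat_lit 201) (nat_lit 109) (nat_lit 200)))))) (PT.nd (nat_lit 105924) (PT.nd (nat_lit 52962) (PT.nd (nat_lit 52884) (PT.lf (nat_lit 4256) (nat_lit 6) (nat_lit 56) (nat_lit 1) (nat_lit 202) (nat_lit 109) (nat_lit 199)) (PT.lf (nat_lit 4408) (nat_lit 6) (nat_lit 58) (nat_lit 3) (nat_lit 199) (nat_lit 110) (nat_lit 201))) (PT.nd (nat_lit 78) (PT.lf (nat_lit 4484) (nat_lit 3) (nat_lit 59) (nat_lit 1) (nat_lit 200) (nat_lit 110) (nat_lit 200)) (PT.lf (nat_lit 4408) (nat_lit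 6) (nat_lit 58) (nat_lit 1) (nat_lit 201) (nat_lit 110) (nat_lit 199)))) (PT.nd (nat_lit 156) (PT.nd (nat_lit 78) (PT.lf (nat_lit 4560) (nat_lit 6) (nat_lit 60) (nat_lit 3) (nat_lit 198) (nat_lit 111) (nat_lit 201)) (PT.lf (nat_lit 4636) (nat_lit 6) (nat_lit 61) (nat_lit 3) (nat_lit 199) (nat_lit 111) (nat_lit 200))) (PT.nd (nat_lit 78) (PT.lf (nat_lit 4636) (nat_lit 6) (nat_lit 61) (nat_lit 1) (nat_lit 200) (nat_lit 111) (nat_lit 199)) (PT.nd (nat_lit 52806) (PT.lf (nat_lit 4560) (nat_lit 6) (nat_lit 60) (nat_lit 1) (nat_lit 201) (nat_lit 111) (nat_lit 198)) (PT.lf (nat_lit 4712) (nat_lit 6) (nat_lit 62) (nat_lit 3) (nat_lit 197) (nat_lit 112) (nat_lit 201))))))))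
noncomputable def pc3 : PT := (PT.nd (nat_lit 212238) (PT.nd (nat_lit 106080) (PT.nd (nat_lit 53040) (PT.nd (nat_lit 156) (PT.nd (nat_lit 78) (PT.lf (nat_lit 4788) (nat_lit 6) (nat_lit 63) (nat_lit 3) (nat_lit 198) (nat_lit 112) (nat_lit 200)) (PT.lf (nat_lit 4864) (nat_lit 3) (nat_lit 64) (nat_lit 1) (nat_lit 199) (nat_lit 112) (nat_lit 199))) (PT.nd (nat_lit 78) (PT.lf (nat_lit 4788) (nat_lit 6) (nat_lit 63) (nat_lit 1) (nat_lit 200) (nat_lit 112) (nat_lit 198)) (PT.lf (nat_lit 4712) (nat_lit 6) (nat_lit 62) (nat_lit 1) (nat_lit 201) (nat_lit 112) (nat_lit 197)))) (PT.nd (nat_lit 156) (PT.nd (nat_lit 78) (PT.lf (nat_lit 4940) (nat_lit 6) (nat_lit 65) (nat_lit 3) (nat_lit 197) (nat_lit 113) (nat_lit 200)) (PT.lf (nat_lit 5016) (nat_lit 6) (nat_lit 66) (nat_lit 3) (nat_lit 198) (nat_lit 113) (nat_lit 199))) (PT.nd (nat_lit 78) (PT.lf (nat_lit 5016) (nat_lit 6) (nat_lit 66) (nat_lit 1) (nat_lit 199) (nat_lit 113)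 (nat_lit 198)) (PT.lf (nat_lit 4940) (nat_lit 6) (nat_lit 65) (nat_lit 1) (nat_lit 200) (nat_lit 113) (nat_lit 197))))) (PT.nd (nat_lit 312) (PT.nd (nat_lit 156) (PT.nd (nat_lit 78) (PT.lf (nat_lit 5092) (nat_lit 6) (nat_lit 67) (nat_lit 3) (nat_lit 196) (nat_lit 114) (nat_lit 200)) (PT.lf (nat_lit 5168) (nat_lit 6) (nat_lit 68) (nat_lit 3) (nat_lit 197) (nat_lit 114) (nat_lit 199))) (PT.nd (nat_lit 78) (PT.lf (nat_lit 5244) (nat_lit 3) (nat_lit 69) (nat_lit 1) (nat_lit 198) (nat_lit 114) (nat_lit 198)) (PT.lf (nat_lit 5168) (nat_lit 6) (nat_lit 68) (nat_lit 1) (nat_lit 199) (nat_lit 114) (nat_lit 197)))) (PT.nd (nat_lit 52884) (PT.nd (nat_lit 52806) (PT.lf (nat_lit 5092) (nat_lit 6) (nat_lit 67) (nat_lit 1) (nat_lit 200) (nat_lit 114) (nat_lit 196)) (PT.lf (nat_lit 5320) (nat_lit 6) (nat_lit 70) (nat_lit 3) (nat_lit 196) (nat_lit 115) (nat_lit 199))) (PT.nd (nat_lit 78) (PT.lf (nat_lit 5396) (nat_lit 6) (nat_lit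 71) (nat_lit 3) (nat_lit 197) (nat_lit 115) (nat_lit 198)) (PT.nd (nat_lit 78) (PT.lf (nat_lit 5396) (nat_lit 6) (nat_lit 71) (nat_lit 1) (nat_lit 198) (nat_lit 115) (nat_lit 197)) (PT.lf (nat_lit 5320) (nat_lit 6) (nat_lit 70) (nat_lit 1) (nat_lit 199) (nat_lit 115) (nat_lit 196))))))) (PT.nd (nat_lit 106158) (PT.nd (nat_lit 312) (PT.nd (nat_lit 156) (PT.nd (nat_lit 78) (PT.lf (nat_lit 5472) (nat_lit 6) (nat_lit 72) (nat_lit 3) (nat_lit 195) (nat_lit 116) (nat_lit 199)) (PT.lf (nat_lit 5548) (nat_lit 6) (nat_lit 73) (nat_lit 3) (nat_lit 196) (nat_lit 116) (nat_lit 198))) (PT.nd (nat_lit 78) (PT.lf (nat_lit 5624) (nat_lit 3) (nat_lit 74) (nat_lit 1) (nat_lit 197) (nat_lit 116) (nat_lit 197)) (PT.lf (nat_lit 5548) (nat_lit 6) (nat_lit 73) (nat_lit 1) (nat_lit 198) (nat_lit 116) (nat_lit 196)))) (PT.nd (nat_lit 52884) (PT.nd (nat_lit 52806) (PT.lf (nat_lit 5472) (nat_lit 6) (nat_lit 72) (nat_lit 1) (nat_lit 199)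 (nat_lit 116) (nat_lit 195)) (PT.lf (nat_lit 5700) (nat_lit 6) (nat_lit 75) (nat_lit 3) (nat_lit 195) (nat_lit 117) (nat_lit 198))) (PT.nd (nat_lit 78) (PT.lf (nat_lit 5776) (nat_lit 6) (nat_lit 76) (nat_lit 3) (nat_lit 196) (nat_lit 117) (nat_lit 197)) (PT.nd (nat_lit 78) (PT.lf (nat_lit 5776) (nat_lit 6) (nat_lit 76) (nat_lit 1) (nat_lit 197) (nat_lit 117) (nat_lit 196)) (PT.lf (nat_lit 5700) (nat_lit 6) (nat_lit 75) (nat_lit 1) (nat_lit 198) (nat_lit 117) (nat_lit 195)))))) (PT.nd (nat_lit 312) (PT.nd (nat_lit 156) (PT.nd (nat_lit 78) (PT.lf (nat_lit 5852) (nat_lit 6) (nat_lit 77) (nat_lit 3) (nat_lit 194) (nat_lit 118) (nat_lit 198)) (PT.lf (nat_lit 5928) (nat_lit 6) (nat_lit 78) (nat_lit 3) (nat_lit 195) (nat_lit 118) (nat_lit 197))) (PT.nd (nat_lit 78) (PT.lf (nat_lit 6004) (nat_lit 3) (nat_lit 79) (nat_lit 1) (nat_lit 196) (nat_lit 118) (nat_lit 196)) (PT.lf (nat_lit 5928) (nat_lit 6) (nat_lit 78) (nat_lit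 1) (nat_lit 197) (nat_lit 118) (nat_lit 195)))) (PT.nd (nat_lit 52884) (PT.nd (nat_lit 52806) (PT.lf (nat_lit 5852) (nat_lit 6) (nat_lit 77) (nat_lit 1) (nat_lit 198) (nat_lit 118) (nat_lit 194)) (PT.lf (nat_lit 6080) (nat_lit 6) (nat_lit 80) (nat_lit 3) (nat_lit 194) (nat_lit 119) (nat_lit 197))) (PT.nd (nat_lit 78) (PT.lf (nat_lit 6156) (nat_lit 6) (nat_lit 81) (nat_lit 3) (nat_lit 195) (nat_lit 119) (nat_lit 196)) (PT.nd (nat_lit 78) (PT.lf (nat_lit 6156) (nat_lit 6) (nat_lit 81) (nat_lit 1) (nat_lit 196) (nat_lit 119) (nat_lit 195)) (PT.lf (nat_lit 6080) (nat_lit 6) (nat_lit 80) (nat_lit 1) (nat_lit 197) (nat_lit 119) (nat_lit 194))))))))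
noncomputable def pc4 : PT := (PT.nd (nat_lit 159276) (PT.nd (nat_lit 53274) (PT.nd (nat_lit 312) (PT.nd (nat_lit 156) (PT.nd (nat_lit 78) (PT.lf (nat_lit 6232) (nat_lit 6) (nat_lit 82) (nat_lit 3) (nat_lit 193) (nat_lit 120) (nat_lit 197)) (PT.lf (nat_lit 6308) (nat_lit 6) (nat_lit 83) (nat_lit 3) (nat_lit 194) (nat_lit 120) (nat_lit 196))) (PT.nd (nat_lit 78) (PT.lf (nat_lit 6384) (nat_lit 3) (nat_lit 84) (nat_lit 1) (nat_lit 195) (nat_lit 120) (nat_lit 195)) (PT.lf (nat_lit 6308) (nat_lit 6) (nat_lit 83) (nat_lit 1) (nat_lit 196) (nat_lit 120) (nat_lit 194)))) (PT.nd (nat_lit 52806) (PT.nd (nat_lit 52728) (PT.lf (nat_lit 6232) (nat_lit 6) (nat_lit 82) (nat_lit 1) (nat_lit 197) (nat_lit 120) (nat_lit 193)) (PT.lf (nat_lit 6460) (nat_lit 6) (nat_lit 85) (nat_lit 3) (nat_lit 192) (nat_lit 121) (nat_lit 197))) (PT.nd (nat_lit 78) (PT.lf (nat_lit 6536) (nat_lit 6) (nat_lit 86) (nat_lit 3) (nat_lit 193) (nat_lit 121)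 (nat_lit 196)) (PT.lf (nat_lit 6612) (nat_lit 6) (nat_lit 87) (nat_lit 3) (nat_lit 194) (nat_lit 121) (nat_lit 195))))) (PT.nd (nat_lit 52962) (PT.nd (nat_lit 156) (PT.nd (nat_lit 78) (PT.lf (nat_lit 6612) (nat_lit 6) (nat_lit 87) (nat_lit 1) (nat_lit 195) (nat_lit 121) (nat_lit 194)) (PT.lf (nat_lit 6536) (nat_lit 6) (nat_lit 86) (nat_lit 1) (nat_lit 196) (nat_lit 121) (nat_lit 193))) (PT.nd (nat_lit 52728) (PT.lf (nat_lit 6460) (nat_lit 6) (nat_lit 85) (nat_lit 1) (nat_lit 197) (nat_lit 121) (nat_lit 192)) (PT.lf (nat_lit 6688) (nat_lit 6) (nat_lit 88) (nat_lit 3) (nat_lit 192) (nat_lit 122) (nat_lit 196)))) (PT.nd (nat_lit 156) (PT.nd (nat_lit 78) (PT.lf (nat_lit 6764) (nat_lit 6) (nat_lit 89) (nat_lit 3) (nat_lit 193) (nat_lit 122) (nat_lit 195)) (PT.lf (nat_lit 6840) (nat_lit 3) (nat_lit 90) (nat_lit 1) (nat_lit 194) (nat_lit 122) (nat_lit 194))) (PT.nd (nat_lit 78) (PT.lf (nat_lit 6764) (nat_lit 6) (nat_lit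 89) (nat_lit 1) (nat_lit 195) (nat_lit 122) (nat_lit 193)) (PT.nd (nat_lit 52728) (PT.lf (nat_lit 6688) (nat_lit 6) (nat_lit 88) (nat_lit 1) (nat_lit 196) (nat_lit 122) (nat_lit 192)) (PT.lf (nat_lit 6916) (nat_lit 6) (nat_lit 91) (nat_lit 3) (nat_lit 191) (nat_lit 123) (nat_lit 196))))))) (PT.nd (nat_lit 53352) (PT.nd (nat_lit 312) (PT.nd (nat_lit 156) (PT.nd (nat_lit 78) (PT.lf (nat_lit 6992) (nat_lit 6) (nat_lit 92) (nat_lit 3) (nat_lit 192) (nat_lit 123) (nat_lit 195)) (PT.lf (nat_lit 7068) (nat_lit 6) (nat_lit 93) (nat_lit 3) (nat_lit 193) (nat_lit 123) (nat_lit 194))) (PT.nd (nat_lit 78) (PT.lf (nat_lit 7068) (nat_lit 6) (nat_lit 93) (nat_lit 1) (nat_lit 194) (nat_lit 123) (nat_lit 193)) (PT.lf (nat_lit 6992) (nat_lit 6) (nat_lit 92) (nat_lit 1) (nat_lit 195) (nat_lit 123) (nat_lit 192)))) (PT.nd (nat_lit 52806) (PT.nd (nat_lit 52728) (PT.lf (nat_lit 6916) (nat_lit 6) (nat_lit 91) (nat_lit 1) (nat_lit 196)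 (nat_lit 123) (nat_lit 191)) (PT.lf (nat_lit 7144) (nat_lit 6) (nat_lit 94) (nat_lit 3) (nat_lit 191) (nat_lit 124) (nat_lit 195))) (PT.nd (nat_lit 78) (PT.lf (nat_lit 7220) (nat_lit 6) (nat_lit 95) (nat_lit 3) (nat_lit 192) (nat_lit 124) (nat_lit 194)) (PT.nd (nat_lit 78) (PT.lf (nat_lit 7296) (nat_lit 3) (nat_lit 96) (nat_lit 1) (nat_lit 193) (nat_lit 124) (nat_lit 193)) (PT.lf (nat_lit 7220) (nat_lit 6) (nat_lit 95) (nat_lit 1) (nat_lit 194) (nat_lit 124) (nat_lit 192)))))) (PT.nd (nat_lit 52962) (PT.nd (nat_lit 52806) (PT.nd (nat_lit 52728) (PT.lf (nat_lit 7144) (nat_lit 6) (nat_lit 94) (nat_lit 1) (nat_lit 195) (nat_lit 124) (nat_lit 191)) (PT.lf (nat_lit 7372) (nat_lit 6) (nat_lit 97) (nat_lit 3) (nat_lit 190) (nat_lit 125) (nat_lit 195))) (PT.nd (nat_lit 78) (PT.lf (nat_lit 7448) (nat_lit 6) (nat_lit 98) (nat_lit 3) (nat_lit 191) (nat_lit 125) (nat_lit 194)) (PT.lf (nat_lit 7524) (nat_lit 6) (nat_lit 99)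 (nat_lit 3) (nat_lit 192) (nat_lit 125) (nat_lit 193)))) (PT.nd (nat_lit 156) (PT.nd (nat_lit 78) (PT.lf (nat_lit 7524) (nat_lit 6) (nat_lit 99) (nat_lit 1) (nat_lit 193) (nat_lit 125) (nat_lit 192)) (PT.lf (nat_lit 7448) (nat_lit 6) (nat_lit 98) (nat_lit 1) (nat_lit 194) (nat_lit 125) (nat_lit 191))) (PT.nd (nat_lit 52650) (PT.lf (nat_lit 7372) (nat_lit 6) (nat_lit 97) (nat_lit 1) (nat_lit 195) (nat_lit 125) (nat_lit 190)) (PT.nd (nat_lit 78) (PT.lf (nat_lit 7600) (nat_lit 6) (nat_lit 100) (nat_lit 3) (nat_lit 189) (nat_lit 126) (nat_lit 195)) (PT.lf (nat_lit 7676) (nat_lit 6) (nat_lit 101) (nat_lit 3) (nat_lit 190) (nat_lit 126) (nat_lit 194))))))))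
noncomputable def pc5 : PT := (PT.nd (nat_lit 106470) (PT.nd (nat_lit 53196) (PT.nd (nat_lit 312) (PT.nd (nat_lit 156) (PT.nd (nat_lit 78) (PT.lf (nat_lit 7752) (nat_lit 6) (nat_lit 102) (nat_lit 3) (nat_lit 191) (nat_lit 126) (nat_lit 193)) (PT.lf (nat_lit 7828) (nat_lit 3) (nat_lit 103) (nat_lit 1) (nat_lit 192) (nat_lit 126) (nat_lit 192))) (PT.nd (nat_lit 78) (PT.lf (nat_lit 7752) (nat_lit 6) (nat_lit 102) (nat_lit 1) (nat_lit 193) (nat_lit 126) (nat_lit 191)) (PT.lf (nat_lit 7676) (nat_lit 6) (nat_lit 101) (nat_lit 1) (nat_lit 194) (nat_lit 126) (nat_lit 190)))) (PT.nd (nat_lit 52728) (PT.nd (nat_lit 52650) (PT.lf (nat_lit 7600) (nat_lit 6) (nat_lit 100) (nat_lit 1) (nat_lit 195) (nat_lit 126) (nat_lit 189)) (PT.lf (nat_lit 7904) (nat_lit 6) (nat_lit 104) (nat_lit 3) (nat_lit 189) (nat_lit 127) (nat_lit 194))) (PT.nd (nat_lit 78) (PT.lf (nat_lit 7980) (nat_lit 6) (nat_lit 105) (nat_lit 3) (nat_lit 190) (nat_lit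 127) (nat_lit 193)) (PT.lf (nat_lit 8056) (nat_lit 6) (nat_lit 106) (nat_lit 3) (nat_lit 191) (nat_lit 127) (nat_lit 192))))) (PT.nd (nat_lit 52884) (PT.nd (nat_lit 156) (PT.nd (nat_lit 78) (PT.lf (nat_lit 8056) (nat_lit 6) (nat_lit 106) (nat_lit 1) (nat_lit 192) (nat_lit 127) (nat_lit 191)) (PT.lf (nat_lit 7980) (nat_lit 6) (nat_lit 105) (nat_lit 1) (nat_lit 193) (nat_lit 127) (nat_lit 190))) (PT.nd (nat_lit 52650) (PT.lf (nat_lit 7904) (nat_lit 6) (nat_lit 104) (nat_lit 1) (nat_lit 194) (nat_lit 127) (nat_lit 189)) (PT.lf (nat_lit 8132) (nat_lit 6) (nat_lit 107) (nat_lit 3) (nat_lit 188) (nat_lit 128) (nat_lit 194)))) (PT.nd (nat_lit 156) (PT.nd (nat_lit 78) (PT.lf (nat_lit 8208) (nat_lit 6) (nat_lit 108) (nat_lit 3) (nat_lit 189) (nat_lit 128) (nat_lit 193)) (PT.lf (nat_lit 8284) (nat_lit 6) (nat_lit 109) (nat_lit 3) (nat_lit 190) (nat_lit 128) (nat_lit 192))) (PT.nd (nat_lit 78) (PT.lf (nat_lit 8360) (nat_lit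 3) (nat_lit 110) (nat_lit 1) (nat_lit 191) (nat_lit 128) (nat_lit 191)) (PT.nd (nat_lit 78) (PT.lf (nat_lit 8284) (nat_lit 6) (nat_lit 109) (nat_lit 1) (nat_lit 192) (nat_lit 128) (nat_lit 190)) (PT.lf (nat_lit 8208) (nat_lit 6) (nat_lit 108) (nat_lit 1) (nat_lit 193) (nat_lit 128) (nat_lit 189))))))) (PT.nd (nat_lit 105846) (PT.nd (nat_lit 52884) (PT.nd (nat_lit 52728) (PT.nd (nat_lit 52650) (PT.lf (nat_lit 8132) (nat_lit 6) (nat_lit 107) (nat_lit 1) (nat_lit 194) (nat_lit 128) (nat_lit 188)) (PT.lf (nat_lit 8436) (nat_lit 6) (nat_lit 111) (nat_lit 3) (nat_lit 188) (nat_lit 129) (nat_lit 193))) (PT.nd (nat_lit 78) (PT.lf (nat_lit 8512) (nat_lit 6) (nat_lit 112) (nat_lit 3) (nat_lit 189) (nat_lit 129) (nat_lit 192)) (PT.lf (nat_lit 8588) (nat_lit 6) (nat_lit 113) (nat_lit 3) (nat_lit 190) (nat_lit 129) (nat_lit 191)))) (PT.nd (nat_lit 156) (PT.nd (nat_lit 78) (PT.lf (nat_lit 8588) (nat_lit 6) (nat_lit 113) (nat_lit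 1) (nat_lit 191) (nat_lit 129) (nat_lit 190)) (PT.lf (nat_lit 8512) (nat_lit 6) (nat_lit 112) (nat_lit 1) (nat_lit 192) (nat_lit 129) (nat_lit 189))) (PT.nd (nat_lit 52650) (PT.lf (nat_lit 8436) (nat_lit 6) (nat_lit 111) (nat_lit 1) (nat_lit 193) (nat_lit 129) (nat_lit 188)) (PT.nd (nat_lit 78) (PT.lf (nat_lit 8664) (nat_lit 6) (nat_lit 114) (nat_lit 3) (nat_lit 187) (nat_lit 130) (nat_lit 193)) (PT.lf (nat_lit 8740) (nat_lit 6) (nat_lit 115) (nat_lit 3) (nat_lit 188) (nat_lit 130) (nat_lit 192)))))) (PT.nd (nat_lit 312) (PT.nd (nat_lit 156) (PT.nd (nat_lit 78) (PT.lf (nat_lit 8816) (nat_lit 6) (nat_lit 116) (nat_lit 3) (nat_lit 189) (nat_lit 130) (nat_lit 191)) (PT.lf (nat_lit 8892) (nat_lit 3) (nat_lit 117) (nat_lit 1) (nat_lit 190) (nat_lit 130) (nat_lit 190))) (PT.nd (nat_lit 78) (PT.lf (nat_lit 8816) (nat_lit 6) (nat_lit 116) (nat_lit 1) (nat_lit 191) (nat_lit 130) (nat_lit 189)) (PT.lf (nat_lit 8740) (nat_lit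 6) (nat_lit 115) (nat_lit 1) (nat_lit 192) (nat_lit 130) (nat_lit 188)))) (PT.nd (nat_lit 52650) (PT.nd (nat_lit 52572) (PT.lf (nat_lit 8664) (nat_lit 6) (nat_lit 114) (nat_lit 1) (nat_lit 193) (nat_lit 130) (nat_lit 187)) (PT.lf (nat_lit 8968) (nat_lit 6) (nat_lit 118) (nat_lit 3) (nat_lit 186) (nat_lit 131) (nat_lit 193))) (PT.nd (nat_lit 78) (PT.lf (nat_lit 9044) (nat_lit 6) (nat_lit 119) (nat_lit 3) (nat_lit 187) (nat_lit 131) (nat_lit 192)) (PT.nd (nat_lit 78) (PT.lf (nat_lit 9120) (nat_lit 6) (nat_lit 120) (nat_lit 3) (nat_lit 188) (nat_lit 131) (nat_lit 191)) (PT.lf (nat_lit 9196) (nat_lit 6) (nat_lit 121) (nat_lit 3) (nat_lit 189) (nat_lit 131) (nat_lit 190))))))))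
noncomputable def pc6 : PT := (PT.nd (nat_lit 106314) (PT.nd (nat_lit 53118) (PT.nd (nat_lit 52806) (PT.nd (nat_lit 156) (PT.nd (nat_lit 78) (PT.lf (nat_lit 9196) (nat_lit 6) (nat_lit 121) (nat_lit 1) (nat_lit 190) (nat_lit 131) (nat_lit 189)) (PT.lf (nat_lit 9120) (nat_lit 6) (nat_lit 120) (nat_lit 1) (nat_lit 191) (nat_lit 131) (nat_lit 188))) (PT.nd (nat_lit 78) (PT.lf (nat_lit 9044) (nat_lit 6) (nat_lit 119) (nat_lit 1) (nat_lit 192) (nat_lit 131) (nat_lit 187)) (PT.lf (nat_lit 8968) (nat_lit 6) (nat_lit 118) (nat_lit 1) (nat_lit 193) (nat_lit 131) (nat_lit 186)))) (PT.nd (nat_lit 156) (PT.nd (nat_lit 78) (PT.lf (nat_lit 9272) (nat_lit 6) (nat_lit 122) (nat_lit 3) (nat_lit 186) (nat_lit 132) (nat_lit 192)) (PT.lf (nat_lit 9348) (nat_lit 6) (nat_lit 123) (nat_lit 3) (nat_lit 187) (nat_lit 132) (nat_lit 191))) (PT.nd (nat_lit 78) (PT.lf (nat_lit 9424) (nat_lit 6) (nat_lit 124) (nat_lit 3) (nat_lit 188) (nat_lit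 132) (nat_lit 190)) (PT.lf (nat_lit 9500) (nat_lit 3) (nat_lit 125) (nat_lit 1) (nat_lit 189) (nat_lit 132) (nat_lit 189))))) (PT.nd (nat_lit 52806) (PT.nd (nat_lit 156) (PT.nd (nat_lit 78) (PT.lf (nat_lit 9424) (nat_lit 6) (nat_lit 124) (nat_lit 1) (nat_lit 190) (nat_lit 132) (nat_lit 188)) (PT.lf (nat_lit 9348) (nat_lit 6) (nat_lit 123) (nat_lit 1) (nat_lit 191) (nat_lit 132) (nat_lit 187))) (PT.nd (nat_lit 52572) (PT.lf (nat_lit 9272) (nat_lit 6) (nat_lit 122) (nat_lit 1) (nat_lit 192) (nat_lit 132) (nat_lit 186)) (PT.lf (nat_lit 9576) (nat_lit 6) (nat_lit 126) (nat_lit 3) (nat_lit 185) (nat_lit 133) (nat_lit 192)))) (PT.nd (nat_lit 156) (PT.nd (nat_lit 78) (PT.lf (nat_lit 9652) (nat_lit 6) (nat_lit 127) (nat_lit 3) (nat_lit 186) (nat_lit 133) (nat_lit 191)) (PT.lf (nat_lit 9728) (nat_lit 6) (nat_lit 128) (nat_lit 3) (nat_lit 187) (nat_lit 133) (nat_lit 190))) (PT.nd (nat_lit 78) (PT.lf (nat_lit 9804) (nat_lit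 6) (nat_lit 129) (nat_lit 3) (nat_lit 188) (nat_lit 133) (nat_lit 189)) (PT.nd (nat_lit 78) (PT.lf (nat_lit 9804) (nat_lit 6) (nat_lit 129) (nat_lit 1) (nat_lit 189) (nat_lit 133) (nat_lit 188)) (PT.lf (nat_lit 9728) (nat_lit 6) (nat_lit 128) (nat_lit 1) (nat_lit 190) (nat_lit 133) (nat_lit 187))))))) (PT.nd (nat_lit 53118) (PT.nd (nat_lit 52728) (PT.nd (nat_lit 52572) (PT.nd (nat_lit 78) (PT.lf (nat_lit 9652) (nat_lit 6) (nat_lit 127) (nat_lit 1) (nat_lit 191) (nat_lit 133) (nat_lit 186)) (PT.lf (nat_lit 9576) (nat_lit 6) (nat_lit 126) (nat_lit 1) (nat_lit 192) (nat_lit 133) (nat_lit 185))) (PT.nd (nat_lit 78) (PT.lf (nat_lit 9880) (nat_lit 6) (nat_lit 130) (nat_lit 3) (nat_lit 184) (nat_lit 134) (nat_lit 192)) (PT.lf (nat_lit 9956) (nat_lit 6) (nat_lit 131) (nat_lit 3) (nat_lit 185) (nat_lit 134) (nat_lit 191)))) (PT.nd (nat_lit 156) (PT.nd (nat_lit 78) (PT.lf (nat_lit 10032) (nat_lit 6) (nat_lit 132) (nat_lit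 3) (nat_lit 186) (nat_lit 134) (nat_lit 190)) (PT.lf (nat_lit 10108) (nat_lit 6) (nat_lit 133) (nat_lit 3) (nat_lit 187) (nat_lit 134) (nat_lit 189))) (PT.nd (nat_lit 78) (PT.lf (nat_lit 10184) (nat_lit 3) (nat_lit 134) (nat_lit 1) (nat_lit 188) (nat_lit 134) (nat_lit 188)) (PT.nd (nat_lit 78) (PT.lf (nat_lit 10108) (nat_lit 6) (nat_lit 133) (nat_lit 1) (nat_lit 189) (nat_lit 134) (nat_lit 187)) (PT.lf (nat_lit 10032) (nat_lit 6) (nat_lit 132) (nat_lit 1) (nat_lit 190) (nat_lit 134) (nat_lit 186)))))) (PT.nd (nat_lit 52728) (PT.nd (nat_lit 52572) (PT.nd (nat_lit 78) (PT.lf (nat_lit 9956) (nat_lit 6) (nat_lit 131) (nat_lit 1) (nat_lit 191) (nat_lit 134) (nat_lit 185)) (PT.lf (nat_lit 9880) (nat_lit 6) (nat_lit 130) (nat_lit 1) (nat_lit 192) (nat_lit 134) (nat_lit 184))) (PT.nd (nat_lit 78) (PT.lf (nat_lit 10260) (nat_lit 6) (nat_lit 135) (nat_lit 3) (nat_lit 184) (nat_lit 135) (nat_lit 191)) (PT.lf (nat_lit 10336)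 (nat_lit 6) (nat_lit 136) (nat_lit 3) (nat_lit 185) (nat_lit 135) (nat_lit 190)))) (PT.nd (nat_lit 156) (PT.nd (nat_lit 78) (PT.lf (nat_lit 10412) (nat_lit 6) (nat_lit 137) (nat_lit 3) (nat_lit 186) (nat_lit 135) (nat_lit 189)) (PT.lf (nat_lit 10488) (nat_lit 6) (nat_lit 138) (nat_lit 3) (nat_lit 187) (nat_lit 135) (nat_lit 188))) (PT.nd (nat_lit 78) (PT.lf (nat_lit 10488) (nat_lit 6) (nat_lit 138) (nat_lit 1) (nat_lit 188) (nat_lit 135) (nat_lit 187)) (PT.nd (nat_lit 78) (PT.lf (nat_lit 10412) (nat_lit 6) (nat_lit 137) (nat_lit 1) (nat_lit 189) (nat_lit 135) (nat_lit 186)) (PT.lf (nat_lit 10336) (nat_lit 6) (nat_lit 136) (nat_lit 1) (nat_lit 190) (nat_lit 135) (nat_lit 185))))))))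
noncomputable def pc7 : PT := (PT.nd (nat_lit 106080) (PT.nd (nat_lit 53040) (PT.nd (nat_lit 52728) (PT.nd (nat_lit 52572) (PT.nd (nat_lit 52494) (PT.lf (nat_lit 10260) (nat_lit 6) (nat_lit 135) (nat_lit 1) (nat_lit 191) (nat_lit 135) (nat_lit 184)) (PT.lf (nat_lit 10564) (nat_lit 6) (nat_lit 139) (nat_lit 3) (nat_lit 183) (nat_lit 136) (nat_lit 191))) (PT.nd (nat_lit 78) (PT.lf (nat_lit 10640) (nat_lit 6) (nat_lit 140) (nat_lit 3) (nat_lit 184) (nat_lit 136) (nat_lit 190)) (PT.lf (nat_lit 10716) (nat_lit 6) (nat_lit 141) (nat_lit 3) (nat_lit 185) (nat_lit 136) (nat_lit 189)))) (PT.nd (nat_lit 156) (PT.nd (nat_lit 78) (PT.lf (nat_lit 10792) (nat_lit 6) (nat_lit 142) (nat_lit 3) (nat_lit 186) (nat_lit 136) (nat_lit 188)) (PT.lf (nat_lit 10868) (nat_lit 3) (nat_lit 143) (nat_lit 1) (nat_lit 187) (nat_lit 136) (nat_lit 187))) (PT.nd (nat_lit 78) (PT.lf (nat_lit 10792) (nat_lit 6) (nat_lit 142) (nat_lit 1) (nat_lit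 188) (nat_lit 136) (nat_lit 186)) (PT.lf (nat_lit 10716) (nat_lit 6) (nat_lit 141) (nat_lit 1) (nat_lit 189) (nat_lit 136) (nat_lit 185))))) (PT.nd (nat_lit 52650) (PT.nd (nat_lit 52494) (PT.nd (nat_lit 78) (PT.lf (nat_lit 10640) (nat_lit 6) (nat_lit 140) (nat_lit 1) (nat_lit 190) (nat_lit 136) (nat_lit 184)) (PT.lf (nat_lit 10564) (nat_lit 6) (nat_lit 139) (nat_lit 1) (nat_lit 191) (nat_lit 136) (nat_lit 183))) (PT.nd (nat_lit 78) (PT.lf (nat_lit 10944) (nat_lit 6) (nat_lit 144) (nat_lit 3) (nat_lit 182) (nat_lit 137) (nat_lit 191)) (PT.lf (nat_lit 11020) (nat_lit 6) (nat_lit 145) (nat_lit 3) (nat_lit 183) (nat_lit 137) (nat_lit 190)))) (PT.nd (nat_lit 156) (PT.nd (nat_lit 78) (PT.lf (nat_lit 11096) (nat_lit 6) (nat_lit 146) (nat_lit 3) (nat_lit 184) (nat_lit 137) (nat_lit 189)) (PT.lf (nat_lit 11172) (nat_lit 6) (nat_lit 147) (nat_lit 3) (nat_lit 185) (nat_lit 137) (nat_lit 188))) (PT.nd (nat_lit 78) (PT.lf (nat_lit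 11248) (nat_lit 6) (nat_lit 148) (nat_lit 3) (nat_lit 186) (nat_lit 137) (nat_lit 187)) (PT.nd (nat_lit 78) (PT.lf (nat_lit 11248) (nat_lit 6) (nat_lit 148) (nat_lit 1) (nat_lit 187) (nat_lit 137) (nat_lit 186)) (PT.lf (nat_lit 11172) (nat_lit 6) (nat_lit 147) (nat_lit 1) (nat_lit 188) (nat_lit 137) (nat_lit 185))))))) (PT.nd (nat_lit 53040) (PT.nd (nat_lit 52650) (PT.nd (nat_lit 156) (PT.nd (nat_lit 78) (PT.lf (nat_lit 11096) (nat_lit 6) (nat_lit 146) (nat_lit 1) (nat_lit 189) (nat_lit 137) (nat_lit 184)) (PT.lf (nat_lit 11020) (nat_lit 6) (nat_lit 145) (nat_lit 1) (nat_lit 190) (nat_lit 137) (nat_lit 183))) (PT.nd (nat_lit 52416) (PT.lf (nat_lit 10944) (nat_lit 6) (nat_lit 144) (nat_lit 1) (nat_lit 191) (nat_lit 137) (nat_lit 182)) (PT.lf (nat_lit 11324) (nat_lit 6) (nat_lit 149) (nat_lit 3) (nat_lit 182) (nat_lit 138) (nat_lit 190)))) (PT.nd (nat_lit 156) (PT.nd (nat_lit 78) (PT.lf (nat_lit 11400) (nat_lit 6)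 (nat_lit 150) (nat_lit 3) (nat_lit 183) (nat_lit 138) (nat_lit 189)) (PT.lf (nat_lit 11476) (nat_lit 6) (nat_lit 151) (nat_lit 3) (nat_lit 184) (nat_lit 138) (nat_lit 188))) (PT.nd (nat_lit 78) (PT.lf (nat_lit 11552) (nat_lit 6) (nat_lit 152) (nat_lit 3) (nat_lit 185) (nat_lit 138) (nat_lit 187)) (PT.nd (nat_lit 78) (PT.lf (nat_lit 11628) (nat_lit 3) (nat_lit 153) (nat_lit 1) (nat_lit 186) (nat_lit 138) (nat_lit 186)) (PT.lf (nat_lit 11552) (nat_lit 6) (nat_lit 152) (nat_lit 1) (nat_lit 187) (nat_lit 138) (nat_lit 185)))))) (PT.nd (nat_lit 52650) (PT.nd (nat_lit 156) (PT.nd (nat_lit 78) (PT.lf (nat_lit 11476) (nat_lit 6) (nat_lit 151) (nat_lit 1) (nat_lit 188) (nat_lit 138) (nat_lit 184)) (PT.lf (nat_lit 11400) (nat_lit 6) (nat_lit 150) (nat_lit 1) (nat_lit 189) (nat_lit 138) (nat_lit 183))) (PT.nd (nat_lit 52416) (PT.lf (nat_lit 11324) (nat_lit 6) (nat_lit 149) (nat_lit 1) (nat_lit 190) (nat_lit 138) (nat_lit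 182)) (PT.lf (nat_lit 11704) (nat_lit 6) (nat_lit 154) (nat_lit 3) (nat_lit 181) (nat_lit 139) (nat_lit 190)))) (PT.nd (nat_lit 156) (PT.nd (nat_lit 78) (PT.lf (nat_lit 11780) (nat_lit 6) (nat_lit 155) (nat_lit 3) (nat_lit 182) (nat_lit 139) (nat_lit 189)) (PT.lf (nat_lit 11856) (nat_lit 6) (nat_lit 156) (nat_lit 3) (nat_lit 183) (nat_lit 139) (nat_lit 188))) (PT.nd (nat_lit 78) (PT.lf (nat_lit 11932) (nat_lit 6) (nat_lit 157) (nat_lit 3) (nat_lit 184) (nat_lit 139) (nat_lit 187)) (PT.nd (nat_lit 78) (PT.lf (nat_lit 12008) (nat_lit 6) (nat_lit 158) (nat_lit 3) (nat_lit 185) (nat_lit 139) (nat_lit 186)) (PT.lf (nat_lit 12008) (nat_lit 6) (nat_lit 158) (nat_lit 1) (nat_lit 186) (nat_lit 139) (nat_lit 185))))))))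
noncomputable def pc8 : PT := (PT.nd (nat_lit 105846) (PT.nd (nat_lit 52884) (PT.nd (nat_lit 52572) (PT.nd (nat_lit 156) (PT.nd (nat_lit 78) (PT.lf (nat_lit 11932) (nat_lit 6) (nat_lit 157) (nat_lit 1) (nat_lit 187) (nat_lit 139) (nat_lit 184)) (PT.lf (nat_lit 11856) (nat_lit 6) (nat_lit 156) (nat_lit 1) (nat_lit 188) (nat_lit 139) (nat_lit 183))) (PT.nd (nat_lit 78) (PT.lf (nat_lit 11780) (nat_lit 6) (nat_lit 155) (nat_lit 1) (nat_lit 189) (nat_lit 139) (nat_lit 182)) (PT.lf (nat_lit 11704) (nat_lit 6) (nat_lit 154) (nat_lit 1) (nat_lit 190) (nat_lit 139) (nat_lit 181)))) (PT.nd (nat_lit 156) (PT.nd (nat_lit 78) (PT.lf (nat_lit 12084) (nat_lit 6) (nat_lit 159) (nat_lit 3) (nat_lit 180) (nat_lit 140) (nat_lit 190)) (PT.lf (nat_lit 12160) (nat_lit 6) (nat_lit 160) (nat_lit 3) (nat_lit 181) (nat_lit 140) (nat_lit 189))) (PT.nd (nat_lit 78) (PT.lf (nat_lit 12236) (nat_lit 6) (nat_lit 161) (nat_lit 3) (nat_lit 182)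 (nat_lit 140) (nat_lit 188)) (PT.lf (nat_lit 12312) (nat_lit 6) (nat_lit 162) (nat_lit 3) (nat_lit 183) (nat_lit 140) (nat_lit 187))))) (PT.nd (nat_lit 312) (PT.nd (nat_lit 156) (PT.nd (nat_lit 78) (PT.lf (nat_lit 12388) (nat_lit 6) (nat_lit 163) (nat_lit 3) (nat_lit 184) (nat_lit 140) (nat_lit 186)) (PT.lf (nat_lit 12464) (nat_lit 3) (nat_lit 164) (nat_lit 1) (nat_lit 185) (nat_lit 140) (nat_lit 185))) (PT.nd (nat_lit 78) (PT.lf (nat_lit 12388) (nat_lit 6) (nat_lit 163) (nat_lit 1) (nat_lit 186) (nat_lit 140) (nat_lit 184)) (PT.lf (nat_lit 12312) (nat_lit 6) (nat_lit 162) (nat_lit 1) (nat_lit 187) (nat_lit 140) (nat_lit 183)))) (PT.nd (nat_lit 156) (PT.nd (nat_lit 78) (PT.lf (nat_lit 12236) (nat_lit 6) (nat_lit 161) (nat_lit 1) (nat_lit 188) (nat_lit 140) (nat_lit 182)) (PT.lf (nat_lit 12160) (nat_lit 6) (nat_lit 160) (nat_lit 1) (nat_lit 189) (nat_lit 140) (nat_lit 181))) (PT.nd (nat_lit 52338) (PT.lf (nat_lit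 12084) (nat_lit 6) (nat_lit 159) (nat_lit 1) (nat_lit 190) (nat_lit 140) (nat_lit 180)) (PT.nd (nat_lit 78) (PT.lf (nat_lit 12540) (nat_lit 6) (nat_lit 165) (nat_lit 3) (nat_lit 180) (nat_lit 141) (nat_lit 189)) (PT.lf (nat_lit 12616) (nat_lit 6) (nat_lit 166) (nat_lit 3) (nat_lit 181) (nat_lit 141) (nat_lit 188))))))) (PT.nd (nat_lit 52884) (PT.nd (nat_lit 312) (PT.nd (nat_lit 156) (PT.nd (nat_lit 78) (PT.lf (nat_lit 12692) (nat_lit 6) (nat_lit 167) (nat_lit 3) (nat_lit 182) (nat_lit 141) (nat_lit 187)) (PT.lf (nat_lit 12768) (nat_lit 6) (nat_lit 168) (nat_lit 3) (nat_lit 183) (nat_lit 141) (nat_lit 186))) (PT.nd (nat_lit 78) (PT.lf (nat_lit 12844) (nat_lit 6) (nat_lit 169) (nat_lit 3) (nat_lit 184) (nat_lit 141) (nat_lit 185)) (PT.lf (nat_lit 12844) (nat_lit 6) (nat_lit 169) (nat_lit 1) (nat_lit 185) (nat_lit 141) (nat_lit 184)))) (PT.nd (nat_lit 156) (PT.nd (nat_lit 78) (PT.lf (nat_lit 12768) (nat_lit 6) (nat_lit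 168) (nat_lit 1) (nat_lit 186) (nat_lit 141) (nat_lit 183)) (PT.lf (nat_lit 12692) (nat_lit 6) (nat_lit 167) (nat_lit 1) (nat_lit 187) (nat_lit 141) (nat_lit 182))) (PT.nd (nat_lit 78) (PT.lf (nat_lit 12616) (nat_lit 6) (nat_lit 166) (nat_lit 1) (nat_lit 188) (nat_lit 141) (nat_lit 181)) (PT.lf (nat_lit 12540) (nat_lit 6) (nat_lit 165) (nat_lit 1) (nat_lit 189) (nat_lit 141) (nat_lit 180))))) (PT.nd (nat_lit 312) (PT.nd (nat_lit 156) (PT.nd (nat_lit 78) (PT.lf (nat_lit 12920) (nat_lit 6) (nat_lit 170) (nat_lit 3) (nat_lit 179) (nat_lit 142) (nat_lit 189)) (PT.lf (nat_lit 12996) (nat_lit 6) (nat_lit 171) (nat_lit 3) (nat_lit 180) (nat_lit 142) (nat_lit 188))) (PT.nd (nat_lit 78) (PT.lf (nat_lit 13072) (nat_lit 6) (nat_lit 172) (nat_lit 3) (nat_lit 181) (nat_lit 142) (nat_lit 187)) (PT.lf (nat_lit 13148) (nat_lit 6) (nat_lit 173) (nat_lit 3) (nat_lit 182) (nat_lit 142) (nat_lit 186)))) (PT.nd (nat_lit 156) (PT.nd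 (nat_lit 78) (PT.lf (nat_lit 13224) (nat_lit 6) (nat_lit 174) (nat_lit 3) (nat_lit 183) (nat_lit 142) (nat_lit 185)) (PT.lf (nat_lit 13300) (nat_lit 3) (nat_lit 175) (nat_lit 1) (nat_lit 184) (nat_lit 142) (nat_lit 184))) (PT.nd (nat_lit 78) (PT.lf (nat_lit 13224) (nat_lit 6) (nat_lit 174) (nat_lit 1) (nat_lit 185) (nat_lit 142) (nat_lit 183)) (PT.nd (nat_lit 78) (PT.lf (nat_lit 13148) (nat_lit 6) (nat_lit 173) (nat_lit 1) (nat_lit 186) (nat_lit 142) (nat_lit 182)) (PT.lf (nat_lit 13072) (nat_lit 6) (nat_lit 172) (nat_lit 1) (nat_lit 187) (nat_lit 142) (nat_lit 181))))))))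
noncomputable def pc9 : PT := (PT.nd (nat_lit 105612) (PT.nd (nat_lit 52806) (PT.nd (nat_lit 52494) (PT.nd (nat_lit 52338) (PT.nd (nat_lit 78) (PT.lf (nat_lit 12996) (nat_lit 6) (nat_lit 171) (nat_lit 1) (nat_lit 188) (nat_lit 142) (nat_lit 180)) (PT.lf (nat_lit 12920) (nat_lit 6) (nat_lit 170) (nat_lit 1) (nat_lit 189) (nat_lit 142) (nat_lit 179))) (PT.nd (nat_lit 78) (PT.lf (nat_lit 13376) (nat_lit 6) (nat_lit 176) (nat_lit 3) (nat_lit 178) (nat_lit 143) (nat_lit 189)) (PT.lf (nat_lit 13452) (nat_lit 6) (nat_lit 177) (nat_lit 3) (nat_lit 179) (nat_lit 143) (nat_lit 188)))) (PT.nd (nat_lit 156) (PT.nd (nat_lit 78) (PT.lf (nat_lit 13528) (nat_lit 6) (nat_lit 178) (nat_lit 3) (nat_lit 180) (nat_lit 143) (nat_lit 187)) (PT.lf (nat_lit 13604) (nat_lit 6) (nat_lit 179) (nat_lit 3) (nat_lit 181) (nat_lit 143) (nat_lit 186))) (PT.nd (nat_lit 78) (PT.lf (nat_lit 13680) (nat_lit 6) (nat_lit 180) (nat_lit 3) (nat_lit 182)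 (nat_lit 143) (nat_lit 185)) (PT.lf (nat_lit 13756) (nat_lit 6) (nat_lit 181) (nat_lit 3) (nat_lit 183) (nat_lit 143) (nat_lit 184))))) (PT.nd (nat_lit 312) (PT.nd (nat_lit 156) (PT.nd (nat_lit 78) (PT.lf (nat_lit 13756) (nat_lit 6) (nat_lit 181) (nat_lit 1) (nat_lit 184) (nat_lit 143) (nat_lit 183)) (PT.lf (nat_lit 13680) (nat_lit 6) (nat_lit 180) (nat_lit 1) (nat_lit 185) (nat_lit 143) (nat_lit 182))) (PT.nd (nat_lit 78) (PT.lf (nat_lit 13604) (nat_lit 6) (nat_lit 179) (nat_lit 1) (nat_lit 186) (nat_lit 143) (nat_lit 181)) (PT.lf (nat_lit 13528) (nat_lit 6) (nat_lit 178) (nat_lit 1) (nat_lit 187) (nat_lit 143) (nat_lit 180)))) (PT.nd (nat_lit 52260) (PT.nd (nat_lit 78) (PT.lf (nat_lit 13452) (nat_lit 6) (nat_lit 177) (nat_lit 1) (nat_lit 188) (nat_lit 143) (nat_lit 179)) (PT.lf (nat_lit 13376) (nat_lit 6) (nat_lit 176) (nat_lit 1) (nat_lit 189) (nat_lit 143) (nat_lit 178))) (PT.nd (nat_lit 78) (PT.lf (nat_lit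 13832) (nat_lit 6) (nat_lit 182) (nat_lit 3) (nat_lit 177) (nat_lit 144) (nat_lit 189)) (PT.nd (nat_lit 78) (PT.lf (nat_lit 13908) (nat_lit 6) (nat_lit 183) (nat_lit 3) (nat_lit 178) (nat_lit 144) (nat_lit 188)) (PT.lf (nat_lit 13984) (nat_lit 6) (nat_lit 184) (nat_lit 3) (nat_lit 179) (nat_lit 144) (nat_lit 187))))))) (PT.nd (nat_lit 702) (PT.nd (nat_lit 312) (PT.nd (nat_lit 156) (PT.nd (nat_lit 78) (PT.lf (nat_lit 14060) (nat_lit 6) (nat_lit 185) (nat_lit 3) (nat_lit 180) (nat_lit 144) (nat_lit 186)) (PT.lf (nat_lit 14136) (nat_lit 6) (nat_lit 186) (nat_lit 3) (nat_lit 181) (nat_lit 144) (nat_lit 185))) (PT.nd (nat_lit 78) (PT.lf (nat_lit 14212) (nat_lit 6) (nat_lit 187) (nat_lit 3) (nat_lit 182) (nat_lit 144) (nat_lit 184)) (PT.lf (nat_lit 14288) (nat_lit 3) (nat_lit 188) (nat_lit 1) (nat_lit 183) (nat_lit 144) (nat_lit 183)))) (PT.nd (nat_lit 156) (PT.nd (nat_lit 78) (PT.lf (nat_lit 14212) (nat_lit 6) (nat_lit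 187) (nat_lit 1) (nat_lit 184) (nat_lit 144) (nat_lit 182)) (PT.lf (nat_lit 14136) (nat_lit 6) (nat_lit 186) (nat_lit 1) (nat_lit 185) (nat_lit 144) (nat_lit 181))) (PT.nd (nat_lit 78) (PT.lf (nat_lit 14060) (nat_lit 6) (nat_lit 185) (nat_lit 1) (nat_lit 186) (nat_lit 144) (nat_lit 180)) (PT.nd (nat_lit 78) (PT.lf (nat_lit 13984) (nat_lit 6) (nat_lit 184) (nat_lit 1) (nat_lit 187) (nat_lit 144) (nat_lit 179)) (PT.lf (nat_lit 13908) (nat_lit 6) (nat_lit 183) (nat_lit 1) (nat_lit 188) (nat_lit 144) (nat_lit 178)))))) (PT.nd (nat_lit 52416) (PT.nd (nat_lit 52260) (PT.nd (nat_lit 52182) (PT.lf (nat_lit 13832) (nat_lit 6) (nat_lit 182) (nat_lit 1) (nat_lit 189) (nat_lit 144) (nat_lit 177)) (PT.lf (nat_lit 14364) (nat_lit 6) (nat_lit 189) (nat_lit 3) (nat_lit 177) (nat_lit 145) (nat_lit 188))) (PT.nd (nat_lit 78) (PT.lf (nat_lit 14440) (nat_lit 6) (nat_lit 190) (nat_lit 3) (nat_lit 178) (nat_lit 145) (nat_lit 187)) (PT.lf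 (nat_lit 14516) (nat_lit 6) (nat_lit 191) (nat_lit 3) (nat_lit 179) (nat_lit 145) (nat_lit 186)))) (PT.nd (nat_lit 156) (PT.nd (nat_lit 78) (PT.lf (nat_lit 14592) (nat_lit 6) (nat_lit 192) (nat_lit 3) (nat_lit 180) (nat_lit 145) (nat_lit 185)) (PT.lf (nat_lit 14668) (nat_lit 6) (nat_lit 193) (nat_lit 3) (nat_lit 181) (nat_lit 145) (nat_lit 184))) (PT.nd (nat_lit 78) (PT.lf (nat_lit 14744) (nat_lit 6) (nat_lit 194) (nat_lit 3) (nat_lit 182) (nat_lit 145) (nat_lit 183)) (PT.nd (nat_lit 78) (PT.lf (nat_lit 14744) (nat_lit 6) (nat_lit 194) (nat_lit 1) (nat_lit 183) (nat_lit 145) (nat_lit 182)) (PT.lf (nat_lit 14668) (nat_lit 6) (nat_lit 193) (nat_lit 1) (nat_lit 184) (nat_lit 145) (nat_lit 181))))))))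
noncomputable def pc10 : PT := (PT.nd (nat_lit 105456) (PT.nd (nat_lit 52728) (PT.nd (nat_lit 52416) (PT.nd (nat_lit 156) (PT.nd (nat_lit 78) (PT.lf (nat_lit 14592) (nat_lit 6) (nat_lit 192) (nat_lit 1) (nat_lit 185) (nat_lit 145) (nat_lit 180)) (PT.lf (nat_lit 14516) (nat_lit 6) (nat_lit 191) (nat_lit 1) (nat_lit 186) (nat_lit 145) (nat_lit 179))) (PT.nd (nat_lit 78) (PT.lf (nat_lit 14440) (nat_lit 6) (nat_lit 190) (nat_lit 1) (nat_lit 187) (nat_lit 145) (nat_lit 178)) (PT.lf (nat_lit 14364) (nat_lit 6) (nat_lit 189) (nat_lit 1) (nat_lit 188) (nat_lit 145) (nat_lit 177)))) (PT.nd (nat_lit 156) (PT.nd (nat_lit 78) (PT.lf (nat_lit 14820) (nat_lit 6) (nat_lit 195) (nat_lit 3) (nat_lit 176) (nat_lit 146) (nat_lit 188)) (PT.lf (nat_lit 14896) (nat_lit 6) (nat_lit 196) (nat_lit 3) (nat_lit 177) (nat_lit 146) (nat_lit 187))) (PT.nd (nat_lit 78) (PT.lf (nat_lit 14972) (nat_lit 6) (nat_lit 197) (nat_lit 3) (nat_lit 178)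 (nat_lit 146) (nat_lit 186)) (PT.lf (nat_lit 15048) (nat_lit 6) (nat_lit 198) (nat_lit 3) (nat_lit 179) (nat_lit 146) (nat_lit 185))))) (PT.nd (nat_lit 312) (PT.nd (nat_lit 156) (PT.nd (nat_lit 78) (PT.lf (nat_lit 15124) (nat_lit 6) (nat_lit 199) (nat_lit 3) (nat_lit 180) (nat_lit 146) (nat_lit 184)) (PT.lf (nat_lit 15200) (nat_lit 6) (nat_lit 200) (nat_lit 3) (nat_lit 181) (nat_lit 146) (nat_lit 183))) (PT.nd (nat_lit 78) (PT.lf (nat_lit 15276) (nat_lit 3) (nat_lit 201) (nat_lit 1) (nat_lit 182) (nat_lit 146) (nat_lit 182)) (PT.lf (nat_lit 15200) (nat_lit 6) (nat_lit 200) (nat_lit 1) (nat_lit 183) (nat_lit 146) (nat_lit 181)))) (PT.nd (nat_lit 156) (PT.nd (nat_lit 78) (PT.lf (nat_lit 15124) (nat_lit 6) (nat_lit 199) (nat_lit 1) (nat_lit 184) (nat_lit 146) (nat_lit 180)) (PT.lf (nat_lit 15048) (nat_lit 6) (nat_lit 198) (nat_lit 1) (nat_lit 185) (nat_lit 146) (nat_lit 179))) (PT.nd (nat_lit 78) (PT.lf (nat_lit 14972)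 (nat_lit 6) (nat_lit 197) (nat_lit 1) (nat_lit 186) (nat_lit 146) (nat_lit 178)) (PT.nd (nat_lit 78) (PT.lf (nat_lit 14896) (nat_lit 6) (nat_lit 196) (nat_lit 1) (nat_lit 187) (nat_lit 146) (nat_lit 177)) (PT.lf (nat_lit 14820) (nat_lit 6) (nat_lit 195) (nat_lit 1) (nat_lit 188) (nat_lit 146) (nat_lit 176))))))) (PT.nd (nat_lit 702) (PT.nd (nat_lit 312) (PT.nd (nat_lit 156) (PT.nd (nat_lit 78) (PT.lf (nat_lit 15352) (nat_lit 6) (nat_lit 202) (nat_lit 3) (nat_lit 175) (nat_lit 147) (nat_lit 188)) (PT.lf (nat_lit 15428) (nat_lit 6) (nat_lit 203) (nat_lit 3) (nat_lit 176) (nat_lit 147) (nat_lit 187))) (PT.nd (nat_lit 78) (PT.lf (nat_lit 15504) (nat_lit 6) (nat_lit 204) (nat_lit 3) (nat_lit 177) (nat_lit 147) (nat_lit 186)) (PT.lf (nat_lit 15580) (nat_lit 6) (nat_lit 205) (nat_lit 3) (nat_lit 178) (nat_lit 147) (nat_lit 185)))) (PT.nd (nat_lit 156) (PT.nd (nat_lit 78) (PT.lf (nat_lit 15656) (nat_lit 6) (nat_lit 206)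 (nat_lit 3) (nat_lit 179) (nat_lit 147) (nat_lit 184)) (PT.lf (nat_lit 15732) (nat_lit 6) (nat_lit 207) (nat_lit 3) (nat_lit 180) (nat_lit 147) (nat_lit 183))) (PT.nd (nat_lit 78) (PT.lf (nat_lit 15808) (nat_lit 6) (nat_lit 208) (nat_lit 3) (nat_lit 181) (nat_lit 147) (nat_lit 182)) (PT.nd (nat_lit 78) (PT.lf (nat_lit 15808) (nat_lit 6) (nat_lit 208) (nat_lit 1) (nat_lit 182) (nat_lit 147) (nat_lit 181)) (PT.lf (nat_lit 15732) (nat_lit 6) (nat_lit 207) (nat_lit 1) (nat_lit 183) (nat_lit 147) (nat_lit 180)))))) (PT.nd (nat_lit 312) (PT.nd (nat_lit 156) (PT.nd (nat_lit 78) (PT.lf (nat_lit 15656) (nat_lit 6) (nat_lit 206) (nat_lit 1) (nat_lit 184) (nat_lit 147) (nat_lit 179)) (PT.lf (nat_lit 15580) (nat_lit 6) (nat_lit 205) (nat_lit 1) (nat_lit 185) (nat_lit 147) (nat_lit 178))) (PT.nd (nat_lit 78) (PT.lf (nat_lit 15504) (nat_lit 6) (nat_lit 204) (nat_lit 1) (nat_lit 186) (nat_lit 147) (nat_lit 177)) (PT.lf (nat_lit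 15428) (nat_lit 6) (nat_lit 203) (nat_lit 1) (nat_lit 187) (nat_lit 147) (nat_lit 176)))) (PT.nd (nat_lit 52182) (PT.nd (nat_lit 52104) (PT.lf (nat_lit 15352) (nat_lit 6) (nat_lit 202) (nat_lit 1) (nat_lit 188) (nat_lit 147) (nat_lit 175)) (PT.lf (nat_lit 15884) (nat_lit 6) (nat_lit 209) (nat_lit 3) (nat_lit 175) (nat_lit 148) (nat_lit 187))) (PT.nd (nat_lit 78) (PT.lf (nat_lit 15960) (nat_lit 6) (nat_lit 210) (nat_lit 3) (nat_lit 176) (nat_lit 148) (nat_lit 186)) (PT.nd (nat_lit 78) (PT.lf (nat_lit 16036) (nat_lit 6) (nat_lit 211) (nat_lit 3) (nat_lit 177) (nat_lit 148) (nat_lit 185)) (PT.lf (nat_lit 16112) (nat_lit 6) (nat_lit 212) (nat_lit 3) (nat_lit 178) (nat_lit 148) (nat_lit 184))))))))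
noncomputable def pc11 : PT := (PT.nd (nat_lit 53352) (PT.nd (nat_lit 624) (PT.nd (nat_lit 312) (PT.nd (nat_lit 156) (PT.nd (nat_lit 78) (PT.lf (nat_lit 16188) (nat_lit 6) (nat_lit 213) (nat_lit 3) (nat_lit 179) (nat_lit 148) (nat_lit 183)) (PT.lf (nat_lit 16264) (nat_lit 6) (nat_lit 214) (nat_lit 3) (nat_lit 180) (nat_lit 148) (nat_lit 182))) (PT.nd (nat_lit 78) (PT.lf (nat_lit 16340) (nat_lit 3) (nat_lit 215) (nat_lit 1) (nat_lit 181) (nat_lit 148) (nat_lit 181)) (PT.lf (nat_lit 16264) (nat_lit 6) (nat_lit 214) (nat_lit 1) (nat_lit 182) (nat_lit 148) (nat_lit 180)))) (PT.nd (nat_lit 156) (PT.nd (nat_lit 78) (PT.lf (nat_lit 16188) (nat_lit 6) (nat_lit 213) (nat_lit 1) (nat_lit 183) (nat_lit 148) (nat_lit 179)) (PT.lf (nat_lit 16112) (nat_lit 6) (nat_lit 212) (nat_lit 1) (nat_lit 184) (nat_lit 148) (nat_lit 178))) (PT.nd (nat_lit 78) (PT.lf (nat_lit 16036) (nat_lit 6) (nat_lit 211) (nat_lit 1) (nat_lit 185) (nat_lit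 148) (nat_lit 177)) (PT.lf (nat_lit 15960) (nat_lit 6) (nat_lit 210) (nat_lit 1) (nat_lit 186) (nat_lit 148) (nat_lit 176))))) (PT.nd (nat_lit 52338) (PT.nd (nat_lit 52182) (PT.nd (nat_lit 52104) (PT.lf (nat_lit 15884) (nat_lit 6) (nat_lit 209) (nat_lit 1) (nat_lit 187) (nat_lit 148) (nat_lit 175)) (PT.lf (nat_lit 16416) (nat_lit 6) (nat_lit 216) (nat_lit 3) (nat_lit 174) (nat_lit 149) (nat_lit 187))) (PT.nd (nat_lit 78) (PT.lf (nat_lit 16492) (nat_lit 6) (nat_lit 217) (nat_lit 3) (nat_lit 175) (nat_lit 149) (nat_lit 186)) (PT.lf (nat_lit 16568) (nat_lit 6) (nat_lit 218) (nat_lit 3) (nat_lit 176) (nat_lit 149) (nat_lit 185)))) (PT.nd (nat_lit 156) (PT.nd (nat_lit 78) (PT.lf (nat_lit 16644) (nat_lit 6) (nat_lit 219) (nat_lit 3) (nat_lit 177) (nat_lit 149) (nat_lit 184)) (PT.lf (nat_lit 16720) (nat_lit 6) (nat_lit 220) (nat_lit 3) (nat_lit 178) (nat_lit 149) (nat_lit 183))) (PT.nd (nat_lit 78) (PT.lf (nat_lit 16796)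 (nat_lit 6) (nat_lit 221) (nat_lit 3) (nat_lit 179) (nat_lit 149) (nat_lit 182)) (PT.nd (nat_lit 78) (PT.lf (nat_lit 16872) (nat_lit 6) (nat_lit 222) (nat_lit 3) (nat_lit 180) (nat_lit 149) (nat_lit 181)) (PT.lf (nat_lit 16872) (nat_lit 6) (nat_lit 222) (nat_lit 1) (nat_lit 181) (nat_lit 149) (nat_lit 180))))))) (PT.nd (nat_lit 52650) (PT.nd (nat_lit 312) (PT.nd (nat_lit 156) (PT.nd (nat_lit 78) (PT.lf (nat_lit 16796) (nat_lit 6) (nat_lit 221) (nat_lit 1) (nat_lit 182) (nat_lit 149) (nat_lit 179)) (PT.lf (nat_lit 16720) (nat_lit 6) (nat_lit 220) (nat_lit 1) (nat_lit 183) (nat_lit 149) (nat_lit 178))) (PT.nd (nat_lit 78) (PT.lf (nat_lit 16644) (nat_lit 6) (nat_lit 219) (nat_lit 1) (nat_lit 184) (nat_lit 149) (nat_lit 177)) (PT.lf (nat_lit 16568) (nat_lit 6) (nat_lit 218) (nat_lit 1) (nat_lit 185) (nat_lit 149) (nat_lit 176)))) (PT.nd (nat_lit 52104) (PT.nd (nat_lit 78) (PT.lf (nat_lit 16492) (nat_lit 6) (nat_lit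 217) (nat_lit 1) (nat_lit 186) (nat_lit 149) (nat_lit 175)) (PT.lf (nat_lit 16416) (nat_lit 6) (nat_lit 216) (nat_lit 1) (nat_lit 187) (nat_lit 149) (nat_lit 174))) (PT.nd (nat_lit 78) (PT.lf (nat_lit 16948) (nat_lit 6) (nat_lit 223) (nat_lit 3) (nat_lit 173) (nat_lit 150) (nat_lit 187)) (PT.nd (nat_lit 78) (PT.lf (nat_lit 17024) (nat_lit 6) (nat_lit 224) (nat_lit 3) (nat_lit 174) (nat_lit 150) (nat_lit 186)) (PT.lf (nat_lit 17100) (nat_lit 6) (nat_lit 225) (nat_lit 3) (nat_lit 175) (nat_lit 150) (nat_lit 185)))))) (PT.nd (nat_lit 312) (PT.nd (nat_lit 156) (PT.nd (nat_lit 78) (PT.lf (nat_lit 17176) (nat_lit 6) (nat_lit 226) (nat_lit 3) (nat_lit 176) (nat_lit 150) (nat_lit 184)) (PT.lf (nat_lit 17252) (nat_lit 6) (nat_lit 227) (nat_lit 3) (nat_lit 177) (nat_lit 150) (nat_lit 183))) (PT.nd (nat_lit 78) (PT.lf (nat_lit 17328) (nat_lit 6) (nat_lit 228) (nat_lit 3) (nat_lit 178) (nat_lit 150) (nat_lit 182)) (PT.lf (nat_lit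 17404) (nat_lit 6) (nat_lit 229) (nat_lit 3) (nat_lit 179) (nat_lit 150) (nat_lit 181)))) (PT.nd (nat_lit 156) (PT.nd (nat_lit 78) (PT.lf (nat_lit 17480) (nat_lit 3) (nat_lit 230) (nat_lit 1) (nat_lit 180) (nat_lit 150) (nat_lit 180)) (PT.lf (nat_lit 17404) (nat_lit 6) (nat_lit 229) (nat_lit 1) (nat_lit 181) (nat_lit 150) (nat_lit 179))) (PT.nd (nat_lit 78) (PT.lf (nat_lit 17328) (nat_lit 6) (nat_lit 228) (nat_lit 1) (nat_lit 182) (nat_lit 150) (nat_lit 178)) (PT.nd (nat_lit 78) (PT.lf (nat_lit 17252) (nat_lit 6) (nat_lit 227) (nat_lit 1) (nat_lit 183) (nat_lit 150) (nat_lit 177)) (PT.lf (nat_lit 17176) (nat_lit 6) (nat_lit 226) (nat_lit 1) (nat_lit 184) (nat_lit 150) (nat_lit 176))))))))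
noncomputable def pc12 : PT := (PT.nd (nat_lit 53196) (PT.nd (nat_lit 52494) (PT.nd (nat_lit 52182) (PT.nd (nat_lit 156) (PT.nd (nat_lit 78) (PT.lf (nat_lit 17100) (nat_lit 6) (nat_lit 225) (nat_lit 1) (nat_lit 185) (nat_lit 150) (nat_lit 175)) (PT.lf (nat_lit 17024) (nat_lit 6) (nat_lit 224) (nat_lit 1) (nat_lit 186) (nat_lit 150) (nat_lit 174))) (PT.nd (nat_lit 51948) (PT.lf (nat_lit 16948) (nat_lit 6) (nat_lit 223) (nat_lit 1) (nat_lit 187) (nat_lit 150) (nat_lit 173)) (PT.lf (nat_lit 17556) (nat_lit 6) (nat_lit 231) (nat_lit 3) (nat_lit 172) (nat_lit 151) (nat_lit 187)))) (PT.nd (nat_lit 156) (PT.nd (nat_lit 78) (PT.lf (nat_lit 17632) (nat_lit 6) (nat_lit 232) (nat_lit 3) (nat_lit 173) (nat_lit 151) (nat_lit 186)) (PT.lf (nat_lit 17708) (nat_lit 6) (nat_lit 233) (nat_lit 3) (nat_lit 174) (nat_lit 151) (nat_lit 185))) (PT.nd (nat_lit 78) (PT.lf (nat_lit 17784) (nat_lit 6) (nat_lit 234) (nat_lit 3) (nat_lit 175)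 (nat_lit 151) (nat_lit 184)) (PT.lf (nat_lit 17860) (nat_lit 6) (nat_lit 235) (nat_lit 3) (nat_lit 176) (nat_lit 151) (nat_lit 183))))) (PT.nd (nat_lit 312) (PT.nd (nat_lit 156) (PT.nd (nat_lit 78) (PT.lf (nat_lit 17936) (nat_lit 6) (nat_lit 236) (nat_lit 3) (nat_lit 177) (nat_lit 151) (nat_lit 182)) (PT.lf (nat_lit 18012) (nat_lit 6) (nat_lit 237) (nat_lit 3) (nat_lit 178) (nat_lit 151) (nat_lit 181))) (PT.nd (nat_lit 78) (PT.lf (nat_lit 18088) (nat_lit 6) (nat_lit 238) (nat_lit 3) (nat_lit 179) (nat_lit 151) (nat_lit 180)) (PT.lf (nat_lit 18088) (nat_lit 6) (nat_lit 238) (nat_lit 1) (nat_lit 180) (nat_lit 151) (nat_lit 179)))) (PT.nd (nat_lit 156) (PT.nd (nat_lit 78) (PT.lf (nat_lit 18012) (nat_lit 6) (nat_lit 237) (nat_lit 1) (nat_lit 181) (nat_lit 151) (nat_lit 178)) (PT.lf (nat_lit 17936) (nat_lit 6) (nat_lit 236) (nat_lit 1) (nat_lit 182) (nat_lit 151) (nat_lit 177))) (PT.nd (nat_lit 78) (PT.lf (nat_lit 17860)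 (nat_lit 6) (nat_lit 235) (nat_lit 1) (nat_lit 183) (nat_lit 151) (nat_lit 176)) (PT.nd (nat_lit 78) (PT.lf (nat_lit 17784) (nat_lit 6) (nat_lit 234) (nat_lit 1) (nat_lit 184) (nat_lit 151) (nat_lit 175)) (PT.lf (nat_lit 17708) (nat_lit 6) (nat_lit 233) (nat_lit 1) (nat_lit 185) (nat_lit 151) (nat_lit 174))))))) (PT.nd (nat_lit 52494) (PT.nd (nat_lit 52104) (PT.nd (nat_lit 51948) (PT.nd (nat_lit 78) (PT.lf (nat_lit 17632) (nat_lit 6) (nat_lit 232) (nat_lit 1) (nat_lit 186) (nat_lit 151) (nat_lit 173)) (PT.lf (nat_lit 17556) (nat_lit 6) (nat_lit 231) (nat_lit 1) (nat_lit 187) (nat_lit 151) (nat_lit 172))) (PT.nd (nat_lit 78) (PT.lf (nat_lit 18164) (nat_lit 6) (nat_lit 239) (nat_lit 3) (nat_lit 171) (nat_lit 152) (nat_lit 187)) (PT.lf (nat_lit 18240) (nat_lit 6) (nat_lit 240) (nat_lit 3) (nat_lit 172) (nat_lit 152) (nat_lit 186)))) (PT.nd (nat_lit 156) (PT.nd (nat_lit 78) (PT.lf (nat_lit 18316) (nat_lit 6) (nat_lit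 241) (nat_lit 3) (nat_lit 173) (nat_lit 152) (nat_lit 185)) (PT.lf (nat_lit 18392) (nat_lit 6) (nat_lit 242) (nat_lit 3) (nat_lit 174) (nat_lit 152) (nat_lit 184))) (PT.nd (nat_lit 78) (PT.lf (nat_lit 18468) (nat_lit 6) (nat_lit 243) (nat_lit 3) (nat_lit 175) (nat_lit 152) (nat_lit 183)) (PT.nd (nat_lit 78) (PT.lf (nat_lit 18544) (nat_lit 6) (nat_lit 244) (nat_lit 3) (nat_lit 176) (nat_lit 152) (nat_lit 182)) (PT.lf (nat_lit 18620) (nat_lit 6) (nat_lit 245) (nat_lit 3) (nat_lit 177) (nat_lit 152) (nat_lit 181)))))) (PT.nd (nat_lit 312) (PT.nd (nat_lit 156) (PT.nd (nat_lit 78) (PT.lf (nat_lit 18696) (nat_lit 6) (nat_lit 246) (nat_lit 3) (nat_lit 178) (nat_lit 152) (nat_lit 180)) (PT.lf (nat_lit 18772) (nat_lit 3) (nat_lit 247) (nat_lit 1) (nat_lit 179) (nat_lit 152) (nat_lit 179))) (PT.nd (nat_lit 78) (PT.lf (nat_lit 18696) (nat_lit 6) (nat_lit 246) (nat_lit 1) (nat_lit 180) (nat_lit 152) (nat_lit 178)) (PT.lf (nat_lit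 18620) (nat_lit 6) (nat_lit 245) (nat_lit 1) (nat_lit 181) (nat_lit 152) (nat_lit 177)))) (PT.nd (nat_lit 156) (PT.nd (nat_lit 78) (PT.lf (nat_lit 18544) (nat_lit 6) (nat_lit 244) (nat_lit 1) (nat_lit 182) (nat_lit 152) (nat_lit 176)) (PT.lf (nat_lit 18468) (nat_lit 6) (nat_lit 243) (nat_lit 1) (nat_lit 183) (nat_lit 152) (nat_lit 175))) (PT.nd (nat_lit 78) (PT.lf (nat_lit 18392) (nat_lit 6) (nat_lit 242) (nat_lit 1) (nat_lit 184) (nat_lit 152) (nat_lit 174)) (PT.nd (nat_lit 78) (PT.lf (nat_lit 18316) (nat_lit 6) (nat_lit 241) (nat_lit 1) (nat_lit 185) (nat_lit 152) (nat_lit 173)) (PT.lf (nat_lit 18240) (nat_lit 6) (nat_lit 240) (nat_lit 1) (nat_lit 186) (nat_lit 152) (nat_lit 172))))))))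
noncomputable def pc13 : PT := (PT.nd (nat_lit 53040) (PT.nd (nat_lit 52338) (PT.nd (nat_lit 52026) (PT.nd (nat_lit 51870) (PT.nd (nat_lit 51792) (PT.lf (nat_lit 18164) (nat_lit 6) (nat_lit 239) (nat_lit 1) (nat_lit 187) (nat_lit 152) (nat_lit 171)) (PT.lf (nat_lit 18848) (nat_lit 6) (nat_lit 248) (nat_lit 3) (nat_lit 170) (nat_lit 153) (nat_lit 187))) (PT.nd (nat_lit 78) (PT.lf (nat_lit 18924) (nat_lit 6) (nat_lit 249) (nat_lit 3) (nat_lit 171) (nat_lit 153) (nat_lit 186)) (PT.lf (nat_lit 19000) (nat_lit 6) (nat_lit 250) (nat_lit 3) (nat_lit 172) (nat_lit 153) (nat_lit 185)))) (PT.nd (nat_lit 156) (PT.nd (nat_lit 78) (PT.lf (nat_lit 19076) (nat_lit 6) (nat_lit 251) (nat_lit 3) (nat_lit 173) (nat_lit 153) (nat_lit 184)) (PT.lf (nat_lit 19152) (nat_lit 6) (nat_lit 252) (nat_lit 3) (nat_lit 174) (nat_lit 153) (nat_lit 183))) (PT.nd (nat_lit 78) (PT.lf (nat_lit 19228) (nat_lit 6) (nat_lit 253) (nat_lit 3) (nat_lit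 175) (nat_lit 153) (nat_lit 182)) (PT.lf (nat_lit 19304) (nat_lit 6) (nat_lit 254) (nat_lit 3) (nat_lit 176) (nat_lit 153) (nat_lit 181))))) (PT.nd (nat_lit 312) (PT.nd (nat_lit 156) (PT.nd (nat_lit 78) (PT.lf (nat_lit 19380) (nat_lit 6) (nat_lit 255) (nat_lit 3) (nat_lit 177) (nat_lit 153) (nat_lit 180)) (PT.lf (nat_lit 19456) (nat_lit 6) (nat_lit 256) (nat_lit 3) (nat_lit 178) (nat_lit 153) (nat_lit 179))) (PT.nd (nat_lit 78) (PT.lf (nat_lit 19456) (nat_lit 6) (nat_lit 256) (nat_lit 1) (nat_lit 179) (nat_lit 153) (nat_lit 178)) (PT.lf (nat_lit 19380) (nat_lit 6) (nat_lit 255) (nat_lit 1) (nat_lit 180) (nat_lit 153) (nat_lit 177)))) (PT.nd (nat_lit 156) (PT.nd (nat_lit 78) (PT.lf (nat_lit 19304) (nat_lit 6) (nat_lit 254) (nat_lit 1) (nat_lit 181) (nat_lit 153) (nat_lit 176)) (PT.lf (nat_lit 19228) (nat_lit 6) (nat_lit 253) (nat_lit 1) (nat_lit 182) (nat_lit 153) (nat_lit 175))) (PT.nd (nat_lit 78) (PT.lf (nat_lit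 19152) (nat_lit 6) (nat_lit 252) (nat_lit 1) (nat_lit 183) (nat_lit 153) (nat_lit 174)) (PT.nd (nat_lit 78) (PT.lf (nat_lit 19076) (nat_lit 6) (nat_lit 251) (nat_lit 1) (nat_lit 184) (nat_lit 153) (nat_lit 173)) (PT.lf (nat_lit 19000) (nat_lit 6) (nat_lit 250) (nat_lit 1) (nat_lit 185) (nat_lit 153) (nat_lit 172))))))) (PT.nd (nat_lit 52416) (PT.nd (nat_lit 52026) (PT.nd (nat_lit 51870) (PT.nd (nat_lit 78) (PT.lf (nat_lit 18924) (nat_lit 6) (nat_lit 249) (nat_lit 1) (nat_lit 186) (nat_lit 153) (nat_lit 171)) (PT.lf (nat_lit 18848) (nat_lit 6) (nat_lit 248) (nat_lit 1) (nat_lit 187) (nat_lit 153) (nat_lit 170))) (PT.nd (nat_lit 78) (PT.lf (nat_lit 20140) (nat_lit 6) (nat_lit 265) (nat_lit 3) (nat_lit 170) (nat_lit 154) (nat_lit 186)) (PT.lf (nat_lit 20216) (nat_lit 6) (nat_lit 266) (nat_lit 3) (nat_lit 171) (nat_lit 154) (nat_lit 185)))) (PT.nd (nat_lit 156) (PT.nd (nat_lit 78) (PT.lf (nat_lit 20292) (nat_lit 6)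 (nat_lit 267) (nat_lit 3) (nat_lit 172) (nat_lit 154) (nat_lit 184)) (PT.lf (nat_lit 20368) (nat_lit 6) (nat_lit 268) (nat_lit 3) (nat_lit 173) (nat_lit 154) (nat_lit 183))) (PT.nd (nat_lit 78) (PT.lf (nat_lit 20444) (nat_lit 6) (nat_lit 269) (nat_lit 3) (nat_lit 174) (nat_lit 154) (nat_lit 182)) (PT.nd (nat_lit 78) (PT.lf (nat_lit 20520) (nat_lit 6) (nat_lit 270) (nat_lit 3) (nat_lit 175) (nat_lit 154) (nat_lit 181)) (PT.lf (nat_lit 20596) (nat_lit 6) (nat_lit 271) (nat_lit 3) (nat_lit 176) (nat_lit 154) (nat_lit 180)))))) (PT.nd (nat_lit 312) (PT.nd (nat_lit 156) (PT.nd (nat_lit 78) (PT.lf (nat_lit 20672) (nat_lit 6) (nat_lit 272) (nat_lit 3) (nat_lit 177) (nat_lit 154) (nat_lit 179)) (PT.lf (nat_lit 20748) (nat_lit 3) (nat_lit 273) (nat_lit 1) (nat_lit 178) (nat_lit 154) (nat_lit 178))) (PT.nd (nat_lit 78) (PT.lf (nat_lit 20672) (nat_lit 6) (nat_lit 272) (nat_lit 1) (nat_lit 179) (nat_lit 154) (nat_lit 177))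 (PT.lf (nat_lit 20596) (nat_lit 6) (nat_lit 271) (nat_lit 1) (nat_lit 180) (nat_lit 154) (nat_lit 176)))) (PT.nd (nat_lit 156) (PT.nd (nat_lit 78) (PT.lf (nat_lit 20520) (nat_lit 6) (nat_lit 270) (nat_lit 1) (nat_lit 181) (nat_lit 154) (nat_lit 175)) (PT.lf (nat_lit 20444) (nat_lit 6) (nat_lit 269) (nat_lit 1) (nat_lit 182) (nat_lit 154) (nat_lit 174))) (PT.nd (nat_lit 78) (PT.lf (nat_lit 20368) (nat_lit 6) (nat_lit 268) (nat_lit 1) (nat_lit 183) (nat_lit 154) (nat_lit 173)) (PT.nd (nat_lit 78) (PT.lf (nat_lit 20292) (nat_lit 6) (nat_lit 267) (nat_lit 1) (nat_lit 184) (nat_lit 154) (nat_lit 172)) (PT.lf (nat_lit 20216) (nat_lit 6) (nat_lit 266) (nat_lit 1) (nat_lit 185) (nat_lit 154) (nat_lit 171))))))))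
noncomputable def pc14 : PT := (PT.nd (nat_lit 53040) (PT.nd (nat_lit 52338) (PT.nd (nat_lit 52026) (PT.nd (nat_lit 51870) (PT.nd (nat_lit 51792) (PT.lf (nat_lit 20140) (nat_lit 6) (nat_lit 265) (nat_lit 1) (nat_lit 186) (nat_lit 154) (nat_lit 170)) (PT.lf (nat_lit 20064) (nat_lit 6) (nat_lit 264) (nat_lit 3) (nat_lit 169) (nat_lit 155) (nat_lit 186))) (PT.nd (nat_lit 78) (PT.lf (nat_lit 21356) (nat_lit 6) (nat_lit 281) (nat_lit 3) (nat_lit 170) (nat_lit 155) (nat_lit 185)) (PT.lf (nat_lit 21432) (nat_lit 6) (nat_lit 282) (nat_lit 3) (nat_lit 171) (nat_lit 155) (nat_lit 184)))) (PT.nd (nat_lit 156) (PT.nd (nat_lit 78) (PT.lf (nat_lit 21508) (nat_lit 6) (nat_lit 283) (nat_lit 3) (nat_lit 172) (nat_lit 155) (nat_lit 183)) (PT.lf (nat_lit 21584) (nat_lit 6) (nat_lit 284) (nat_lit 3) (nat_lit 173) (nat_lit 155) (nat_lit 182))) (PT.nd (nat_lit 78) (PT.lf (nat_lit 21660) (nat_lit 6) (nat_lit 285) (nat_lit 3) (nat_lit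 174) (nat_lit 155) (nat_lit 181)) (PT.lf (nat_lit 21736) (nat_lit 6) (nat_lit 286) (nat_lit 3) (nat_lit 175) (nat_lit 155) (nat_lit 180))))) (PT.nd (nat_lit 312) (PT.nd (nat_lit 156) (PT.nd (nat_lit 78) (PT.lf (nat_lit 21812) (nat_lit 6) (nat_lit 287) (nat_lit 3) (nat_lit 176) (nat_lit 155) (nat_lit 179)) (PT.lf (nat_lit 21888) (nat_lit 6) (nat_lit 288) (nat_lit 3) (nat_lit 177) (nat_lit 155) (nat_lit 178))) (PT.nd (nat_lit 78) (PT.lf (nat_lit 21888) (nat_lit 6) (nat_lit 288) (nat_lit 1) (nat_lit 178) (nat_lit 155) (nat_lit 177)) (PT.lf (nat_lit 21812) (nat_lit 6) (nat_lit 287) (nat_lit 1) (nat_lit 179) (nat_lit 155) (nat_lit 176)))) (PT.nd (nat_lit 156) (PT.nd (nat_lit 78) (PT.lf (nat_lit 21736) (nat_lit 6) (nat_lit 286) (nat_lit 1) (nat_lit 180) (nat_lit 155) (nat_lit 175)) (PT.lf (nat_lit 21660) (nat_lit 6) (nat_lit 285) (nat_lit 1) (nat_lit 181) (nat_lit 155) (nat_lit 174))) (PT.nd (nat_lit 78) (PT.lf (nat_lit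 21584) (nat_lit 6) (nat_lit 284) (nat_lit 1) (nat_lit 182) (nat_lit 155) (nat_lit 173)) (PT.nd (nat_lit 78) (PT.lf (nat_lit 21508) (nat_lit 6) (nat_lit 283) (nat_lit 1) (nat_lit 183) (nat_lit 155) (nat_lit 172)) (PT.lf (nat_lit 21432) (nat_lit 6) (nat_lit 282) (nat_lit 1) (nat_lit 184) (nat_lit 155) (nat_lit 171))))))) (PT.nd (nat_lit 52338) (PT.nd (nat_lit 51948) (PT.nd (nat_lit 51792) (PT.nd (nat_lit 78) (PT.lf (nat_lit 21356) (nat_lit 6) (nat_lit 281) (nat_lit 1) (nat_lit 185) (nat_lit 155) (nat_lit 170)) (PT.lf (nat_lit 20064) (nat_lit 6) (nat_lit 264) (nat_lit 1) (nat_lit 186) (nat_lit 155) (nat_lit 169))) (PT.nd (nat_lit 78) (PT.lf (nat_lit 19988) (nat_lit 6) (nat_lit 263) (nat_lit 3) (nat_lit 168) (nat_lit 156) (nat_lit 186)) (PT.lf (nat_lit 21280) (nat_lit 6) (nat_lit 280) (nat_lit 3) (nat_lit 169) (nat_lit 156) (nat_lit 185)))) (PT.nd (nat_lit 156) (PT.nd (nat_lit 78) (PT.lf (nat_lit 22496) (nat_lit 6)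 (nat_lit 296) (nat_lit 3) (nat_lit 170) (nat_lit 156) (nat_lit 184)) (PT.lf (nat_lit 22572) (nat_lit 6) (nat_lit 297) (nat_lit 3) (nat_lit 171) (nat_lit 156) (nat_lit 183))) (PT.nd (nat_lit 78) (PT.lf (nat_lit 22648) (nat_lit 6) (nat_lit 298) (nat_lit 3) (nat_lit 172) (nat_lit 156) (nat_lit 182)) (PT.nd (nat_lit 78) (PT.lf (nat_lit 22724) (nat_lit 6) (nat_lit 299) (nat_lit 3) (nat_lit 173) (nat_lit 156) (nat_lit 181)) (PT.lf (nat_lit 22800) (nat_lit 6) (nat_lit 300) (nat_lit 3) (nat_lit 174) (nat_lit 156) (nat_lit 180)))))) (PT.nd (nat_lit 312) (PT.nd (nat_lit 156) (PT.nd (nat_lit 78) (PT.lf (nat_lit 22876) (nat_lit 6) (nat_lit 301) (nat_lit 3) (nat_lit 175) (nat_lit 156) (nat_lit 179)) (PT.lf (nat_lit 22952) (nat_lit 6) (nat_lit 302) (nat_lit 3) (nat_lit 176) (nat_lit 156) (nat_lit 178))) (PT.nd (nat_lit 78) (PT.lf (nat_lit 23028) (nat_lit 3) (nat_lit 303) (nat_lit 1) (nat_lit 177) (nat_lit 156) (nat_lit 177))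 (PT.lf (nat_lit 22952) (nat_lit 6) (nat_lit 302) (nat_lit 1) (nat_lit 178) (nat_lit 156) (nat_lit 176)))) (PT.nd (nat_lit 156) (PT.nd (nat_lit 78) (PT.lf (nat_lit 22876) (nat_lit 6) (nat_lit 301) (nat_lit 1) (nat_lit 179) (nat_lit 156) (nat_lit 175)) (PT.lf (nat_lit 22800) (nat_lit 6) (nat_lit 300) (nat_lit 1) (nat_lit 180) (nat_lit 156) (nat_lit 174))) (PT.nd (nat_lit 78) (PT.lf (nat_lit 22724) (nat_lit 6) (nat_lit 299) (nat_lit 1) (nat_lit 181) (nat_lit 156) (nat_lit 173)) (PT.nd (nat_lit 78) (PT.lf (nat_lit 22648) (nat_lit 6) (nat_lit 298) (nat_lit 1) (nat_lit 182) (nat_lit 156) (nat_lit 172)) (PT.lf (nat_lit 22572) (nat_lit 6) (nat_lit 297) (nat_lit 1) (nat_lit 183) (nat_lit 156) (nat_lit 171))))))))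
noncomputable def pc15 : PT := (PT.nd (nat_lit 52884) (PT.nd (nat_lit 52182) (PT.nd (nat_lit 51870) (PT.nd (nat_lit 156) (PT.nd (nat_lit 78) (PT.lf (nat_lit 22496) (nat_lit 6) (nat_lit 296) (nat_lit 1) (nat_lit 184) (nat_lit 156) (nat_lit 170)) (PT.lf (nat_lit 21280) (nat_lit 6) (nat_lit 280) (nat_lit 1) (nat_lit 185) (nat_lit 156) (nat_lit 169))) (PT.nd (nat_lit 51636) (PT.lf (nat_lit 19988) (nat_lit 6) (nat_lit 263) (nat_lit 1) (nat_lit 186) (nat_lit 156) (nat_lit 168)) (PT.lf (nat_lit 19912) (nat_lit 6) (nat_lit 262) (nat_lit 3) (nat_lit 167) (nat_lit 157) (nat_lit 186)))) (PT.nd (nat_lit 156) (PT.nd (nat_lit 78) (PT.lf (nat_lit 21204) (nat_lit 6) (nat_lit 279) (nat_lit 3) (nat_lit 168) (nat_lit 157) (nat_lit 185)) (PT.lf (nat_lit 22420) (nat_lit 6) (nat_lit 295) (nat_lit 3) (nat_lit 169) (nat_lit 157) (nat_lit 184))) (PT.nd (nat_lit 78) (PT.lf (nat_lit 23560) (nat_lit 6) (nat_lit 310) (nat_lit 3) (nat_lit 170)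 (nat_lit 157) (nat_lit 183)) (PT.lf (nat_lit 23636) (nat_lit 6) (nat_lit 311) (nat_lit 3) (nat_lit 171) (nat_lit 157) (nat_lit 182))))) (PT.nd (nat_lit 312) (PT.nd (nat_lit 156) (PT.nd (nat_lit 78) (PT.lf (nat_lit 23712) (nat_lit 6) (nat_lit 312) (nat_lit 3) (nat_lit 172) (nat_lit 157) (nat_lit 181)) (PT.lf (nat_lit 23788) (nat_lit 6) (nat_lit 313) (nat_lit 3) (nat_lit 173) (nat_lit 157) (nat_lit 180))) (PT.nd (nat_lit 78) (PT.lf (nat_lit 23864) (nat_lit 6) (nat_lit 314) (nat_lit 3) (nat_lit 174) (nat_lit 157) (nat_lit 179)) (PT.lf (nat_lit 23940) (nat_lit 6) (nat_lit 315) (nat_lit 3) (nat_lit 175) (nat_lit 157) (nat_lit 178)))) (PT.nd (nat_lit 156) (PT.nd (nat_lit 78) (PT.lf (nat_lit 24016) (nat_lit 6) (nat_lit 316) (nat_lit 3) (nat_lit 176) (nat_lit 157) (nat_lit 177)) (PT.lf (nat_lit 24016) (nat_lit 6) (nat_lit 316) (nat_lit 1) (nat_lit 177) (nat_lit 157) (nat_lit 176))) (PT.nd (nat_lit 78) (PT.lf (nat_lit 23940)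 (nat_lit 6) (nat_lit 315) (nat_lit 1) (nat_lit 178) (nat_lit 157) (nat_lit 175)) (PT.nd (nat_lit 78) (PT.lf (nat_lit 23864) (nat_lit 6) (nat_lit 314) (nat_lit 1) (nat_lit 179) (nat_lit 157) (nat_lit 174)) (PT.lf (nat_lit 23788) (nat_lit 6) (nat_lit 313) (nat_lit 1) (nat_lit 180) (nat_lit 157) (nat_lit 173))))))) (PT.nd (nat_lit 52182) (PT.nd (nat_lit 312) (PT.nd (nat_lit 156) (PT.nd (nat_lit 78) (PT.lf (nat_lit 23712) (nat_lit 6) (nat_lit 312) (nat_lit 1) (nat_lit 181) (nat_lit 157) (nat_lit 172)) (PT.lf (nat_lit 23636) (nat_lit 6) (nat_lit 311) (nat_lit 1) (nat_lit 182) (nat_lit 157) (nat_lit 171))) (PT.nd (nat_lit 78) (PT.lf (nat_lit 23560) (nat_lit 6) (nat_lit 310) (nat_lit 1) (nat_lit 183) (nat_lit 157) (nat_lit 170)) (PT.lf (nat_lit 22420) (nat_lit 6) (nat_lit 295) (nat_lit 1) (nat_lit 184) (nat_lit 157) (nat_lit 169)))) (PT.nd (nat_lit 51636) (PT.nd (nat_lit 78) (PT.lf (nat_lit 21204) (nat_lit 6) (nat_lit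 279) (nat_lit 1) (nat_lit 185) (nat_lit 157) (nat_lit 168)) (PT.lf (nat_lit 19912) (nat_lit 6) (nat_lit 262) (nat_lit 1) (nat_lit 186) (nat_lit 157) (nat_lit 167))) (PT.nd (nat_lit 78) (PT.lf (nat_lit 19836) (nat_lit 6) (nat_lit 261) (nat_lit 3) (nat_lit 166) (nat_lit 158) (nat_lit 186)) (PT.nd (nat_lit 78) (PT.lf (nat_lit 21128) (nat_lit 6) (nat_lit 278) (nat_lit 3) (nat_lit 167) (nat_lit 158) (nat_lit 185)) (PT.lf (nat_lit 22344) (nat_lit 6) (nat_lit 294) (nat_lit 3) (nat_lit 168) (nat_lit 158) (nat_lit 184)))))) (PT.nd (nat_lit 312) (PT.nd (nat_lit 156) (PT.nd (nat_lit 78) (PT.lf (nat_lit 23484) (nat_lit 6) (nat_lit 309) (nat_lit 3) (nat_lit 169) (nat_lit 158) (nat_lit 183)) (PT.lf (nat_lit 24548) (nat_lit 6) (nat_lit 323) (nat_lit 3) (nat_lit 170) (nat_lit 158) (nat_lit 182))) (PT.nd (nat_lit 78) (PT.lf (nat_lit 24624) (nat_lit 6) (nat_lit 324) (nat_lit 3) (nat_lit 171) (nat_lit 158) (nat_lit 181)) (PT.lf (nat_lit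 24700) (nat_lit 6) (nat_lit 325) (nat_lit 3) (nat_lit 172) (nat_lit 158) (nat_lit 180)))) (PT.nd (nat_lit 156) (PT.nd (nat_lit 78) (PT.lf (nat_lit 24776) (nat_lit 6) (nat_lit 326) (nat_lit 3) (nat_lit 173) (nat_lit 158) (nat_lit 179)) (PT.lf (nat_lit 24852) (nat_lit 6) (nat_lit 327) (nat_lit 3) (nat_lit 174) (nat_lit 158) (nat_lit 178))) (PT.nd (nat_lit 78) (PT.lf (nat_lit 24928) (nat_lit 6) (nat_lit 328) (nat_lit 3) (nat_lit 175) (nat_lit 158) (nat_lit 177)) (PT.nd (nat_lit 78) (PT.lf (nat_lit 25004) (nat_lit 3) (nat_lit 329) (nat_lit 1) (nat_lit 176) (nat_lit 158) (nat_lit 176)) (PT.lf (nat_lit 24928) (nat_lit 6) (nat_lit 328) (nat_lit 1) (nat_lit 177) (nat_lit 158) (nat_lit 175))))))))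
noncomputable def pc16 : PT := (PT.nd (nat_lit 52728) (PT.nd (nat_lit 624) (PT.nd (nat_lit 312) (PT.nd (nat_lit 156) (PT.nd (nat_lit 78) (PT.lf (nat_lit 24852) (nat_lit 6) (nat_lit 327) (nat_lit 1) (nat_lit 178) (nat_lit 158) (nat_lit 174)) (PT.lf (nat_lit 24776) (nat_lit 6) (nat_lit 326) (nat_lit 1) (nat_lit 179) (nat_lit 158) (nat_lit 173))) (PT.nd (nat_lit 78) (PT.lf (nat_lit 24700) (nat_lit 6) (nat_lit 325) (nat_lit 1) (nat_lit 180) (nat_lit 158) (nat_lit 172)) (PT.lf (nat_lit 24624) (nat_lit 6) (nat_lit 324) (nat_lit 1) (nat_lit 181) (nat_lit 158) (nat_lit 171)))) (PT.nd (nat_lit 156) (PT.nd (nat_lit 78) (PT.lf (nat_lit 24548) (nat_lit 6) (nat_lit 323) (nat_lit 1) (nat_lit 182) (nat_lit 158) (nat_lit 170)) (PT.lf (nat_lit 23484) (nat_lit 6) (nat_lit 309) (nat_lit 1) (nat_lit 183) (nat_lit 158) (nat_lit 169))) (PT.nd (nat_lit 78) (PT.lf (nat_lit 22344) (nat_lit 6) (nat_lit 294) (nat_lit 1) (nat_lit 184) (nat_lit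 158) (nat_lit 168)) (PT.lf (nat_lit 21128) (nat_lit 6) (nat_lit 278) (nat_lit 1) (nat_lit 185) (nat_lit 158) (nat_lit 167))))) (PT.nd (nat_lit 51714) (PT.nd (nat_lit 51558) (PT.nd (nat_lit 51480) (PT.lf (nat_lit 19836) (nat_lit 6) (nat_lit 261) (nat_lit 1) (nat_lit 186) (nat_lit 158) (nat_lit 166)) (PT.lf (nat_lit 19760) (nat_lit 6) (nat_lit 260) (nat_lit 3) (nat_lit 165) (nat_lit 159) (nat_lit 186))) (PT.nd (nat_lit 78) (PT.lf (nat_lit 21052) (nat_lit 6) (nat_lit 277) (nat_lit 3) (nat_lit 166) (nat_lit 159) (nat_lit 185)) (PT.lf (nat_lit 22268) (nat_lit 6) (nat_lit 293) (nat_lit 3) (nat_lit 167) (nat_lit 159) (nat_lit 184)))) (PT.nd (nat_lit 156) (PT.nd (nat_lit 78) (PT.lf (nat_lit 23408) (nat_lit 6) (nat_lit 308) (nat_lit 3) (nat_lit 168) (nat_lit 159) (nat_lit 183)) (PT.lf (nat_lit 24472) (nat_lit 6) (nat_lit 322) (nat_lit 3) (nat_lit 169) (nat_lit 159) (nat_lit 182))) (PT.nd (nat_lit 78) (PT.lf (nat_lit 25460)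 (nat_lit 6) (nat_lit 335) (nat_lit 3) (nat_lit 170) (nat_lit 159) (nat_lit 181)) (PT.nd (nat_lit 78) (PT.lf (nat_lit 25536) (nat_lit 6) (nat_lit 336) (nat_lit 3) (nat_lit 171) (nat_lit 159) (nat_lit 180)) (PT.lf (nat_lit 25612) (nat_lit 6) (nat_lit 337) (nat_lit 3) (nat_lit 172) (nat_lit 159) (nat_lit 179))))))) (PT.nd (nat_lit 624) (PT.nd (nat_lit 312) (PT.nd (nat_lit 156) (PT.nd (nat_lit 78) (PT.lf (nat_lit 25688) (nat_lit 6) (nat_lit 338) (nat_lit 3) (nat_lit 173) (nat_lit 159) (nat_lit 178)) (PT.lf (nat_lit 25764) (nat_lit 6) (nat_lit 339) (nat_lit 3) (nat_lit 174) (nat_lit 159) (nat_lit 177))) (PT.nd (nat_lit 78) (PT.lf (nat_lit 25840) (nat_lit 6) (nat_lit 340) (nat_lit 3) (nat_lit 175) (nat_lit 159) (nat_lit 176)) (PT.lf (nat_lit 25840) (nat_lit 6) (nat_lit 340) (nat_lit 1) (nat_lit 176) (nat_lit 159) (nat_lit 175)))) (PT.nd (nat_lit 156) (PT.nd (nat_lit 78) (PT.lf (nat_lit 25764) (nat_lit 6) (nat_lit 339)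 (nat_lit 1) (nat_lit 177) (nat_lit 159) (nat_lit 174)) (PT.lf (nat_lit 25688) (nat_lit 6) (nat_lit 338) (nat_lit 1) (nat_lit 178) (nat_lit 159) (nat_lit 173))) (PT.nd (nat_lit 78) (PT.lf (nat_lit 25612) (nat_lit 6) (nat_lit 337) (nat_lit 1) (nat_lit 179) (nat_lit 159) (nat_lit 172)) (PT.lf (nat_lit 25536) (nat_lit 6) (nat_lit 336) (nat_lit 1) (nat_lit 180) (nat_lit 159) (nat_lit 171))))) (PT.nd (nat_lit 312) (PT.nd (nat_lit 156) (PT.nd (nat_lit 78) (PT.lf (nat_lit 25460) (nat_lit 6) (nat_lit 335) (nat_lit 1) (nat_lit 181) (nat_lit 159) (nat_lit 170)) (PT.lf (nat_lit 24472) (nat_lit 6) (nat_lit 322) (nat_lit 1) (nat_lit 182) (nat_lit 159) (nat_lit 169))) (PT.nd (nat_lit 78) (PT.lf (nat_lit 23408) (nat_lit 6) (nat_lit 308) (nat_lit 1) (nat_lit 183) (nat_lit 159) (nat_lit 168)) (PT.lf (nat_lit 22268) (nat_lit 6) (nat_lit 293) (nat_lit 1) (nat_lit 184) (nat_lit 159) (nat_lit 167)))) (PT.nd (nat_lit 51480) (PT.nd (nat_lit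 78) (PT.lf (nat_lit 21052) (nat_lit 6) (nat_lit 277) (nat_lit 1) (nat_lit 185) (nat_lit 159) (nat_lit 166)) (PT.lf (nat_lit 19760) (nat_lit 6) (nat_lit 260) (nat_lit 1) (nat_lit 186) (nat_lit 159) (nat_lit 165))) (PT.nd (nat_lit 78) (PT.lf (nat_lit 19684) (nat_lit 6) (nat_lit 259) (nat_lit 3) (nat_lit 164) (nat_lit 160) (nat_lit 186)) (PT.nd (nat_lit 78) (PT.lf (nat_lit 20976) (nat_lit 6) (nat_lit 276) (nat_lit 3) (nat_lit 165) (nat_lit 160) (nat_lit 185)) (PT.lf (nat_lit 22192) (nat_lit 6) (nat_lit 292) (nat_lit 3) (nat_lit 166) (nat_lit 160) (nat_lit 184))))))))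
noncomputable def pc17 : PT := (PT.nd (nat_lit 1326) (PT.nd (nat_lit 624) (PT.nd (nat_lit 312) (PT.nd (nat_lit 156) (PT.nd (nat_lit 78) (PT.lf (nat_lit 23332) (nat_lit 6) (nat_lit 307) (nat_lit 3) (nat_lit 167) (nat_lit 160) (nat_lit 183)) (PT.lf (nat_lit 24396) (nat_lit 6) (nat_lit 321) (nat_lit 3) (nat_lit 168) (nat_lit 160) (nat_lit 182))) (PT.nd (nat_lit 78) (PT.lf (nat_lit 25384) (nat_lit 6) (nat_lit 334) (nat_lit 3) (nat_lit 169) (nat_lit 160) (nat_lit 181)) (PT.lf (nat_lit 26296) (nat_lit 6) (nat_lit 346) (nat_lit 3) (nat_lit 170) (nat_lit 160) (nat_lit 180)))) (PT.nd (nat_lit 156) (PT.nd (nat_lit 78) (PT.lf (nat_lit 26372) (nat_lit 6) (nat_lit 347) (nat_lit 3) (nat_lit 171) (nat_lit 160) (nat_lit 179)) (PT.lf (nat_lit 26448) (nat_lit 6) (nat_lit 348) (nat_lit 3) (nat_lit 172) (nat_lit 160) (nat_lit 178))) (PT.nd (nat_lit 78) (PT.lf (nat_lit 26524) (nat_lit 6) (nat_lit 349) (nat_lit 3) (nat_lit 173) (nat_lit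 160) (nat_lit 177)) (PT.lf (nat_lit 26600) (nat_lit 6) (nat_lit 350) (nat_lit 3) (nat_lit 174) (nat_lit 160) (nat_lit 176))))) (PT.nd (nat_lit 312) (PT.nd (nat_lit 156) (PT.nd (nat_lit 78) (PT.lf (nat_lit 26676) (nat_lit 3) (nat_lit 351) (nat_lit 1) (nat_lit 175) (nat_lit 160) (nat_lit 175)) (PT.lf (nat_lit 26600) (nat_lit 6) (nat_lit 350) (nat_lit 1) (nat_lit 176) (nat_lit 160) (nat_lit 174))) (PT.nd (nat_lit 78) (PT.lf (nat_lit 26524) (nat_lit 6) (nat_lit 349) (nat_lit 1) (nat_lit 177) (nat_lit 160) (nat_lit 173)) (PT.lf (nat_lit 26448) (nat_lit 6) (nat_lit 348) (nat_lit 1) (nat_lit 178) (nat_lit 160) (nat_lit 172)))) (PT.nd (nat_lit 156) (PT.nd (nat_lit 78) (PT.lf (nat_lit 26372) (nat_lit 6) (nat_lit 347) (nat_lit 1) (nat_lit 179) (nat_lit 160) (nat_lit 171)) (PT.lf (nat_lit 26296) (nat_lit 6) (nat_lit 346) (nat_lit 1) (nat_lit 180) (nat_lit 160) (nat_lit 170))) (PT.nd (nat_lit 78) (PT.lf (nat_lit 25384) (nat_lit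 6) (nat_lit 334) (nat_lit 1) (nat_lit 181) (nat_lit 160) (nat_lit 169)) (PT.nd (nat_lit 78) (PT.lf (nat_lit 24396) (nat_lit 6) (nat_lit 321) (nat_lit 1) (nat_lit 182) (nat_lit 160) (nat_lit 168)) (PT.lf (nat_lit 23332) (nat_lit 6) (nat_lit 307) (nat_lit 1) (nat_lit 183) (nat_lit 160) (nat_lit 167))))))) (PT.nd (nat_lit 51948) (PT.nd (nat_lit 51558) (PT.nd (nat_lit 156) (PT.nd (nat_lit 78) (PT.lf (nat_lit 22192) (nat_lit 6) (nat_lit 292) (nat_lit 1) (nat_lit 184) (nat_lit 160) (nat_lit 166)) (PT.lf (nat_lit 20976) (nat_lit 6) (nat_lit 276) (nat_lit 1) (nat_lit 185) (nat_lit 160) (nat_lit 165))) (PT.nd (nat_lit 51324) (PT.lf (nat_lit 19684) (nat_lit 6) (nat_lit 259) (nat_lit 1) (nat_lit 186) (nat_lit 160) (nat_lit 164)) (PT.lf (nat_lit 19608) (nat_lit 6) (nat_lit 258) (nat_lit 3) (nat_lit 163) (nat_lit 161) (nat_lit 186)))) (PT.nd (nat_lit 156) (PT.nd (nat_lit 78) (PT.lf (nat_lit 20900) (nat_lit 6) (nat_lit 275)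 (nat_lit 3) (nat_lit 164) (nat_lit 161) (nat_lit 185)) (PT.lf (nat_lit 22116) (nat_lit 6) (nat_lit 291) (nat_lit 3) (nat_lit 165) (nat_lit 161) (nat_lit 184))) (PT.nd (nat_lit 78) (PT.lf (nat_lit 23256) (nat_lit 6) (nat_lit 306) (nat_lit 3) (nat_lit 166) (nat_lit 161) (nat_lit 183)) (PT.nd (nat_lit 78) (PT.lf (nat_lit 24320) (nat_lit 6) (nat_lit 320) (nat_lit 3) (nat_lit 167) (nat_lit 161) (nat_lit 182)) (PT.lf (nat_lit 25308) (nat_lit 6) (nat_lit 333) (nat_lit 3) (nat_lit 168) (nat_lit 161) (nat_lit 181)))))) (PT.nd (nat_lit 312) (PT.nd (nat_lit 156) (PT.nd (nat_lit 78) (PT.lf (nat_lit 26220) (nat_lit 6) (nat_lit 345) (nat_lit 3) (nat_lit 169) (nat_lit 161) (nat_lit 180)) (PT.lf (nat_lit 27056) (nat_lit 6) (nat_lit 356) (nat_lit 3) (nat_lit 170) (nat_lit 161) (nat_lit 179))) (PT.nd (nat_lit 78) (PT.lf (nat_lit 27132) (nat_lit 6) (nat_lit 357) (nat_lit 3) (nat_lit 171) (nat_lit 161) (nat_lit 178)) (PT.lf (nat_lit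 27208) (nat_lit 6) (nat_lit 358) (nat_lit 3) (nat_lit 172) (nat_lit 161) (nat_lit 177)))) (PT.nd (nat_lit 156) (PT.nd (nat_lit 78) (PT.lf (nat_lit 27284) (nat_lit 6) (nat_lit 359) (nat_lit 3) (nat_lit 173) (nat_lit 161) (nat_lit 176)) (PT.lf (nat_lit 27360) (nat_lit 6) (nat_lit 360) (nat_lit 3) (nat_lit 174) (nat_lit 161) (nat_lit 175))) (PT.nd (nat_lit 78) (PT.lf (nat_lit 27360) (nat_lit 6) (nat_lit 360) (nat_lit 1) (nat_lit 175) (nat_lit 161) (nat_lit 174)) (PT.nd (nat_lit 78) (PT.lf (nat_lit 27284) (nat_lit 6) (nat_lit 359) (nat_lit 1) (nat_lit 176) (nat_lit 161) (nat_lit 173)) (PT.lf (nat_lit 27208) (nat_lit 6) (nat_lit 358) (nat_lit 1) (nat_lit 177) (nat_lit 161) (nat_lit 172))))))))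
noncomputable def pc18 : PT := (PT.nd (nat_lit 52494) (PT.nd (nat_lit 624) (PT.nd (nat_lit 312) (PT.nd (nat_lit 156) (PT.nd (nat_lit 78) (PT.lf (nat_lit 27132) (nat_lit 6) (nat_lit 357) (nat_lit 1) (nat_lit 178) (nat_lit 161) (nat_lit 171)) (PT.lf (nat_lit 27056) (nat_lit 6) (nat_lit 356) (nat_lit 1) (nat_lit 179) (nat_lit 161) (nat_lit 170))) (PT.nd (nat_lit 78) (PT.lf (nat_lit 26220) (nat_lit 6) (nat_lit 345) (nat_lit 1) (nat_lit 180) (nat_lit 161) (nat_lit 169)) (PT.lf (nat_lit 25308) (nat_lit 6) (nat_lit 333) (nat_lit 1) (nat_lit 181) (nat_lit 161) (nat_lit 168)))) (PT.nd (nat_lit 156) (PT.nd (nat_lit 78) (PT.lf (nat_lit 24320) (nat_lit 6) (nat_lit 320) (nat_lit 1) (nat_lit 182) (nat_lit 161) (nat_lit 167)) (PT.lf (nat_lit 23256) (nat_lit 6) (nat_lit 306) (nat_lit 1) (nat_lit 183) (nat_lit 161) (nat_lit 166))) (PT.nd (nat_lit 78) (PT.lf (nat_lit 22116) (nat_lit 6) (nat_lit 291) (nat_lit 1) (nat_lit 184) (nat_lit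 161) (nat_lit 165)) (PT.lf (nat_lit 20900) (nat_lit 6) (nat_lit 275) (nat_lit 1) (nat_lit 185) (nat_lit 161) (nat_lit 164))))) (PT.nd (nat_lit 51480) (PT.nd (nat_lit 51324) (PT.nd (nat_lit 51246) (PT.lf (nat_lit 19608) (nat_lit 6) (nat_lit 258) (nat_lit 1) (nat_lit 186) (nat_lit 161) (nat_lit 163)) (PT.lf (nat_lit 19532) (nat_lit 3) (nat_lit 257) (nat_lit 3) (nat_lit 162) (nat_lit 162) (nat_lit 186))) (PT.nd (nat_lit 78) (PT.lf (nat_lit 20824) (nat_lit 6) (nat_lit 274) (nat_lit 3) (nat_lit 163) (nat_lit 162) (nat_lit 185)) (PT.lf (nat_lit 22040) (nat_lit 6) (nat_lit 290) (nat_lit 3) (nat_lit 164) (nat_lit 162) (nat_lit 184)))) (PT.nd (nat_lit 156) (PT.nd (nat_lit 78) (PT.lf (nat_lit 23180) (nat_lit 6) (nat_lit 305) (nat_lit 3) (nat_lit 165) (nat_lit 162) (nat_lit 183)) (PT.lf (nat_lit 24244) (nat_lit 6) (nat_lit 319) (nat_lit 3) (nat_lit 166) (nat_lit 162) (nat_lit 182))) (PT.nd (nat_lit 78) (PT.lf (nat_lit 25232)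 (nat_lit 6) (nat_lit 332) (nat_lit 3) (nat_lit 167) (nat_lit 162) (nat_lit 181)) (PT.nd (nat_lit 78) (PT.lf (nat_lit 26144) (nat_lit 6) (nat_lit 344) (nat_lit 3) (nat_lit 168) (nat_lit 162) (nat_lit 180)) (PT.lf (nat_lit 26980) (nat_lit 6) (nat_lit 355) (nat_lit 3) (nat_lit 169) (nat_lit 162) (nat_lit 179))))))) (PT.nd (nat_lit 702) (PT.nd (nat_lit 312) (PT.nd (nat_lit 156) (PT.nd (nat_lit 78) (PT.lf (nat_lit 27740) (nat_lit 6) (nat_lit 365) (nat_lit 3) (nat_lit 170) (nat_lit 162) (nat_lit 178)) (PT.lf (nat_lit 27816) (nat_lit 6) (nat_lit 366) (nat_lit 3) (nat_lit 171) (nat_lit 162) (nat_lit 177))) (PT.nd (nat_lit 78) (PT.lf (nat_lit 27892) (nat_lit 6) (nat_lit 367) (nat_lit 3) (nat_lit 172) (nat_lit 162) (nat_lit 176)) (PT.lf (nat_lit 27968) (nat_lit 6) (nat_lit 368) (nat_lit 3) (nat_lit 173) (nat_lit 162) (nat_lit 175)))) (PT.nd (nat_lit 156) (PT.nd (nat_lit 78) (PT.lf (nat_lit 28044) (nat_lit 3) (nat_lit 369)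 (nat_lit 1) (nat_lit 174) (nat_lit 162) (nat_lit 174)) (PT.lf (nat_lit 27968) (nat_lit 6) (nat_lit 368) (nat_lit 1) (nat_lit 175) (nat_lit 162) (nat_lit 173))) (PT.nd (nat_lit 78) (PT.lf (nat_lit 27892) (nat_lit 6) (nat_lit 367) (nat_lit 1) (nat_lit 176) (nat_lit 162) (nat_lit 172)) (PT.nd (nat_lit 78) (PT.lf (nat_lit 27816) (nat_lit 6) (nat_lit 366) (nat_lit 1) (nat_lit 177) (nat_lit 162) (nat_lit 171)) (PT.lf (nat_lit 27740) (nat_lit 6) (nat_lit 365) (nat_lit 1) (nat_lit 178) (nat_lit 162) (nat_lit 170)))))) (PT.nd (nat_lit 312) (PT.nd (nat_lit 156) (PT.nd (nat_lit 78) (PT.lf (nat_lit 26980) (nat_lit 6) (nat_lit 355) (nat_lit 1) (nat_lit 179) (nat_lit 162) (nat_lit 169)) (PT.lf (nat_lit 26144) (nat_lit 6) (nat_lit 344) (nat_lit 1) (nat_lit 180) (nat_lit 162) (nat_lit 168))) (PT.nd (nat_lit 78) (PT.lf (nat_lit 25232) (nat_lit 6) (nat_lit 332) (nat_lit 1) (nat_lit 181) (nat_lit 162) (nat_lit 167)) (PT.lf (nat_lit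 24244) (nat_lit 6) (nat_lit 319) (nat_lit 1) (nat_lit 182) (nat_lit 162) (nat_lit 166)))) (PT.nd (nat_lit 156) (PT.nd (nat_lit 78) (PT.lf (nat_lit 23180) (nat_lit 6) (nat_lit 305) (nat_lit 1) (nat_lit 183) (nat_lit 162) (nat_lit 165)) (PT.lf (nat_lit 22040) (nat_lit 6) (nat_lit 290) (nat_lit 1) (nat_lit 184) (nat_lit 162) (nat_lit 164))) (PT.nd (nat_lit 78) (PT.lf (nat_lit 20824) (nat_lit 6) (nat_lit 274) (nat_lit 1) (nat_lit 185) (nat_lit 162) (nat_lit 163)) (PT.nd (nat_lit 51168) (PT.lf (nat_lit 19532) (nat_lit 3) (nat_lit 257) (nat_lit 0) (nat_lit 186) (nat_lit 162) (nat_lit 162)) (PT.lf (nat_lit 19608) (nat_lit 6) (nat_lit 258) (nat_lit 5) (nat_lit 161) (nat_lit 163) (nat_lit 186))))))))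
noncomputable def pc19 : PT := (PT.nd (nat_lit 1326) (PT.nd (nat_lit 624) (PT.nd (nat_lit 312) (PT.nd (nat_lit 156) (PT.nd (nat_lit 78) (PT.lf (nat_lit 20824) (nat_lit 6) (nat_lit 274) (nat_lit 5) (nat_lit 162) (nat_lit 163) (nat_lit 185)) (PT.lf (nat_lit 21964) (nat_lit 3) (nat_lit 289) (nat_lit 3) (nat_lit 163) (nat_lit 163) (nat_lit 184))) (PT.nd (nat_lit 78) (PT.lf (nat_lit 23104) (nat_lit 6) (nat_lit 304) (nat_lit 3) (nat_lit 164) (nat_lit 163) (nat_lit 183)) (PT.lf (nat_lit 24168) (nat_lit 6) (nat_lit 318) (nat_lit 3) (nat_lit 165) (nat_lit 163) (nat_lit 182)))) (PT.nd (nat_lit 156) (PT.nd (nat_lit 78) (PT.lf (nat_lit 25156) (nat_lit 6) (nat_lit 331) (nat_lit 3) (nat_lit 166) (nat_lit 163) (nat_lit 181)) (PT.lf (nat_lit 26068) (nat_lit 6) (nat_lit 343) (nat_lit 3) (nat_lit 167) (nat_lit 163) (nat_lit 180))) (PT.nd (nat_lit 78) (PT.lf (nat_lit 26904) (nat_lit 6) (nat_lit 354) (nat_lit 3) (nat_lit 168) (nat_lit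 163) (nat_lit 179)) (PT.lf (nat_lit 27664) (nat_lit 6) (nat_lit 364) (nat_lit 3) (nat_lit 169) (nat_lit 163) (nat_lit 178))))) (PT.nd (nat_lit 312) (PT.nd (nat_lit 156) (PT.nd (nat_lit 78) (PT.lf (nat_lit 28348) (nat_lit 6) (nat_lit 373) (nat_lit 3) (nat_lit 170) (nat_lit 163) (nat_lit 177)) (PT.lf (nat_lit 28424) (nat_lit 6) (nat_lit 374) (nat_lit 3) (nat_lit 171) (nat_lit 163) (nat_lit 176))) (PT.nd (nat_lit 78) (PT.lf (nat_lit 28500) (nat_lit 6) (nat_lit 375) (nat_lit 3) (nat_lit 172) (nat_lit 163) (nat_lit 175)) (PT.lf (nat_lit 28576) (nat_lit 6) (nat_lit 376) (nat_lit 3) (nat_lit 173) (nat_lit 163) (nat_lit 174)))) (PT.nd (nat_lit 156) (PT.nd (nat_lit 78) (PT.lf (nat_lit 28576) (nat_lit 6) (nat_lit 376) (nat_lit 1) (nat_lit 174) (nat_lit 163) (nat_lit 173)) (PT.lf (nat_lit 28500) (nat_lit 6) (nat_lit 375) (nat_lit 1) (nat_lit 175) (nat_lit 163) (nat_lit 172))) (PT.nd (nat_lit 78) (PT.lf (nat_lit 28424) (nat_lit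 6) (nat_lit 374) (nat_lit 1) (nat_lit 176) (nat_lit 163) (nat_lit 171)) (PT.nd (nat_lit 78) (PT.lf (nat_lit 28348) (nat_lit 6) (nat_lit 373) (nat_lit 1) (nat_lit 177) (nat_lit 163) (nat_lit 170)) (PT.lf (nat_lit 27664) (nat_lit 6) (nat_lit 364) (nat_lit 1) (nat_lit 178) (nat_lit 163) (nat_lit 169))))))) (PT.nd (nat_lit 51714) (PT.nd (nat_lit 312) (PT.nd (nat_lit 156) (PT.nd (nat_lit 78) (PT.lf (nat_lit 26904) (nat_lit 6) (nat_lit 354) (nat_lit 1) (nat_lit 179) (nat_lit 163) (nat_lit 168)) (PT.lf (nat_lit 26068) (nat_lit 6) (nat_lit 343) (nat_lit 1) (nat_lit 180) (nat_lit 163) (nat_lit 167))) (PT.nd (nat_lit 78) (PT.lf (nat_lit 25156) (nat_lit 6) (nat_lit 331) (nat_lit 1) (nat_lit 181) (nat_lit 163) (nat_lit 166)) (PT.lf (nat_lit 24168) (nat_lit 6) (nat_lit 318) (nat_lit 1) (nat_lit 182) (nat_lit 163) (nat_lit 165)))) (PT.nd (nat_lit 156) (PT.nd (nat_lit 78) (PT.lf (nat_lit 23104) (nat_lit 6) (nat_lit 304) (nat_lit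 1) (nat_lit 183) (nat_lit 163) (nat_lit 164)) (PT.lf (nat_lit 21964) (nat_lit 3) (nat_lit 289) (nat_lit 0) (nat_lit 184) (nat_lit 163) (nat_lit 163))) (PT.nd (nat_lit 78) (PT.lf (nat_lit 20824) (nat_lit 6) (nat_lit 274) (nat_lit 0) (nat_lit 185) (nat_lit 163) (nat_lit 162)) (PT.nd (nat_lit 51090) (PT.lf (nat_lit 19608) (nat_lit 6) (nat_lit 258) (nat_lit 0) (nat_lit 186) (nat_lit 163) (nat_lit 161)) (PT.lf (nat_lit 19684) (nat_lit 6) (nat_lit 259) (nat_lit 5) (nat_lit 160) (nat_lit 164) (nat_lit 186)))))) (PT.nd (nat_lit 312) (PT.nd (nat_lit 156) (PT.nd (nat_lit 78) (PT.lf (nat_lit 20900) (nat_lit 6) (nat_lit 275) (nat_lit 5) (nat_lit 161) (nat_lit 164) (nat_lit 185)) (PT.lf (nat_lit 22040) (nat_lit 6) (nat_lit 290) (nat_lit 5) (nat_lit 162) (nat_lit 164) (nat_lit 184))) (PT.nd (nat_lit 78) (PT.lf (nat_lit 23104) (nat_lit 6) (nat_lit 304) (nat_lit 5) (nat_lit 163) (nat_lit 164) (nat_lit 183)) (PT.lf (nat_lit 24092)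 (nat_lit 3) (nat_lit 317) (nat_lit 3) (nat_lit 164) (nat_lit 164) (nat_lit 182)))) (PT.nd (nat_lit 156) (PT.nd (nat_lit 78) (PT.lf (nat_lit 25080) (nat_lit 6) (nat_lit 330) (nat_lit 3) (nat_lit 165) (nat_lit 164) (nat_lit 181)) (PT.lf (nat_lit 25992) (nat_lit 6) (nat_lit 342) (nat_lit 3) (nat_lit 166) (nat_lit 164) (nat_lit 180))) (PT.nd (nat_lit 78) (PT.lf (nat_lit 26828) (nat_lit 6) (nat_lit 353) (nat_lit 3) (nat_lit 167) (nat_lit 164) (nat_lit 179)) (PT.nd (nat_lit 78) (PT.lf (nat_lit 27588) (nat_lit 6) (nat_lit 363) (nat_lit 3) (nat_lit 168) (nat_lit 164) (nat_lit 178)) (PT.lf (nat_lit 28272) (nat_lit 6) (nat_lit 372) (nat_lit 3) (nat_lit 169) (nat_lit 164) (nat_lit 177))))))))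
noncomputable def pc20 : PT := (PT.nd (nat_lit 52260) (PT.nd (nat_lit 624) (PT.nd (nat_lit 312) (PT.nd (nat_lit 156) (PT.nd (nat_lit 78) (PT.lf (nat_lit 28880) (nat_lit 6) (nat_lit 380) (nat_lit 3) (nat_lit 170) (nat_lit 164) (nat_lit 176)) (PT.lf (nat_lit 28956) (nat_lit 6) (nat_lit 381) (nat_lit 3) (nat_lit 171) (nat_lit 164) (nat_lit 175))) (PT.nd (nat_lit 78) (PT.lf (nat_lit 29032) (nat_lit 6) (nat_lit 382) (nat_lit 3) (nat_lit 172) (nat_lit 164) (nat_lit 174)) (PT.lf (nat_lit 29108) (nat_lit 3) (nat_lit 383) (nat_lit 1) (nat_lit 173) (nat_lit 164) (nat_lit 173)))) (PT.nd (nat_lit 156) (PT.nd (nat_lit 78) (PT.lf (nat_lit 29032) (nat_lit 6) (nat_lit 382) (nat_lit 1) (nat_lit 174) (nat_lit 164) (nat_lit 172)) (PT.lf (nat_lit 28956) (nat_lit 6) (nat_lit 381) (nat_lit 1) (nat_lit 175) (nat_lit 164) (nat_lit 171))) (PT.nd (nat_lit 78) (PT.lf (nat_lit 28880) (nat_lit 6) (nat_lit 380) (nat_lit 1) (nat_lit 176) (nat_lit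 164) (nat_lit 170)) (PT.lf (nat_lit 28272) (nat_lit 6) (nat_lit 372) (nat_lit 1) (nat_lit 177) (nat_lit 164) (nat_lit 169))))) (PT.nd (nat_lit 312) (PT.nd (nat_lit 156) (PT.nd (nat_lit 78) (PT.lf (nat_lit 27588) (nat_lit 6) (nat_lit 363) (nat_lit 1) (nat_lit 178) (nat_lit 164) (nat_lit 168)) (PT.lf (nat_lit 26828) (nat_lit 6) (nat_lit 353) (nat_lit 1) (nat_lit 179) (nat_lit 164) (nat_lit 167))) (PT.nd (nat_lit 78) (PT.lf (nat_lit 25992) (nat_lit 6) (nat_lit 342) (nat_lit 1) (nat_lit 180) (nat_lit 164) (nat_lit 166)) (PT.lf (nat_lit 25080) (nat_lit 6) (nat_lit 330) (nat_lit 1) (nat_lit 181) (nat_lit 164) (nat_lit 165)))) (PT.nd (nat_lit 156) (PT.nd (nat_lit 78) (PT.lf (nat_lit 24092) (nat_lit 3) (nat_lit 317) (nat_lit 0) (nat_lit 182) (nat_lit 164) (nat_lit 164)) (PT.lf (nat_lit 23104) (nat_lit 6) (nat_lit 304) (nat_lit 0) (nat_lit 183) (nat_lit 164) (nat_lit 163))) (PT.nd (nat_lit 78) (PT.lf (nat_lit 22040) (nat_lit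 6) (nat_lit 290) (nat_lit 0) (nat_lit 184) (nat_lit 164) (nat_lit 162)) (PT.nd (nat_lit 78) (PT.lf (nat_lit 20900) (nat_lit 6) (nat_lit 275) (nat_lit 0) (nat_lit 185) (nat_lit 164) (nat_lit 161)) (PT.lf (nat_lit 19684) (nat_lit 6) (nat_lit 259) (nat_lit 0) (nat_lit 186) (nat_lit 164) (nat_lit 160))))))) (PT.nd (nat_lit 702) (PT.nd (nat_lit 312) (PT.nd (nat_lit 156) (PT.nd (nat_lit 78) (PT.lf (nat_lit 19760) (nat_lit 6) (nat_lit 260) (nat_lit 5) (nat_lit 159) (nat_lit 165) (nat_lit 186)) (PT.lf (nat_lit 20976) (nat_lit 6) (nat_lit 276) (nat_lit 5) (nat_lit 160) (nat_lit 165) (nat_lit 185))) (PT.nd (nat_lit 78) (PT.lf (nat_lit 22116) (nat_lit 6) (nat_lit 291) (nat_lit 5) (nat_lit 161) (nat_lit 165) (nat_lit 184)) (PT.lf (nat_lit 23180) (nat_lit 6) (nat_lit 305) (nat_lit 5) (nat_lit 162) (nat_lit 165) (nat_lit 183)))) (PT.nd (nat_lit 156) (PT.nd (nat_lit 78) (PT.lf (nat_lit 24168) (nat_lit 6) (nat_lit 318) (nat_lit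 5) (nat_lit 163) (nat_lit 165) (nat_lit 182)) (PT.lf (nat_lit 25080) (nat_lit 6) (nat_lit 330) (nat_lit 5) (nat_lit 164) (nat_lit 165) (nat_lit 181))) (PT.nd (nat_lit 78) (PT.lf (nat_lit 25916) (nat_lit 3) (nat_lit 341) (nat_lit 3) (nat_lit 165) (nat_lit 165) (nat_lit 180)) (PT.nd (nat_lit 78) (PT.lf (nat_lit 26752) (nat_lit 6) (nat_lit 352) (nat_lit 3) (nat_lit 166) (nat_lit 165) (nat_lit 179)) (PT.lf (nat_lit 27512) (nat_lit 6) (nat_lit 362) (nat_lit 3) (nat_lit 167) (nat_lit 165) (nat_lit 178)))))) (PT.nd (nat_lit 312) (PT.nd (nat_lit 156) (PT.nd (nat_lit 78) (PT.lf (nat_lit 28196) (nat_lit 6) (nat_lit 371) (nat_lit 3) (nat_lit 168) (nat_lit 165) (nat_lit 177)) (PT.lf (nat_lit 28804) (nat_lit 6) (nat_lit 379) (nat_lit 3) (nat_lit 169) (nat_lit 165) (nat_lit 176))) (PT.nd (nat_lit 78) (PT.lf (nat_lit 29336) (nat_lit 6) (nat_lit 386) (nat_lit 3) (nat_lit 170) (nat_lit 165) (nat_lit 175)) (PT.lf (nat_lit 29412)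 (nat_lit 6) (nat_lit 387) (nat_lit 3) (nat_lit 171) (nat_lit 165) (nat_lit 174)))) (PT.nd (nat_lit 156) (PT.nd (nat_lit 78) (PT.lf (nat_lit 29488) (nat_lit 6) (nat_lit 388) (nat_lit 3) (nat_lit 172) (nat_lit 165) (nat_lit 173)) (PT.lf (nat_lit 29488) (nat_lit 6) (nat_lit 388) (nat_lit 1) (nat_lit 173) (nat_lit 165) (nat_lit 172))) (PT.nd (nat_lit 78) (PT.lf (nat_lit 29412) (nat_lit 6) (nat_lit 387) (nat_lit 1) (nat_lit 174) (nat_lit 165) (nat_lit 171)) (PT.nd (nat_lit 78) (PT.lf (nat_lit 29336) (nat_lit 6) (nat_lit 386) (nat_lit 1) (nat_lit 175) (nat_lit 165) (nat_lit 170)) (PT.lf (nat_lit 28804) (nat_lit 6) (nat_lit 379) (nat_lit 1) (nat_lit 176) (nat_lit 165) (nat_lit 169))))))))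
noncomputable def pc21 : PT := (PT.nd (nat_lit 52182) (PT.nd (nat_lit 624) (PT.nd (nat_lit 312) (PT.nd (nat_lit 156) (PT.nd (nat_lit 78) (PT.lf (nat_lit 28196) (nat_lit 6) (nat_lit 371) (nat_lit 1) (nat_lit 177) (nat_lit 165) (nat_lit 168)) (PT.lf (nat_lit 27512) (nat_lit 6) (nat_lit 362) (nat_lit 1) (nat_lit 178) (nat_lit 165) (nat_lit 167))) (PT.nd (nat_lit 78) (PT.lf (nat_lit 26752) (nat_lit 6) (nat_lit 352) (nat_lit 1) (nat_lit 179) (nat_lit 165) (nat_lit 166)) (PT.lf (nat_lit 25916) (nat_lit 3) (nat_lit 341) (nat_lit 0) (nat_lit 180) (nat_lit 165) (nat_lit 165)))) (PT.nd (nat_lit 156) (PT.nd (nat_lit 78) (PT.lf (nat_lit 25080) (nat_lit 6) (nat_lit 330) (nat_lit 0) (nat_lit 181) (nat_lit 165) (nat_lit 164)) (PT.lf (nat_lit 24168) (nat_lit 6) (nat_lit 318) (nat_lit 0) (nat_lit 182) (nat_lit 165) (nat_lit 163))) (PT.nd (nat_lit 78) (PT.lf (nat_lit 23180) (nat_lit 6) (nat_lit 305) (nat_lit 0) (nat_lit 183) (nat_lit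 165) (nat_lit 162)) (PT.lf (nat_lit 22116) (nat_lit 6) (nat_lit 291) (nat_lit 0) (nat_lit 184) (nat_lit 165) (nat_lit 161))))) (PT.nd (nat_lit 51168) (PT.nd (nat_lit 51012) (PT.nd (nat_lit 78) (PT.lf (nat_lit 20976) (nat_lit 6) (nat_lit 276) (nat_lit 0) (nat_lit 185) (nat_lit 165) (nat_lit 160)) (PT.lf (nat_lit 19760) (nat_lit 6) (nat_lit 260) (nat_lit 0) (nat_lit 186) (nat_lit 165) (nat_lit 159))) (PT.nd (nat_lit 78) (PT.lf (nat_lit 19836) (nat_lit 6) (nat_lit 261) (nat_lit 5) (nat_lit 158) (nat_lit 166) (nat_lit 186)) (PT.lf (nat_lit 21052) (nat_lit 6) (nat_lit 277) (nat_lit 5) (nat_lit 159) (nat_lit 166) (nat_lit 185)))) (PT.nd (nat_lit 156) (PT.nd (nat_lit 78) (PT.lf (nat_lit 22192) (nat_lit 6) (nat_lit 292) (nat_lit 5) (nat_lit 160) (nat_lit 166) (nat_lit 184)) (PT.lf (nat_lit 23256) (nat_lit 6) (nat_lit 306) (nat_lit 5) (nat_lit 161) (nat_lit 166) (nat_lit 183))) (PT.nd (nat_lit 78) (PT.lf (nat_lit 24244)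 (nat_lit 6) (nat_lit 319) (nat_lit 5) (nat_lit 162) (nat_lit 166) (nat_lit 182)) (PT.nd (nat_lit 78) (PT.lf (nat_lit 25156) (nat_lit 6) (nat_lit 331) (nat_lit 5) (nat_lit 163) (nat_lit 166) (nat_lit 181)) (PT.lf (nat_lit 25992) (nat_lit 6) (nat_lit 342) (nat_lit 5) (nat_lit 164) (nat_lit 166) (nat_lit 180))))))) (PT.nd (nat_lit 702) (PT.nd (nat_lit 312) (PT.nd (nat_lit 156) (PT.nd (nat_lit 78) (PT.lf (nat_lit 26752) (nat_lit 6) (nat_lit 352) (nat_lit 5) (nat_lit 165) (nat_lit 166) (nat_lit 179)) (PT.lf (nat_lit 27436) (nat_lit 3) (nat_lit 361) (nat_lit 3) (nat_lit 166) (nat_lit 166) (nat_lit 178))) (PT.nd (nat_lit 78) (PT.lf (nat_lit 28120) (nat_lit 6) (nat_lit 370) (nat_lit 3) (nat_lit 167) (nat_lit 166) (nat_lit 177)) (PT.lf (nat_lit 28728) (nat_lit 6) (nat_lit 378) (nat_lit 3) (nat_lit 168) (nat_lit 166) (nat_lit 176)))) (PT.nd (nat_lit 156) (PT.nd (nat_lit 78) (PT.lf (nat_lit 29260) (nat_lit 6) (nat_lit 385)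 (nat_lit 3) (nat_lit 169) (nat_lit 166) (nat_lit 175)) (PT.lf (nat_lit 29716) (nat_lit 6) (nat_lit 391) (nat_lit 3) (nat_lit 170) (nat_lit 166) (nat_lit 174))) (PT.nd (nat_lit 78) (PT.lf (nat_lit 29792) (nat_lit 6) (nat_lit 392) (nat_lit 3) (nat_lit 171) (nat_lit 166) (nat_lit 173)) (PT.nd (nat_lit 78) (PT.lf (nat_lit 29868) (nat_lit 3) (nat_lit 393) (nat_lit 1) (nat_lit 172) (nat_lit 166) (nat_lit 172)) (PT.lf (nat_lit 29792) (nat_lit 6) (nat_lit 392) (nat_lit 1) (nat_lit 173) (nat_lit 166) (nat_lit 171)))))) (PT.nd (nat_lit 312) (PT.nd (nat_lit 156) (PT.nd (nat_lit 78) (PT.lf (nat_lit 29716) (nat_lit 6) (nat_lit 391) (nat_lit 1) (nat_lit 174) (nat_lit 166) (nat_lit 170)) (PT.lf (nat_lit 29260) (nat_lit 6) (nat_lit 385) (nat_lit 1) (nat_lit 175) (nat_lit 166) (nat_lit 169))) (PT.nd (nat_lit 78) (PT.lf (nat_lit 28728) (nat_lit 6) (nat_lit 378) (nat_lit 1) (nat_lit 176) (nat_lit 166) (nat_lit 168)) (PT.lf (nat_lit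 28120) (nat_lit 6) (nat_lit 370) (nat_lit 1) (nat_lit 177) (nat_lit 166) (nat_lit 167)))) (PT.nd (nat_lit 156) (PT.nd (nat_lit 78) (PT.lf (nat_lit 27436) (nat_lit 3) (nat_lit 361) (nat_lit 0) (nat_lit 178) (nat_lit 166) (nat_lit 166)) (PT.lf (nat_lit 26752) (nat_lit 6) (nat_lit 352) (nat_lit 0) (nat_lit 179) (nat_lit 166) (nat_lit 165))) (PT.nd (nat_lit 78) (PT.lf (nat_lit 25992) (nat_lit 6) (nat_lit 342) (nat_lit 0) (nat_lit 180) (nat_lit 166) (nat_lit 164)) (PT.nd (nat_lit 78) (PT.lf (nat_lit 25156) (nat_lit 6) (nat_lit 331) (nat_lit 0) (nat_lit 181) (nat_lit 166) (nat_lit 163)) (PT.lf (nat_lit 24244) (nat_lit 6) (nat_lit 319) (nat_lit 0) (nat_lit 182) (nat_lit 166) (nat_lit 162))))))))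
noncomputable def pc22 : PT := (PT.nd (nat_lit 52104) (PT.nd (nat_lit 51402) (PT.nd (nat_lit 51090) (PT.nd (nat_lit 156) (PT.nd (nat_lit 78) (PT.lf (nat_lit 23256) (nat_lit 6) (nat_lit 306) (nat_lit 0) (nat_lit 183) (nat_lit 166) (nat_lit 161)) (PT.lf (nat_lit 22192) (nat_lit 6) (nat_lit 292) (nat_lit 0) (nat_lit 184) (nat_lit 166) (nat_lit 160))) (PT.nd (nat_lit 78) (PT.lf (nat_lit 21052) (nat_lit 6) (nat_lit 277) (nat_lit 0) (nat_lit 185) (nat_lit 166) (nat_lit 159)) (PT.lf (nat_lit 19836) (nat_lit 6) (nat_lit 261) (nat_lit 0) (nat_lit 186) (nat_lit 166) (nat_lit 158)))) (PT.nd (nat_lit 156) (PT.nd (nat_lit 78) (PT.lf (nat_lit 19912) (nat_lit 6) (nat_lit 262) (nat_lit 5) (nat_lit 157) (nat_lit 167) (nat_lit 186)) (PT.lf (nat_lit 21128) (nat_lit 6) (nat_lit 278) (nat_lit 5) (nat_lit 158) (nat_lit 167) (nat_lit 185))) (PT.nd (nat_lit 78) (PT.lf (nat_lit 22268) (nat_lit 6) (nat_lit 293) (nat_lit 5) (nat_lit 159)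 (nat_lit 167) (nat_lit 184)) (PT.lf (nat_lit 23332) (nat_lit 6) (nat_lit 307) (nat_lit 5) (nat_lit 160) (nat_lit 167) (nat_lit 183))))) (PT.nd (nat_lit 312) (PT.nd (nat_lit 156) (PT.nd (nat_lit 78) (PT.lf (nat_lit 24320) (nat_lit 6) (nat_lit 320) (nat_lit 5) (nat_lit 161) (nat_lit 167) (nat_lit 182)) (PT.lf (nat_lit 25232) (nat_lit 6) (nat_lit 332) (nat_lit 5) (nat_lit 162) (nat_lit 167) (nat_lit 181))) (PT.nd (nat_lit 78) (PT.lf (nat_lit 26068) (nat_lit 6) (nat_lit 343) (nat_lit 5) (nat_lit 163) (nat_lit 167) (nat_lit 180)) (PT.lf (nat_lit 26828) (nat_lit 6) (nat_lit 353) (nat_lit 5) (nat_lit 164) (nat_lit 167) (nat_lit 179)))) (PT.nd (nat_lit 156) (PT.nd (nat_lit 78) (PT.lf (nat_lit 27512) (nat_lit 6) (nat_lit 362) (nat_lit 5) (nat_lit 165) (nat_lit 167) (nat_lit 178)) (PT.lf (nat_lit 28120) (nat_lit 6) (nat_lit 370) (nat_lit 5) (nat_lit 166) (nat_lit 167) (nat_lit 177))) (PT.nd (nat_lit 78) (PT.lf (nat_lit 28652)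 (nat_lit 3) (nat_lit 377) (nat_lit 3) (nat_lit 167) (nat_lit 167) (nat_lit 176)) (PT.nd (nat_lit 78) (PT.lf (nat_lit 29184) (nat_lit 6) (nat_lit 384) (nat_lit 3) (nat_lit 168) (nat_lit 167) (nat_lit 175)) (PT.lf (nat_lit 29640) (nat_lit 6) (nat_lit 390) (nat_lit 3) (nat_lit 169) (nat_lit 167) (nat_lit 174))))))) (PT.nd (nat_lit 702) (PT.nd (nat_lit 312) (PT.nd (nat_lit 156) (PT.nd (nat_lit 78) (PT.lf (nat_lit 30020) (nat_lit 6) (nat_lit 395) (nat_lit 3) (nat_lit 170) (nat_lit 167) (nat_lit 173)) (PT.lf (nat_lit 30096) (nat_lit 6) (nat_lit 396) (nat_lit 3) (nat_lit 171) (nat_lit 167) (nat_lit 172))) (PT.nd (nat_lit 78) (PT.lf (nat_lit 30096) (nat_lit 6) (nat_lit 396) (nat_lit 1) (nat_lit 172) (nat_lit 167) (nat_lit 171)) (PT.lf (nat_lit 30020) (nat_lit 6) (nat_lit 395) (nat_lit 1) (nat_lit 173) (nat_lit 167) (nat_lit 170)))) (PT.nd (nat_lit 156) (PT.nd (nat_lit 78) (PT.lf (nat_lit 29640) (nat_lit 6) (nat_lit 390)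 (nat_lit 1) (nat_lit 174) (nat_lit 167) (nat_lit 169)) (PT.lf (nat_lit 29184) (nat_lit 6) (nat_lit 384) (nat_lit 1) (nat_lit 175) (nat_lit 167) (nat_lit 168))) (PT.nd (nat_lit 78) (PT.lf (nat_lit 28652) (nat_lit 3) (nat_lit 377) (nat_lit 0) (nat_lit 176) (nat_lit 167) (nat_lit 167)) (PT.nd (nat_lit 78) (PT.lf (nat_lit 28120) (nat_lit 6) (nat_lit 370) (nat_lit 0) (nat_lit 177) (nat_lit 167) (nat_lit 166)) (PT.lf (nat_lit 27512) (nat_lit 6) (nat_lit 362) (nat_lit 0) (nat_lit 178) (nat_lit 167) (nat_lit 165)))))) (PT.nd (nat_lit 312) (PT.nd (nat_lit 156) (PT.nd (nat_lit 78) (PT.lf (nat_lit 26828) (nat_lit 6) (nat_lit 353) (nat_lit 0) (nat_lit 179) (nat_lit 167) (nat_lit 164)) (PT.lf (nat_lit 26068) (nat_lit 6) (nat_lit 343) (nat_lit 0) (nat_lit 180) (nat_lit 167) (nat_lit 163))) (PT.nd (nat_lit 78) (PT.lf (nat_lit 25232) (nat_lit 6) (nat_lit 332) (nat_lit 0) (nat_lit 181) (nat_lit 167) (nat_lit 162)) (PT.lf (nat_lit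 24320) (nat_lit 6) (nat_lit 320) (nat_lit 0) (nat_lit 182) (nat_lit 167) (nat_lit 161)))) (PT.nd (nat_lit 156) (PT.nd (nat_lit 78) (PT.lf (nat_lit 23332) (nat_lit 6) (nat_lit 307) (nat_lit 0) (nat_lit 183) (nat_lit 167) (nat_lit 160)) (PT.lf (nat_lit 22268) (nat_lit 6) (nat_lit 293) (nat_lit 0) (nat_lit 184) (nat_lit 167) (nat_lit 159))) (PT.nd (nat_lit 78) (PT.lf (nat_lit 21128) (nat_lit 6) (nat_lit 278) (nat_lit 0) (nat_lit 185) (nat_lit 167) (nat_lit 158)) (PT.nd (nat_lit 50778) (PT.lf (nat_lit 19912) (nat_lit 6) (nat_lit 262) (nat_lit 0) (nat_lit 186) (nat_lit 167) (nat_lit 157)) (PT.lf (nat_lit 19988) (nat_lit 6) (nat_lit 263) (nat_lit 5) (nat_lit 156) (nat_lit 168) (nat_lit 186))))))))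
noncomputable def pc23 : PT := (PT.nd (nat_lit 1326) (PT.nd (nat_lit 624) (PT.nd (nat_lit 312) (PT.nd (nat_lit 156) (PT.nd (nat_lit 78) (PT.lf (nat_lit 21204) (nat_lit 6) (nat_lit 279) (nat_lit 5) (nat_lit 157) (nat_lit 168) (nat_lit 185)) (PT.lf (nat_lit 22344) (nat_lit 6) (nat_lit 294) (nat_lit 5) (nat_lit 158) (nat_lit 168) (nat_lit 184))) (PT.nd (nat_lit 78) (PT.lf (nat_lit 23408) (nat_lit 6) (nat_lit 308) (nat_lit 5) (nat_lit 159) (nat_lit 168) (nat_lit 183)) (PT.lf (nat_lit 24396) (nat_lit 6) (nat_lit 321) (nat_lit 5) (nat_lit 160) (nat_lit 168) (nat_lit 182)))) (PT.nd (nat_lit 156) (PT.nd (nat_lit 78) (PT.lf (nat_lit 25308) (nat_lit 6) (nat_lit 333) (nat_lit 5) (nat_lit 161) (nat_lit 168) (nat_lit 181)) (PT.lf (nat_lit 26144) (nat_lit 6) (nat_lit 344) (nat_lit 5) (nat_lit 162) (nat_lit 168) (nat_lit 180))) (PT.nd (nat_lit 78) (PT.lf (nat_lit 26904) (nat_lit 6) (nat_lit 354) (nat_lit 5) (nat_lit 163) (nat_lit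 168) (nat_lit 179)) (PT.lf (nat_lit 27588) (nat_lit 6) (nat_lit 363) (nat_lit 5) (nat_lit 164) (nat_lit 168) (nat_lit 178))))) (PT.nd (nat_lit 312) (PT.nd (nat_lit 156) (PT.nd (nat_lit 78) (PT.lf (nat_lit 28196) (nat_lit 6) (nat_lit 371) (nat_lit 5) (nat_lit 165) (nat_lit 168) (nat_lit 177)) (PT.lf (nat_lit 28728) (nat_lit 6) (nat_lit 378) (nat_lit 5) (nat_lit 166) (nat_lit 168) (nat_lit 176))) (PT.nd (nat_lit 78) (PT.lf (nat_lit 29184) (nat_lit 6) (nat_lit 384) (nat_lit 5) (nat_lit 167) (nat_lit 168) (nat_lit 175)) (PT.lf (nat_lit 29564) (nat_lit 3) (nat_lit 389) (nat_lit 3) (nat_lit 168) (nat_lit 168) (nat_lit 174)))) (PT.nd (nat_lit 156) (PT.nd (nat_lit 78) (PT.lf (nat_lit 29944) (nat_lit 6) (nat_lit 394) (nat_lit 3) (nat_lit 169) (nat_lit 168) (nat_lit 173)) (PT.lf (nat_lit 30248) (nat_lit 6) (nat_lit 398) (nat_lit 3) (nat_lit 170) (nat_lit 168) (nat_lit 172))) (PT.nd (nat_lit 78) (PT.lf (nat_lit 30324) (nat_lit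 3) (nat_lit 399) (nat_lit 1) (nat_lit 171) (nat_lit 168) (nat_lit 171)) (PT.nd (nat_lit 78) (PT.lf (nat_lit 30248) (nat_lit 6) (nat_lit 398) (nat_lit 1) (nat_lit 172) (nat_lit 168) (nat_lit 170)) (PT.lf (nat_lit 29944) (nat_lit 6) (nat_lit 394) (nat_lit 1) (nat_lit 173) (nat_lit 168) (nat_lit 169))))))) (PT.nd (nat_lit 702) (PT.nd (nat_lit 312) (PT.nd (nat_lit 156) (PT.nd (nat_lit 78) (PT.lf (nat_lit 29564) (nat_lit 3) (nat_lit 389) (nat_lit 0) (nat_lit 174) (nat_lit 168) (nat_lit 168)) (PT.lf (nat_lit 29184) (nat_lit 6) (nat_lit 384) (nat_lit 0) (nat_lit 175) (nat_lit 168) (nat_lit 167))) (PT.nd (nat_lit 78) (PT.lf (nat_lit 28728) (nat_lit 6) (nat_lit 378) (nat_lit 0) (nat_lit 176) (nat_lit 168) (nat_lit 166)) (PT.lf (nat_lit 28196) (nat_lit 6) (nat_lit 371) (nat_lit 0) (nat_lit 177) (nat_lit 168) (nat_lit 165)))) (PT.nd (nat_lit 156) (PT.nd (nat_lit 78) (PT.lf (nat_lit 27588) (nat_lit 6) (nat_lit 363) (nat_lit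 0) (nat_lit 178) (nat_lit 168) (nat_lit 164)) (PT.lf (nat_lit 26904) (nat_lit 6) (nat_lit 354) (nat_lit 0) (nat_lit 179) (nat_lit 168) (nat_lit 163))) (PT.nd (nat_lit 78) (PT.lf (nat_lit 26144) (nat_lit 6) (nat_lit 344) (nat_lit 0) (nat_lit 180) (nat_lit 168) (nat_lit 162)) (PT.nd (nat_lit 78) (PT.lf (nat_lit 25308) (nat_lit 6) (nat_lit 333) (nat_lit 0) (nat_lit 181) (nat_lit 168) (nat_lit 161)) (PT.lf (nat_lit 24396) (nat_lit 6) (nat_lit 321) (nat_lit 0) (nat_lit 182) (nat_lit 168) (nat_lit 160)))))) (PT.nd (nat_lit 50934) (PT.nd (nat_lit 156) (PT.nd (nat_lit 78) (PT.lf (nat_lit 23408) (nat_lit 6) (nat_lit 308) (nat_lit 0) (nat_lit 183) (nat_lit 168) (nat_lit 159)) (PT.lf (nat_lit 22344) (nat_lit 6) (nat_lit 294) (nat_lit 0) (nat_lit 184) (nat_lit 168) (nat_lit 158))) (PT.nd (nat_lit 78) (PT.lf (nat_lit 21204) (nat_lit 6) (nat_lit 279) (nat_lit 0) (nat_lit 185) (nat_lit 168) (nat_lit 157)) (PT.lf (nat_lit 19988)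 (nat_lit 6) (nat_lit 263) (nat_lit 0) (nat_lit 186) (nat_lit 168) (nat_lit 156)))) (PT.nd (nat_lit 156) (PT.nd (nat_lit 78) (PT.lf (nat_lit 20064) (nat_lit 6) (nat_lit 264) (nat_lit 5) (nat_lit 155) (nat_lit 169) (nat_lit 186)) (PT.lf (nat_lit 21280) (nat_lit 6) (nat_lit 280) (nat_lit 5) (nat_lit 156) (nat_lit 169) (nat_lit 185))) (PT.nd (nat_lit 78) (PT.lf (nat_lit 22420) (nat_lit 6) (nat_lit 295) (nat_lit 5) (nat_lit 157) (nat_lit 169) (nat_lit 184)) (PT.nd (nat_lit 78) (PT.lf (nat_lit 23484) (nat_lit 6) (nat_lit 309) (nat_lit 5) (nat_lit 158) (nat_lit 169) (nat_lit 183)) (PT.lf (nat_lit 24472) (nat_lit 6) (nat_lit 322) (nat_lit 5) (nat_lit 159) (nat_lit 169) (nat_lit 182))))))))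
noncomputable def pc24 : PT := (PT.nd (nat_lit 1326) (PT.nd (nat_lit 624) (PT.nd (nat_lit 312) (PT.nd (nat_lit 156) (PT.nd (nat_lit 78) (PT.lf (nat_lit 25384) (nat_lit 6) (nat_lit 334) (nat_lit 5) (nat_lit 160) (nat_lit 169) (nat_lit 181)) (PT.lf (nat_lit 26220) (nat_lit 6) (nat_lit 345) (nat_lit 5) (nat_lit 161) (nat_lit 169) (nat_lit 180))) (PT.nd (nat_lit 78) (PT.lf (nat_lit 26980) (nat_lit 6) (nat_lit 355) (nat_lit 5) (nat_lit 162) (nat_lit 169) (nat_lit 179)) (PT.lf (nat_lit 27664) (nat_lit 6) (nat_lit 364) (nat_lit 5) (nat_lit 163) (nat_lit 169) (nat_lit 178)))) (PT.nd (nat_lit 156) (PT.nd (nat_lit 78) (PT.lf (nat_lit 28272) (nat_lit 6) (nat_lit 372) (nat_lit 5) (nat_lit 164) (nat_lit 169) (nat_lit 177)) (PT.lf (nat_lit 28804) (nat_lit 6) (nat_lit 379) (nat_lit 5) (nat_lit 165) (nat_lit 169) (nat_lit 176))) (PT.nd (nat_lit 78) (PT.lf (nat_lit 29260) (nat_lit 6) (nat_lit 385) (nat_lit 5) (nat_lit 166) (nat_lit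 169) (nat_lit 175)) (PT.lf (nat_lit 29640) (nat_lit 6) (nat_lit 390) (nat_lit 5) (nat_lit 167) (nat_lit 169) (nat_lit 174))))) (PT.nd (nat_lit 312) (PT.nd (nat_lit 156) (PT.nd (nat_lit 78) (PT.lf (nat_lit 29944) (nat_lit 6) (nat_lit 394) (nat_lit 5) (nat_lit 168) (nat_lit 169) (nat_lit 173)) (PT.lf (nat_lit 30172) (nat_lit 3) (nat_lit 397) (nat_lit 3) (nat_lit 169) (nat_lit 169) (nat_lit 172))) (PT.nd (nat_lit 78) (PT.lf (nat_lit 30400) (nat_lit 6) (nat_lit 400) (nat_lit 3) (nat_lit 170) (nat_lit 169) (nat_lit 171)) (PT.lf (nat_lit 30400) (nat_lit 6) (nat_lit 400) (nat_lit 1) (nat_lit 171) (nat_lit 169) (nat_lit 170)))) (PT.nd (nat_lit 156) (PT.nd (nat_lit 78) (PT.lf (nat_lit 30172) (nat_lit 3) (nat_lit 397) (nat_lit 0) (nat_lit 172) (nat_lit 169) (nat_lit 169)) (PT.lf (nat_lit 29944) (nat_lit 6) (nat_lit 394) (nat_lit 0) (nat_lit 173) (nat_lit 169) (nat_lit 168))) (PT.nd (nat_lit 78) (PT.lf (nat_lit 29640) (nat_lit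 6) (nat_lit 390) (nat_lit 0) (nat_lit 174) (nat_lit 169) (nat_lit 167)) (PT.nd (nat_lit 78) (PT.lf (nat_lit 29260) (nat_lit 6) (nat_lit 385) (nat_lit 0) (nat_lit 175) (nat_lit 169) (nat_lit 166)) (PT.lf (nat_lit 28804) (nat_lit 6) (nat_lit 379) (nat_lit 0) (nat_lit 176) (nat_lit 169) (nat_lit 165))))))) (PT.nd (nat_lit 624) (PT.nd (nat_lit 312) (PT.nd (nat_lit 156) (PT.nd (nat_lit 78) (PT.lf (nat_lit 28272) (nat_lit 6) (nat_lit 372) (nat_lit 0) (nat_lit 177) (nat_lit 169) (nat_lit 164)) (PT.lf (nat_lit 27664) (nat_lit 6) (nat_lit 364) (nat_lit 0) (nat_lit 178) (nat_lit 169) (nat_lit 163))) (PT.nd (nat_lit 78) (PT.lf (nat_lit 26980) (nat_lit 6) (nat_lit 355) (nat_lit 0) (nat_lit 179) (nat_lit 169) (nat_lit 162)) (PT.lf (nat_lit 26220) (nat_lit 6) (nat_lit 345) (nat_lit 0) (nat_lit 180) (nat_lit 169) (nat_lit 161)))) (PT.nd (nat_lit 156) (PT.nd (nat_lit 78) (PT.lf (nat_lit 25384) (nat_lit 6) (nat_lit 334) (nat_lit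 0) (nat_lit 181) (nat_lit 169) (nat_lit 160)) (PT.lf (nat_lit 24472) (nat_lit 6) (nat_lit 322) (nat_lit 0) (nat_lit 182) (nat_lit 169) (nat_lit 159))) (PT.nd (nat_lit 78) (PT.lf (nat_lit 23484) (nat_lit 6) (nat_lit 309) (nat_lit 0) (nat_lit 183) (nat_lit 169) (nat_lit 158)) (PT.lf (nat_lit 22420) (nat_lit 6) (nat_lit 295) (nat_lit 0) (nat_lit 184) (nat_lit 169) (nat_lit 157))))) (PT.nd (nat_lit 50778) (PT.nd (nat_lit 50622) (PT.nd (nat_lit 78) (PT.lf (nat_lit 21280) (nat_lit 6) (nat_lit 280) (nat_lit 0) (nat_lit 185) (nat_lit 169) (nat_lit 156)) (PT.lf (nat_lit 20064) (nat_lit 6) (nat_lit 264) (nat_lit 0) (nat_lit 186) (nat_lit 169) (nat_lit 155))) (PT.nd (nat_lit 78) (PT.lf (nat_lit 18848) (nat_lit 6) (nat_lit 248) (nat_lit 5) (nat_lit 153) (nat_lit 170) (nat_lit 187)) (PT.lf (nat_lit 20140) (nat_lit 6) (nat_lit 265) (nat_lit 5) (nat_lit 154) (nat_lit 170) (nat_lit 186)))) (PT.nd (nat_lit 156) (PT.nd (nat_lit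 78) (PT.lf (nat_lit 21356) (nat_lit 6) (nat_lit 281) (nat_lit 5) (nat_lit 155) (nat_lit 170) (nat_lit 185)) (PT.lf (nat_lit 22496) (nat_lit 6) (nat_lit 296) (nat_lit 5) (nat_lit 156) (nat_lit 170) (nat_lit 184))) (PT.nd (nat_lit 78) (PT.lf (nat_lit 23560) (nat_lit 6) (nat_lit 310) (nat_lit 5) (nat_lit 157) (nat_lit 170) (nat_lit 183)) (PT.nd (nat_lit 78) (PT.lf (nat_lit 24548) (nat_lit 6) (nat_lit 323) (nat_lit 5) (nat_lit 158) (nat_lit 170) (nat_lit 182)) (PT.lf (nat_lit 25460) (nat_lit 6) (nat_lit 335) (nat_lit 5) (nat_lit 159) (nat_lit 170) (nat_lit 181))))))))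
noncomputable def pc25 : PT := (PT.nd (nat_lit 1326) (PT.nd (nat_lit 624) (PT.nd (nat_lit 312) (PT.nd (nat_lit 156) (PT.nd (nat_lit 78) (PT.lf (nat_lit 26296) (nat_lit 6) (nat_lit 346) (nat_lit 5) (nat_lit 160) (nat_lit 170) (nat_lit 180)) (PT.lf (nat_lit 27056) (nat_lit 6) (nat_lit 356) (nat_lit 5) (nat_lit 161) (nat_lit 170) (nat_lit 179))) (PT.nd (nat_lit 78) (PT.lf (nat_lit 27740) (nat_lit 6) (nat_lit 365) (nat_lit 5) (nat_lit 162) (nat_lit 170) (nat_lit 178)) (PT.lf (nat_lit 28348) (nat_lit 6) (nat_lit 373) (nat_lit 5) (nat_lit 163) (nat_lit 170) (nat_lit 177)))) (PT.nd (nat_lit 156) (PT.nd (nat_lit 78) (PT.lf (nat_lit 28880) (nat_lit 6) (nat_lit 380) (nat_lit 5) (nat_lit 164) (nat_lit 170) (nat_lit 176)) (PT.lf (nat_lit 29336) (nat_lit 6) (nat_lit 386) (nat_lit 5) (nat_lit 165) (nat_lit 170) (nat_lit 175))) (PT.nd (nat_lit 78) (PT.lf (nat_lit 29716) (nat_lit 6) (nat_lit 391) (nat_lit 5) (nat_lit 166) (nat_lit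 170) (nat_lit 174)) (PT.lf (nat_lit 30020) (nat_lit 6) (nat_lit 395) (nat_lit 5) (nat_lit 167) (nat_lit 170) (nat_lit 173))))) (PT.nd (nat_lit 312) (PT.nd (nat_lit 156) (PT.nd (nat_lit 78) (PT.lf (nat_lit 30248) (nat_lit 6) (nat_lit 398) (nat_lit 5) (nat_lit 168) (nat_lit 170) (nat_lit 172)) (PT.lf (nat_lit 30400) (nat_lit 6) (nat_lit 400) (nat_lit 5) (nat_lit 169) (nat_lit 170) (nat_lit 171))) (PT.nd (nat_lit 78) (PT.lf (nat_lit 30476) (nat_lit 1) (nat_lit 401) (nat_lit 0) (nat_lit 170) (nat_lit 170) (nat_lit 170)) (PT.lf (nat_lit 30400) (nat_lit 6) (nat_lit 400) (nat_lit 0) (nat_lit 171) (nat_lit 170) (nat_lit 169)))) (PT.nd (nat_lit 156) (PT.nd (nat_lit 78) (PT.lf (nat_lit 30248) (nat_lit 6) (nat_lit 398) (nat_lit 0) (nat_lit 172) (nat_lit 170) (nat_lit 168)) (PT.lf (nat_lit 30020) (nat_lit 6) (nat_lit 395) (nat_lit 0) (nat_lit 173) (nat_lit 170) (nat_lit 167))) (PT.nd (nat_lit 78) (PT.lf (nat_lit 29716) (nat_lit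 6) (nat_lit 391) (nat_lit 0) (nat_lit 174) (nat_lit 170) (nat_lit 166)) (PT.nd (nat_lit 78) (PT.lf (nat_lit 29336) (nat_lit 6) (nat_lit 386) (nat_lit 0) (nat_lit 175) (nat_lit 170) (nat_lit 165)) (PT.lf (nat_lit 28880) (nat_lit 6) (nat_lit 380) (nat_lit 0) (nat_lit 176) (nat_lit 170) (nat_lit 164))))))) (PT.nd (nat_lit 702) (PT.nd (nat_lit 312) (PT.nd (nat_lit 156) (PT.nd (nat_lit 78) (PT.lf (nat_lit 28348) (nat_lit 6) (nat_lit 373) (nat_lit 0) (nat_lit 177) (nat_lit 170) (nat_lit 163)) (PT.lf (nat_lit 27740) (nat_lit 6) (nat_lit 365) (nat_lit 0) (nat_lit 178) (nat_lit 170) (nat_lit 162))) (PT.nd (nat_lit 78) (PT.lf (nat_lit 27056) (nat_lit 6) (nat_lit 356) (nat_lit 0) (nat_lit 179) (nat_lit 170) (nat_lit 161)) (PT.lf (nat_lit 26296) (nat_lit 6) (nat_lit 346) (nat_lit 0) (nat_lit 180) (nat_lit 170) (nat_lit 160)))) (PT.nd (nat_lit 156) (PT.nd (nat_lit 78) (PT.lf (nat_lit 25460) (nat_lit 6) (nat_lit 335) (nat_lit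 0) (nat_lit 181) (nat_lit 170) (nat_lit 159)) (PT.lf (nat_lit 24548) (nat_lit 6) (nat_lit 323) (nat_lit 0) (nat_lit 182) (nat_lit 170) (nat_lit 158))) (PT.nd (nat_lit 78) (PT.lf (nat_lit 23560) (nat_lit 6) (nat_lit 310) (nat_lit 0) (nat_lit 183) (nat_lit 170) (nat_lit 157)) (PT.nd (nat_lit 78) (PT.lf (nat_lit 22496) (nat_lit 6) (nat_lit 296) (nat_lit 0) (nat_lit 184) (nat_lit 170) (nat_lit 156)) (PT.lf (nat_lit 21356) (nat_lit 6) (nat_lit 281) (nat_lit 0) (nat_lit 185) (nat_lit 170) (nat_lit 155)))))) (PT.nd (nat_lit 50622) (PT.nd (nat_lit 50466) (PT.nd (nat_lit 78) (PT.lf (nat_lit 20140) (nat_lit 6) (nat_lit 265) (nat_lit 0) (nat_lit 186) (nat_lit 170) (nat_lit 154)) (PT.lf (nat_lit 18848) (nat_lit 6) (nat_lit 248) (nat_lit 0) (nat_lit 187) (nat_lit 170) (nat_lit 153))) (PT.nd (nat_lit 78) (PT.lf (nat_lit 18164) (nat_lit 6) (nat_lit 239) (nat_lit 5) (nat_lit 152) (nat_lit 171) (nat_lit 187)) (PT.lf (nat_lit 18924)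 (nat_lit 6) (nat_lit 249) (nat_lit 5) (nat_lit 153) (nat_lit 171) (nat_lit 186)))) (PT.nd (nat_lit 156) (PT.nd (nat_lit 78) (PT.lf (nat_lit 20216) (nat_lit 6) (nat_lit 266) (nat_lit 5) (nat_lit 154) (nat_lit 171) (nat_lit 185)) (PT.lf (nat_lit 21432) (nat_lit 6) (nat_lit 282) (nat_lit 5) (nat_lit 155) (nat_lit 171) (nat_lit 184))) (PT.nd (nat_lit 78) (PT.lf (nat_lit 22572) (nat_lit 6) (nat_lit 297) (nat_lit 5) (nat_lit 156) (nat_lit 171) (nat_lit 183)) (PT.nd (nat_lit 78) (PT.lf (nat_lit 23636) (nat_lit 6) (nat_lit 311) (nat_lit 5) (nat_lit 157) (nat_lit 171) (nat_lit 182)) (PT.lf (nat_lit 24624) (nat_lit 6) (nat_lit 324) (nat_lit 5) (nat_lit 158) (nat_lit 171) (nat_lit 181))))))))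
noncomputable def pc26 : PT := (PT.nd (nat_lit 1326) (PT.nd (nat_lit 624) (PT.nd (nat_lit 312) (PT.nd (nat_lit 156) (PT.nd (nat_lit 78) (PT.lf (nat_lit 25536) (nat_lit 6) (nat_lit 336) (nat_lit 5) (nat_lit 159) (nat_lit 171) (nat_lit 180)) (PT.lf (nat_lit 26372) (nat_lit 6) (nat_lit 347) (nat_lit 5) (nat_lit 160) (nat_lit 171) (nat_lit 179))) (PT.nd (nat_lit 78) (PT.lf (nat_lit 27132) (nat_lit 6) (nat_lit 357) (nat_lit 5) (nat_lit 161) (nat_lit 171) (nat_lit 178)) (PT.lf (nat_lit 27816) (nat_lit 6) (nat_lit 366) (nat_lit 5) (nat_lit 162) (nat_lit 171) (nat_lit 177)))) (PT.nd (nat_lit 156) (PT.nd (nat_lit 78) (PT.lf (nat_lit 28424) (nat_lit 6) (nat_lit 374) (nat_lit 5) (nat_lit 163) (nat_lit 171) (nat_lit 176)) (PT.lf (nat_lit 28956) (nat_lit 6) (nat_lit 381) (nat_lit 5) (nat_lit 164) (nat_lit 171) (nat_lit 175))) (PT.nd (nat_lit 78) (PT.lf (nat_lit 29412) (nat_lit 6) (nat_lit 387) (nat_lit 5) (nat_lit 165) (nat_lit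 171) (nat_lit 174)) (PT.lf (nat_lit 29792) (nat_lit 6) (nat_lit 392) (nat_lit 5) (nat_lit 166) (nat_lit 171) (nat_lit 173))))) (PT.nd (nat_lit 312) (PT.nd (nat_lit 156) (PT.nd (nat_lit 78) (PT.lf (nat_lit 30096) (nat_lit 6) (nat_lit 396) (nat_lit 5) (nat_lit 167) (nat_lit 171) (nat_lit 172)) (PT.lf (nat_lit 30324) (nat_lit 3) (nat_lit 399) (nat_lit 4) (nat_lit 168) (nat_lit 171) (nat_lit 171))) (PT.nd (nat_lit 78) (PT.lf (nat_lit 30400) (nat_lit 6) (nat_lit 400) (nat_lit 4) (nat_lit 169) (nat_lit 171) (nat_lit 170)) (PT.lf (nat_lit 30400) (nat_lit 6) (nat_lit 400) (nat_lit 2) (nat_lit 170) (nat_lit 171) (nat_lit 169)))) (PT.nd (nat_lit 156) (PT.nd (nat_lit 78) (PT.lf (nat_lit 30324) (nat_lit 3) (nat_lit 399) (nat_lit 0) (nat_lit 171) (nat_lit 171) (nat_lit 168)) (PT.lf (nat_lit 30096) (nat_lit 6) (nat_lit 396) (nat_lit 0) (nat_lit 172) (nat_lit 171) (nat_lit 167))) (PT.nd (nat_lit 78) (PT.lf (nat_lit 29792) (nat_lit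 6) (nat_lit 392) (nat_lit 0) (nat_lit 173) (nat_lit 171) (nat_lit 166)) (PT.nd (nat_lit 78) (PT.lf (nat_lit 29412) (nat_lit 6) (nat_lit 387) (nat_lit 0) (nat_lit 174) (nat_lit 171) (nat_lit 165)) (PT.lf (nat_lit 28956) (nat_lit 6) (nat_lit 381) (nat_lit 0) (nat_lit 175) (nat_lit 171) (nat_lit 164))))))) (PT.nd (nat_lit 702) (PT.nd (nat_lit 312) (PT.nd (nat_lit 156) (PT.nd (nat_lit 78) (PT.lf (nat_lit 28424) (nat_lit 6) (nat_lit 374) (nat_lit 0) (nat_lit 176) (nat_lit 171) (nat_lit 163)) (PT.lf (nat_lit 27816) (nat_lit 6) (nat_lit 366) (nat_lit 0) (nat_lit 177) (nat_lit 171) (nat_lit 162))) (PT.nd (nat_lit 78) (PT.lf (nat_lit 27132) (nat_lit 6) (nat_lit 357) (nat_lit 0) (nat_lit 178) (nat_lit 171) (nat_lit 161)) (PT.lf (nat_lit 26372) (nat_lit 6) (nat_lit 347) (nat_lit 0) (nat_lit 179) (nat_lit 171) (nat_lit 160)))) (PT.nd (nat_lit 156) (PT.nd (nat_lit 78) (PT.lf (nat_lit 25536) (nat_lit 6) (nat_lit 336) (nat_lit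 0) (nat_lit 180) (nat_lit 171) (nat_lit 159)) (PT.lf (nat_lit 24624) (nat_lit 6) (nat_lit 324) (nat_lit 0) (nat_lit 181) (nat_lit 171) (nat_lit 158))) (PT.nd (nat_lit 78) (PT.lf (nat_lit 23636) (nat_lit 6) (nat_lit 311) (nat_lit 0) (nat_lit 182) (nat_lit 171) (nat_lit 157)) (PT.nd (nat_lit 78) (PT.lf (nat_lit 22572) (nat_lit 6) (nat_lit 297) (nat_lit 0) (nat_lit 183) (nat_lit 171) (nat_lit 156)) (PT.lf (nat_lit 21432) (nat_lit 6) (nat_lit 282) (nat_lit 0) (nat_lit 184) (nat_lit 171) (nat_lit 155)))))) (PT.nd (nat_lit 50544) (PT.nd (nat_lit 156) (PT.nd (nat_lit 78) (PT.lf (nat_lit 20216) (nat_lit 6) (nat_lit 266) (nat_lit 0) (nat_lit 185) (nat_lit 171) (nat_lit 154)) (PT.lf (nat_lit 18924) (nat_lit 6) (nat_lit 249) (nat_lit 0) (nat_lit 186) (nat_lit 171) (nat_lit 153))) (PT.nd (nat_lit 50310) (PT.lf (nat_lit 18164) (nat_lit 6) (nat_lit 239) (nat_lit 0) (nat_lit 187) (nat_lit 171) (nat_lit 152)) (PT.lf (nat_lit 17556)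 (nat_lit 6) (nat_lit 231) (nat_lit 5) (nat_lit 151) (nat_lit 172) (nat_lit 187)))) (PT.nd (nat_lit 156) (PT.nd (nat_lit 78) (PT.lf (nat_lit 18240) (nat_lit 6) (nat_lit 240) (nat_lit 5) (nat_lit 152) (nat_lit 172) (nat_lit 186)) (PT.lf (nat_lit 19000) (nat_lit 6) (nat_lit 250) (nat_lit 5) (nat_lit 153) (nat_lit 172) (nat_lit 185))) (PT.nd (nat_lit 78) (PT.lf (nat_lit 20292) (nat_lit 6) (nat_lit 267) (nat_lit 5) (nat_lit 154) (nat_lit 172) (nat_lit 184)) (PT.nd (nat_lit 78) (PT.lf (nat_lit 21508) (nat_lit 6) (nat_lit 283) (nat_lit 5) (nat_lit 155) (nat_lit 172) (nat_lit 183)) (PT.lf (nat_lit 22648) (nat_lit 6) (nat_lit 298) (nat_lit 5) (nat_lit 156) (nat_lit 172) (nat_lit 182))))))))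
noncomputable def pc27 : PT := (PT.nd (nat_lit 1326) (PT.nd (nat_lit 624) (PT.nd (nat_lit 312) (PT.nd (nat_lit 156) (PT.nd (nat_lit 78) (PT.lf (nat_lit 23712) (nat_lit 6) (nat_lit 312) (nat_lit 5) (nat_lit 157) (nat_lit 172) (nat_lit 181)) (PT.lf (nat_lit 24700) (nat_lit 6) (nat_lit 325) (nat_lit 5) (nat_lit 158) (nat_lit 172) (nat_lit 180))) (PT.nd (nat_lit 78) (PT.lf (nat_lit 25612) (nat_lit 6) (nat_lit 337) (nat_lit 5) (nat_lit 159) (nat_lit 172) (nat_lit 179)) (PT.lf (nat_lit 26448) (nat_lit 6) (nat_lit 348) (nat_lit 5) (nat_lit 160) (nat_lit 172) (nat_lit 178)))) (PT.nd (nat_lit 156) (PT.nd (nat_lit 78) (PT.lf (nat_lit 27208) (nat_lit 6) (nat_lit 358) (nat_lit 5) (nat_lit 161) (nat_lit 172) (nat_lit 177)) (PT.lf (nat_lit 27892) (nat_lit 6) (nat_lit 367) (nat_lit 5) (nat_lit 162) (nat_lit 172) (nat_lit 176))) (PT.nd (nat_lit 78) (PT.lf (nat_lit 28500) (nat_lit 6) (nat_lit 375) (nat_lit 5) (nat_lit 163) (nat_lit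 172) (nat_lit 175)) (PT.lf (nat_lit 29032) (nat_lit 6) (nat_lit 382) (nat_lit 5) (nat_lit 164) (nat_lit 172) (nat_lit 174))))) (PT.nd (nat_lit 312) (PT.nd (nat_lit 156) (PT.nd (nat_lit 78) (PT.lf (nat_lit 29488) (nat_lit 6) (nat_lit 388) (nat_lit 5) (nat_lit 165) (nat_lit 172) (nat_lit 173)) (PT.lf (nat_lit 29868) (nat_lit 3) (nat_lit 393) (nat_lit 4) (nat_lit 166) (nat_lit 172) (nat_lit 172))) (PT.nd (nat_lit 78) (PT.lf (nat_lit 30096) (nat_lit 6) (nat_lit 396) (nat_lit 4) (nat_lit 167) (nat_lit 172) (nat_lit 171)) (PT.lf (nat_lit 30248) (nat_lit 6) (nat_lit 398) (nat_lit 4) (nat_lit 168) (nat_lit 172) (nat_lit 170)))) (PT.nd (nat_lit 156) (PT.nd (nat_lit 78) (PT.lf (nat_lit 30172) (nat_lit 3) (nat_lit 397) (nat_lit 2) (nat_lit 169) (nat_lit 172) (nat_lit 169)) (PT.lf (nat_lit 30248) (nat_lit 6) (nat_lit 398) (nat_lit 2) (nat_lit 170) (nat_lit 172) (nat_lit 168))) (PT.nd (nat_lit 78) (PT.lf (nat_lit 30096) (nat_lit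 6) (nat_lit 396) (nat_lit 2) (nat_lit 171) (nat_lit 172) (nat_lit 167)) (PT.nd (nat_lit 78) (PT.lf (nat_lit 29868) (nat_lit 3) (nat_lit 393) (nat_lit 0) (nat_lit 172) (nat_lit 172) (nat_lit 166)) (PT.lf (nat_lit 29488) (nat_lit 6) (nat_lit 388) (nat_lit 0) (nat_lit 173) (nat_lit 172) (nat_lit 165))))))) (PT.nd (nat_lit 702) (PT.nd (nat_lit 312) (PT.nd (nat_lit 156) (PT.nd (nat_lit 78) (PT.lf (nat_lit 29032) (nat_lit 6) (nat_lit 382) (nat_lit 0) (nat_lit 174) (nat_lit 172) (nat_lit 164)) (PT.lf (nat_lit 28500) (nat_lit 6) (nat_lit 375) (nat_lit 0) (nat_lit 175) (nat_lit 172) (nat_lit 163))) (PT.nd (nat_lit 78) (PT.lf (nat_lit 27892) (nat_lit 6) (nat_lit 367) (nat_lit 0) (nat_lit 176) (nat_lit 172) (nat_lit 162)) (PT.lf (nat_lit 27208) (nat_lit 6) (nat_lit 358) (nat_lit 0) (nat_lit 177) (nat_lit 172) (nat_lit 161)))) (PT.nd (nat_lit 156) (PT.nd (nat_lit 78) (PT.lf (nat_lit 26448) (nat_lit 6) (nat_lit 348) (nat_lit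 0) (nat_lit 178) (nat_lit 172) (nat_lit 160)) (PT.lf (nat_lit 25612) (nat_lit 6) (nat_lit 337) (nat_lit 0) (nat_lit 179) (nat_lit 172) (nat_lit 159))) (PT.nd (nat_lit 78) (PT.lf (nat_lit 24700) (nat_lit 6) (nat_lit 325) (nat_lit 0) (nat_lit 180) (nat_lit 172) (nat_lit 158)) (PT.nd (nat_lit 78) (PT.lf (nat_lit 23712) (nat_lit 6) (nat_lit 312) (nat_lit 0) (nat_lit 181) (nat_lit 172) (nat_lit 157)) (PT.lf (nat_lit 22648) (nat_lit 6) (nat_lit 298) (nat_lit 0) (nat_lit 182) (nat_lit 172) (nat_lit 156)))))) (PT.nd (nat_lit 312) (PT.nd (nat_lit 156) (PT.nd (nat_lit 78) (PT.lf (nat_lit 21508) (nat_lit 6) (nat_lit 283) (nat_lit 0) (nat_lit 183) (nat_lit 172) (nat_lit 155)) (PT.lf (nat_lit 20292) (nat_lit 6) (nat_lit 267) (nat_lit 0) (nat_lit 184) (nat_lit 172) (nat_lit 154))) (PT.nd (nat_lit 78) (PT.lf (nat_lit 19000) (nat_lit 6) (nat_lit 250) (nat_lit 0) (nat_lit 185) (nat_lit 172) (nat_lit 153)) (PT.lf (nat_lit 18240)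 (nat_lit 6) (nat_lit 240) (nat_lit 0) (nat_lit 186) (nat_lit 172) (nat_lit 152)))) (PT.nd (nat_lit 50310) (PT.nd (nat_lit 50232) (PT.lf (nat_lit 17556) (nat_lit 6) (nat_lit 231) (nat_lit 0) (nat_lit 187) (nat_lit 172) (nat_lit 151)) (PT.lf (nat_lit 16948) (nat_lit 6) (nat_lit 223) (nat_lit 5) (nat_lit 150) (nat_lit 173) (nat_lit 187))) (PT.nd (nat_lit 78) (PT.lf (nat_lit 17632) (nat_lit 6) (nat_lit 232) (nat_lit 5) (nat_lit 151) (nat_lit 173) (nat_lit 186)) (PT.nd (nat_lit 78) (PT.lf (nat_lit 18316) (nat_lit 6) (nat_lit 241) (nat_lit 5) (nat_lit 152) (nat_lit 173) (nat_lit 185)) (PT.lf (nat_lit 19076) (nat_lit 6) (nat_lit 251) (nat_lit 5) (nat_lit 153) (nat_lit 173) (nat_lit 184))))))))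
noncomputable def pc28 : PT := (PT.nd (nat_lit 1326) (PT.nd (nat_lit 624) (PT.nd (nat_lit 312) (PT.nd (nat_lit 156) (PT.nd (nat_lit 78) (PT.lf (nat_lit 20368) (nat_lit 6) (nat_lit 268) (nat_lit 5) (nat_lit 154) (nat_lit 173) (nat_lit 183)) (PT.lf (nat_lit 21584) (nat_lit 6) (nat_lit 284) (nat_lit 5) (nat_lit 155) (nat_lit 173) (nat_lit 182))) (PT.nd (nat_lit 78) (PT.lf (nat_lit 22724) (nat_lit 6) (nat_lit 299) (nat_lit 5) (nat_lit 156) (nat_lit 173) (nat_lit 181)) (PT.lf (nat_lit 23788) (nat_lit 6) (nat_lit 313) (nat_lit 5) (nat_lit 157) (nat_lit 173) (nat_lit 180)))) (PT.nd (nat_lit 156) (PT.nd (nat_lit 78) (PT.lf (nat_lit 24776) (nat_lit 6) (nat_lit 326) (nat_lit 5) (nat_lit 158) (nat_lit 173) (nat_lit 179)) (PT.lf (nat_lit 25688) (nat_lit 6) (nat_lit 338) (nat_lit 5) (nat_lit 159) (nat_lit 173) (nat_lit 178))) (PT.nd (nat_lit 78) (PT.lf (nat_lit 26524) (nat_lit 6) (nat_lit 349) (nat_lit 5) (nat_lit 160) (nat_lit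 173) (nat_lit 177)) (PT.lf (nat_lit 27284) (nat_lit 6) (nat_lit 359) (nat_lit 5) (nat_lit 161) (nat_lit 173) (nat_lit 176))))) (PT.nd (nat_lit 312) (PT.nd (nat_lit 156) (PT.nd (nat_lit 78) (PT.lf (nat_lit 27968) (nat_lit 6) (nat_lit 368) (nat_lit 5) (nat_lit 162) (nat_lit 173) (nat_lit 175)) (PT.lf (nat_lit 28576) (nat_lit 6) (nat_lit 376) (nat_lit 5) (nat_lit 163) (nat_lit 173) (nat_lit 174))) (PT.nd (nat_lit 78) (PT.lf (nat_lit 29108) (nat_lit 3) (nat_lit 383) (nat_lit 4) (nat_lit 164) (nat_lit 173) (nat_lit 173)) (PT.lf (nat_lit 29488) (nat_lit 6) (nat_lit 388) (nat_lit 4) (nat_lit 165) (nat_lit 173) (nat_lit 172)))) (PT.nd (nat_lit 156) (PT.nd (nat_lit 78) (PT.lf (nat_lit 29792) (nat_lit 6) (nat_lit 392) (nat_lit 4) (nat_lit 166) (nat_lit 173) (nat_lit 171)) (PT.lf (nat_lit 30020) (nat_lit 6) (nat_lit 395) (nat_lit 4) (nat_lit 167) (nat_lit 173) (nat_lit 170))) (PT.nd (nat_lit 78) (PT.lf (nat_lit 29944) (nat_lit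 6) (nat_lit 394) (nat_lit 4) (nat_lit 168) (nat_lit 173) (nat_lit 169)) (PT.nd (nat_lit 78) (PT.lf (nat_lit 29944) (nat_lit 6) (nat_lit 394) (nat_lit 2) (nat_lit 169) (nat_lit 173) (nat_lit 168)) (PT.lf (nat_lit 30020) (nat_lit 6) (nat_lit 395) (nat_lit 2) (nat_lit 170) (nat_lit 173) (nat_lit 167))))))) (PT.nd (nat_lit 702) (PT.nd (nat_lit 312) (PT.nd (nat_lit 156) (PT.nd (nat_lit 78) (PT.lf (nat_lit 29792) (nat_lit 6) (nat_lit 392) (nat_lit 2) (nat_lit 171) (nat_lit 173) (nat_lit 166)) (PT.lf (nat_lit 29488) (nat_lit 6) (nat_lit 388) (nat_lit 2) (nat_lit 172) (nat_lit 173) (nat_lit 165))) (PT.nd (nat_lit 78) (PT.lf (nat_lit 29108) (nat_lit 3) (nat_lit 383) (nat_lit 0) (nat_lit 173) (nat_lit 173) (nat_lit 164)) (PT.lf (nat_lit 28576) (nat_lit 6) (nat_lit 376) (nat_lit 0) (nat_lit 174) (nat_lit 173) (nat_lit 163)))) (PT.nd (nat_lit 156) (PT.nd (nat_lit 78) (PT.lf (nat_lit 27968) (nat_lit 6) (nat_lit 368) (nat_lit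 0) (nat_lit 175) (nat_lit 173) (nat_lit 162)) (PT.lf (nat_lit 27284) (nat_lit 6) (nat_lit 359) (nat_lit 0) (nat_lit 176) (nat_lit 173) (nat_lit 161))) (PT.nd (nat_lit 78) (PT.lf (nat_lit 26524) (nat_lit 6) (nat_lit 349) (nat_lit 0) (nat_lit 177) (nat_lit 173) (nat_lit 160)) (PT.nd (nat_lit 78) (PT.lf (nat_lit 25688) (nat_lit 6) (nat_lit 338) (nat_lit 0) (nat_lit 178) (nat_lit 173) (nat_lit 159)) (PT.lf (nat_lit 24776) (nat_lit 6) (nat_lit 326) (nat_lit 0) (nat_lit 179) (nat_lit 173) (nat_lit 158)))))) (PT.nd (nat_lit 312) (PT.nd (nat_lit 156) (PT.nd (nat_lit 78) (PT.lf (nat_lit 23788) (nat_lit 6) (nat_lit 313) (nat_lit 0) (nat_lit 180) (nat_lit 173) (nat_lit 157)) (PT.lf (nat_lit 22724) (nat_lit 6) (nat_lit 299) (nat_lit 0) (nat_lit 181) (nat_lit 173) (nat_lit 156))) (PT.nd (nat_lit 78) (PT.lf (nat_lit 21584) (nat_lit 6) (nat_lit 284) (nat_lit 0) (nat_lit 182) (nat_lit 173) (nat_lit 155)) (PT.lf (nat_lit 20368)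 (nat_lit 6) (nat_lit 268) (nat_lit 0) (nat_lit 183) (nat_lit 173) (nat_lit 154)))) (PT.nd (nat_lit 156) (PT.nd (nat_lit 78) (PT.lf (nat_lit 19076) (nat_lit 6) (nat_lit 251) (nat_lit 0) (nat_lit 184) (nat_lit 173) (nat_lit 153)) (PT.lf (nat_lit 18316) (nat_lit 6) (nat_lit 241) (nat_lit 0) (nat_lit 185) (nat_lit 173) (nat_lit 152))) (PT.nd (nat_lit 78) (PT.lf (nat_lit 17632) (nat_lit 6) (nat_lit 232) (nat_lit 0) (nat_lit 186) (nat_lit 173) (nat_lit 151)) (PT.nd (nat_lit 50154) (PT.lf (nat_lit 16948) (nat_lit 6) (nat_lit 223) (nat_lit 0) (nat_lit 187) (nat_lit 173) (nat_lit 150)) (PT.lf (nat_lit 16416) (nat_lit 6) (nat_lit 216) (nat_lit 5) (nat_lit 149) (nat_lit 174) (nat_lit 187))))))))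
noncomputable def pc29 : PT := (PT.nd (nat_lit 1326) (PT.nd (nat_lit 624) (PT.nd (nat_lit 312) (PT.nd (nat_lit 156) (PT.nd (nat_lit 78) (PT.lf (nat_lit 17024) (nat_lit 6) (nat_lit 224) (nat_lit 5) (nat_lit 150) (nat_lit 174) (nat_lit 186)) (PT.lf (nat_lit 17708) (nat_lit 6) (nat_lit 233) (nat_lit 5) (nat_lit 151) (nat_lit 174) (nat_lit 185))) (PT.nd (nat_lit 78) (PT.lf (nat_lit 18392) (nat_lit 6) (nat_lit 242) (nat_lit 5) (nat_lit 152) (nat_lit 174) (nat_lit 184)) (PT.lf (nat_lit 19152) (nat_lit 6) (nat_lit 252) (nat_lit 5) (nat_lit 153) (nat_lit 174) (nat_lit 183)))) (PT.nd (nat_lit 156) (PT.nd (nat_lit 78) (PT.lf (nat_lit 20444) (nat_lit 6) (nat_lit 269) (nat_lit 5) (nat_lit 154) (nat_lit 174) (nat_lit 182)) (PT.lf (nat_lit 21660) (nat_lit 6) (nat_lit 285) (nat_lit 5) (nat_lit 155) (nat_lit 174) (nat_lit 181))) (PT.nd (nat_lit 78) (PT.lf (nat_lit 22800) (nat_lit 6) (nat_lit 300) (nat_lit 5) (nat_lit 156) (nat_lit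 174) (nat_lit 180)) (PT.lf (nat_lit 23864) (nat_lit 6) (nat_lit 314) (nat_lit 5) (nat_lit 157) (nat_lit 174) (nat_lit 179))))) (PT.nd (nat_lit 312) (PT.nd (nat_lit 156) (PT.nd (nat_lit 78) (PT.lf (nat_lit 24852) (nat_lit 6) (nat_lit 327) (nat_lit 5) (nat_lit 158) (nat_lit 174) (nat_lit 178)) (PT.lf (nat_lit 25764) (nat_lit 6) (nat_lit 339) (nat_lit 5) (nat_lit 159) (nat_lit 174) (nat_lit 177))) (PT.nd (nat_lit 78) (PT.lf (nat_lit 26600) (nat_lit 6) (nat_lit 350) (nat_lit 5) (nat_lit 160) (nat_lit 174) (nat_lit 176)) (PT.lf (nat_lit 27360) (nat_lit 6) (nat_lit 360) (nat_lit 5) (nat_lit 161) (nat_lit 174) (nat_lit 175)))) (PT.nd (nat_lit 156) (PT.nd (nat_lit 78) (PT.lf (nat_lit 28044) (nat_lit 3) (nat_lit 369) (nat_lit 4) (nat_lit 162) (nat_lit 174) (nat_lit 174)) (PT.lf (nat_lit 28576) (nat_lit 6) (nat_lit 376) (nat_lit 4) (nat_lit 163) (nat_lit 174) (nat_lit 173))) (PT.nd (nat_lit 78) (PT.lf (nat_lit 29032) (nat_lit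 6) (nat_lit 382) (nat_lit 4) (nat_lit 164) (nat_lit 174) (nat_lit 172)) (PT.nd (nat_lit 78) (PT.lf (nat_lit 29412) (nat_lit 6) (nat_lit 387) (nat_lit 4) (nat_lit 165) (nat_lit 174) (nat_lit 171)) (PT.lf (nat_lit 29716) (nat_lit 6) (nat_lit 391) (nat_lit 4) (nat_lit 166) (nat_lit 174) (nat_lit 170))))))) (PT.nd (nat_lit 702) (PT.nd (nat_lit 312) (PT.nd (nat_lit 156) (PT.nd (nat_lit 78) (PT.lf (nat_lit 29640) (nat_lit 6) (nat_lit 390) (nat_lit 4) (nat_lit 167) (nat_lit 174) (nat_lit 169)) (PT.lf (nat_lit 29564) (nat_lit 3) (nat_lit 389) (nat_lit 2) (nat_lit 168) (nat_lit 174) (nat_lit 168))) (PT.nd (nat_lit 78) (PT.lf (nat_lit 29640) (nat_lit 6) (nat_lit 390) (nat_lit 2) (nat_lit 169) (nat_lit 174) (nat_lit 167)) (PT.lf (nat_lit 29716) (nat_lit 6) (nat_lit 391) (nat_lit 2) (nat_lit 170) (nat_lit 174) (nat_lit 166)))) (PT.nd (nat_lit 156) (PT.nd (nat_lit 78) (PT.lf (nat_lit 29412) (nat_lit 6) (nat_lit 387) (nat_lit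 2) (nat_lit 171) (nat_lit 174) (nat_lit 165)) (PT.lf (nat_lit 29032) (nat_lit 6) (nat_lit 382) (nat_lit 2) (nat_lit 172) (nat_lit 174) (nat_lit 164))) (PT.nd (nat_lit 78) (PT.lf (nat_lit 28576) (nat_lit 6) (nat_lit 376) (nat_lit 2) (nat_lit 173) (nat_lit 174) (nat_lit 163)) (PT.nd (nat_lit 78) (PT.lf (nat_lit 28044) (nat_lit 3) (nat_lit 369) (nat_lit 0) (nat_lit 174) (nat_lit 174) (nat_lit 162)) (PT.lf (nat_lit 27360) (nat_lit 6) (nat_lit 360) (nat_lit 0) (nat_lit 175) (nat_lit 174) (nat_lit 161)))))) (PT.nd (nat_lit 312) (PT.nd (nat_lit 156) (PT.nd (nat_lit 78) (PT.lf (nat_lit 26600) (nat_lit 6) (nat_lit 350) (nat_lit 0) (nat_lit 176) (nat_lit 174) (nat_lit 160)) (PT.lf (nat_lit 25764) (nat_lit 6) (nat_lit 339) (nat_lit 0) (nat_lit 177) (nat_lit 174) (nat_lit 159))) (PT.nd (nat_lit 78) (PT.lf (nat_lit 24852) (nat_lit 6) (nat_lit 327) (nat_lit 0) (nat_lit 178) (nat_lit 174) (nat_lit 158)) (PT.lf (nat_lit 23864)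 (nat_lit 6) (nat_lit 314) (nat_lit 0) (nat_lit 179) (nat_lit 174) (nat_lit 157)))) (PT.nd (nat_lit 156) (PT.nd (nat_lit 78) (PT.lf (nat_lit 22800) (nat_lit 6) (nat_lit 300) (nat_lit 0) (nat_lit 180) (nat_lit 174) (nat_lit 156)) (PT.lf (nat_lit 21660) (nat_lit 6) (nat_lit 285) (nat_lit 0) (nat_lit 181) (nat_lit 174) (nat_lit 155))) (PT.nd (nat_lit 78) (PT.lf (nat_lit 20444) (nat_lit 6) (nat_lit 269) (nat_lit 0) (nat_lit 182) (nat_lit 174) (nat_lit 154)) (PT.nd (nat_lit 78) (PT.lf (nat_lit 19152) (nat_lit 6) (nat_lit 252) (nat_lit 0) (nat_lit 183) (nat_lit 174) (nat_lit 153)) (PT.lf (nat_lit 18392) (nat_lit 6) (nat_lit 242) (nat_lit 0) (nat_lit 184) (nat_lit 174) (nat_lit 152))))))))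
noncomputable def pc30 : PT := (PT.nd (nat_lit 51246) (PT.nd (nat_lit 50544) (PT.nd (nat_lit 50232) (PT.nd (nat_lit 156) (PT.nd (nat_lit 78) (PT.lf (nat_lit 17708) (nat_lit 6) (nat_lit 233) (nat_lit 0) (nat_lit 185) (nat_lit 174) (nat_lit 151)) (PT.lf (nat_lit 17024) (nat_lit 6) (nat_lit 224) (nat_lit 0) (nat_lit 186) (nat_lit 174) (nat_lit 150))) (PT.nd (nat_lit 49998) (PT.lf (nat_lit 16416) (nat_lit 6) (nat_lit 216) (nat_lit 0) (nat_lit 187) (nat_lit 174) (nat_lit 149)) (PT.lf (nat_lit 15352) (nat_lit 6) (nat_lit 202) (nat_lit 5) (nat_lit 147) (nat_lit 175) (nat_lit 188)))) (PT.nd (nat_lit 156) (PT.nd (nat_lit 78) (PT.lf (nat_lit 15884) (nat_lit 6) (nat_lit 209) (nat_lit 5) (nat_lit 148) (nat_lit 175) (nat_lit 187)) (PT.lf (nat_lit 16492) (nat_lit 6) (nat_lit 217) (nat_lit 5) (nat_lit 149) (nat_lit 175) (nat_lit 186))) (PT.nd (nat_lit 78) (PT.lf (nat_lit 17100) (nat_lit 6) (nat_lit 225) (nat_lit 5) (nat_lit 150)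 (nat_lit 175) (nat_lit 185)) (PT.lf (nat_lit 17784) (nat_lit 6) (nat_lit 234) (nat_lit 5) (nat_lit 151) (nat_lit 175) (nat_lit 184))))) (PT.nd (nat_lit 312) (PT.nd (nat_lit 156) (PT.nd (nat_lit 78) (PT.lf (nat_lit 18468) (nat_lit 6) (nat_lit 243) (nat_lit 5) (nat_lit 152) (nat_lit 175) (nat_lit 183)) (PT.lf (nat_lit 19228) (nat_lit 6) (nat_lit 253) (nat_lit 5) (nat_lit 153) (nat_lit 175) (nat_lit 182))) (PT.nd (nat_lit 78) (PT.lf (nat_lit 20520) (nat_lit 6) (nat_lit 270) (nat_lit 5) (nat_lit 154) (nat_lit 175) (nat_lit 181)) (PT.lf (nat_lit 21736) (nat_lit 6) (nat_lit 286) (nat_lit 5) (nat_lit 155) (nat_lit 175) (nat_lit 180)))) (PT.nd (nat_lit 156) (PT.nd (nat_lit 78) (PT.lf (nat_lit 22876) (nat_lit 6) (nat_lit 301) (nat_lit 5) (nat_lit 156) (nat_lit 175) (nat_lit 179)) (PT.lf (nat_lit 23940) (nat_lit 6) (nat_lit 315) (nat_lit 5) (nat_lit 157) (nat_lit 175) (nat_lit 178))) (PT.nd (nat_lit 78) (PT.lf (nat_lit 24928)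 (nat_lit 6) (nat_lit 328) (nat_lit 5) (nat_lit 158) (nat_lit 175) (nat_lit 177)) (PT.nd (nat_lit 78) (PT.lf (nat_lit 25840) (nat_lit 6) (nat_lit 340) (nat_lit 5) (nat_lit 159) (nat_lit 175) (nat_lit 176)) (PT.lf (nat_lit 26676) (nat_lit 3) (nat_lit 351) (nat_lit 4) (nat_lit 160) (nat_lit 175) (nat_lit 175))))))) (PT.nd (nat_lit 702) (PT.nd (nat_lit 312) (PT.nd (nat_lit 156) (PT.nd (nat_lit 78) (PT.lf (nat_lit 27360) (nat_lit 6) (nat_lit 360) (nat_lit 4) (nat_lit 161) (nat_lit 175) (nat_lit 174)) (PT.lf (nat_lit 27968) (nat_lit 6) (nat_lit 368) (nat_lit 4) (nat_lit 162) (nat_lit 175) (nat_lit 173))) (PT.nd (nat_lit 78) (PT.lf (nat_lit 28500) (nat_lit 6) (nat_lit 375) (nat_lit 4) (nat_lit 163) (nat_lit 175) (nat_lit 172)) (PT.lf (nat_lit 28956) (nat_lit 6) (nat_lit 381) (nat_lit 4) (nat_lit 164) (nat_lit 175) (nat_lit 171)))) (PT.nd (nat_lit 156) (PT.nd (nat_lit 78) (PT.lf (nat_lit 29336) (nat_lit 6) (nat_lit 386)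 (nat_lit 4) (nat_lit 165) (nat_lit 175) (nat_lit 170)) (PT.lf (nat_lit 29260) (nat_lit 6) (nat_lit 385) (nat_lit 4) (nat_lit 166) (nat_lit 175) (nat_lit 169))) (PT.nd (nat_lit 78) (PT.lf (nat_lit 29184) (nat_lit 6) (nat_lit 384) (nat_lit 4) (nat_lit 167) (nat_lit 175) (nat_lit 168)) (PT.nd (nat_lit 78) (PT.lf (nat_lit 29184) (nat_lit 6) (nat_lit 384) (nat_lit 2) (nat_lit 168) (nat_lit 175) (nat_lit 167)) (PT.lf (nat_lit 29260) (nat_lit 6) (nat_lit 385) (nat_lit 2) (nat_lit 169) (nat_lit 175) (nat_lit 166)))))) (PT.nd (nat_lit 312) (PT.nd (nat_lit 156) (PT.nd (nat_lit 78) (PT.lf (nat_lit 29336) (nat_lit 6) (nat_lit 386) (nat_lit 2) (nat_lit 170) (nat_lit 175) (nat_lit 165)) (PT.lf (nat_lit 28956) (nat_lit 6) (nat_lit 381) (nat_lit 2) (nat_lit 171) (nat_lit 175) (nat_lit 164))) (PT.nd (nat_lit 78) (PT.lf (nat_lit 28500) (nat_lit 6) (nat_lit 375) (nat_lit 2) (nat_lit 172) (nat_lit 175) (nat_lit 163)) (PT.lf (nat_lit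 27968) (nat_lit 6) (nat_lit 368) (nat_lit 2) (nat_lit 173) (nat_lit 175) (nat_lit 162)))) (PT.nd (nat_lit 156) (PT.nd (nat_lit 78) (PT.lf (nat_lit 27360) (nat_lit 6) (nat_lit 360) (nat_lit 2) (nat_lit 174) (nat_lit 175) (nat_lit 161)) (PT.lf (nat_lit 26676) (nat_lit 3) (nat_lit 351) (nat_lit 0) (nat_lit 175) (nat_lit 175) (nat_lit 160))) (PT.nd (nat_lit 78) (PT.lf (nat_lit 25840) (nat_lit 6) (nat_lit 340) (nat_lit 0) (nat_lit 176) (nat_lit 175) (nat_lit 159)) (PT.nd (nat_lit 78) (PT.lf (nat_lit 24928) (nat_lit 6) (nat_lit 328) (nat_lit 0) (nat_lit 177) (nat_lit 175) (nat_lit 158)) (PT.lf (nat_lit 23940) (nat_lit 6) (nat_lit 315) (nat_lit 0) (nat_lit 178) (nat_lit 175) (nat_lit 157))))))))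
noncomputable def pc31 : PT := (PT.nd (nat_lit 51090) (PT.nd (nat_lit 624) (PT.nd (nat_lit 312) (PT.nd (nat_lit 156) (PT.nd (nat_lit 78) (PT.lf (nat_lit 22876) (nat_lit 6) (nat_lit 301) (nat_lit 0) (nat_lit 179) (nat_lit 175) (nat_lit 156)) (PT.lf (nat_lit 21736) (nat_lit 6) (nat_lit 286) (nat_lit 0) (nat_lit 180) (nat_lit 175) (nat_lit 155))) (PT.nd (nat_lit 78) (PT.lf (nat_lit 20520) (nat_lit 6) (nat_lit 270) (nat_lit 0) (nat_lit 181) (nat_lit 175) (nat_lit 154)) (PT.lf (nat_lit 19228) (nat_lit 6) (nat_lit 253) (nat_lit 0) (nat_lit 182) (nat_lit 175) (nat_lit 153)))) (PT.nd (nat_lit 156) (PT.nd (nat_lit 78) (PT.lf (nat_lit 18468) (nat_lit 6) (nat_lit 243) (nat_lit 0) (nat_lit 183) (nat_lit 175) (nat_lit 152)) (PT.lf (nat_lit 17784) (nat_lit 6) (nat_lit 234) (nat_lit 0) (nat_lit 184) (nat_lit 175) (nat_lit 151))) (PT.nd (nat_lit 78) (PT.lf (nat_lit 17100) (nat_lit 6) (nat_lit 225) (nat_lit 0) (nat_lit 185) (nat_lit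 175) (nat_lit 150)) (PT.lf (nat_lit 16492) (nat_lit 6) (nat_lit 217) (nat_lit 0) (nat_lit 186) (nat_lit 175) (nat_lit 149))))) (PT.nd (nat_lit 50076) (PT.nd (nat_lit 49920) (PT.nd (nat_lit 78) (PT.lf (nat_lit 15884) (nat_lit 6) (nat_lit 209) (nat_lit 0) (nat_lit 187) (nat_lit 175) (nat_lit 148)) (PT.lf (nat_lit 15352) (nat_lit 6) (nat_lit 202) (nat_lit 0) (nat_lit 188) (nat_lit 175) (nat_lit 147))) (PT.nd (nat_lit 78) (PT.lf (nat_lit 14820) (nat_lit 6) (nat_lit 195) (nat_lit 5) (nat_lit 146) (nat_lit 176) (nat_lit 188)) (PT.lf (nat_lit 15428) (nat_lit 6) (nat_lit 203) (nat_lit 5) (nat_lit 147) (nat_lit 176) (nat_lit 187)))) (PT.nd (nat_lit 156) (PT.nd (nat_lit 78) (PT.lf (nat_lit 15960) (nat_lit 6) (nat_lit 210) (nat_lit 5) (nat_lit 148) (nat_lit 176) (nat_lit 186)) (PT.lf (nat_lit 16568) (nat_lit 6) (nat_lit 218) (nat_lit 5) (nat_lit 149) (nat_lit 176) (nat_lit 185))) (PT.nd (nat_lit 78) (PT.lf (nat_lit 17176)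 (nat_lit 6) (nat_lit 226) (nat_lit 5) (nat_lit 150) (nat_lit 176) (nat_lit 184)) (PT.nd (nat_lit 78) (PT.lf (nat_lit 17860) (nat_lit 6) (nat_lit 235) (nat_lit 5) (nat_lit 151) (nat_lit 176) (nat_lit 183)) (PT.lf (nat_lit 18544) (nat_lit 6) (nat_lit 244) (nat_lit 5) (nat_lit 152) (nat_lit 176) (nat_lit 182))))))) (PT.nd (nat_lit 702) (PT.nd (nat_lit 312) (PT.nd (nat_lit 156) (PT.nd (nat_lit 78) (PT.lf (nat_lit 19304) (nat_lit 6) (nat_lit 254) (nat_lit 5) (nat_lit 153) (nat_lit 176) (nat_lit 181)) (PT.lf (nat_lit 20596) (nat_lit 6) (nat_lit 271) (nat_lit 5) (nat_lit 154) (nat_lit 176) (nat_lit 180))) (PT.nd (nat_lit 78) (PT.lf (nat_lit 21812) (nat_lit 6) (nat_lit 287) (nat_lit 5) (nat_lit 155) (nat_lit 176) (nat_lit 179)) (PT.lf (nat_lit 22952) (nat_lit 6) (nat_lit 302) (nat_lit 5) (nat_lit 156) (nat_lit 176) (nat_lit 178)))) (PT.nd (nat_lit 156) (PT.nd (nat_lit 78) (PT.lf (nat_lit 24016) (nat_lit 6) (nat_lit 316)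 (nat_lit 5) (nat_lit 157) (nat_lit 176) (nat_lit 177)) (PT.lf (nat_lit 25004) (nat_lit 3) (nat_lit 329) (nat_lit 4) (nat_lit 158) (nat_lit 176) (nat_lit 176))) (PT.nd (nat_lit 78) (PT.lf (nat_lit 25840) (nat_lit 6) (nat_lit 340) (nat_lit 4) (nat_lit 159) (nat_lit 176) (nat_lit 175)) (PT.nd (nat_lit 78) (PT.lf (nat_lit 26600) (nat_lit 6) (nat_lit 350) (nat_lit 4) (nat_lit 160) (nat_lit 176) (nat_lit 174)) (PT.lf (nat_lit 27284) (nat_lit 6) (nat_lit 359) (nat_lit 4) (nat_lit 161) (nat_lit 176) (nat_lit 173)))))) (PT.nd (nat_lit 312) (PT.nd (nat_lit 156) (PT.nd (nat_lit 78) (PT.lf (nat_lit 27892) (nat_lit 6) (nat_lit 367) (nat_lit 4) (nat_lit 162) (nat_lit 176) (nat_lit 172)) (PT.lf (nat_lit 28424) (nat_lit 6) (nat_lit 374) (nat_lit 4) (nat_lit 163) (nat_lit 176) (nat_lit 171))) (PT.nd (nat_lit 78) (PT.lf (nat_lit 28880) (nat_lit 6) (nat_lit 380) (nat_lit 4) (nat_lit 164) (nat_lit 176) (nat_lit 170)) (PT.lf (nat_lit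 28804) (nat_lit 6) (nat_lit 379) (nat_lit 4) (nat_lit 165) (nat_lit 176) (nat_lit 169)))) (PT.nd (nat_lit 156) (PT.nd (nat_lit 78) (PT.lf (nat_lit 28728) (nat_lit 6) (nat_lit 378) (nat_lit 4) (nat_lit 166) (nat_lit 176) (nat_lit 168)) (PT.lf (nat_lit 28652) (nat_lit 3) (nat_lit 377) (nat_lit 2) (nat_lit 167) (nat_lit 176) (nat_lit 167))) (PT.nd (nat_lit 78) (PT.lf (nat_lit 28728) (nat_lit 6) (nat_lit 378) (nat_lit 2) (nat_lit 168) (nat_lit 176) (nat_lit 166)) (PT.nd (nat_lit 78) (PT.lf (nat_lit 28804) (nat_lit 6) (nat_lit 379) (nat_lit 2) (nat_lit 169) (nat_lit 176) (nat_lit 165)) (PT.lf (nat_lit 28880) (nat_lit 6) (nat_lit 380) (nat_lit 2) (nat_lit 170) (nat_lit 176) (nat_lit 164))))))))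
noncomputable def pc32 : PT := (PT.nd (nat_lit 1326) (PT.nd (nat_lit 624) (PT.nd (nat_lit 312) (PT.nd (nat_lit 156) (PT.nd (nat_lit 78) (PT.lf (nat_lit 28424) (nat_lit 6) (nat_lit 374) (nat_lit 2) (nat_lit 171) (nat_lit 176) (nat_lit 163)) (PT.lf (nat_lit 27892) (nat_lit 6) (nat_lit 367) (nat_lit 2) (nat_lit 172) (nat_lit 176) (nat_lit 162))) (PT.nd (nat_lit 78) (PT.lf (nat_lit 27284) (nat_lit 6) (nat_lit 359) (nat_lit 2) (nat_lit 173) (nat_lit 176) (nat_lit 161)) (PT.lf (nat_lit 26600) (nat_lit 6) (nat_lit 350) (nat_lit 2) (nat_lit 174) (nat_lit 176) (nat_lit 160)))) (PT.nd (nat_lit 156) (PT.nd (nat_lit 78) (PT.lf (nat_lit 25840) (nat_lit 6) (nat_lit 340) (nat_lit 2) (nat_lit 175) (nat_lit 176) (nat_lit 159)) (PT.lf (nat_lit 25004) (nat_lit 3) (nat_lit 329) (nat_lit 0) (nat_lit 176) (nat_lit 176) (nat_lit 158))) (PT.nd (nat_lit 78) (PT.lf (nat_lit 24016) (nat_lit 6) (nat_lit 316) (nat_lit 0) (nat_lit 177) (nat_lit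 176) (nat_lit 157)) (PT.lf (nat_lit 22952) (nat_lit 6) (nat_lit 302) (nat_lit 0) (nat_lit 178) (nat_lit 176) (nat_lit 156))))) (PT.nd (nat_lit 312) (PT.nd (nat_lit 156) (PT.nd (nat_lit 78) (PT.lf (nat_lit 21812) (nat_lit 6) (nat_lit 287) (nat_lit 0) (nat_lit 179) (nat_lit 176) (nat_lit 155)) (PT.lf (nat_lit 20596) (nat_lit 6) (nat_lit 271) (nat_lit 0) (nat_lit 180) (nat_lit 176) (nat_lit 154))) (PT.nd (nat_lit 78) (PT.lf (nat_lit 19304) (nat_lit 6) (nat_lit 254) (nat_lit 0) (nat_lit 181) (nat_lit 176) (nat_lit 153)) (PT.lf (nat_lit 18544) (nat_lit 6) (nat_lit 244) (nat_lit 0) (nat_lit 182) (nat_lit 176) (nat_lit 152)))) (PT.nd (nat_lit 156) (PT.nd (nat_lit 78) (PT.lf (nat_lit 17860) (nat_lit 6) (nat_lit 235) (nat_lit 0) (nat_lit 183) (nat_lit 176) (nat_lit 151)) (PT.lf (nat_lit 17176) (nat_lit 6) (nat_lit 226) (nat_lit 0) (nat_lit 184) (nat_lit 176) (nat_lit 150))) (PT.nd (nat_lit 78) (PT.lf (nat_lit 16568) (nat_lit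 6) (nat_lit 218) (nat_lit 0) (nat_lit 185) (nat_lit 176) (nat_lit 149)) (PT.nd (nat_lit 78) (PT.lf (nat_lit 15960) (nat_lit 6) (nat_lit 210) (nat_lit 0) (nat_lit 186) (nat_lit 176) (nat_lit 148)) (PT.lf (nat_lit 15428) (nat_lit 6) (nat_lit 203) (nat_lit 0) (nat_lit 187) (nat_lit 176) (nat_lit 147))))))) (PT.nd (nat_lit 50232) (PT.nd (nat_lit 49920) (PT.nd (nat_lit 49764) (PT.nd (nat_lit 49686) (PT.lf (nat_lit 14820) (nat_lit 6) (nat_lit 195) (nat_lit 0) (nat_lit 188) (nat_lit 176) (nat_lit 146)) (PT.lf (nat_lit 13832) (nat_lit 6) (nat_lit 182) (nat_lit 5) (nat_lit 144) (nat_lit 177) (nat_lit 189))) (PT.nd (nat_lit 78) (PT.lf (nat_lit 14364) (nat_lit 6) (nat_lit 189) (nat_lit 5) (nat_lit 145) (nat_lit 177) (nat_lit 188)) (PT.lf (nat_lit 14896) (nat_lit 6) (nat_lit 196) (nat_lit 5) (nat_lit 146) (nat_lit 177) (nat_lit 187)))) (PT.nd (nat_lit 156) (PT.nd (nat_lit 78) (PT.lf (nat_lit 15504) (nat_lit 6) (nat_lit 204)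 (nat_lit 5) (nat_lit 147) (nat_lit 177) (nat_lit 186)) (PT.lf (nat_lit 16036) (nat_lit 6) (nat_lit 211) (nat_lit 5) (nat_lit 148) (nat_lit 177) (nat_lit 185))) (PT.nd (nat_lit 78) (PT.lf (nat_lit 16644) (nat_lit 6) (nat_lit 219) (nat_lit 5) (nat_lit 149) (nat_lit 177) (nat_lit 184)) (PT.lf (nat_lit 17252) (nat_lit 6) (nat_lit 227) (nat_lit 5) (nat_lit 150) (nat_lit 177) (nat_lit 183))))) (PT.nd (nat_lit 312) (PT.nd (nat_lit 156) (PT.nd (nat_lit 78) (PT.lf (nat_lit 17936) (nat_lit 6) (nat_lit 236) (nat_lit 5) (nat_lit 151) (nat_lit 177) (nat_lit 182)) (PT.lf (nat_lit 18620) (nat_lit 6) (nat_lit 245) (nat_lit 5) (nat_lit 152) (nat_lit 177) (nat_lit 181))) (PT.nd (nat_lit 78) (PT.lf (nat_lit 19380) (nat_lit 6) (nat_lit 255) (nat_lit 5) (nat_lit 153) (nat_lit 177) (nat_lit 180)) (PT.lf (nat_lit 20672) (nat_lit 6) (nat_lit 272) (nat_lit 5) (nat_lit 154) (nat_lit 177) (nat_lit 179)))) (PT.nd (nat_lit 156) (PT.nd (nat_lit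 78) (PT.lf (nat_lit 21888) (nat_lit 6) (nat_lit 288) (nat_lit 5) (nat_lit 155) (nat_lit 177) (nat_lit 178)) (PT.lf (nat_lit 23028) (nat_lit 3) (nat_lit 303) (nat_lit 4) (nat_lit 156) (nat_lit 177) (nat_lit 177))) (PT.nd (nat_lit 78) (PT.lf (nat_lit 24016) (nat_lit 6) (nat_lit 316) (nat_lit 4) (nat_lit 157) (nat_lit 177) (nat_lit 176)) (PT.nd (nat_lit 78) (PT.lf (nat_lit 24928) (nat_lit 6) (nat_lit 328) (nat_lit 4) (nat_lit 158) (nat_lit 177) (nat_lit 175)) (PT.lf (nat_lit 25764) (nat_lit 6) (nat_lit 339) (nat_lit 4) (nat_lit 159) (nat_lit 177) (nat_lit 174))))))))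
noncomputable def pc33 : PT := (PT.nd (nat_lit 1326) (PT.nd (nat_lit 624) (PT.nd (nat_lit 312) (PT.nd (nat_lit 156) (PT.nd (nat_lit 78) (PT.lf (nat_lit 26524) (nat_lit 6) (nat_lit 349) (nat_lit 4) (nat_lit 160) (nat_lit 177) (nat_lit 173)) (PT.lf (nat_lit 27208) (nat_lit 6) (nat_lit 358) (nat_lit 4) (nat_lit 161) (nat_lit 177) (nat_lit 172))) (PT.nd (nat_lit 78) (PT.lf (nat_lit 27816) (nat_lit 6) (nat_lit 366) (nat_lit 4) (nat_lit 162) (nat_lit 177) (nat_lit 171)) (PT.lf (nat_lit 28348) (nat_lit 6) (nat_lit 373) (nat_lit 4) (nat_lit 163) (nat_lit 177) (nat_lit 170)))) (PT.nd (nat_lit 156) (PT.nd (nat_lit 78) (PT.lf (nat_lit 28272) (nat_lit 6) (nat_lit 372) (nat_lit 4) (nat_lit 164) (nat_lit 177) (nat_lit 169)) (PT.lf (nat_lit 28196) (nat_lit 6) (nat_lit 371) (nat_lit 4) (nat_lit 165) (nat_lit 177) (nat_lit 168))) (PT.nd (nat_lit 78) (PT.lf (nat_lit 28120) (nat_lit 6) (nat_lit 370) (nat_lit 4) (nat_lit 166) (nat_lit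 177) (nat_lit 167)) (PT.lf (nat_lit 28120) (nat_lit 6) (nat_lit 370) (nat_lit 2) (nat_lit 167) (nat_lit 177) (nat_lit 166))))) (PT.nd (nat_lit 312) (PT.nd (nat_lit 156) (PT.nd (nat_lit 78) (PT.lf (nat_lit 28196) (nat_lit 6) (nat_lit 371) (nat_lit 2) (nat_lit 168) (nat_lit 177) (nat_lit 165)) (PT.lf (nat_lit 28272) (nat_lit 6) (nat_lit 372) (nat_lit 2) (nat_lit 169) (nat_lit 177) (nat_lit 164))) (PT.nd (nat_lit 78) (PT.lf (nat_lit 28348) (nat_lit 6) (nat_lit 373) (nat_lit 2) (nat_lit 170) (nat_lit 177) (nat_lit 163)) (PT.lf (nat_lit 27816) (nat_lit 6) (nat_lit 366) (nat_lit 2) (nat_lit 171) (nat_lit 177) (nat_lit 162)))) (PT.nd (nat_lit 156) (PT.nd (nat_lit 78) (PT.lf (nat_lit 27208) (nat_lit 6) (nat_lit 358) (nat_lit 2) (nat_lit 172) (nat_lit 177) (nat_lit 161)) (PT.lf (nat_lit 26524) (nat_lit 6) (nat_lit 349) (nat_lit 2) (nat_lit 173) (nat_lit 177) (nat_lit 160))) (PT.nd (nat_lit 78) (PT.lf (nat_lit 25764) (nat_lit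 6) (nat_lit 339) (nat_lit 2) (nat_lit 174) (nat_lit 177) (nat_lit 159)) (PT.nd (nat_lit 78) (PT.lf (nat_lit 24928) (nat_lit 6) (nat_lit 328) (nat_lit 2) (nat_lit 175) (nat_lit 177) (nat_lit 158)) (PT.lf (nat_lit 24016) (nat_lit 6) (nat_lit 316) (nat_lit 2) (nat_lit 176) (nat_lit 177) (nat_lit 157))))))) (PT.nd (nat_lit 702) (PT.nd (nat_lit 312) (PT.nd (nat_lit 156) (PT.nd (nat_lit 78) (PT.lf (nat_lit 23028) (nat_lit 3) (nat_lit 303) (nat_lit 0) (nat_lit 177) (nat_lit 177) (nat_lit 156)) (PT.lf (nat_lit 21888) (nat_lit 6) (nat_lit 288) (nat_lit 0) (nat_lit 178) (nat_lit 177) (nat_lit 155))) (PT.nd (nat_lit 78) (PT.lf (nat_lit 20672) (nat_lit 6) (nat_lit 272) (nat_lit 0) (nat_lit 179) (nat_lit 177) (nat_lit 154)) (PT.lf (nat_lit 19380) (nat_lit 6) (nat_lit 255) (nat_lit 0) (nat_lit 180) (nat_lit 177) (nat_lit 153)))) (PT.nd (nat_lit 156) (PT.nd (nat_lit 78) (PT.lf (nat_lit 18620) (nat_lit 6) (nat_lit 245) (nat_lit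 0) (nat_lit 181) (nat_lit 177) (nat_lit 152)) (PT.lf (nat_lit 17936) (nat_lit 6) (nat_lit 236) (nat_lit 0) (nat_lit 182) (nat_lit 177) (nat_lit 151))) (PT.nd (nat_lit 78) (PT.lf (nat_lit 17252) (nat_lit 6) (nat_lit 227) (nat_lit 0) (nat_lit 183) (nat_lit 177) (nat_lit 150)) (PT.nd (nat_lit 78) (PT.lf (nat_lit 16644) (nat_lit 6) (nat_lit 219) (nat_lit 0) (nat_lit 184) (nat_lit 177) (nat_lit 149)) (PT.lf (nat_lit 16036) (nat_lit 6) (nat_lit 211) (nat_lit 0) (nat_lit 185) (nat_lit 177) (nat_lit 148)))))) (PT.nd (nat_lit 49764) (PT.nd (nat_lit 156) (PT.nd (nat_lit 78) (PT.lf (nat_lit 15504) (nat_lit 6) (nat_lit 204) (nat_lit 0) (nat_lit 186) (nat_lit 177) (nat_lit 147)) (PT.lf (nat_lit 14896) (nat_lit 6) (nat_lit 196) (nat_lit 0) (nat_lit 187) (nat_lit 177) (nat_lit 146))) (PT.nd (nat_lit 78) (PT.lf (nat_lit 14364) (nat_lit 6) (nat_lit 189) (nat_lit 0) (nat_lit 188) (nat_lit 177) (nat_lit 145)) (PT.lf (nat_lit 13832)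 (nat_lit 6) (nat_lit 182) (nat_lit 0) (nat_lit 189) (nat_lit 177) (nat_lit 144)))) (PT.nd (nat_lit 156) (PT.nd (nat_lit 78) (PT.lf (nat_lit 13376) (nat_lit 6) (nat_lit 176) (nat_lit 5) (nat_lit 143) (nat_lit 178) (nat_lit 189)) (PT.lf (nat_lit 13908) (nat_lit 6) (nat_lit 183) (nat_lit 5) (nat_lit 144) (nat_lit 178) (nat_lit 188))) (PT.nd (nat_lit 78) (PT.lf (nat_lit 14440) (nat_lit 6) (nat_lit 190) (nat_lit 5) (nat_lit 145) (nat_lit 178) (nat_lit 187)) (PT.nd (nat_lit 78) (PT.lf (nat_lit 14972) (nat_lit 6) (nat_lit 197) (nat_lit 5) (nat_lit 146) (nat_lit 178) (nat_lit 186)) (PT.lf (nat_lit 15580) (nat_lit 6) (nat_lit 205) (nat_lit 5) (nat_lit 147) (nat_lit 178) (nat_lit 185))))))))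
noncomputable def pc34 : PT := (PT.nd (nat_lit 1326) (PT.nd (nat_lit 624) (PT.nd (nat_lit 312) (PT.nd (nat_lit 156) (PT.nd (nat_lit 78) (PT.lf (nat_lit 16112) (nat_lit 6) (nat_lit 212) (nat_lit 5) (nat_lit 148) (nat_lit 178) (nat_lit 184)) (PT.lf (nat_lit 16720) (nat_lit 6) (nat_lit 220) (nat_lit 5) (nat_lit 149) (nat_lit 178) (nat_lit 183))) (PT.nd (nat_lit 78) (PT.lf (nat_lit 17328) (nat_lit 6) (nat_lit 228) (nat_lit 5) (nat_lit 150) (nat_lit 178) (nat_lit 182)) (PT.lf (nat_lit 18012) (nat_lit 6) (nat_lit 237) (nat_lit 5) (nat_lit 151) (nat_lit 178) (nat_lit 181)))) (PT.nd (nat_lit 156) (PT.nd (nat_lit 78) (PT.lf (nat_lit 18696) (nat_lit 6) (nat_lit 246) (nat_lit 5) (nat_lit 152) (nat_lit 178) (nat_lit 180)) (PT.lf (nat_lit 19456) (nat_lit 6) (nat_lit 256) (nat_lit 5) (nat_lit 153) (nat_lit 178) (nat_lit 179))) (PT.nd (nat_lit 78) (PT.lf (nat_lit 20748) (nat_lit 3) (nat_lit 273) (nat_lit 4) (nat_lit 154) (nat_lit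 178) (nat_lit 178)) (PT.lf (nat_lit 21888) (nat_lit 6) (nat_lit 288) (nat_lit 4) (nat_lit 155) (nat_lit 178) (nat_lit 177))))) (PT.nd (nat_lit 312) (PT.nd (nat_lit 156) (PT.nd (nat_lit 78) (PT.lf (nat_lit 22952) (nat_lit 6) (nat_lit 302) (nat_lit 4) (nat_lit 156) (nat_lit 178) (nat_lit 176)) (PT.lf (nat_lit 23940) (nat_lit 6) (nat_lit 315) (nat_lit 4) (nat_lit 157) (nat_lit 178) (nat_lit 175))) (PT.nd (nat_lit 78) (PT.lf (nat_lit 24852) (nat_lit 6) (nat_lit 327) (nat_lit 4) (nat_lit 158) (nat_lit 178) (nat_lit 174)) (PT.lf (nat_lit 25688) (nat_lit 6) (nat_lit 338) (nat_lit 4) (nat_lit 159) (nat_lit 178) (nat_lit 173)))) (PT.nd (nat_lit 156) (PT.nd (nat_lit 78) (PT.lf (nat_lit 26448) (nat_lit 6) (nat_lit 348) (nat_lit 4) (nat_lit 160) (nat_lit 178) (nat_lit 172)) (PT.lf (nat_lit 27132) (nat_lit 6) (nat_lit 357) (nat_lit 4) (nat_lit 161) (nat_lit 178) (nat_lit 171))) (PT.nd (nat_lit 78) (PT.lf (nat_lit 27740) (nat_lit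 6) (nat_lit 365) (nat_lit 4) (nat_lit 162) (nat_lit 178) (nat_lit 170)) (PT.nd (nat_lit 78) (PT.lf (nat_lit 27664) (nat_lit 6) (nat_lit 364) (nat_lit 4) (nat_lit 163) (nat_lit 178) (nat_lit 169)) (PT.lf (nat_lit 27588) (nat_lit 6) (nat_lit 363) (nat_lit 4) (nat_lit 164) (nat_lit 178) (nat_lit 168))))))) (PT.nd (nat_lit 702) (PT.nd (nat_lit 312) (PT.nd (nat_lit 156) (PT.nd (nat_lit 78) (PT.lf (nat_lit 27512) (nat_lit 6) (nat_lit 362) (nat_lit 4) (nat_lit 165) (nat_lit 178) (nat_lit 167)) (PT.lf (nat_lit 27436) (nat_lit 3) (nat_lit 361) (nat_lit 2) (nat_lit 166) (nat_lit 178) (nat_lit 166))) (PT.nd (nat_lit 78) (PT.lf (nat_lit 27512) (nat_lit 6) (nat_lit 362) (nat_lit 2) (nat_lit 167) (nat_lit 178) (nat_lit 165)) (PT.lf (nat_lit 27588) (nat_lit 6) (nat_lit 363) (nat_lit 2) (nat_lit 168) (nat_lit 178) (nat_lit 164)))) (PT.nd (nat_lit 156) (PT.nd (nat_lit 78) (PT.lf (nat_lit 27664) (nat_lit 6) (nat_lit 364) (nat_lit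 2) (nat_lit 169) (nat_lit 178) (nat_lit 163)) (PT.lf (nat_lit 27740) (nat_lit 6) (nat_lit 365) (nat_lit 2) (nat_lit 170) (nat_lit 178) (nat_lit 162))) (PT.nd (nat_lit 78) (PT.lf (nat_lit 27132) (nat_lit 6) (nat_lit 357) (nat_lit 2) (nat_lit 171) (nat_lit 178) (nat_lit 161)) (PT.nd (nat_lit 78) (PT.lf (nat_lit 26448) (nat_lit 6) (nat_lit 348) (nat_lit 2) (nat_lit 172) (nat_lit 178) (nat_lit 160)) (PT.lf (nat_lit 25688) (nat_lit 6) (nat_lit 338) (nat_lit 2) (nat_lit 173) (nat_lit 178) (nat_lit 159)))))) (PT.nd (nat_lit 312) (PT.nd (nat_lit 156) (PT.nd (nat_lit 78) (PT.lf (nat_lit 24852) (nat_lit 6) (nat_lit 327) (nat_lit 2) (nat_lit 174) (nat_lit 178) (nat_lit 158)) (PT.lf (nat_lit 23940) (nat_lit 6) (nat_lit 315) (nat_lit 2) (nat_lit 175) (nat_lit 178) (nat_lit 157))) (PT.nd (nat_lit 78) (PT.lf (nat_lit 22952) (nat_lit 6) (nat_lit 302) (nat_lit 2) (nat_lit 176) (nat_lit 178) (nat_lit 156)) (PT.lf (nat_lit 21888)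 (nat_lit 6) (nat_lit 288) (nat_lit 2) (nat_lit 177) (nat_lit 178) (nat_lit 155)))) (PT.nd (nat_lit 156) (PT.nd (nat_lit 78) (PT.lf (nat_lit 20748) (nat_lit 3) (nat_lit 273) (nat_lit 0) (nat_lit 178) (nat_lit 178) (nat_lit 154)) (PT.lf (nat_lit 19456) (nat_lit 6) (nat_lit 256) (nat_lit 0) (nat_lit 179) (nat_lit 178) (nat_lit 153))) (PT.nd (nat_lit 78) (PT.lf (nat_lit 18696) (nat_lit 6) (nat_lit 246) (nat_lit 0) (nat_lit 180) (nat_lit 178) (nat_lit 152)) (PT.nd (nat_lit 78) (PT.lf (nat_lit 18012) (nat_lit 6) (nat_lit 237) (nat_lit 0) (nat_lit 181) (nat_lit 178) (nat_lit 151)) (PT.lf (nat_lit 17328) (nat_lit 6) (nat_lit 228) (nat_lit 0) (nat_lit 182) (nat_lit 178) (nat_lit 150))))))))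
noncomputable def pc35 : PT := (PT.nd (nat_lit 50700) (PT.nd (nat_lit 49998) (PT.nd (nat_lit 312) (PT.nd (nat_lit 156) (PT.nd (nat_lit 78) (PT.lf (nat_lit 16720) (nat_lit 6) (nat_lit 220) (nat_lit 0) (nat_lit 183) (nat_lit 178) (nat_lit 149)) (PT.lf (nat_lit 16112) (nat_lit 6) (nat_lit 212) (nat_lit 0) (nat_lit 184) (nat_lit 178) (nat_lit 148))) (PT.nd (nat_lit 78) (PT.lf (nat_lit 15580) (nat_lit 6) (nat_lit 205) (nat_lit 0) (nat_lit 185) (nat_lit 178) (nat_lit 147)) (PT.lf (nat_lit 14972) (nat_lit 6) (nat_lit 197) (nat_lit 0) (nat_lit 186) (nat_lit 178) (nat_lit 146)))) (PT.nd (nat_lit 156) (PT.nd (nat_lit 78) (PT.lf (nat_lit 14440) (nat_lit 6) (nat_lit 190) (nat_lit 0) (nat_lit 187) (nat_lit 178) (nat_lit 145)) (PT.lf (nat_lit 13908) (nat_lit 6) (nat_lit 183) (nat_lit 0) (nat_lit 188) (nat_lit 178) (nat_lit 144))) (PT.nd (nat_lit 49452) (PT.lf (nat_lit 13376) (nat_lit 6) (nat_lit 176) (nat_lit 0) (nat_lit 189)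 (nat_lit 178) (nat_lit 143)) (PT.lf (nat_lit 12920) (nat_lit 6) (nat_lit 170) (nat_lit 5) (nat_lit 142) (nat_lit 179) (nat_lit 189))))) (PT.nd (nat_lit 312) (PT.nd (nat_lit 156) (PT.nd (nat_lit 78) (PT.lf (nat_lit 13452) (nat_lit 6) (nat_lit 177) (nat_lit 5) (nat_lit 143) (nat_lit 179) (nat_lit 188)) (PT.lf (nat_lit 13984) (nat_lit 6) (nat_lit 184) (nat_lit 5) (nat_lit 144) (nat_lit 179) (nat_lit 187))) (PT.nd (nat_lit 78) (PT.lf (nat_lit 14516) (nat_lit 6) (nat_lit 191) (nat_lit 5) (nat_lit 145) (nat_lit 179) (nat_lit 186)) (PT.lf (nat_lit 15048) (nat_lit 6) (nat_lit 198) (nat_lit 5) (nat_lit 146) (nat_lit 179) (nat_lit 185)))) (PT.nd (nat_lit 156) (PT.nd (nat_lit 78) (PT.lf (nat_lit 15656) (nat_lit 6) (nat_lit 206) (nat_lit 5) (nat_lit 147) (nat_lit 179) (nat_lit 184)) (PT.lf (nat_lit 16188) (nat_lit 6) (nat_lit 213) (nat_lit 5) (nat_lit 148) (nat_lit 179) (nat_lit 183))) (PT.nd (nat_lit 78) (PT.lf (nat_lit 16796)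 (nat_lit 6) (nat_lit 221) (nat_lit 5) (nat_lit 149) (nat_lit 179) (nat_lit 182)) (PT.nd (nat_lit 78) (PT.lf (nat_lit 17404) (nat_lit 6) (nat_lit 229) (nat_lit 5) (nat_lit 150) (nat_lit 179) (nat_lit 181)) (PT.lf (nat_lit 18088) (nat_lit 6) (nat_lit 238) (nat_lit 5) (nat_lit 151) (nat_lit 179) (nat_lit 180))))))) (PT.nd (nat_lit 702) (PT.nd (nat_lit 312) (PT.nd (nat_lit 156) (PT.nd (nat_lit 78) (PT.lf (nat_lit 18772) (nat_lit 3) (nat_lit 247) (nat_lit 4) (nat_lit 152) (nat_lit 179) (nat_lit 179)) (PT.lf (nat_lit 19456) (nat_lit 6) (nat_lit 256) (nat_lit 4) (nat_lit 153) (nat_lit 179) (nat_lit 178))) (PT.nd (nat_lit 78) (PT.lf (nat_lit 20672) (nat_lit 6) (nat_lit 272) (nat_lit 4) (nat_lit 154) (nat_lit 179) (nat_lit 177)) (PT.lf (nat_lit 21812) (nat_lit 6) (nat_lit 287) (nat_lit 4) (nat_lit 155) (nat_lit 179) (nat_lit 176)))) (PT.nd (nat_lit 156) (PT.nd (nat_lit 78) (PT.lf (nat_lit 22876) (nat_lit 6) (nat_lit 301)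 (nat_lit 4) (nat_lit 156) (nat_lit 179) (nat_lit 175)) (PT.lf (nat_lit 23864) (nat_lit 6) (nat_lit 314) (nat_lit 4) (nat_lit 157) (nat_lit 179) (nat_lit 174))) (PT.nd (nat_lit 78) (PT.lf (nat_lit 24776) (nat_lit 6) (nat_lit 326) (nat_lit 4) (nat_lit 158) (nat_lit 179) (nat_lit 173)) (PT.nd (nat_lit 78) (PT.lf (nat_lit 25612) (nat_lit 6) (nat_lit 337) (nat_lit 4) (nat_lit 159) (nat_lit 179) (nat_lit 172)) (PT.lf (nat_lit 26372) (nat_lit 6) (nat_lit 347) (nat_lit 4) (nat_lit 160) (nat_lit 179) (nat_lit 171)))))) (PT.nd (nat_lit 312) (PT.nd (nat_lit 156) (PT.nd (nat_lit 78) (PT.lf (nat_lit 27056) (nat_lit 6) (nat_lit 356) (nat_lit 4) (nat_lit 161) (nat_lit 179) (nat_lit 170)) (PT.lf (nat_lit 26980) (nat_lit 6) (nat_lit 355) (nat_lit 4) (nat_lit 162) (nat_lit 179) (nat_lit 169))) (PT.nd (nat_lit 78) (PT.lf (nat_lit 26904) (nat_lit 6) (nat_lit 354) (nat_lit 4) (nat_lit 163) (nat_lit 179) (nat_lit 168)) (PT.lf (nat_lit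 26828) (nat_lit 6) (nat_lit 353) (nat_lit 4) (nat_lit 164) (nat_lit 179) (nat_lit 167)))) (PT.nd (nat_lit 156) (PT.nd (nat_lit 78) (PT.lf (nat_lit 26752) (nat_lit 6) (nat_lit 352) (nat_lit 4) (nat_lit 165) (nat_lit 179) (nat_lit 166)) (PT.lf (nat_lit 26752) (nat_lit 6) (nat_lit 352) (nat_lit 2) (nat_lit 166) (nat_lit 179) (nat_lit 165))) (PT.nd (nat_lit 78) (PT.lf (nat_lit 26828) (nat_lit 6) (nat_lit 353) (nat_lit 2) (nat_lit 167) (nat_lit 179) (nat_lit 164)) (PT.nd (nat_lit 78) (PT.lf (nat_lit 26904) (nat_lit 6) (nat_lit 354) (nat_lit 2) (nat_lit 168) (nat_lit 179) (nat_lit 163)) (PT.lf (nat_lit 26980) (nat_lit 6) (nat_lit 355) (nat_lit 2) (nat_lit 169) (nat_lit 179) (nat_lit 162))))))))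
noncomputable def pc36 : PT := (PT.nd (nat_lit 1326) (PT.nd (nat_lit 624) (PT.nd (nat_lit 312) (PT.nd (nat_lit 156) (PT.nd (nat_lit 78) (PT.lf (nat_lit 27056) (nat_lit 6) (nat_lit 356) (nat_lit 2) (nat_lit 170) (nat_lit 179) (nat_lit 161)) (PT.lf (nat_lit 26372) (nat_lit 6) (nat_lit 347) (nat_lit 2) (nat_lit 171) (nat_lit 179) (nat_lit 160))) (PT.nd (nat_lit 78) (PT.lf (nat_lit 25612) (nat_lit 6) (nat_lit 337) (nat_lit 2) (nat_lit 172) (nat_lit 179) (nat_lit 159)) (PT.lf (nat_lit 24776) (nat_lit 6) (nat_lit 326) (nat_lit 2) (nat_lit 173) (nat_lit 179) (nat_lit 158)))) (PT.nd (nat_lit 156) (PT.nd (nat_lit 78) (PT.lf (nat_lit 23864) (nat_lit 6) (nat_lit 314) (nat_lit 2) (nat_lit 174) (nat_lit 179) (nat_lit 157)) (PT.lf (nat_lit 22876) (nat_lit 6) (nat_lit 301) (nat_lit 2) (nat_lit 175) (nat_lit 179) (nat_lit 156))) (PT.nd (nat_lit 78) (PT.lf (nat_lit 21812) (nat_lit 6) (nat_lit 287) (nat_lit 2) (nat_lit 176) (nat_lit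 179) (nat_lit 155)) (PT.lf (nat_lit 20672) (nat_lit 6) (nat_lit 272) (nat_lit 2) (nat_lit 177) (nat_lit 179) (nat_lit 154))))) (PT.nd (nat_lit 312) (PT.nd (nat_lit 156) (PT.nd (nat_lit 78) (PT.lf (nat_lit 19456) (nat_lit 6) (nat_lit 256) (nat_lit 2) (nat_lit 178) (nat_lit 179) (nat_lit 153)) (PT.lf (nat_lit 18772) (nat_lit 3) (nat_lit 247) (nat_lit 0) (nat_lit 179) (nat_lit 179) (nat_lit 152))) (PT.nd (nat_lit 78) (PT.lf (nat_lit 18088) (nat_lit 6) (nat_lit 238) (nat_lit 0) (nat_lit 180) (nat_lit 179) (nat_lit 151)) (PT.lf (nat_lit 17404) (nat_lit 6) (nat_lit 229) (nat_lit 0) (nat_lit 181) (nat_lit 179) (nat_lit 150)))) (PT.nd (nat_lit 156) (PT.nd (nat_lit 78) (PT.lf (nat_lit 16796) (nat_lit 6) (nat_lit 221) (nat_lit 0) (nat_lit 182) (nat_lit 179) (nat_lit 149)) (PT.lf (nat_lit 16188) (nat_lit 6) (nat_lit 213) (nat_lit 0) (nat_lit 183) (nat_lit 179) (nat_lit 148))) (PT.nd (nat_lit 78) (PT.lf (nat_lit 15656) (nat_lit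 6) (nat_lit 206) (nat_lit 0) (nat_lit 184) (nat_lit 179) (nat_lit 147)) (PT.nd (nat_lit 78) (PT.lf (nat_lit 15048) (nat_lit 6) (nat_lit 198) (nat_lit 0) (nat_lit 185) (nat_lit 179) (nat_lit 146)) (PT.lf (nat_lit 14516) (nat_lit 6) (nat_lit 191) (nat_lit 0) (nat_lit 186) (nat_lit 179) (nat_lit 145))))))) (PT.nd (nat_lit 49920) (PT.nd (nat_lit 49530) (PT.nd (nat_lit 156) (PT.nd (nat_lit 78) (PT.lf (nat_lit 13984) (nat_lit 6) (nat_lit 184) (nat_lit 0) (nat_lit 187) (nat_lit 179) (nat_lit 144)) (PT.lf (nat_lit 13452) (nat_lit 6) (nat_lit 177) (nat_lit 0) (nat_lit 188) (nat_lit 179) (nat_lit 143))) (PT.nd (nat_lit 49296) (PT.lf (nat_lit 12920) (nat_lit 6) (nat_lit 170) (nat_lit 0) (nat_lit 189) (nat_lit 179) (nat_lit 142)) (PT.lf (nat_lit 12084) (nat_lit 6) (nat_lit 159) (nat_lit 5) (nat_lit 140) (nat_lit 180) (nat_lit 190)))) (PT.nd (nat_lit 156) (PT.nd (nat_lit 78) (PT.lf (nat_lit 12540) (nat_lit 6) (nat_lit 165)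 (nat_lit 5) (nat_lit 141) (nat_lit 180) (nat_lit 189)) (PT.lf (nat_lit 12996) (nat_lit 6) (nat_lit 171) (nat_lit 5) (nat_lit 142) (nat_lit 180) (nat_lit 188))) (PT.nd (nat_lit 78) (PT.lf (nat_lit 13528) (nat_lit 6) (nat_lit 178) (nat_lit 5) (nat_lit 143) (nat_lit 180) (nat_lit 187)) (PT.nd (nat_lit 78) (PT.lf (nat_lit 14060) (nat_lit 6) (nat_lit 185) (nat_lit 5) (nat_lit 144) (nat_lit 180) (nat_lit 186)) (PT.lf (nat_lit 14592) (nat_lit 6) (nat_lit 192) (nat_lit 5) (nat_lit 145) (nat_lit 180) (nat_lit 185)))))) (PT.nd (nat_lit 312) (PT.nd (nat_lit 156) (PT.nd (nat_lit 78) (PT.lf (nat_lit 15124) (nat_lit 6) (nat_lit 199) (nat_lit 5) (nat_lit 146) (nat_lit 180) (nat_lit 184)) (PT.lf (nat_lit 15732) (nat_lit 6) (nat_lit 207) (nat_lit 5) (nat_lit 147) (nat_lit 180) (nat_lit 183))) (PT.nd (nat_lit 78) (PT.lf (nat_lit 16264) (nat_lit 6) (nat_lit 214) (nat_lit 5) (nat_lit 148) (nat_lit 180) (nat_lit 182)) (PT.lf (nat_lit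 16872) (nat_lit 6) (nat_lit 222) (nat_lit 5) (nat_lit 149) (nat_lit 180) (nat_lit 181)))) (PT.nd (nat_lit 156) (PT.nd (nat_lit 78) (PT.lf (nat_lit 17480) (nat_lit 3) (nat_lit 230) (nat_lit 4) (nat_lit 150) (nat_lit 180) (nat_lit 180)) (PT.lf (nat_lit 18088) (nat_lit 6) (nat_lit 238) (nat_lit 4) (nat_lit 151) (nat_lit 180) (nat_lit 179))) (PT.nd (nat_lit 78) (PT.lf (nat_lit 18696) (nat_lit 6) (nat_lit 246) (nat_lit 4) (nat_lit 152) (nat_lit 180) (nat_lit 178)) (PT.nd (nat_lit 78) (PT.lf (nat_lit 19380) (nat_lit 6) (nat_lit 255) (nat_lit 4) (nat_lit 153) (nat_lit 180) (nat_lit 177)) (PT.lf (nat_lit 20596) (nat_lit 6) (nat_lit 271) (nat_lit 4) (nat_lit 154) (nat_lit 180) (nat_lit 176))))))))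
noncomputable def pc37 : PT := (PT.nd (nat_lit 1326) (PT.nd (nat_lit 624) (PT.nd (nat_lit 312) (PT.nd (nat_lit 156) (PT.nd (nat_lit 78) (PT.lf (nat_lit 21736) (nat_lit 6) (nat_lit 286) (nat_lit 4) (nat_lit 155) (nat_lit 180) (nat_lit 175)) (PT.lf (nat_lit 22800) (nat_lit 6) (nat_lit 300) (nat_lit 4) (nat_lit 156) (nat_lit 180) (nat_lit 174))) (PT.nd (nat_lit 78) (PT.lf (nat_lit 23788) (nat_lit 6) (nat_lit 313) (nat_lit 4) (nat_lit 157) (nat_lit 180) (nat_lit 173)) (PT.lf (nat_lit 24700) (nat_lit 6) (nat_lit 325) (nat_lit 4) (nat_lit 158) (nat_lit 180) (nat_lit 172)))) (PT.nd (nat_lit 156) (PT.nd (nat_lit 78) (PT.lf (nat_lit 25536) (nat_lit 6) (nat_lit 336) (nat_lit 4) (nat_lit 159) (nat_lit 180) (nat_lit 171)) (PT.lf (nat_lit 26296) (nat_lit 6) (nat_lit 346) (nat_lit 4) (nat_lit 160) (nat_lit 180) (nat_lit 170))) (PT.nd (nat_lit 78) (PT.lf (nat_lit 26220) (nat_lit 6) (nat_lit 345) (nat_lit 4) (nat_lit 161) (nat_lit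 180) (nat_lit 169)) (PT.lf (nat_lit 26144) (nat_lit 6) (nat_lit 344) (nat_lit 4) (nat_lit 162) (nat_lit 180) (nat_lit 168))))) (PT.nd (nat_lit 312) (PT.nd (nat_lit 156) (PT.nd (nat_lit 78) (PT.lf (nat_lit 26068) (nat_lit 6) (nat_lit 343) (nat_lit 4) (nat_lit 163) (nat_lit 180) (nat_lit 167)) (PT.lf (nat_lit 25992) (nat_lit 6) (nat_lit 342) (nat_lit 4) (nat_lit 164) (nat_lit 180) (nat_lit 166))) (PT.nd (nat_lit 78) (PT.lf (nat_lit 25916) (nat_lit 3) (nat_lit 341) (nat_lit 2) (nat_lit 165) (nat_lit 180) (nat_lit 165)) (PT.lf (nat_lit 25992) (nat_lit 6) (nat_lit 342) (nat_lit 2) (nat_lit 166) (nat_lit 180) (nat_lit 164)))) (PT.nd (nat_lit 156) (PT.nd (nat_lit 78) (PT.lf (nat_lit 26068) (nat_lit 6) (nat_lit 343) (nat_lit 2) (nat_lit 167) (nat_lit 180) (nat_lit 163)) (PT.lf (nat_lit 26144) (nat_lit 6) (nat_lit 344) (nat_lit 2) (nat_lit 168) (nat_lit 180) (nat_lit 162))) (PT.nd (nat_lit 78) (PT.lf (nat_lit 26220) (nat_lit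 6) (nat_lit 345) (nat_lit 2) (nat_lit 169) (nat_lit 180) (nat_lit 161)) (PT.nd (nat_lit 78) (PT.lf (nat_lit 26296) (nat_lit 6) (nat_lit 346) (nat_lit 2) (nat_lit 170) (nat_lit 180) (nat_lit 160)) (PT.lf (nat_lit 25536) (nat_lit 6) (nat_lit 336) (nat_lit 2) (nat_lit 171) (nat_lit 180) (nat_lit 159))))))) (PT.nd (nat_lit 702) (PT.nd (nat_lit 312) (PT.nd (nat_lit 156) (PT.nd (nat_lit 78) (PT.lf (nat_lit 24700) (nat_lit 6) (nat_lit 325) (nat_lit 2) (nat_lit 172) (nat_lit 180) (nat_lit 158)) (PT.lf (nat_lit 23788) (nat_lit 6) (nat_lit 313) (nat_lit 2) (nat_lit 173) (nat_lit 180) (nat_lit 157))) (PT.nd (nat_lit 78) (PT.lf (nat_lit 22800) (nat_lit 6) (nat_lit 300) (nat_lit 2) (nat_lit 174) (nat_lit 180) (nat_lit 156)) (PT.lf (nat_lit 21736) (nat_lit 6) (nat_lit 286) (nat_lit 2) (nat_lit 175) (nat_lit 180) (nat_lit 155)))) (PT.nd (nat_lit 156) (PT.nd (nat_lit 78) (PT.lf (nat_lit 20596) (nat_lit 6) (nat_lit 271) (nat_lit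 2) (nat_lit 176) (nat_lit 180) (nat_lit 154)) (PT.lf (nat_lit 19380) (nat_lit 6) (nat_lit 255) (nat_lit 2) (nat_lit 177) (nat_lit 180) (nat_lit 153))) (PT.nd (nat_lit 78) (PT.lf (nat_lit 18696) (nat_lit 6) (nat_lit 246) (nat_lit 2) (nat_lit 178) (nat_lit 180) (nat_lit 152)) (PT.nd (nat_lit 78) (PT.lf (nat_lit 18088) (nat_lit 6) (nat_lit 238) (nat_lit 2) (nat_lit 179) (nat_lit 180) (nat_lit 151)) (PT.lf (nat_lit 17480) (nat_lit 3) (nat_lit 230) (nat_lit 0) (nat_lit 180) (nat_lit 180) (nat_lit 150)))))) (PT.nd (nat_lit 312) (PT.nd (nat_lit 156) (PT.nd (nat_lit 78) (PT.lf (nat_lit 16872) (nat_lit 6) (nat_lit 222) (nat_lit 0) (nat_lit 181) (nat_lit 180) (nat_lit 149)) (PT.lf (nat_lit 16264) (nat_lit 6) (nat_lit 214) (nat_lit 0) (nat_lit 182) (nat_lit 180) (nat_lit 148))) (PT.nd (nat_lit 78) (PT.lf (nat_lit 15732) (nat_lit 6) (nat_lit 207) (nat_lit 0) (nat_lit 183) (nat_lit 180) (nat_lit 147)) (PT.lf (nat_lit 15124)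 (nat_lit 6) (nat_lit 199) (nat_lit 0) (nat_lit 184) (nat_lit 180) (nat_lit 146)))) (PT.nd (nat_lit 156) (PT.nd (nat_lit 78) (PT.lf (nat_lit 14592) (nat_lit 6) (nat_lit 192) (nat_lit 0) (nat_lit 185) (nat_lit 180) (nat_lit 145)) (PT.lf (nat_lit 14060) (nat_lit 6) (nat_lit 185) (nat_lit 0) (nat_lit 186) (nat_lit 180) (nat_lit 144))) (PT.nd (nat_lit 78) (PT.lf (nat_lit 13528) (nat_lit 6) (nat_lit 178) (nat_lit 0) (nat_lit 187) (nat_lit 180) (nat_lit 143)) (PT.nd (nat_lit 78) (PT.lf (nat_lit 12996) (nat_lit 6) (nat_lit 171) (nat_lit 0) (nat_lit 188) (nat_lit 180) (nat_lit 142)) (PT.lf (nat_lit 12540) (nat_lit 6) (nat_lit 165) (nat_lit 0) (nat_lit 189) (nat_lit 180) (nat_lit 141))))))))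
noncomputable def pc38 : PT := (PT.nd (nat_lit 50388) (PT.nd (nat_lit 49686) (PT.nd (nat_lit 49374) (PT.nd (nat_lit 49218) (PT.nd (nat_lit 49140) (PT.lf (nat_lit 12084) (nat_lit 6) (nat_lit 159) (nat_lit 0) (nat_lit 190) (nat_lit 180) (nat_lit 140)) (PT.lf (nat_lit 11704) (nat_lit 6) (nat_lit 154) (nat_lit 5) (nat_lit 139) (nat_lit 181) (nat_lit 190))) (PT.nd (nat_lit 78) (PT.lf (nat_lit 12160) (nat_lit 6) (nat_lit 160) (nat_lit 5) (nat_lit 140) (nat_lit 181) (nat_lit 189)) (PT.lf (nat_lit 12616) (nat_lit 6) (nat_lit 166) (nat_lit 5) (nat_lit 141) (nat_lit 181) (nat_lit 188)))) (PT.nd (nat_lit 156) (PT.nd (nat_lit 78) (PT.lf (nat_lit 13072) (nat_lit 6) (nat_lit 172) (nat_lit 5) (nat_lit 142) (nat_lit 181) (nat_lit 187)) (PT.lf (nat_lit 13604) (nat_lit 6) (nat_lit 179) (nat_lit 5) (nat_lit 143) (nat_lit 181) (nat_lit 186))) (PT.nd (nat_lit 78) (PT.lf (nat_lit 14136) (nat_lit 6) (nat_lit 186) (nat_lit 5) (nat_lit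 144) (nat_lit 181) (nat_lit 185)) (PT.lf (nat_lit 14668) (nat_lit 6) (nat_lit 193) (nat_lit 5) (nat_lit 145) (nat_lit 181) (nat_lit 184))))) (PT.nd (nat_lit 312) (PT.nd (nat_lit 156) (PT.nd (nat_lit 78) (PT.lf (nat_lit 15200) (nat_lit 6) (nat_lit 200) (nat_lit 5) (nat_lit 146) (nat_lit 181) (nat_lit 183)) (PT.lf (nat_lit 15808) (nat_lit 6) (nat_lit 208) (nat_lit 5) (nat_lit 147) (nat_lit 181) (nat_lit 182))) (PT.nd (nat_lit 78) (PT.lf (nat_lit 16340) (nat_lit 3) (nat_lit 215) (nat_lit 4) (nat_lit 148) (nat_lit 181) (nat_lit 181)) (PT.lf (nat_lit 16872) (nat_lit 6) (nat_lit 222) (nat_lit 4) (nat_lit 149) (nat_lit 181) (nat_lit 180)))) (PT.nd (nat_lit 156) (PT.nd (nat_lit 78) (PT.lf (nat_lit 17404) (nat_lit 6) (nat_lit 229) (nat_lit 4) (nat_lit 150) (nat_lit 181) (nat_lit 179)) (PT.lf (nat_lit 18012) (nat_lit 6) (nat_lit 237) (nat_lit 4) (nat_lit 151) (nat_lit 181) (nat_lit 178))) (PT.nd (nat_lit 78) (PT.lf (nat_lit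 18620) (nat_lit 6) (nat_lit 245) (nat_lit 4) (nat_lit 152) (nat_lit 181) (nat_lit 177)) (PT.nd (nat_lit 78) (PT.lf (nat_lit 19304) (nat_lit 6) (nat_lit 254) (nat_lit 4) (nat_lit 153) (nat_lit 181) (nat_lit 176)) (PT.lf (nat_lit 20520) (nat_lit 6) (nat_lit 270) (nat_lit 4) (nat_lit 154) (nat_lit 181) (nat_lit 175))))))) (PT.nd (nat_lit 702) (PT.nd (nat_lit 312) (PT.nd (nat_lit 156) (PT.nd (nat_lit 78) (PT.lf (nat_lit 21660) (nat_lit 6) (nat_lit 285) (nat_lit 4) (nat_lit 155) (nat_lit 181) (nat_lit 174)) (PT.lf (nat_lit 22724) (nat_lit 6) (nat_lit 299) (nat_lit 4) (nat_lit 156) (nat_lit 181) (nat_lit 173))) (PT.nd (nat_lit 78) (PT.lf (nat_lit 23712) (nat_lit 6) (nat_lit 312) (nat_lit 4) (nat_lit 157) (nat_lit 181) (nat_lit 172)) (PT.lf (nat_lit 24624) (nat_lit 6) (nat_lit 324) (nat_lit 4) (nat_lit 158) (nat_lit 181) (nat_lit 171)))) (PT.nd (nat_lit 156) (PT.nd (nat_lit 78) (PT.lf (nat_lit 25460) (nat_lit 6) (nat_lit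 335) (nat_lit 4) (nat_lit 159) (nat_lit 181) (nat_lit 170)) (PT.lf (nat_lit 25384) (nat_lit 6) (nat_lit 334) (nat_lit 4) (nat_lit 160) (nat_lit 181) (nat_lit 169))) (PT.nd (nat_lit 78) (PT.lf (nat_lit 25308) (nat_lit 6) (nat_lit 333) (nat_lit 4) (nat_lit 161) (nat_lit 181) (nat_lit 168)) (PT.nd (nat_lit 78) (PT.lf (nat_lit 25232) (nat_lit 6) (nat_lit 332) (nat_lit 4) (nat_lit 162) (nat_lit 181) (nat_lit 167)) (PT.lf (nat_lit 25156) (nat_lit 6) (nat_lit 331) (nat_lit 4) (nat_lit 163) (nat_lit 181) (nat_lit 166)))))) (PT.nd (nat_lit 312) (PT.nd (nat_lit 156) (PT.nd (nat_lit 78) (PT.lf (nat_lit 25080) (nat_lit 6) (nat_lit 330) (nat_lit 4) (nat_lit 164) (nat_lit 181) (nat_lit 165)) (PT.lf (nat_lit 25080) (nat_lit 6) (nat_lit 330) (nat_lit 2) (nat_lit 165) (nat_lit 181) (nat_lit 164))) (PT.nd (nat_lit 78) (PT.lf (nat_lit 25156) (nat_lit 6) (nat_lit 331) (nat_lit 2) (nat_lit 166) (nat_lit 181) (nat_lit 163)) (PT.lf (nat_lit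 25232) (nat_lit 6) (nat_lit 332) (nat_lit 2) (nat_lit 167) (nat_lit 181) (nat_lit 162)))) (PT.nd (nat_lit 156) (PT.nd (nat_lit 78) (PT.lf (nat_lit 25308) (nat_lit 6) (nat_lit 333) (nat_lit 2) (nat_lit 168) (nat_lit 181) (nat_lit 161)) (PT.lf (nat_lit 25384) (nat_lit 6) (nat_lit 334) (nat_lit 2) (nat_lit 169) (nat_lit 181) (nat_lit 160))) (PT.nd (nat_lit 78) (PT.lf (nat_lit 25460) (nat_lit 6) (nat_lit 335) (nat_lit 2) (nat_lit 170) (nat_lit 181) (nat_lit 159)) (PT.nd (nat_lit 78) (PT.lf (nat_lit 24624) (nat_lit 6) (nat_lit 324) (nat_lit 2) (nat_lit 171) (nat_lit 181) (nat_lit 158)) (PT.lf (nat_lit 23712) (nat_lit 6) (nat_lit 312) (nat_lit 2) (nat_lit 172) (nat_lit 181) (nat_lit 157))))))))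
noncomputable def pc39 : PT := (PT.nd (nat_lit 1326) (PT.nd (nat_lit 624) (PT.nd (nat_lit 312) (PT.nd (nat_lit 156) (PT.nd (nat_lit 78) (PT.lf (nat_lit 22724) (nat_lit 6) (nat_lit 299) (nat_lit 2) (nat_lit 173) (nat_lit 181) (nat_lit 156)) (PT.lf (nat_lit 21660) (nat_lit 6) (nat_lit 285) (nat_lit 2) (nat_lit 174) (nat_lit 181) (nat_lit 155))) (PT.nd (nat_lit 78) (PT.lf (nat_lit 20520) (nat_lit 6) (nat_lit 270) (nat_lit 2) (nat_lit 175) (nat_lit 181) (nat_lit 154)) (PT.lf (nat_lit 19304) (nat_lit 6) (nat_lit 254) (nat_lit 2) (nat_lit 176) (nat_lit 181) (nat_lit 153)))) (PT.nd (nat_lit 156) (PT.nd (nat_lit 78) (PT.lf (nat_lit 18620) (nat_lit 6) (nat_lit 245) (nat_lit 2) (nat_lit 177) (nat_lit 181) (nat_lit 152)) (PT.lf (nat_lit 18012) (nat_lit 6) (nat_lit 237) (nat_lit 2) (nat_lit 178) (nat_lit 181) (nat_lit 151))) (PT.nd (nat_lit 78) (PT.lf (nat_lit 17404) (nat_lit 6) (nat_lit 229) (nat_lit 2) (nat_lit 179) (nat_lit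 181) (nat_lit 150)) (PT.lf (nat_lit 16872) (nat_lit 6) (nat_lit 222) (nat_lit 2) (nat_lit 180) (nat_lit 181) (nat_lit 149))))) (PT.nd (nat_lit 312) (PT.nd (nat_lit 156) (PT.nd (nat_lit 78) (PT.lf (nat_lit 16340) (nat_lit 3) (nat_lit 215) (nat_lit 0) (nat_lit 181) (nat_lit 181) (nat_lit 148)) (PT.lf (nat_lit 15808) (nat_lit 6) (nat_lit 208) (nat_lit 0) (nat_lit 182) (nat_lit 181) (nat_lit 147))) (PT.nd (nat_lit 78) (PT.lf (nat_lit 15200) (nat_lit 6) (nat_lit 200) (nat_lit 0) (nat_lit 183) (nat_lit 181) (nat_lit 146)) (PT.lf (nat_lit 14668) (nat_lit 6) (nat_lit 193) (nat_lit 0) (nat_lit 184) (nat_lit 181) (nat_lit 145)))) (PT.nd (nat_lit 156) (PT.nd (nat_lit 78) (PT.lf (nat_lit 14136) (nat_lit 6) (nat_lit 186) (nat_lit 0) (nat_lit 185) (nat_lit 181) (nat_lit 144)) (PT.lf (nat_lit 13604) (nat_lit 6) (nat_lit 179) (nat_lit 0) (nat_lit 186) (nat_lit 181) (nat_lit 143))) (PT.nd (nat_lit 78) (PT.lf (nat_lit 13072) (nat_lit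 6) (nat_lit 172) (nat_lit 0) (nat_lit 187) (nat_lit 181) (nat_lit 142)) (PT.nd (nat_lit 78) (PT.lf (nat_lit 12616) (nat_lit 6) (nat_lit 166) (nat_lit 0) (nat_lit 188) (nat_lit 181) (nat_lit 141)) (PT.lf (nat_lit 12160) (nat_lit 6) (nat_lit 160) (nat_lit 0) (nat_lit 189) (nat_lit 181) (nat_lit 140))))))) (PT.nd (nat_lit 49608) (PT.nd (nat_lit 49218) (PT.nd (nat_lit 49062) (PT.nd (nat_lit 48984) (PT.lf (nat_lit 11704) (nat_lit 6) (nat_lit 154) (nat_lit 0) (nat_lit 190) (nat_lit 181) (nat_lit 139)) (PT.lf (nat_lit 10944) (nat_lit 6) (nat_lit 144) (nat_lit 5) (nat_lit 137) (nat_lit 182) (nat_lit 191))) (PT.nd (nat_lit 78) (PT.lf (nat_lit 11324) (nat_lit 6) (nat_lit 149) (nat_lit 5) (nat_lit 138) (nat_lit 182) (nat_lit 190)) (PT.lf (nat_lit 11780) (nat_lit 6) (nat_lit 155) (nat_lit 5) (nat_lit 139) (nat_lit 182) (nat_lit 189)))) (PT.nd (nat_lit 156) (PT.nd (nat_lit 78) (PT.lf (nat_lit 12236) (nat_lit 6) (nat_lit 161)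 (nat_lit 5) (nat_lit 140) (nat_lit 182) (nat_lit 188)) (PT.lf (nat_lit 12692) (nat_lit 6) (nat_lit 167) (nat_lit 5) (nat_lit 141) (nat_lit 182) (nat_lit 187))) (PT.nd (nat_lit 78) (PT.lf (nat_lit 13148) (nat_lit 6) (nat_lit 173) (nat_lit 5) (nat_lit 142) (nat_lit 182) (nat_lit 186)) (PT.nd (nat_lit 78) (PT.lf (nat_lit 13680) (nat_lit 6) (nat_lit 180) (nat_lit 5) (nat_lit 143) (nat_lit 182) (nat_lit 185)) (PT.lf (nat_lit 14212) (nat_lit 6) (nat_lit 187) (nat_lit 5) (nat_lit 144) (nat_lit 182) (nat_lit 184)))))) (PT.nd (nat_lit 312) (PT.nd (nat_lit 156) (PT.nd (nat_lit 78) (PT.lf (nat_lit 14744) (nat_lit 6) (nat_lit 194) (nat_lit 5) (nat_lit 145) (nat_lit 182) (nat_lit 183)) (PT.lf (nat_lit 15276) (nat_lit 3) (nat_lit 201) (nat_lit 4) (nat_lit 146) (nat_lit 182) (nat_lit 182))) (PT.nd (nat_lit 78) (PT.lf (nat_lit 15808) (nat_lit 6) (nat_lit 208) (nat_lit 4) (nat_lit 147) (nat_lit 182) (nat_lit 181)) (PT.lf (nat_lit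 16264) (nat_lit 6) (nat_lit 214) (nat_lit 4) (nat_lit 148) (nat_lit 182) (nat_lit 180)))) (PT.nd (nat_lit 156) (PT.nd (nat_lit 78) (PT.lf (nat_lit 16796) (nat_lit 6) (nat_lit 221) (nat_lit 4) (nat_lit 149) (nat_lit 182) (nat_lit 179)) (PT.lf (nat_lit 17328) (nat_lit 6) (nat_lit 228) (nat_lit 4) (nat_lit 150) (nat_lit 182) (nat_lit 178))) (PT.nd (nat_lit 78) (PT.lf (nat_lit 17936) (nat_lit 6) (nat_lit 236) (nat_lit 4) (nat_lit 151) (nat_lit 182) (nat_lit 177)) (PT.nd (nat_lit 78) (PT.lf (nat_lit 18544) (nat_lit 6) (nat_lit 244) (nat_lit 4) (nat_lit 152) (nat_lit 182) (nat_lit 176)) (PT.lf (nat_lit 19228) (nat_lit 6) (nat_lit 253) (nat_lit 4) (nat_lit 153) (nat_lit 182) (nat_lit 175))))))))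
noncomputable def pc40 : PT := (PT.nd (nat_lit 1326) (PT.nd (nat_lit 624) (PT.nd (nat_lit 312) (PT.nd (nat_lit 156) (PT.nd (nat_lit 78) (PT.lf (nat_lit 20444) (nat_lit 6) (nat_lit 269) (nat_lit 4) (nat_lit 154) (nat_lit 182) (nat_lit 174)) (PT.lf (nat_lit 21584) (nat_lit 6) (nat_lit 284) (nat_lit 4) (nat_lit 155) (nat_lit 182) (nat_lit 173))) (PT.nd (nat_lit 78) (PT.lf (nat_lit 22648) (nat_lit 6) (nat_lit 298) (nat_lit 4) (nat_lit 156) (nat_lit 182) (nat_lit 172)) (PT.lf (nat_lit 23636) (nat_lit 6) (nat_lit 311) (nat_lit 4) (nat_lit 157) (nat_lit 182) (nat_lit 171)))) (PT.nd (nat_lit 156) (PT.nd (nat_lit 78) (PT.lf (nat_lit 24548) (nat_lit 6) (nat_lit 323) (nat_lit 4) (nat_lit 158) (nat_lit 182) (nat_lit 170)) (PT.lf (nat_lit 24472) (nat_lit 6) (nat_lit 322) (nat_lit 4) (nat_lit 159) (nat_lit 182) (nat_lit 169))) (PT.nd (nat_lit 78) (PT.lf (nat_lit 24396) (nat_lit 6) (nat_lit 321) (nat_lit 4) (nat_lit 160) (nat_lit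 182) (nat_lit 168)) (PT.lf (nat_lit 24320) (nat_lit 6) (nat_lit 320) (nat_lit 4) (nat_lit 161) (nat_lit 182) (nat_lit 167))))) (PT.nd (nat_lit 312) (PT.nd (nat_lit 156) (PT.nd (nat_lit 78) (PT.lf (nat_lit 24244) (nat_lit 6) (nat_lit 319) (nat_lit 4) (nat_lit 162) (nat_lit 182) (nat_lit 166)) (PT.lf (nat_lit 24168) (nat_lit 6) (nat_lit 318) (nat_lit 4) (nat_lit 163) (nat_lit 182) (nat_lit 165))) (PT.nd (nat_lit 78) (PT.lf (nat_lit 24092) (nat_lit 3) (nat_lit 317) (nat_lit 2) (nat_lit 164) (nat_lit 182) (nat_lit 164)) (PT.lf (nat_lit 24168) (nat_lit 6) (nat_lit 318) (nat_lit 2) (nat_lit 165) (nat_lit 182) (nat_lit 163)))) (PT.nd (nat_lit 156) (PT.nd (nat_lit 78) (PT.lf (nat_lit 24244) (nat_lit 6) (nat_lit 319) (nat_lit 2) (nat_lit 166) (nat_lit 182) (nat_lit 162)) (PT.lf (nat_lit 24320) (nat_lit 6) (nat_lit 320) (nat_lit 2) (nat_lit 167) (nat_lit 182) (nat_lit 161))) (PT.nd (nat_lit 78) (PT.lf (nat_lit 24396) (nat_lit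 6) (nat_lit 321) (nat_lit 2) (nat_lit 168) (nat_lit 182) (nat_lit 160)) (PT.nd (nat_lit 78) (PT.lf (nat_lit 24472) (nat_lit 6) (nat_lit 322) (nat_lit 2) (nat_lit 169) (nat_lit 182) (nat_lit 159)) (PT.lf (nat_lit 24548) (nat_lit 6) (nat_lit 323) (nat_lit 2) (nat_lit 170) (nat_lit 182) (nat_lit 158))))))) (PT.nd (nat_lit 624) (PT.nd (nat_lit 312) (PT.nd (nat_lit 156) (PT.nd (nat_lit 78) (PT.lf (nat_lit 23636) (nat_lit 6) (nat_lit 311) (nat_lit 2) (nat_lit 171) (nat_lit 182) (nat_lit 157)) (PT.lf (nat_lit 22648) (nat_lit 6) (nat_lit 298) (nat_lit 2) (nat_lit 172) (nat_lit 182) (nat_lit 156))) (PT.nd (nat_lit 78) (PT.lf (nat_lit 21584) (nat_lit 6) (nat_lit 284) (nat_lit 2) (nat_lit 173) (nat_lit 182) (nat_lit 155)) (PT.lf (nat_lit 20444) (nat_lit 6) (nat_lit 269) (nat_lit 2) (nat_lit 174) (nat_lit 182) (nat_lit 154)))) (PT.nd (nat_lit 156) (PT.nd (nat_lit 78) (PT.lf (nat_lit 19228) (nat_lit 6) (nat_lit 253) (nat_lit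 2) (nat_lit 175) (nat_lit 182) (nat_lit 153)) (PT.lf (nat_lit 18544) (nat_lit 6) (nat_lit 244) (nat_lit 2) (nat_lit 176) (nat_lit 182) (nat_lit 152))) (PT.nd (nat_lit 78) (PT.lf (nat_lit 17936) (nat_lit 6) (nat_lit 236) (nat_lit 2) (nat_lit 177) (nat_lit 182) (nat_lit 151)) (PT.lf (nat_lit 17328) (nat_lit 6) (nat_lit 228) (nat_lit 2) (nat_lit 178) (nat_lit 182) (nat_lit 150))))) (PT.nd (nat_lit 312) (PT.nd (nat_lit 156) (PT.nd (nat_lit 78) (PT.lf (nat_lit 16796) (nat_lit 6) (nat_lit 221) (nat_lit 2) (nat_lit 179) (nat_lit 182) (nat_lit 149)) (PT.lf (nat_lit 16264) (nat_lit 6) (nat_lit 214) (nat_lit 2) (nat_lit 180) (nat_lit 182) (nat_lit 148))) (PT.nd (nat_lit 78) (PT.lf (nat_lit 15808) (nat_lit 6) (nat_lit 208) (nat_lit 2) (nat_lit 181) (nat_lit 182) (nat_lit 147)) (PT.lf (nat_lit 15276) (nat_lit 3) (nat_lit 201) (nat_lit 0) (nat_lit 182) (nat_lit 182) (nat_lit 146)))) (PT.nd (nat_lit 156) (PT.nd (nat_lit 78)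 (PT.lf (nat_lit 14744) (nat_lit 6) (nat_lit 194) (nat_lit 0) (nat_lit 183) (nat_lit 182) (nat_lit 145)) (PT.lf (nat_lit 14212) (nat_lit 6) (nat_lit 187) (nat_lit 0) (nat_lit 184) (nat_lit 182) (nat_lit 144))) (PT.nd (nat_lit 78) (PT.lf (nat_lit 13680) (nat_lit 6) (nat_lit 180) (nat_lit 0) (nat_lit 185) (nat_lit 182) (nat_lit 143)) (PT.nd (nat_lit 78) (PT.lf (nat_lit 13148) (nat_lit 6) (nat_lit 173) (nat_lit 0) (nat_lit 186) (nat_lit 182) (nat_lit 142)) (PT.lf (nat_lit 12692) (nat_lit 6) (nat_lit 167) (nat_lit 0) (nat_lit 187) (nat_lit 182) (nat_lit 141))))))))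
noncomputable def pc41 : PT := (PT.nd (nat_lit 50076) (PT.nd (nat_lit 49374) (PT.nd (nat_lit 49062) (PT.nd (nat_lit 156) (PT.nd (nat_lit 78) (PT.lf (nat_lit 12236) (nat_lit 6) (nat_lit 161) (nat_lit 0) (nat_lit 188) (nat_lit 182) (nat_lit 140)) (PT.lf (nat_lit 11780) (nat_lit 6) (nat_lit 155) (nat_lit 0) (nat_lit 189) (nat_lit 182) (nat_lit 139))) (PT.nd (nat_lit 78) (PT.lf (nat_lit 11324) (nat_lit 6) (nat_lit 149) (nat_lit 0) (nat_lit 190) (nat_lit 182) (nat_lit 138)) (PT.lf (nat_lit 10944) (nat_lit 6) (nat_lit 144) (nat_lit 0) (nat_lit 191) (nat_lit 182) (nat_lit 137)))) (PT.nd (nat_lit 156) (PT.nd (nat_lit 78) (PT.lf (nat_lit 10564) (nat_lit 6) (nat_lit 139) (nat_lit 5) (nat_lit 136) (nat_lit 183) (nat_lit 191)) (PT.lf (nat_lit 11020) (nat_lit 6) (nat_lit 145) (nat_lit 5) (nat_lit 137) (nat_lit 183) (nat_lit 190))) (PT.nd (nat_lit 78) (PT.lf (nat_lit 11400) (nat_lit 6) (nat_lit 150) (nat_lit 5) (nat_lit 138)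 (nat_lit 183) (nat_lit 189)) (PT.lf (nat_lit 11856) (nat_lit 6) (nat_lit 156) (nat_lit 5) (nat_lit 139) (nat_lit 183) (nat_lit 188))))) (PT.nd (nat_lit 312) (PT.nd (nat_lit 156) (PT.nd (nat_lit 78) (PT.lf (nat_lit 12312) (nat_lit 6) (nat_lit 162) (nat_lit 5) (nat_lit 140) (nat_lit 183) (nat_lit 187)) (PT.lf (nat_lit 12768) (nat_lit 6) (nat_lit 168) (nat_lit 5) (nat_lit 141) (nat_lit 183) (nat_lit 186))) (PT.nd (nat_lit 78) (PT.lf (nat_lit 13224) (nat_lit 6) (nat_lit 174) (nat_lit 5) (nat_lit 142) (nat_lit 183) (nat_lit 185)) (PT.lf (nat_lit 13756) (nat_lit 6) (nat_lit 181) (nat_lit 5) (nat_lit 143) (nat_lit 183) (nat_lit 184)))) (PT.nd (nat_lit 156) (PT.nd (nat_lit 78) (PT.lf (nat_lit 14288) (nat_lit 3) (nat_lit 188) (nat_lit 4) (nat_lit 144) (nat_lit 183) (nat_lit 183)) (PT.lf (nat_lit 14744) (nat_lit 6) (nat_lit 194) (nat_lit 4) (nat_lit 145) (nat_lit 183) (nat_lit 182))) (PT.nd (nat_lit 78) (PT.lf (nat_lit 15200)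 (nat_lit 6) (nat_lit 200) (nat_lit 4) (nat_lit 146) (nat_lit 183) (nat_lit 181)) (PT.nd (nat_lit 78) (PT.lf (nat_lit 15732) (nat_lit 6) (nat_lit 207) (nat_lit 4) (nat_lit 147) (nat_lit 183) (nat_lit 180)) (PT.lf (nat_lit 16188) (nat_lit 6) (nat_lit 213) (nat_lit 4) (nat_lit 148) (nat_lit 183) (nat_lit 179))))))) (PT.nd (nat_lit 702) (PT.nd (nat_lit 312) (PT.nd (nat_lit 156) (PT.nd (nat_lit 78) (PT.lf (nat_lit 16720) (nat_lit 6) (nat_lit 220) (nat_lit 4) (nat_lit 149) (nat_lit 183) (nat_lit 178)) (PT.lf (nat_lit 17252) (nat_lit 6) (nat_lit 227) (nat_lit 4) (nat_lit 150) (nat_lit 183) (nat_lit 177))) (PT.nd (nat_lit 78) (PT.lf (nat_lit 17860) (nat_lit 6) (nat_lit 235) (nat_lit 4) (nat_lit 151) (nat_lit 183) (nat_lit 176)) (PT.lf (nat_lit 18468) (nat_lit 6) (nat_lit 243) (nat_lit 4) (nat_lit 152) (nat_lit 183) (nat_lit 175)))) (PT.nd (nat_lit 156) (PT.nd (nat_lit 78) (PT.lf (nat_lit 19152) (nat_lit 6) (nat_lit 252)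 (nat_lit 4) (nat_lit 153) (nat_lit 183) (nat_lit 174)) (PT.lf (nat_lit 20368) (nat_lit 6) (nat_lit 268) (nat_lit 4) (nat_lit 154) (nat_lit 183) (nat_lit 173))) (PT.nd (nat_lit 78) (PT.lf (nat_lit 21508) (nat_lit 6) (nat_lit 283) (nat_lit 4) (nat_lit 155) (nat_lit 183) (nat_lit 172)) (PT.nd (nat_lit 78) (PT.lf (nat_lit 22572) (nat_lit 6) (nat_lit 297) (nat_lit 4) (nat_lit 156) (nat_lit 183) (nat_lit 171)) (PT.lf (nat_lit 23560) (nat_lit 6) (nat_lit 310) (nat_lit 4) (nat_lit 157) (nat_lit 183) (nat_lit 170)))))) (PT.nd (nat_lit 312) (PT.nd (nat_lit 156) (PT.nd (nat_lit 78) (PT.lf (nat_lit 23484) (nat_lit 6) (nat_lit 309) (nat_lit 4) (nat_lit 158) (nat_lit 183) (nat_lit 169)) (PT.lf (nat_lit 23408) (nat_lit 6) (nat_lit 308) (nat_lit 4) (nat_lit 159) (nat_lit 183) (nat_lit 168))) (PT.nd (nat_lit 78) (PT.lf (nat_lit 23332) (nat_lit 6) (nat_lit 307) (nat_lit 4) (nat_lit 160) (nat_lit 183) (nat_lit 167)) (PT.lf (nat_lit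 23256) (nat_lit 6) (nat_lit 306) (nat_lit 4) (nat_lit 161) (nat_lit 183) (nat_lit 166)))) (PT.nd (nat_lit 156) (PT.nd (nat_lit 78) (PT.lf (nat_lit 23180) (nat_lit 6) (nat_lit 305) (nat_lit 4) (nat_lit 162) (nat_lit 183) (nat_lit 165)) (PT.lf (nat_lit 23104) (nat_lit 6) (nat_lit 304) (nat_lit 4) (nat_lit 163) (nat_lit 183) (nat_lit 164))) (PT.nd (nat_lit 78) (PT.lf (nat_lit 23104) (nat_lit 6) (nat_lit 304) (nat_lit 2) (nat_lit 164) (nat_lit 183) (nat_lit 163)) (PT.nd (nat_lit 78) (PT.lf (nat_lit 23180) (nat_lit 6) (nat_lit 305) (nat_lit 2) (nat_lit 165) (nat_lit 183) (nat_lit 162)) (PT.lf (nat_lit 23256) (nat_lit 6) (nat_lit 306) (nat_lit 2) (nat_lit 166) (nat_lit 183) (nat_lit 161))))))))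
noncomputable def pc42 : PT := (PT.nd (nat_lit 1326) (PT.nd (nat_lit 624) (PT.nd (nat_lit 312) (PT.nd (nat_lit 156) (PT.nd (nat_lit 78) (PT.lf (nat_lit 23332) (nat_lit 6) (nat_lit 307) (nat_lit 2) (nat_lit 167) (nat_lit 183) (nat_lit 160)) (PT.lf (nat_lit 23408) (nat_lit 6) (nat_lit 308) (nat_lit 2) (nat_lit 168) (nat_lit 183) (nat_lit 159))) (PT.nd (nat_lit 78) (PT.lf (nat_lit 23484) (nat_lit 6) (nat_lit 309) (nat_lit 2) (nat_lit 169) (nat_lit 183) (nat_lit 158)) (PT.lf (nat_lit 23560) (nat_lit 6) (nat_lit 310) (nat_lit 2) (nat_lit 170) (nat_lit 183) (nat_lit 157)))) (PT.nd (nat_lit 156) (PT.nd (nat_lit 78) (PT.lf (nat_lit 22572) (nat_lit 6) (nat_lit 297) (nat_lit 2) (nat_lit 171) (nat_lit 183) (nat_lit 156)) (PT.lf (nat_lit 21508) (nat_lit 6) (nat_lit 283) (nat_lit 2) (nat_lit 172) (nat_lit 183) (nat_lit 155))) (PT.nd (nat_lit 78) (PT.lf (nat_lit 20368) (nat_lit 6) (nat_lit 268) (nat_lit 2) (nat_lit 173) (nat_lit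 183) (nat_lit 154)) (PT.lf (nat_lit 19152) (nat_lit 6) (nat_lit 252) (nat_lit 2) (nat_lit 174) (nat_lit 183) (nat_lit 153))))) (PT.nd (nat_lit 312) (PT.nd (nat_lit 156) (PT.nd (nat_lit 78) (PT.lf (nat_lit 18468) (nat_lit 6) (nat_lit 243) (nat_lit 2) (nat_lit 175) (nat_lit 183) (nat_lit 152)) (PT.lf (nat_lit 17860) (nat_lit 6) (nat_lit 235) (nat_lit 2) (nat_lit 176) (nat_lit 183) (nat_lit 151))) (PT.nd (nat_lit 78) (PT.lf (nat_lit 17252) (nat_lit 6) (nat_lit 227) (nat_lit 2) (nat_lit 177) (nat_lit 183) (nat_lit 150)) (PT.lf (nat_lit 16720) (nat_lit 6) (nat_lit 220) (nat_lit 2) (nat_lit 178) (nat_lit 183) (nat_lit 149)))) (PT.nd (nat_lit 156) (PT.nd (nat_lit 78) (PT.lf (nat_lit 16188) (nat_lit 6) (nat_lit 213) (nat_lit 2) (nat_lit 179) (nat_lit 183) (nat_lit 148)) (PT.lf (nat_lit 15732) (nat_lit 6) (nat_lit 207) (nat_lit 2) (nat_lit 180) (nat_lit 183) (nat_lit 147))) (PT.nd (nat_lit 78) (PT.lf (nat_lit 15200) (nat_lit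 6) (nat_lit 200) (nat_lit 2) (nat_lit 181) (nat_lit 183) (nat_lit 146)) (PT.nd (nat_lit 78) (PT.lf (nat_lit 14744) (nat_lit 6) (nat_lit 194) (nat_lit 2) (nat_lit 182) (nat_lit 183) (nat_lit 145)) (PT.lf (nat_lit 14288) (nat_lit 3) (nat_lit 188) (nat_lit 0) (nat_lit 183) (nat_lit 183) (nat_lit 144))))))) (PT.nd (nat_lit 49296) (PT.nd (nat_lit 312) (PT.nd (nat_lit 156) (PT.nd (nat_lit 78) (PT.lf (nat_lit 13756) (nat_lit 6) (nat_lit 181) (nat_lit 0) (nat_lit 184) (nat_lit 183) (nat_lit 143)) (PT.lf (nat_lit 13224) (nat_lit 6) (nat_lit 174) (nat_lit 0) (nat_lit 185) (nat_lit 183) (nat_lit 142))) (PT.nd (nat_lit 78) (PT.lf (nat_lit 12768) (nat_lit 6) (nat_lit 168) (nat_lit 0) (nat_lit 186) (nat_lit 183) (nat_lit 141)) (PT.lf (nat_lit 12312) (nat_lit 6) (nat_lit 162) (nat_lit 0) (nat_lit 187) (nat_lit 183) (nat_lit 140)))) (PT.nd (nat_lit 156) (PT.nd (nat_lit 78) (PT.lf (nat_lit 11856) (nat_lit 6) (nat_lit 156) (nat_lit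 0) (nat_lit 188) (nat_lit 183) (nat_lit 139)) (PT.lf (nat_lit 11400) (nat_lit 6) (nat_lit 150) (nat_lit 0) (nat_lit 189) (nat_lit 183) (nat_lit 138))) (PT.nd (nat_lit 78) (PT.lf (nat_lit 11020) (nat_lit 6) (nat_lit 145) (nat_lit 0) (nat_lit 190) (nat_lit 183) (nat_lit 137)) (PT.nd (nat_lit 48672) (PT.lf (nat_lit 10564) (nat_lit 6) (nat_lit 139) (nat_lit 0) (nat_lit 191) (nat_lit 183) (nat_lit 136)) (PT.lf (nat_lit 9880) (nat_lit 6) (nat_lit 130) (nat_lit 5) (nat_lit 134) (nat_lit 184) (nat_lit 192)))))) (PT.nd (nat_lit 312) (PT.nd (nat_lit 156) (PT.nd (nat_lit 78) (PT.lf (nat_lit 10260) (nat_lit 6) (nat_lit 135) (nat_lit 5) (nat_lit 135) (nat_lit 184) (nat_lit 191)) (PT.lf (nat_lit 10640) (nat_lit 6) (nat_lit 140) (nat_lit 5) (nat_lit 136) (nat_lit 184) (nat_lit 190))) (PT.nd (nat_lit 78) (PT.lf (nat_lit 11096) (nat_lit 6) (nat_lit 146) (nat_lit 5) (nat_lit 137) (nat_lit 184) (nat_lit 189)) (PT.lf (nat_lit 11476)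 (nat_lit 6) (nat_lit 151) (nat_lit 5) (nat_lit 138) (nat_lit 184) (nat_lit 188)))) (PT.nd (nat_lit 156) (PT.nd (nat_lit 78) (PT.lf (nat_lit 11932) (nat_lit 6) (nat_lit 157) (nat_lit 5) (nat_lit 139) (nat_lit 184) (nat_lit 187)) (PT.lf (nat_lit 12388) (nat_lit 6) (nat_lit 163) (nat_lit 5) (nat_lit 140) (nat_lit 184) (nat_lit 186))) (PT.nd (nat_lit 78) (PT.lf (nat_lit 12844) (nat_lit 6) (nat_lit 169) (nat_lit 5) (nat_lit 141) (nat_lit 184) (nat_lit 185)) (PT.nd (nat_lit 78) (PT.lf (nat_lit 13300) (nat_lit 3) (nat_lit 175) (nat_lit 4) (nat_lit 142) (nat_lit 184) (nat_lit 184)) (PT.lf (nat_lit 13756) (nat_lit 6) (nat_lit 181) (nat_lit 4) (nat_lit 143) (nat_lit 184) (nat_lit 183))))))))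
noncomputable def pc43 : PT := (PT.nd (nat_lit 1326) (PT.nd (nat_lit 624) (PT.nd (nat_lit 312) (PT.nd (nat_lit 156) (PT.nd (nat_lit 78) (PT.lf (nat_lit 14212) (nat_lit 6) (nat_lit 187) (nat_lit 4) (nat_lit 144) (nat_lit 184) (nat_lit 182)) (PT.lf (nat_lit 14668) (nat_lit 6) (nat_lit 193) (nat_lit 4) (nat_lit 145) (nat_lit 184) (nat_lit 181))) (PT.nd (nat_lit 78) (PT.lf (nat_lit 15124) (nat_lit 6) (nat_lit 199) (nat_lit 4) (nat_lit 146) (nat_lit 184) (nat_lit 180)) (PT.lf (nat_lit 15656) (nat_lit 6) (nat_lit 206) (nat_lit 4) (nat_lit 147) (nat_lit 184) (nat_lit 179)))) (PT.nd (nat_lit 156) (PT.nd (nat_lit 78) (PT.lf (nat_lit 16112) (nat_lit 6) (nat_lit 212) (nat_lit 4) (nat_lit 148) (nat_lit 184) (nat_lit 178)) (PT.lf (nat_lit 16644) (nat_lit 6) (nat_lit 219) (nat_lit 4) (nat_lit 149) (nat_lit 184) (nat_lit 177))) (PT.nd (nat_lit 78) (PT.lf (nat_lit 17176) (nat_lit 6) (nat_lit 226) (nat_lit 4) (nat_lit 150) (nat_lit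 184) (nat_lit 176)) (PT.lf (nat_lit 17784) (nat_lit 6) (nat_lit 234) (nat_lit 4) (nat_lit 151) (nat_lit 184) (nat_lit 175))))) (PT.nd (nat_lit 312) (PT.nd (nat_lit 156) (PT.nd (nat_lit 78) (PT.lf (nat_lit 18392) (nat_lit 6) (nat_lit 242) (nat_lit 4) (nat_lit 152) (nat_lit 184) (nat_lit 174)) (PT.lf (nat_lit 19076) (nat_lit 6) (nat_lit 251) (nat_lit 4) (nat_lit 153) (nat_lit 184) (nat_lit 173))) (PT.nd (nat_lit 78) (PT.lf (nat_lit 20292) (nat_lit 6) (nat_lit 267) (nat_lit 4) (nat_lit 154) (nat_lit 184) (nat_lit 172)) (PT.lf (nat_lit 21432) (nat_lit 6) (nat_lit 282) (nat_lit 4) (nat_lit 155) (nat_lit 184) (nat_lit 171)))) (PT.nd (nat_lit 156) (PT.nd (nat_lit 78) (PT.lf (nat_lit 22496) (nat_lit 6) (nat_lit 296) (nat_lit 4) (nat_lit 156) (nat_lit 184) (nat_lit 170)) (PT.lf (nat_lit 22420) (nat_lit 6) (nat_lit 295) (nat_lit 4) (nat_lit 157) (nat_lit 184) (nat_lit 169))) (PT.nd (nat_lit 78) (PT.lf (nat_lit 22344) (nat_lit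 6) (nat_lit 294) (nat_lit 4) (nat_lit 158) (nat_lit 184) (nat_lit 168)) (PT.nd (nat_lit 78) (PT.lf (nat_lit 22268) (nat_lit 6) (nat_lit 293) (nat_lit 4) (nat_lit 159) (nat_lit 184) (nat_lit 167)) (PT.lf (nat_lit 22192) (nat_lit 6) (nat_lit 292) (nat_lit 4) (nat_lit 160) (nat_lit 184) (nat_lit 166))))))) (PT.nd (nat_lit 702) (PT.nd (nat_lit 312) (PT.nd (nat_lit 156) (PT.nd (nat_lit 78) (PT.lf (nat_lit 22116) (nat_lit 6) (nat_lit 291) (nat_lit 4) (nat_lit 161) (nat_lit 184) (nat_lit 165)) (PT.lf (nat_lit 22040) (nat_lit 6) (nat_lit 290) (nat_lit 4) (nat_lit 162) (nat_lit 184) (nat_lit 164))) (PT.nd (nat_lit 78) (PT.lf (nat_lit 21964) (nat_lit 3) (nat_lit 289) (nat_lit 2) (nat_lit 163) (nat_lit 184) (nat_lit 163)) (PT.lf (nat_lit 22040) (nat_lit 6) (nat_lit 290) (nat_lit 2) (nat_lit 164) (nat_lit 184) (nat_lit 162)))) (PT.nd (nat_lit 156) (PT.nd (nat_lit 78) (PT.lf (nat_lit 22116) (nat_lit 6) (nat_lit 291) (nat_lit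 2) (nat_lit 165) (nat_lit 184) (nat_lit 161)) (PT.lf (nat_lit 22192) (nat_lit 6) (nat_lit 292) (nat_lit 2) (nat_lit 166) (nat_lit 184) (nat_lit 160))) (PT.nd (nat_lit 78) (PT.lf (nat_lit 22268) (nat_lit 6) (nat_lit 293) (nat_lit 2) (nat_lit 167) (nat_lit 184) (nat_lit 159)) (PT.nd (nat_lit 78) (PT.lf (nat_lit 22344) (nat_lit 6) (nat_lit 294) (nat_lit 2) (nat_lit 168) (nat_lit 184) (nat_lit 158)) (PT.lf (nat_lit 22420) (nat_lit 6) (nat_lit 295) (nat_lit 2) (nat_lit 169) (nat_lit 184) (nat_lit 157)))))) (PT.nd (nat_lit 312) (PT.nd (nat_lit 156) (PT.nd (nat_lit 78) (PT.lf (nat_lit 22496) (nat_lit 6) (nat_lit 296) (nat_lit 2) (nat_lit 170) (nat_lit 184) (nat_lit 156)) (PT.lf (nat_lit 21432) (nat_lit 6) (nat_lit 282) (nat_lit 2) (nat_lit 171) (nat_lit 184) (nat_lit 155))) (PT.nd (nat_lit 78) (PT.lf (nat_lit 20292) (nat_lit 6) (nat_lit 267) (nat_lit 2) (nat_lit 172) (nat_lit 184) (nat_lit 154)) (PT.lf (nat_lit 19076)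 (nat_lit 6) (nat_lit 251) (nat_lit 2) (nat_lit 173) (nat_lit 184) (nat_lit 153)))) (PT.nd (nat_lit 156) (PT.nd (nat_lit 78) (PT.lf (nat_lit 18392) (nat_lit 6) (nat_lit 242) (nat_lit 2) (nat_lit 174) (nat_lit 184) (nat_lit 152)) (PT.lf (nat_lit 17784) (nat_lit 6) (nat_lit 234) (nat_lit 2) (nat_lit 175) (nat_lit 184) (nat_lit 151))) (PT.nd (nat_lit 78) (PT.lf (nat_lit 17176) (nat_lit 6) (nat_lit 226) (nat_lit 2) (nat_lit 176) (nat_lit 184) (nat_lit 150)) (PT.nd (nat_lit 78) (PT.lf (nat_lit 16644) (nat_lit 6) (nat_lit 219) (nat_lit 2) (nat_lit 177) (nat_lit 184) (nat_lit 149)) (PT.lf (nat_lit 16112) (nat_lit 6) (nat_lit 212) (nat_lit 2) (nat_lit 178) (nat_lit 184) (nat_lit 148))))))))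
noncomputable def pc44 : PT := (PT.nd (nat_lit 49764) (PT.nd (nat_lit 624) (PT.nd (nat_lit 312) (PT.nd (nat_lit 156) (PT.nd (nat_lit 78) (PT.lf (nat_lit 15656) (nat_lit 6) (nat_lit 206) (nat_lit 2) (nat_lit 179) (nat_lit 184) (nat_lit 147)) (PT.lf (nat_lit 15124) (nat_lit 6) (nat_lit 199) (nat_lit 2) (nat_lit 180) (nat_lit 184) (nat_lit 146))) (PT.nd (nat_lit 78) (PT.lf (nat_lit 14668) (nat_lit 6) (nat_lit 193) (nat_lit 2) (nat_lit 181) (nat_lit 184) (nat_lit 145)) (PT.lf (nat_lit 14212) (nat_lit 6) (nat_lit 187) (nat_lit 2) (nat_lit 182) (nat_lit 184) (nat_lit 144)))) (PT.nd (nat_lit 156) (PT.nd (nat_lit 78) (PT.lf (nat_lit 13756) (nat_lit 6) (nat_lit 181) (nat_lit 2) (nat_lit 183) (nat_lit 184) (nat_lit 143)) (PT.lf (nat_lit 13300) (nat_lit 3) (nat_lit 175) (nat_lit 0) (nat_lit 184) (nat_lit 184) (nat_lit 142))) (PT.nd (nat_lit 78) (PT.lf (nat_lit 12844) (nat_lit 6) (nat_lit 169) (nat_lit 0) (nat_lit 185) (nat_lit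 184) (nat_lit 141)) (PT.lf (nat_lit 12388) (nat_lit 6) (nat_lit 163) (nat_lit 0) (nat_lit 186) (nat_lit 184) (nat_lit 140))))) (PT.nd (nat_lit 312) (PT.nd (nat_lit 156) (PT.nd (nat_lit 78) (PT.lf (nat_lit 11932) (nat_lit 6) (nat_lit 157) (nat_lit 0) (nat_lit 187) (nat_lit 184) (nat_lit 139)) (PT.lf (nat_lit 11476) (nat_lit 6) (nat_lit 151) (nat_lit 0) (nat_lit 188) (nat_lit 184) (nat_lit 138))) (PT.nd (nat_lit 78) (PT.lf (nat_lit 11096) (nat_lit 6) (nat_lit 146) (nat_lit 0) (nat_lit 189) (nat_lit 184) (nat_lit 137)) (PT.lf (nat_lit 10640) (nat_lit 6) (nat_lit 140) (nat_lit 0) (nat_lit 190) (nat_lit 184) (nat_lit 136)))) (PT.nd (nat_lit 48594) (PT.nd (nat_lit 78) (PT.lf (nat_lit 10260) (nat_lit 6) (nat_lit 135) (nat_lit 0) (nat_lit 191) (nat_lit 184) (nat_lit 135)) (PT.lf (nat_lit 9880) (nat_lit 6) (nat_lit 130) (nat_lit 0) (nat_lit 192) (nat_lit 184) (nat_lit 134))) (PT.nd (nat_lit 78) (PT.lf (nat_lit 9576) (nat_lit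 6) (nat_lit 126) (nat_lit 5) (nat_lit 133) (nat_lit 185) (nat_lit 192)) (PT.nd (nat_lit 78) (PT.lf (nat_lit 9956) (nat_lit 6) (nat_lit 131) (nat_lit 5) (nat_lit 134) (nat_lit 185) (nat_lit 191)) (PT.lf (nat_lit 10336) (nat_lit 6) (nat_lit 136) (nat_lit 5) (nat_lit 135) (nat_lit 185) (nat_lit 190))))))) (PT.nd (nat_lit 702) (PT.nd (nat_lit 312) (PT.nd (nat_lit 156) (PT.nd (nat_lit 78) (PT.lf (nat_lit 10716) (nat_lit 6) (nat_lit 141) (nat_lit 5) (nat_lit 136) (nat_lit 185) (nat_lit 189)) (PT.lf (nat_lit 11172) (nat_lit 6) (nat_lit 147) (nat_lit 5) (nat_lit 137) (nat_lit 185) (nat_lit 188))) (PT.nd (nat_lit 78) (PT.lf (nat_lit 11552) (nat_lit 6) (nat_lit 152) (nat_lit 5) (nat_lit 138) (nat_lit 185) (nat_lit 187)) (PT.lf (nat_lit 12008) (nat_lit 6) (nat_lit 158) (nat_lit 5) (nat_lit 139) (nat_lit 185) (nat_lit 186)))) (PT.nd (nat_lit 156) (PT.nd (nat_lit 78) (PT.lf (nat_lit 12464) (nat_lit 3) (nat_lit 164) (nat_lit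 4) (nat_lit 140) (nat_lit 185) (nat_lit 185)) (PT.lf (nat_lit 12844) (nat_lit 6) (nat_lit 169) (nat_lit 4) (nat_lit 141) (nat_lit 185) (nat_lit 184))) (PT.nd (nat_lit 78) (PT.lf (nat_lit 13224) (nat_lit 6) (nat_lit 174) (nat_lit 4) (nat_lit 142) (nat_lit 185) (nat_lit 183)) (PT.nd (nat_lit 78) (PT.lf (nat_lit 13680) (nat_lit 6) (nat_lit 180) (nat_lit 4) (nat_lit 143) (nat_lit 185) (nat_lit 182)) (PT.lf (nat_lit 14136) (nat_lit 6) (nat_lit 186) (nat_lit 4) (nat_lit 144) (nat_lit 185) (nat_lit 181)))))) (PT.nd (nat_lit 312) (PT.nd (nat_lit 156) (PT.nd (nat_lit 78) (PT.lf (nat_lit 14592) (nat_lit 6) (nat_lit 192) (nat_lit 4) (nat_lit 145) (nat_lit 185) (nat_lit 180)) (PT.lf (nat_lit 15048) (nat_lit 6) (nat_lit 198) (nat_lit 4) (nat_lit 146) (nat_lit 185) (nat_lit 179))) (PT.nd (nat_lit 78) (PT.lf (nat_lit 15580) (nat_lit 6) (nat_lit 205) (nat_lit 4) (nat_lit 147) (nat_lit 185) (nat_lit 178)) (PT.lf (nat_lit 16036)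 (nat_lit 6) (nat_lit 211) (nat_lit 4) (nat_lit 148) (nat_lit 185) (nat_lit 177)))) (PT.nd (nat_lit 156) (PT.nd (nat_lit 78) (PT.lf (nat_lit 16568) (nat_lit 6) (nat_lit 218) (nat_lit 4) (nat_lit 149) (nat_lit 185) (nat_lit 176)) (PT.lf (nat_lit 17100) (nat_lit 6) (nat_lit 225) (nat_lit 4) (nat_lit 150) (nat_lit 185) (nat_lit 175))) (PT.nd (nat_lit 78) (PT.lf (nat_lit 17708) (nat_lit 6) (nat_lit 233) (nat_lit 4) (nat_lit 151) (nat_lit 185) (nat_lit 174)) (PT.nd (nat_lit 78) (PT.lf (nat_lit 18316) (nat_lit 6) (nat_lit 241) (nat_lit 4) (nat_lit 152) (nat_lit 185) (nat_lit 173)) (PT.lf (nat_lit 19000) (nat_lit 6) (nat_lit 250) (nat_lit 4) (nat_lit 153) (nat_lit 185) (nat_lit 172))))))))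
noncomputable def pc45 : PT := (PT.nd (nat_lit 1326) (PT.nd (nat_lit 624) (PT.nd (nat_lit 312) (PT.nd (nat_lit 156) (PT.nd (nat_lit 78) (PT.lf (nat_lit 20216) (nat_lit 6) (nat_lit 266) (nat_lit 4) (nat_lit 154) (nat_lit 185) (nat_lit 171)) (PT.lf (nat_lit 21356) (nat_lit 6) (nat_lit 281) (nat_lit 4) (nat_lit 155) (nat_lit 185) (nat_lit 170))) (PT.nd (nat_lit 78) (PT.lf (nat_lit 21280) (nat_lit 6) (nat_lit 280) (nat_lit 4) (nat_lit 156) (nat_lit 185) (nat_lit 169)) (PT.lf (nat_lit 21204) (nat_lit 6) (nat_lit 279) (nat_lit 4) (nat_lit 157) (nat_lit 185) (nat_lit 168)))) (PT.nd (nat_lit 156) (PT.nd (nat_lit 78) (PT.lf (nat_lit 21128) (nat_lit 6) (nat_lit 278) (nat_lit 4) (nat_lit 158) (nat_lit 185) (nat_lit 167)) (PT.lf (nat_lit 21052) (nat_lit 6) (nat_lit 277) (nat_lit 4) (nat_lit 159) (nat_lit 185) (nat_lit 166))) (PT.nd (nat_lit 78) (PT.lf (nat_lit 20976) (nat_lit 6) (nat_lit 276) (nat_lit 4) (nat_lit 160) (nat_lit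 185) (nat_lit 165)) (PT.lf (nat_lit 20900) (nat_lit 6) (nat_lit 275) (nat_lit 4) (nat_lit 161) (nat_lit 185) (nat_lit 164))))) (PT.nd (nat_lit 312) (PT.nd (nat_lit 156) (PT.nd (nat_lit 78) (PT.lf (nat_lit 20824) (nat_lit 6) (nat_lit 274) (nat_lit 4) (nat_lit 162) (nat_lit 185) (nat_lit 163)) (PT.lf (nat_lit 20824) (nat_lit 6) (nat_lit 274) (nat_lit 2) (nat_lit 163) (nat_lit 185) (nat_lit 162))) (PT.nd (nat_lit 78) (PT.lf (nat_lit 20900) (nat_lit 6) (nat_lit 275) (nat_lit 2) (nat_lit 164) (nat_lit 185) (nat_lit 161)) (PT.lf (nat_lit 20976) (nat_lit 6) (nat_lit 276) (nat_lit 2) (nat_lit 165) (nat_lit 185) (nat_lit 160)))) (PT.nd (nat_lit 156) (PT.nd (nat_lit 78) (PT.lf (nat_lit 21052) (nat_lit 6) (nat_lit 277) (nat_lit 2) (nat_lit 166) (nat_lit 185) (nat_lit 159)) (PT.lf (nat_lit 21128) (nat_lit 6) (nat_lit 278) (nat_lit 2) (nat_lit 167) (nat_lit 185) (nat_lit 158))) (PT.nd (nat_lit 78) (PT.lf (nat_lit 21204) (nat_lit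 6) (nat_lit 279) (nat_lit 2) (nat_lit 168) (nat_lit 185) (nat_lit 157)) (PT.nd (nat_lit 78) (PT.lf (nat_lit 21280) (nat_lit 6) (nat_lit 280) (nat_lit 2) (nat_lit 169) (nat_lit 185) (nat_lit 156)) (PT.lf (nat_lit 21356) (nat_lit 6) (nat_lit 281) (nat_lit 2) (nat_lit 170) (nat_lit 185) (nat_lit 155))))))) (PT.nd (nat_lit 702) (PT.nd (nat_lit 312) (PT.nd (nat_lit 156) (PT.nd (nat_lit 78) (PT.lf (nat_lit 20216) (nat_lit 6) (nat_lit 266) (nat_lit 2) (nat_lit 171) (nat_lit 185) (nat_lit 154)) (PT.lf (nat_lit 19000) (nat_lit 6) (nat_lit 250) (nat_lit 2) (nat_lit 172) (nat_lit 185) (nat_lit 153))) (PT.nd (nat_lit 78) (PT.lf (nat_lit 18316) (nat_lit 6) (nat_lit 241) (nat_lit 2) (nat_lit 173) (nat_lit 185) (nat_lit 152)) (PT.lf (nat_lit 17708) (nat_lit 6) (nat_lit 233) (nat_lit 2) (nat_lit 174) (nat_lit 185) (nat_lit 151)))) (PT.nd (nat_lit 156) (PT.nd (nat_lit 78) (PT.lf (nat_lit 17100) (nat_lit 6) (nat_lit 225) (nat_lit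 2) (nat_lit 175) (nat_lit 185) (nat_lit 150)) (PT.lf (nat_lit 16568) (nat_lit 6) (nat_lit 218) (nat_lit 2) (nat_lit 176) (nat_lit 185) (nat_lit 149))) (PT.nd (nat_lit 78) (PT.lf (nat_lit 16036) (nat_lit 6) (nat_lit 211) (nat_lit 2) (nat_lit 177) (nat_lit 185) (nat_lit 148)) (PT.nd (nat_lit 78) (PT.lf (nat_lit 15580) (nat_lit 6) (nat_lit 205) (nat_lit 2) (nat_lit 178) (nat_lit 185) (nat_lit 147)) (PT.lf (nat_lit 15048) (nat_lit 6) (nat_lit 198) (nat_lit 2) (nat_lit 179) (nat_lit 185) (nat_lit 146)))))) (PT.nd (nat_lit 312) (PT.nd (nat_lit 156) (PT.nd (nat_lit 78) (PT.lf (nat_lit 14592) (nat_lit 6) (nat_lit 192) (nat_lit 2) (nat_lit 180) (nat_lit 185) (nat_lit 145)) (PT.lf (nat_lit 14136) (nat_lit 6) (nat_lit 186) (nat_lit 2) (nat_lit 181) (nat_lit 185) (nat_lit 144))) (PT.nd (nat_lit 78) (PT.lf (nat_lit 13680) (nat_lit 6) (nat_lit 180) (nat_lit 2) (nat_lit 182) (nat_lit 185) (nat_lit 143)) (PT.lf (nat_lit 13224)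 (nat_lit 6) (nat_lit 174) (nat_lit 2) (nat_lit 183) (nat_lit 185) (nat_lit 142)))) (PT.nd (nat_lit 156) (PT.nd (nat_lit 78) (PT.lf (nat_lit 12844) (nat_lit 6) (nat_lit 169) (nat_lit 2) (nat_lit 184) (nat_lit 185) (nat_lit 141)) (PT.lf (nat_lit 12464) (nat_lit 3) (nat_lit 164) (nat_lit 0) (nat_lit 185) (nat_lit 185) (nat_lit 140))) (PT.nd (nat_lit 78) (PT.lf (nat_lit 12008) (nat_lit 6) (nat_lit 158) (nat_lit 0) (nat_lit 186) (nat_lit 185) (nat_lit 139)) (PT.nd (nat_lit 78) (PT.lf (nat_lit 11552) (nat_lit 6) (nat_lit 152) (nat_lit 0) (nat_lit 187) (nat_lit 185) (nat_lit 138)) (PT.lf (nat_lit 11172) (nat_lit 6) (nat_lit 147) (nat_lit 0) (nat_lit 188) (nat_lit 185) (nat_lit 137))))))))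
noncomputable def pc46 : PT := (PT.nd (nat_lit 49608) (PT.nd (nat_lit 48906) (PT.nd (nat_lit 48594) (PT.nd (nat_lit 156) (PT.nd (nat_lit 78) (PT.lf (nat_lit 10716) (nat_lit 6) (nat_lit 141) (nat_lit 0) (nat_lit 189) (nat_lit 185) (nat_lit 136)) (PT.lf (nat_lit 10336) (nat_lit 6) (nat_lit 136) (nat_lit 0) (nat_lit 190) (nat_lit 185) (nat_lit 135))) (PT.nd (nat_lit 78) (PT.lf (nat_lit 9956) (nat_lit 6) (nat_lit 131) (nat_lit 0) (nat_lit 191) (nat_lit 185) (nat_lit 134)) (PT.lf (nat_lit 9576) (nat_lit 6) (nat_lit 126) (nat_lit 0) (nat_lit 192) (nat_lit 185) (nat_lit 133)))) (PT.nd (nat_lit 156) (PT.nd (nat_lit 78) (PT.lf (nat_lit 8968) (nat_lit 6) (nat_lit 118) (nat_lit 5) (nat_lit 131) (nat_lit 186) (nat_lit 193)) (PT.lf (nat_lit 9272) (nat_lit 6) (nat_lit 122) (nat_lit 5) (nat_lit 132) (nat_lit 186) (nat_lit 192))) (PT.nd (nat_lit 78) (PT.lf (nat_lit 9652) (nat_lit 6) (nat_lit 127) (nat_lit 5) (nat_lit 133) (nat_lit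 186) (nat_lit 191)) (PT.lf (nat_lit 10032) (nat_lit 6) (nat_lit 132) (nat_lit 5) (nat_lit 134) (nat_lit 186) (nat_lit 190))))) (PT.nd (nat_lit 312) (PT.nd (nat_lit 156) (PT.nd (nat_lit 78) (PT.lf (nat_lit 10412) (nat_lit 6) (nat_lit 137) (nat_lit 5) (nat_lit 135) (nat_lit 186) (nat_lit 189)) (PT.lf (nat_lit 10792) (nat_lit 6) (nat_lit 142) (nat_lit 5) (nat_lit 136) (nat_lit 186) (nat_lit 188))) (PT.nd (nat_lit 78) (PT.lf (nat_lit 11248) (nat_lit 6) (nat_lit 148) (nat_lit 5) (nat_lit 137) (nat_lit 186) (nat_lit 187)) (PT.lf (nat_lit 11628) (nat_lit 3) (nat_lit 153) (nat_lit 4) (nat_lit 138) (nat_lit 186) (nat_lit 186)))) (PT.nd (nat_lit 156) (PT.nd (nat_lit 78) (PT.lf (nat_lit 12008) (nat_lit 6) (nat_lit 158) (nat_lit 4) (nat_lit 139) (nat_lit 186) (nat_lit 185)) (PT.lf (nat_lit 12388) (nat_lit 6) (nat_lit 163) (nat_lit 4) (nat_lit 140) (nat_lit 186) (nat_lit 184))) (PT.nd (nat_lit 78) (PT.lf (nat_lit 12768) (nat_lit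 6) (nat_lit 168) (nat_lit 4) (nat_lit 141) (nat_lit 186) (nat_lit 183)) (PT.nd (nat_lit 78) (PT.lf (nat_lit 13148) (nat_lit 6) (nat_lit 173) (nat_lit 4) (nat_lit 142) (nat_lit 186) (nat_lit 182)) (PT.lf (nat_lit 13604) (nat_lit 6) (nat_lit 179) (nat_lit 4) (nat_lit 143) (nat_lit 186) (nat_lit 181))))))) (PT.nd (nat_lit 702) (PT.nd (nat_lit 312) (PT.nd (nat_lit 156) (PT.nd (nat_lit 78) (PT.lf (nat_lit 14060) (nat_lit 6) (nat_lit 185) (nat_lit 4) (nat_lit 144) (nat_lit 186) (nat_lit 180)) (PT.lf (nat_lit 14516) (nat_lit 6) (nat_lit 191) (nat_lit 4) (nat_lit 145) (nat_lit 186) (nat_lit 179))) (PT.nd (nat_lit 78) (PT.lf (nat_lit 14972) (nat_lit 6) (nat_lit 197) (nat_lit 4) (nat_lit 146) (nat_lit 186) (nat_lit 178)) (PT.lf (nat_lit 15504) (nat_lit 6) (nat_lit 204) (nat_lit 4) (nat_lit 147) (nat_lit 186) (nat_lit 177)))) (PT.nd (nat_lit 156) (PT.nd (nat_lit 78) (PT.lf (nat_lit 15960) (nat_lit 6) (nat_lit 210) (nat_lit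 4) (nat_lit 148) (nat_lit 186) (nat_lit 176)) (PT.lf (nat_lit 16492) (nat_lit 6) (nat_lit 217) (nat_lit 4) (nat_lit 149) (nat_lit 186) (nat_lit 175))) (PT.nd (nat_lit 78) (PT.lf (nat_lit 17024) (nat_lit 6) (nat_lit 224) (nat_lit 4) (nat_lit 150) (nat_lit 186) (nat_lit 174)) (PT.nd (nat_lit 78) (PT.lf (nat_lit 17632) (nat_lit 6) (nat_lit 232) (nat_lit 4) (nat_lit 151) (nat_lit 186) (nat_lit 173)) (PT.lf (nat_lit 18240) (nat_lit 6) (nat_lit 240) (nat_lit 4) (nat_lit 152) (nat_lit 186) (nat_lit 172)))))) (PT.nd (nat_lit 312) (PT.nd (nat_lit 156) (PT.nd (nat_lit 78) (PT.lf (nat_lit 18924) (nat_lit 6) (nat_lit 249) (nat_lit 4) (nat_lit 153) (nat_lit 186) (nat_lit 171)) (PT.lf (nat_lit 20140) (nat_lit 6) (nat_lit 265) (nat_lit 4) (nat_lit 154) (nat_lit 186) (nat_lit 170))) (PT.nd (nat_lit 78) (PT.lf (nat_lit 20064) (nat_lit 6) (nat_lit 264) (nat_lit 4) (nat_lit 155) (nat_lit 186) (nat_lit 169)) (PT.lf (nat_lit 19988)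 (nat_lit 6) (nat_lit 263) (nat_lit 4) (nat_lit 156) (nat_lit 186) (nat_lit 168)))) (PT.nd (nat_lit 156) (PT.nd (nat_lit 78) (PT.lf (nat_lit 19912) (nat_lit 6) (nat_lit 262) (nat_lit 4) (nat_lit 157) (nat_lit 186) (nat_lit 167)) (PT.lf (nat_lit 19836) (nat_lit 6) (nat_lit 261) (nat_lit 4) (nat_lit 158) (nat_lit 186) (nat_lit 166))) (PT.nd (nat_lit 78) (PT.lf (nat_lit 19760) (nat_lit 6) (nat_lit 260) (nat_lit 4) (nat_lit 159) (nat_lit 186) (nat_lit 165)) (PT.nd (nat_lit 78) (PT.lf (nat_lit 19684) (nat_lit 6) (nat_lit 259) (nat_lit 4) (nat_lit 160) (nat_lit 186) (nat_lit 164)) (PT.lf (nat_lit 19608) (nat_lit 6) (nat_lit 258) (nat_lit 4) (nat_lit 161) (nat_lit 186) (nat_lit 163))))))))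
noncomputable def pc47 : PT := (PT.nd (nat_lit 1326) (PT.nd (nat_lit 624) (PT.nd (nat_lit 312) (PT.nd (nat_lit 156) (PT.nd (nat_lit 78) (PT.lf (nat_lit 19532) (nat_lit 3) (nat_lit 257) (nat_lit 2) (nat_lit 162) (nat_lit 186) (nat_lit 162)) (PT.lf (nat_lit 19608) (nat_lit 6) (nat_lit 258) (nat_lit 2) (nat_lit 163) (nat_lit 186) (nat_lit 161))) (PT.nd (nat_lit 78) (PT.lf (nat_lit 19684) (nat_lit 6) (nat_lit 259) (nat_lit 2) (nat_lit 164) (nat_lit 186) (nat_lit 160)) (PT.lf (nat_lit 19760) (nat_lit 6) (nat_lit 260) (nat_lit 2) (nat_lit 165) (nat_lit 186) (nat_lit 159)))) (PT.nd (nat_lit 156) (PT.nd (nat_lit 78) (PT.lf (nat_lit 19836) (nat_lit 6) (nat_lit 261) (nat_lit 2) (nat_lit 166) (nat_lit 186) (nat_lit 158)) (PT.lf (nat_lit 19912) (nat_lit 6) (nat_lit 262) (nat_lit 2) (nat_lit 167) (nat_lit 186) (nat_lit 157))) (PT.nd (nat_lit 78) (PT.lf (nat_lit 19988) (nat_lit 6) (nat_lit 263) (nat_lit 2) (nat_lit 168) (nat_lit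 186) (nat_lit 156)) (PT.lf (nat_lit 20064) (nat_lit 6) (nat_lit 264) (nat_lit 2) (nat_lit 169) (nat_lit 186) (nat_lit 155))))) (PT.nd (nat_lit 312) (PT.nd (nat_lit 156) (PT.nd (nat_lit 78) (PT.lf (nat_lit 20140) (nat_lit 6) (nat_lit 265) (nat_lit 2) (nat_lit 170) (nat_lit 186) (nat_lit 154)) (PT.lf (nat_lit 18924) (nat_lit 6) (nat_lit 249) (nat_lit 2) (nat_lit 171) (nat_lit 186) (nat_lit 153))) (PT.nd (nat_lit 78) (PT.lf (nat_lit 18240) (nat_lit 6) (nat_lit 240) (nat_lit 2) (nat_lit 172) (nat_lit 186) (nat_lit 152)) (PT.lf (nat_lit 17632) (nat_lit 6) (nat_lit 232) (nat_lit 2) (nat_lit 173) (nat_lit 186) (nat_lit 151)))) (PT.nd (nat_lit 156) (PT.nd (nat_lit 78) (PT.lf (nat_lit 17024) (nat_lit 6) (nat_lit 224) (nat_lit 2) (nat_lit 174) (nat_lit 186) (nat_lit 150)) (PT.lf (nat_lit 16492) (nat_lit 6) (nat_lit 217) (nat_lit 2) (nat_lit 175) (nat_lit 186) (nat_lit 149))) (PT.nd (nat_lit 78) (PT.lf (nat_lit 15960) (nat_lit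 6) (nat_lit 210) (nat_lit 2) (nat_lit 176) (nat_lit 186) (nat_lit 148)) (PT.nd (nat_lit 78) (PT.lf (nat_lit 15504) (nat_lit 6) (nat_lit 204) (nat_lit 2) (nat_lit 177) (nat_lit 186) (nat_lit 147)) (PT.lf (nat_lit 14972) (nat_lit 6) (nat_lit 197) (nat_lit 2) (nat_lit 178) (nat_lit 186) (nat_lit 146))))))) (PT.nd (nat_lit 702) (PT.nd (nat_lit 312) (PT.nd (nat_lit 156) (PT.nd (nat_lit 78) (PT.lf (nat_lit 14516) (nat_lit 6) (nat_lit 191) (nat_lit 2) (nat_lit 179) (nat_lit 186) (nat_lit 145)) (PT.lf (nat_lit 14060) (nat_lit 6) (nat_lit 185) (nat_lit 2) (nat_lit 180) (nat_lit 186) (nat_lit 144))) (PT.nd (nat_lit 78) (PT.lf (nat_lit 13604) (nat_lit 6) (nat_lit 179) (nat_lit 2) (nat_lit 181) (nat_lit 186) (nat_lit 143)) (PT.lf (nat_lit 13148) (nat_lit 6) (nat_lit 173) (nat_lit 2) (nat_lit 182) (nat_lit 186) (nat_lit 142)))) (PT.nd (nat_lit 156) (PT.nd (nat_lit 78) (PT.lf (nat_lit 12768) (nat_lit 6) (nat_lit 168) (nat_lit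 2) (nat_lit 183) (nat_lit 186) (nat_lit 141)) (PT.lf (nat_lit 12388) (nat_lit 6) (nat_lit 163) (nat_lit 2) (nat_lit 184) (nat_lit 186) (nat_lit 140))) (PT.nd (nat_lit 78) (PT.lf (nat_lit 12008) (nat_lit 6) (nat_lit 158) (nat_lit 2) (nat_lit 185) (nat_lit 186) (nat_lit 139)) (PT.nd (nat_lit 78) (PT.lf (nat_lit 11628) (nat_lit 3) (nat_lit 153) (nat_lit 0) (nat_lit 186) (nat_lit 186) (nat_lit 138)) (PT.lf (nat_lit 11248) (nat_lit 6) (nat_lit 148) (nat_lit 0) (nat_lit 187) (nat_lit 186) (nat_lit 137)))))) (PT.nd (nat_lit 312) (PT.nd (nat_lit 156) (PT.nd (nat_lit 78) (PT.lf (nat_lit 10792) (nat_lit 6) (nat_lit 142) (nat_lit 0) (nat_lit 188) (nat_lit 186) (nat_lit 136)) (PT.lf (nat_lit 10412) (nat_lit 6) (nat_lit 137) (nat_lit 0) (nat_lit 189) (nat_lit 186) (nat_lit 135))) (PT.nd (nat_lit 78) (PT.lf (nat_lit 10032) (nat_lit 6) (nat_lit 132) (nat_lit 0) (nat_lit 190) (nat_lit 186) (nat_lit 134)) (PT.lf (nat_lit 9652)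 (nat_lit 6) (nat_lit 127) (nat_lit 0) (nat_lit 191) (nat_lit 186) (nat_lit 133)))) (PT.nd (nat_lit 48282) (PT.nd (nat_lit 78) (PT.lf (nat_lit 9272) (nat_lit 6) (nat_lit 122) (nat_lit 0) (nat_lit 192) (nat_lit 186) (nat_lit 132)) (PT.lf (nat_lit 8968) (nat_lit 6) (nat_lit 118) (nat_lit 0) (nat_lit 193) (nat_lit 186) (nat_lit 131))) (PT.nd (nat_lit 78) (PT.lf (nat_lit 8664) (nat_lit 6) (nat_lit 114) (nat_lit 5) (nat_lit 130) (nat_lit 187) (nat_lit 193)) (PT.nd (nat_lit 78) (PT.lf (nat_lit 9044) (nat_lit 6) (nat_lit 119) (nat_lit 5) (nat_lit 131) (nat_lit 187) (nat_lit 192)) (PT.lf (nat_lit 9348) (nat_lit 6) (nat_lit 123) (nat_lit 5) (nat_lit 132) (nat_lit 187) (nat_lit 191))))))))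
noncomputable def pc48 : PT := (PT.nd (nat_lit 1326) (PT.nd (nat_lit 624) (PT.nd (nat_lit 312) (PT.nd (nat_lit 156) (PT.nd (nat_lit 78) (PT.lf (nat_lit 9728) (nat_lit 6) (nat_lit 128) (nat_lit 5) (nat_lit 133) (nat_lit 187) (nat_lit 190)) (PT.lf (nat_lit 10108) (nat_lit 6) (nat_lit 133) (nat_lit 5) (nat_lit 134) (nat_lit 187) (nat_lit 189))) (PT.nd (nat_lit 78) (PT.lf (nat_lit 10488) (nat_lit 6) (nat_lit 138) (nat_lit 5) (nat_lit 135) (nat_lit 187) (nat_lit 188)) (PT.lf (nat_lit 10868) (nat_lit 3) (nat_lit 143) (nat_lit 4) (nat_lit 136) (nat_lit 187) (nat_lit 187)))) (PT.nd (nat_lit 156) (PT.nd (nat_lit 78) (PT.lf (nat_lit 11248) (nat_lit 6) (nat_lit 148) (nat_lit 4) (nat_lit 137) (nat_lit 187) (nat_lit 186)) (PT.lf (nat_lit 11552) (nat_lit 6) (nat_lit 152) (nat_lit 4) (nat_lit 138) (nat_lit 187) (nat_lit 185))) (PT.nd (nat_lit 78) (PT.lf (nat_lit 11932) (nat_lit 6) (nat_lit 157) (nat_lit 4) (nat_lit 139) (nat_lit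 187) (nat_lit 184)) (PT.lf (nat_lit 12312) (nat_lit 6) (nat_lit 162) (nat_lit 4) (nat_lit 140) (nat_lit 187) (nat_lit 183))))) (PT.nd (nat_lit 312) (PT.nd (nat_lit 156) (PT.nd (nat_lit 78) (PT.lf (nat_lit 12692) (nat_lit 6) (nat_lit 167) (nat_lit 4) (nat_lit 141) (nat_lit 187) (nat_lit 182)) (PT.lf (nat_lit 13072) (nat_lit 6) (nat_lit 172) (nat_lit 4) (nat_lit 142) (nat_lit 187) (nat_lit 181))) (PT.nd (nat_lit 78) (PT.lf (nat_lit 13528) (nat_lit 6) (nat_lit 178) (nat_lit 4) (nat_lit 143) (nat_lit 187) (nat_lit 180)) (PT.lf (nat_lit 13984) (nat_lit 6) (nat_lit 184) (nat_lit 4) (nat_lit 144) (nat_lit 187) (nat_lit 179)))) (PT.nd (nat_lit 156) (PT.nd (nat_lit 78) (PT.lf (nat_lit 14440) (nat_lit 6) (nat_lit 190) (nat_lit 4) (nat_lit 145) (nat_lit 187) (nat_lit 178)) (PT.lf (nat_lit 14896) (nat_lit 6) (nat_lit 196) (nat_lit 4) (nat_lit 146) (nat_lit 187) (nat_lit 177))) (PT.nd (nat_lit 78) (PT.lf (nat_lit 15428) (nat_lit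 6) (nat_lit 203) (nat_lit 4) (nat_lit 147) (nat_lit 187) (nat_lit 176)) (PT.nd (nat_lit 78) (PT.lf (nat_lit 15884) (nat_lit 6) (nat_lit 209) (nat_lit 4) (nat_lit 148) (nat_lit 187) (nat_lit 175)) (PT.lf (nat_lit 16416) (nat_lit 6) (nat_lit 216) (nat_lit 4) (nat_lit 149) (nat_lit 187) (nat_lit 174))))))) (PT.nd (nat_lit 1872) (PT.nd (nat_lit 1560) (PT.nd (nat_lit 156) (PT.nd (nat_lit 78) (PT.lf (nat_lit 16948) (nat_lit 6) (nat_lit 223) (nat_lit 4) (nat_lit 150) (nat_lit 187) (nat_lit 173)) (PT.lf (nat_lit 17556) (nat_lit 6) (nat_lit 231) (nat_lit 4) (nat_lit 151) (nat_lit 187) (nat_lit 172))) (PT.nd (nat_lit 78) (PT.lf (nat_lit 18164) (nat_lit 6) (nat_lit 239) (nat_lit 4) (nat_lit 152) (nat_lit 187) (nat_lit 171)) (PT.lf (nat_lit 18848) (nat_lit 6) (nat_lit 248) (nat_lit 4) (nat_lit 153) (nat_lit 187) (nat_lit 170)))) (PT.nd (nat_lit 156) (PT.nd (nat_lit 78) (PT.lf (nat_lit 18848) (nat_lit 6) (nat_lit 248) (nat_lit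 2) (nat_lit 170) (nat_lit 187) (nat_lit 153)) (PT.lf (nat_lit 18164) (nat_lit 6) (nat_lit 239) (nat_lit 2) (nat_lit 171) (nat_lit 187) (nat_lit 152))) (PT.nd (nat_lit 78) (PT.lf (nat_lit 17556) (nat_lit 6) (nat_lit 231) (nat_lit 2) (nat_lit 172) (nat_lit 187) (nat_lit 151)) (PT.lf (nat_lit 16948) (nat_lit 6) (nat_lit 223) (nat_lit 2) (nat_lit 173) (nat_lit 187) (nat_lit 150))))) (PT.nd (nat_lit 312) (PT.nd (nat_lit 156) (PT.nd (nat_lit 78) (PT.lf (nat_lit 16416) (nat_lit 6) (nat_lit 216) (nat_lit 2) (nat_lit 174) (nat_lit 187) (nat_lit 149)) (PT.lf (nat_lit 15884) (nat_lit 6) (nat_lit 209) (nat_lit 2) (nat_lit 175) (nat_lit 187) (nat_lit 148))) (PT.nd (nat_lit 78) (PT.lf (nat_lit 15428) (nat_lit 6) (nat_lit 203) (nat_lit 2) (nat_lit 176) (nat_lit 187) (nat_lit 147)) (PT.lf (nat_lit 14896) (nat_lit 6) (nat_lit 196) (nat_lit 2) (nat_lit 177) (nat_lit 187) (nat_lit 146)))) (PT.nd (nat_lit 156) (PT.nd (nat_lit 78)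 (PT.lf (nat_lit 14440) (nat_lit 6) (nat_lit 190) (nat_lit 2) (nat_lit 178) (nat_lit 187) (nat_lit 145)) (PT.lf (nat_lit 13984) (nat_lit 6) (nat_lit 184) (nat_lit 2) (nat_lit 179) (nat_lit 187) (nat_lit 144))) (PT.nd (nat_lit 78) (PT.lf (nat_lit 13528) (nat_lit 6) (nat_lit 178) (nat_lit 2) (nat_lit 180) (nat_lit 187) (nat_lit 143)) (PT.nd (nat_lit 78) (PT.lf (nat_lit 13072) (nat_lit 6) (nat_lit 172) (nat_lit 2) (nat_lit 181) (nat_lit 187) (nat_lit 142)) (PT.lf (nat_lit 12692) (nat_lit 6) (nat_lit 167) (nat_lit 2) (nat_lit 182) (nat_lit 187) (nat_lit 141))))))))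
noncomputable def pc49 : PT := (PT.nd (nat_lit 49296) (PT.nd (nat_lit 624) (PT.nd (nat_lit 312) (PT.nd (nat_lit 156) (PT.nd (nat_lit 78) (PT.lf (nat_lit 12312) (nat_lit 6) (nat_lit 162) (nat_lit 2) (nat_lit 183) (nat_lit 187) (nat_lit 140)) (PT.lf (nat_lit 11932) (nat_lit 6) (nat_lit 157) (nat_lit 2) (nat_lit 184) (nat_lit 187) (nat_lit 139))) (PT.nd (nat_lit 78) (PT.lf (nat_lit 11552) (nat_lit 6) (nat_lit 152) (nat_lit 2) (nat_lit 185) (nat_lit 187) (nat_lit 138)) (PT.lf (nat_lit 11248) (nat_lit 6) (nat_lit 148) (nat_lit 2) (nat_lit 186) (nat_lit 187) (nat_lit 137)))) (PT.nd (nat_lit 156) (PT.nd (nat_lit 78) (PT.lf (nat_lit 10868) (nat_lit 3) (nat_lit 143) (nat_lit 0) (nat_lit 187) (nat_lit 187) (nat_lit 136)) (PT.lf (nat_lit 10488) (nat_lit 6) (nat_lit 138) (nat_lit 0) (nat_lit 188) (nat_lit 187) (nat_lit 135))) (PT.nd (nat_lit 78) (PT.lf (nat_lit 10108) (nat_lit 6) (nat_lit 133) (nat_lit 0) (nat_lit 189) (nat_lit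 187) (nat_lit 134)) (PT.lf (nat_lit 9728) (nat_lit 6) (nat_lit 128) (nat_lit 0) (nat_lit 190) (nat_lit 187) (nat_lit 133))))) (PT.nd (nat_lit 48282) (PT.nd (nat_lit 156) (PT.nd (nat_lit 78) (PT.lf (nat_lit 9348) (nat_lit 6) (nat_lit 123) (nat_lit 0) (nat_lit 191) (nat_lit 187) (nat_lit 132)) (PT.lf (nat_lit 9044) (nat_lit 6) (nat_lit 119) (nat_lit 0) (nat_lit 192) (nat_lit 187) (nat_lit 131))) (PT.nd (nat_lit 48048) (PT.lf (nat_lit 8664) (nat_lit 6) (nat_lit 114) (nat_lit 0) (nat_lit 193) (nat_lit 187) (nat_lit 130)) (PT.lf (nat_lit 8132) (nat_lit 6) (nat_lit 107) (nat_lit 5) (nat_lit 128) (nat_lit 188) (nat_lit 194)))) (PT.nd (nat_lit 156) (PT.nd (nat_lit 78) (PT.lf (nat_lit 8436) (nat_lit 6) (nat_lit 111) (nat_lit 5) (nat_lit 129) (nat_lit 188) (nat_lit 193)) (PT.lf (nat_lit 8740) (nat_lit 6) (nat_lit 115) (nat_lit 5) (nat_lit 130) (nat_lit 188) (nat_lit 192))) (PT.nd (nat_lit 78) (PT.lf (nat_lit 9120) (nat_lit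 6) (nat_lit 120) (nat_lit 5) (nat_lit 131) (nat_lit 188) (nat_lit 191)) (PT.nd (nat_lit 78) (PT.lf (nat_lit 9424) (nat_lit 6) (nat_lit 124) (nat_lit 5) (nat_lit 132) (nat_lit 188) (nat_lit 190)) (PT.lf (nat_lit 9804) (nat_lit 6) (nat_lit 129) (nat_lit 5) (nat_lit 133) (nat_lit 188) (nat_lit 189))))))) (PT.nd (nat_lit 702) (PT.nd (nat_lit 312) (PT.nd (nat_lit 156) (PT.nd (nat_lit 78) (PT.lf (nat_lit 10184) (nat_lit 3) (nat_lit 134) (nat_lit 4) (nat_lit 134) (nat_lit 188) (nat_lit 188)) (PT.lf (nat_lit 10488) (nat_lit 6) (nat_lit 138) (nat_lit 4) (nat_lit 135) (nat_lit 188) (nat_lit 187))) (PT.nd (nat_lit 78) (PT.lf (nat_lit 10792) (nat_lit 6) (nat_lit 142) (nat_lit 4) (nat_lit 136) (nat_lit 188) (nat_lit 186)) (PT.lf (nat_lit 11172) (nat_lit 6) (nat_lit 147) (nat_lit 4) (nat_lit 137) (nat_lit 188) (nat_lit 185)))) (PT.nd (nat_lit 156) (PT.nd (nat_lit 78) (PT.lf (nat_lit 11476) (nat_lit 6) (nat_lit 151) (nat_lit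 4) (nat_lit 138) (nat_lit 188) (nat_lit 184)) (PT.lf (nat_lit 11856) (nat_lit 6) (nat_lit 156) (nat_lit 4) (nat_lit 139) (nat_lit 188) (nat_lit 183))) (PT.nd (nat_lit 78) (PT.lf (nat_lit 12236) (nat_lit 6) (nat_lit 161) (nat_lit 4) (nat_lit 140) (nat_lit 188) (nat_lit 182)) (PT.nd (nat_lit 78) (PT.lf (nat_lit 12616) (nat_lit 6) (nat_lit 166) (nat_lit 4) (nat_lit 141) (nat_lit 188) (nat_lit 181)) (PT.lf (nat_lit 12996) (nat_lit 6) (nat_lit 171) (nat_lit 4) (nat_lit 142) (nat_lit 188) (nat_lit 180)))))) (PT.nd (nat_lit 312) (PT.nd (nat_lit 156) (PT.nd (nat_lit 78) (PT.lf (nat_lit 13452) (nat_lit 6) (nat_lit 177) (nat_lit 4) (nat_lit 143) (nat_lit 188) (nat_lit 179)) (PT.lf (nat_lit 13908) (nat_lit 6) (nat_lit 183) (nat_lit 4) (nat_lit 144) (nat_lit 188) (nat_lit 178))) (PT.nd (nat_lit 78) (PT.lf (nat_lit 14364) (nat_lit 6) (nat_lit 189) (nat_lit 4) (nat_lit 145) (nat_lit 188) (nat_lit 177)) (PT.lf (nat_lit 14820)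 (nat_lit 6) (nat_lit 195) (nat_lit 4) (nat_lit 146) (nat_lit 188) (nat_lit 176)))) (PT.nd (nat_lit 2262) (PT.nd (nat_lit 2184) (PT.lf (nat_lit 15352) (nat_lit 6) (nat_lit 202) (nat_lit 4) (nat_lit 147) (nat_lit 188) (nat_lit 175)) (PT.lf (nat_lit 15352) (nat_lit 6) (nat_lit 202) (nat_lit 2) (nat_lit 175) (nat_lit 188) (nat_lit 147))) (PT.nd (nat_lit 78) (PT.lf (nat_lit 14820) (nat_lit 6) (nat_lit 195) (nat_lit 2) (nat_lit 176) (nat_lit 188) (nat_lit 146)) (PT.nd (nat_lit 78) (PT.lf (nat_lit 14364) (nat_lit 6) (nat_lit 189) (nat_lit 2) (nat_lit 177) (nat_lit 188) (nat_lit 145)) (PT.lf (nat_lit 13908) (nat_lit 6) (nat_lit 183) (nat_lit 2) (nat_lit 178) (nat_lit 188) (nat_lit 144))))))))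
noncomputable def pc50 : PT := (PT.nd (nat_lit 49062) (PT.nd (nat_lit 624) (PT.nd (nat_lit 312) (PT.nd (nat_lit 156) (PT.nd (nat_lit 78) (PT.lf (nat_lit 13452) (nat_lit 6) (nat_lit 177) (nat_lit 2) (nat_lit 179) (nat_lit 188) (nat_lit 143)) (PT.lf (nat_lit 12996) (nat_lit 6) (nat_lit 171) (nat_lit 2) (nat_lit 180) (nat_lit 188) (nat_lit 142))) (PT.nd (nat_lit 78) (PT.lf (nat_lit 12616) (nat_lit 6) (nat_lit 166) (nat_lit 2) (nat_lit 181) (nat_lit 188) (nat_lit 141)) (PT.lf (nat_lit 12236) (nat_lit 6) (nat_lit 161) (nat_lit 2) (nat_lit 182) (nat_lit 188) (nat_lit 140)))) (PT.nd (nat_lit 156) (PT.nd (nat_lit 78) (PT.lf (nat_lit 11856) (nat_lit 6) (nat_lit 156) (nat_lit 2) (nat_lit 183) (nat_lit 188) (nat_lit 139)) (PT.lf (nat_lit 11476) (nat_lit 6) (nat_lit 151) (nat_lit 2) (nat_lit 184) (nat_lit 188) (nat_lit 138))) (PT.nd (nat_lit 78) (PT.lf (nat_lit 11172) (nat_lit 6) (nat_lit 147) (nat_lit 2) (nat_lit 185) (nat_lit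 188) (nat_lit 137)) (PT.lf (nat_lit 10792) (nat_lit 6) (nat_lit 142) (nat_lit 2) (nat_lit 186) (nat_lit 188) (nat_lit 136))))) (PT.nd (nat_lit 312) (PT.nd (nat_lit 156) (PT.nd (nat_lit 78) (PT.lf (nat_lit 10488) (nat_lit 6) (nat_lit 138) (nat_lit 2) (nat_lit 187) (nat_lit 188) (nat_lit 135)) (PT.lf (nat_lit 10184) (nat_lit 3) (nat_lit 134) (nat_lit 0) (nat_lit 188) (nat_lit 188) (nat_lit 134))) (PT.nd (nat_lit 78) (PT.lf (nat_lit 9804) (nat_lit 6) (nat_lit 129) (nat_lit 0) (nat_lit 189) (nat_lit 188) (nat_lit 133)) (PT.lf (nat_lit 9424) (nat_lit 6) (nat_lit 124) (nat_lit 0) (nat_lit 190) (nat_lit 188) (nat_lit 132)))) (PT.nd (nat_lit 156) (PT.nd (nat_lit 78) (PT.lf (nat_lit 9120) (nat_lit 6) (nat_lit 120) (nat_lit 0) (nat_lit 191) (nat_lit 188) (nat_lit 131)) (PT.lf (nat_lit 8740) (nat_lit 6) (nat_lit 115) (nat_lit 0) (nat_lit 192) (nat_lit 188) (nat_lit 130))) (PT.nd (nat_lit 78) (PT.lf (nat_lit 8436) (nat_lit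 6) (nat_lit 111) (nat_lit 0) (nat_lit 193) (nat_lit 188) (nat_lit 129)) (PT.nd (nat_lit 47814) (PT.lf (nat_lit 8132) (nat_lit 6) (nat_lit 107) (nat_lit 0) (nat_lit 194) (nat_lit 188) (nat_lit 128)) (PT.lf (nat_lit 7600) (nat_lit 6) (nat_lit 100) (nat_lit 5) (nat_lit 126) (nat_lit 189) (nat_lit 195))))))) (PT.nd (nat_lit 702) (PT.nd (nat_lit 312) (PT.nd (nat_lit 156) (PT.nd (nat_lit 78) (PT.lf (nat_lit 7904) (nat_lit 6) (nat_lit 104) (nat_lit 5) (nat_lit 127) (nat_lit 189) (nat_lit 194)) (PT.lf (nat_lit 8208) (nat_lit 6) (nat_lit 108) (nat_lit 5) (nat_lit 128) (nat_lit 189) (nat_lit 193))) (PT.nd (nat_lit 78) (PT.lf (nat_lit 8512) (nat_lit 6) (nat_lit 112) (nat_lit 5) (nat_lit 129) (nat_lit 189) (nat_lit 192)) (PT.lf (nat_lit 8816) (nat_lit 6) (nat_lit 116) (nat_lit 5) (nat_lit 130) (nat_lit 189) (nat_lit 191)))) (PT.nd (nat_lit 156) (PT.nd (nat_lit 78) (PT.lf (nat_lit 9196) (nat_lit 6) (nat_lit 121) (nat_lit 5)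 (nat_lit 131) (nat_lit 189) (nat_lit 190)) (PT.lf (nat_lit 9500) (nat_lit 3) (nat_lit 125) (nat_lit 4) (nat_lit 132) (nat_lit 189) (nat_lit 189))) (PT.nd (nat_lit 78) (PT.lf (nat_lit 9804) (nat_lit 6) (nat_lit 129) (nat_lit 4) (nat_lit 133) (nat_lit 189) (nat_lit 188)) (PT.nd (nat_lit 78) (PT.lf (nat_lit 10108) (nat_lit 6) (nat_lit 133) (nat_lit 4) (nat_lit 134) (nat_lit 189) (nat_lit 187)) (PT.lf (nat_lit 10412) (nat_lit 6) (nat_lit 137) (nat_lit 4) (nat_lit 135) (nat_lit 189) (nat_lit 186)))))) (PT.nd (nat_lit 312) (PT.nd (nat_lit 156) (PT.nd (nat_lit 78) (PT.lf (nat_lit 10716) (nat_lit 6) (nat_lit 141) (nat_lit 4) (nat_lit 136) (nat_lit 189) (nat_lit 185)) (PT.lf (nat_lit 11096) (nat_lit 6) (nat_lit 146) (nat_lit 4) (nat_lit 137) (nat_lit 189) (nat_lit 184))) (PT.nd (nat_lit 78) (PT.lf (nat_lit 11400) (nat_lit 6) (nat_lit 150) (nat_lit 4) (nat_lit 138) (nat_lit 189) (nat_lit 183)) (PT.lf (nat_lit 11780) (nat_lit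 6) (nat_lit 155) (nat_lit 4) (nat_lit 139) (nat_lit 189) (nat_lit 182)))) (PT.nd (nat_lit 156) (PT.nd (nat_lit 78) (PT.lf (nat_lit 12160) (nat_lit 6) (nat_lit 160) (nat_lit 4) (nat_lit 140) (nat_lit 189) (nat_lit 181)) (PT.lf (nat_lit 12540) (nat_lit 6) (nat_lit 165) (nat_lit 4) (nat_lit 141) (nat_lit 189) (nat_lit 180))) (PT.nd (nat_lit 78) (PT.lf (nat_lit 12920) (nat_lit 6) (nat_lit 170) (nat_lit 4) (nat_lit 142) (nat_lit 189) (nat_lit 179)) (PT.nd (nat_lit 78) (PT.lf (nat_lit 13376) (nat_lit 6) (nat_lit 176) (nat_lit 4) (nat_lit 143) (nat_lit 189) (nat_lit 178)) (PT.lf (nat_lit 13832) (nat_lit 6) (nat_lit 182) (nat_lit 4) (nat_lit 144) (nat_lit 189) (nat_lit 177))))))))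
noncomputable def pc51 : PT := (PT.nd (nat_lit 1326) (PT.nd (nat_lit 624) (PT.nd (nat_lit 312) (PT.nd (nat_lit 156) (PT.nd (nat_lit 78) (PT.lf (nat_lit 13832) (nat_lit 6) (nat_lit 182) (nat_lit 2) (nat_lit 177) (nat_lit 189) (nat_lit 144)) (PT.lf (nat_lit 13376) (nat_lit 6) (nat_lit 176) (nat_lit 2) (nat_lit 178) (nat_lit 189) (nat_lit 143))) (PT.nd (nat_lit 78) (PT.lf (nat_lit 12920) (nat_lit 6) (nat_lit 170) (nat_lit 2) (nat_lit 179) (nat_lit 189) (nat_lit 142)) (PT.lf (nat_lit 12540) (nat_lit 6) (nat_lit 165) (nat_lit 2) (nat_lit 180) (nat_lit 189) (nat_lit 141)))) (PT.nd (nat_lit 156) (PT.nd (nat_lit 78) (PT.lf (nat_lit 12160) (nat_lit 6) (nat_lit 160) (nat_lit 2) (nat_lit 181) (nat_lit 189) (nat_lit 140)) (PT.lf (nat_lit 11780) (nat_lit 6) (nat_lit 155) (nat_lit 2) (nat_lit 182) (nat_lit 189) (nat_lit 139))) (PT.nd (nat_lit 78) (PT.lf (nat_lit 11400) (nat_lit 6) (nat_lit 150) (nat_lit 2) (nat_lit 183) (nat_lit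 189) (nat_lit 138)) (PT.lf (nat_lit 11096) (nat_lit 6) (nat_lit 146) (nat_lit 2) (nat_lit 184) (nat_lit 189) (nat_lit 137))))) (PT.nd (nat_lit 312) (PT.nd (nat_lit 156) (PT.nd (nat_lit 78) (PT.lf (nat_lit 10716) (nat_lit 6) (nat_lit 141) (nat_lit 2) (nat_lit 185) (nat_lit 189) (nat_lit 136)) (PT.lf (nat_lit 10412) (nat_lit 6) (nat_lit 137) (nat_lit 2) (nat_lit 186) (nat_lit 189) (nat_lit 135))) (PT.nd (nat_lit 78) (PT.lf (nat_lit 10108) (nat_lit 6) (nat_lit 133) (nat_lit 2) (nat_lit 187) (nat_lit 189) (nat_lit 134)) (PT.lf (nat_lit 9804) (nat_lit 6) (nat_lit 129) (nat_lit 2) (nat_lit 188) (nat_lit 189) (nat_lit 133)))) (PT.nd (nat_lit 156) (PT.nd (nat_lit 78) (PT.lf (nat_lit 9500) (nat_lit 3) (nat_lit 125) (nat_lit 0) (nat_lit 189) (nat_lit 189) (nat_lit 132)) (PT.lf (nat_lit 9196) (nat_lit 6) (nat_lit 121) (nat_lit 0) (nat_lit 190) (nat_lit 189) (nat_lit 131))) (PT.nd (nat_lit 78) (PT.lf (nat_lit 8816) (nat_lit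 6) (nat_lit 116) (nat_lit 0) (nat_lit 191) (nat_lit 189) (nat_lit 130)) (PT.nd (nat_lit 78) (PT.lf (nat_lit 8512) (nat_lit 6) (nat_lit 112) (nat_lit 0) (nat_lit 192) (nat_lit 189) (nat_lit 129)) (PT.lf (nat_lit 8208) (nat_lit 6) (nat_lit 108) (nat_lit 0) (nat_lit 193) (nat_lit 189) (nat_lit 128))))))) (PT.nd (nat_lit 48282) (PT.nd (nat_lit 47892) (PT.nd (nat_lit 47736) (PT.nd (nat_lit 78) (PT.lf (nat_lit 7904) (nat_lit 6) (nat_lit 104) (nat_lit 0) (nat_lit 194) (nat_lit 189) (nat_lit 127)) (PT.lf (nat_lit 7600) (nat_lit 6) (nat_lit 100) (nat_lit 0) (nat_lit 195) (nat_lit 189) (nat_lit 126))) (PT.nd (nat_lit 78) (PT.lf (nat_lit 7372) (nat_lit 6) (nat_lit 97) (nat_lit 5) (nat_lit 125) (nat_lit 190) (nat_lit 195)) (PT.lf (nat_lit 7676) (nat_lit 6) (nat_lit 101) (nat_lit 5) (nat_lit 126) (nat_lit 190) (nat_lit 194)))) (PT.nd (nat_lit 156) (PT.nd (nat_lit 78) (PT.lf (nat_lit 7980) (nat_lit 6) (nat_lit 105) (nat_lit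 5) (nat_lit 127) (nat_lit 190) (nat_lit 193)) (PT.lf (nat_lit 8284) (nat_lit 6) (nat_lit 109) (nat_lit 5) (nat_lit 128) (nat_lit 190) (nat_lit 192))) (PT.nd (nat_lit 78) (PT.lf (nat_lit 8588) (nat_lit 6) (nat_lit 113) (nat_lit 5) (nat_lit 129) (nat_lit 190) (nat_lit 191)) (PT.nd (nat_lit 78) (PT.lf (nat_lit 8892) (nat_lit 3) (nat_lit 117) (nat_lit 4) (nat_lit 130) (nat_lit 190) (nat_lit 190)) (PT.lf (nat_lit 9196) (nat_lit 6) (nat_lit 121) (nat_lit 4) (nat_lit 131) (nat_lit 190) (nat_lit 189)))))) (PT.nd (nat_lit 312) (PT.nd (nat_lit 156) (PT.nd (nat_lit 78) (PT.lf (nat_lit 9424) (nat_lit 6) (nat_lit 124) (nat_lit 4) (nat_lit 132) (nat_lit 190) (nat_lit 188)) (PT.lf (nat_lit 9728) (nat_lit 6) (nat_lit 128) (nat_lit 4) (nat_lit 133) (nat_lit 190) (nat_lit 187))) (PT.nd (nat_lit 78) (PT.lf (nat_lit 10032) (nat_lit 6) (nat_lit 132) (nat_lit 4) (nat_lit 134) (nat_lit 190) (nat_lit 186)) (PT.lf (nat_lit 10336) (nat_lit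 6) (nat_lit 136) (nat_lit 4) (nat_lit 135) (nat_lit 190) (nat_lit 185)))) (PT.nd (nat_lit 156) (PT.nd (nat_lit 78) (PT.lf (nat_lit 10640) (nat_lit 6) (nat_lit 140) (nat_lit 4) (nat_lit 136) (nat_lit 190) (nat_lit 184)) (PT.lf (nat_lit 11020) (nat_lit 6) (nat_lit 145) (nat_lit 4) (nat_lit 137) (nat_lit 190) (nat_lit 183))) (PT.nd (nat_lit 78) (PT.lf (nat_lit 11324) (nat_lit 6) (nat_lit 149) (nat_lit 4) (nat_lit 138) (nat_lit 190) (nat_lit 182)) (PT.nd (nat_lit 78) (PT.lf (nat_lit 11704) (nat_lit 6) (nat_lit 154) (nat_lit 4) (nat_lit 139) (nat_lit 190) (nat_lit 181)) (PT.lf (nat_lit 12084) (nat_lit 6) (nat_lit 159) (nat_lit 4) (nat_lit 140) (nat_lit 190) (nat_lit 180))))))))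
noncomputable def pc52 : PT := (PT.nd (nat_lit 48750) (PT.nd (nat_lit 624) (PT.nd (nat_lit 312) (PT.nd (nat_lit 156) (PT.nd (nat_lit 78) (PT.lf (nat_lit 12084) (nat_lit 6) (nat_lit 159) (nat_lit 2) (nat_lit 180) (nat_lit 190) (nat_lit 140)) (PT.lf (nat_lit 11704) (nat_lit 6) (nat_lit 154) (nat_lit 2) (nat_lit 181) (nat_lit 190) (nat_lit 139))) (PT.nd (nat_lit 78) (PT.lf (nat_lit 11324) (nat_lit 6) (nat_lit 149) (nat_lit 2) (nat_lit 182) (nat_lit 190) (nat_lit 138)) (PT.lf (nat_lit 11020) (nat_lit 6) (nat_lit 145) (nat_lit 2) (nat_lit 183) (nat_lit 190) (nat_lit 137)))) (PT.nd (nat_lit 156) (PT.nd (nat_lit 78) (PT.lf (nat_lit 10640) (nat_lit 6) (nat_lit 140) (nat_lit 2) (nat_lit 184) (nat_lit 190) (nat_lit 136)) (PT.lf (nat_lit 10336) (nat_lit 6) (nat_lit 136) (nat_lit 2) (nat_lit 185) (nat_lit 190) (nat_lit 135))) (PT.nd (nat_lit 78) (PT.lf (nat_lit 10032) (nat_lit 6) (nat_lit 132) (nat_lit 2) (nat_lit 186) (nat_lit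 190) (nat_lit 134)) (PT.lf (nat_lit 9728) (nat_lit 6) (nat_lit 128) (nat_lit 2) (nat_lit 187) (nat_lit 190) (nat_lit 133))))) (PT.nd (nat_lit 312) (PT.nd (nat_lit 156) (PT.nd (nat_lit 78) (PT.lf (nat_lit 9424) (nat_lit 6) (nat_lit 124) (nat_lit 2) (nat_lit 188) (nat_lit 190) (nat_lit 132)) (PT.lf (nat_lit 9196) (nat_lit 6) (nat_lit 121) (nat_lit 2) (nat_lit 189) (nat_lit 190) (nat_lit 131))) (PT.nd (nat_lit 78) (PT.lf (nat_lit 8892) (nat_lit 3) (nat_lit 117) (nat_lit 0) (nat_lit 190) (nat_lit 190) (nat_lit 130)) (PT.lf (nat_lit 8588) (nat_lit 6) (nat_lit 113) (nat_lit 0) (nat_lit 191) (nat_lit 190) (nat_lit 129)))) (PT.nd (nat_lit 156) (PT.nd (nat_lit 78) (PT.lf (nat_lit 8284) (nat_lit 6) (nat_lit 109) (nat_lit 0) (nat_lit 192) (nat_lit 190) (nat_lit 128)) (PT.lf (nat_lit 7980) (nat_lit 6) (nat_lit 105) (nat_lit 0) (nat_lit 193) (nat_lit 190) (nat_lit 127))) (PT.nd (nat_lit 78) (PT.lf (nat_lit 7676) (nat_lit 6)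 (nat_lit 101) (nat_lit 0) (nat_lit 194) (nat_lit 190) (nat_lit 126)) (PT.nd (nat_lit 47502) (PT.lf (nat_lit 7372) (nat_lit 6) (nat_lit 97) (nat_lit 0) (nat_lit 195) (nat_lit 190) (nat_lit 125)) (PT.lf (nat_lit 6916) (nat_lit 6) (nat_lit 91) (nat_lit 5) (nat_lit 123) (nat_lit 191) (nat_lit 196))))))) (PT.nd (nat_lit 702) (PT.nd (nat_lit 312) (PT.nd (nat_lit 156) (PT.nd (nat_lit 78) (PT.lf (nat_lit 7144) (nat_lit 6) (nat_lit 94) (nat_lit 5) (nat_lit 124) (nat_lit 191) (nat_lit 195)) (PT.lf (nat_lit 7448) (nat_lit 6) (nat_lit 98) (nat_lit 5) (nat_lit 125) (nat_lit 191) (nat_lit 194))) (PT.nd (nat_lit 78) (PT.lf (nat_lit 7752) (nat_lit 6) (nat_lit 102) (nat_lit 5) (nat_lit 126) (nat_lit 191) (nat_lit 193)) (PT.lf (nat_lit 8056) (nat_lit 6) (nat_lit 106) (nat_lit 5) (nat_lit 127) (nat_lit 191) (nat_lit 192)))) (PT.nd (nat_lit 156) (PT.nd (nat_lit 78) (PT.lf (nat_lit 8360) (nat_lit 3) (nat_lit 110) (nat_lit 4) (nat_lit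 128) (nat_lit 191) (nat_lit 191)) (PT.lf (nat_lit 8588) (nat_lit 6) (nat_lit 113) (nat_lit 4) (nat_lit 129) (nat_lit 191) (nat_lit 190))) (PT.nd (nat_lit 78) (PT.lf (nat_lit 8816) (nat_lit 6) (nat_lit 116) (nat_lit 4) (nat_lit 130) (nat_lit 191) (nat_lit 189)) (PT.nd (nat_lit 78) (PT.lf (nat_lit 9120) (nat_lit 6) (nat_lit 120) (nat_lit 4) (nat_lit 131) (nat_lit 191) (nat_lit 188)) (PT.lf (nat_lit 9348) (nat_lit 6) (nat_lit 123) (nat_lit 4) (nat_lit 132) (nat_lit 191) (nat_lit 187)))))) (PT.nd (nat_lit 312) (PT.nd (nat_lit 156) (PT.nd (nat_lit 78) (PT.lf (nat_lit 9652) (nat_lit 6) (nat_lit 127) (nat_lit 4) (nat_lit 133) (nat_lit 191) (nat_lit 186)) (PT.lf (nat_lit 9956) (nat_lit 6) (nat_lit 131) (nat_lit 4) (nat_lit 134) (nat_lit 191) (nat_lit 185))) (PT.nd (nat_lit 78) (PT.lf (nat_lit 10260) (nat_lit 6) (nat_lit 135) (nat_lit 4) (nat_lit 135) (nat_lit 191) (nat_lit 184)) (PT.lf (nat_lit 10564) (nat_lit 6) (nat_lit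 139) (nat_lit 4) (nat_lit 136) (nat_lit 191) (nat_lit 183)))) (PT.nd (nat_lit 3588) (PT.nd (nat_lit 3510) (PT.lf (nat_lit 10944) (nat_lit 6) (nat_lit 144) (nat_lit 4) (nat_lit 137) (nat_lit 191) (nat_lit 182)) (PT.lf (nat_lit 10944) (nat_lit 6) (nat_lit 144) (nat_lit 2) (nat_lit 182) (nat_lit 191) (nat_lit 137))) (PT.nd (nat_lit 78) (PT.lf (nat_lit 10564) (nat_lit 6) (nat_lit 139) (nat_lit 2) (nat_lit 183) (nat_lit 191) (nat_lit 136)) (PT.nd (nat_lit 78) (PT.lf (nat_lit 10260) (nat_lit 6) (nat_lit 135) (nat_lit 2) (nat_lit 184) (nat_lit 191) (nat_lit 135)) (PT.lf (nat_lit 9956) (nat_lit 6) (nat_lit 131) (nat_lit 2) (nat_lit 185) (nat_lit 191) (nat_lit 134))))))))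
noncomputable def pc53 : PT := (PT.nd (nat_lit 48516) (PT.nd (nat_lit 624) (PT.nd (nat_lit 312) (PT.nd (nat_lit 156) (PT.nd (nat_lit 78) (PT.lf (nat_lit 9652) (nat_lit 6) (nat_lit 127) (nat_lit 2) (nat_lit 186) (nat_lit 191) (nat_lit 133)) (PT.lf (nat_lit 9348) (nat_lit 6) (nat_lit 123) (nat_lit 2) (nat_lit 187) (nat_lit 191) (nat_lit 132))) (PT.nd (nat_lit 78) (PT.lf (nat_lit 9120) (nat_lit 6) (nat_lit 120) (nat_lit 2) (nat_lit 188) (nat_lit 191) (nat_lit 131)) (PT.lf (nat_lit 8816) (nat_lit 6) (nat_lit 116) (nat_lit 2) (nat_lit 189) (nat_lit 191) (nat_lit 130)))) (PT.nd (nat_lit 156) (PT.nd (nat_lit 78) (PT.lf (nat_lit 8588) (nat_lit 6) (nat_lit 113) (nat_lit 2) (nat_lit 190) (nat_lit 191) (nat_lit 129)) (PT.lf (nat_lit 8360) (nat_lit 3) (nat_lit 110) (nat_lit 0) (nat_lit 191) (nat_lit 191) (nat_lit 128))) (PT.nd (nat_lit 78) (PT.lf (nat_lit 8056) (nat_lit 6) (nat_lit 106) (nat_lit 0) (nat_lit 192) (nat_lit 191)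 (nat_lit 127)) (PT.lf (nat_lit 7752) (nat_lit 6) (nat_lit 102) (nat_lit 0) (nat_lit 193) (nat_lit 191) (nat_lit 126))))) (PT.nd (nat_lit 47502) (PT.nd (nat_lit 156) (PT.nd (nat_lit 78) (PT.lf (nat_lit 7448) (nat_lit 6) (nat_lit 98) (nat_lit 0) (nat_lit 194) (nat_lit 191) (nat_lit 125)) (PT.lf (nat_lit 7144) (nat_lit 6) (nat_lit 94) (nat_lit 0) (nat_lit 195) (nat_lit 191) (nat_lit 124))) (PT.nd (nat_lit 47268) (PT.lf (nat_lit 6916) (nat_lit 6) (nat_lit 91) (nat_lit 0) (nat_lit 196) (nat_lit 191) (nat_lit 123)) (PT.lf (nat_lit 6460) (nat_lit 6) (nat_lit 85) (nat_lit 5) (nat_lit 121) (nat_lit 192) (nat_lit 197)))) (PT.nd (nat_lit 156) (PT.nd (nat_lit 78) (PT.lf (nat_lit 6688) (nat_lit 6) (nat_lit 88) (nat_lit 5) (nat_lit 122) (nat_lit 192) (nat_lit 196)) (PT.lf (nat_lit 6992) (nat_lit 6) (nat_lit 92) (nat_lit 5) (nat_lit 123) (nat_lit 192) (nat_lit 195))) (PT.nd (nat_lit 78) (PT.lf (nat_lit 7220) (nat_lit 6) (nat_lit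 95) (nat_lit 5) (nat_lit 124) (nat_lit 192) (nat_lit 194)) (PT.nd (nat_lit 78) (PT.lf (nat_lit 7524) (nat_lit 6) (nat_lit 99) (nat_lit 5) (nat_lit 125) (nat_lit 192) (nat_lit 193)) (PT.lf (nat_lit 7828) (nat_lit 3) (nat_lit 103) (nat_lit 4) (nat_lit 126) (nat_lit 192) (nat_lit 192))))))) (PT.nd (nat_lit 4524) (PT.nd (nat_lit 312) (PT.nd (nat_lit 156) (PT.nd (nat_lit 78) (PT.lf (nat_lit 8056) (nat_lit 6) (nat_lit 106) (nat_lit 4) (nat_lit 127) (nat_lit 192) (nat_lit 191)) (PT.lf (nat_lit 8284) (nat_lit 6) (nat_lit 109) (nat_lit 4) (nat_lit 128) (nat_lit 192) (nat_lit 190))) (PT.nd (nat_lit 78) (PT.lf (nat_lit 8512) (nat_lit 6) (nat_lit 112) (nat_lit 4) (nat_lit 129) (nat_lit 192) (nat_lit 189)) (PT.lf (nat_lit 8740) (nat_lit 6) (nat_lit 115) (nat_lit 4) (nat_lit 130) (nat_lit 192) (nat_lit 188)))) (PT.nd (nat_lit 156) (PT.nd (nat_lit 78) (PT.lf (nat_lit 9044) (nat_lit 6) (nat_lit 119) (nat_lit 4) (nat_lit 131) (nat_lit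 192) (nat_lit 187)) (PT.lf (nat_lit 9272) (nat_lit 6) (nat_lit 122) (nat_lit 4) (nat_lit 132) (nat_lit 192) (nat_lit 186))) (PT.nd (nat_lit 78) (PT.lf (nat_lit 9576) (nat_lit 6) (nat_lit 126) (nat_lit 4) (nat_lit 133) (nat_lit 192) (nat_lit 185)) (PT.nd (nat_lit 3900) (PT.lf (nat_lit 9880) (nat_lit 6) (nat_lit 130) (nat_lit 4) (nat_lit 134) (nat_lit 192) (nat_lit 184)) (PT.lf (nat_lit 9880) (nat_lit 6) (nat_lit 130) (nat_lit 2) (nat_lit 184) (nat_lit 192) (nat_lit 134)))))) (PT.nd (nat_lit 312) (PT.nd (nat_lit 156) (PT.nd (nat_lit 78) (PT.lf (nat_lit 9576) (nat_lit 6) (nat_lit 126) (nat_lit 2) (nat_lit 185) (nat_lit 192) (nat_lit 133)) (PT.lf (nat_lit 9272) (nat_lit 6) (nat_lit 122) (nat_lit 2) (nat_lit 186) (nat_lit 192) (nat_lit 132))) (PT.nd (nat_lit 78) (PT.lf (nat_lit 9044) (nat_lit 6) (nat_lit 119) (nat_lit 2) (nat_lit 187) (nat_lit 192) (nat_lit 131)) (PT.lf (nat_lit 8740) (nat_lit 6) (nat_lit 115) (nat_lit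 2) (nat_lit 188) (nat_lit 192) (nat_lit 130)))) (PT.nd (nat_lit 156) (PT.nd (nat_lit 78) (PT.lf (nat_lit 8512) (nat_lit 6) (nat_lit 112) (nat_lit 2) (nat_lit 189) (nat_lit 192) (nat_lit 129)) (PT.lf (nat_lit 8284) (nat_lit 6) (nat_lit 109) (nat_lit 2) (nat_lit 190) (nat_lit 192) (nat_lit 128))) (PT.nd (nat_lit 78) (PT.lf (nat_lit 8056) (nat_lit 6) (nat_lit 106) (nat_lit 2) (nat_lit 191) (nat_lit 192) (nat_lit 127)) (PT.nd (nat_lit 78) (PT.lf (nat_lit 7828) (nat_lit 3) (nat_lit 103) (nat_lit 0) (nat_lit 192) (nat_lit 192) (nat_lit 126)) (PT.lf (nat_lit 7524) (nat_lit 6) (nat_lit 99) (nat_lit 0) (nat_lit 193) (nat_lit 192) (nat_lit 125))))))))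
noncomputable def pc54 : PT := (PT.nd (nat_lit 52572) (PT.nd (nat_lit 47658) (PT.nd (nat_lit 47346) (PT.nd (nat_lit 156) (PT.nd (nat_lit 78) (PT.lf (nat_lit 7220) (nat_lit 6) (nat_lit 95) (nat_lit 0) (nat_lit 194) (nat_lit 192) (nat_lit 124)) (PT.lf (nat_lit 6992) (nat_lit 6) (nat_lit 92) (nat_lit 0) (nat_lit 195) (nat_lit 192) (nat_lit 123))) (PT.nd (nat_lit 78) (PT.lf (nat_lit 6688) (nat_lit 6) (nat_lit 88) (nat_lit 0) (nat_lit 196) (nat_lit 192) (nat_lit 122)) (PT.lf (nat_lit 6460) (nat_lit 6) (nat_lit 85) (nat_lit 0) (nat_lit 197) (nat_lit 192) (nat_lit 121)))) (PT.nd (nat_lit 156) (PT.nd (nat_lit 78) (PT.lf (nat_lit 6232) (nat_lit 6) (nat_lit 82) (nat_lit 5) (nat_lit 120) (nat_lit 193) (nat_lit 197)) (PT.lf (nat_lit 6536) (nat_lit 6) (nat_lit 86) (nat_lit 5) (nat_lit 121) (nat_lit 193) (nat_lit 196))) (PT.nd (nat_lit 78) (PT.lf (nat_lit 6764) (nat_lit 6) (nat_lit 89) (nat_lit 5) (nat_lit 122) (nat_lit 193)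 (nat_lit 195)) (PT.lf (nat_lit 7068) (nat_lit 6) (nat_lit 93) (nat_lit 5) (nat_lit 123) (nat_lit 193) (nat_lit 194))))) (PT.nd (nat_lit 312) (PT.nd (nat_lit 156) (PT.nd (nat_lit 78) (PT.lf (nat_lit 7296) (nat_lit 3) (nat_lit 96) (nat_lit 4) (nat_lit 124) (nat_lit 193) (nat_lit 193)) (PT.lf (nat_lit 7524) (nat_lit 6) (nat_lit 99) (nat_lit 4) (nat_lit 125) (nat_lit 193) (nat_lit 192))) (PT.nd (nat_lit 78) (PT.lf (nat_lit 7752) (nat_lit 6) (nat_lit 102) (nat_lit 4) (nat_lit 126) (nat_lit 193) (nat_lit 191)) (PT.lf (nat_lit 7980) (nat_lit 6) (nat_lit 105) (nat_lit 4) (nat_lit 127) (nat_lit 193) (nat_lit 190)))) (PT.nd (nat_lit 156) (PT.nd (nat_lit 78) (PT.lf (nat_lit 8208) (nat_lit 6) (nat_lit 108) (nat_lit 4) (nat_lit 128) (nat_lit 193) (nat_lit 189)) (PT.lf (nat_lit 8436) (nat_lit 6) (nat_lit 111) (nat_lit 4) (nat_lit 129) (nat_lit 193) (nat_lit 188))) (PT.nd (nat_lit 78) (PT.lf (nat_lit 8664) (nat_lit 6) (nat_lit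 114) (nat_lit 4) (nat_lit 130) (nat_lit 193) (nat_lit 187)) (PT.nd (nat_lit 4290) (PT.lf (nat_lit 8968) (nat_lit 6) (nat_lit 118) (nat_lit 4) (nat_lit 131) (nat_lit 193) (nat_lit 186)) (PT.lf (nat_lit 8968) (nat_lit 6) (nat_lit 118) (nat_lit 2) (nat_lit 186) (nat_lit 193) (nat_lit 131))))))) (PT.nd (nat_lit 702) (PT.nd (nat_lit 312) (PT.nd (nat_lit 156) (PT.nd (nat_lit 78) (PT.lf (nat_lit 8664) (nat_lit 6) (nat_lit 114) (nat_lit 2) (nat_lit 187) (nat_lit 193) (nat_lit 130)) (PT.lf (nat_lit 8436) (nat_lit 6) (nat_lit 111) (nat_lit 2) (nat_lit 188) (nat_lit 193) (nat_lit 129))) (PT.nd (nat_lit 78) (PT.lf (nat_lit 8208) (nat_lit 6) (nat_lit 108) (nat_lit 2) (nat_lit 189) (nat_lit 193) (nat_lit 128)) (PT.lf (nat_lit 7980) (nat_lit 6) (nat_lit 105) (nat_lit 2) (nat_lit 190) (nat_lit 193) (nat_lit 127)))) (PT.nd (nat_lit 156) (PT.nd (nat_lit 78) (PT.lf (nat_lit 7752) (nat_lit 6) (nat_lit 102) (nat_lit 2) (nat_lit 191)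 (nat_lit 193) (nat_lit 126)) (PT.lf (nat_lit 7524) (nat_lit 6) (nat_lit 99) (nat_lit 2) (nat_lit 192) (nat_lit 193) (nat_lit 125))) (PT.nd (nat_lit 78) (PT.lf (nat_lit 7296) (nat_lit 3) (nat_lit 96) (nat_lit 0) (nat_lit 193) (nat_lit 193) (nat_lit 124)) (PT.nd (nat_lit 78) (PT.lf (nat_lit 7068) (nat_lit 6) (nat_lit 93) (nat_lit 0) (nat_lit 194) (nat_lit 193) (nat_lit 123)) (PT.lf (nat_lit 6764) (nat_lit 6) (nat_lit 89) (nat_lit 0) (nat_lit 195) (nat_lit 193) (nat_lit 122)))))) (PT.nd (nat_lit 47190) (PT.nd (nat_lit 47034) (PT.nd (nat_lit 78) (PT.lf (nat_lit 6536) (nat_lit 6) (nat_lit 86) (nat_lit 0) (nat_lit 196) (nat_lit 193) (nat_lit 121)) (PT.lf (nat_lit 6232) (nat_lit 6) (nat_lit 82) (nat_lit 0) (nat_lit 197) (nat_lit 193) (nat_lit 120))) (PT.nd (nat_lit 78) (PT.lf (nat_lit 5852) (nat_lit 6) (nat_lit 77) (nat_lit 5) (nat_lit 118) (nat_lit 194) (nat_lit 198)) (PT.lf (nat_lit 6080) (nat_lit 6) (nat_lit 80) (nat_lit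 5) (nat_lit 119) (nat_lit 194) (nat_lit 197)))) (PT.nd (nat_lit 156) (PT.nd (nat_lit 78) (PT.lf (nat_lit 6308) (nat_lit 6) (nat_lit 83) (nat_lit 5) (nat_lit 120) (nat_lit 194) (nat_lit 196)) (PT.lf (nat_lit 6612) (nat_lit 6) (nat_lit 87) (nat_lit 5) (nat_lit 121) (nat_lit 194) (nat_lit 195))) (PT.nd (nat_lit 78) (PT.lf (nat_lit 6840) (nat_lit 3) (nat_lit 90) (nat_lit 4) (nat_lit 122) (nat_lit 194) (nat_lit 194)) (PT.nd (nat_lit 78) (PT.lf (nat_lit 7068) (nat_lit 6) (nat_lit 93) (nat_lit 4) (nat_lit 123) (nat_lit 194) (nat_lit 193)) (PT.lf (nat_lit 7220) (nat_lit 6) (nat_lit 95) (nat_lit 4) (nat_lit 124) (nat_lit 194) (nat_lit 192))))))))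
noncomputable def pc55 : PT := (PT.nd (nat_lit 52572) (PT.nd (nat_lit 5226) (PT.nd (nat_lit 4914) (PT.nd (nat_lit 156) (PT.nd (nat_lit 78) (PT.lf (nat_lit 7448) (nat_lit 6) (nat_lit 98) (nat_lit 4) (nat_lit 125) (nat_lit 194) (nat_lit 191)) (PT.lf (nat_lit 7676) (nat_lit 6) (nat_lit 101) (nat_lit 4) (nat_lit 126) (nat_lit 194) (nat_lit 190))) (PT.nd (nat_lit 78) (PT.lf (nat_lit 7904) (nat_lit 6) (nat_lit 104) (nat_lit 4) (nat_lit 127) (nat_lit 194) (nat_lit 189)) (PT.lf (nat_lit 8132) (nat_lit 6) (nat_lit 107) (nat_lit 4) (nat_lit 128) (nat_lit 194) (nat_lit 188)))) (PT.nd (nat_lit 156) (PT.nd (nat_lit 78) (PT.lf (nat_lit 8132) (nat_lit 6) (nat_lit 107) (nat_lit 2) (nat_lit 188) (nat_lit 194) (nat_lit 128)) (PT.lf (nat_lit 7904) (nat_lit 6) (nat_lit 104) (nat_lit 2) (nat_lit 189) (nat_lit 194) (nat_lit 127))) (PT.nd (nat_lit 78) (PT.lf (nat_lit 7676) (nat_lit 6) (nat_lit 101) (nat_lit 2) (nat_lit 190) (nat_lit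 194) (nat_lit 126)) (PT.lf (nat_lit 7448) (nat_lit 6) (nat_lit 98) (nat_lit 2) (nat_lit 191) (nat_lit 194) (nat_lit 125))))) (PT.nd (nat_lit 312) (PT.nd (nat_lit 156) (PT.nd (nat_lit 78) (PT.lf (nat_lit 7220) (nat_lit 6) (nat_lit 95) (nat_lit 2) (nat_lit 192) (nat_lit 194) (nat_lit 124)) (PT.lf (nat_lit 7068) (nat_lit 6) (nat_lit 93) (nat_lit 2) (nat_lit 193) (nat_lit 194) (nat_lit 123))) (PT.nd (nat_lit 78) (PT.lf (nat_lit 6840) (nat_lit 3) (nat_lit 90) (nat_lit 0) (nat_lit 194) (nat_lit 194) (nat_lit 122)) (PT.lf (nat_lit 6612) (nat_lit 6) (nat_lit 87) (nat_lit 0) (nat_lit 195) (nat_lit 194) (nat_lit 121)))) (PT.nd (nat_lit 156) (PT.nd (nat_lit 78) (PT.lf (nat_lit 6308) (nat_lit 6) (nat_lit 83) (nat_lit 0) (nat_lit 196) (nat_lit 194) (nat_lit 120)) (PT.lf (nat_lit 6080) (nat_lit 6) (nat_lit 80) (nat_lit 0) (nat_lit 197) (nat_lit 194) (nat_lit 119))) (PT.nd (nat_lit 46722) (PT.lf (nat_lit 5852) (nat_lit 6) (nat_lit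 77) (nat_lit 0) (nat_lit 198) (nat_lit 194) (nat_lit 118)) (PT.nd (nat_lit 78) (PT.lf (nat_lit 5472) (nat_lit 6) (nat_lit 72) (nat_lit 5) (nat_lit 116) (nat_lit 195) (nat_lit 199)) (PT.lf (nat_lit 5700) (nat_lit 6) (nat_lit 75) (nat_lit 5) (nat_lit 117) (nat_lit 195) (nat_lit 198))))))) (PT.nd (nat_lit 5538) (PT.nd (nat_lit 312) (PT.nd (nat_lit 156) (PT.nd (nat_lit 78) (PT.lf (nat_lit 5928) (nat_lit 6) (nat_lit 78) (nat_lit 5) (nat_lit 118) (nat_lit 195) (nat_lit 197)) (PT.lf (nat_lit 6156) (nat_lit 6) (nat_lit 81) (nat_lit 5) (nat_lit 119) (nat_lit 195) (nat_lit 196))) (PT.nd (nat_lit 78) (PT.lf (nat_lit 6384) (nat_lit 3) (nat_lit 84) (nat_lit 4) (nat_lit 120) (nat_lit 195) (nat_lit 195)) (PT.lf (nat_lit 6612) (nat_lit 6) (nat_lit 87) (nat_lit 4) (nat_lit 121) (nat_lit 195) (nat_lit 194)))) (PT.nd (nat_lit 156) (PT.nd (nat_lit 78) (PT.lf (nat_lit 6764) (nat_lit 6) (nat_lit 89) (nat_lit 4) (nat_lit 122) (nat_lit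 195) (nat_lit 193)) (PT.lf (nat_lit 6992) (nat_lit 6) (nat_lit 92) (nat_lit 4) (nat_lit 123) (nat_lit 195) (nat_lit 192))) (PT.nd (nat_lit 78) (PT.lf (nat_lit 7144) (nat_lit 6) (nat_lit 94) (nat_lit 4) (nat_lit 124) (nat_lit 195) (nat_lit 191)) (PT.nd (nat_lit 78) (PT.lf (nat_lit 7372) (nat_lit 6) (nat_lit 97) (nat_lit 4) (nat_lit 125) (nat_lit 195) (nat_lit 190)) (PT.lf (nat_lit 7600) (nat_lit 6) (nat_lit 100) (nat_lit 4) (nat_lit 126) (nat_lit 195) (nat_lit 189)))))) (PT.nd (nat_lit 312) (PT.nd (nat_lit 156) (PT.nd (nat_lit 78) (PT.lf (nat_lit 7600) (nat_lit 6) (nat_lit 100) (nat_lit 2) (nat_lit 189) (nat_lit 195) (nat_lit 126)) (PT.lf (nat_lit 7372) (nat_lit 6) (nat_lit 97) (nat_lit 2) (nat_lit 190) (nat_lit 195) (nat_lit 125))) (PT.nd (nat_lit 78) (PT.lf (nat_lit 7144) (nat_lit 6) (nat_lit 94) (nat_lit 2) (nat_lit 191) (nat_lit 195) (nat_lit 124)) (PT.lf (nat_lit 6992) (nat_lit 6) (nat_lit 92) (nat_lit 2) (nat_lit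 192) (nat_lit 195) (nat_lit 123)))) (PT.nd (nat_lit 156) (PT.nd (nat_lit 78) (PT.lf (nat_lit 6764) (nat_lit 6) (nat_lit 89) (nat_lit 2) (nat_lit 193) (nat_lit 195) (nat_lit 122)) (PT.lf (nat_lit 6612) (nat_lit 6) (nat_lit 87) (nat_lit 2) (nat_lit 194) (nat_lit 195) (nat_lit 121))) (PT.nd (nat_lit 78) (PT.lf (nat_lit 6384) (nat_lit 3) (nat_lit 84) (nat_lit 0) (nat_lit 195) (nat_lit 195) (nat_lit 120)) (PT.nd (nat_lit 78) (PT.lf (nat_lit 6156) (nat_lit 6) (nat_lit 81) (nat_lit 0) (nat_lit 196) (nat_lit 195) (nat_lit 119)) (PT.lf (nat_lit 5928) (nat_lit 6) (nat_lit 78) (nat_lit 0) (nat_lit 197) (nat_lit 195) (nat_lit 118))))))))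
noncomputable def pc56 : PT := (PT.nd (nat_lit 52962) (PT.nd (nat_lit 47034) (PT.nd (nat_lit 46722) (PT.nd (nat_lit 46566) (PT.nd (nat_lit 78) (PT.lf (nat_lit 5700) (nat_lit 6) (nat_lit 75) (nat_lit 0) (nat_lit 198) (nat_lit 195) (nat_lit 117)) (PT.lf (nat_lit 5472) (nat_lit 6) (nat_lit 72) (nat_lit 0) (nat_lit 199) (nat_lit 195) (nat_lit 116))) (PT.nd (nat_lit 78) (PT.lf (nat_lit 5092) (nat_lit 6) (nat_lit 67) (nat_lit 5) (nat_lit 114) (nat_lit 196) (nat_lit 200)) (PT.lf (nat_lit 5320) (nat_lit 6) (nat_lit 70) (nat_lit 5) (nat_lit 115) (nat_lit 196) (nat_lit 199)))) (PT.nd (nat_lit 156) (PT.nd (nat_lit 78) (PT.lf (nat_lit 5548) (nat_lit 6) (nat_lit 73) (nat_lit 5) (nat_lit 116) (nat_lit 196) (nat_lit 198)) (PT.lf (nat_lit 5776) (nat_lit 6) (nat_lit 76) (nat_lit 5) (nat_lit 117) (nat_lit 196) (nat_lit 197))) (PT.nd (nat_lit 78) (PT.lf (nat_lit 6004) (nat_lit 3) (nat_lit 79) (nat_lit 4) (nat_lit 118) (nat_lit 196)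 (nat_lit 196)) (PT.lf (nat_lit 6156) (nat_lit 6) (nat_lit 81) (nat_lit 4) (nat_lit 119) (nat_lit 196) (nat_lit 195))))) (PT.nd (nat_lit 5538) (PT.nd (nat_lit 156) (PT.nd (nat_lit 78) (PT.lf (nat_lit 6308) (nat_lit 6) (nat_lit 83) (nat_lit 4) (nat_lit 120) (nat_lit 196) (nat_lit 194)) (PT.lf (nat_lit 6536) (nat_lit 6) (nat_lit 86) (nat_lit 4) (nat_lit 121) (nat_lit 196) (nat_lit 193))) (PT.nd (nat_lit 78) (PT.lf (nat_lit 6688) (nat_lit 6) (nat_lit 88) (nat_lit 4) (nat_lit 122) (nat_lit 196) (nat_lit 192)) (PT.lf (nat_lit 6916) (nat_lit 6) (nat_lit 91) (nat_lit 4) (nat_lit 123) (nat_lit 196) (nat_lit 191)))) (PT.nd (nat_lit 156) (PT.nd (nat_lit 78) (PT.lf (nat_lit 6916) (nat_lit 6) (nat_lit 91) (nat_lit 2) (nat_lit 191) (nat_lit 196) (nat_lit 123)) (PT.lf (nat_lit 6688) (nat_lit 6) (nat_lit 88) (nat_lit 2) (nat_lit 192) (nat_lit 196) (nat_lit 122))) (PT.nd (nat_lit 78) (PT.lf (nat_lit 6536) (nat_lit 6) (nat_lit 86)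 (nat_lit 2) (nat_lit 193) (nat_lit 196) (nat_lit 121)) (PT.nd (nat_lit 78) (PT.lf (nat_lit 6308) (nat_lit 6) (nat_lit 83) (nat_lit 2) (nat_lit 194) (nat_lit 196) (nat_lit 120)) (PT.lf (nat_lit 6156) (nat_lit 6) (nat_lit 81) (nat_lit 2) (nat_lit 195) (nat_lit 196) (nat_lit 119))))))) (PT.nd (nat_lit 46878) (PT.nd (nat_lit 312) (PT.nd (nat_lit 156) (PT.nd (nat_lit 78) (PT.lf (nat_lit 6004) (nat_lit 3) (nat_lit 79) (nat_lit 0) (nat_lit 196) (nat_lit 196) (nat_lit 118)) (PT.lf (nat_lit 5776) (nat_lit 6) (nat_lit 76) (nat_lit 0) (nat_lit 197) (nat_lit 196) (nat_lit 117))) (PT.nd (nat_lit 78) (PT.lf (nat_lit 5548) (nat_lit 6) (nat_lit 73) (nat_lit 0) (nat_lit 198) (nat_lit 196) (nat_lit 116)) (PT.lf (nat_lit 5320) (nat_lit 6) (nat_lit 70) (nat_lit 0) (nat_lit 199) (nat_lit 196) (nat_lit 115)))) (PT.nd (nat_lit 46332) (PT.nd (nat_lit 46254) (PT.lf (nat_lit 5092) (nat_lit 6) (nat_lit 67) (nat_lit 0) (nat_lit 200) (nat_lit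 196) (nat_lit 114)) (PT.lf (nat_lit 4712) (nat_lit 6) (nat_lit 62) (nat_lit 5) (nat_lit 112) (nat_lit 197) (nat_lit 201))) (PT.nd (nat_lit 78) (PT.lf (nat_lit 4940) (nat_lit 6) (nat_lit 65) (nat_lit 5) (nat_lit 113) (nat_lit 197) (nat_lit 200)) (PT.nd (nat_lit 78) (PT.lf (nat_lit 5168) (nat_lit 6) (nat_lit 68) (nat_lit 5) (nat_lit 114) (nat_lit 197) (nat_lit 199)) (PT.lf (nat_lit 5396) (nat_lit 6) (nat_lit 71) (nat_lit 5) (nat_lit 115) (nat_lit 197) (nat_lit 198)))))) (PT.nd (nat_lit 312) (PT.nd (nat_lit 156) (PT.nd (nat_lit 78) (PT.lf (nat_lit 5624) (nat_lit 3) (nat_lit 74) (nat_lit 4) (nat_lit 116) (nat_lit 197) (nat_lit 197)) (PT.lf (nat_lit 5776) (nat_lit 6) (nat_lit 76) (nat_lit 4) (nat_lit 117) (nat_lit 197) (nat_lit 196))) (PT.nd (nat_lit 78) (PT.lf (nat_lit 5928) (nat_lit 6) (nat_lit 78) (nat_lit 4) (nat_lit 118) (nat_lit 197) (nat_lit 195)) (PT.lf (nat_lit 6080) (nat_lit 6) (nat_lit 80) (nat_lit 4) (nat_lit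 119) (nat_lit 197) (nat_lit 194)))) (PT.nd (nat_lit 5616) (PT.nd (nat_lit 78) (PT.lf (nat_lit 6232) (nat_lit 6) (nat_lit 82) (nat_lit 4) (nat_lit 120) (nat_lit 197) (nat_lit 193)) (PT.lf (nat_lit 6460) (nat_lit 6) (nat_lit 85) (nat_lit 4) (nat_lit 121) (nat_lit 197) (nat_lit 192))) (PT.nd (nat_lit 78) (PT.lf (nat_lit 6460) (nat_lit 6) (nat_lit 85) (nat_lit 2) (nat_lit 192) (nat_lit 197) (nat_lit 121)) (PT.nd (nat_lit 78) (PT.lf (nat_lit 6232) (nat_lit 6) (nat_lit 82) (nat_lit 2) (nat_lit 193) (nat_lit 197) (nat_lit 120)) (PT.lf (nat_lit 6080) (nat_lit 6) (nat_lit 80) (nat_lit 2) (nat_lit 194) (nat_lit 197) (nat_lit 119))))))))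
noncomputable def pc57 : PT := (PT.nd (nat_lit 53196) (PT.nd (nat_lit 46644) (PT.nd (nat_lit 312) (PT.nd (nat_lit 156) (PT.nd (nat_lit 78) (PT.lf (nat_lit 5928) (nat_lit 6) (nat_lit 78) (nat_lit 2) (nat_lit 195) (nat_lit 197) (nat_lit 118)) (PT.lf (nat_lit 5776) (nat_lit 6) (nat_lit 76) (nat_lit 2) (nat_lit 196) (nat_lit 197) (nat_lit 117))) (PT.nd (nat_lit 78) (PT.lf (nat_lit 5624) (nat_lit 3) (nat_lit 74) (nat_lit 0) (nat_lit 197) (nat_lit 197) (nat_lit 116)) (PT.lf (nat_lit 5396) (nat_lit 6) (nat_lit 71) (nat_lit 0) (nat_lit 198) (nat_lit 197) (nat_lit 115)))) (PT.nd (nat_lit 156) (PT.nd (nat_lit 78) (PT.lf (nat_lit 5168) (nat_lit 6) (nat_lit 68) (nat_lit 0) (nat_lit 199) (nat_lit 197) (nat_lit 114)) (PT.lf (nat_lit 4940) (nat_lit 6) (nat_lit 65) (nat_lit 0) (nat_lit 200) (nat_lit 197) (nat_lit 113))) (PT.nd (nat_lit 46098) (PT.lf (nat_lit 4712) (nat_lit 6) (nat_lit 62) (nat_lit 0) (nat_lit 201) (nat_lit 197)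 (nat_lit 112)) (PT.lf (nat_lit 4560) (nat_lit 6) (nat_lit 60) (nat_lit 5) (nat_lit 111) (nat_lit 198) (nat_lit 201))))) (PT.nd (nat_lit 312) (PT.nd (nat_lit 156) (PT.nd (nat_lit 78) (PT.lf (nat_lit 4788) (nat_lit 6) (nat_lit 63) (nat_lit 5) (nat_lit 112) (nat_lit 198) (nat_lit 200)) (PT.lf (nat_lit 5016) (nat_lit 6) (nat_lit 66) (nat_lit 5) (nat_lit 113) (nat_lit 198) (nat_lit 199))) (PT.nd (nat_lit 78) (PT.lf (nat_lit 5244) (nat_lit 3) (nat_lit 69) (nat_lit 4) (nat_lit 114) (nat_lit 198) (nat_lit 198)) (PT.lf (nat_lit 5396) (nat_lit 6) (nat_lit 71) (nat_lit 4) (nat_lit 115) (nat_lit 198) (nat_lit 197)))) (PT.nd (nat_lit 156) (PT.nd (nat_lit 78) (PT.lf (nat_lit 5548) (nat_lit 6) (nat_lit 73) (nat_lit 4) (nat_lit 116) (nat_lit 198) (nat_lit 196)) (PT.lf (nat_lit 5700) (nat_lit 6) (nat_lit 75) (nat_lit 4) (nat_lit 117) (nat_lit 198) (nat_lit 195))) (PT.nd (nat_lit 5928) (PT.lf (nat_lit 5852) (nat_lit 6) (nat_lit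 77) (nat_lit 4) (nat_lit 118) (nat_lit 198) (nat_lit 194)) (PT.nd (nat_lit 78) (PT.lf (nat_lit 5852) (nat_lit 6) (nat_lit 77) (nat_lit 2) (nat_lit 194) (nat_lit 198) (nat_lit 118)) (PT.lf (nat_lit 5700) (nat_lit 6) (nat_lit 75) (nat_lit 2) (nat_lit 195) (nat_lit 198) (nat_lit 117))))))) (PT.nd (nat_lit 46566) (PT.nd (nat_lit 312) (PT.nd (nat_lit 156) (PT.nd (nat_lit 78) (PT.lf (nat_lit 5548) (nat_lit 6) (nat_lit 73) (nat_lit 2) (nat_lit 196) (nat_lit 198) (nat_lit 116)) (PT.lf (nat_lit 5396) (nat_lit 6) (nat_lit 71) (nat_lit 2) (nat_lit 197) (nat_lit 198) (nat_lit 115))) (PT.nd (nat_lit 78) (PT.lf (nat_lit 5244) (nat_lit 3) (nat_lit 69) (nat_lit 0) (nat_lit 198) (nat_lit 198) (nat_lit 114)) (PT.lf (nat_lit 5016) (nat_lit 6) (nat_lit 66) (nat_lit 0) (nat_lit 199) (nat_lit 198) (nat_lit 113)))) (PT.nd (nat_lit 46020) (PT.nd (nat_lit 78) (PT.lf (nat_lit 4788) (nat_lit 6) (nat_lit 63) (nat_lit 0) (nat_lit 200) (nat_lit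 198) (nat_lit 112)) (PT.lf (nat_lit 4560) (nat_lit 6) (nat_lit 60) (nat_lit 0) (nat_lit 201) (nat_lit 198) (nat_lit 111))) (PT.nd (nat_lit 78) (PT.lf (nat_lit 4256) (nat_lit 6) (nat_lit 56) (nat_lit 5) (nat_lit 109) (nat_lit 199) (nat_lit 202)) (PT.nd (nat_lit 78) (PT.lf (nat_lit 4408) (nat_lit 6) (nat_lit 58) (nat_lit 5) (nat_lit 110) (nat_lit 199) (nat_lit 201)) (PT.lf (nat_lit 4636) (nat_lit 6) (nat_lit 61) (nat_lit 5) (nat_lit 111) (nat_lit 199) (nat_lit 200)))))) (PT.nd (nat_lit 312) (PT.nd (nat_lit 156) (PT.nd (nat_lit 78) (PT.lf (nat_lit 4864) (nat_lit 3) (nat_lit 64) (nat_lit 4) (nat_lit 112) (nat_lit 199) (nat_lit 199)) (PT.lf (nat_lit 5016) (nat_lit 6) (nat_lit 66) (nat_lit 4) (nat_lit 113) (nat_lit 199) (nat_lit 198))) (PT.nd (nat_lit 78) (PT.lf (nat_lit 5168) (nat_lit 6) (nat_lit 68) (nat_lit 4) (nat_lit 114) (nat_lit 199) (nat_lit 197)) (PT.lf (nat_lit 5320) (nat_lit 6) (nat_lit 70) (nat_lit 4) (nat_lit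 115) (nat_lit 199) (nat_lit 196)))) (PT.nd (nat_lit 6240) (PT.nd (nat_lit 6162) (PT.lf (nat_lit 5472) (nat_lit 6) (nat_lit 72) (nat_lit 4) (nat_lit 116) (nat_lit 199) (nat_lit 195)) (PT.lf (nat_lit 5472) (nat_lit 6) (nat_lit 72) (nat_lit 2) (nat_lit 195) (nat_lit 199) (nat_lit 116))) (PT.nd (nat_lit 78) (PT.lf (nat_lit 5320) (nat_lit 6) (nat_lit 70) (nat_lit 2) (nat_lit 196) (nat_lit 199) (nat_lit 115)) (PT.nd (nat_lit 78) (PT.lf (nat_lit 5168) (nat_lit 6) (nat_lit 68) (nat_lit 2) (nat_lit 197) (nat_lit 199) (nat_lit 114)) (PT.lf (nat_lit 5016) (nat_lit 6) (nat_lit 66) (nat_lit 2) (nat_lit 198) (nat_lit 199) (nat_lit 113))))))))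
noncomputable def pc58 : PT := (PT.nd (nat_lit 53274) (PT.nd (nat_lit 46254) (PT.nd (nat_lit 45942) (PT.nd (nat_lit 156) (PT.nd (nat_lit 78) (PT.lf (nat_lit 4864) (nat_lit 3) (nat_lit 64) (nat_lit 0) (nat_lit 199) (nat_lit 199) (nat_lit 112)) (PT.lf (nat_lit 4636) (nat_lit 6) (nat_lit 61) (nat_lit 0) (nat_lit 200) (nat_lit 199) (nat_lit 111))) (PT.nd (nat_lit 78) (PT.lf (nat_lit 4408) (nat_lit 6) (nat_lit 58) (nat_lit 0) (nat_lit 201) (nat_lit 199) (nat_lit 110)) (PT.lf (nat_lit 4256) (nat_lit 6) (nat_lit 56) (nat_lit 0) (nat_lit 202) (nat_lit 199) (nat_lit 109)))) (PT.nd (nat_lit 156) (PT.nd (nat_lit 78) (PT.lf (nat_lit 3952) (nat_lit 6) (nat_lit 52) (nat_lit 5) (nat_lit 107) (nat_lit 200) (nat_lit 203)) (PT.lf (nat_lit 4104) (nat_lit 6) (nat_lit 54) (nat_lit 5) (nat_lit 108) (nat_lit 200) (nat_lit 202))) (PT.nd (nat_lit 78) (PT.lf (nat_lit 4332) (nat_lit 6) (nat_lit 57) (nat_lit 5) (nat_lit 109) (nat_lit 200)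 (nat_lit 201)) (PT.lf (nat_lit 4484) (nat_lit 3) (nat_lit 59) (nat_lit 4) (nat_lit 110) (nat_lit 200) (nat_lit 200))))) (PT.nd (nat_lit 6630) (PT.nd (nat_lit 156) (PT.nd (nat_lit 78) (PT.lf (nat_lit 4636) (nat_lit 6) (nat_lit 61) (nat_lit 4) (nat_lit 111) (nat_lit 200) (nat_lit 199)) (PT.lf (nat_lit 4788) (nat_lit 6) (nat_lit 63) (nat_lit 4) (nat_lit 112) (nat_lit 200) (nat_lit 198))) (PT.nd (nat_lit 78) (PT.lf (nat_lit 4940) (nat_lit 6) (nat_lit 65) (nat_lit 4) (nat_lit 113) (nat_lit 200) (nat_lit 197)) (PT.lf (nat_lit 5092) (nat_lit 6) (nat_lit 67) (nat_lit 4) (nat_lit 114) (nat_lit 200) (nat_lit 196)))) (PT.nd (nat_lit 156) (PT.nd (nat_lit 78) (PT.lf (nat_lit 5092) (nat_lit 6) (nat_lit 67) (nat_lit 2) (nat_lit 196) (nat_lit 200) (nat_lit 114)) (PT.lf (nat_lit 4940) (nat_lit 6) (nat_lit 65) (nat_lit 2) (nat_lit 197) (nat_lit 200) (nat_lit 113))) (PT.nd (nat_lit 78) (PT.lf (nat_lit 4788) (nat_lit 6) (nat_lit 63)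 (nat_lit 2) (nat_lit 198) (nat_lit 200) (nat_lit 112)) (PT.nd (nat_lit 78) (PT.lf (nat_lit 4636) (nat_lit 6) (nat_lit 61) (nat_lit 2) (nat_lit 199) (nat_lit 200) (nat_lit 111)) (PT.lf (nat_lit 4484) (nat_lit 3) (nat_lit 59) (nat_lit 0) (nat_lit 200) (nat_lit 200) (nat_lit 110))))))) (PT.nd (nat_lit 46098) (PT.nd (nat_lit 45708) (PT.nd (nat_lit 156) (PT.nd (nat_lit 78) (PT.lf (nat_lit 4332) (nat_lit 6) (nat_lit 57) (nat_lit 0) (nat_lit 201) (nat_lit 200) (nat_lit 109)) (PT.lf (nat_lit 4104) (nat_lit 6) (nat_lit 54) (nat_lit 0) (nat_lit 202) (nat_lit 200) (nat_lit 108))) (PT.nd (nat_lit 45474) (PT.lf (nat_lit 3952) (nat_lit 6) (nat_lit 52) (nat_lit 0) (nat_lit 203) (nat_lit 200) (nat_lit 107)) (PT.lf (nat_lit 3648) (nat_lit 6) (nat_lit 48) (nat_lit 5) (nat_lit 105) (nat_lit 201) (nat_lit 204)))) (PT.nd (nat_lit 156) (PT.nd (nat_lit 78) (PT.lf (nat_lit 3800) (nat_lit 6) (nat_lit 50) (nat_lit 5) (nat_lit 106) (nat_lit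 201) (nat_lit 203)) (PT.lf (nat_lit 4028) (nat_lit 6) (nat_lit 53) (nat_lit 5) (nat_lit 107) (nat_lit 201) (nat_lit 202))) (PT.nd (nat_lit 78) (PT.lf (nat_lit 4180) (nat_lit 3) (nat_lit 55) (nat_lit 4) (nat_lit 108) (nat_lit 201) (nat_lit 201)) (PT.nd (nat_lit 78) (PT.lf (nat_lit 4332) (nat_lit 6) (nat_lit 57) (nat_lit 4) (nat_lit 109) (nat_lit 201) (nat_lit 200)) (PT.lf (nat_lit 4408) (nat_lit 6) (nat_lit 58) (nat_lit 4) (nat_lit 110) (nat_lit 201) (nat_lit 199)))))) (PT.nd (nat_lit 6864) (PT.nd (nat_lit 6708) (PT.nd (nat_lit 78) (PT.lf (nat_lit 4560) (nat_lit 6) (nat_lit 60) (nat_lit 4) (nat_lit 111) (nat_lit 201) (nat_lit 198)) (PT.lf (nat_lit 4712) (nat_lit 6) (nat_lit 62) (nat_lit 4) (nat_lit 112) (nat_lit 201) (nat_lit 197))) (PT.nd (nat_lit 78) (PT.lf (nat_lit 4712) (nat_lit 6) (nat_lit 62) (nat_lit 2) (nat_lit 197) (nat_lit 201) (nat_lit 112)) (PT.lf (nat_lit 4560) (nat_lit 6) (nat_lit 60) (nat_lit 2) (nat_lit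 198) (nat_lit 201) (nat_lit 111)))) (PT.nd (nat_lit 156) (PT.nd (nat_lit 78) (PT.lf (nat_lit 4408) (nat_lit 6) (nat_lit 58) (nat_lit 2) (nat_lit 199) (nat_lit 201) (nat_lit 110)) (PT.lf (nat_lit 4332) (nat_lit 6) (nat_lit 57) (nat_lit 2) (nat_lit 200) (nat_lit 201) (nat_lit 109))) (PT.nd (nat_lit 78) (PT.lf (nat_lit 4180) (nat_lit 3) (nat_lit 55) (nat_lit 0) (nat_lit 201) (nat_lit 201) (nat_lit 108)) (PT.nd (nat_lit 78) (PT.lf (nat_lit 4028) (nat_lit 6) (nat_lit 53) (nat_lit 0) (nat_lit 202) (nat_lit 201) (nat_lit 107)) (PT.lf (nat_lit 3800) (nat_lit 6) (nat_lit 50) (nat_lit 0) (nat_lit 203) (nat_lit 201) (nat_lit 106))))))))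
noncomputable def pc59 : PT := (PT.nd (nat_lit 98358) (PT.nd (nat_lit 52728) (PT.nd (nat_lit 45474) (PT.nd (nat_lit 45318) (PT.nd (nat_lit 45240) (PT.lf (nat_lit 3648) (nat_lit 6) (nat_lit 48) (nat_lit 0) (nat_lit 204) (nat_lit 201) (nat_lit 105)) (PT.lf (nat_lit 3344) (nat_lit 6) (nat_lit 44) (nat_lit 5) (nat_lit 103) (nat_lit 202) (nat_lit 205))) (PT.nd (nat_lit 78) (PT.lf (nat_lit 3496) (nat_lit 6) (nat_lit 46) (nat_lit 5) (nat_lit 104) (nat_lit 202) (nat_lit 204)) (PT.lf (nat_lit 3724) (nat_lit 6) (nat_lit 49) (nat_lit 5) (nat_lit 105) (nat_lit 202) (nat_lit 203)))) (PT.nd (nat_lit 156) (PT.nd (nat_lit 78) (PT.lf (nat_lit 3876) (nat_lit 3) (nat_lit 51) (nat_lit 4) (nat_lit 106) (nat_lit 202) (nat_lit 202)) (PT.lf (nat_lit 4028) (nat_lit 6) (nat_lit 53) (nat_lit 4) (nat_lit 107) (nat_lit 202) (nat_lit 201))) (PT.nd (nat_lit 78) (PT.lf (nat_lit 4104) (nat_lit 6) (nat_lit 54) (nat_lit 4) (nat_lit 108) (nat_lit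 202) (nat_lit 200)) (PT.lf (nat_lit 4256) (nat_lit 6) (nat_lit 56) (nat_lit 4) (nat_lit 109) (nat_lit 202) (nat_lit 199))))) (PT.nd (nat_lit 312) (PT.nd (nat_lit 156) (PT.nd (nat_lit 78) (PT.lf (nat_lit 4256) (nat_lit 6) (nat_lit 56) (nat_lit 2) (nat_lit 199) (nat_lit 202) (nat_lit 109)) (PT.lf (nat_lit 4104) (nat_lit 6) (nat_lit 54) (nat_lit 2) (nat_lit 200) (nat_lit 202) (nat_lit 108))) (PT.nd (nat_lit 78) (PT.lf (nat_lit 4028) (nat_lit 6) (nat_lit 53) (nat_lit 2) (nat_lit 201) (nat_lit 202) (nat_lit 107)) (PT.lf (nat_lit 3876) (nat_lit 3) (nat_lit 51) (nat_lit 0) (nat_lit 202) (nat_lit 202) (nat_lit 106)))) (PT.nd (nat_lit 156) (PT.nd (nat_lit 78) (PT.lf (nat_lit 3724) (nat_lit 6) (nat_lit 49) (nat_lit 0) (nat_lit 203) (nat_lit 202) (nat_lit 105)) (PT.lf (nat_lit 3496) (nat_lit 6) (nat_lit 46) (nat_lit 0) (nat_lit 204) (nat_lit 202) (nat_lit 104))) (PT.nd (nat_lit 45006) (PT.lf (nat_lit 3344) (nat_lit 6) (nat_lit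 44) (nat_lit 0) (nat_lit 205) (nat_lit 202) (nat_lit 103)) (PT.nd (nat_lit 78) (PT.lf (nat_lit 3040) (nat_lit 6) (nat_lit 40) (nat_lit 5) (nat_lit 101) (nat_lit 203) (nat_lit 206)) (PT.lf (nat_lit 3192) (nat_lit 6) (nat_lit 42) (nat_lit 5) (nat_lit 102) (nat_lit 203) (nat_lit 205))))))) (PT.nd (nat_lit 7878) (PT.nd (nat_lit 312) (PT.nd (nat_lit 156) (PT.nd (nat_lit 78) (PT.lf (nat_lit 3420) (nat_lit 6) (nat_lit 45) (nat_lit 5) (nat_lit 103) (nat_lit 203) (nat_lit 204)) (PT.lf (nat_lit 3572) (nat_lit 3) (nat_lit 47) (nat_lit 4) (nat_lit 104) (nat_lit 203) (nat_lit 203))) (PT.nd (nat_lit 78) (PT.lf (nat_lit 3724) (nat_lit 6) (nat_lit 49) (nat_lit 4) (nat_lit 105) (nat_lit 203) (nat_lit 202)) (PT.lf (nat_lit 3800) (nat_lit 6) (nat_lit 50) (nat_lit 4) (nat_lit 106) (nat_lit 203) (nat_lit 201)))) (PT.nd (nat_lit 7332) (PT.nd (nat_lit 7254) (PT.lf (nat_lit 3952) (nat_lit 6) (nat_lit 52) (nat_lit 4) (nat_lit 107) (nat_lit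 203) (nat_lit 200)) (PT.lf (nat_lit 3952) (nat_lit 6) (nat_lit 52) (nat_lit 2) (nat_lit 200) (nat_lit 203) (nat_lit 107))) (PT.nd (nat_lit 78) (PT.lf (nat_lit 3800) (nat_lit 6) (nat_lit 50) (nat_lit 2) (nat_lit 201) (nat_lit 203) (nat_lit 106)) (PT.nd (nat_lit 78) (PT.lf (nat_lit 3724) (nat_lit 6) (nat_lit 49) (nat_lit 2) (nat_lit 202) (nat_lit 203) (nat_lit 105)) (PT.lf (nat_lit 3572) (nat_lit 3) (nat_lit 47) (nat_lit 0) (nat_lit 203) (nat_lit 203) (nat_lit 104)))))) (PT.nd (nat_lit 45084) (PT.nd (nat_lit 156) (PT.nd (nat_lit 78) (PT.lf (nat_lit 3420) (nat_lit 6) (nat_lit 45) (nat_lit 0) (nat_lit 204) (nat_lit 203) (nat_lit 103)) (PT.lf (nat_lit 3192) (nat_lit 6) (nat_lit 42) (nat_lit 0) (nat_lit 205) (nat_lit 203) (nat_lit 102))) (PT.nd (nat_lit 44850) (PT.lf (nat_lit 3040) (nat_lit 6) (nat_lit 40) (nat_lit 0) (nat_lit 206) (nat_lit 203) (nat_lit 101)) (PT.lf (nat_lit 2888) (nat_lit 6) (nat_lit 38) (nat_lit 5)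 (nat_lit 100) (nat_lit 204) (nat_lit 206)))) (PT.nd (nat_lit 156) (PT.nd (nat_lit 78) (PT.lf (nat_lit 3116) (nat_lit 6) (nat_lit 41) (nat_lit 5) (nat_lit 101) (nat_lit 204) (nat_lit 205)) (PT.lf (nat_lit 3268) (nat_lit 3) (nat_lit 43) (nat_lit 4) (nat_lit 102) (nat_lit 204) (nat_lit 204))) (PT.nd (nat_lit 78) (PT.lf (nat_lit 3420) (nat_lit 6) (nat_lit 45) (nat_lit 4) (nat_lit 103) (nat_lit 204) (nat_lit 203)) (PT.nd (nat_lit 78) (PT.lf (nat_lit 3496) (nat_lit 6) (nat_lit 46) (nat_lit 4) (nat_lit 104) (nat_lit 204) (nat_lit 202)) (PT.lf (nat_lit 3648) (nat_lit 6) (nat_lit 48) (nat_lit 4) (nat_lit 105) (nat_lit 204) (nat_lit 201))))))))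
noncomputable def pc60 : PT := (PT.nd (nat_lit 53586) (PT.nd (nat_lit 45240) (PT.nd (nat_lit 312) (PT.nd (nat_lit 156) (PT.nd (nat_lit 78) (PT.lf (nat_lit 3648) (nat_lit 6) (nat_lit 48) (nat_lit 2) (nat_lit 201) (nat_lit 204) (nat_lit 105)) (PT.lf (nat_lit 3496) (nat_lit 6) (nat_lit 46) (nat_lit 2) (nat_lit 202) (nat_lit 204) (nat_lit 104))) (PT.nd (nat_lit 78) (PT.lf (nat_lit 3420) (nat_lit 6) (nat_lit 45) (nat_lit 2) (nat_lit 203) (nat_lit 204) (nat_lit 103)) (PT.lf (nat_lit 3268) (nat_lit 3) (nat_lit 43) (nat_lit 0) (nat_lit 204) (nat_lit 204) (nat_lit 102)))) (PT.nd (nat_lit 44772) (PT.nd (nat_lit 78) (PT.lf (nat_lit 3116) (nat_lit 6) (nat_lit 41) (nat_lit 0) (nat_lit 205) (nat_lit 204) (nat_lit 101)) (PT.lf (nat_lit 2888) (nat_lit 6) (nat_lit 38) (nat_lit 0) (nat_lit 206) (nat_lit 204) (nat_lit 100))) (PT.nd (nat_lit 78) (PT.lf (nat_lit 2660) (nat_lit 6) (nat_lit 35) (nat_lit 5) (nat_lit 98) (nat_lit 205)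 (nat_lit 207)) (PT.lf (nat_lit 2812) (nat_lit 6) (nat_lit 37) (nat_lit 5) (nat_lit 99) (nat_lit 205) (nat_lit 206))))) (PT.nd (nat_lit 7956) (PT.nd (nat_lit 156) (PT.nd (nat_lit 78) (PT.lf (nat_lit 2964) (nat_lit 3) (nat_lit 39) (nat_lit 4) (nat_lit 100) (nat_lit 205) (nat_lit 205)) (PT.lf (nat_lit 3116) (nat_lit 6) (nat_lit 41) (nat_lit 4) (nat_lit 101) (nat_lit 205) (nat_lit 204))) (PT.nd (nat_lit 78) (PT.lf (nat_lit 3192) (nat_lit 6) (nat_lit 42) (nat_lit 4) (nat_lit 102) (nat_lit 205) (nat_lit 203)) (PT.lf (nat_lit 3344) (nat_lit 6) (nat_lit 44) (nat_lit 4) (nat_lit 103) (nat_lit 205) (nat_lit 202)))) (PT.nd (nat_lit 156) (PT.nd (nat_lit 78) (PT.lf (nat_lit 3344) (nat_lit 6) (nat_lit 44) (nat_lit 2) (nat_lit 202) (nat_lit 205) (nat_lit 103)) (PT.lf (nat_lit 3192) (nat_lit 6) (nat_lit 42) (nat_lit 2) (nat_lit 203) (nat_lit 205) (nat_lit 102))) (PT.nd (nat_lit 78) (PT.lf (nat_lit 3116) (nat_lit 6) (nat_lit 41)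 (nat_lit 2) (nat_lit 204) (nat_lit 205) (nat_lit 101)) (PT.nd (nat_lit 78) (PT.lf (nat_lit 2964) (nat_lit 3) (nat_lit 39) (nat_lit 0) (nat_lit 205) (nat_lit 205) (nat_lit 100)) (PT.lf (nat_lit 2812) (nat_lit 6) (nat_lit 37) (nat_lit 0) (nat_lit 206) (nat_lit 205) (nat_lit 99))))))) (PT.nd (nat_lit 52962) (PT.nd (nat_lit 44694) (PT.nd (nat_lit 44538) (PT.nd (nat_lit 44460) (PT.lf (nat_lit 2660) (nat_lit 6) (nat_lit 35) (nat_lit 0) (nat_lit 207) (nat_lit 205) (nat_lit 98)) (PT.lf (nat_lit 2432) (nat_lit 6) (nat_lit 32) (nat_lit 5) (nat_lit 96) (nat_lit 206) (nat_lit 208))) (PT.nd (nat_lit 78) (PT.lf (nat_lit 2584) (nat_lit 6) (nat_lit 34) (nat_lit 5) (nat_lit 97) (nat_lit 206) (nat_lit 207)) (PT.lf (nat_lit 2736) (nat_lit 3) (nat_lit 36) (nat_lit 4) (nat_lit 98) (nat_lit 206) (nat_lit 206)))) (PT.nd (nat_lit 156) (PT.nd (nat_lit 78) (PT.lf (nat_lit 2812) (nat_lit 6) (nat_lit 37) (nat_lit 4) (nat_lit 99) (nat_lit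 206) (nat_lit 205)) (PT.lf (nat_lit 2888) (nat_lit 6) (nat_lit 38) (nat_lit 4) (nat_lit 100) (nat_lit 206) (nat_lit 204))) (PT.nd (nat_lit 7956) (PT.lf (nat_lit 3040) (nat_lit 6) (nat_lit 40) (nat_lit 4) (nat_lit 101) (nat_lit 206) (nat_lit 203)) (PT.nd (nat_lit 78) (PT.lf (nat_lit 3040) (nat_lit 6) (nat_lit 40) (nat_lit 2) (nat_lit 203) (nat_lit 206) (nat_lit 101)) (PT.lf (nat_lit 2888) (nat_lit 6) (nat_lit 38) (nat_lit 2) (nat_lit 204) (nat_lit 206) (nat_lit 100)))))) (PT.nd (nat_lit 44460) (PT.nd (nat_lit 156) (PT.nd (nat_lit 78) (PT.lf (nat_lit 2812) (nat_lit 6) (nat_lit 37) (nat_lit 2) (nat_lit 205) (nat_lit 206) (nat_lit 99)) (PT.lf (nat_lit 2736) (nat_lit 3) (nat_lit 36) (nat_lit 0) (nat_lit 206) (nat_lit 206) (nat_lit 98))) (PT.nd (nat_lit 78) (PT.lf (nat_lit 2584) (nat_lit 6) (nat_lit 34) (nat_lit 0) (nat_lit 207) (nat_lit 206) (nat_lit 97)) (PT.lf (nat_lit 2432) (nat_lit 6) (nat_lit 32) (nat_lit 0) (nat_lit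 208) (nat_lit 206) (nat_lit 96)))) (PT.nd (nat_lit 156) (PT.nd (nat_lit 78) (PT.lf (nat_lit 2204) (nat_lit 6) (nat_lit 29) (nat_lit 5) (nat_lit 94) (nat_lit 207) (nat_lit 209)) (PT.lf (nat_lit 2356) (nat_lit 6) (nat_lit 31) (nat_lit 5) (nat_lit 95) (nat_lit 207) (nat_lit 208))) (PT.nd (nat_lit 78) (PT.lf (nat_lit 2508) (nat_lit 3) (nat_lit 33) (nat_lit 4) (nat_lit 96) (nat_lit 207) (nat_lit 207)) (PT.nd (nat_lit 78) (PT.lf (nat_lit 2584) (nat_lit 6) (nat_lit 34) (nat_lit 4) (nat_lit 97) (nat_lit 207) (nat_lit 206)) (PT.lf (nat_lit 2660) (nat_lit 6) (nat_lit 35) (nat_lit 4) (nat_lit 98) (nat_lit 207) (nat_lit 205))))))))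
noncomputable def pc61 : PT := (PT.nd (nat_lit 97422) (PT.nd (nat_lit 44538) (PT.nd (nat_lit 312) (PT.nd (nat_lit 156) (PT.nd (nat_lit 78) (PT.lf (nat_lit 2660) (nat_lit 6) (nat_lit 35) (nat_lit 2) (nat_lit 205) (nat_lit 207) (nat_lit 98)) (PT.lf (nat_lit 2584) (nat_lit 6) (nat_lit 34) (nat_lit 2) (nat_lit 206) (nat_lit 207) (nat_lit 97))) (PT.nd (nat_lit 78) (PT.lf (nat_lit 2508) (nat_lit 3) (nat_lit 33) (nat_lit 0) (nat_lit 207) (nat_lit 207) (nat_lit 96)) (PT.lf (nat_lit 2356) (nat_lit 6) (nat_lit 31) (nat_lit 0) (nat_lit 208) (nat_lit 207) (nat_lit 95)))) (PT.nd (nat_lit 44070) (PT.nd (nat_lit 43992) (PT.lf (nat_lit 2204) (nat_lit 6) (nat_lit 29) (nat_lit 0) (nat_lit 209) (nat_lit 207) (nat_lit 94)) (PT.lf (nat_lit 1976) (nat_lit 6) (nat_lit 26) (nat_lit 5) (nat_lit 92) (nat_lit 208) (nat_lit 210))) (PT.nd (nat_lit 78) (PT.lf (nat_lit 2128) (nat_lit 6) (nat_lit 28) (nat_lit 5) (nat_lit 93) (nat_lit 208) (nat_lit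 209)) (PT.lf (nat_lit 2280) (nat_lit 3) (nat_lit 30) (nat_lit 4) (nat_lit 94) (nat_lit 208) (nat_lit 208))))) (PT.nd (nat_lit 8814) (PT.nd (nat_lit 8658) (PT.nd (nat_lit 78) (PT.lf (nat_lit 2356) (nat_lit 6) (nat_lit 31) (nat_lit 4) (nat_lit 95) (nat_lit 208) (nat_lit 207)) (PT.lf (nat_lit 2432) (nat_lit 6) (nat_lit 32) (nat_lit 4) (nat_lit 96) (nat_lit 208) (nat_lit 206))) (PT.nd (nat_lit 78) (PT.lf (nat_lit 2432) (nat_lit 6) (nat_lit 32) (nat_lit 2) (nat_lit 206) (nat_lit 208) (nat_lit 96)) (PT.lf (nat_lit 2356) (nat_lit 6) (nat_lit 31) (nat_lit 2) (nat_lit 207) (nat_lit 208) (nat_lit 95)))) (PT.nd (nat_lit 156) (PT.nd (nat_lit 78) (PT.lf (nat_lit 2280) (nat_lit 3) (nat_lit 30) (nat_lit 0) (nat_lit 208) (nat_lit 208) (nat_lit 94)) (PT.lf (nat_lit 2128) (nat_lit 6) (nat_lit 28) (nat_lit 0) (nat_lit 209) (nat_lit 208) (nat_lit 93))) (PT.nd (nat_lit 43758) (PT.lf (nat_lit 1976) (nat_lit 6) (nat_lit 26) (nat_lit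 0) (nat_lit 210) (nat_lit 208) (nat_lit 92)) (PT.nd (nat_lit 78) (PT.lf (nat_lit 1748) (nat_lit 6) (nat_lit 23) (nat_lit 5) (nat_lit 90) (nat_lit 209) (nat_lit 211)) (PT.lf (nat_lit 1900) (nat_lit 6) (nat_lit 25) (nat_lit 5) (nat_lit 91) (nat_lit 209) (nat_lit 210))))))) (PT.nd (nat_lit 52884) (PT.nd (nat_lit 9048) (PT.nd (nat_lit 156) (PT.nd (nat_lit 78) (PT.lf (nat_lit 2052) (nat_lit 3) (nat_lit 27) (nat_lit 4) (nat_lit 92) (nat_lit 209) (nat_lit 209)) (PT.lf (nat_lit 2128) (nat_lit 6) (nat_lit 28) (nat_lit 4) (nat_lit 93) (nat_lit 209) (nat_lit 208))) (PT.nd (nat_lit 8814) (PT.lf (nat_lit 2204) (nat_lit 6) (nat_lit 29) (nat_lit 4) (nat_lit 94) (nat_lit 209) (nat_lit 207)) (PT.lf (nat_lit 2204) (nat_lit 6) (nat_lit 29) (nat_lit 2) (nat_lit 207) (nat_lit 209) (nat_lit 94)))) (PT.nd (nat_lit 156) (PT.nd (nat_lit 78) (PT.lf (nat_lit 2128) (nat_lit 6) (nat_lit 28) (nat_lit 2) (nat_lit 208) (nat_lit 209) (nat_lit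 93)) (PT.lf (nat_lit 2052) (nat_lit 3) (nat_lit 27) (nat_lit 0) (nat_lit 209) (nat_lit 209) (nat_lit 92))) (PT.nd (nat_lit 78) (PT.lf (nat_lit 1900) (nat_lit 6) (nat_lit 25) (nat_lit 0) (nat_lit 210) (nat_lit 209) (nat_lit 91)) (PT.nd (nat_lit 43524) (PT.lf (nat_lit 1748) (nat_lit 6) (nat_lit 23) (nat_lit 0) (nat_lit 211) (nat_lit 209) (nat_lit 90)) (PT.lf (nat_lit 1520) (nat_lit 6) (nat_lit 20) (nat_lit 5) (nat_lit 88) (nat_lit 210) (nat_lit 212)))))) (PT.nd (nat_lit 9282) (PT.nd (nat_lit 156) (PT.nd (nat_lit 78) (PT.lf (nat_lit 1672) (nat_lit 6) (nat_lit 22) (nat_lit 5) (nat_lit 89) (nat_lit 210) (nat_lit 211)) (PT.lf (nat_lit 1824) (nat_lit 3) (nat_lit 24) (nat_lit 4) (nat_lit 90) (nat_lit 210) (nat_lit 210))) (PT.nd (nat_lit 78) (PT.lf (nat_lit 1900) (nat_lit 6) (nat_lit 25) (nat_lit 4) (nat_lit 91) (nat_lit 210) (nat_lit 209)) (PT.lf (nat_lit 1976) (nat_lit 6) (nat_lit 26) (nat_lit 4) (nat_lit 92) (nat_lit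 210) (nat_lit 208)))) (PT.nd (nat_lit 156) (PT.nd (nat_lit 78) (PT.lf (nat_lit 1976) (nat_lit 6) (nat_lit 26) (nat_lit 2) (nat_lit 208) (nat_lit 210) (nat_lit 92)) (PT.lf (nat_lit 1900) (nat_lit 6) (nat_lit 25) (nat_lit 2) (nat_lit 209) (nat_lit 210) (nat_lit 91))) (PT.nd (nat_lit 78) (PT.lf (nat_lit 1824) (nat_lit 3) (nat_lit 24) (nat_lit 0) (nat_lit 210) (nat_lit 210) (nat_lit 90)) (PT.nd (nat_lit 78) (PT.lf (nat_lit 1672) (nat_lit 6) (nat_lit 22) (nat_lit 0) (nat_lit 211) (nat_lit 210) (nat_lit 89)) (PT.lf (nat_lit 1520) (nat_lit 6) (nat_lit 20) (nat_lit 0) (nat_lit 212) (nat_lit 210) (nat_lit 88))))))))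
noncomputable def pc62 : PT := (PT.nd (nat_lit 62946) (PT.nd (nat_lit 9828) (PT.nd (nat_lit 312) (PT.nd (nat_lit 156) (PT.nd (nat_lit 78) (PT.lf (nat_lit 1292) (nat_lit 6) (nat_lit 17) (nat_lit 5) (nat_lit 86) (nat_lit 211) (nat_lit 213)) (PT.lf (nat_lit 1444) (nat_lit 6) (nat_lit 19) (nat_lit 5) (nat_lit 87) (nat_lit 211) (nat_lit 212))) (PT.nd (nat_lit 78) (PT.lf (nat_lit 1596) (nat_lit 3) (nat_lit 21) (nat_lit 4) (nat_lit 88) (nat_lit 211) (nat_lit 211)) (PT.lf (nat_lit 1672) (nat_lit 6) (nat_lit 22) (nat_lit 4) (nat_lit 89) (nat_lit 211) (nat_lit 210)))) (PT.nd (nat_lit 9360) (PT.nd (nat_lit 9282) (PT.lf (nat_lit 1748) (nat_lit 6) (nat_lit 23) (nat_lit 4) (nat_lit 90) (nat_lit 211) (nat_lit 209)) (PT.lf (nat_lit 1748) (nat_lit 6) (nat_lit 23) (nat_lit 2) (nat_lit 209) (nat_lit 211) (nat_lit 90))) (PT.nd (nat_lit 78) (PT.lf (nat_lit 1672) (nat_lit 6) (nat_lit 22) (nat_lit 2) (nat_lit 210) (nat_lit 211) (nat_lit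 89)) (PT.lf (nat_lit 1596) (nat_lit 3) (nat_lit 21) (nat_lit 0) (nat_lit 211) (nat_lit 211) (nat_lit 88))))) (PT.nd (nat_lit 43290) (PT.nd (nat_lit 43134) (PT.nd (nat_lit 78) (PT.lf (nat_lit 1444) (nat_lit 6) (nat_lit 19) (nat_lit 0) (nat_lit 212) (nat_lit 211) (nat_lit 87)) (PT.lf (nat_lit 1292) (nat_lit 6) (nat_lit 17) (nat_lit 0) (nat_lit 213) (nat_lit 211) (nat_lit 86))) (PT.nd (nat_lit 78) (PT.lf (nat_lit 1064) (nat_lit 6) (nat_lit 14) (nat_lit 5) (nat_lit 84) (nat_lit 212) (nat_lit 214)) (PT.lf (nat_lit 1216) (nat_lit 6) (nat_lit 16) (nat_lit 5) (nat_lit 85) (nat_lit 212) (nat_lit 213)))) (PT.nd (nat_lit 156) (PT.nd (nat_lit 78) (PT.lf (nat_lit 1368) (nat_lit 3) (nat_lit 18) (nat_lit 4) (nat_lit 86) (nat_lit 212) (nat_lit 212)) (PT.lf (nat_lit 1444) (nat_lit 6) (nat_lit 19) (nat_lit 4) (nat_lit 87) (nat_lit 212) (nat_lit 211))) (PT.nd (nat_lit 9516) (PT.lf (nat_lit 1520) (nat_lit 6) (nat_lit 20) (nat_lit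 4) (nat_lit 88) (nat_lit 212) (nat_lit 210)) (PT.nd (nat_lit 78) (PT.lf (nat_lit 1520) (nat_lit 6) (nat_lit 20) (nat_lit 2) (nat_lit 210) (nat_lit 212) (nat_lit 88)) (PT.lf (nat_lit 1444) (nat_lit 6) (nat_lit 19) (nat_lit 2) (nat_lit 211) (nat_lit 212) (nat_lit 87))))))) (PT.nd (nat_lit 53118) (PT.nd (nat_lit 43056) (PT.nd (nat_lit 156) (PT.nd (nat_lit 78) (PT.lf (nat_lit 1368) (nat_lit 3) (nat_lit 18) (nat_lit 0) (nat_lit 212) (nat_lit 212) (nat_lit 86)) (PT.lf (nat_lit 1216) (nat_lit 6) (nat_lit 16) (nat_lit 0) (nat_lit 213) (nat_lit 212) (nat_lit 85))) (PT.nd (nat_lit 42822) (PT.lf (nat_lit 1064) (nat_lit 6) (nat_lit 14) (nat_lit 0) (nat_lit 214) (nat_lit 212) (nat_lit 84)) (PT.lf (nat_lit 836) (nat_lit 6) (nat_lit 11) (nat_lit 5) (nat_lit 82) (nat_lit 213) (nat_lit 215)))) (PT.nd (nat_lit 156) (PT.nd (nat_lit 78) (PT.lf (nat_lit 988) (nat_lit 6) (nat_lit 13) (nat_lit 5) (nat_lit 83) (nat_lit 213) (nat_lit 214))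 (PT.lf (nat_lit 1140) (nat_lit 3) (nat_lit 15) (nat_lit 4) (nat_lit 84) (nat_lit 213) (nat_lit 213))) (PT.nd (nat_lit 78) (PT.lf (nat_lit 1216) (nat_lit 6) (nat_lit 16) (nat_lit 4) (nat_lit 85) (nat_lit 213) (nat_lit 212)) (PT.nd (nat_lit 9750) (PT.lf (nat_lit 1292) (nat_lit 6) (nat_lit 17) (nat_lit 4) (nat_lit 86) (nat_lit 213) (nat_lit 211)) (PT.lf (nat_lit 1292) (nat_lit 6) (nat_lit 17) (nat_lit 2) (nat_lit 211) (nat_lit 213) (nat_lit 86)))))) (PT.nd (nat_lit 42822) (PT.nd (nat_lit 156) (PT.nd (nat_lit 78) (PT.lf (nat_lit 1216) (nat_lit 6) (nat_lit 16) (nat_lit 2) (nat_lit 212) (nat_lit 213) (nat_lit 85)) (PT.lf (nat_lit 1140) (nat_lit 3) (nat_lit 15) (nat_lit 0) (nat_lit 213) (nat_lit 213) (nat_lit 84))) (PT.nd (nat_lit 78) (PT.lf (nat_lit 988) (nat_lit 6) (nat_lit 13) (nat_lit 0) (nat_lit 214) (nat_lit 213) (nat_lit 83)) (PT.lf (nat_lit 836) (nat_lit 6) (nat_lit 11) (nat_lit 0) (nat_lit 215) (nat_lit 213)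 (nat_lit 82)))) (PT.nd (nat_lit 156) (PT.nd (nat_lit 78) (PT.lf (nat_lit 608) (nat_lit 6) (nat_lit 8) (nat_lit 5) (nat_lit 80) (nat_lit 214) (nat_lit 216)) (PT.lf (nat_lit 760) (nat_lit 6) (nat_lit 10) (nat_lit 5) (nat_lit 81) (nat_lit 214) (nat_lit 215))) (PT.nd (nat_lit 78) (PT.lf (nat_lit 912) (nat_lit 3) (nat_lit 12) (nat_lit 4) (nat_lit 82) (nat_lit 214) (nat_lit 214)) (PT.nd (nat_lit 78) (PT.lf (nat_lit 988) (nat_lit 6) (nat_lit 13) (nat_lit 4) (nat_lit 83) (nat_lit 214) (nat_lit 213)) (PT.lf (nat_lit 1064) (nat_lit 6) (nat_lit 14) (nat_lit 4) (nat_lit 84) (nat_lit 214) (nat_lit 212))))))))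
noncomputable def pc63 : PT := (PT.nd (nat_lit 95862) (PT.nd (nat_lit 42900) (PT.nd (nat_lit 312) (PT.nd (nat_lit 156) (PT.nd (nat_lit 78) (PT.lf (nat_lit 1064) (nat_lit 6) (nat_lit 14) (nat_lit 2) (nat_lit 212) (nat_lit 214) (nat_lit 84)) (PT.lf (nat_lit 988) (nat_lit 6) (nat_lit 13) (nat_lit 2) (nat_lit 213) (nat_lit 214) (nat_lit 83))) (PT.nd (nat_lit 78) (PT.lf (nat_lit 912) (nat_lit 3) (nat_lit 12) (nat_lit 0) (nat_lit 214) (nat_lit 214) (nat_lit 82)) (PT.lf (nat_lit 760) (nat_lit 6) (nat_lit 10) (nat_lit 0) (nat_lit 215) (nat_lit 214) (nat_lit 81)))) (PT.nd (nat_lit 42432) (PT.nd (nat_lit 42354) (PT.lf (nat_lit 608) (nat_lit 6) (nat_lit 8) (nat_lit 0) (nat_lit 216) (nat_lit 214) (nat_lit 80)) (PT.lf (nat_lit 380) (nat_lit 6) (nat_lit 5) (nat_lit 5) (nat_lit 78) (nat_lit 215) (nat_lit 217))) (PT.nd (nat_lit 78) (PT.lf (nat_lit 532) (nat_lit 6) (nat_lit 7) (nat_lit 5) (nat_lit 79) (nat_lit 215) (nat_lit 216))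 (PT.lf (nat_lit 684) (nat_lit 3) (nat_lit 9) (nat_lit 4) (nat_lit 80) (nat_lit 215) (nat_lit 215))))) (PT.nd (nat_lit 10452) (PT.nd (nat_lit 10296) (PT.nd (nat_lit 78) (PT.lf (nat_lit 760) (nat_lit 6) (nat_lit 10) (nat_lit 4) (nat_lit 81) (nat_lit 215) (nat_lit 214)) (PT.lf (nat_lit 836) (nat_lit 6) (nat_lit 11) (nat_lit 4) (nat_lit 82) (nat_lit 215) (nat_lit 213))) (PT.nd (nat_lit 78) (PT.lf (nat_lit 836) (nat_lit 6) (nat_lit 11) (nat_lit 2) (nat_lit 213) (nat_lit 215) (nat_lit 82)) (PT.lf (nat_lit 760) (nat_lit 6) (nat_lit 10) (nat_lit 2) (nat_lit 214) (nat_lit 215) (nat_lit 81)))) (PT.nd (nat_lit 156) (PT.nd (nat_lit 78) (PT.lf (nat_lit 684) (nat_lit 3) (nat_lit 9) (nat_lit 0) (nat_lit 215) (nat_lit 215) (nat_lit 80)) (PT.lf (nat_lit 532) (nat_lit 6) (nat_lit 7) (nat_lit 0) (nat_lit 216) (nat_lit 215) (nat_lit 79))) (PT.nd (nat_lit 42198) (PT.lf (nat_lit 380) (nat_lit 6) (nat_lit 5) (nat_lit 0) (nat_lit 217)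 (nat_lit 215) (nat_lit 78)) (PT.nd (nat_lit 78) (PT.lf (nat_lit 304) (nat_lit 6) (nat_lit 4) (nat_lit 5) (nat_lit 77) (nat_lit 216) (nat_lit 217)) (PT.lf (nat_lit 456) (nat_lit 3) (nat_lit 6) (nat_lit 4) (nat_lit 78) (nat_lit 216) (nat_lit 216))))))) (PT.nd (nat_lit 63726) (PT.nd (nat_lit 10686) (PT.nd (nat_lit 10530) (PT.nd (nat_lit 78) (PT.lf (nat_lit 532) (nat_lit 6) (nat_lit 7) (nat_lit 4) (nat_lit 79) (nat_lit 216) (nat_lit 215)) (PT.lf (nat_lit 608) (nat_lit 6) (nat_lit 8) (nat_lit 4) (nat_lit 80) (nat_lit 216) (nat_lit 214))) (PT.nd (nat_lit 78) (PT.lf (nat_lit 608) (nat_lit 6) (nat_lit 8) (nat_lit 2) (nat_lit 214) (nat_lit 216) (nat_lit 80)) (PT.lf (nat_lit 532) (nat_lit 6) (nat_lit 7) (nat_lit 2) (nat_lit 215) (nat_lit 216) (nat_lit 79)))) (PT.nd (nat_lit 42198) (PT.nd (nat_lit 78) (PT.lf (nat_lit 456) (nat_lit 3) (nat_lit 6) (nat_lit 0) (nat_lit 216) (nat_lit 216) (nat_lit 78)) (PT.lf (nat_lit 304) (nat_lit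 6) (nat_lit 4) (nat_lit 0) (nat_lit 217) (nat_lit 216) (nat_lit 77))) (PT.nd (nat_lit 78) (PT.lf (nat_lit 228) (nat_lit 3) (nat_lit 3) (nat_lit 4) (nat_lit 76) (nat_lit 217) (nat_lit 217)) (PT.nd (nat_lit 78) (PT.lf (nat_lit 304) (nat_lit 6) (nat_lit 4) (nat_lit 4) (nat_lit 77) (nat_lit 217) (nat_lit 216)) (PT.lf (nat_lit 380) (nat_lit 6) (nat_lit 5) (nat_lit 4) (nat_lit 78) (nat_lit 217) (nat_lit 215)))))) (PT.nd (nat_lit 42120) (PT.nd (nat_lit 156) (PT.nd (nat_lit 78) (PT.lf (nat_lit 380) (nat_lit 6) (nat_lit 5) (nat_lit 2) (nat_lit 215) (nat_lit 217) (nat_lit 78)) (PT.lf (nat_lit 304) (nat_lit 6) (nat_lit 4) (nat_lit 2) (nat_lit 216) (nat_lit 217) (nat_lit 77))) (PT.nd (nat_lit 41886) (PT.lf (nat_lit 228) (nat_lit 3) (nat_lit 3) (nat_lit 0) (nat_lit 217) (nat_lit 217) (nat_lit 76)) (PT.lf (nat_lit 76) (nat_lit 6) (nat_lit 1) (nat_lit 5) (nat_lit 73) (nat_lit 218) (nat_lit 219)))) (PT.nd (nat_lit 11310) (PT.nd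 (nat_lit 11232) (PT.lf (nat_lit 152) (nat_lit 3) (nat_lit 2) (nat_lit 4) (nat_lit 74) (nat_lit 218) (nat_lit 218)) (PT.lf (nat_lit 152) (nat_lit 3) (nat_lit 2) (nat_lit 0) (nat_lit 218) (nat_lit 218) (nat_lit 74))) (PT.nd (nat_lit 41730) (PT.lf (nat_lit 76) (nat_lit 6) (nat_lit 1) (nat_lit 0) (nat_lit 219) (nat_lit 218) (nat_lit 73)) (PT.nd (nat_lit 11310) (PT.lf (nat_lit 76) (nat_lit 6) (nat_lit 1) (nat_lit 4) (nat_lit 73) (nat_lit 219) (nat_lit 218)) (PT.lf (nat_lit 76) (nat_lit 6) (nat_lit 1) (nat_lit 2) (nat_lit 218) (nat_lit 219) (nat_lit 73))))))))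
noncomputable def xc0 : XT := (XT.nd (nat_lit 212472) (nat_lit 0) (nat_lit 0) (XT.nd (nat_lit 159042) (nat_lit 0) (nat_lit 0) (XT.nd (nat_lit 106002) (nat_lit 0) (nat_lit 0) (XT.nd (nat_lit 53040) (nat_lit 0) (nat_lit 0) (XT.nd (nat_lit 52884) (nat_lit 0) (nat_lit 0) (XT.lf (nat_lit 0) (nat_lit 29347098935) (nat_lit 152) (nat_lit 16202087512) (nat_lit 0) (nat_lit 29263956033) (nat_lit 4) (nat_lit 5) (nat_lit 6) (nat_lit 4) (nat_lit 4) (nat_lit 4) (nat_lit 493) (nat_lit 264) (nat_lit 263)) (XT.nd (nat_lit 78) (nat_lit 0) (nat_lit 0) (XT.lf (nat_lit 0) (nat_lit 6017793635) (nat_lit 152) (nat_lit 22424116941) (nat_lit 0) (nat_lit 6017793635) (nat_lit 4) (nat_lit 5) (nat_lit 6) (nat_lit 4) (nat_lit 4) (nat_lit 4) (nat_lit 490) (nat_lit 265) (nat_lit 265)) (XT.lf (nat_lit 0) (nat_lit 17732931128) (nat_lit 152) (nat_lit 35443918711) (nat_lit 0) (nat_lit 17647293939) (nat_lit 4) (nat_lit 5) (nat_lit 6) (nat_lit 4) (nat_lit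 4) (nat_lit 4) (nat_lit 491) (nat_lit 265) (nat_lit 264)))) (XT.nd (nat_lit 52806) (nat_lit 0) (nat_lit 0) (XT.nd (nat_lit 78) (nat_lit 0) (nat_lit 0) (XT.lf (nat_lit 0) (nat_lit 23496381865) (nat_lit 152) (nat_lit 25965184130) (nat_lit 0) (nat_lit 23327601774) (nat_lit 4) (nat_lit 5) (nat_lit 6) (nat_lit 4) (nat_lit 4) (nat_lit 4) (nat_lit 492) (nat_lit 265) (nat_lit 263)) (XT.lf (nat_lit 0) (nat_lit 29330975507) (nat_lit 152) (nat_lit 16403747749) (nat_lit 0) (nat_lit 29081474152) (nat_lit 4) (nat_lit 5) (nat_lit 6) (nat_lit 4) (nat_lit 4) (nat_lit 4) (nat_lit 493) (nat_lit 265) (nat_lit 262))) (XT.nd (nat_lit 78) (nat_lit 0) (nat_lit 0) (XT.lf (nat_lit 0) (nat_lit 481171753) (nat_lit 152) (nat_lit 31678933036) (nat_lit 0) (nat_lit 481171753) (nat_lit 4) (nat_lit 5) (nat_lit 6) (nat_lit 4) (nat_lit 4) (nat_lit 4) (nat_lit 488) (nat_lit 266) (nat_lit 266)) (XT.lf (nat_lit 0) (nat_lit 6487578337) (nat_lit 152)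 (nat_lit 54186347003) (nat_lit 0) (nat_lit 6399372033) (nat_lit 4) (nat_lit 5) (nat_lit 6) (nat_lit 4) (nat_lit 4) (nat_lit 4) (nat_lit 489) (nat_lit 266) (nat_lit 265))))) (XT.nd (nat_lit 234) (nat_lit 0) (nat_lit 0) (XT.nd (nat_lit 78) (nat_lit 0) (nat_lit 0) (XT.lf (nat_lit 0) (nat_lit 12070612375) (nat_lit 152) (nat_lit 44953623707) (nat_lit 0) (nat_lit 11896768881) (nat_lit 4) (nat_lit 5) (nat_lit 6) (nat_lit 4) (nat_lit 4) (nat_lit 4) (nat_lit 490) (nat_lit 266) (nat_lit 264)) (XT.nd (nat_lit 78) (nat_lit 0) (nat_lit 0) (XT.lf (nat_lit 0) (nat_lit 17716323997) (nat_lit 152) (nat_lit 35651628756) (nat_lit 0) (nat_lit 17459337602) (nat_lit 4) (nat_lit 5) (nat_lit 6) (nat_lit 4) (nat_lit 4) (nat_lit 4) (nat_lit 491) (nat_lit 266) (nat_lit 263)) (XT.lf (nat_lit 0) (nat_lit 23429646351) (nat_lit 152) (nat_lit 26272234193) (nat_lit 0) (nat_lit 23091938692) (nat_lit 4) (nat_lit 5) (nat_lit 6) (nat_lit 4) (nat_lit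 4) (nat_lit 4) (nat_lit 492) (nat_lit 266) (nat_lit 262)))) (XT.nd (nat_lit 52650) (nat_lit 0) (nat_lit 0) (XT.nd (nat_lit 52572) (nat_lit 0) (nat_lit 152) (XT.lf (nat_lit 0) (nat_lit 29215571660) (nat_lit 152) (nat_lit 16807244431) (nat_lit 0) (nat_lit 28799493842) (nat_lit 4) (nat_lit 5) (nat_lit 6) (nat_lit 4) (nat_lit 4) (nat_lit 4) (nat_lit 493) (nat_lit 266) (nat_lit 261)) (XT.lf (nat_lit 0) (nat_lit 21235578941) (nat_lit 76) (nat_lit 4845386536) (nat_lit 76) (nat_lit 4845386536) (nat_lit 6) (nat_lit 4) (nat_lit 7) (nat_lit 5) (nat_lit 7) (nat_lit 4) (nat_lit 486) (nat_lit 267) (nat_lit 267))) (XT.nd (nat_lit 78) (nat_lit 152) (nat_lit 0) (XT.lf (nat_lit 0) (nat_lit 54700583118) (nat_lit 76) (nat_lit 4467513233) (nat_lit 76) (nat_lit 4373935165) (nat_lit 6) (nat_lit 4) (nat_lit 7) (nat_lit 5) (nat_lit 7) (nat_lit 4) (nat_lit 487) (nat_lit 267) (nat_lit 266)) (XT.lf (nat_lit 0) (nat_lit 998419363) (nat_lit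 152) (nat_lit 63466417593) (nat_lit 0) (nat_lit 819360565) (nat_lit 4) (nat_lit 5) (nat_lit 6) (nat_lit 4) (nat_lit 4) (nat_lit 4) (nat_lit 488) (nat_lit 267) (nat_lit 265)))))) (XT.nd (nat_lit 52884) (nat_lit 0) (nat_lit 0) (XT.nd (nat_lit 234) (nat_lit 0) (nat_lit 0) (XT.nd (nat_lit 78) (nat_lit 0) (nat_lit 0) (XT.lf (nat_lit 0) (nat_lit 6470472992) (nat_lit 152) (nat_lit 54400288349) (nat_lit 0) (nat_lit 6205777005) (nat_lit 4) (nat_lit 5) (nat_lit 6) (nat_lit 4) (nat_lit 4) (nat_lit 4) (nat_lit 489) (nat_lit 267) (nat_lit 264)) (XT.nd (nat_lit 78) (nat_lit 0) (nat_lit 0) (XT.lf (nat_lit 0) (nat_lit 12001874795) (nat_lit 152) (nat_lit 45269885271) (nat_lit 0) (nat_lit 11654035906) (nat_lit 4) (nat_lit 5) (nat_lit 6) (nat_lit 4) (nat_lit 4) (nat_lit 4) (nat_lit 490) (nat_lit 267) (nat_lit 263)) (XT.lf (nat_lit 0) (nat_lit 17597458035) (nat_lit 152) (nat_lit 36067230338) (nat_lit 0) (nat_lit 17168897882) (nat_lit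 4) (nat_lit 5) (nat_lit 6) (nat_lit 4) (nat_lit 4) (nat_lit 4) (nat_lit 491) (nat_lit 267) (nat_lit 262)))) (XT.nd (nat_lit 52494) (nat_lit 0) (nat_lit 152) (XT.nd (nat_lit 78) (nat_lit 0) (nat_lit 0) (XT.lf (nat_lit 0) (nat_lit 23262112055) (nat_lit 152) (nat_lit 26784282395) (nat_lit 0) (nat_lit 22755181744) (nat_lit 4) (nat_lit 5) (nat_lit 6) (nat_lit 4) (nat_lit 4) (nat_lit 4) (nat_lit 492) (nat_lit 267) (nat_lit 261)) (XT.lf (nat_lit 0) (nat_lit 29000786556) (nat_lit 152) (nat_lit 17412930128) (nat_lit 0) (nat_lit 28417768711) (nat_lit 4) (nat_lit 5) (nat_lit 6) (nat_lit 4) (nat_lit 4) (nat_lit 4) (nat_lit 493) (nat_lit 267) (nat_lit 260))) (XT.nd (nat_lit 78) (nat_lit 0) (nat_lit 0) (XT.lf (nat_lit 0) (nat_lit 9272960662) (nat_lit 76) (nat_lit 10020566731) (nat_lit 76) (nat_lit 10020566731) (nat_lit 6) (nat_lit 4) (nat_lit 7) (nat_lit 5) (nat_lit 7) (nat_lit 4) (nat_lit 484) (nat_lit 268) (nat_lit 268)) (XT.lf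 (nat_lit 0) (nat_lit 30386248177) (nat_lit 76) (nat_lit 14962964944) (nat_lit 76) (nat_lit 14866579533) (nat_lit 6) (nat_lit 4) (nat_lit 7) (nat_lit 5) (nat_lit 7) (nat_lit 4) (nat_lit 485) (nat_lit 268) (nat_lit 267))))) (XT.nd (nat_lit 234) (nat_lit 0) (nat_lit 0) (XT.nd (nat_lit 78) (nat_lit 152) (nat_lit 0) (XT.lf (nat_lit 0) (nat_lit 42363753074) (nat_lit 76) (nat_lit 9840272185) (nat_lit 76) (nat_lit 9650308706) (nat_lit 6) (nat_lit 4) (nat_lit 7) (nat_lit 5) (nat_lit 7) (nat_lit 4) (nat_lit 486) (nat_lit 268) (nat_lit 266)) (XT.nd (nat_lit 78) (nat_lit 152) (nat_lit 0) (XT.lf (nat_lit 0) (nat_lit 54488901796) (nat_lit 76) (nat_lit 4668579047) (nat_lit 76) (nat_lit 4387763075) (nat_lit 6) (nat_lit 4) (nat_lit 7) (nat_lit 5) (nat_lit 7) (nat_lit 4) (nat_lit 487) (nat_lit 268) (nat_lit 265)) (XT.lf (nat_lit 0) (nat_lit 927619656) (nat_lit 152) (nat_lit 63792167005) (nat_lit 0) (nat_lit 569345600) (nat_lit 4)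 (nat_lit 5) (nat_lit 6) (nat_lit 4) (nat_lit 4) (nat_lit 4) (nat_lit 488) (nat_lit 268) (nat_lit 264)))) (XT.nd (nat_lit 156) (nat_lit 0) (nat_lit 0) (XT.nd (nat_lit 78) (nat_lit 0) (nat_lit 0) (XT.lf (nat_lit 0) (nat_lit 6348041051) (nat_lit 152) (nat_lit 54828357979) (nat_lit 0) (nat_lit 5906624094) (nat_lit 4) (nat_lit 5) (nat_lit 6) (nat_lit 4) (nat_lit 4) (nat_lit 4) (nat_lit 489) (nat_lit 268) (nat_lit 263)) (XT.lf (nat_lit 0) (nat_lit 11829314471) (nat_lit 152) (nat_lit 45797294919) (nat_lit 0) (nat_lit 11307176250) (nat_lit 4) (nat_lit 5) (nat_lit 6) (nat_lit 4) (nat_lit 4) (nat_lit 4) (nat_lit 490) (nat_lit 268) (nat_lit 262))) (XT.nd (nat_lit 78) (nat_lit 0) (nat_lit 0) (XT.lf (nat_lit 0) (nat_lit 17376229377) (nat_lit 152) (nat_lit 36691086606) (nat_lit 0) (nat_lit 16775720997) (nat_lit 4) (nat_lit 5) (nat_lit 6) (nat_lit 4) (nat_lit 4) (nat_lit 4) (nat_lit 491) (nat_lit 268) (nat_lit 261)) (XT.lf (nat_lit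 0) (nat_lit 22993632590) (nat_lit 152) (nat_lit 27501776158) (nat_lit 0) (nat_lit 22317036677) (nat_lit 4) (nat_lit 5) (nat_lit 6) (nat_lit 4) (nat_lit 4) (nat_lit 4) (nat_lit 492) (nat_lit 268) (nat_lit 260))))))) (XT.nd (nat_lit 105300) (nat_lit 0) (nat_lit 0) (XT.nd (nat_lit 52728) (nat_lit 0) (nat_lit 0) (XT.nd (nat_lit 52416) (nat_lit 0) (nat_lit 152) (XT.nd (nat_lit 52260) (nat_lit 0) (nat_lit 152) (XT.lf (nat_lit 0) (nat_lit 28686432518) (nat_lit 152) (nat_lit 18221334080) (nat_lit 0) (nat_lit 27935965214) (nat_lit 4) (nat_lit 5) (nat_lit 6) (nat_lit 4) (nat_lit 4) (nat_lit 4) (nat_lit 493) (nat_lit 268) (nat_lit 259)) (XT.nd (nat_lit 78) (nat_lit 76) (nat_lit 0) (XT.lf (nat_lit 0) (nat_lit 12759359349) (nat_lit 152) (nat_lit 2279888416) (nat_lit 0) (nat_lit 12759359349) (nat_lit 7) (nat_lit 5) (nat_lit 9) (nat_lit 4) (nat_lit 7) (nat_lit 4) (nat_lit 482) (nat_lit 269) (nat_lit 269)) (XT.lf (nat_lit 0) (nat_lit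 6832426598) (nat_lit 76) (nat_lit 25178491948) (nat_lit 76) (nat_lit 25079214975) (nat_lit 6) (nat_lit 4) (nat_lit 7) (nat_lit 5) (nat_lit 7) (nat_lit 4) (nat_lit 483) (nat_lit 269) (nat_lit 268)))) (XT.nd (nat_lit 156) (nat_lit 0) (nat_lit 0) (XT.nd (nat_lit 78) (nat_lit 0) (nat_lit 0) (XT.lf (nat_lit 0) (nat_lit 18435294371) (nat_lit 76) (nat_lit 20195117548) (nat_lit 76) (nat_lit 19999455165) (nat_lit 6) (nat_lit 4) (nat_lit 7) (nat_lit 5) (nat_lit 7) (nat_lit 4) (nat_lit 484) (nat_lit 269) (nat_lit 267)) (XT.lf (nat_lit 0) (nat_lit 30168216415) (nat_lit 76) (nat_lit 15170062732) (nat_lit 76) (nat_lit 14880822280) (nat_lit 6) (nat_lit 4) (nat_lit 7) (nat_lit 5) (nat_lit 7) (nat_lit 4) (nat_lit 485) (nat_lit 269) (nat_lit 266))) (XT.nd (nat_lit 78) (nat_lit 0) (nat_lit 0) (XT.lf (nat_lit 0) (nat_lit 42041444799) (nat_lit 76) (nat_lit 10098936675) (nat_lit 76) (nat_lit 9718843729) (nat_lit 6) (nat_lit 4) (nat_lit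 7) (nat_lit 5) (nat_lit 7) (nat_lit 4) (nat_lit 486) (nat_lit 269) (nat_lit 265)) (XT.lf (nat_lit 0) (nat_lit 54065354187) (nat_lit 76) (nat_lit 4977308295) (nat_lit 76) (nat_lit 4509009045) (nat_lit 6) (nat_lit 4) (nat_lit 7) (nat_lit 5) (nat_lit 7) (nat_lit 4) (nat_lit 487) (nat_lit 269) (nat_lit 264))))) (XT.nd (nat_lit 234) (nat_lit 0) (nat_lit 0) (XT.nd (nat_lit 78) (nat_lit 0) (nat_lit 0) (XT.lf (nat_lit 0) (nat_lit 749882522) (nat_lit 152) (nat_lit 64335398942) (nat_lit 0) (nat_lit 212080154) (nat_lit 4) (nat_lit 5) (nat_lit 6) (nat_lit 4) (nat_lit 4) (nat_lit 4) (nat_lit 488) (nat_lit 269) (nat_lit 263)) (XT.nd (nat_lit 78) (nat_lit 0) (nat_lit 0) (XT.lf (nat_lit 0) (nat_lit 6120175534) (nat_lit 152) (nat_lit 55470929935) (nat_lit 0) (nat_lit 5501651903) (nat_lit 4) (nat_lit 5) (nat_lit 6) (nat_lit 4) (nat_lit 4) (nat_lit 4) (nat_lit 489) (nat_lit 269) (nat_lit 262)) (XT.lf (nat_lit 0) (nat_lit 11552780621)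 (nat_lit 152) (nat_lit 46536313495) (nat_lit 0) (nat_lit 10855886830) (nat_lit 4) (nat_lit 5) (nat_lit 6) (nat_lit 4) (nat_lit 4) (nat_lit 4) (nat_lit 490) (nat_lit 269) (nat_lit 261)))) (XT.nd (nat_lit 156) (nat_lit 0) (nat_lit 0) (XT.nd (nat_lit 78) (nat_lit 0) (nat_lit 0) (XT.lf (nat_lit 0) (nat_lit 17052444719) (nat_lit 152) (nat_lit 37523742676) (nat_lit 0) (nat_lit 16279463395) (nat_lit 4) (nat_lit 5) (nat_lit 6) (nat_lit 4) (nat_lit 4) (nat_lit 4) (nat_lit 491) (nat_lit 269) (nat_lit 260)) (XT.lf (nat_lit 0) (nat_lit 22623973360) (nat_lit 152) (nat_lit 28425342417) (nat_lit 0) (nat_lit 21777120645) (nat_lit 4) (nat_lit 5) (nat_lit 6) (nat_lit 4) (nat_lit 4) (nat_lit 4) (nat_lit 492) (nat_lit 269) (nat_lit 259))) (XT.nd (nat_lit 52104) (nat_lit 0) (nat_lit 228) (XT.lf (nat_lit 0) (nat_lit 28272234869) (nat_lit 152) (nat_lit 19233162659) (nat_lit 0) (nat_lit 27353662357) (nat_lit 4) (nat_lit 5) (nat_lit 6)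 (nat_lit 4) (nat_lit 4) (nat_lit 4) (nat_lit 493) (nat_lit 269) (nat_lit 258)) (XT.lf (nat_lit 0) (nat_lit 6524021198) (nat_lit 152) (nat_lit 13324494485) (nat_lit 0) (nat_lit 6524021198) (nat_lit 7) (nat_lit 5) (nat_lit 9) (nat_lit 4) (nat_lit 7) (nat_lit 4) (nat_lit 480) (nat_lit 270) (nat_lit 270)))))) (XT.nd (nat_lit 546) (nat_lit 152) (nat_lit 0) (XT.nd (nat_lit 234) (nat_lit 0) (nat_lit 0) (XT.nd (nat_lit 78) (nat_lit 76) (nat_lit 0) (XT.lf (nat_lit 0) (nat_lit 19270273316) (nat_lit 152) (nat_lit 15710917011) (nat_lit 0) (nat_lit 19168018034) (nat_lit 7) (nat_lit 5) (nat_lit 9) (nat_lit 4) (nat_lit 7) (nat_lit 4) (nat_lit 481) (nat_lit 270) (nat_lit 269)) (XT.nd (nat_lit 78) (nat_lit 76) (nat_lit 0) (XT.lf (nat_lit 0) (nat_lit 25564471862) (nat_lit 152) (nat_lit 4671499101) (nat_lit 0) (nat_lit 25362939607) (nat_lit 7) (nat_lit 5) (nat_lit 9) (nat_lit 4) (nat_lit 7) (nat_lit 4) (nat_lit 482) (nat_lit 270)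 (nat_lit 268)) (XT.lf (nat_lit 0) (nat_lit 6607853883) (nat_lit 76) (nat_lit 25391802670) (nat_lit 76) (nat_lit 25093885005) (nat_lit 6) (nat_lit 4) (nat_lit 7) (nat_lit 5) (nat_lit 7) (nat_lit 4) (nat_lit 483) (nat_lit 270) (nat_lit 267)))) (XT.nd (nat_lit 156) (nat_lit 0) (nat_lit 0) (XT.nd (nat_lit 78) (nat_lit 0) (nat_lit 0) (XT.lf (nat_lit 0) (nat_lit 18103316847) (nat_lit 76) (nat_lit 20461541972) (nat_lit 76) (nat_lit 20070046239) (nat_lit 6) (nat_lit 4) (nat_lit 7) (nat_lit 5) (nat_lit 7) (nat_lit 4) (nat_lit 484) (nat_lit 270) (nat_lit 266)) (XT.lf (nat_lit 0) (nat_lit 29731962378) (nat_lit 76) (nat_lit 15488053857) (nat_lit 76) (nat_lit 15005705630) (nat_lit 6) (nat_lit 4) (nat_lit 7) (nat_lit 5) (nat_lit 7) (nat_lit 4) (nat_lit 485) (nat_lit 270) (nat_lit 265))) (XT.nd (nat_lit 78) (nat_lit 0) (nat_lit 0) (XT.lf (nat_lit 0) (nat_lit 41503951429) (nat_lit 76) (nat_lit 10466992558) (nat_lit 76) (nat_lit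 9896438026) (nat_lit 6) (nat_lit 4) (nat_lit 7) (nat_lit 5) (nat_lit 7) (nat_lit 4) (nat_lit 486) (nat_lit 270) (nat_lit 264)) (XT.lf (nat_lit 0) (nat_lit 53429570202) (nat_lit 76) (nat_lit 5393970740) (nat_lit 76) (nat_lit 4737779019) (nat_lit 6) (nat_lit 4) (nat_lit 7) (nat_lit 5) (nat_lit 7) (nat_lit 4) (nat_lit 487) (nat_lit 270) (nat_lit 263))))) (XT.nd (nat_lit 312) (nat_lit 0) (nat_lit 0) (XT.nd (nat_lit 156) (nat_lit 0) (nat_lit 0) (XT.nd (nat_lit 78) (nat_lit 0) (nat_lit 0) (XT.lf (nat_lit 0) (nat_lit 209752450) (nat_lit 76) (nat_lit 257778127) (nat_lit 152) (nat_lit 64841287869) (nat_lit 4) (nat_lit 5) (nat_lit 5) (nat_lit 5) (nat_lit 6) (nat_lit 4) (nat_lit 488) (nat_lit 270) (nat_lit 262)) (XT.lf (nat_lit 0) (nat_lit 5786677336) (nat_lit 152) (nat_lit 56328565687) (nat_lit 0) (nat_lit 4990506573) (nat_lit 4) (nat_lit 5) (nat_lit 6) (nat_lit 4) (nat_lit 4) (nat_lit 4) (nat_lit 489) (nat_lit 270) (nat_lit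 261))) (XT.nd (nat_lit 78) (nat_lit 0) (nat_lit 0) (XT.lf (nat_lit 0) (nat_lit 11172031614) (nat_lit 152) (nat_lit 47487586742) (nat_lit 0) (nat_lit 10299773318) (nat_lit 4) (nat_lit 5) (nat_lit 6) (nat_lit 4) (nat_lit 4) (nat_lit 4) (nat_lit 490) (nat_lit 270) (nat_lit 260)) (XT.lf (nat_lit 0) (nat_lit 16625821141) (nat_lit 152) (nat_lit 38565926113) (nat_lit 0) (nat_lit 15679691453) (nat_lit 4) (nat_lit 5) (nat_lit 6) (nat_lit 4) (nat_lit 4) (nat_lit 4) (nat_lit 491) (nat_lit 270) (nat_lit 259)))) (XT.nd (nat_lit 52026) (nat_lit 0) (nat_lit 228) (XT.nd (nat_lit 78) (nat_lit 0) (nat_lit 0) (XT.lf (nat_lit 0) (nat_lit 22152811363) (nat_lit 152) (nat_lit 29555788173) (nat_lit 0) (nat_lit 21134961877) (nat_lit 4) (nat_lit 5) (nat_lit 6) (nat_lit 4) (nat_lit 4) (nat_lit 4) (nat_lit 492) (nat_lit 270) (nat_lit 258)) (XT.lf (nat_lit 0) (nat_lit 27757831689) (nat_lit 152) (nat_lit 20449299987) (nat_lit 0) (nat_lit 26670351332)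 (nat_lit 4) (nat_lit 5) (nat_lit 6) (nat_lit 4) (nat_lit 4) (nat_lit 4) (nat_lit 493) (nat_lit 270) (nat_lit 257))) (XT.nd (nat_lit 78) (nat_lit 0) (nat_lit 0) (XT.lf (nat_lit 0) (nat_lit 481530004) (nat_lit 152) (nat_lit 24070359413) (nat_lit 0) (nat_lit 481530004) (nat_lit 7) (nat_lit 5) (nat_lit 9) (nat_lit 4) (nat_lit 7) (nat_lit 4) (nat_lit 478) (nat_lit 271) (nat_lit 271)) (XT.lf (nat_lit 0) (nat_lit 6997665144) (nat_lit 152) (nat_lit 37495272515) (nat_lit 0) (nat_lit 6892342204) (nat_lit 7) (nat_lit 5) (nat_lit 9) (nat_lit 4) (nat_lit 7) (nat_lit 4) (nat_lit 479) (nat_lit 271) (nat_lit 270))))))))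
noncomputable def xc1 : XT := (XT.nd (nat_lit 53976) (nat_lit 0) (nat_lit 0) (XT.nd (nat_lit 52806) (nat_lit 0) (nat_lit 0) (XT.nd (nat_lit 546) (nat_lit 152) (nat_lit 0) (XT.nd (nat_lit 234) (nat_lit 76) (nat_lit 0) (XT.nd (nat_lit 78) (nat_lit 0) (nat_lit 0) (XT.lf (nat_lit 0) (nat_lit 13095168155) (nat_lit 152) (nat_lit 26764062907) (nat_lit 0) (nat_lit 12887589933) (nat_lit 7) (nat_lit 5) (nat_lit 9) (nat_lit 4) (nat_lit 7) (nat_lit 4) (nat_lit 480) (nat_lit 271) (nat_lit 269)) (XT.nd (nat_lit 78) (nat_lit 0) (nat_lit 0) (XT.lf (nat_lit 0) (nat_lit 19260896956) (nat_lit 152) (nat_lit 15937713218) (nat_lit 0) (nat_lit 18954041761) (nat_lit 7) (nat_lit 5) (nat_lit 9) (nat_lit 4) (nat_lit 7) (nat_lit 4) (nat_lit 481) (nat_lit 271) (nat_lit 268)) (XT.lf (nat_lit 0) (nat_lit 25500239076) (nat_lit 152) (nat_lit 5006763531) (nat_lit 0) (nat_lit 25096998470) (nat_lit 7) (nat_lit 5) (nat_lit 9) (nat_lit 4) (nat_lit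 7) (nat_lit 4) (nat_lit 482) (nat_lit 271) (nat_lit 267)))) (XT.nd (nat_lit 156) (nat_lit 0) (nat_lit 0) (XT.nd (nat_lit 78) (nat_lit 0) (nat_lit 0) (XT.lf (nat_lit 0) (nat_lit 6158512225) (nat_lit 76) (nat_lit 25719333529) (nat_lit 76) (nat_lit 25222514855) (nat_lit 6) (nat_lit 4) (nat_lit 7) (nat_lit 5) (nat_lit 7) (nat_lit 4) (nat_lit 483) (nat_lit 271) (nat_lit 266)) (XT.lf (nat_lit 0) (nat_lit 17549698676) (nat_lit 76) (nat_lit 20840639532) (nat_lit 76) (nat_lit 20252968365) (nat_lit 6) (nat_lit 4) (nat_lit 7) (nat_lit 5) (nat_lit 7) (nat_lit 4) (nat_lit 484) (nat_lit 271) (nat_lit 265))) (XT.nd (nat_lit 78) (nat_lit 0) (nat_lit 0) (XT.lf (nat_lit 0) (nat_lit 29077104874) (nat_lit 76) (nat_lit 15917216176) (nat_lit 76) (nat_lit 15241338703) (nat_lit 6) (nat_lit 4) (nat_lit 7) (nat_lit 5) (nat_lit 7) (nat_lit 4) (nat_lit 485) (nat_lit 271) (nat_lit 264)) (XT.lf (nat_lit 0) (nat_lit 40750803309) (nat_lit 76)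 (nat_lit 10944761438) (nat_lit 76) (nat_lit 10183246777) (nat_lit 6) (nat_lit 4) (nat_lit 7) (nat_lit 5) (nat_lit 7) (nat_lit 4) (nat_lit 486) (nat_lit 271) (nat_lit 263))))) (XT.nd (nat_lit 234) (nat_lit 0) (nat_lit 0) (XT.nd (nat_lit 78) (nat_lit 152) (nat_lit 0) (XT.lf (nat_lit 0) (nat_lit 52580994301) (nat_lit 76) (nat_lit 5918930456) (nat_lit 76) (nat_lit 5074272894) (nat_lit 6) (nat_lit 4) (nat_lit 7) (nat_lit 5) (nat_lit 7) (nat_lit 4) (nat_lit 487) (nat_lit 271) (nat_lit 262)) (XT.nd (nat_lit 78) (nat_lit 76) (nat_lit 0) (XT.lf (nat_lit 0) (nat_lit 88289955) (nat_lit 152) (nat_lit 746150217) (nat_lit 76) (nat_lit 64488833398) (nat_lit 5) (nat_lit 5) (nat_lit 7) (nat_lit 5) (nat_lit 6) (nat_lit 4) (nat_lit 488) (nat_lit 271) (nat_lit 261)) (XT.lf (nat_lit 0) (nat_lit 5347255050) (nat_lit 152) (nat_lit 57402014627) (nat_lit 0) (nat_lit 4372741472) (nat_lit 4) (nat_lit 5) (nat_lit 6) (nat_lit 4) (nat_lit 4)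 (nat_lit 4) (nat_lit 489) (nat_lit 271) (nat_lit 260)))) (XT.nd (nat_lit 156) (nat_lit 0) (nat_lit 0) (XT.nd (nat_lit 78) (nat_lit 0) (nat_lit 0) (XT.lf (nat_lit 0) (nat_lit 10686734757) (nat_lit 152) (nat_lit 48651945871) (nat_lit 0) (nat_lit 9638349787) (nat_lit 4) (nat_lit 5) (nat_lit 6) (nat_lit 4) (nat_lit 4) (nat_lit 4) (nat_lit 490) (nat_lit 271) (nat_lit 259)) (XT.lf (nat_lit 0) (nat_lit 16095985865) (nat_lit 152) (nat_lit 39818547561) (nat_lit 0) (nat_lit 14975881098) (nat_lit 4) (nat_lit 5) (nat_lit 6) (nat_lit 4) (nat_lit 4) (nat_lit 4) (nat_lit 491) (nat_lit 271) (nat_lit 258))) (XT.nd (nat_lit 78) (nat_lit 0) (nat_lit 0) (XT.lf (nat_lit 0) (nat_lit 21579734903) (nat_lit 152) (nat_lit 30894101194) (nat_lit 0) (nat_lit 20389999265) (nat_lit 4) (nat_lit 5) (nat_lit 6) (nat_lit 4) (nat_lit 4) (nat_lit 4) (nat_lit 492) (nat_lit 271) (nat_lit 257)) (XT.lf (nat_lit 0) (nat_lit 27142773498) (nat_lit 152) (nat_lit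 21870808709) (nat_lit 0) (nat_lit 25885435072) (nat_lit 4) (nat_lit 5) (nat_lit 6) (nat_lit 4) (nat_lit 4) (nat_lit 4) (nat_lit 493) (nat_lit 271) (nat_lit 256)))))) (XT.nd (nat_lit 546) (nat_lit 228) (nat_lit 0) (XT.nd (nat_lit 234) (nat_lit 0) (nat_lit 0) (XT.nd (nat_lit 78) (nat_lit 152) (nat_lit 0) (XT.lf (nat_lit 0) (nat_lit 13107471188) (nat_lit 76) (nat_lit 5331351390) (nat_lit 76) (nat_lit 5331351390) (nat_lit 9) (nat_lit 4) (nat_lit 10) (nat_lit 5) (nat_lit 10) (nat_lit 4) (nat_lit 476) (nat_lit 272) (nat_lit 272)) (XT.nd (nat_lit 78) (nat_lit 152) (nat_lit 0) (XT.lf (nat_lit 0) (nat_lit 38962486767) (nat_lit 76) (nat_lit 4966923147) (nat_lit 76) (nat_lit 4855186039) (nat_lit 9) (nat_lit 4) (nat_lit 10) (nat_lit 5) (nat_lit 10) (nat_lit 4) (nat_lit 477) (nat_lit 272) (nat_lit 271)) (XT.lf (nat_lit 0) (nat_lit 1011599538) (nat_lit 152) (nat_lit 48259244982) (nat_lit 0) (nat_lit 797793969) (nat_lit 7) (nat_lit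 5) (nat_lit 9) (nat_lit 4) (nat_lit 7) (nat_lit 4) (nat_lit 478) (nat_lit 272) (nat_lit 270)))) (XT.nd (nat_lit 156) (nat_lit 0) (nat_lit 0) (XT.nd (nat_lit 78) (nat_lit 0) (nat_lit 0) (XT.lf (nat_lit 0) (nat_lit 6988007493) (nat_lit 152) (nat_lit 37728872608) (nat_lit 0) (nat_lit 6671946642) (nat_lit 7) (nat_lit 5) (nat_lit 9) (nat_lit 4) (nat_lit 7) (nat_lit 4) (nat_lit 479) (nat_lit 272) (nat_lit 269)) (XT.lf (nat_lit 0) (nat_lit 13029008385) (nat_lit 152) (nat_lit 27109385270) (nat_lit 0) (nat_lit 12613670562) (nat_lit 7) (nat_lit 5) (nat_lit 9) (nat_lit 4) (nat_lit 7) (nat_lit 4) (nat_lit 480) (nat_lit 272) (nat_lit 268))) (XT.nd (nat_lit 78) (nat_lit 0) (nat_lit 0) (XT.lf (nat_lit 0) (nat_lit 19139880760) (nat_lit 152) (nat_lit 16391503803) (nat_lit 0) (nat_lit 18628157526) (nat_lit 7) (nat_lit 5) (nat_lit 9) (nat_lit 4) (nat_lit 7) (nat_lit 4) (nat_lit 481) (nat_lit 272) (nat_lit 267)) (XT.lf (nat_lit 0)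 (nat_lit 25325964214) (nat_lit 152) (nat_lit 5565863070) (nat_lit 0) (nat_lit 24720662911) (nat_lit 7) (nat_lit 5) (nat_lit 9) (nat_lit 4) (nat_lit 7) (nat_lit 4) (nat_lit 482) (nat_lit 272) (nat_lit 266))))) (XT.nd (nat_lit 312) (nat_lit 152) (nat_lit 0) (XT.nd (nat_lit 156) (nat_lit 0) (nat_lit 0) (XT.nd (nat_lit 78) (nat_lit 0) (nat_lit 0) (XT.lf (nat_lit 0) (nat_lit 5484008995) (nat_lit 76) (nat_lit 26161370717) (nat_lit 76) (nat_lit 25465216920) (nat_lit 6) (nat_lit 4) (nat_lit 7) (nat_lit 5) (nat_lit 7) (nat_lit 4) (nat_lit 483) (nat_lit 272) (nat_lit 265)) (XT.lf (nat_lit 0) (nat_lit 16773956112) (nat_lit 76) (nat_lit 21332741479) (nat_lit 76) (nat_lit 20548381378) (nat_lit 6) (nat_lit 4) (nat_lit 7) (nat_lit 5) (nat_lit 7) (nat_lit 4) (nat_lit 484) (nat_lit 272) (nat_lit 264))) (XT.nd (nat_lit 78) (nat_lit 0) (nat_lit 0) (XT.lf (nat_lit 0) (nat_lit 28203071695) (nat_lit 76) (nat_lit 16457924683) (nat_lit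 76) (nat_lit 15587927394) (nat_lit 6) (nat_lit 4) (nat_lit 7) (nat_lit 5) (nat_lit 7) (nat_lit 4) (nat_lit 485) (nat_lit 272) (nat_lit 263)) (XT.lf (nat_lit 0) (nat_lit 39781342349) (nat_lit 76) (nat_lit 11532660782) (nat_lit 76) (nat_lit 10579520591) (nat_lit 6) (nat_lit 4) (nat_lit 7) (nat_lit 5) (nat_lit 7) (nat_lit 4) (nat_lit 486) (nat_lit 272) (nat_lit 262)))) (XT.nd (nat_lit 156) (nat_lit 152) (nat_lit 0) (XT.nd (nat_lit 78) (nat_lit 0) (nat_lit 0) (XT.lf (nat_lit 0) (nat_lit 51518885009) (nat_lit 76) (nat_lit 6552646147) (nat_lit 76) (nat_lit 5518784691) (nat_lit 6) (nat_lit 4) (nat_lit 7) (nat_lit 5) (nat_lit 7) (nat_lit 4) (nat_lit 487) (nat_lit 272) (nat_lit 261)) (XT.lf (nat_lit 0) (nat_lit 63425955781) (nat_lit 76) (nat_lit 1513529307) (nat_lit 76) (nat_lit 401297693) (nat_lit 6) (nat_lit 4) (nat_lit 7) (nat_lit 5) (nat_lit 7) (nat_lit 4) (nat_lit 488) (nat_lit 272) (nat_lit 260))) (XT.nd (nat_lit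 78) (nat_lit 0) (nat_lit 0) (XT.lf (nat_lit 0) (nat_lit 4801524716) (nat_lit 152) (nat_lit 58692214719) (nat_lit 0) (nat_lit 3647816806) (nat_lit 4) (nat_lit 5) (nat_lit 6) (nat_lit 4) (nat_lit 4) (nat_lit 4) (nat_lit 489) (nat_lit 272) (nat_lit 259)) (XT.lf (nat_lit 0) (nat_lit 10096466004) (nat_lit 152) (nat_lit 50030408282) (nat_lit 0) (nat_lit 8871038296) (nat_lit 4) (nat_lit 5) (nat_lit 6) (nat_lit 4) (nat_lit 4) (nat_lit 4) (nat_lit 490) (nat_lit 272) (nat_lit 258))))))) (XT.nd (nat_lit 52650) (nat_lit 0) (nat_lit 0) (XT.nd (nat_lit 52104) (nat_lit 0) (nat_lit 152) (XT.nd (nat_lit 51792) (nat_lit 0) (nat_lit 380) (XT.nd (nat_lit 78) (nat_lit 0) (nat_lit 0) (XT.lf (nat_lit 0) (nat_lit 15462475928) (nat_lit 152) (nat_lit 41282701545) (nat_lit 0) (nat_lit 14167417349) (nat_lit 4) (nat_lit 5) (nat_lit 6) (nat_lit 4) (nat_lit 4) (nat_lit 4) (nat_lit 491) (nat_lit 272) (nat_lit 257)) (XT.nd (nat_lit 78) (nat_lit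 0) (nat_lit 0) (XT.lf (nat_lit 0) (nat_lit 20904243235) (nat_lit 152) (nat_lit 32441450879) (nat_lit 0) (nat_lit 19541581868) (nat_lit 4) (nat_lit 5) (nat_lit 6) (nat_lit 4) (nat_lit 4) (nat_lit 4) (nat_lit 492) (nat_lit 272) (nat_lit 256)) (XT.lf (nat_lit 0) (nat_lit 26426522867) (nat_lit 152) (nat_lit 23498930920) (nat_lit 0) (nat_lit 24998227726) (nat_lit 4) (nat_lit 5) (nat_lit 6) (nat_lit 4) (nat_lit 4) (nat_lit 4) (nat_lit 493) (nat_lit 272) (nat_lit 255)))) (XT.nd (nat_lit 156) (nat_lit 0) (nat_lit 0) (XT.nd (nat_lit 78) (nat_lit 0) (nat_lit 0) (XT.lf (nat_lit 0) (nat_lit 625068394) (nat_lit 76) (nat_lit 10979523420) (nat_lit 76) (nat_lit 10979523420) (nat_lit 9) (nat_lit 4) (nat_lit 10) (nat_lit 5) (nat_lit 10) (nat_lit 4) (nat_lit 474) (nat_lit 273) (nat_lit 273)) (XT.lf (nat_lit 0) (nat_lit 13607569895) (nat_lit 76) (nat_lit 16421687707) (nat_lit 76) (nat_lit 16306598486) (nat_lit 9) (nat_lit 4) (nat_lit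 10) (nat_lit 5) (nat_lit 10) (nat_lit 4) (nat_lit 475) (nat_lit 273) (nat_lit 272))) (XT.nd (nat_lit 78) (nat_lit 0) (nat_lit 0) (XT.lf (nat_lit 0) (nat_lit 26097676728) (nat_lit 76) (nat_lit 10835640741) (nat_lit 76) (nat_lit 10608814413) (nat_lit 9) (nat_lit 4) (nat_lit 10) (nat_lit 5) (nat_lit 10) (nat_lit 4) (nat_lit 476) (nat_lit 273) (nat_lit 271)) (XT.lf (nat_lit 0) (nat_lit 38731370975) (nat_lit 76) (nat_lit 5196024933) (nat_lit 76) (nat_lit 4860715976) (nat_lit 9) (nat_lit 4) (nat_lit 10) (nat_lit 5) (nat_lit 10) (nat_lit 4) (nat_lit 477) (nat_lit 273) (nat_lit 270))))) (XT.nd (nat_lit 234) (nat_lit 76) (nat_lit 0) (XT.nd (nat_lit 78) (nat_lit 0) (nat_lit 0) (XT.lf (nat_lit 0) (nat_lit 943454975) (nat_lit 152) (nat_lit 48614927015) (nat_lit 0) (nat_lit 515657017) (nat_lit 7) (nat_lit 5) (nat_lit 9) (nat_lit 4) (nat_lit 7) (nat_lit 4) (nat_lit 478) (nat_lit 273) (nat_lit 269)) (XT.nd (nat_lit 78) (nat_lit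 0) (nat_lit 0) (XT.lf (nat_lit 0) (nat_lit 6863360811) (nat_lit 152) (nat_lit 38196276911) (nat_lit 0) (nat_lit 6336285880) (nat_lit 7) (nat_lit 5) (nat_lit 9) (nat_lit 4) (nat_lit 7) (nat_lit 4) (nat_lit 479) (nat_lit 273) (nat_lit 268)) (XT.lf (nat_lit 0) (nat_lit 12849505278) (nat_lit 152) (nat_lit 27685257795) (nat_lit 0) (nat_lit 12226044936) (nat_lit 7) (nat_lit 5) (nat_lit 9) (nat_lit 4) (nat_lit 7) (nat_lit 4) (nat_lit 480) (nat_lit 273) (nat_lit 267)))) (XT.nd (nat_lit 156) (nat_lit 76) (nat_lit 0) (XT.nd (nat_lit 78) (nat_lit 0) (nat_lit 0) (XT.lf (nat_lit 0) (nat_lit 18907118986) (nat_lit 152) (nat_lit 17072685283) (nat_lit 0) (nat_lit 18190080576) (nat_lit 7) (nat_lit 5) (nat_lit 9) (nat_lit 4) (nat_lit 7) (nat_lit 4) (nat_lit 481) (nat_lit 273) (nat_lit 266)) (XT.lf (nat_lit 0) (nat_lit 25041494998) (nat_lit 152) (nat_lit 6349286253) (nat_lit 0) (nat_lit 24233604094) (nat_lit 7) (nat_lit 5) (nat_lit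 9) (nat_lit 4) (nat_lit 7) (nat_lit 4) (nat_lit 482) (nat_lit 273) (nat_lit 265))) (XT.nd (nat_lit 78) (nat_lit 0) (nat_lit 0) (XT.lf (nat_lit 0) (nat_lit 4583754821) (nat_lit 76) (nat_lit 26718300480) (nat_lit 76) (nat_lit 25822203272) (nat_lit 6) (nat_lit 4) (nat_lit 7) (nat_lit 5) (nat_lit 7) (nat_lit 4) (nat_lit 483) (nat_lit 273) (nat_lit 264)) (XT.lf (nat_lit 0) (nat_lit 15775411324) (nat_lit 76) (nat_lit 21938277803) (nat_lit 76) (nat_lit 20956543406) (nat_lit 6) (nat_lit 4) (nat_lit 7) (nat_lit 5) (nat_lit 7) (nat_lit 4) (nat_lit 484) (nat_lit 273) (nat_lit 263)))))) (XT.nd (nat_lit 546) (nat_lit 0) (nat_lit 0) (XT.nd (nat_lit 234) (nat_lit 152) (nat_lit 0) (XT.nd (nat_lit 78) (nat_lit 0) (nat_lit 0) (XT.lf (nat_lit 0) (nat_lit 27109099125) (nat_lit 76) (nat_lit 17110651845) (nat_lit 76) (nat_lit 16045774546) (nat_lit 6) (nat_lit 4) (nat_lit 7) (nat_lit 5) (nat_lit 7) (nat_lit 4) (nat_lit 485) (nat_lit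 273) (nat_lit 262)) (XT.nd (nat_lit 78) (nat_lit 0) (nat_lit 0) (XT.lf (nat_lit 0) (nat_lit 38594721447) (nat_lit 76) (nat_lit 12231204290) (nat_lit 76) (nat_lit 11085605727) (nat_lit 6) (nat_lit 4) (nat_lit 7) (nat_lit 5) (nat_lit 7) (nat_lit 4) (nat_lit 486) (nat_lit 273) (nat_lit 261)) (XT.lf (nat_lit 0) (nat_lit 50242314271) (nat_lit 76) (nat_lit 7295671543) (nat_lit 76) (nat_lit 6071702821) (nat_lit 6) (nat_lit 4) (nat_lit 7) (nat_lit 5) (nat_lit 7) (nat_lit 4) (nat_lit 487) (nat_lit 273) (nat_lit 260)))) (XT.nd (nat_lit 156) (nat_lit 0) (nat_lit 0) (XT.nd (nat_lit 78) (nat_lit 152) (nat_lit 0) (XT.lf (nat_lit 0) (nat_lit 62062055105) (nat_lit 76) (nat_lit 2299741004) (nat_lit 76) (nat_lit 999684749) (nat_lit 6) (nat_lit 4) (nat_lit 7) (nat_lit 5) (nat_lit 7) (nat_lit 4) (nat_lit 488) (nat_lit 273) (nat_lit 259)) (XT.lf (nat_lit 0) (nat_lit 4149009481) (nat_lit 152) (nat_lit 60200293322) (nat_lit 0) (nat_lit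 2815099145) (nat_lit 4) (nat_lit 5) (nat_lit 6) (nat_lit 4) (nat_lit 4) (nat_lit 4) (nat_lit 489) (nat_lit 273) (nat_lit 258))) (XT.nd (nat_lit 78) (nat_lit 0) (nat_lit 0) (XT.lf (nat_lit 0) (nat_lit 9400709586) (nat_lit 152) (nat_lit 51624178458) (nat_lit 0) (nat_lit 7997168378) (nat_lit 4) (nat_lit 5) (nat_lit 6) (nat_lit 4) (nat_lit 4) (nat_lit 4) (nat_lit 490) (nat_lit 273) (nat_lit 257)) (XT.lf (nat_lit 0) (nat_lit 14724737778) (nat_lit 152) (nat_lit 42959667422) (nat_lit 0) (nat_lit 13253593783) (nat_lit 4) (nat_lit 5) (nat_lit 6) (nat_lit 4) (nat_lit 4) (nat_lit 4) (nat_lit 491) (nat_lit 273) (nat_lit 256))))) (XT.nd (nat_lit 51714) (nat_lit 0) (nat_lit 380) (XT.nd (nat_lit 51558) (nat_lit 0) (nat_lit 456) (XT.nd (nat_lit 78) (nat_lit 0) (nat_lit 0) (XT.lf (nat_lit 0) (nat_lit 20125746123) (nat_lit 152) (nat_lit 34199189281) (nat_lit 0) (nat_lit 18588968353) (nat_lit 4) (nat_lit 5) (nat_lit 6) (nat_lit 4)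 (nat_lit 4) (nat_lit 4) (nat_lit 492) (nat_lit 273) (nat_lit 255)) (XT.lf (nat_lit 0) (nat_lit 25608453946) (nat_lit 152) (nat_lit 25335089250) (nat_lit 0) (nat_lit 24007954066) (nat_lit 4) (nat_lit 5) (nat_lit 6) (nat_lit 4) (nat_lit 4) (nat_lit 4) (nat_lit 493) (nat_lit 273) (nat_lit 254))) (XT.nd (nat_lit 78) (nat_lit 0) (nat_lit 0) (XT.lf (nat_lit 0) (nat_lit 5099875641) (nat_lit 152) (nat_lit 11268428992) (nat_lit 0) (nat_lit 5099875641) (nat_lit 10) (nat_lit 5) (nat_lit 12) (nat_lit 4) (nat_lit 10) (nat_lit 4) (nat_lit 472) (nat_lit 274) (nat_lit 274)) (XT.lf (nat_lit 0) (nat_lit 16691276744) (nat_lit 152) (nat_lit 10771055227) (nat_lit 0) (nat_lit 16572734846) (nat_lit 10) (nat_lit 5) (nat_lit 12) (nat_lit 4) (nat_lit 10) (nat_lit 4) (nat_lit 473) (nat_lit 274) (nat_lit 273)))) (XT.nd (nat_lit 156) (nat_lit 0) (nat_lit 0) (XT.nd (nat_lit 78) (nat_lit 0) (nat_lit 0) (XT.lf (nat_lit 0) (nat_lit 1129353171)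 (nat_lit 76) (nat_lit 22137172940) (nat_lit 76) (nat_lit 21903541822) (nat_lit 9) (nat_lit 4) (nat_lit 10) (nat_lit 5) (nat_lit 10) (nat_lit 4) (nat_lit 474) (nat_lit 274) (nat_lit 272)) (XT.lf (nat_lit 0) (nat_lit 13369520629) (nat_lit 76) (nat_lit 16657662547) (nat_lit 76) (nat_lit 16312294321) (nat_lit 9) (nat_lit 4) (nat_lit 10) (nat_lit 5) (nat_lit 10) (nat_lit 4) (nat_lit 475) (nat_lit 274) (nat_lit 271))) (XT.nd (nat_lit 78) (nat_lit 0) (nat_lit 0) (XT.lf (nat_lit 0) (nat_lit 25745777319) (nat_lit 76) (nat_lit 11127779407) (nat_lit 76) (nat_lit 10673928553) (nat_lit 9) (nat_lit 4) (nat_lit 10) (nat_lit 5) (nat_lit 10) (nat_lit 4) (nat_lit 476) (nat_lit 274) (nat_lit 270)) (XT.lf (nat_lit 0) (nat_lit 38268937445) (nat_lit 76) (nat_lit 5542691584) (nat_lit 76) (nat_lit 4983517789) (nat_lit 9) (nat_lit 4) (nat_lit 10) (nat_lit 5) (nat_lit 10) (nat_lit 4) (nat_lit 477) (nat_lit 274) (nat_lit 269))))))))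
noncomputable def xc2 : XT := (XT.nd (nat_lit 53430) (nat_lit 0) (nat_lit 0) (XT.nd (nat_lit 1092) (nat_lit 0) (nat_lit 0) (XT.nd (nat_lit 546) (nat_lit 152) (nat_lit 0) (XT.nd (nat_lit 234) (nat_lit 76) (nat_lit 0) (XT.nd (nat_lit 78) (nat_lit 0) (nat_lit 0) (XT.lf (nat_lit 0) (nat_lit 758566775) (nat_lit 152) (nat_lit 49208075717) (nat_lit 0) (nat_lit 116402622) (nat_lit 7) (nat_lit 5) (nat_lit 9) (nat_lit 4) (nat_lit 7) (nat_lit 4) (nat_lit 478) (nat_lit 274) (nat_lit 268)) (XT.nd (nat_lit 78) (nat_lit 0) (nat_lit 0) (XT.lf (nat_lit 0) (nat_lit 6623616185) (nat_lit 152) (nat_lit 38897893835) (nat_lit 0) (nat_lit 5885066622) (nat_lit 7) (nat_lit 5) (nat_lit 9) (nat_lit 4) (nat_lit 7) (nat_lit 4) (nat_lit 479) (nat_lit 274) (nat_lit 267)) (XT.lf (nat_lit 0) (nat_lit 12556501985) (nat_lit 152) (nat_lit 28492183674) (nat_lit 0) (nat_lit 11724374354) (nat_lit 7) (nat_lit 5) (nat_lit 9) (nat_lit 4) (nat_lit 7) (nat_lit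 4) (nat_lit 480) (nat_lit 274) (nat_lit 266)))) (XT.nd (nat_lit 156) (nat_lit 76) (nat_lit 0) (XT.nd (nat_lit 78) (nat_lit 0) (nat_lit 0) (XT.lf (nat_lit 0) (nat_lit 18562408251) (nat_lit 152) (nat_lit 17981852865) (nat_lit 0) (nat_lit 17639428127) (nat_lit 7) (nat_lit 5) (nat_lit 9) (nat_lit 4) (nat_lit 7) (nat_lit 4) (nat_lit 481) (nat_lit 274) (nat_lit 265)) (XT.lf (nat_lit 0) (nat_lit 24646582862) (nat_lit 152) (nat_lit 7357717624) (nat_lit 0) (nat_lit 23635396433) (nat_lit 7) (nat_lit 5) (nat_lit 9) (nat_lit 4) (nat_lit 7) (nat_lit 4) (nat_lit 482) (nat_lit 274) (nat_lit 264))) (XT.nd (nat_lit 78) (nat_lit 0) (nat_lit 0) (XT.lf (nat_lit 0) (nat_lit 3456963074) (nat_lit 76) (nat_lit 27390609456) (nat_lit 76) (nat_lit 26293785838) (nat_lit 6) (nat_lit 4) (nat_lit 7) (nat_lit 5) (nat_lit 7) (nat_lit 4) (nat_lit 483) (nat_lit 274) (nat_lit 263)) (XT.lf (nat_lit 0) (nat_lit 14553191795) (nat_lit 76) (nat_lit 22657777616)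 (nat_lit 76) (nat_lit 21477811096) (nat_lit 6) (nat_lit 4) (nat_lit 7) (nat_lit 5) (nat_lit 7) (nat_lit 4) (nat_lit 484) (nat_lit 274) (nat_lit 262))))) (XT.nd (nat_lit 234) (nat_lit 152) (nat_lit 0) (XT.nd (nat_lit 78) (nat_lit 0) (nat_lit 0) (XT.lf (nat_lit 0) (nat_lit 25794231265) (nat_lit 76) (nat_lit 17875968003) (nat_lit 76) (nat_lit 16615280219) (nat_lit 6) (nat_lit 4) (nat_lit 7) (nat_lit 5) (nat_lit 7) (nat_lit 4) (nat_lit 485) (nat_lit 274) (nat_lit 261)) (XT.nd (nat_lit 78) (nat_lit 0) (nat_lit 0) (XT.lf (nat_lit 0) (nat_lit 37189903750) (nat_lit 76) (nat_lit 13041002337) (nat_lit 76) (nat_lit 11701944395) (nat_lit 6) (nat_lit 4) (nat_lit 7) (nat_lit 5) (nat_lit 7) (nat_lit 4) (nat_lit 486) (nat_lit 274) (nat_lit 260)) (XT.lf (nat_lit 0) (nat_lit 48750166636) (nat_lit 76) (nat_lit 8148655891) (nat_lit 76) (nat_lit 6733510416) (nat_lit 6) (nat_lit 4) (nat_lit 7) (nat_lit 5) (nat_lit 7) (nat_lit 4) (nat_lit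 487) (nat_lit 274) (nat_lit 259)))) (XT.nd (nat_lit 156) (nat_lit 0) (nat_lit 0) (XT.nd (nat_lit 78) (nat_lit 152) (nat_lit 0) (XT.lf (nat_lit 0) (nat_lit 60485121122) (nat_lit 76) (nat_lit 3194653799) (nat_lit 76) (nat_lit 1705636932) (nat_lit 6) (nat_lit 4) (nat_lit 7) (nat_lit 5) (nat_lit 7) (nat_lit 4) (nat_lit 488) (nat_lit 274) (nat_lit 258)) (XT.lf (nat_lit 0) (nat_lit 3389139187) (nat_lit 152) (nat_lit 61927568175) (nat_lit 0) (nat_lit 1873860872) (nat_lit 4) (nat_lit 5) (nat_lit 6) (nat_lit 4) (nat_lit 4) (nat_lit 4) (nat_lit 489) (nat_lit 274) (nat_lit 257))) (XT.nd (nat_lit 78) (nat_lit 0) (nat_lit 0) (XT.lf (nat_lit 0) (nat_lit 8598857560) (nat_lit 152) (nat_lit 53434649012) (nat_lit 0) (nat_lit 7015976457) (nat_lit 4) (nat_lit 5) (nat_lit 6) (nat_lit 4) (nat_lit 4) (nat_lit 4) (nat_lit 490) (nat_lit 274) (nat_lit 256)) (XT.lf (nat_lit 0) (nat_lit 13882126790) (nat_lit 152) (nat_lit 44850910502) (nat_lit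 0) (nat_lit 12233611913) (nat_lit 4) (nat_lit 5) (nat_lit 6) (nat_lit 4) (nat_lit 4) (nat_lit 4) (nat_lit 491) (nat_lit 274) (nat_lit 255)))))) (XT.nd (nat_lit 51792) (nat_lit 0) (nat_lit 228) (XT.nd (nat_lit 51480) (nat_lit 0) (nat_lit 380) (XT.nd (nat_lit 78) (nat_lit 0) (nat_lit 0) (XT.lf (nat_lit 0) (nat_lit 19243563326) (nat_lit 152) (nat_lit 36168852289) (nat_lit 0) (nat_lit 17531326338) (nat_lit 4) (nat_lit 5) (nat_lit 6) (nat_lit 4) (nat_lit 4) (nat_lit 4) (nat_lit 492) (nat_lit 274) (nat_lit 254)) (XT.nd (nat_lit 51324) (nat_lit 0) (nat_lit 608) (XT.lf (nat_lit 0) (nat_lit 24687851918) (nat_lit 152) (nat_lit 27380888110) (nat_lit 0) (nat_lit 22913748803) (nat_lit 4) (nat_lit 5) (nat_lit 6) (nat_lit 4) (nat_lit 4) (nat_lit 4) (nat_lit 493) (nat_lit 274) (nat_lit 253)) (XT.lf (nat_lit 0) (nat_lit 18042163194) (nat_lit 76) (nat_lit 1188994411) (nat_lit 76) (nat_lit 1188994411) (nat_lit 12) (nat_lit 4) (nat_lit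 13) (nat_lit 5) (nat_lit 13) (nat_lit 4) (nat_lit 470) (nat_lit 275) (nat_lit 275)))) (XT.nd (nat_lit 156) (nat_lit 76) (nat_lit 0) (XT.nd (nat_lit 78) (nat_lit 0) (nat_lit 0) (XT.lf (nat_lit 0) (nat_lit 3897519644) (nat_lit 152) (nat_lit 34200373648) (nat_lit 0) (nat_lit 3775421490) (nat_lit 10) (nat_lit 5) (nat_lit 12) (nat_lit 4) (nat_lit 10) (nat_lit 4) (nat_lit 471) (nat_lit 275) (nat_lit 274)) (XT.lf (nat_lit 0) (nat_lit 10260009917) (nat_lit 152) (nat_lit 22658837480) (nat_lit 0) (nat_lit 10019369865) (nat_lit 10) (nat_lit 5) (nat_lit 12) (nat_lit 4) (nat_lit 10) (nat_lit 4) (nat_lit 472) (nat_lit 275) (nat_lit 273))) (XT.nd (nat_lit 78) (nat_lit 76) (nat_lit 0) (XT.lf (nat_lit 0) (nat_lit 16691497008) (nat_lit 152) (nat_lit 11011461416) (nat_lit 0) (nat_lit 16335767736) (nat_lit 10) (nat_lit 5) (nat_lit 12) (nat_lit 4) (nat_lit 10) (nat_lit 4) (nat_lit 473) (nat_lit 275) (nat_lit 272)) (XT.lf (nat_lit 0)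 (nat_lit 766896779) (nat_lit 76) (nat_lit 22438075765) (nat_lit 76) (nat_lit 21970609385) (nat_lit 9) (nat_lit 4) (nat_lit 10) (nat_lit 5) (nat_lit 10) (nat_lit 4) (nat_lit 474) (nat_lit 275) (nat_lit 271))))) (XT.nd (nat_lit 234) (nat_lit 152) (nat_lit 0) (XT.nd (nat_lit 78) (nat_lit 0) (nat_lit 0) (XT.lf (nat_lit 0) (nat_lit 12893214093) (nat_lit 76) (nat_lit 17014729197) (nat_lit 76) (nat_lit 16438780189) (nat_lit 9) (nat_lit 4) (nat_lit 10) (nat_lit 5) (nat_lit 10) (nat_lit 4) (nat_lit 475) (nat_lit 275) (nat_lit 270)) (XT.nd (nat_lit 78) (nat_lit 0) (nat_lit 0) (XT.lf (nat_lit 0) (nat_lit 25158936662) (nat_lit 76) (nat_lit 11539374043) (nat_lit 76) (nat_lit 10858102094) (nat_lit 9) (nat_lit 4) (nat_lit 10) (nat_lit 5) (nat_lit 10) (nat_lit 4) (nat_lit 476) (nat_lit 275) (nat_lit 269)) (XT.lf (nat_lit 0) (nat_lit 37574782108) (nat_lit 76) (nat_lit 6007226013) (nat_lit 76) (nat_lit 5223698782) (nat_lit 9) (nat_lit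 4) (nat_lit 10) (nat_lit 5) (nat_lit 10) (nat_lit 4) (nat_lit 477) (nat_lit 275) (nat_lit 268)))) (XT.nd (nat_lit 156) (nat_lit 0) (nat_lit 0) (XT.nd (nat_lit 78) (nat_lit 0) (nat_lit 0) (XT.lf (nat_lit 0) (nat_lit 52412879) (nat_lit 76) (nat_lit 408285190) (nat_lit 152) (nat_lit 49634848868) (nat_lit 7) (nat_lit 5) (nat_lit 8) (nat_lit 5) (nat_lit 9) (nat_lit 4) (nat_lit 478) (nat_lit 275) (nat_lit 267)) (XT.lf (nat_lit 0) (nat_lit 6268564127) (nat_lit 152) (nat_lit 39834336444) (nat_lit 0) (nat_lit 5317894599) (nat_lit 7) (nat_lit 5) (nat_lit 9) (nat_lit 4) (nat_lit 7) (nat_lit 4) (nat_lit 479) (nat_lit 275) (nat_lit 266))) (XT.nd (nat_lit 78) (nat_lit 0) (nat_lit 0) (XT.lf (nat_lit 0) (nat_lit 12149742485) (nat_lit 152) (nat_lit 29530867986) (nat_lit 0) (nat_lit 11108220463) (nat_lit 7) (nat_lit 5) (nat_lit 9) (nat_lit 4) (nat_lit 7) (nat_lit 4) (nat_lit 480) (nat_lit 275) (nat_lit 265)) (XT.lf (nat_lit 0) (nat_lit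 18105447350) (nat_lit 152) (nat_lit 19119800966) (nat_lit 0) (nat_lit 16975719024) (nat_lit 7) (nat_lit 5) (nat_lit 9) (nat_lit 4) (nat_lit 7) (nat_lit 4) (nat_lit 481) (nat_lit 275) (nat_lit 264))))))) (XT.nd (nat_lit 52182) (nat_lit 0) (nat_lit 152) (XT.nd (nat_lit 546) (nat_lit 152) (nat_lit 0) (XT.nd (nat_lit 234) (nat_lit 0) (nat_lit 0) (XT.nd (nat_lit 78) (nat_lit 76) (nat_lit 0) (XT.lf (nat_lit 0) (nat_lit 24140882737) (nat_lit 152) (nat_lit 8592038336) (nat_lit 0) (nat_lit 22925517222) (nat_lit 7) (nat_lit 5) (nat_lit 9) (nat_lit 4) (nat_lit 7) (nat_lit 4) (nat_lit 482) (nat_lit 275) (nat_lit 263)) (XT.nd (nat_lit 78) (nat_lit 0) (nat_lit 0) (XT.lf (nat_lit 0) (nat_lit 2102649178) (nat_lit 76) (nat_lit 28178885099) (nat_lit 76) (nat_lit 26880376682) (nat_lit 6) (nat_lit 4) (nat_lit 7) (nat_lit 5) (nat_lit 7) (nat_lit 4) (nat_lit 483) (nat_lit 275) (nat_lit 262)) (XT.lf (nat_lit 0) (nat_lit 13106229567)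 (nat_lit 76) (nat_lit 23491869605) (nat_lit 76) (nat_lit 22112639924) (nat_lit 6) (nat_lit 4) (nat_lit 7) (nat_lit 5) (nat_lit 7) (nat_lit 4) (nat_lit 484) (nat_lit 275) (nat_lit 261)))) (XT.nd (nat_lit 156) (nat_lit 0) (nat_lit 0) (XT.nd (nat_lit 78) (nat_lit 0) (nat_lit 0) (XT.lf (nat_lit 0) (nat_lit 24257319200) (nat_lit 76) (nat_lit 18754541882) (nat_lit 76) (nat_lit 17296942042) (nat_lit 6) (nat_lit 4) (nat_lit 7) (nat_lit 5) (nat_lit 7) (nat_lit 4) (nat_lit 485) (nat_lit 275) (nat_lit 260)) (XT.lf (nat_lit 0) (nat_lit 35565661748) (nat_lit 76) (nat_lit 13962762516) (nat_lit 76) (nat_lit 12429075143) (nat_lit 6) (nat_lit 4) (nat_lit 7) (nat_lit 5) (nat_lit 7) (nat_lit 4) (nat_lit 486) (nat_lit 275) (nat_lit 259))) (XT.nd (nat_lit 78) (nat_lit 0) (nat_lit 0) (XT.lf (nat_lit 0) (nat_lit 47041138285) (nat_lit 76) (nat_lit 9112344517) (nat_lit 76) (nat_lit 7504785753) (nat_lit 6) (nat_lit 4) (nat_lit 7) (nat_lit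 5) (nat_lit 7) (nat_lit 4) (nat_lit 487) (nat_lit 275) (nat_lit 258)) (XT.lf (nat_lit 0) (nat_lit 58693775928) (nat_lit 76) (nat_lit 4199049655) (nat_lit 76) (nat_lit 2519771094) (nat_lit 6) (nat_lit 4) (nat_lit 7) (nat_lit 5) (nat_lit 7) (nat_lit 4) (nat_lit 488) (nat_lit 275) (nat_lit 257))))) (XT.nd (nat_lit 234) (nat_lit 0) (nat_lit 0) (XT.nd (nat_lit 78) (nat_lit 0) (nat_lit 0) (XT.lf (nat_lit 0) (nat_lit 2521249869) (nat_lit 152) (nat_lit 63875548547) (nat_lit 0) (nat_lit 823279546) (nat_lit 4) (nat_lit 5) (nat_lit 6) (nat_lit 4) (nat_lit 4) (nat_lit 4) (nat_lit 489) (nat_lit 275) (nat_lit 256)) (XT.nd (nat_lit 78) (nat_lit 0) (nat_lit 0) (XT.lf (nat_lit 0) (nat_lit 7690209279) (nat_lit 152) (nat_lit 55463401910) (nat_lit 0) (nat_lit 5926605182) (nat_lit 4) (nat_lit 5) (nat_lit 6) (nat_lit 4) (nat_lit 4) (nat_lit 4) (nat_lit 490) (nat_lit 275) (nat_lit 255)) (XT.lf (nat_lit 0) (nat_lit 12933906701) (nat_lit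 152) (nat_lit 46958083328) (nat_lit 0) (nat_lit 11106580492) (nat_lit 4) (nat_lit 5) (nat_lit 6) (nat_lit 4) (nat_lit 4) (nat_lit 4) (nat_lit 491) (nat_lit 275) (nat_lit 254)))) (XT.nd (nat_lit 51246) (nat_lit 0) (nat_lit 608) (XT.nd (nat_lit 78) (nat_lit 0) (nat_lit 0) (XT.lf (nat_lit 0) (nat_lit 18256924006) (nat_lit 152) (nat_lit 38352160967) (nat_lit 0) (nat_lit 16367731670) (nat_lit 4) (nat_lit 5) (nat_lit 6) (nat_lit 4) (nat_lit 4) (nat_lit 4) (nat_lit 492) (nat_lit 275) (nat_lit 253)) (XT.lf (nat_lit 0) (nat_lit 23663912373) (nat_lit 152) (nat_lit 29638115091) (nat_lit 0) (nat_lit 21714655836) (nat_lit 4) (nat_lit 5) (nat_lit 6) (nat_lit 4) (nat_lit 4) (nat_lit 4) (nat_lit 493) (nat_lit 275) (nat_lit 252))) (XT.nd (nat_lit 78) (nat_lit 0) (nat_lit 0) (XT.lf (nat_lit 0) (nat_lit 4935677429) (nat_lit 76) (nat_lit 7248198581) (nat_lit 76) (nat_lit 7248198581) (nat_lit 12) (nat_lit 4) (nat_lit 13) (nat_lit 5)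 (nat_lit 13) (nat_lit 4) (nat_lit 468) (nat_lit 276) (nat_lit 276)) (XT.lf (nat_lit 0) (nat_lit 22845376771) (nat_lit 76) (nat_lit 8560423846) (nat_lit 76) (nat_lit 8430889915) (nat_lit 12) (nat_lit 4) (nat_lit 13) (nat_lit 5) (nat_lit 13) (nat_lit 4) (nat_lit 469) (nat_lit 276) (nat_lit 275)))))) (XT.nd (nat_lit 546) (nat_lit 228) (nat_lit 0) (XT.nd (nat_lit 234) (nat_lit 76) (nat_lit 0) (XT.nd (nat_lit 78) (nat_lit 152) (nat_lit 0) (XT.lf (nat_lit 0) (nat_lit 35963653617) (nat_lit 76) (nat_lit 2566893070) (nat_lit 76) (nat_lit 2311598039) (nat_lit 12) (nat_lit 4) (nat_lit 13) (nat_lit 5) (nat_lit 13) (nat_lit 4) (nat_lit 470) (nat_lit 276) (nat_lit 274)) (XT.nd (nat_lit 78) (nat_lit 0) (nat_lit 0) (XT.lf (nat_lit 0) (nat_lit 3897746517) (nat_lit 152) (nat_lit 34447992023) (nat_lit 0) (nat_lit 3531345366) (nat_lit 10) (nat_lit 5) (nat_lit 12) (nat_lit 4) (nat_lit 10) (nat_lit 4) (nat_lit 471) (nat_lit 276) (nat_lit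 273)) (XT.lf (nat_lit 0) (nat_lit 10200198420) (nat_lit 152) (nat_lit 23024882549) (nat_lit 0) (nat_lit 9718708049) (nat_lit 10) (nat_lit 5) (nat_lit 12) (nat_lit 4) (nat_lit 10) (nat_lit 4) (nat_lit 472) (nat_lit 276) (nat_lit 272)))) (XT.nd (nat_lit 156) (nat_lit 0) (nat_lit 0) (XT.nd (nat_lit 78) (nat_lit 76) (nat_lit 0) (XT.lf (nat_lit 0) (nat_lit 16573395833) (nat_lit 152) (nat_lit 11492483859) (nat_lit 0) (nat_lit 15980168354) (nat_lit 10) (nat_lit 5) (nat_lit 12) (nat_lit 4) (nat_lit 10) (nat_lit 4) (nat_lit 473) (nat_lit 276) (nat_lit 271)) (XT.lf (nat_lit 0) (nat_lit 162450903) (nat_lit 76) (nat_lit 22862018241) (nat_lit 76) (nat_lit 22160308134) (nat_lit 9) (nat_lit 4) (nat_lit 10) (nat_lit 5) (nat_lit 10) (nat_lit 4) (nat_lit 474) (nat_lit 276) (nat_lit 270))) (XT.nd (nat_lit 78) (nat_lit 0) (nat_lit 0) (XT.lf (nat_lit 0) (nat_lit 12178234097) (nat_lit 76) (nat_lit 17493199659) (nat_lit 76) (nat_lit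 16686166611) (nat_lit 9) (nat_lit 4) (nat_lit 10) (nat_lit 5) (nat_lit 10) (nat_lit 4) (nat_lit 475) (nat_lit 276) (nat_lit 269)) (XT.lf (nat_lit 0) (nat_lit 24336641986) (nat_lit 76) (nat_lit 12070784297) (nat_lit 76) (nat_lit 11161495967) (nat_lit 9) (nat_lit 4) (nat_lit 10) (nat_lit 5) (nat_lit 10) (nat_lit 4) (nat_lit 476) (nat_lit 276) (nat_lit 268))))) (XT.nd (nat_lit 312) (nat_lit 76) (nat_lit 0) (XT.nd (nat_lit 156) (nat_lit 76) (nat_lit 0) (XT.nd (nat_lit 78) (nat_lit 76) (nat_lit 0) (XT.lf (nat_lit 0) (nat_lit 36648298423) (nat_lit 76) (nat_lit 6590034122) (nat_lit 76) (nat_lit 5581468820) (nat_lit 9) (nat_lit 4) (nat_lit 10) (nat_lit 5) (nat_lit 10) (nat_lit 4) (nat_lit 477) (nat_lit 276) (nat_lit 267)) (XT.lf (nat_lit 0) (nat_lit 57643365) (nat_lit 152) (nat_lit 987934680) (nat_lit 76) (nat_lit 49065735713) (nat_lit 8) (nat_lit 5) (nat_lit 10) (nat_lit 5) (nat_lit 9) (nat_lit 4) (nat_lit 478) (nat_lit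 276) (nat_lit 266))) (XT.nd (nat_lit 78) (nat_lit 0) (nat_lit 0) (XT.lf (nat_lit 0) (nat_lit 5797894400) (nat_lit 152) (nat_lit 41006422988) (nat_lit 0) (nat_lit 4634274223) (nat_lit 7) (nat_lit 5) (nat_lit 9) (nat_lit 4) (nat_lit 7) (nat_lit 4) (nat_lit 479) (nat_lit 276) (nat_lit 265)) (XT.lf (nat_lit 0) (nat_lit 11628871357) (nat_lit 152) (nat_lit 30802218319) (nat_lit 0) (nat_lit 10377044876) (nat_lit 7) (nat_lit 5) (nat_lit 9) (nat_lit 4) (nat_lit 7) (nat_lit 4) (nat_lit 480) (nat_lit 276) (nat_lit 264)))) (XT.nd (nat_lit 156) (nat_lit 76) (nat_lit 0) (XT.nd (nat_lit 78) (nat_lit 0) (nat_lit 0) (XT.lf (nat_lit 0) (nat_lit 17535836998) (nat_lit 152) (nat_lit 20487523911) (nat_lit 0) (nat_lit 16198373329) (nat_lit 7) (nat_lit 5) (nat_lit 9) (nat_lit 4) (nat_lit 7) (nat_lit 4) (nat_lit 481) (nat_lit 276) (nat_lit 263)) (XT.lf (nat_lit 0) (nat_lit 23523952750) (nat_lit 152) (nat_lit 10053326923) (nat_lit 0) (nat_lit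 22103346179) (nat_lit 7) (nat_lit 5) (nat_lit 9) (nat_lit 4) (nat_lit 7) (nat_lit 4) (nat_lit 482) (nat_lit 276) (nat_lit 262))) (XT.nd (nat_lit 78) (nat_lit 0) (nat_lit 0) (XT.lf (nat_lit 0) (nat_lit 519629752) (nat_lit 76) (nat_lit 29083816194) (nat_lit 76) (nat_lit 27582488359) (nat_lit 6) (nat_lit 4) (nat_lit 7) (nat_lit 5) (nat_lit 7) (nat_lit 4) (nat_lit 483) (nat_lit 276) (nat_lit 261)) (XT.lf (nat_lit 0) (nat_lit 11433260305) (nat_lit 76) (nat_lit 24441282589) (nat_lit 76) (nat_lit 22861584595) (nat_lit 6) (nat_lit 4) (nat_lit 7) (nat_lit 5) (nat_lit 7) (nat_lit 4) (nat_lit 484) (nat_lit 276) (nat_lit 260))))))))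
noncomputable def xc3 : XT := (XT.nd (nat_lit 53196) (nat_lit 0) (nat_lit 0) (XT.nd (nat_lit 52026) (nat_lit 0) (nat_lit 152) (XT.nd (nat_lit 546) (nat_lit 0) (nat_lit 0) (XT.nd (nat_lit 234) (nat_lit 152) (nat_lit 0) (XT.nd (nat_lit 78) (nat_lit 0) (nat_lit 0) (XT.lf (nat_lit 0) (nat_lit 22497019999) (nat_lit 76) (nat_lit 19747141166) (nat_lit 76) (nat_lit 18091355639) (nat_lit 6) (nat_lit 4) (nat_lit 7) (nat_lit 5) (nat_lit 7) (nat_lit 4) (nat_lit 485) (nat_lit 276) (nat_lit 259)) (XT.nd (nat_lit 78) (nat_lit 0) (nat_lit 0) (XT.lf (nat_lit 0) (nat_lit 33720576199) (nat_lit 76) (nat_lit 14997290248) (nat_lit 76) (nat_lit 13267633329) (nat_lit 6) (nat_lit 4) (nat_lit 7) (nat_lit 5) (nat_lit 7) (nat_lit 4) (nat_lit 486) (nat_lit 276) (nat_lit 258)) (XT.lf (nat_lit 0) (nat_lit 45113735894) (nat_lit 76) (nat_lit 10187579479) (nat_lit 76) (nat_lit 8386202763) (nat_lit 6) (nat_lit 4) (nat_lit 7) (nat_lit 5) (nat_lit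 7) (nat_lit 4) (nat_lit 487) (nat_lit 276) (nat_lit 257)))) (XT.nd (nat_lit 156) (nat_lit 0) (nat_lit 0) (XT.nd (nat_lit 78) (nat_lit 152) (nat_lit 0) (XT.lf (nat_lit 0) (nat_lit 56686454272) (nat_lit 76) (nat_lit 5313806200) (nat_lit 76) (nat_lit 3442798612) (nat_lit 6) (nat_lit 4) (nat_lit 7) (nat_lit 5) (nat_lit 7) (nat_lit 4) (nat_lit 488) (nat_lit 276) (nat_lit 256)) (XT.lf (nat_lit 0) (nat_lit 1203611638) (nat_lit 76) (nat_lit 344280979) (nat_lit 152) (nat_lit 65704965018) (nat_lit 4) (nat_lit 5) (nat_lit 5) (nat_lit 5) (nat_lit 6) (nat_lit 4) (nat_lit 489) (nat_lit 276) (nat_lit 255))) (XT.nd (nat_lit 78) (nat_lit 0) (nat_lit 0) (XT.lf (nat_lit 0) (nat_lit 6673970779) (nat_lit 152) (nat_lit 57712209849) (nat_lit 0) (nat_lit 4728102673) (nat_lit 4) (nat_lit 5) (nat_lit 6) (nat_lit 4) (nat_lit 4) (nat_lit 4) (nat_lit 490) (nat_lit 276) (nat_lit 254)) (XT.lf (nat_lit 0) (nat_lit 11879248970) (nat_lit 152) (nat_lit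 49283027118) (nat_lit 0) (nat_lit 9871514736) (nat_lit 4) (nat_lit 5) (nat_lit 6) (nat_lit 4) (nat_lit 4) (nat_lit 4) (nat_lit 491) (nat_lit 276) (nat_lit 253))))) (XT.nd (nat_lit 51168) (nat_lit 0) (nat_lit 608) (XT.nd (nat_lit 78) (nat_lit 0) (nat_lit 0) (XT.lf (nat_lit 0) (nat_lit 17164966050) (nat_lit 152) (nat_lit 40751023061) (nat_lit 0) (nat_lit 15097167615) (nat_lit 4) (nat_lit 5) (nat_lit 6) (nat_lit 4) (nat_lit 4) (nat_lit 4) (nat_lit 492) (nat_lit 276) (nat_lit 252)) (XT.nd (nat_lit 51012) (nat_lit 0) (nat_lit 684) (XT.lf (nat_lit 0) (nat_lit 22535740607) (nat_lit 152) (nat_lit 32108742528) (nat_lit 0) (nat_lit 20409627414) (nat_lit 4) (nat_lit 5) (nat_lit 6) (nat_lit 4) (nat_lit 4) (nat_lit 4) (nat_lit 493) (nat_lit 276) (nat_lit 251)) (XT.lf (nat_lit 0) (nat_lit 5437628737) (nat_lit 152) (nat_lit 7628739317) (nat_lit 0) (nat_lit 5437628737) (nat_lit 13) (nat_lit 5) (nat_lit 15) (nat_lit 4) (nat_lit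 13) (nat_lit 4) (nat_lit 466) (nat_lit 277) (nat_lit 277)))) (XT.nd (nat_lit 156) (nat_lit 0) (nat_lit 0) (XT.nd (nat_lit 78) (nat_lit 76) (nat_lit 0) (XT.lf (nat_lit 0) (nat_lit 17572218138) (nat_lit 152) (nat_lit 2911798150) (nat_lit 0) (nat_lit 17438798189) (nat_lit 13) (nat_lit 5) (nat_lit 15) (nat_lit 4) (nat_lit 13) (nat_lit 4) (nat_lit 467) (nat_lit 277) (nat_lit 276)) (XT.lf (nat_lit 0) (nat_lit 9747061906) (nat_lit 76) (nat_lit 14690968537) (nat_lit 76) (nat_lit 14428014655) (nat_lit 12) (nat_lit 4) (nat_lit 13) (nat_lit 5) (nat_lit 13) (nat_lit 4) (nat_lit 468) (nat_lit 277) (nat_lit 275))) (XT.nd (nat_lit 78) (nat_lit 0) (nat_lit 0) (XT.lf (nat_lit 0) (nat_lit 22600411047) (nat_lit 76) (nat_lit 8814365535) (nat_lit 76) (nat_lit 8425650555) (nat_lit 12) (nat_lit 4) (nat_lit 13) (nat_lit 5) (nat_lit 13) (nat_lit 4) (nat_lit 469) (nat_lit 277) (nat_lit 274)) (XT.lf (nat_lit 0) (nat_lit 35601529863) (nat_lit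 76) (nat_lit 2878475841) (nat_lit 76) (nat_lit 2367662706) (nat_lit 12) (nat_lit 4) (nat_lit 13) (nat_lit 5) (nat_lit 13) (nat_lit 4) (nat_lit 470) (nat_lit 277) (nat_lit 273)))))) (XT.nd (nat_lit 546) (nat_lit 228) (nat_lit 0) (XT.nd (nat_lit 234) (nat_lit 76) (nat_lit 0) (XT.nd (nat_lit 78) (nat_lit 0) (nat_lit 0) (XT.lf (nat_lit 0) (nat_lit 3776102306) (nat_lit 152) (nat_lit 34943445138) (nat_lit 0) (nat_lit 3165078003) (nat_lit 10) (nat_lit 5) (nat_lit 12) (nat_lit 4) (nat_lit 10) (nat_lit 4) (nat_lit 471) (nat_lit 277) (nat_lit 272)) (XT.nd (nat_lit 78) (nat_lit 0) (nat_lit 0) (XT.lf (nat_lit 0) (nat_lit 10020264530) (nat_lit 152) (nat_lit 23635313038) (nat_lit 0) (nat_lit 9297503120) (nat_lit 10) (nat_lit 5) (nat_lit 12) (nat_lit 4) (nat_lit 10) (nat_lit 4) (nat_lit 472) (nat_lit 277) (nat_lit 271)) (XT.lf (nat_lit 0) (nat_lit 16336870022) (nat_lit 152) (nat_lit 12214542865) (nat_lit 0) (nat_lit 15505625982)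 (nat_lit 10) (nat_lit 5) (nat_lit 12) (nat_lit 4) (nat_lit 10) (nat_lit 4) (nat_lit 473) (nat_lit 277) (nat_lit 270)))) (XT.nd (nat_lit 156) (nat_lit 0) (nat_lit 0) (XT.nd (nat_lit 78) (nat_lit 76) (nat_lit 0) (XT.lf (nat_lit 0) (nat_lit 22731438143) (nat_lit 152) (nat_lit 671155305) (nat_lit 0) (nat_lit 21794871164) (nat_lit 10) (nat_lit 5) (nat_lit 12) (nat_lit 4) (nat_lit 10) (nat_lit 4) (nat_lit 474) (nat_lit 277) (nat_lit 269)) (XT.lf (nat_lit 0) (nat_lit 11223955901) (nat_lit 76) (nat_lit 18093492012) (nat_lit 76) (nat_lit 17054669750) (nat_lit 9) (nat_lit 4) (nat_lit 10) (nat_lit 5) (nat_lit 10) (nat_lit 4) (nat_lit 475) (nat_lit 277) (nat_lit 268))) (XT.nd (nat_lit 78) (nat_lit 0) (nat_lit 0) (XT.lf (nat_lit 0) (nat_lit 23278174780) (nat_lit 76) (nat_lit 12722474506) (nat_lit 76) (nat_lit 11584375272) (nat_lit 9) (nat_lit 4) (nat_lit 10) (nat_lit 5) (nat_lit 10) (nat_lit 4) (nat_lit 476) (nat_lit 277) (nat_lit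 267)) (XT.lf (nat_lit 0) (nat_lit 35488676838) (nat_lit 76) (nat_lit 7291625163) (nat_lit 76) (nat_lit 6057140518) (nat_lit 9) (nat_lit 4) (nat_lit 10) (nat_lit 5) (nat_lit 10) (nat_lit 4) (nat_lit 477) (nat_lit 277) (nat_lit 266))))) (XT.nd (nat_lit 312) (nat_lit 76) (nat_lit 0) (XT.nd (nat_lit 156) (nat_lit 0) (nat_lit 0) (XT.nd (nat_lit 78) (nat_lit 152) (nat_lit 0) (XT.lf (nat_lit 0) (nat_lit 47866131446) (nat_lit 76) (nat_lit 1796198581) (nat_lit 76) (nat_lit 468135867) (nat_lit 9) (nat_lit 4) (nat_lit 10) (nat_lit 5) (nat_lit 10) (nat_lit 4) (nat_lit 478) (nat_lit 277) (nat_lit 265)) (XT.lf (nat_lit 0) (nat_lit 5211195737) (nat_lit 152) (nat_lit 42415177621) (nat_lit 0) (nat_lit 3833608157) (nat_lit 7) (nat_lit 5) (nat_lit 9) (nat_lit 4) (nat_lit 7) (nat_lit 4) (nat_lit 479) (nat_lit 277) (nat_lit 264))) (XT.nd (nat_lit 78) (nat_lit 0) (nat_lit 0) (XT.lf (nat_lit 0) (nat_lit 10993433470) (nat_lit 152) (nat_lit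 32307345563) (nat_lit 0) (nat_lit 9530208702) (nat_lit 7) (nat_lit 5) (nat_lit 9) (nat_lit 4) (nat_lit 7) (nat_lit 4) (nat_lit 480) (nat_lit 277) (nat_lit 263)) (XT.lf (nat_lit 0) (nat_lit 16853079477) (nat_lit 152) (nat_lit 22086216796) (nat_lit 0) (nat_lit 15306711807) (nat_lit 7) (nat_lit 5) (nat_lit 9) (nat_lit 4) (nat_lit 7) (nat_lit 4) (nat_lit 481) (nat_lit 277) (nat_lit 262)))) (XT.nd (nat_lit 156) (nat_lit 76) (nat_lit 0) (XT.nd (nat_lit 78) (nat_lit 0) (nat_lit 0) (XT.lf (nat_lit 0) (nat_lit 22795253836) (nat_lit 152) (nat_lit 11742860237) (nat_lit 0) (nat_lit 21168164902) (nat_lit 7) (nat_lit 5) (nat_lit 9) (nat_lit 4) (nat_lit 7) (nat_lit 4) (nat_lit 482) (nat_lit 277) (nat_lit 261)) (XT.lf (nat_lit 0) (nat_lit 28825148738) (nat_lit 152) (nat_lit 1268238001) (nat_lit 0) (nat_lit 27119689645) (nat_lit 7) (nat_lit 5) (nat_lit 9) (nat_lit 4) (nat_lit 7) (nat_lit 4) (nat_lit 483) (nat_lit 277) (nat_lit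 260))) (XT.nd (nat_lit 78) (nat_lit 0) (nat_lit 0) (XT.lf (nat_lit 0) (nat_lit 9532822189) (nat_lit 76) (nat_lit 25506846153) (nat_lit 76) (nat_lit 23725299527) (nat_lit 6) (nat_lit 4) (nat_lit 7) (nat_lit 5) (nat_lit 7) (nat_lit 4) (nat_lit 484) (nat_lit 277) (nat_lit 259)) (XT.lf (nat_lit 0) (nat_lit 20511795536) (nat_lit 76) (nat_lit 20854633177) (nat_lit 76) (nat_lit 18999215159) (nat_lit 6) (nat_lit 4) (nat_lit 7) (nat_lit 5) (nat_lit 7) (nat_lit 4) (nat_lit 485) (nat_lit 277) (nat_lit 258))))))) (XT.nd (nat_lit 51870) (nat_lit 0) (nat_lit 152) (XT.nd (nat_lit 546) (nat_lit 0) (nat_lit 0) (XT.nd (nat_lit 234) (nat_lit 152) (nat_lit 0) (XT.nd (nat_lit 78) (nat_lit 0) (nat_lit 0) (XT.lf (nat_lit 0) (nat_lit 31653034893) (nat_lit 76) (nat_lit 16145489489) (nat_lit 76) (nat_lit 14218351674) (nat_lit 6) (nat_lit 4) (nat_lit 7) (nat_lit 5) (nat_lit 7) (nat_lit 4) (nat_lit 486) (nat_lit 277) (nat_lit 257)) (XT.nd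 (nat_lit 78) (nat_lit 0) (nat_lit 0) (XT.lf (nat_lit 0) (nat_lit 42966275323) (nat_lit 76) (nat_lit 11375300302) (nat_lit 76) (nat_lit 9378531616) (nat_lit 6) (nat_lit 4) (nat_lit 7) (nat_lit 5) (nat_lit 7) (nat_lit 4) (nat_lit 487) (nat_lit 277) (nat_lit 256)) (XT.lf (nat_lit 0) (nat_lit 54461402183) (nat_lit 76) (nat_lit 6539897491) (nat_lit 76) (nat_lit 4475526018) (nat_lit 6) (nat_lit 4) (nat_lit 7) (nat_lit 5) (nat_lit 7) (nat_lit 4) (nat_lit 488) (nat_lit 277) (nat_lit 255)))) (XT.nd (nat_lit 156) (nat_lit 0) (nat_lit 0) (XT.nd (nat_lit 78) (nat_lit 76) (nat_lit 0) (XT.lf (nat_lit 0) (nat_lit 485291057) (nat_lit 152) (nat_lit 1144864401) (nat_lit 76) (nat_lit 65658268212) (nat_lit 5) (nat_lit 5) (nat_lit 7) (nat_lit 5) (nat_lit 6) (nat_lit 4) (nat_lit 489) (nat_lit 277) (nat_lit 254)) (XT.lf (nat_lit 0) (nat_lit 5549254085) (nat_lit 152) (nat_lit 60183037805) (nat_lit 0) (nat_lit 3419421697) (nat_lit 4) (nat_lit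 5) (nat_lit 6) (nat_lit 4) (nat_lit 4) (nat_lit 4) (nat_lit 490) (nat_lit 277) (nat_lit 253))) (XT.nd (nat_lit 78) (nat_lit 0) (nat_lit 0) (XT.lf (nat_lit 0) (nat_lit 10717232050) (nat_lit 152) (nat_lit 51827773377) (nat_lit 0) (nat_lit 8527335462) (nat_lit 4) (nat_lit 5) (nat_lit 6) (nat_lit 4) (nat_lit 4) (nat_lit 4) (nat_lit 491) (nat_lit 277) (nat_lit 252)) (XT.lf (nat_lit 0) (nat_lit 15966735320) (nat_lit 152) (nat_lit 43367534663) (nat_lit 0) (nat_lit 13718523973) (nat_lit 4) (nat_lit 5) (nat_lit 6) (nat_lit 4) (nat_lit 4) (nat_lit 4) (nat_lit 492) (nat_lit 277) (nat_lit 251))))) (XT.nd (nat_lit 51012) (nat_lit 0) (nat_lit 608) (XT.nd (nat_lit 50856) (nat_lit 0) (nat_lit 684) (XT.lf (nat_lit 0) (nat_lit 21302350838) (nat_lit 152) (nat_lit 34794929220) (nat_lit 0) (nat_lit 18997523220) (nat_lit 4) (nat_lit 5) (nat_lit 6) (nat_lit 4) (nat_lit 4) (nat_lit 4) (nat_lit 493) (nat_lit 277) (nat_lit 250)) (XT.nd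 (nat_lit 78) (nat_lit 152) (nat_lit 0) (XT.lf (nat_lit 0) (nat_lit 15539531628) (nat_lit 76) (nat_lit 1046338976) (nat_lit 76) (nat_lit 1046338976) (nat_lit 15) (nat_lit 4) (nat_lit 16) (nat_lit 5) (nat_lit 16) (nat_lit 4) (nat_lit 464) (nat_lit 278) (nat_lit 278)) (XT.lf (nat_lit 0) (nat_lit 4385024565) (nat_lit 152) (nat_lit 27490967320) (nat_lit 0) (nat_lit 4247602016) (nat_lit 13) (nat_lit 5) (nat_lit 15) (nat_lit 4) (nat_lit 13) (nat_lit 4) (nat_lit 465) (nat_lit 278) (nat_lit 277)))) (XT.nd (nat_lit 156) (nat_lit 76) (nat_lit 0) (XT.nd (nat_lit 78) (nat_lit 0) (nat_lit 0) (XT.lf (nat_lit 0) (nat_lit 10948874871) (nat_lit 152) (nat_lit 15383002212) (nat_lit 0) (nat_lit 10678032373) (nat_lit 13) (nat_lit 5) (nat_lit 15) (nat_lit 4) (nat_lit 13) (nat_lit 4) (nat_lit 466) (nat_lit 278) (nat_lit 276)) (XT.lf (nat_lit 0) (nat_lit 17583888786) (nat_lit 152) (nat_lit 3159189278) (nat_lit 0) (nat_lit 17183512356)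 (nat_lit 13) (nat_lit 5) (nat_lit 15) (nat_lit 4) (nat_lit 13) (nat_lit 4) (nat_lit 467) (nat_lit 278) (nat_lit 275))) (XT.nd (nat_lit 78) (nat_lit 0) (nat_lit 0) (XT.lf (nat_lit 0) (nat_lit 9374074439) (nat_lit 76) (nat_lit 15011898791) (nat_lit 76) (nat_lit 14485761262) (nat_lit 12) (nat_lit 4) (nat_lit 13) (nat_lit 5) (nat_lit 13) (nat_lit 4) (nat_lit 468) (nat_lit 278) (nat_lit 274)) (XT.lf (nat_lit 0) (nat_lit 22110265552) (nat_lit 76) (nat_lit 9192936872) (nat_lit 76) (nat_lit 8544701189) (nat_lit 12) (nat_lit 4) (nat_lit 13) (nat_lit 5) (nat_lit 13) (nat_lit 4) (nat_lit 469) (nat_lit 278) (nat_lit 273)))))) (XT.nd (nat_lit 546) (nat_lit 228) (nat_lit 0) (XT.nd (nat_lit 234) (nat_lit 76) (nat_lit 0) (XT.nd (nat_lit 78) (nat_lit 152) (nat_lit 0) (XT.lf (nat_lit 0) (nat_lit 34997638708) (nat_lit 76) (nat_lit 3313009394) (nat_lit 76) (nat_lit 2546231814) (nat_lit 12) (nat_lit 4) (nat_lit 13) (nat_lit 5) (nat_lit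 13) (nat_lit 4) (nat_lit 470) (nat_lit 278) (nat_lit 272)) (XT.nd (nat_lit 78) (nat_lit 0) (nat_lit 0) (XT.lf (nat_lit 0) (nat_lit 3532480720) (nat_lit 152) (nat_lit 35687165915) (nat_lit 0) (nat_lit 2676299360) (nat_lit 10) (nat_lit 5) (nat_lit 12) (nat_lit 4) (nat_lit 10) (nat_lit 4) (nat_lit 471) (nat_lit 278) (nat_lit 271)) (XT.lf (nat_lit 0) (nat_lit 9720051024) (nat_lit 152) (nat_lit 24490662332) (nat_lit 0) (nat_lit 8755387035) (nat_lit 10) (nat_lit 5) (nat_lit 12) (nat_lit 4) (nat_lit 10) (nat_lit 4) (nat_lit 472) (nat_lit 278) (nat_lit 270)))) (XT.nd (nat_lit 156) (nat_lit 76) (nat_lit 0) (XT.nd (nat_lit 78) (nat_lit 0) (nat_lit 0) (XT.lf (nat_lit 0) (nat_lit 15981712902) (nat_lit 152) (nat_lit 13178269360) (nat_lit 0) (nat_lit 14911725972) (nat_lit 10) (nat_lit 5) (nat_lit 12) (nat_lit 4) (nat_lit 10) (nat_lit 4) (nat_lit 473) (nat_lit 278) (nat_lit 269)) (XT.lf (nat_lit 0) (nat_lit 22322937710) (nat_lit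 152) (nat_lit 1740102385) (nat_lit 0) (nat_lit 21150695499) (nat_lit 10) (nat_lit 5) (nat_lit 12) (nat_lit 4) (nat_lit 10) (nat_lit 4) (nat_lit 474) (nat_lit 278) (nat_lit 268))) (XT.nd (nat_lit 78) (nat_lit 0) (nat_lit 0) (XT.lf (nat_lit 0) (nat_lit 10029545669) (nat_lit 76) (nat_lit 18816130784) (nat_lit 76) (nat_lit 17544611600) (nat_lit 9) (nat_lit 4) (nat_lit 10) (nat_lit 5) (nat_lit 10) (nat_lit 4) (nat_lit 475) (nat_lit 278) (nat_lit 267)) (XT.lf (nat_lit 0) (nat_lit 21982610170) (nat_lit 76) (nat_lit 13495014110) (nat_lit 76) (nat_lit 12127109515) (nat_lit 9) (nat_lit 4) (nat_lit 10) (nat_lit 5) (nat_lit 10) (nat_lit 4) (nat_lit 476) (nat_lit 278) (nat_lit 266))))) (XT.nd (nat_lit 312) (nat_lit 76) (nat_lit 0) (XT.nd (nat_lit 156) (nat_lit 152) (nat_lit 0) (XT.nd (nat_lit 78) (nat_lit 0) (nat_lit 0) (XT.lf (nat_lit 0) (nat_lit 34094904094) (nat_lit 76) (nat_lit 8112612176) (nat_lit 76) (nat_lit 6651129513)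 (nat_lit 9) (nat_lit 4) (nat_lit 10) (nat_lit 5) (nat_lit 10) (nat_lit 4) (nat_lit 477) (nat_lit 278) (nat_lit 265)) (XT.lf (nat_lit 0) (nat_lit 46377010998) (nat_lit 76) (nat_lit 2664221913) (nat_lit 76) (nat_lit 1111886756) (nat_lit 9) (nat_lit 4) (nat_lit 10) (nat_lit 5) (nat_lit 10) (nat_lit 4) (nat_lit 478) (nat_lit 278) (nat_lit 264))) (XT.nd (nat_lit 78) (nat_lit 0) (nat_lit 0) (XT.lf (nat_lit 0) (nat_lit 4507955490) (nat_lit 152) (nat_lit 44061831294) (nat_lit 0) (nat_lit 2915196789) (nat_lit 7) (nat_lit 5) (nat_lit 9) (nat_lit 4) (nat_lit 7) (nat_lit 4) (nat_lit 479) (nat_lit 278) (nat_lit 263)) (XT.lf (nat_lit 0) (nat_lit 10242873588) (nat_lit 152) (nat_lit 34047564877) (nat_lit 0) (nat_lit 8566971986) (nat_lit 7) (nat_lit 5) (nat_lit 9) (nat_lit 4) (nat_lit 7) (nat_lit 4) (nat_lit 480) (nat_lit 278) (nat_lit 262)))) (XT.nd (nat_lit 156) (nat_lit 76) (nat_lit 0) (XT.nd (nat_lit 78) (nat_lit 0) (nat_lit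 0) (XT.lf (nat_lit 0) (nat_lit 16056578202) (nat_lit 152) (nat_lit 23917276540) (nat_lit 0) (nat_lit 14299955336) (nat_lit 7) (nat_lit 5) (nat_lit 9) (nat_lit 4) (nat_lit 7) (nat_lit 4) (nat_lit 481) (nat_lit 278) (nat_lit 261)) (XT.lf (nat_lit 0) (nat_lit 21954149266) (nat_lit 152) (nat_lit 13662114572) (nat_lit 0) (nat_lit 20119156241) (nat_lit 7) (nat_lit 5) (nat_lit 9) (nat_lit 4) (nat_lit 7) (nat_lit 4) (nat_lit 482) (nat_lit 278) (nat_lit 260))) (XT.nd (nat_lit 78) (nat_lit 76) (nat_lit 0) (XT.lf (nat_lit 0) (nat_lit 27940740000) (nat_lit 152) (nat_lit 3273118152) (nat_lit 0) (nat_lit 26029659442) (nat_lit 7) (nat_lit 5) (nat_lit 9) (nat_lit 4) (nat_lit 7) (nat_lit 4) (nat_lit 483) (nat_lit 278) (nat_lit 259)) (XT.lf (nat_lit 0) (nat_lit 7403254644) (nat_lit 76) (nat_lit 26689491371) (nat_lit 76) (nat_lit 24704539421) (nat_lit 6) (nat_lit 4) (nat_lit 7) (nat_lit 5) (nat_lit 7) (nat_lit 4) (nat_lit 484) (nat_lit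 278) (nat_lit 258))))))))
noncomputable def xc4 : XT := (XT.nd (nat_lit 52806) (nat_lit 0) (nat_lit 0) (XT.nd (nat_lit 51714) (nat_lit 0) (nat_lit 228) (XT.nd (nat_lit 546) (nat_lit 0) (nat_lit 0) (XT.nd (nat_lit 234) (nat_lit 152) (nat_lit 0) (XT.nd (nat_lit 78) (nat_lit 0) (nat_lit 0) (XT.lf (nat_lit 0) (nat_lit 18299911149) (nat_lit 76) (nat_lit 22077985625) (nat_lit 76) (nat_lit 20021313878) (nat_lit 6) (nat_lit 4) (nat_lit 7) (nat_lit 5) (nat_lit 7) (nat_lit 4) (nat_lit 485) (nat_lit 278) (nat_lit 257)) (XT.nd (nat_lit 78) (nat_lit 0) (nat_lit 0) (XT.lf (nat_lit 0) (nat_lit 29361231241) (nat_lit 76) (nat_lit 17408363519) (nat_lit 76) (nat_lit 15282060901) (nat_lit 6) (nat_lit 4) (nat_lit 7) (nat_lit 5) (nat_lit 7) (nat_lit 4) (nat_lit 486) (nat_lit 278) (nat_lit 256)) (XT.lf (nat_lit 0) (nat_lit 40596880152) (nat_lit 76) (nat_lit 12676544801) (nat_lit 76) (nat_lit 10482639396) (nat_lit 6) (nat_lit 4) (nat_lit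 7) (nat_lit 5) (nat_lit 7) (nat_lit 4) (nat_lit 487) (nat_lit 278) (nat_lit 255)))) (XT.nd (nat_lit 156) (nat_lit 152) (nat_lit 0) (XT.nd (nat_lit 78) (nat_lit 0) (nat_lit 0) (XT.lf (nat_lit 0) (nat_lit 52016675440) (nat_lit 76) (nat_lit 7878394872) (nat_lit 76) (nat_lit 5618855692) (nat_lit 6) (nat_lit 4) (nat_lit 7) (nat_lit 5) (nat_lit 7) (nat_lit 4) (nat_lit 488) (nat_lit 278) (nat_lit 254)) (XT.lf (nat_lit 0) (nat_lit 63630595565) (nat_lit 76) (nat_lit 3009721175) (nat_lit 76) (nat_lit 686459883) (nat_lit 6) (nat_lit 4) (nat_lit 7) (nat_lit 5) (nat_lit 7) (nat_lit 4) (nat_lit 489) (nat_lit 278) (nat_lit 253))) (XT.nd (nat_lit 78) (nat_lit 0) (nat_lit 0) (XT.lf (nat_lit 0) (nat_lit 4315076433) (nat_lit 152) (nat_lit 62878044755) (nat_lit 0) (nat_lit 1999418745) (nat_lit 4) (nat_lit 5) (nat_lit 6) (nat_lit 4) (nat_lit 4) (nat_lit 4) (nat_lit 490) (nat_lit 278) (nat_lit 252)) (XT.lf (nat_lit 0) (nat_lit 9446840589)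 (nat_lit 152) (nat_lit 54594545671) (nat_lit 0) (nat_lit 7072868142) (nat_lit 4) (nat_lit 5) (nat_lit 6) (nat_lit 4) (nat_lit 4) (nat_lit 4) (nat_lit 491) (nat_lit 278) (nat_lit 251))))) (XT.nd (nat_lit 50856) (nat_lit 0) (nat_lit 684) (XT.nd (nat_lit 78) (nat_lit 0) (nat_lit 0) (XT.lf (nat_lit 0) (nat_lit 14661184819) (nat_lit 152) (nat_lit 46203982046) (nat_lit 0) (nat_lit 12230596102) (nat_lit 4) (nat_lit 5) (nat_lit 6) (nat_lit 4) (nat_lit 4) (nat_lit 4) (nat_lit 492) (nat_lit 278) (nat_lit 250)) (XT.nd (nat_lit 50700) (nat_lit 0) (nat_lit 836) (XT.lf (nat_lit 0) (nat_lit 19962665348) (nat_lit 152) (nat_lit 37699022322) (nat_lit 0) (nat_lit 17477109378) (nat_lit 4) (nat_lit 5) (nat_lit 6) (nat_lit 4) (nat_lit 4) (nat_lit 4) (nat_lit 493) (nat_lit 278) (nat_lit 249)) (XT.lf (nat_lit 0) (nat_lit 2227062983) (nat_lit 76) (nat_lit 7291497821) (nat_lit 76) (nat_lit 7291497821) (nat_lit 15) (nat_lit 4) (nat_lit 16)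 (nat_lit 5) (nat_lit 16) (nat_lit 4) (nat_lit 462) (nat_lit 279) (nat_lit 279)))) (XT.nd (nat_lit 156) (nat_lit 152) (nat_lit 0) (XT.nd (nat_lit 78) (nat_lit 0) (nat_lit 0) (XT.lf (nat_lit 0) (nat_lit 17632860218) (nat_lit 76) (nat_lit 8471042873) (nat_lit 76) (nat_lit 8325251292) (nat_lit 15) (nat_lit 4) (nat_lit 16) (nat_lit 5) (nat_lit 16) (nat_lit 4) (nat_lit 463) (nat_lit 279) (nat_lit 278)) (XT.lf (nat_lit 0) (nat_lit 30954895063) (nat_lit 76) (nat_lit 2299380226) (nat_lit 76) (nat_lit 2012043420) (nat_lit 15) (nat_lit 4) (nat_lit 16) (nat_lit 5) (nat_lit 16) (nat_lit 4) (nat_lit 464) (nat_lit 279) (nat_lit 277))) (XT.nd (nat_lit 78) (nat_lit 0) (nat_lit 0) (XT.lf (nat_lit 0) (nat_lit 4397045331) (nat_lit 152) (nat_lit 27745780181) (nat_lit 0) (nat_lit 3984657608) (nat_lit 13) (nat_lit 5) (nat_lit 15) (nat_lit 4) (nat_lit 13) (nat_lit 4) (nat_lit 465) (nat_lit 279) (nat_lit 276)) (XT.lf (nat_lit 0) (nat_lit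 10898948888) (nat_lit 152) (nat_lit 15759682623) (nat_lit 0) (nat_lit 10357027233) (nat_lit 13) (nat_lit 5) (nat_lit 15) (nat_lit 4) (nat_lit 13) (nat_lit 4) (nat_lit 466) (nat_lit 279) (nat_lit 275)))))) (XT.nd (nat_lit 546) (nat_lit 228) (nat_lit 0) (XT.nd (nat_lit 234) (nat_lit 152) (nat_lit 0) (XT.nd (nat_lit 78) (nat_lit 76) (nat_lit 0) (XT.lf (nat_lit 0) (nat_lit 17473820328) (nat_lit 152) (nat_lit 3654187699) (nat_lit 0) (nat_lit 16806137574) (nat_lit 13) (nat_lit 5) (nat_lit 15) (nat_lit 4) (nat_lit 13) (nat_lit 4) (nat_lit 467) (nat_lit 279) (nat_lit 274)) (XT.nd (nat_lit 78) (nat_lit 0) (nat_lit 0) (XT.lf (nat_lit 0) (nat_lit 8752066549) (nat_lit 76) (nat_lit 15459468351) (nat_lit 76) (nat_lit 14669687443) (nat_lit 12) (nat_lit 4) (nat_lit 13) (nat_lit 5) (nat_lit 13) (nat_lit 4) (nat_lit 468) (nat_lit 279) (nat_lit 273)) (XT.lf (nat_lit 0) (nat_lit 21374512001) (nat_lit 76) (nat_lit 9696468648) (nat_lit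 76) (nat_lit 8788145843) (nat_lit 12) (nat_lit 4) (nat_lit 13) (nat_lit 5) (nat_lit 13) (nat_lit 4) (nat_lit 469) (nat_lit 279) (nat_lit 272)))) (XT.nd (nat_lit 156) (nat_lit 0) (nat_lit 0) (XT.nd (nat_lit 78) (nat_lit 152) (nat_lit 0) (XT.lf (nat_lit 0) (nat_lit 34151452478) (nat_lit 76) (nat_lit 3870873418) (nat_lit 76) (nat_lit 2847461392) (nat_lit 12) (nat_lit 4) (nat_lit 13) (nat_lit 5) (nat_lit 13) (nat_lit 4) (nat_lit 470) (nat_lit 279) (nat_lit 271)) (XT.lf (nat_lit 0) (nat_lit 3166668887) (nat_lit 152) (nat_lit 36679804205) (nat_lit 0) (nat_lit 2064582350) (nat_lit 10) (nat_lit 5) (nat_lit 12) (nat_lit 4) (nat_lit 10) (nat_lit 4) (nat_lit 471) (nat_lit 279) (nat_lit 270))) (XT.nd (nat_lit 78) (nat_lit 0) (nat_lit 0) (XT.lf (nat_lit 0) (nat_lit 9299295578) (nat_lit 152) (nat_lit 25591677823) (nat_lit 0) (nat_lit 8091886100) (nat_lit 10) (nat_lit 5) (nat_lit 12) (nat_lit 4) (nat_lit 10) (nat_lit 4) (nat_lit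 472) (nat_lit 279) (nat_lit 269)) (XT.lf (nat_lit 0) (nat_lit 15507614142) (nat_lit 152) (nat_lit 14384505436) (nat_lit 0) (nat_lit 14197949383) (nat_lit 10) (nat_lit 5) (nat_lit 12) (nat_lit 4) (nat_lit 10) (nat_lit 4) (nat_lit 473) (nat_lit 279) (nat_lit 268))))) (XT.nd (nat_lit 234) (nat_lit 152) (nat_lit 0) (XT.nd (nat_lit 78) (nat_lit 76) (nat_lit 0) (XT.lf (nat_lit 0) (nat_lit 21797049326) (nat_lit 152) (nat_lit 3048494367) (nat_lit 0) (nat_lit 20388107593) (nat_lit 10) (nat_lit 5) (nat_lit 12) (nat_lit 4) (nat_lit 10) (nat_lit 4) (nat_lit 474) (nat_lit 279) (nat_lit 267)) (XT.nd (nat_lit 78) (nat_lit 0) (nat_lit 0) (XT.lf (nat_lit 0) (nat_lit 8593959742) (nat_lit 76) (nat_lit 19661747407) (nat_lit 76) (nat_lit 18156420264) (nat_lit 9) (nat_lit 4) (nat_lit 10) (nat_lit 5) (nat_lit 10) (nat_lit 4) (nat_lit 475) (nat_lit 279) (nat_lit 266)) (XT.lf (nat_lit 0) (nat_lit 20448816109) (nat_lit 76) (nat_lit 14389078142)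 (nat_lit 76) (nat_lit 12790172931) (nat_lit 9) (nat_lit 4) (nat_lit 10) (nat_lit 5) (nat_lit 10) (nat_lit 4) (nat_lit 476) (nat_lit 279) (nat_lit 265)))) (XT.nd (nat_lit 156) (nat_lit 152) (nat_lit 0) (XT.nd (nat_lit 78) (nat_lit 0) (nat_lit 0) (XT.lf (nat_lit 0) (nat_lit 32465762330) (nat_lit 76) (nat_lit 9053712528) (nat_lit 76) (nat_lit 7363954823) (nat_lit 9) (nat_lit 4) (nat_lit 10) (nat_lit 5) (nat_lit 10) (nat_lit 4) (nat_lit 477) (nat_lit 279) (nat_lit 264)) (XT.lf (nat_lit 0) (nat_lit 44655298649) (nat_lit 76) (nat_lit 3650988595) (nat_lit 76) (nat_lit 1873024585) (nat_lit 9) (nat_lit 4) (nat_lit 10) (nat_lit 5) (nat_lit 10) (nat_lit 4) (nat_lit 478) (nat_lit 279) (nat_lit 263))) (XT.nd (nat_lit 78) (nat_lit 0) (nat_lit 0) (XT.lf (nat_lit 0) (nat_lit 3687559176) (nat_lit 152) (nat_lit 45947822829) (nat_lit 0) (nat_lit 1878237625) (nat_lit 7) (nat_lit 5) (nat_lit 9) (nat_lit 4) (nat_lit 7) (nat_lit 4) (nat_lit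 479) (nat_lit 279) (nat_lit 262)) (XT.lf (nat_lit 0) (nat_lit 9376535882) (nat_lit 152) (nat_lit 36024396842) (nat_lit 0) (nat_lit 7486493066) (nat_lit 7) (nat_lit 5) (nat_lit 9) (nat_lit 4) (nat_lit 7) (nat_lit 4) (nat_lit 480) (nat_lit 279) (nat_lit 261))))))) (XT.nd (nat_lit 51558) (nat_lit 0) (nat_lit 380) (XT.nd (nat_lit 546) (nat_lit 152) (nat_lit 0) (XT.nd (nat_lit 234) (nat_lit 76) (nat_lit 0) (XT.nd (nat_lit 78) (nat_lit 0) (nat_lit 0) (XT.lf (nat_lit 0) (nat_lit 15145637201) (nat_lit 152) (nat_lit 25982303095) (nat_lit 0) (nat_lit 13177224226) (nat_lit 7) (nat_lit 5) (nat_lit 9) (nat_lit 4) (nat_lit 7) (nat_lit 4) (nat_lit 481) (nat_lit 279) (nat_lit 260)) (XT.nd (nat_lit 78) (nat_lit 0) (nat_lit 0) (XT.lf (nat_lit 0) (nat_lit 20999904097) (nat_lit 152) (nat_lit 15812766944) (nat_lit 0) (nat_lit 18955403589) (nat_lit 7) (nat_lit 5) (nat_lit 9) (nat_lit 4) (nat_lit 7) (nat_lit 4) (nat_lit 482) (nat_lit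 279) (nat_lit 259)) (XT.lf (nat_lit 0) (nat_lit 26944451947) (nat_lit 152) (nat_lit 5506902385) (nat_lit 0) (nat_lit 24826080048) (nat_lit 7) (nat_lit 5) (nat_lit 9) (nat_lit 4) (nat_lit 7) (nat_lit 4) (nat_lit 483) (nat_lit 279) (nat_lit 258)))) (XT.nd (nat_lit 156) (nat_lit 0) (nat_lit 0) (XT.nd (nat_lit 78) (nat_lit 0) (nat_lit 0) (XT.lf (nat_lit 0) (nat_lit 5042696882) (nat_lit 76) (nat_lit 27990251622) (nat_lit 76) (nat_lit 25800159926) (nat_lit 6) (nat_lit 4) (nat_lit 7) (nat_lit 5) (nat_lit 7) (nat_lit 4) (nat_lit 484) (nat_lit 279) (nat_lit 257)) (XT.lf (nat_lit 0) (nat_lit 15859434122) (nat_lit 76) (nat_lit 23418267459) (nat_lit 76) (nat_lit 21158544891) (nat_lit 6) (nat_lit 4) (nat_lit 7) (nat_lit 5) (nat_lit 7) (nat_lit 4) (nat_lit 485) (nat_lit 279) (nat_lit 256))) (XT.nd (nat_lit 78) (nat_lit 0) (nat_lit 0) (XT.lf (nat_lit 0) (nat_lit 26843162695) (nat_lit 76) (nat_lit 18787015822) (nat_lit 76) (nat_lit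 16459690466) (nat_lit 6) (nat_lit 4) (nat_lit 7) (nat_lit 5) (nat_lit 7) (nat_lit 4) (nat_lit 486) (nat_lit 279) (nat_lit 255)) (XT.lf (nat_lit 0) (nat_lit 38003480035) (nat_lit 76) (nat_lit 14092449986) (nat_lit 76) (nat_lit 11699490856) (nat_lit 6) (nat_lit 4) (nat_lit 7) (nat_lit 5) (nat_lit 7) (nat_lit 4) (nat_lit 487) (nat_lit 279) (nat_lit 254))))) (XT.nd (nat_lit 234) (nat_lit 0) (nat_lit 0) (XT.nd (nat_lit 78) (nat_lit 152) (nat_lit 0) (XT.lf (nat_lit 0) (nat_lit 49350137874) (nat_lit 76) (nat_lit 9330467904) (nat_lit 76) (nat_lit 6873786663) (nat_lit 6) (nat_lit 4) (nat_lit 7) (nat_lit 5) (nat_lit 7) (nat_lit 4) (nat_lit 488) (nat_lit 279) (nat_lit 253)) (XT.nd (nat_lit 78) (nat_lit 152) (nat_lit 0) (XT.lf (nat_lit 0) (nat_lit 60893050768) (nat_lit 76) (nat_lit 4496908620) (nat_lit 76) (nat_lit 1978361252) (nat_lit 6) (nat_lit 4) (nat_lit 7) (nat_lit 5) (nat_lit 7) (nat_lit 4) (nat_lit 489) (nat_lit 279)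 (nat_lit 252)) (XT.lf (nat_lit 0) (nat_lit 2970359417) (nat_lit 152) (nat_lit 65799585560) (nat_lit 0) (nat_lit 466853039) (nat_lit 4) (nat_lit 5) (nat_lit 6) (nat_lit 4) (nat_lit 4) (nat_lit 4) (nat_lit 490) (nat_lit 279) (nat_lit 251)))) (XT.nd (nat_lit 156) (nat_lit 0) (nat_lit 0) (XT.nd (nat_lit 78) (nat_lit 0) (nat_lit 0) (XT.lf (nat_lit 0) (nat_lit 8066964533) (nat_lit 152) (nat_lit 57585761565) (nat_lit 0) (nat_lit 5506841885) (nat_lit 4) (nat_lit 5) (nat_lit 6) (nat_lit 4) (nat_lit 4) (nat_lit 4) (nat_lit 491) (nat_lit 279) (nat_lit 250)) (XT.lf (nat_lit 0) (nat_lit 13247173774) (nat_lit 152) (nat_lit 49262843660) (nat_lit 0) (nat_lit 10632083873) (nat_lit 4) (nat_lit 5) (nat_lit 6) (nat_lit 4) (nat_lit 4) (nat_lit 4) (nat_lit 492) (nat_lit 279) (nat_lit 249))) (XT.nd (nat_lit 50544) (nat_lit 0) (nat_lit 912) (XT.lf (nat_lit 0) (nat_lit 18515513536) (nat_lit 152) (nat_lit 40823559390) (nat_lit 0) (nat_lit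 15847057370) (nat_lit 4) (nat_lit 5) (nat_lit 6) (nat_lit 4) (nat_lit 4) (nat_lit 4) (nat_lit 493) (nat_lit 279) (nat_lit 248)) (XT.lf (nat_lit 0) (nat_lit 2776282731) (nat_lit 152) (nat_lit 10485153467) (nat_lit 0) (nat_lit 2776282731) (nat_lit 16) (nat_lit 5) (nat_lit 18) (nat_lit 4) (nat_lit 16) (nat_lit 4) (nat_lit 460) (nat_lit 280) (nat_lit 280)))))) (XT.nd (nat_lit 546) (nat_lit 304) (nat_lit 0) (XT.nd (nat_lit 234) (nat_lit 152) (nat_lit 0) (XT.nd (nat_lit 78) (nat_lit 76) (nat_lit 0) (XT.lf (nat_lit 0) (nat_lit 12280520785) (nat_lit 152) (nat_lit 8425146161) (nat_lit 0) (nat_lit 12130355456) (nat_lit 16) (nat_lit 5) (nat_lit 18) (nat_lit 4) (nat_lit 16) (nat_lit 4) (nat_lit 461) (nat_lit 280) (nat_lit 279)) (XT.nd (nat_lit 78) (nat_lit 0) (nat_lit 0) (XT.lf (nat_lit 0) (nat_lit 4326232726) (nat_lit 76) (nat_lit 14795898984) (nat_lit 76) (nat_lit 14499942073) (nat_lit 15) (nat_lit 4) (nat_lit 16) (nat_lit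 5) (nat_lit 16) (nat_lit 4) (nat_lit 462) (nat_lit 280) (nat_lit 278)) (XT.lf (nat_lit 0) (nat_lit 17380798784) (nat_lit 76) (nat_lit 8744856907) (nat_lit 76) (nat_lit 8307354772) (nat_lit 15) (nat_lit 4) (nat_lit 16) (nat_lit 5) (nat_lit 16) (nat_lit 4) (nat_lit 463) (nat_lit 280) (nat_lit 277)))) (XT.nd (nat_lit 156) (nat_lit 0) (nat_lit 0) (XT.nd (nat_lit 78) (nat_lit 152) (nat_lit 0) (XT.lf (nat_lit 0) (nat_lit 30582281984) (nat_lit 76) (nat_lit 2632330854) (nat_lit 76) (nat_lit 2057406171) (nat_lit 15) (nat_lit 4) (nat_lit 16) (nat_lit 5) (nat_lit 16) (nat_lit 4) (nat_lit 464) (nat_lit 280) (nat_lit 276)) (XT.lf (nat_lit 0) (nat_lit 4283674819) (nat_lit 152) (nat_lit 28255628555) (nat_lit 0) (nat_lit 3595961583) (nat_lit 13) (nat_lit 5) (nat_lit 15) (nat_lit 4) (nat_lit 13) (nat_lit 4) (nat_lit 465) (nat_lit 280) (nat_lit 275))) (XT.nd (nat_lit 78) (nat_lit 0) (nat_lit 0) (XT.lf (nat_lit 0) (nat_lit 10725435901)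 (nat_lit 152) (nat_lit 16387849007) (nat_lit 0) (nat_lit 9911961566) (nat_lit 13) (nat_lit 5) (nat_lit 15) (nat_lit 4) (nat_lit 13) (nat_lit 4) (nat_lit 466) (nat_lit 280) (nat_lit 274)) (XT.lf (nat_lit 0) (nat_lit 17241916588) (nat_lit 152) (nat_lit 4397225938) (nat_lit 0) (nat_lit 16306344099) (nat_lit 13) (nat_lit 5) (nat_lit 15) (nat_lit 4) (nat_lit 13) (nat_lit 4) (nat_lit 467) (nat_lit 280) (nat_lit 273))))) (XT.nd (nat_lit 312) (nat_lit 76) (nat_lit 0) (XT.nd (nat_lit 156) (nat_lit 152) (nat_lit 0) (XT.nd (nat_lit 78) (nat_lit 0) (nat_lit 0) (XT.lf (nat_lit 0) (nat_lit 7880494732) (nat_lit 76) (nat_lit 16034068295) (nat_lit 76) (nat_lit 14979953909) (nat_lit 12) (nat_lit 4) (nat_lit 13) (nat_lit 5) (nat_lit 13) (nat_lit 4) (nat_lit 468) (nat_lit 280) (nat_lit 272)) (XT.lf (nat_lit 0) (nat_lit 20392507506) (nat_lit 76) (nat_lit 10325400841) (nat_lit 76) (nat_lit 9156197233) (nat_lit 12) (nat_lit 4) (nat_lit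 13) (nat_lit 5) (nat_lit 13) (nat_lit 4) (nat_lit 469) (nat_lit 280) (nat_lit 271))) (XT.nd (nat_lit 78) (nat_lit 152) (nat_lit 0) (XT.lf (nat_lit 0) (nat_lit 33062231789) (nat_lit 76) (nat_lit 4552555367) (nat_lit 76) (nat_lit 3271614652) (nat_lit 12) (nat_lit 4) (nat_lit 13) (nat_lit 5) (nat_lit 13) (nat_lit 4) (nat_lit 470) (nat_lit 280) (nat_lit 270)) (XT.lf (nat_lit 0) (nat_lit 2678347165) (nat_lit 152) (nat_lit 37922227363) (nat_lit 0) (nat_lit 1329392462) (nat_lit 10) (nat_lit 5) (nat_lit 12) (nat_lit 4) (nat_lit 10) (nat_lit 4) (nat_lit 471) (nat_lit 280) (nat_lit 269)))) (XT.nd (nat_lit 156) (nat_lit 76) (nat_lit 0) (XT.nd (nat_lit 78) (nat_lit 0) (nat_lit 0) (XT.lf (nat_lit 0) (nat_lit 8757630542) (nat_lit 152) (nat_lit 26939321565) (nat_lit 0) (nat_lit 7306420557) (nat_lit 10) (nat_lit 5) (nat_lit 12) (nat_lit 4) (nat_lit 10) (nat_lit 4) (nat_lit 472) (nat_lit 280) (nat_lit 268)) (XT.lf (nat_lit 0) (nat_lit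 14914159482) (nat_lit 152) (nat_lit 15834305084) (nat_lit 0) (nat_lit 13363672525) (nat_lit 10) (nat_lit 5) (nat_lit 12) (nat_lit 4) (nat_lit 10) (nat_lit 4) (nat_lit 473) (nat_lit 280) (nat_lit 267))) (XT.nd (nat_lit 78) (nat_lit 76) (nat_lit 0) (XT.lf (nat_lit 0) (nat_lit 21153313476) (nat_lit 152) (nat_lit 4597474508) (nat_lit 0) (nat_lit 19506441109) (nat_lit 10) (nat_lit 5) (nat_lit 12) (nat_lit 4) (nat_lit 10) (nat_lit 4) (nat_lit 474) (nat_lit 280) (nat_lit 266)) (XT.lf (nat_lit 0) (nat_lit 6915943725) (nat_lit 76) (nat_lit 20631080769) (nat_lit 76) (nat_lit 18890630333) (nat_lit 9) (nat_lit 4) (nat_lit 10) (nat_lit 5) (nat_lit 10) (nat_lit 4) (nat_lit 475) (nat_lit 280) (nat_lit 265))))))))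
noncomputable def xc5 : XT := (XT.nd (nat_lit 52572) (nat_lit 0) (nat_lit 0) (XT.nd (nat_lit 1092) (nat_lit 152) (nat_lit 0) (XT.nd (nat_lit 546) (nat_lit 76) (nat_lit 0) (XT.nd (nat_lit 234) (nat_lit 152) (nat_lit 0) (XT.nd (nat_lit 78) (nat_lit 0) (nat_lit 0) (XT.lf (nat_lit 0) (nat_lit 18675452389) (nat_lit 76) (nat_lit 15405447824) (nat_lit 76) (nat_lit 13574144894) (nat_lit 9) (nat_lit 4) (nat_lit 10) (nat_lit 5) (nat_lit 10) (nat_lit 4) (nat_lit 476) (nat_lit 280) (nat_lit 264)) (XT.nd (nat_lit 78) (nat_lit 0) (nat_lit 0) (XT.lf (nat_lit 0) (nat_lit 30599828024) (nat_lit 76) (nat_lit 10115748540) (nat_lit 76) (nat_lit 8196239305) (nat_lit 9) (nat_lit 4) (nat_lit 10) (nat_lit 5) (nat_lit 10) (nat_lit 4) (nat_lit 477) (nat_lit 280) (nat_lit 263)) (XT.lf (nat_lit 0) (nat_lit 42699489988) (nat_lit 76) (nat_lit 4757360849) (nat_lit 76) (nat_lit 2752214425) (nat_lit 9) (nat_lit 4) (nat_lit 10) (nat_lit 5) (nat_lit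 10) (nat_lit 4) (nat_lit 478) (nat_lit 280) (nat_lit 262)))) (XT.nd (nat_lit 156) (nat_lit 0) (nat_lit 0) (XT.nd (nat_lit 78) (nat_lit 0) (nat_lit 0) (XT.lf (nat_lit 0) (nat_lit 2749289946) (nat_lit 152) (nat_lit 48074800181) (nat_lit 0) (nat_lit 721824582) (nat_lit 7) (nat_lit 5) (nat_lit 9) (nat_lit 4) (nat_lit 7) (nat_lit 4) (nat_lit 479) (nat_lit 280) (nat_lit 261)) (XT.lf (nat_lit 0) (nat_lit 8393663357) (nat_lit 152) (nat_lit 38239568785) (nat_lit 0) (nat_lit 6287827834) (nat_lit 7) (nat_lit 5) (nat_lit 9) (nat_lit 4) (nat_lit 7) (nat_lit 4) (nat_lit 480) (nat_lit 280) (nat_lit 260))) (XT.nd (nat_lit 78) (nat_lit 0) (nat_lit 0) (XT.lf (nat_lit 0) (nat_lit 14119460507) (nat_lit 152) (nat_lit 28283100855) (nat_lit 0) (nat_lit 11937537451) (nat_lit 7) (nat_lit 5) (nat_lit 9) (nat_lit 4) (nat_lit 7) (nat_lit 4) (nat_lit 481) (nat_lit 280) (nat_lit 259)) (XT.lf (nat_lit 0) (nat_lit 19931684520) (nat_lit 152) (nat_lit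 18196696565) (nat_lit 0) (nat_lit 17675890072) (nat_lit 7) (nat_lit 5) (nat_lit 9) (nat_lit 4) (nat_lit 7) (nat_lit 4) (nat_lit 482) (nat_lit 280) (nat_lit 258))))) (XT.nd (nat_lit 234) (nat_lit 0) (nat_lit 0) (XT.nd (nat_lit 78) (nat_lit 76) (nat_lit 0) (XT.lf (nat_lit 0) (nat_lit 25835414038) (nat_lit 152) (nat_lit 7971542551) (nat_lit 0) (nat_lit 23507899793) (nat_lit 7) (nat_lit 5) (nat_lit 9) (nat_lit 4) (nat_lit 7) (nat_lit 4) (nat_lit 483) (nat_lit 280) (nat_lit 257)) (XT.nd (nat_lit 78) (nat_lit 0) (nat_lit 0) (XT.lf (nat_lit 0) (nat_lit 2449086281) (nat_lit 76) (nat_lit 29410263494) (nat_lit 76) (nat_lit 27013118377) (nat_lit 6) (nat_lit 4) (nat_lit 7) (nat_lit 5) (nat_lit 7) (nat_lit 4) (nat_lit 484) (nat_lit 280) (nat_lit 256)) (XT.lf (nat_lit 0) (nat_lit 13188232001) (nat_lit 76) (nat_lit 24876649799) (nat_lit 76) (nat_lit 22411901895) (nat_lit 6) (nat_lit 4) (nat_lit 7) (nat_lit 5) (nat_lit 7) (nat_lit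 4) (nat_lit 485) (nat_lit 280) (nat_lit 255)))) (XT.nd (nat_lit 156) (nat_lit 0) (nat_lit 0) (XT.nd (nat_lit 78) (nat_lit 0) (nat_lit 0) (XT.lf (nat_lit 0) (nat_lit 24096629002) (nat_lit 76) (nat_lit 20282651044) (nat_lit 76) (nat_lit 17752269365) (nat_lit 6) (nat_lit 4) (nat_lit 7) (nat_lit 5) (nat_lit 7) (nat_lit 4) (nat_lit 486) (nat_lit 280) (nat_lit 254)) (XT.lf (nat_lit 0) (nat_lit 35183808893) (nat_lit 76) (nat_lit 15624253055) (nat_lit 76) (nat_lit 13030149265) (nat_lit 6) (nat_lit 4) (nat_lit 7) (nat_lit 5) (nat_lit 7) (nat_lit 4) (nat_lit 487) (nat_lit 280) (nat_lit 253))) (XT.nd (nat_lit 78) (nat_lit 0) (nat_lit 0) (XT.lf (nat_lit 0) (nat_lit 46459459501) (nat_lit 76) (nat_lit 10897385387) (nat_lit 76) (nat_lit 8241415470) (nat_lit 6) (nat_lit 4) (nat_lit 7) (nat_lit 5) (nat_lit 7) (nat_lit 4) (nat_lit 488) (nat_lit 280) (nat_lit 252)) (XT.lf (nat_lit 0) (nat_lit 57933433335) (nat_lit 76) (nat_lit 6097917767)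 (nat_lit 76) (nat_lit 3381883650) (nat_lit 6) (nat_lit 4) (nat_lit 7) (nat_lit 5) (nat_lit 7) (nat_lit 4) (nat_lit 489) (nat_lit 280) (nat_lit 251)))))) (XT.nd (nat_lit 50856) (nat_lit 0) (nat_lit 608) (XT.nd (nat_lit 234) (nat_lit 0) (nat_lit 0) (XT.nd (nat_lit 78) (nat_lit 0) (nat_lit 0) (XT.lf (nat_lit 0) (nat_lit 322401690) (nat_lit 76) (nat_lit 1203091199) (nat_lit 152) (nat_lit 67758686671) (nat_lit 4) (nat_lit 5) (nat_lit 5) (nat_lit 5) (nat_lit 6) (nat_lit 4) (nat_lit 490) (nat_lit 280) (nat_lit 250)) (XT.nd (nat_lit 78) (nat_lit 0) (nat_lit 0) (XT.lf (nat_lit 0) (nat_lit 6576398168) (nat_lit 152) (nat_lit 60804034746) (nat_lit 0) (nat_lit 3827888316) (nat_lit 4) (nat_lit 5) (nat_lit 6) (nat_lit 4) (nat_lit 4) (nat_lit 4) (nat_lit 491) (nat_lit 280) (nat_lit 249)) (XT.lf (nat_lit 0) (nat_lit 11723466642) (nat_lit 152) (nat_lit 52546792295) (nat_lit 0) (nat_lit 8921590526) (nat_lit 4) (nat_lit 5) (nat_lit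 6) (nat_lit 4) (nat_lit 4) (nat_lit 4) (nat_lit 492) (nat_lit 280) (nat_lit 248)))) (XT.nd (nat_lit 50466) (nat_lit 0) (nat_lit 912) (XT.nd (nat_lit 50388) (nat_lit 0) (nat_lit 1064) (XT.lf (nat_lit 0) (nat_lit 16959630903) (nat_lit 152) (nat_lit 44171270603) (nat_lit 0) (nat_lit 14105942879) (nat_lit 4) (nat_lit 5) (nat_lit 6) (nat_lit 4) (nat_lit 4) (nat_lit 4) (nat_lit 493) (nat_lit 280) (nat_lit 247)) (XT.lf (nat_lit 0) (nat_lit 7895836432) (nat_lit 76) (nat_lit 3707346450) (nat_lit 76) (nat_lit 3707346450) (nat_lit 18) (nat_lit 4) (nat_lit 19) (nat_lit 5) (nat_lit 19) (nat_lit 4) (nat_lit 458) (nat_lit 281) (nat_lit 281))) (XT.nd (nat_lit 78) (nat_lit 152) (nat_lit 0) (XT.lf (nat_lit 0) (nat_lit 29296210897) (nat_lit 76) (nat_lit 1101403188) (nat_lit 76) (nat_lit 942092791) (nat_lit 18) (nat_lit 4) (nat_lit 19) (nat_lit 5) (nat_lit 19) (nat_lit 4) (nat_lit 459) (nat_lit 281) (nat_lit 280)) (XT.lf (nat_lit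 0) (nat_lit 5641392136) (nat_lit 152) (nat_lit 21099466445) (nat_lit 0) (nat_lit 5336556518) (nat_lit 16) (nat_lit 5) (nat_lit 18) (nat_lit 4) (nat_lit 16) (nat_lit 4) (nat_lit 460) (nat_lit 281) (nat_lit 279))))) (XT.nd (nat_lit 312) (nat_lit 228) (nat_lit 0) (XT.nd (nat_lit 156) (nat_lit 0) (nat_lit 0) (XT.nd (nat_lit 78) (nat_lit 76) (nat_lit 0) (XT.lf (nat_lit 0) (nat_lit 12305421621) (nat_lit 152) (nat_lit 8679703253) (nat_lit 0) (nat_lit 11854794422) (nat_lit 16) (nat_lit 5) (nat_lit 18) (nat_lit 4) (nat_lit 16) (nat_lit 4) (nat_lit 461) (nat_lit 281) (nat_lit 278)) (XT.lf (nat_lit 0) (nat_lit 3942441255) (nat_lit 76) (nat_lit 15138838131) (nat_lit 76) (nat_lit 14546665707) (nat_lit 15) (nat_lit 4) (nat_lit 16) (nat_lit 5) (nat_lit 16) (nat_lit 4) (nat_lit 462) (nat_lit 281) (nat_lit 277))) (XT.nd (nat_lit 78) (nat_lit 0) (nat_lit 0) (XT.lf (nat_lit 0) (nat_lit 16876455668) (nat_lit 76) (nat_lit 9146932648)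 (nat_lit 76) (nat_lit 8417337676) (nat_lit 15) (nat_lit 4) (nat_lit 16) (nat_lit 5) (nat_lit 16) (nat_lit 4) (nat_lit 463) (nat_lit 281) (nat_lit 276)) (XT.lf (nat_lit 0) (nat_lit 29960898437) (nat_lit 76) (nat_lit 3091820764) (nat_lit 76) (nat_lit 2228805842) (nat_lit 15) (nat_lit 4) (nat_lit 16) (nat_lit 5) (nat_lit 16) (nat_lit 4) (nat_lit 464) (nat_lit 281) (nat_lit 275)))) (XT.nd (nat_lit 156) (nat_lit 76) (nat_lit 0) (XT.nd (nat_lit 78) (nat_lit 0) (nat_lit 0) (XT.lf (nat_lit 0) (nat_lit 4044813968) (nat_lit 152) (nat_lit 29020957941) (nat_lit 0) (nat_lit 3081174304) (nat_lit 13) (nat_lit 5) (nat_lit 15) (nat_lit 4) (nat_lit 13) (nat_lit 4) (nat_lit 465) (nat_lit 281) (nat_lit 274)) (XT.lf (nat_lit 0) (nat_lit 10428184297) (nat_lit 152) (nat_lit 17268050248) (nat_lit 0) (nat_lit 9342446479) (nat_lit 13) (nat_lit 5) (nat_lit 15) (nat_lit 4) (nat_lit 13) (nat_lit 4) (nat_lit 466) (nat_lit 281) (nat_lit 273)))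 (XT.nd (nat_lit 78) (nat_lit 76) (nat_lit 0) (XT.lf (nat_lit 0) (nat_lit 16887974933) (nat_lit 152) (nat_lit 5388953251) (nat_lit 0) (nat_lit 15683695218) (nat_lit 13) (nat_lit 5) (nat_lit 15) (nat_lit 4) (nat_lit 13) (nat_lit 4) (nat_lit 467) (nat_lit 281) (nat_lit 272)) (XT.lf (nat_lit 0) (nat_lit 6758597422) (nat_lit 76) (nat_lit 16736200703) (nat_lit 76) (nat_lit 15416831766) (nat_lit 12) (nat_lit 4) (nat_lit 13) (nat_lit 5) (nat_lit 13) (nat_lit 4) (nat_lit 468) (nat_lit 281) (nat_lit 271))))))) (XT.nd (nat_lit 1092) (nat_lit 228) (nat_lit 0) (XT.nd (nat_lit 546) (nat_lit 152) (nat_lit 0) (XT.nd (nat_lit 234) (nat_lit 76) (nat_lit 0) (XT.nd (nat_lit 78) (nat_lit 152) (nat_lit 0) (XT.lf (nat_lit 0) (nat_lit 19163394002) (nat_lit 76) (nat_lit 11080283004) (nat_lit 76) (nat_lit 9649176960) (nat_lit 12) (nat_lit 4) (nat_lit 13) (nat_lit 5) (nat_lit 13) (nat_lit 4) (nat_lit 469) (nat_lit 281) (nat_lit 270)) (XT.nd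 (nat_lit 78) (nat_lit 152) (nat_lit 0) (XT.lf (nat_lit 0) (nat_lit 31729024893) (nat_lit 76) (nat_lit 5358650885) (nat_lit 76) (nat_lit 3819062213) (nat_lit 12) (nat_lit 4) (nat_lit 13) (nat_lit 5) (nat_lit 13) (nat_lit 4) (nat_lit 470) (nat_lit 281) (nat_lit 269)) (XT.lf (nat_lit 0) (nat_lit 2067088864) (nat_lit 152) (nat_lit 39415521001) (nat_lit 0) (nat_lit 470087298) (nat_lit 10) (nat_lit 5) (nat_lit 12) (nat_lit 4) (nat_lit 10) (nat_lit 4) (nat_lit 471) (nat_lit 281) (nat_lit 268)))) (XT.nd (nat_lit 156) (nat_lit 76) (nat_lit 0) (XT.nd (nat_lit 78) (nat_lit 0) (nat_lit 0) (XT.lf (nat_lit 0) (nat_lit 8094582617) (nat_lit 152) (nat_lit 28534771110) (nat_lit 0) (nat_lit 6398304078) (nat_lit 10) (nat_lit 5) (nat_lit 12) (nat_lit 4) (nat_lit 10) (nat_lit 4) (nat_lit 472) (nat_lit 281) (nat_lit 267)) (XT.lf (nat_lit 0) (nat_lit 14200830368) (nat_lit 152) (nat_lit 17528935121) (nat_lit 0) (nat_lit 12408166418) (nat_lit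 10) (nat_lit 5) (nat_lit 12) (nat_lit 4) (nat_lit 10) (nat_lit 4) (nat_lit 473) (nat_lit 281) (nat_lit 266))) (XT.nd (nat_lit 78) (nat_lit 76) (nat_lit 0) (XT.lf (nat_lit 0) (nat_lit 20391167674) (nat_lit 152) (nat_lit 6388396285) (nat_lit 0) (nat_lit 18504925656) (nat_lit 10) (nat_lit 5) (nat_lit 12) (nat_lit 4) (nat_lit 10) (nat_lit 4) (nat_lit 474) (nat_lit 281) (nat_lit 265)) (XT.lf (nat_lit 0) (nat_lit 4994031391) (nat_lit 76) (nat_lit 21724977861) (nat_lit 76) (nat_lit 19747883350) (nat_lit 9) (nat_lit 4) (nat_lit 10) (nat_lit 5) (nat_lit 10) (nat_lit 4) (nat_lit 475) (nat_lit 281) (nat_lit 264))))) (XT.nd (nat_lit 234) (nat_lit 152) (nat_lit 0) (XT.nd (nat_lit 78) (nat_lit 0) (nat_lit 0) (XT.lf (nat_lit 0) (nat_lit 16660969469) (nat_lit 76) (nat_lit 16545011246) (nat_lit 76) (nat_lit 14479710430) (nat_lit 9) (nat_lit 4) (nat_lit 10) (nat_lit 5) (nat_lit 10) (nat_lit 4) (nat_lit 476) (nat_lit 281) (nat_lit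 263)) (XT.nd (nat_lit 78) (nat_lit 0) (nat_lit 0) (XT.lf (nat_lit 0) (nat_lit 28495470749) (nat_lit 76) (nat_lit 11299648204) (nat_lit 76) (nat_lit 9148710199) (nat_lit 9) (nat_lit 4) (nat_lit 10) (nat_lit 5) (nat_lit 10) (nat_lit 4) (nat_lit 477) (nat_lit 281) (nat_lit 262)) (XT.lf (nat_lit 0) (nat_lit 40507876058) (nat_lit 76) (nat_lit 5984305408) (nat_lit 76) (nat_lit 3750224502) (nat_lit 9) (nat_lit 4) (nat_lit 10) (nat_lit 5) (nat_lit 10) (nat_lit 4) (nat_lit 478) (nat_lit 281) (nat_lit 261)))) (XT.nd (nat_lit 156) (nat_lit 0) (nat_lit 0) (XT.nd (nat_lit 78) (nat_lit 0) (nat_lit 0) (XT.lf (nat_lit 0) (nat_lit 1131670210) (nat_lit 76) (nat_lit 566099435) (nat_lit 152) (nat_lit 49883964133) (nat_lit 7) (nat_lit 5) (nat_lit 8) (nat_lit 5) (nat_lit 9) (nat_lit 4) (nat_lit 479) (nat_lit 281) (nat_lit 260)) (XT.lf (nat_lit 0) (nat_lit 7293397193) (nat_lit 152) (nat_lit 40695016295) (nat_lit 0) (nat_lit 4969928912)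 (nat_lit 7) (nat_lit 5) (nat_lit 9) (nat_lit 4) (nat_lit 7) (nat_lit 4) (nat_lit 480) (nat_lit 281) (nat_lit 259))) (XT.nd (nat_lit 78) (nat_lit 0) (nat_lit 0) (XT.lf (nat_lit 0) (nat_lit 12977151461) (nat_lit 152) (nat_lit 30821680225) (nat_lit 0) (nat_lit 10579811788) (nat_lit 7) (nat_lit 5) (nat_lit 9) (nat_lit 4) (nat_lit 7) (nat_lit 4) (nat_lit 481) (nat_lit 281) (nat_lit 258)) (XT.lf (nat_lit 0) (nat_lit 18748557141) (nat_lit 152) (nat_lit 20815986479) (nat_lit 0) (nat_lit 16279497671) (nat_lit 7) (nat_lit 5) (nat_lit 9) (nat_lit 4) (nat_lit 7) (nat_lit 4) (nat_lit 482) (nat_lit 281) (nat_lit 257)))))) (XT.nd (nat_lit 546) (nat_lit 152) (nat_lit 0) (XT.nd (nat_lit 234) (nat_lit 0) (nat_lit 0) (XT.nd (nat_lit 78) (nat_lit 76) (nat_lit 0) (XT.lf (nat_lit 0) (nat_lit 24612657209) (nat_lit 152) (nat_lit 10669192218) (nat_lit 0) (nat_lit 22073966868) (nat_lit 7) (nat_lit 5) (nat_lit 9) (nat_lit 4) (nat_lit 7)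 (nat_lit 4) (nat_lit 483) (nat_lit 281) (nat_lit 256)) (XT.nd (nat_lit 78) (nat_lit 76) (nat_lit 0) (XT.lf (nat_lit 0) (nat_lit 30574575637) (nat_lit 152) (nat_lit 372431309) (nat_lit 0) (nat_lit 27968282509) (nat_lit 7) (nat_lit 5) (nat_lit 9) (nat_lit 4) (nat_lit 7) (nat_lit 4) (nat_lit 484) (nat_lit 281) (nat_lit 255)) (XT.lf (nat_lit 0) (nat_lit 10283970725) (nat_lit 76) (nat_lit 26454406960) (nat_lit 76) (nat_lit 23782480057) (nat_lit 6) (nat_lit 4) (nat_lit 7) (nat_lit 5) (nat_lit 7) (nat_lit 4) (nat_lit 485) (nat_lit 281) (nat_lit 254)))) (XT.nd (nat_lit 156) (nat_lit 0) (nat_lit 0) (XT.nd (nat_lit 78) (nat_lit 0) (nat_lit 0) (XT.lf (nat_lit 0) (nat_lit 21119230278) (nat_lit 76) (nat_lit 21896576051) (nat_lit 76) (nat_lit 19160927037) (nat_lit 6) (nat_lit 4) (nat_lit 7) (nat_lit 5) (nat_lit 7) (nat_lit 4) (nat_lit 486) (nat_lit 281) (nat_lit 253)) (XT.lf (nat_lit 0) (nat_lit 32135402937) (nat_lit 76) (nat_lit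 17273292476) (nat_lit 76) (nat_lit 14475777335) (nat_lit 6) (nat_lit 4) (nat_lit 7) (nat_lit 5) (nat_lit 7) (nat_lit 4) (nat_lit 487) (nat_lit 281) (nat_lit 252))) (XT.nd (nat_lit 78) (nat_lit 0) (nat_lit 0) (XT.lf (nat_lit 0) (nat_lit 43342114485) (nat_lit 76) (nat_lit 12580516473) (nat_lit 76) (nat_lit 9722937130) (nat_lit 6) (nat_lit 4) (nat_lit 7) (nat_lit 5) (nat_lit 7) (nat_lit 4) (nat_lit 488) (nat_lit 281) (nat_lit 251)) (XT.lf (nat_lit 0) (nat_lit 54749157194) (nat_lit 76) (nat_lit 7814147557) (nat_lit 76) (nat_lit 4898253456) (nat_lit 6) (nat_lit 4) (nat_lit 7) (nat_lit 5) (nat_lit 7) (nat_lit 4) (nat_lit 489) (nat_lit 281) (nat_lit 250))))) (XT.nd (nat_lit 50466) (nat_lit 0) (nat_lit 1064) (XT.nd (nat_lit 156) (nat_lit 0) (nat_lit 0) (XT.nd (nat_lit 78) (nat_lit 76) (nat_lit 0) (XT.lf (nat_lit 0) (nat_lit 2440853) (nat_lit 152) (nat_lit 2967555438) (nat_lit 76) (nat_lit 66364032880) (nat_lit 5) (nat_lit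 5) (nat_lit 7) (nat_lit 5) (nat_lit 6) (nat_lit 4) (nat_lit 490) (nat_lit 281) (nat_lit 249)) (XT.lf (nat_lit 0) (nat_lit 4973839055) (nat_lit 152) (nat_lit 64252177295) (nat_lit 0) (nat_lit 2034540391) (nat_lit 4) (nat_lit 5) (nat_lit 6) (nat_lit 4) (nat_lit 4) (nat_lit 4) (nat_lit 491) (nat_lit 281) (nat_lit 248))) (XT.nd (nat_lit 78) (nat_lit 0) (nat_lit 0) (XT.lf (nat_lit 0) (nat_lit 10088732028) (nat_lit 152) (nat_lit 56058697421) (nat_lit 0) (nat_lit 7097621456) (nat_lit 4) (nat_lit 5) (nat_lit 6) (nat_lit 4) (nat_lit 4) (nat_lit 4) (nat_lit 492) (nat_lit 281) (nat_lit 247)) (XT.lf (nat_lit 0) (nat_lit 15293657938) (nat_lit 152) (nat_lit 47745081145) (nat_lit 0) (nat_lit 12252244543) (nat_lit 4) (nat_lit 5) (nat_lit 6) (nat_lit 4) (nat_lit 4) (nat_lit 4) (nat_lit 493) (nat_lit 281) (nat_lit 246)))) (XT.nd (nat_lit 156) (nat_lit 0) (nat_lit 0) (XT.nd (nat_lit 78) (nat_lit 76) (nat_lit 0) (XT.lf (nat_lit 0)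 (nat_lit 4696967777) (nat_lit 152) (nat_lit 5232287261) (nat_lit 0) (nat_lit 4696967777) (nat_lit 19) (nat_lit 5) (nat_lit 21) (nat_lit 4) (nat_lit 19) (nat_lit 4) (nat_lit 456) (nat_lit 282) (nat_lit 282)) (XT.lf (nat_lit 0) (nat_lit 2428686204) (nat_lit 76) (nat_lit 13831304801) (nat_lit 76) (nat_lit 13667215091) (nat_lit 18) (nat_lit 4) (nat_lit 19) (nat_lit 5) (nat_lit 19) (nat_lit 4) (nat_lit 457) (nat_lit 282) (nat_lit 281))) (XT.nd (nat_lit 78) (nat_lit 0) (nat_lit 0) (XT.lf (nat_lit 0) (nat_lit 15663920043) (nat_lit 76) (nat_lit 7641249676) (nat_lit 76) (nat_lit 7317849569) (nat_lit 18) (nat_lit 4) (nat_lit 19) (nat_lit 5) (nat_lit 19) (nat_lit 4) (nat_lit 458) (nat_lit 282) (nat_lit 280)) (XT.lf (nat_lit 0) (nat_lit 29044426209) (nat_lit 76) (nat_lit 1388607601) (nat_lit 76) (nat_lit 910537206) (nat_lit 18) (nat_lit 4) (nat_lit 19) (nat_lit 5) (nat_lit 19) (nat_lit 4) (nat_lit 459) (nat_lit 282) (nat_lit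 279))))))))
noncomputable def xc6 : XT := (XT.nd (nat_lit 2262) (nat_lit 152) (nat_lit 0) (XT.nd (nat_lit 1092) (nat_lit 304) (nat_lit 0) (XT.nd (nat_lit 546) (nat_lit 228) (nat_lit 0) (XT.nd (nat_lit 234) (nat_lit 152) (nat_lit 0) (XT.nd (nat_lit 78) (nat_lit 76) (nat_lit 0) (XT.lf (nat_lit 0) (nat_lit 5603114158) (nat_lit 152) (nat_lit 21487057832) (nat_lit 0) (nat_lit 4993176561) (nat_lit 16) (nat_lit 5) (nat_lit 18) (nat_lit 4) (nat_lit 16) (nat_lit 4) (nat_lit 460) (nat_lit 282) (nat_lit 278)) (XT.nd (nat_lit 78) (nat_lit 76) (nat_lit 0) (XT.lf (nat_lit 0) (nat_lit 12205079721) (nat_lit 152) (nat_lit 9189039865) (nat_lit 0) (nat_lit 11453596899) (nat_lit 16) (nat_lit 5) (nat_lit 18) (nat_lit 4) (nat_lit 16) (nat_lit 4) (nat_lit 461) (nat_lit 282) (nat_lit 277)) (XT.lf (nat_lit 0) (nat_lit 3302416201) (nat_lit 76) (nat_lit 15612112738) (nat_lit 76) (nat_lit 14723207369) (nat_lit 15) (nat_lit 4) (nat_lit 16)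 (nat_lit 5) (nat_lit 16) (nat_lit 4) (nat_lit 462) (nat_lit 282) (nat_lit 276)))) (XT.nd (nat_lit 156) (nat_lit 152) (nat_lit 0) (XT.nd (nat_lit 78) (nat_lit 0) (nat_lit 0) (XT.lf (nat_lit 0) (nat_lit 16119390182) (nat_lit 76) (nat_lit 9677621425) (nat_lit 76) (nat_lit 8655296105) (nat_lit 15) (nat_lit 4) (nat_lit 16) (nat_lit 5) (nat_lit 16) (nat_lit 4) (nat_lit 463) (nat_lit 282) (nat_lit 275)) (XT.lf (nat_lit 0) (nat_lit 29090201463) (nat_lit 76) (nat_lit 3678251453) (nat_lit 76) (nat_lit 2526392202) (nat_lit 15) (nat_lit 4) (nat_lit 16) (nat_lit 5) (nat_lit 16) (nat_lit 4) (nat_lit 464) (nat_lit 282) (nat_lit 274))) (XT.nd (nat_lit 78) (nat_lit 0) (nat_lit 0) (XT.lf (nat_lit 0) (nat_lit 3680254063) (nat_lit 152) (nat_lit 30042437073) (nat_lit 0) (nat_lit 2439845956) (nat_lit 13) (nat_lit 5) (nat_lit 15) (nat_lit 4) (nat_lit 13) (nat_lit 4) (nat_lit 465) (nat_lit 282) (nat_lit 273)) (XT.lf (nat_lit 0) (nat_lit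 10006934342) (nat_lit 152) (nat_lit 18401055452) (nat_lit 0) (nat_lit 8647984337) (nat_lit 13) (nat_lit 5) (nat_lit 15) (nat_lit 4) (nat_lit 13) (nat_lit 4) (nat_lit 466) (nat_lit 282) (nat_lit 272))))) (XT.nd (nat_lit 234) (nat_lit 152) (nat_lit 0) (XT.nd (nat_lit 78) (nat_lit 76) (nat_lit 0) (XT.lf (nat_lit 0) (nat_lit 16411686093) (nat_lit 152) (nat_lit 6630236195) (nat_lit 0) (nat_lit 14937646868) (nat_lit 13) (nat_lit 5) (nat_lit 15) (nat_lit 4) (nat_lit 13) (nat_lit 4) (nat_lit 467) (nat_lit 282) (nat_lit 271)) (XT.nd (nat_lit 78) (nat_lit 0) (nat_lit 0) (XT.lf (nat_lit 0) (nat_lit 5385394320) (nat_lit 76) (nat_lit 17566479087) (nat_lit 76) (nat_lit 15980702754) (nat_lit 12) (nat_lit 4) (nat_lit 13) (nat_lit 5) (nat_lit 13) (nat_lit 4) (nat_lit 468) (nat_lit 282) (nat_lit 270)) (XT.lf (nat_lit 0) (nat_lit 17686097507) (nat_lit 76) (nat_lit 11961774743) (nat_lit 76) (nat_lit 10267515782) (nat_lit 12) (nat_lit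 4) (nat_lit 13) (nat_lit 5) (nat_lit 13) (nat_lit 4) (nat_lit 469) (nat_lit 282) (nat_lit 269)))) (XT.nd (nat_lit 156) (nat_lit 0) (nat_lit 0) (XT.nd (nat_lit 78) (nat_lit 152) (nat_lit 0) (XT.lf (nat_lit 0) (nat_lit 30150666853) (nat_lit 76) (nat_lit 6289864328) (nat_lit 76) (nat_lit 4490282427) (nat_lit 12) (nat_lit 4) (nat_lit 13) (nat_lit 5) (nat_lit 13) (nat_lit 4) (nat_lit 470) (nat_lit 282) (nat_lit 268)) (XT.lf (nat_lit 0) (nat_lit 813084646) (nat_lit 76) (nat_lit 524315269) (nat_lit 152) (nat_lit 40641714708) (nat_lit 10) (nat_lit 5) (nat_lit 11) (nat_lit 5) (nat_lit 12) (nat_lit 4) (nat_lit 471) (nat_lit 282) (nat_lit 267))) (XT.nd (nat_lit 78) (nat_lit 0) (nat_lit 0) (XT.lf (nat_lit 0) (nat_lit 7309572440) (nat_lit 152) (nat_lit 30379420540) (nat_lit 0) (nat_lit 5366743162) (nat_lit 10) (nat_lit 5) (nat_lit 12) (nat_lit 4) (nat_lit 10) (nat_lit 4) (nat_lit 472) (nat_lit 282) (nat_lit 266)) (XT.lf (nat_lit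 0) (nat_lit 13367003503) (nat_lit 152) (nat_lit 19469876291) (nat_lit 0) (nat_lit 11330596156) (nat_lit 10) (nat_lit 5) (nat_lit 12) (nat_lit 4) (nat_lit 10) (nat_lit 4) (nat_lit 473) (nat_lit 282) (nat_lit 265)))))) (XT.nd (nat_lit 546) (nat_lit 76) (nat_lit 0) (XT.nd (nat_lit 234) (nat_lit 152) (nat_lit 0) (XT.nd (nat_lit 78) (nat_lit 76) (nat_lit 0) (XT.lf (nat_lit 0) (nat_lit 19509945966) (nat_lit 152) (nat_lit 8422824580) (nat_lit 0) (nat_lit 17382686125) (nat_lit 10) (nat_lit 5) (nat_lit 12) (nat_lit 4) (nat_lit 10) (nat_lit 4) (nat_lit 474) (nat_lit 282) (nat_lit 264)) (XT.nd (nat_lit 78) (nat_lit 0) (nat_lit 0) (XT.lf (nat_lit 0) (nat_lit 2826543397) (nat_lit 76) (nat_lit 22944394515) (nat_lit 76) (nat_lit 20728928371) (nat_lit 9) (nat_lit 4) (nat_lit 10) (nat_lit 5) (nat_lit 10) (nat_lit 4) (nat_lit 475) (nat_lit 282) (nat_lit 263)) (XT.lf (nat_lit 0) (nat_lit 14403607120) (nat_lit 76) (nat_lit 17808764142)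 (nat_lit 76) (nat_lit 15507660809) (nat_lit 9) (nat_lit 4) (nat_lit 10) (nat_lit 5) (nat_lit 10) (nat_lit 4) (nat_lit 476) (nat_lit 282) (nat_lit 262)))) (XT.nd (nat_lit 156) (nat_lit 152) (nat_lit 0) (XT.nd (nat_lit 78) (nat_lit 0) (nat_lit 0) (XT.lf (nat_lit 0) (nat_lit 26150851745) (nat_lit 76) (nat_lit 12606445996) (nat_lit 76) (nat_lit 10222199760) (nat_lit 9) (nat_lit 4) (nat_lit 10) (nat_lit 5) (nat_lit 10) (nat_lit 4) (nat_lit 477) (nat_lit 282) (nat_lit 261)) (XT.lf (nat_lit 0) (nat_lit 38078541855) (nat_lit 76) (nat_lit 7332894361) (nat_lit 76) (nat_lit 4867926862) (nat_lit 9) (nat_lit 4) (nat_lit 10) (nat_lit 5) (nat_lit 10) (nat_lit 4) (nat_lit 478) (nat_lit 282) (nat_lit 260))) (XT.nd (nat_lit 78) (nat_lit 76) (nat_lit 0) (XT.lf (nat_lit 0) (nat_lit 548911953) (nat_lit 152) (nat_lit 1429046393) (nat_lit 76) (nat_lit 49642644814) (nat_lit 8) (nat_lit 5) (nat_lit 10) (nat_lit 5) (nat_lit 9) (nat_lit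 4) (nat_lit 479) (nat_lit 282) (nat_lit 259)) (XT.lf (nat_lit 0) (nat_lit 6074775992) (nat_lit 152) (nat_lit 43392884907) (nat_lit 0) (nat_lit 3531644738) (nat_lit 7) (nat_lit 5) (nat_lit 9) (nat_lit 4) (nat_lit 7) (nat_lit 4) (nat_lit 480) (nat_lit 282) (nat_lit 258))))) (XT.nd (nat_lit 312) (nat_lit 76) (nat_lit 0) (XT.nd (nat_lit 156) (nat_lit 0) (nat_lit 0) (XT.nd (nat_lit 78) (nat_lit 0) (nat_lit 0) (XT.lf (nat_lit 0) (nat_lit 11717711927) (nat_lit 152) (nat_lit 33600259382) (nat_lit 0) (nat_lit 9102860876) (nat_lit 7) (nat_lit 5) (nat_lit 9) (nat_lit 4) (nat_lit 7) (nat_lit 4) (nat_lit 481) (nat_lit 282) (nat_lit 257)) (XT.lf (nat_lit 0) (nat_lit 17449488158) (nat_lit 152) (nat_lit 23672925388) (nat_lit 0) (nat_lit 14765006235) (nat_lit 7) (nat_lit 5) (nat_lit 9) (nat_lit 4) (nat_lit 7) (nat_lit 4) (nat_lit 482) (nat_lit 282) (nat_lit 256))) (XT.nd (nat_lit 78) (nat_lit 0) (nat_lit 0) (XT.lf (nat_lit 0) (nat_lit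 23275113033) (nat_lit 152) (nat_lit 13602208555) (nat_lit 0) (nat_lit 20523028323) (nat_lit 7) (nat_lit 5) (nat_lit 9) (nat_lit 4) (nat_lit 7) (nat_lit 4) (nat_lit 483) (nat_lit 282) (nat_lit 255)) (XT.lf (nat_lit 0) (nat_lit 29199676904) (nat_lit 152) (nat_lit 3379309228) (nat_lit 0) (nat_lit 26381958420) (nat_lit 7) (nat_lit 5) (nat_lit 9) (nat_lit 4) (nat_lit 7) (nat_lit 4) (nat_lit 484) (nat_lit 282) (nat_lit 254)))) (XT.nd (nat_lit 156) (nat_lit 0) (nat_lit 0) (XT.nd (nat_lit 78) (nat_lit 0) (nat_lit 0) (XT.lf (nat_lit 0) (nat_lit 7144112591) (nat_lit 76) (nat_lit 28152917564) (nat_lit 76) (nat_lit 25271476968) (nat_lit 6) (nat_lit 4) (nat_lit 7) (nat_lit 5) (nat_lit 7) (nat_lit 4) (nat_lit 485) (nat_lit 282) (nat_lit 253)) (XT.lf (nat_lit 0) (nat_lit 17908364912) (nat_lit 76) (nat_lit 23630201070) (nat_lit 76) (nat_lit 20686894347) (nat_lit 6) (nat_lit 4) (nat_lit 7) (nat_lit 5) (nat_lit 7) (nat_lit 4) (nat_lit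 486) (nat_lit 282) (nat_lit 252))) (XT.nd (nat_lit 78) (nat_lit 0) (nat_lit 0) (XT.lf (nat_lit 0) (nat_lit 28855598512) (nat_lit 76) (nat_lit 19041009159) (nat_lit 76) (nat_lit 16037638235) (nat_lit 6) (nat_lit 4) (nat_lit 7) (nat_lit 5) (nat_lit 7) (nat_lit 4) (nat_lit 487) (nat_lit 282) (nat_lit 251)) (XT.lf (nat_lit 0) (nat_lit 39995378934) (nat_lit 76) (nat_lit 14381331859) (nat_lit 76) (nat_lit 11319646176) (nat_lit 6) (nat_lit 4) (nat_lit 7) (nat_lit 5) (nat_lit 7) (nat_lit 4) (nat_lit 488) (nat_lit 282) (nat_lit 250))))))) (XT.nd (nat_lit 51090) (nat_lit 0) (nat_lit 380) (XT.nd (nat_lit 50544) (nat_lit 0) (nat_lit 836) (XT.nd (nat_lit 234) (nat_lit 0) (nat_lit 0) (XT.nd (nat_lit 78) (nat_lit 152) (nat_lit 0) (XT.lf (nat_lit 0) (nat_lit 51337439966) (nat_lit 76) (nat_lit 9647097606) (nat_lit 76) (nat_lit 6528795653) (nat_lit 6) (nat_lit 4) (nat_lit 7) (nat_lit 5) (nat_lit 7) (nat_lit 4) (nat_lit 489) (nat_lit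 282) (nat_lit 249)) (XT.nd (nat_lit 78) (nat_lit 152) (nat_lit 0) (XT.lf (nat_lit 0) (nat_lit 62891692149) (nat_lit 76) (nat_lit 4834169691) (nat_lit 76) (nat_lit 1660900486) (nat_lit 6) (nat_lit 4) (nat_lit 7) (nat_lit 5) (nat_lit 7) (nat_lit 4) (nat_lit 490) (nat_lit 282) (nat_lit 248)) (XT.lf (nat_lit 0) (nat_lit 3257886901) (nat_lit 152) (nat_lit 67933202153) (nat_lit 0) (nat_lit 125231104) (nat_lit 4) (nat_lit 5) (nat_lit 6) (nat_lit 4) (nat_lit 4) (nat_lit 4) (nat_lit 491) (nat_lit 282) (nat_lit 247)))) (XT.nd (nat_lit 50154) (nat_lit 0) (nat_lit 1140) (XT.nd (nat_lit 78) (nat_lit 0) (nat_lit 0) (XT.lf (nat_lit 0) (nat_lit 8341541523) (nat_lit 152) (nat_lit 59801627695) (nat_lit 0) (nat_lit 5158582903) (nat_lit 4) (nat_lit 5) (nat_lit 6) (nat_lit 4) (nat_lit 4) (nat_lit 4) (nat_lit 492) (nat_lit 282) (nat_lit 246)) (XT.lf (nat_lit 0) (nat_lit 13516138937) (nat_lit 152) (nat_lit 51548113762) (nat_lit 0) (nat_lit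 10284342625) (nat_lit 4) (nat_lit 5) (nat_lit 6) (nat_lit 4) (nat_lit 4) (nat_lit 4) (nat_lit 493) (nat_lit 282) (nat_lit 245))) (XT.nd (nat_lit 78) (nat_lit 152) (nat_lit 0) (XT.lf (nat_lit 0) (nat_lit 10167727255) (nat_lit 76) (nat_lit 1907432266) (nat_lit 76) (nat_lit 1907432266) (nat_lit 21) (nat_lit 4) (nat_lit 22) (nat_lit 5) (nat_lit 22) (nat_lit 4) (nat_lit 454) (nat_lit 283) (nat_lit 283)) (XT.lf (nat_lit 0) (nat_lit 2789503573) (nat_lit 152) (nat_lit 23190568936) (nat_lit 0) (nat_lit 2620491173) (nat_lit 19) (nat_lit 5) (nat_lit 21) (nat_lit 4) (nat_lit 19) (nat_lit 4) (nat_lit 455) (nat_lit 283) (nat_lit 282))))) (XT.nd (nat_lit 234) (nat_lit 228) (nat_lit 0) (XT.nd (nat_lit 78) (nat_lit 76) (nat_lit 0) (XT.lf (nat_lit 0) (nat_lit 9496968507) (nat_lit 152) (nat_lit 10593592224) (nat_lit 0) (nat_lit 9163866397) (nat_lit 19) (nat_lit 5) (nat_lit 21) (nat_lit 4) (nat_lit 19) (nat_lit 4) (nat_lit 456) (nat_lit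 283) (nat_lit 281)) (XT.nd (nat_lit 78) (nat_lit 0) (nat_lit 0) (XT.lf (nat_lit 0) (nat_lit 2169347975) (nat_lit 76) (nat_lit 14127125347) (nat_lit 76) (nat_lit 13634712839) (nat_lit 18) (nat_lit 4) (nat_lit 19) (nat_lit 5) (nat_lit 19) (nat_lit 4) (nat_lit 457) (nat_lit 283) (nat_lit 280)) (XT.lf (nat_lit 0) (nat_lit 15280549948) (nat_lit 76) (nat_lit 7997717859) (nat_lit 76) (nat_lit 7350635063) (nat_lit 18) (nat_lit 4) (nat_lit 19) (nat_lit 5) (nat_lit 19) (nat_lit 4) (nat_lit 458) (nat_lit 283) (nat_lit 279)))) (XT.nd (nat_lit 156) (nat_lit 76) (nat_lit 0) (XT.nd (nat_lit 78) (nat_lit 152) (nat_lit 0) (XT.lf (nat_lit 0) (nat_lit 28540636827) (nat_lit 76) (nat_lit 1803956986) (nat_lit 76) (nat_lit 1006708861) (nat_lit 18) (nat_lit 4) (nat_lit 19) (nat_lit 5) (nat_lit 19) (nat_lit 4) (nat_lit 459) (nat_lit 283) (nat_lit 278)) (XT.lf (nat_lit 0) (nat_lit 5437698080) (nat_lit 152) (nat_lit 22133419767) (nat_lit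 0) (nat_lit 4522125549) (nat_lit 16) (nat_lit 5) (nat_lit 18) (nat_lit 4) (nat_lit 16) (nat_lit 4) (nat_lit 460) (nat_lit 283) (nat_lit 277))) (XT.nd (nat_lit 78) (nat_lit 76) (nat_lit 0) (XT.lf (nat_lit 0) (nat_lit 11979407409) (nat_lit 152) (nat_lit 9953601049) (nat_lit 0) (nat_lit 10926412329) (nat_lit 16) (nat_lit 5) (nat_lit 18) (nat_lit 4) (nat_lit 16) (nat_lit 4) (nat_lit 461) (nat_lit 283) (nat_lit 276)) (XT.lf (nat_lit 0) (nat_lit 2405598319) (nat_lit 76) (nat_lit 16216136348) (nat_lit 76) (nat_lit 15029721319) (nat_lit 15) (nat_lit 4) (nat_lit 16) (nat_lit 5) (nat_lit 16) (nat_lit 4) (nat_lit 462) (nat_lit 283) (nat_lit 275)))))) (XT.nd (nat_lit 546) (nat_lit 228) (nat_lit 0) (XT.nd (nat_lit 234) (nat_lit 76) (nat_lit 0) (XT.nd (nat_lit 78) (nat_lit 152) (nat_lit 0) (XT.lf (nat_lit 0) (nat_lit 15108940812) (nat_lit 76) (nat_lit 10337386946) (nat_lit 76) (nat_lit 9021437985) (nat_lit 15) (nat_lit 4) (nat_lit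 16) (nat_lit 5) (nat_lit 16) (nat_lit 4) (nat_lit 463) (nat_lit 283) (nat_lit 274)) (XT.nd (nat_lit 78) (nat_lit 152) (nat_lit 0) (XT.lf (nat_lit 0) (nat_lit 27969430262) (nat_lit 76) (nat_lit 4392135335) (nat_lit 76) (nat_lit 2950425275) (nat_lit 15) (nat_lit 4) (nat_lit 16) (nat_lit 5) (nat_lit 16) (nat_lit 4) (nat_lit 464) (nat_lit 283) (nat_lit 273)) (XT.lf (nat_lit 0) (nat_lit 3189676558) (nat_lit 152) (nat_lit 31320958506) (nat_lit 0) (nat_lit 1671416156) (nat_lit 13) (nat_lit 5) (nat_lit 15) (nat_lit 4) (nat_lit 13) (nat_lit 4) (nat_lit 465) (nat_lit 283) (nat_lit 272)))) (XT.nd (nat_lit 156) (nat_lit 76) (nat_lit 0) (XT.nd (nat_lit 78) (nat_lit 0) (nat_lit 0) (XT.lf (nat_lit 0) (nat_lit 9461317952) (nat_lit 152) (nat_lit 19787854625) (nat_lit 0) (nat_lit 7827968329) (nat_lit 13) (nat_lit 5) (nat_lit 15) (nat_lit 4) (nat_lit 13) (nat_lit 4) (nat_lit 466) (nat_lit 283) (nat_lit 271)) (XT.lf (nat_lit 0) (nat_lit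 15812633893) (nat_lit 152) (nat_lit 8122159387) (nat_lit 0) (nat_lit 14067547163) (nat_lit 13) (nat_lit 5) (nat_lit 15) (nat_lit 4) (nat_lit 13) (nat_lit 4) (nat_lit 467) (nat_lit 283) (nat_lit 270))) (XT.nd (nat_lit 78) (nat_lit 0) (nat_lit 0) (XT.lf (nat_lit 0) (nat_lit 3759685539) (nat_lit 76) (nat_lit 18525628933) (nat_lit 76) (nat_lit 16672059574) (nat_lit 12) (nat_lit 4) (nat_lit 13) (nat_lit 5) (nat_lit 13) (nat_lit 4) (nat_lit 468) (nat_lit 283) (nat_lit 269)) (XT.lf (nat_lit 0) (nat_lit 15959327181) (nat_lit 76) (nat_lit 12970646293) (nat_lit 76) (nat_lit 11011753994) (nat_lit 12) (nat_lit 4) (nat_lit 13) (nat_lit 5) (nat_lit 13) (nat_lit 4) (nat_lit 469) (nat_lit 283) (nat_lit 268))))) (XT.nd (nat_lit 312) (nat_lit 76) (nat_lit 0) (XT.nd (nat_lit 156) (nat_lit 76) (nat_lit 0) (XT.nd (nat_lit 78) (nat_lit 76) (nat_lit 0) (XT.lf (nat_lit 0) (nat_lit 28325778522) (nat_lit 76) (nat_lit 7347009378) (nat_lit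 76) (nat_lit 5285861796) (nat_lit 12) (nat_lit 4) (nat_lit 13) (nat_lit 5) (nat_lit 13) (nat_lit 4) (nat_lit 470) (nat_lit 283) (nat_lit 267)) (XT.lf (nat_lit 0) (nat_lit 500656185) (nat_lit 152) (nat_lit 1144092497) (nat_lit 76) (nat_lit 40364133367) (nat_lit 11) (nat_lit 5) (nat_lit 13) (nat_lit 5) (nat_lit 12) (nat_lit 4) (nat_lit 471) (nat_lit 283) (nat_lit 266))) (XT.nd (nat_lit 78) (nat_lit 0) (nat_lit 0) (XT.lf (nat_lit 0) (nat_lit 6401914081) (nat_lit 152) (nat_lit 32474881685) (nat_lit 0) (nat_lit 4210836445) (nat_lit 10) (nat_lit 5) (nat_lit 12) (nat_lit 4) (nat_lit 10) (nat_lit 4) (nat_lit 472) (nat_lit 283) (nat_lit 265)) (XT.lf (nat_lit 0) (nat_lit 12411950300) (nat_lit 152) (nat_lit 21658824562) (nat_lit 0) (nat_lit 10130020171) (nat_lit 10) (nat_lit 5) (nat_lit 12) (nat_lit 4) (nat_lit 10) (nat_lit 4) (nat_lit 473) (nat_lit 283) (nat_lit 264)))) (XT.nd (nat_lit 156) (nat_lit 0) (nat_lit 0) (XT.nd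 (nat_lit 78) (nat_lit 76) (nat_lit 0) (XT.lf (nat_lit 0) (nat_lit 18508878352) (nat_lit 152) (nat_lit 10702537051) (nat_lit 0) (nat_lit 16138741919) (nat_lit 10) (nat_lit 5) (nat_lit 12) (nat_lit 4) (nat_lit 10) (nat_lit 4) (nat_lit 474) (nat_lit 283) (nat_lit 263)) (XT.lf (nat_lit 0) (nat_lit 411585823) (nat_lit 76) (nat_lit 24290396241) (nat_lit 76) (nat_lit 21834622619) (nat_lit 9) (nat_lit 4) (nat_lit 10) (nat_lit 5) (nat_lit 10) (nat_lit 4) (nat_lit 475) (nat_lit 283) (nat_lit 262))) (XT.nd (nat_lit 78) (nat_lit 0) (nat_lit 0) (XT.lf (nat_lit 0) (nat_lit 11901392891) (nat_lit 76) (nat_lit 19197810763) (nat_lit 76) (nat_lit 16658894239) (nat_lit 9) (nat_lit 4) (nat_lit 10) (nat_lit 5) (nat_lit 10) (nat_lit 4) (nat_lit 476) (nat_lit 283) (nat_lit 261)) (XT.lf (nat_lit 0) (nat_lit 23563922317) (nat_lit 76) (nat_lit 14037283778) (nat_lit 76) (nat_lit 11417645990) (nat_lit 9) (nat_lit 4) (nat_lit 10) (nat_lit 5)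 (nat_lit 10) (nat_lit 4) (nat_lit 477) (nat_lit 283) (nat_lit 260))))))))
noncomputable def xc7 : XT := (XT.nd (nat_lit 52104) (nat_lit 0) (nat_lit 0) (XT.nd (nat_lit 1092) (nat_lit 76) (nat_lit 0) (XT.nd (nat_lit 546) (nat_lit 152) (nat_lit 0) (XT.nd (nat_lit 234) (nat_lit 0) (nat_lit 0) (XT.nd (nat_lit 78) (nat_lit 152) (nat_lit 0) (XT.lf (nat_lit 0) (nat_lit 35409364660) (nat_lit 76) (nat_lit 8804306085) (nat_lit 76) (nat_lit 6106298138) (nat_lit 9) (nat_lit 4) (nat_lit 10) (nat_lit 5) (nat_lit 10) (nat_lit 4) (nat_lit 478) (nat_lit 283) (nat_lit 259)) (XT.nd (nat_lit 78) (nat_lit 152) (nat_lit 0) (XT.lf (nat_lit 0) (nat_lit 47448070306) (nat_lit 76) (nat_lit 3494305182) (nat_lit 76) (nat_lit 720209702) (nat_lit 9) (nat_lit 4) (nat_lit 10) (nat_lit 5) (nat_lit 10) (nat_lit 4) (nat_lit 479) (nat_lit 283) (nat_lit 258)) (XT.lf (nat_lit 0) (nat_lit 4736734940) (nat_lit 152) (nat_lit 46335531983) (nat_lit 0) (nat_lit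 1971718560) (nat_lit 7) (nat_lit 5) (nat_lit 9) (nat_lit 4) (nat_lit 7) (nat_lit 4) (nat_lit 480) (nat_lit 283) (nat_lit 257)))) (XT.nd (nat_lit 156) (nat_lit 0) (nat_lit 0) (XT.nd (nat_lit 78) (nat_lit 0) (nat_lit 0) (XT.lf (nat_lit 0) (nat_lit 10340041426) (nat_lit 152) (nat_lit 36621266210) (nat_lit 0) (nat_lit 7505394174) (nat_lit 7) (nat_lit 5) (nat_lit 9) (nat_lit 4) (nat_lit 7) (nat_lit 4) (nat_lit 481) (nat_lit 283) (nat_lit 256)) (XT.lf (nat_lit 0) (nat_lit 16033342463) (nat_lit 152) (nat_lit 26770009645) (nat_lit 0) (nat_lit 13131092424) (nat_lit 7) (nat_lit 5) (nat_lit 9) (nat_lit 4) (nat_lit 7) (nat_lit 4) (nat_lit 482) (nat_lit 283) (nat_lit 255))) (XT.nd (nat_lit 78) (nat_lit 0) (nat_lit 0) (XT.lf (nat_lit 0) (nat_lit 21821612782) (nat_lit 152) (nat_lit 16773154394) (nat_lit 0) (nat_lit 18853728968) (nat_lit 7) (nat_lit 5) (nat_lit 9) (nat_lit 4) (nat_lit 7) (nat_lit 4) (nat_lit 483) (nat_lit 283)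 (nat_lit 254)) (XT.lf (nat_lit 0) (nat_lit 27709910093) (nat_lit 152) (nat_lit 6621965340) (nat_lit 0) (nat_lit 24678304168) (nat_lit 7) (nat_lit 5) (nat_lit 9) (nat_lit 4) (nat_lit 7) (nat_lit 4) (nat_lit 484) (nat_lit 283) (nat_lit 253))))) (XT.nd (nat_lit 234) (nat_lit 76) (nat_lit 0) (XT.nd (nat_lit 78) (nat_lit 0) (nat_lit 0) (XT.lf (nat_lit 0) (nat_lit 3765914033) (nat_lit 76) (nat_lit 29973665748) (nat_lit 76) (nat_lit 26880193696) (nat_lit 6) (nat_lit 4) (nat_lit 7) (nat_lit 5) (nat_lit 7) (nat_lit 4) (nat_lit 485) (nat_lit 283) (nat_lit 252)) (XT.nd (nat_lit 78) (nat_lit 0) (nat_lit 0) (XT.lf (nat_lit 0) (nat_lit 14461227294) (nat_lit 76) (nat_lit 25485040918) (nat_lit 76) (nat_lit 22331504665) (nat_lit 6) (nat_lit 4) (nat_lit 7) (nat_lit 5) (nat_lit 7) (nat_lit 4) (nat_lit 486) (nat_lit 283) (nat_lit 251)) (XT.lf (nat_lit 0) (nat_lit 25341529768) (nat_lit 76) (nat_lit 20928947710) (nat_lit 76) (nat_lit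 17717096699) (nat_lit 6) (nat_lit 4) (nat_lit 7) (nat_lit 5) (nat_lit 7) (nat_lit 4) (nat_lit 487) (nat_lit 283) (nat_lit 250)))) (XT.nd (nat_lit 156) (nat_lit 76) (nat_lit 0) (XT.nd (nat_lit 78) (nat_lit 0) (nat_lit 0) (XT.lf (nat_lit 0) (nat_lit 36416328514) (nat_lit 76) (nat_lit 16301405073) (nat_lit 76) (nat_lit 13032937791) (nat_lit 6) (nat_lit 4) (nat_lit 7) (nat_lit 5) (nat_lit 7) (nat_lit 4) (nat_lit 488) (nat_lit 283) (nat_lit 249)) (XT.lf (nat_lit 0) (nat_lit 47695300541) (nat_lit 76) (nat_lit 11598369523) (nat_lit 76) (nat_lit 8274934988) (nat_lit 6) (nat_lit 4) (nat_lit 7) (nat_lit 5) (nat_lit 7) (nat_lit 4) (nat_lit 489) (nat_lit 283) (nat_lit 248))) (XT.nd (nat_lit 78) (nat_lit 76) (nat_lit 0) (XT.lf (nat_lit 0) (nat_lit 59188301262) (nat_lit 76) (nat_lit 6815731610) (nat_lit 76) (nat_lit 3438930810) (nat_lit 6) (nat_lit 4) (nat_lit 7) (nat_lit 5) (nat_lit 7) (nat_lit 4) (nat_lit 490) (nat_lit 283)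 (nat_lit 247)) (XT.lf (nat_lit 0) (nat_lit 1450433896) (nat_lit 152) (nat_lit 484231896) (nat_lit 76) (nat_lit 69440292669) (nat_lit 5) (nat_lit 5) (nat_lit 7) (nat_lit 5) (nat_lit 6) (nat_lit 4) (nat_lit 491) (nat_lit 283) (nat_lit 246)))))) (XT.nd (nat_lit 50388) (nat_lit 0) (nat_lit 836) (XT.nd (nat_lit 50076) (nat_lit 0) (nat_lit 1140) (XT.nd (nat_lit 78) (nat_lit 0) (nat_lit 0) (XT.lf (nat_lit 0) (nat_lit 6480368456) (nat_lit 152) (nat_lit 63778853636) (nat_lit 0) (nat_lit 3102780563) (nat_lit 4) (nat_lit 5) (nat_lit 6) (nat_lit 4) (nat_lit 4) (nat_lit 4) (nat_lit 492) (nat_lit 283) (nat_lit 245)) (XT.nd (nat_lit 49920) (nat_lit 0) (nat_lit 1368) (XT.lf (nat_lit 0) (nat_lit 11625520728) (nat_lit 152) (nat_lit 55583691495) (nat_lit 0) (nat_lit 8200517600) (nat_lit 4) (nat_lit 5) (nat_lit 6) (nat_lit 4) (nat_lit 4) (nat_lit 4) (nat_lit 493) (nat_lit 283) (nat_lit 244)) (XT.lf (nat_lit 0) (nat_lit 5129015997)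 (nat_lit 152) (nat_lit 3117551345) (nat_lit 0) (nat_lit 5129015997) (nat_lit 22) (nat_lit 5) (nat_lit 24) (nat_lit 4) (nat_lit 22) (nat_lit 4) (nat_lit 452) (nat_lit 284) (nat_lit 284)))) (XT.nd (nat_lit 156) (nat_lit 152) (nat_lit 0) (XT.nd (nat_lit 78) (nat_lit 0) (nat_lit 0) (XT.lf (nat_lit 0) (nat_lit 6855621976) (nat_lit 76) (nat_lit 10336410624) (nat_lit 76) (nat_lit 10157105368) (nat_lit 21) (nat_lit 4) (nat_lit 22) (nat_lit 5) (nat_lit 22) (nat_lit 4) (nat_lit 453) (nat_lit 284) (nat_lit 283)) (XT.lf (nat_lit 0) (nat_lit 20207855126) (nat_lit 76) (nat_lit 4056340785) (nat_lit 76) (nat_lit 3702952756) (nat_lit 21) (nat_lit 4) (nat_lit 22) (nat_lit 5) (nat_lit 22) (nat_lit 4) (nat_lit 454) (nat_lit 284) (nat_lit 282))) (XT.nd (nat_lit 78) (nat_lit 0) (nat_lit 0) (XT.lf (nat_lit 0) (nat_lit 2829648065) (nat_lit 152) (nat_lit 23452474870) (nat_lit 0) (nat_lit 2322463182) (nat_lit 19) (nat_lit 5) (nat_lit 21)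 (nat_lit 4) (nat_lit 19) (nat_lit 4) (nat_lit 455) (nat_lit 284) (nat_lit 281)) (XT.lf (nat_lit 0) (nat_lit 9473055282) (nat_lit 152) (nat_lit 10980758062) (nat_lit 0) (nat_lit 8806560001) (nat_lit 19) (nat_lit 5) (nat_lit 21) (nat_lit 4) (nat_lit 19) (nat_lit 4) (nat_lit 456) (nat_lit 284) (nat_lit 280))))) (XT.nd (nat_lit 312) (nat_lit 76) (nat_lit 0) (XT.nd (nat_lit 156) (nat_lit 152) (nat_lit 0) (XT.nd (nat_lit 78) (nat_lit 0) (nat_lit 0) (XT.lf (nat_lit 0) (nat_lit 1650444912) (nat_lit 76) (nat_lit 14554935213) (nat_lit 76) (nat_lit 13733769644) (nat_lit 18) (nat_lit 4) (nat_lit 19) (nat_lit 5) (nat_lit 19) (nat_lit 4) (nat_lit 457) (nat_lit 284) (nat_lit 279)) (XT.lf (nat_lit 0) (nat_lit 14641227597) (nat_lit 76) (nat_lit 8484408927) (nat_lit 76) (nat_lit 7513078029) (nat_lit 18) (nat_lit 4) (nat_lit 19) (nat_lit 5) (nat_lit 19) (nat_lit 4) (nat_lit 458) (nat_lit 284) (nat_lit 278))) (XT.nd (nat_lit 78) (nat_lit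 152) (nat_lit 0) (XT.lf (nat_lit 0) (nat_lit 27784402547) (nat_lit 76) (nat_lit 2347814269) (nat_lit 76) (nat_lit 1230691789) (nat_lit 18) (nat_lit 4) (nat_lit 19) (nat_lit 5) (nat_lit 19) (nat_lit 4) (nat_lit 459) (nat_lit 284) (nat_lit 277)) (XT.lf (nat_lit 0) (nat_lit 5144999363) (nat_lit 152) (nat_lit 23039117035) (nat_lit 0) (nat_lit 3922991884) (nat_lit 16) (nat_lit 5) (nat_lit 18) (nat_lit 4) (nat_lit 16) (nat_lit 4) (nat_lit 460) (nat_lit 284) (nat_lit 276)))) (XT.nd (nat_lit 156) (nat_lit 0) (nat_lit 0) (XT.nd (nat_lit 78) (nat_lit 76) (nat_lit 0) (XT.lf (nat_lit 0) (nat_lit 11628207494) (nat_lit 152) (nat_lit 10974054868) (nat_lit 0) (nat_lit 10272780064) (nat_lit 16) (nat_lit 5) (nat_lit 18) (nat_lit 4) (nat_lit 16) (nat_lit 4) (nat_lit 461) (nat_lit 284) (nat_lit 275)) (XT.lf (nat_lit 0) (nat_lit 1251203981) (nat_lit 76) (nat_lit 16951436746) (nat_lit 76) (nat_lit 15466475385) (nat_lit 15) (nat_lit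 4) (nat_lit 16) (nat_lit 5) (nat_lit 16) (nat_lit 4) (nat_lit 462) (nat_lit 284) (nat_lit 274))) (XT.nd (nat_lit 78) (nat_lit 0) (nat_lit 0) (XT.lf (nat_lit 0) (nat_lit 13844224642) (nat_lit 76) (nat_lit 11126805706) (nat_lit 76) (nat_lit 9516083245) (nat_lit 15) (nat_lit 4) (nat_lit 16) (nat_lit 5) (nat_lit 16) (nat_lit 4) (nat_lit 463) (nat_lit 284) (nat_lit 273)) (XT.lf (nat_lit 0) (nat_lit 26597605517) (nat_lit 76) (nat_lit 5234096193) (nat_lit 76) (nat_lit 3501275578) (nat_lit 15) (nat_lit 4) (nat_lit 16) (nat_lit 5) (nat_lit 16) (nat_lit 4) (nat_lit 464) (nat_lit 284) (nat_lit 272))))))) (XT.nd (nat_lit 1092) (nat_lit 380) (nat_lit 0) (XT.nd (nat_lit 546) (nat_lit 228) (nat_lit 0) (XT.nd (nat_lit 234) (nat_lit 76) (nat_lit 0) (XT.nd (nat_lit 78) (nat_lit 0) (nat_lit 0) (XT.lf (nat_lit 0) (nat_lit 2572652792) (nat_lit 152) (nat_lit 32857639394) (nat_lit 0) (nat_lit 775213460) (nat_lit 13) (nat_lit 5) (nat_lit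 15) (nat_lit 4) (nat_lit 13) (nat_lit 4) (nat_lit 465) (nat_lit 284) (nat_lit 271)) (XT.nd (nat_lit 78) (nat_lit 0) (nat_lit 0) (XT.lf (nat_lit 0) (nat_lit 8790858376) (nat_lit 152) (nat_lit 21429659532) (nat_lit 0) (nat_lit 6881681936) (nat_lit 13) (nat_lit 5) (nat_lit 15) (nat_lit 4) (nat_lit 13) (nat_lit 4) (nat_lit 466) (nat_lit 284) (nat_lit 270)) (XT.lf (nat_lit 0) (nat_lit 15090294890) (nat_lit 152) (nat_lit 9866026450) (nat_lit 0) (nat_lit 13072635821) (nat_lit 13) (nat_lit 5) (nat_lit 15) (nat_lit 4) (nat_lit 13) (nat_lit 4) (nat_lit 467) (nat_lit 284) (nat_lit 269)))) (XT.nd (nat_lit 156) (nat_lit 0) (nat_lit 0) (XT.nd (nat_lit 78) (nat_lit 0) (nat_lit 0) (XT.lf (nat_lit 0) (nat_lit 1880050557) (nat_lit 76) (nat_lit 19614488334) (nat_lit 76) (nat_lit 17491506325) (nat_lit 12) (nat_lit 4) (nat_lit 13) (nat_lit 5) (nat_lit 13) (nat_lit 4) (nat_lit 468) (nat_lit 284) (nat_lit 268)) (XT.lf (nat_lit 0) (nat_lit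 13981574194) (nat_lit 76) (nat_lit 14107779193) (nat_lit 76) (nat_lit 11882541903) (nat_lit 12) (nat_lit 4) (nat_lit 13) (nat_lit 5) (nat_lit 13) (nat_lit 4) (nat_lit 469) (nat_lit 284) (nat_lit 267))) (XT.nd (nat_lit 78) (nat_lit 0) (nat_lit 0) (XT.lf (nat_lit 0) (nat_lit 26252765335) (nat_lit 76) (nat_lit 8531009753) (nat_lit 76) (nat_lit 6206495489) (nat_lit 12) (nat_lit 4) (nat_lit 13) (nat_lit 5) (nat_lit 13) (nat_lit 4) (nat_lit 470) (nat_lit 284) (nat_lit 266)) (XT.lf (nat_lit 0) (nat_lit 38704346381) (nat_lit 76) (nat_lit 2879307106) (nat_lit 76) (nat_lit 458407432) (nat_lit 12) (nat_lit 4) (nat_lit 13) (nat_lit 5) (nat_lit 13) (nat_lit 4) (nat_lit 471) (nat_lit 284) (nat_lit 265))))) (XT.nd (nat_lit 234) (nat_lit 76) (nat_lit 0) (XT.nd (nat_lit 78) (nat_lit 0) (nat_lit 0) (XT.lf (nat_lit 0) (nat_lit 5370814439) (nat_lit 152) (nat_lit 34822985529) (nat_lit 0) (nat_lit 2929573912) (nat_lit 10) (nat_lit 5)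 (nat_lit 12) (nat_lit 4) (nat_lit 10) (nat_lit 4) (nat_lit 472) (nat_lit 284) (nat_lit 264)) (XT.nd (nat_lit 78) (nat_lit 0) (nat_lit 0) (XT.lf (nat_lit 0) (nat_lit 11334836248) (nat_lit 152) (nat_lit 24097692607) (nat_lit 0) (nat_lit 8805389416) (nat_lit 10) (nat_lit 5) (nat_lit 12) (nat_lit 4) (nat_lit 10) (nat_lit 4) (nat_lit 473) (nat_lit 284) (nat_lit 263)) (XT.lf (nat_lit 0) (nat_lit 17387090115) (nat_lit 152) (nat_lit 13229525678) (nat_lit 0) (nat_lit 14772006095) (nat_lit 10) (nat_lit 5) (nat_lit 12) (nat_lit 4) (nat_lit 10) (nat_lit 4) (nat_lit 474) (nat_lit 284) (nat_lit 262)))) (XT.nd (nat_lit 156) (nat_lit 0) (nat_lit 0) (XT.nd (nat_lit 78) (nat_lit 76) (nat_lit 0) (XT.lf (nat_lit 0) (nat_lit 23532864417) (nat_lit 152) (nat_lit 2208988289) (nat_lit 0) (nat_lit 20834637495) (nat_lit 10) (nat_lit 5) (nat_lit 12) (nat_lit 4) (nat_lit 10) (nat_lit 4) (nat_lit 475) (nat_lit 284) (nat_lit 261)) (XT.lf (nat_lit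 0) (nat_lit 9152140381) (nat_lit 76) (nat_lit 20713364840) (nat_lit 76) (nat_lit 17934416654) (nat_lit 9) (nat_lit 4) (nat_lit 10) (nat_lit 5) (nat_lit 10) (nat_lit 4) (nat_lit 476) (nat_lit 284) (nat_lit 260))) (XT.nd (nat_lit 78) (nat_lit 0) (nat_lit 0) (XT.lf (nat_lit 0) (nat_lit 20732422040) (nat_lit 76) (nat_lit 15593411796) (nat_lit 76) (nat_lit 12736093452) (nat_lit 9) (nat_lit 4) (nat_lit 10) (nat_lit 5) (nat_lit 10) (nat_lit 4) (nat_lit 477) (nat_lit 284) (nat_lit 259)) (XT.lf (nat_lit 0) (nat_lit 32498012183) (nat_lit 76) (nat_lit 10399826281) (nat_lit 76) (nat_lit 7466420403) (nat_lit 9) (nat_lit 4) (nat_lit 10) (nat_lit 5) (nat_lit 10) (nat_lit 4) (nat_lit 478) (nat_lit 284) (nat_lit 258)))))) (XT.nd (nat_lit 546) (nat_lit 152) (nat_lit 0) (XT.nd (nat_lit 234) (nat_lit 76) (nat_lit 0) (XT.nd (nat_lit 78) (nat_lit 152) (nat_lit 0) (XT.lf (nat_lit 0) (nat_lit 44459191421) (nat_lit 76) (nat_lit 5128070210)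 (nat_lit 76) (nat_lit 2120792941) (nat_lit 9) (nat_lit 4) (nat_lit 10) (nat_lit 5) (nat_lit 10) (nat_lit 4) (nat_lit 479) (nat_lit 284) (nat_lit 257)) (XT.nd (nat_lit 78) (nat_lit 0) (nat_lit 0) (XT.lf (nat_lit 0) (nat_lit 3278104874) (nat_lit 152) (nat_lit 49525528768) (nat_lit 0) (nat_lit 288787334) (nat_lit 7) (nat_lit 5) (nat_lit 9) (nat_lit 4) (nat_lit 7) (nat_lit 4) (nat_lit 480) (nat_lit 284) (nat_lit 256)) (XT.lf (nat_lit 0) (nat_lit 8842936167) (nat_lit 152) (nat_lit 39887340424) (nat_lit 0) (nat_lit 5786015839) (nat_lit 7) (nat_lit 5) (nat_lit 9) (nat_lit 4) (nat_lit 7) (nat_lit 4) (nat_lit 481) (nat_lit 284) (nat_lit 255)))) (XT.nd (nat_lit 156) (nat_lit 76) (nat_lit 0) (XT.nd (nat_lit 78) (nat_lit 0) (nat_lit 0) (XT.lf (nat_lit 0) (nat_lit 14498882647) (nat_lit 152) (nat_lit 30109945441) (nat_lit 0) (nat_lit 11376328545) (nat_lit 7) (nat_lit 5) (nat_lit 9) (nat_lit 4) (nat_lit 7) (nat_lit 4) (nat_lit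 482) (nat_lit 284) (nat_lit 254)) (XT.lf (nat_lit 0) (nat_lit 20250886406) (nat_lit 152) (nat_lit 20184800463) (nat_lit 0) (nat_lit 17064610192) (nat_lit 7) (nat_lit 5) (nat_lit 9) (nat_lit 4) (nat_lit 7) (nat_lit 4) (nat_lit 483) (nat_lit 284) (nat_lit 253))) (XT.nd (nat_lit 78) (nat_lit 76) (nat_lit 0) (XT.lf (nat_lit 0) (nat_lit 26103973465) (nat_lit 152) (nat_lit 10103233034) (nat_lit 0) (nat_lit 22855831124) (nat_lit 7) (nat_lit 5) (nat_lit 9) (nat_lit 4) (nat_lit 7) (nat_lit 4) (nat_lit 484) (nat_lit 284) (nat_lit 252)) (XT.lf (nat_lit 0) (nat_lit 146423226) (nat_lit 76) (nat_lit 31918242455) (nat_lit 76) (nat_lit 28610035913) (nat_lit 6) (nat_lit 4) (nat_lit 7) (nat_lit 5) (nat_lit 7) (nat_lit 4) (nat_lit 485) (nat_lit 284) (nat_lit 251))))) (XT.nd (nat_lit 312) (nat_lit 152) (nat_lit 0) (XT.nd (nat_lit 156) (nat_lit 0) (nat_lit 0) (XT.nd (nat_lit 78) (nat_lit 0) (nat_lit 0) (XT.lf (nat_lit 0) (nat_lit 10774805362)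 (nat_lit 76) (nat_lit 27462716328) (nat_lit 76) (nat_lit 24096195028) (nat_lit 6) (nat_lit 4) (nat_lit 7) (nat_lit 5) (nat_lit 7) (nat_lit 4) (nat_lit 486) (nat_lit 284) (nat_lit 250)) (XT.lf (nat_lit 0) (nat_lit 21590126160) (nat_lit 76) (nat_lit 22938757784) (nat_lit 76) (nat_lit 19515620214) (nat_lit 6) (nat_lit 4) (nat_lit 7) (nat_lit 5) (nat_lit 7) (nat_lit 4) (nat_lit 487) (nat_lit 284) (nat_lit 249))) (XT.nd (nat_lit 78) (nat_lit 0) (nat_lit 0) (XT.lf (nat_lit 0) (nat_lit 32601835900) (nat_lit 76) (nat_lit 18342413850) (nat_lit 76) (nat_lit 14864309026) (nat_lit 6) (nat_lit 4) (nat_lit 7) (nat_lit 5) (nat_lit 7) (nat_lit 4) (nat_lit 488) (nat_lit 284) (nat_lit 248)) (XT.lf (nat_lit 0) (nat_lit 43819556466) (nat_lit 76) (nat_lit 13669668301) (nat_lit 76) (nat_lit 10138197213) (nat_lit 6) (nat_lit 4) (nat_lit 7) (nat_lit 5) (nat_lit 7) (nat_lit 4) (nat_lit 489) (nat_lit 284) (nat_lit 247)))) (XT.nd (nat_lit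 156) (nat_lit 152) (nat_lit 0) (XT.nd (nat_lit 78) (nat_lit 0) (nat_lit 0) (XT.lf (nat_lit 0) (nat_lit 55253089748) (nat_lit 76) (nat_lit 8916438158) (nat_lit 76) (nat_lit 5333155162) (nat_lit 6) (nat_lit 4) (nat_lit 7) (nat_lit 5) (nat_lit 7) (nat_lit 4) (nat_lit 490) (nat_lit 284) (nat_lit 246)) (XT.lf (nat_lit 0) (nat_lit 66912426213) (nat_lit 76) (nat_lit 4078570111) (nat_lit 76) (nat_lit 444984292) (nat_lit 6) (nat_lit 4) (nat_lit 7) (nat_lit 5) (nat_lit 7) (nat_lit 4) (nat_lit 491) (nat_lit 284) (nat_lit 245))) (XT.nd (nat_lit 78) (nat_lit 0) (nat_lit 0) (XT.lf (nat_lit 0) (nat_lit 4503586559) (nat_lit 152) (nat_lit 67993850491) (nat_lit 0) (nat_lit 928418102) (nat_lit 4) (nat_lit 5) (nat_lit 6) (nat_lit 4) (nat_lit 4) (nat_lit 4) (nat_lit 492) (nat_lit 284) (nat_lit 244)) (XT.lf (nat_lit 0) (nat_lit 9620151315) (nat_lit 152) (nat_lit 59855340574) (nat_lit 0) (nat_lit 5998948649) (nat_lit 4) (nat_lit 5) (nat_lit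 6) (nat_lit 4) (nat_lit 4) (nat_lit 4) (nat_lit 493) (nat_lit 284) (nat_lit 243))))))))
noncomputable def xc8 : XT := (XT.nd (nat_lit 2184) (nat_lit 380) (nat_lit 0) (XT.nd (nat_lit 1092) (nat_lit 456) (nat_lit 0) (XT.nd (nat_lit 546) (nat_lit 304) (nat_lit 0) (XT.nd (nat_lit 234) (nat_lit 228) (nat_lit 0) (XT.nd (nat_lit 78) (nat_lit 152) (nat_lit 0) (XT.lf (nat_lit 0) (nat_lit 9812143296) (nat_lit 76) (nat_lit 1496273618) (nat_lit 76) (nat_lit 1496273618) (nat_lit 24) (nat_lit 4) (nat_lit 25) (nat_lit 5) (nat_lit 25) (nat_lit 4) (nat_lit 450) (nat_lit 285) (nat_lit 285)) (XT.nd (nat_lit 78) (nat_lit 0) (nat_lit 0) (XT.lf (nat_lit 0) (nat_lit 3644328282) (nat_lit 152) (nat_lit 19068634883) (nat_lit 0) (nat_lit 3459643868) (nat_lit 22) (nat_lit 5) (nat_lit 24) (nat_lit 4) (nat_lit 22) (nat_lit 4) (nat_lit 451) (nat_lit 285) (nat_lit 284)) (XT.lf (nat_lit 0) (nat_lit 10376588528) (nat_lit 152) (nat_lit 6363965433)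 (nat_lit 0) (nat_lit 10012598859) (nat_lit 22) (nat_lit 5) (nat_lit 24) (nat_lit 4) (nat_lit 22) (nat_lit 4) (nat_lit 452) (nat_lit 285) (nat_lit 283)))) (XT.nd (nat_lit 156) (nat_lit 152) (nat_lit 0) (XT.nd (nat_lit 78) (nat_lit 0) (nat_lit 0) (XT.lf (nat_lit 0) (nat_lit 6596595227) (nat_lit 76) (nat_lit 10647302160) (nat_lit 76) (nat_lit 10109229718) (nat_lit 21) (nat_lit 4) (nat_lit 22) (nat_lit 5) (nat_lit 22) (nat_lit 4) (nat_lit 453) (nat_lit 285) (nat_lit 282)) (XT.lf (nat_lit 0) (nat_lit 19824945481) (nat_lit 76) (nat_lit 4427592511) (nat_lit 76) (nat_lit 3720507669) (nat_lit 21) (nat_lit 4) (nat_lit 22) (nat_lit 5) (nat_lit 22) (nat_lit 4) (nat_lit 454) (nat_lit 285) (nat_lit 281))) (XT.nd (nat_lit 78) (nat_lit 0) (nat_lit 0) (XT.lf (nat_lit 0) (nat_lit 2740959726) (nat_lit 152) (nat_lit 23976515588) (nat_lit 0) (nat_lit 1895159190) (nat_lit 19) (nat_lit 5) (nat_lit 21) (nat_lit 4) (nat_lit 19) (nat_lit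 4) (nat_lit 455) (nat_lit 285) (nat_lit 280)) (XT.lf (nat_lit 0) (nat_lit 9322174984) (nat_lit 152) (nat_lit 11626410338) (nat_lit 0) (nat_lit 8321704159) (nat_lit 19) (nat_lit 5) (nat_lit 21) (nat_lit 4) (nat_lit 19) (nat_lit 4) (nat_lit 456) (nat_lit 285) (nat_lit 279))))) (XT.nd (nat_lit 234) (nat_lit 228) (nat_lit 0) (XT.nd (nat_lit 78) (nat_lit 0) (nat_lit 0) (XT.lf (nat_lit 0) (nat_lit 871523603) (nat_lit 76) (nat_lit 15115108214) (nat_lit 76) (nat_lit 13964472060) (nat_lit 18) (nat_lit 4) (nat_lit 19) (nat_lit 5) (nat_lit 19) (nat_lit 4) (nat_lit 457) (nat_lit 285) (nat_lit 278)) (XT.nd (nat_lit 78) (nat_lit 0) (nat_lit 0) (XT.lf (nat_lit 0) (nat_lit 13745394359) (nat_lit 76) (nat_lit 9101748143) (nat_lit 76) (nat_lit 7805320407) (nat_lit 18) (nat_lit 4) (nat_lit 19) (nat_lit 5) (nat_lit 19) (nat_lit 4) (nat_lit 458) (nat_lit 285) (nat_lit 277)) (XT.lf (nat_lit 0) (nat_lit 26775062580) (nat_lit 76) (nat_lit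 3020654664) (nat_lit 76) (nat_lit 1582681704) (nat_lit 18) (nat_lit 4) (nat_lit 19) (nat_lit 5) (nat_lit 19) (nat_lit 4) (nat_lit 459) (nat_lit 285) (nat_lit 276)))) (XT.nd (nat_lit 156) (nat_lit 76) (nat_lit 0) (XT.nd (nat_lit 78) (nat_lit 0) (nat_lit 0) (XT.lf (nat_lit 0) (nat_lit 4724762253) (nat_lit 152) (nat_lit 24204941019) (nat_lit 0) (nat_lit 3195252051) (nat_lit 16) (nat_lit 5) (nat_lit 18) (nat_lit 4) (nat_lit 16) (nat_lit 4) (nat_lit 460) (nat_lit 285) (nat_lit 275)) (XT.lf (nat_lit 0) (nat_lit 11151173103) (nat_lit 152) (nat_lit 12251292980) (nat_lit 0) (nat_lit 9492128969) (nat_lit 16) (nat_lit 5) (nat_lit 18) (nat_lit 4) (nat_lit 16) (nat_lit 4) (nat_lit 461) (nat_lit 285) (nat_lit 274))) (XT.nd (nat_lit 78) (nat_lit 76) (nat_lit 0) (XT.lf (nat_lit 0) (nat_lit 17658436009) (nat_lit 152) (nat_lit 158618683) (nat_lit 0) (nat_lit 15873630776) (nat_lit 16) (nat_lit 5) (nat_lit 18) (nat_lit 4) (nat_lit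 16) (nat_lit 4) (nat_lit 462) (nat_lit 285) (nat_lit 273)) (XT.lf (nat_lit 0) (nat_lit 12324136580) (nat_lit 76) (nat_lit 12046567487) (nat_lit 76) (nat_lit 10139664100) (nat_lit 15) (nat_lit 4) (nat_lit 16) (nat_lit 5) (nat_lit 16) (nat_lit 4) (nat_lit 463) (nat_lit 285) (nat_lit 272)))))) (XT.nd (nat_lit 546) (nat_lit 228) (nat_lit 0) (XT.nd (nat_lit 234) (nat_lit 76) (nat_lit 0) (XT.nd (nat_lit 78) (nat_lit 152) (nat_lit 0) (XT.lf (nat_lit 0) (nat_lit 24973528546) (nat_lit 76) (nat_lit 6204869720) (nat_lit 76) (nat_lit 4179424435) (nat_lit 15) (nat_lit 4) (nat_lit 16) (nat_lit 5) (nat_lit 16) (nat_lit 4) (nat_lit 464) (nat_lit 285) (nat_lit 271)) (XT.nd (nat_lit 78) (nat_lit 0) (nat_lit 0) (XT.lf (nat_lit 0) (nat_lit 1576578479) (nat_lit 76) (nat_lit 254511660) (nat_lit 152) (nat_lit 34401757329) (nat_lit 13) (nat_lit 5) (nat_lit 14) (nat_lit 5) (nat_lit 15) (nat_lit 4) (nat_lit 465) (nat_lit 285) (nat_lit 270))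 (XT.lf (nat_lit 0) (nat_lit 7994969775) (nat_lit 152) (nat_lit 23327904761) (nat_lit 0) (nat_lit 5808298306) (nat_lit 13) (nat_lit 5) (nat_lit 15) (nat_lit 4) (nat_lit 13) (nat_lit 4) (nat_lit 466) (nat_lit 285) (nat_lit 269)))) (XT.nd (nat_lit 156) (nat_lit 76) (nat_lit 0) (XT.nd (nat_lit 78) (nat_lit 0) (nat_lit 0) (XT.lf (nat_lit 0) (nat_lit 14244037913) (nat_lit 152) (nat_lit 11863361149) (nat_lit 0) (nat_lit 11952043503) (nat_lit 13) (nat_lit 5) (nat_lit 15) (nat_lit 4) (nat_lit 13) (nat_lit 4) (nat_lit 467) (nat_lit 285) (nat_lit 268)) (XT.lf (nat_lit 0) (nat_lit 20581308383) (nat_lit 152) (nat_lit 250174069) (nat_lit 0) (nat_lit 18187058691) (nat_lit 13) (nat_lit 5) (nat_lit 15) (nat_lit 4) (nat_lit 13) (nat_lit 4) (nat_lit 468) (nat_lit 285) (nat_lit 267))) (XT.nd (nat_lit 78) (nat_lit 0) (nat_lit 0) (XT.lf (nat_lit 0) (nat_lit 11751110413) (nat_lit 76) (nat_lit 15374167054) (nat_lit 76) (nat_lit 12880640390)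 (nat_lit 12) (nat_lit 4) (nat_lit 13) (nat_lit 5) (nat_lit 13) (nat_lit 4) (nat_lit 469) (nat_lit 285) (nat_lit 266)) (XT.lf (nat_lit 0) (nat_lit 23929815923) (nat_lit 76) (nat_lit 9842900016) (nat_lit 76) (nat_lit 7252987941) (nat_lit 12) (nat_lit 4) (nat_lit 13) (nat_lit 5) (nat_lit 13) (nat_lit 4) (nat_lit 470) (nat_lit 285) (nat_lit 265))))) (XT.nd (nat_lit 234) (nat_lit 76) (nat_lit 0) (XT.nd (nat_lit 78) (nat_lit 152) (nat_lit 0) (XT.lf (nat_lit 0) (nat_lit 36291605095) (nat_lit 76) (nat_lit 4235374460) (nat_lit 76) (nat_lit 1551884316) (nat_lit 12) (nat_lit 4) (nat_lit 13) (nat_lit 5) (nat_lit 13) (nat_lit 4) (nat_lit 471) (nat_lit 285) (nat_lit 264)) (XT.nd (nat_lit 78) (nat_lit 0) (nat_lit 0) (XT.lf (nat_lit 0) (nat_lit 4215372554) (nat_lit 152) (nat_lit 37425783816) (nat_lit 0) (nat_lit 1521836013) (nat_lit 10) (nat_lit 5) (nat_lit 12) (nat_lit 4) (nat_lit 10) (nat_lit 4) (nat_lit 472) (nat_lit 285) (nat_lit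 263)) (XT.lf (nat_lit 0) (nat_lit 10134720177) (nat_lit 152) (nat_lit 26788611475) (nat_lit 0) (nat_lit 7355546448) (nat_lit 10) (nat_lit 5) (nat_lit 12) (nat_lit 4) (nat_lit 10) (nat_lit 4) (nat_lit 473) (nat_lit 285) (nat_lit 262)))) (XT.nd (nat_lit 156) (nat_lit 76) (nat_lit 0) (XT.nd (nat_lit 78) (nat_lit 0) (nat_lit 0) (XT.lf (nat_lit 0) (nat_lit 16143601049) (nat_lit 152) (nat_lit 16005998511) (nat_lit 0) (nat_lit 13281284418) (nat_lit 10) (nat_lit 5) (nat_lit 12) (nat_lit 4) (nat_lit 10) (nat_lit 4) (nat_lit 474) (nat_lit 285) (nat_lit 261)) (XT.lf (nat_lit 0) (nat_lit 22247265647) (nat_lit 152) (nat_lit 5068523222) (nat_lit 0) (nat_lit 19304227752) (nat_lit 10) (nat_lit 5) (nat_lit 12) (nat_lit 4) (nat_lit 10) (nat_lit 4) (nat_lit 475) (nat_lit 285) (nat_lit 260))) (XT.nd (nat_lit 78) (nat_lit 0) (nat_lit 0) (XT.lf (nat_lit 0) (nat_lit 6153447329) (nat_lit 76) (nat_lit 22356750641) (nat_lit 76) (nat_lit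 19335342587) (nat_lit 9) (nat_lit 4) (nat_lit 10) (nat_lit 5) (nat_lit 10) (nat_lit 4) (nat_lit 476) (nat_lit 285) (nat_lit 259)) (XT.lf (nat_lit 0) (nat_lit 17653876788) (nat_lit 76) (nat_lit 17276189775) (nat_lit 76) (nat_lit 14178694188) (nat_lit 9) (nat_lit 4) (nat_lit 10) (nat_lit 5) (nat_lit 10) (nat_lit 4) (nat_lit 477) (nat_lit 285) (nat_lit 258))))))) (XT.nd (nat_lit 1092) (nat_lit 152) (nat_lit 0) (XT.nd (nat_lit 546) (nat_lit 76) (nat_lit 0) (XT.nd (nat_lit 234) (nat_lit 0) (nat_lit 0) (XT.nd (nat_lit 78) (nat_lit 152) (nat_lit 0) (XT.lf (nat_lit 0) (nat_lit 29341940523) (nat_lit 76) (nat_lit 12120849092) (nat_lit 76) (nat_lit 8949482114) (nat_lit 9) (nat_lit 4) (nat_lit 10) (nat_lit 5) (nat_lit 10) (nat_lit 4) (nat_lit 478) (nat_lit 285) (nat_lit 257)) (XT.nd (nat_lit 78) (nat_lit 152) (nat_lit 0) (XT.lf (nat_lit 0) (nat_lit 41227851404) (nat_lit 76) (nat_lit 6886223926) (nat_lit 76) (nat_lit 3643137150)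 (nat_lit 9) (nat_lit 4) (nat_lit 10) (nat_lit 5) (nat_lit 10) (nat_lit 4) (nat_lit 479) (nat_lit 285) (nat_lit 256)) (XT.lf (nat_lit 0) (nat_lit 163656725) (nat_lit 76) (nat_lit 1548842965) (nat_lit 152) (nat_lit 51431708097) (nat_lit 7) (nat_lit 5) (nat_lit 8) (nat_lit 5) (nat_lit 9) (nat_lit 4) (nat_lit 480) (nat_lit 285) (nat_lit 255)))) (XT.nd (nat_lit 156) (nat_lit 0) (nat_lit 0) (XT.nd (nat_lit 78) (nat_lit 0) (nat_lit 0) (XT.lf (nat_lit 0) (nat_lit 7225088000) (nat_lit 152) (nat_lit 43401335875) (nat_lit 0) (nat_lit 3943223500) (nat_lit 7) (nat_lit 5) (nat_lit 9) (nat_lit 4) (nat_lit 7) (nat_lit 4) (nat_lit 481) (nat_lit 285) (nat_lit 254)) (XT.lf (nat_lit 0) (nat_lit 12844767920) (nat_lit 152) (nat_lit 33695651165) (nat_lit 0) (nat_lit 9499181309) (nat_lit 7) (nat_lit 5) (nat_lit 9) (nat_lit 4) (nat_lit 7) (nat_lit 4) (nat_lit 482) (nat_lit 285) (nat_lit 253))) (XT.nd (nat_lit 78) (nat_lit 0) (nat_lit 0)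 (XT.lf (nat_lit 0) (nat_lit 18561561427) (nat_lit 152) (nat_lit 23840127812) (nat_lit 0) (nat_lit 15154108688) (nat_lit 7) (nat_lit 5) (nat_lit 9) (nat_lit 4) (nat_lit 7) (nat_lit 4) (nat_lit 483) (nat_lit 285) (nat_lit 252)) (XT.lf (nat_lit 0) (nat_lit 24380463775) (nat_lit 152) (nat_lit 13826154193) (nat_lit 0) (nat_lit 20912946835) (nat_lit 7) (nat_lit 5) (nat_lit 9) (nat_lit 4) (nat_lit 7) (nat_lit 4) (nat_lit 484) (nat_lit 285) (nat_lit 251))))) (XT.nd (nat_lit 234) (nat_lit 0) (nat_lit 0) (XT.nd (nat_lit 78) (nat_lit 76) (nat_lit 0) (XT.lf (nat_lit 0) (nat_lit 30306559442) (nat_lit 152) (nat_lit 3644980235) (nat_lit 0) (nat_lit 26780727744) (nat_lit 7) (nat_lit 5) (nat_lit 9) (nat_lit 4) (nat_lit 7) (nat_lit 4) (nat_lit 485) (nat_lit 285) (nat_lit 250)) (XT.nd (nat_lit 78) (nat_lit 0) (nat_lit 0) (XT.lf (nat_lit 0) (nat_lit 6845877970) (nat_lit 76) (nat_lit 29564955368) (nat_lit 76) (nat_lit 25982507400)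 (nat_lit 6) (nat_lit 4) (nat_lit 7) (nat_lit 5) (nat_lit 7) (nat_lit 4) (nat_lit 486) (nat_lit 285) (nat_lit 249)) (XT.lf (nat_lit 0) (nat_lit 17598109762) (nat_lit 76) (nat_lit 25072195526) (nat_lit 76) (nat_lit 21434780305) (nat_lit 6) (nat_lit 4) (nat_lit 7) (nat_lit 5) (nat_lit 7) (nat_lit 4) (nat_lit 487) (nat_lit 285) (nat_lit 248)))) (XT.nd (nat_lit 156) (nat_lit 0) (nat_lit 0) (XT.nd (nat_lit 78) (nat_lit 0) (nat_lit 0) (XT.lf (nat_lit 0) (nat_lit 28548568041) (nat_lit 76) (nat_lit 20506141594) (nat_lit 76) (nat_lit 16815360108) (nat_lit 6) (nat_lit 4) (nat_lit 7) (nat_lit 5) (nat_lit 7) (nat_lit 4) (nat_lit 488) (nat_lit 285) (nat_lit 247)) (XT.lf (nat_lit 0) (nat_lit 39706821168) (nat_lit 76) (nat_lit 15862803814) (nat_lit 76) (nat_lit 12120210421) (nat_lit 6) (nat_lit 4) (nat_lit 7) (nat_lit 5) (nat_lit 7) (nat_lit 4) (nat_lit 489) (nat_lit 285) (nat_lit 246))) (XT.nd (nat_lit 78) (nat_lit 0) (nat_lit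 0) (XT.lf (nat_lit 0) (nat_lit 51082619073) (nat_lit 76) (nat_lit 11138124903) (nat_lit 76) (nat_lit 7345228686) (nat_lit 6) (nat_lit 4) (nat_lit 7) (nat_lit 5) (nat_lit 7) (nat_lit 4) (nat_lit 490) (nat_lit 285) (nat_lit 245)) (XT.lf (nat_lit 0) (nat_lit 62685901774) (nat_lit 76) (nat_lit 6327976499) (nat_lit 76) (nat_lit 2486242590) (nat_lit 6) (nat_lit 4) (nat_lit 7) (nat_lit 5) (nat_lit 7) (nat_lit 4) (nat_lit 491) (nat_lit 285) (nat_lit 244)))))) (XT.nd (nat_lit 50076) (nat_lit 0) (nat_lit 912) (XT.nd (nat_lit 49764) (nat_lit 0) (nat_lit 1368) (XT.nd (nat_lit 78) (nat_lit 0) (nat_lit 0) (XT.lf (nat_lit 0) (nat_lit 1029266135) (nat_lit 76) (nat_lit 1393598534) (nat_lit 152) (nat_lit 71070098855) (nat_lit 4) (nat_lit 5) (nat_lit 5) (nat_lit 5) (nat_lit 6) (nat_lit 4) (nat_lit 492) (nat_lit 285) (nat_lit 243)) (XT.nd (nat_lit 49608) (nat_lit 0) (nat_lit 1596) (XT.lf (nat_lit 0) (nat_lit 7498278433) (nat_lit 152)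 (nat_lit 64366793510) (nat_lit 0) (nat_lit 3677712071) (nat_lit 4) (nat_lit 5) (nat_lit 6) (nat_lit 4) (nat_lit 4) (nat_lit 4) (nat_lit 493) (nat_lit 285) (nat_lit 242)) (XT.lf (nat_lit 0) (nat_lit 4417978214) (nat_lit 152) (nat_lit 3429738674) (nat_lit 0) (nat_lit 4417978214) (nat_lit 25) (nat_lit 5) (nat_lit 27) (nat_lit 4) (nat_lit 25) (nat_lit 4) (nat_lit 448) (nat_lit 286) (nat_lit 286)))) (XT.nd (nat_lit 156) (nat_lit 152) (nat_lit 0) (XT.nd (nat_lit 78) (nat_lit 0) (nat_lit 0) (XT.lf (nat_lit 0) (nat_lit 6182101985) (nat_lit 76) (nat_lit 9538137002) (nat_lit 76) (nat_lit 9342205308) (nat_lit 24) (nat_lit 4) (nat_lit 25) (nat_lit 5) (nat_lit 25) (nat_lit 4) (nat_lit 449) (nat_lit 286) (nat_lit 285)) (XT.lf (nat_lit 0) (nat_lit 19496854874) (nat_lit 76) (nat_lit 3250326402) (nat_lit 76) (nat_lit 2864169762) (nat_lit 24) (nat_lit 4) (nat_lit 25) (nat_lit 5) (nat_lit 25) (nat_lit 4) (nat_lit 450) (nat_lit 286)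 (nat_lit 284))) (XT.nd (nat_lit 78) (nat_lit 0) (nat_lit 0) (XT.lf (nat_lit 0) (nat_lit 3700313634) (nat_lit 152) (nat_lit 19330226253) (nat_lit 0) (nat_lit 3146099019) (nat_lit 22) (nat_lit 5) (nat_lit 24) (nat_lit 4) (nat_lit 22) (nat_lit 4) (nat_lit 451) (nat_lit 286) (nat_lit 283)) (XT.lf (nat_lit 0) (nat_lit 10368372057) (nat_lit 152) (nat_lit 6750666263) (nat_lit 0) (nat_lit 9640074668) (nat_lit 22) (nat_lit 5) (nat_lit 24) (nat_lit 4) (nat_lit 22) (nat_lit 4) (nat_lit 452) (nat_lit 286) (nat_lit 282))))) (XT.nd (nat_lit 312) (nat_lit 228) (nat_lit 0) (XT.nd (nat_lit 156) (nat_lit 152) (nat_lit 0) (XT.nd (nat_lit 78) (nat_lit 0) (nat_lit 0) (XT.lf (nat_lit 0) (nat_lit 6078315396) (nat_lit 76) (nat_lit 11090051629) (nat_lit 76) (nat_lit 10192741840) (nat_lit 21) (nat_lit 4) (nat_lit 22) (nat_lit 5) (nat_lit 22) (nat_lit 4) (nat_lit 453) (nat_lit 286) (nat_lit 281)) (XT.lf (nat_lit 0) (nat_lit 19186390993)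 (nat_lit 76) (nat_lit 4928944107) (nat_lit 76) (nat_lit 3867544609) (nat_lit 21) (nat_lit 4) (nat_lit 22) (nat_lit 5) (nat_lit 22) (nat_lit 4) (nat_lit 454) (nat_lit 286) (nat_lit 280))) (XT.nd (nat_lit 78) (nat_lit 0) (nat_lit 0) (XT.lf (nat_lit 0) (nat_lit 2523361061) (nat_lit 152) (nat_lit 24763148989) (nat_lit 0) (nat_lit 1338205822) (nat_lit 19) (nat_lit 5) (nat_lit 21) (nat_lit 4) (nat_lit 19) (nat_lit 4) (nat_lit 455) (nat_lit 286) (nat_lit 279)) (XT.lf (nat_lit 0) (nat_lit 9044195777) (nat_lit 152) (nat_lit 12531113212) (nat_lit 0) (nat_lit 7708875209) (nat_lit 19) (nat_lit 5) (nat_lit 21) (nat_lit 4) (nat_lit 19) (nat_lit 4) (nat_lit 456) (nat_lit 286) (nat_lit 278)))) (XT.nd (nat_lit 156) (nat_lit 152) (nat_lit 0) (XT.nd (nat_lit 78) (nat_lit 76) (nat_lit 0) (XT.lf (nat_lit 0) (nat_lit 15641653106) (nat_lit 152) (nat_lit 164816392) (nat_lit 0) (nat_lit 14160540957) (nat_lit 19) (nat_lit 5) (nat_lit 21)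 (nat_lit 4) (nat_lit 19) (nat_lit 4) (nat_lit 457) (nat_lit 286) (nat_lit 277)) (XT.lf (nat_lit 0) (nat_lit 12592267466) (nat_lit 76) (nat_lit 9850274930) (nat_lit 76) (nat_lit 8227617556) (nat_lit 18) (nat_lit 4) (nat_lit 19) (nat_lit 5) (nat_lit 19) (nat_lit 4) (nat_lit 458) (nat_lit 286) (nat_lit 276))) (XT.nd (nat_lit 78) (nat_lit 152) (nat_lit 0) (XT.lf (nat_lit 0) (nat_lit 25511734981) (nat_lit 76) (nat_lit 3823066092) (nat_lit 76) (nat_lit 2062986169) (nat_lit 18) (nat_lit 4) (nat_lit 19) (nat_lit 5) (nat_lit 19) (nat_lit 4) (nat_lit 459) (nat_lit 286) (nat_lit 275)) (XT.lf (nat_lit 0) (nat_lit 4176619551) (nat_lit 152) (nat_lit 25631910403) (nat_lit 0) (nat_lit 2338270161) (nat_lit 16) (nat_lit 5) (nat_lit 18) (nat_lit 4) (nat_lit 16) (nat_lit 4) (nat_lit 460) (nat_lit 286) (nat_lit 274))))))))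
noncomputable def xc9 : XT := (XT.nd (nat_lit 2262) (nat_lit 152) (nat_lit 0) (XT.nd (nat_lit 1092) (nat_lit 304) (nat_lit 0) (XT.nd (nat_lit 546) (nat_lit 228) (nat_lit 0) (XT.nd (nat_lit 234) (nat_lit 152) (nat_lit 0) (XT.nd (nat_lit 78) (nat_lit 76) (nat_lit 0) (XT.lf (nat_lit 0) (nat_lit 10547887411) (nat_lit 152) (nat_lit 13786431419) (nat_lit 0) (nat_lit 8583776922) (nat_lit 16) (nat_lit 5) (nat_lit 18) (nat_lit 4) (nat_lit 16) (nat_lit 4) (nat_lit 461) (nat_lit 286) (nat_lit 273)) (XT.nd (nat_lit 78) (nat_lit 76) (nat_lit 0) (XT.lf (nat_lit 0) (nat_lit 17001613433) (nat_lit 152) (nat_lit 1798775623) (nat_lit 0) (nat_lit 14915404789) (nat_lit 16) (nat_lit 5) (nat_lit 18) (nat_lit 4) (nat_lit 16) (nat_lit 4) (nat_lit 462) (nat_lit 286) (nat_lit 272)) (XT.lf (nat_lit 0) (nat_lit 10547348393) (nat_lit 76) (nat_lit 13097475966) (nat_lit 76) (nat_lit 10892725425) (nat_lit 15) (nat_lit 4) (nat_lit 16) (nat_lit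 5) (nat_lit 16) (nat_lit 4) (nat_lit 463) (nat_lit 286) (nat_lit 271)))) (XT.nd (nat_lit 156) (nat_lit 76) (nat_lit 0) (XT.nd (nat_lit 78) (nat_lit 76) (nat_lit 0) (XT.lf (nat_lit 0) (nat_lit 23095780255) (nat_lit 76) (nat_lit 7305304165) (nat_lit 76) (nat_lit 4985464404) (nat_lit 15) (nat_lit 4) (nat_lit 16) (nat_lit 5) (nat_lit 16) (nat_lit 4) (nat_lit 464) (nat_lit 286) (nat_lit 270)) (XT.lf (nat_lit 0) (nat_lit 975191995) (nat_lit 152) (nat_lit 451937118) (nat_lit 76) (nat_lit 34836645926) (nat_lit 14) (nat_lit 5) (nat_lit 16) (nat_lit 5) (nat_lit 15) (nat_lit 4) (nat_lit 465) (nat_lit 286) (nat_lit 269))) (XT.nd (nat_lit 78) (nat_lit 0) (nat_lit 0) (XT.lf (nat_lit 0) (nat_lit 7072956712) (nat_lit 152) (nat_lit 25484248973) (nat_lit 0) (nat_lit 4606879530) (nat_lit 13) (nat_lit 5) (nat_lit 15) (nat_lit 4) (nat_lit 13) (nat_lit 4) (nat_lit 466) (nat_lit 286) (nat_lit 268)) (XT.lf (nat_lit 0) (nat_lit 13273123514)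 (nat_lit 152) (nat_lit 14115908731) (nat_lit 0) (nat_lit 10704791050) (nat_lit 13) (nat_lit 5) (nat_lit 15) (nat_lit 4) (nat_lit 13) (nat_lit 4) (nat_lit 467) (nat_lit 286) (nat_lit 267))))) (XT.nd (nat_lit 234) (nat_lit 152) (nat_lit 0) (XT.nd (nat_lit 78) (nat_lit 76) (nat_lit 0) (XT.lf (nat_lit 0) (nat_lit 19562916959) (nat_lit 152) (nat_lit 2596122980) (nat_lit 0) (nat_lit 16895307522) (nat_lit 13) (nat_lit 5) (nat_lit 15) (nat_lit 4) (nat_lit 13) (nat_lit 4) (nat_lit 468) (nat_lit 286) (nat_lit 266)) (XT.nd (nat_lit 78) (nat_lit 0) (nat_lit 0) (XT.lf (nat_lit 0) (nat_lit 9265986888) (nat_lit 76) (nat_lit 16770916428) (nat_lit 76) (nat_lit 14006921581) (nat_lit 12) (nat_lit 4) (nat_lit 13) (nat_lit 5) (nat_lit 13) (nat_lit 4) (nat_lit 469) (nat_lit 286) (nat_lit 265)) (XT.lf (nat_lit 0) (nat_lit 21354900524) (nat_lit 76) (nat_lit 11283826480) (nat_lit 76) (nat_lit 8426253564) (nat_lit 12) (nat_lit 4) (nat_lit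 13) (nat_lit 5) (nat_lit 13) (nat_lit 4) (nat_lit 470) (nat_lit 286) (nat_lit 264)))) (XT.nd (nat_lit 156) (nat_lit 0) (nat_lit 0) (XT.nd (nat_lit 78) (nat_lit 152) (nat_lit 0) (XT.lf (nat_lit 0) (nat_lit 33629513119) (nat_lit 76) (nat_lit 5719191302) (nat_lit 76) (nat_lit 2770765893) (nat_lit 12) (nat_lit 4) (nat_lit 13) (nat_lit 5) (nat_lit 13) (nat_lit 4) (nat_lit 471) (nat_lit 286) (nat_lit 263)) (XT.lf (nat_lit 0) (nat_lit 2920834096) (nat_lit 76) (nat_lit 13878125) (nat_lit 152) (nat_lit 40271806113) (nat_lit 10) (nat_lit 5) (nat_lit 11) (nat_lit 5) (nat_lit 12) (nat_lit 4) (nat_lit 472) (nat_lit 286) (nat_lit 262))) (XT.nd (nat_lit 78) (nat_lit 0) (nat_lit 0) (XT.lf (nat_lit 0) (nat_lit 8810553445) (nat_lit 152) (nat_lit 29733932456) (nat_lit 0) (nat_lit 5779224413) (nat_lit 10) (nat_lit 5) (nat_lit 12) (nat_lit 4) (nat_lit 10) (nat_lit 4) (nat_lit 473) (nat_lit 286) (nat_lit 261)) (XT.lf (nat_lit 0) (nat_lit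 14777324612) (nat_lit 152) (nat_lit 19034381593) (nat_lit 0) (nat_lit 11665274316) (nat_lit 10) (nat_lit 5) (nat_lit 12) (nat_lit 4) (nat_lit 10) (nat_lit 4) (nat_lit 474) (nat_lit 286) (nat_lit 260)))))) (XT.nd (nat_lit 546) (nat_lit 76) (nat_lit 0) (XT.nd (nat_lit 234) (nat_lit 152) (nat_lit 0) (XT.nd (nat_lit 78) (nat_lit 76) (nat_lit 0) (XT.lf (nat_lit 0) (nat_lit 20840106002) (nat_lit 152) (nat_lit 8177549120) (nat_lit 0) (nat_lit 17649685547) (nat_lit 10) (nat_lit 5) (nat_lit 12) (nat_lit 4) (nat_lit 10) (nat_lit 4) (nat_lit 475) (nat_lit 286) (nat_lit 259)) (XT.nd (nat_lit 78) (nat_lit 0) (nat_lit 0) (XT.lf (nat_lit 0) (nat_lit 2902693520) (nat_lit 76) (nat_lit 24129404136) (nat_lit 76) (nat_lit 20862896149) (nat_lit 9) (nat_lit 4) (nat_lit 10) (nat_lit 5) (nat_lit 10) (nat_lit 4) (nat_lit 476) (nat_lit 286) (nat_lit 258)) (XT.lf (nat_lit 0) (nat_lit 14325596571) (nat_lit 76) (nat_lit 19087088102) (nat_lit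 76) (nat_lit 15746708723) (nat_lit 9) (nat_lit 4) (nat_lit 10) (nat_lit 5) (nat_lit 10) (nat_lit 4) (nat_lit 477) (nat_lit 286) (nat_lit 257)))) (XT.nd (nat_lit 156) (nat_lit 152) (nat_lit 0) (XT.nd (nat_lit 78) (nat_lit 0) (nat_lit 0) (XT.lf (nat_lit 0) (nat_lit 25938391948) (nat_lit 76) (nat_lit 13968878324) (nat_lit 76) (nat_lit 10556779148) (nat_lit 9) (nat_lit 4) (nat_lit 10) (nat_lit 5) (nat_lit 10) (nat_lit 4) (nat_lit 478) (nat_lit 286) (nat_lit 256)) (XT.lf (nat_lit 0) (nat_lit 37751226754) (nat_lit 76) (nat_lit 8770302581) (nat_lit 76) (nat_lit 5288572533) (nat_lit 9) (nat_lit 4) (nat_lit 10) (nat_lit 5) (nat_lit 10) (nat_lit 4) (nat_lit 479) (nat_lit 286) (nat_lit 255))) (XT.nd (nat_lit 78) (nat_lit 76) (nat_lit 0) (XT.lf (nat_lit 0) (nat_lit 61294527) (nat_lit 152) (nat_lit 3424904943) (nat_lit 76) (nat_lit 49712509401) (nat_lit 8) (nat_lit 5) (nat_lit 10) (nat_lit 5) (nat_lit 9) (nat_lit 4) (nat_lit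 480) (nat_lit 286) (nat_lit 254)) (XT.lf (nat_lit 0) (nat_lit 5485083271) (nat_lit 152) (nat_lit 47166323044) (nat_lit 0) (nat_lit 1975406951) (nat_lit 7) (nat_lit 5) (nat_lit 9) (nat_lit 4) (nat_lit 7) (nat_lit 4) (nat_lit 481) (nat_lit 286) (nat_lit 253))))) (XT.nd (nat_lit 312) (nat_lit 76) (nat_lit 0) (XT.nd (nat_lit 156) (nat_lit 0) (nat_lit 0) (XT.nd (nat_lit 78) (nat_lit 0) (nat_lit 0) (XT.lf (nat_lit 0) (nat_lit 11069552939) (nat_lit 152) (nat_lit 37530259959) (nat_lit 0) (nat_lit 7498010492) (nat_lit 7) (nat_lit 5) (nat_lit 9) (nat_lit 4) (nat_lit 7) (nat_lit 4) (nat_lit 482) (nat_lit 286) (nat_lit 252)) (XT.lf (nat_lit 0) (nat_lit 16752161735) (nat_lit 152) (nat_lit 27742330417) (nat_lit 0) (nat_lit 13120555086) (nat_lit 7) (nat_lit 5) (nat_lit 9) (nat_lit 4) (nat_lit 7) (nat_lit 4) (nat_lit 483) (nat_lit 286) (nat_lit 251))) (XT.nd (nat_lit 78) (nat_lit 0) (nat_lit 0) (XT.lf (nat_lit 0) (nat_lit 22537875043)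 (nat_lit 152) (nat_lit 17793981857) (nat_lit 0) (nat_lit 18847953635) (nat_lit 7) (nat_lit 5) (nat_lit 9) (nat_lit 4) (nat_lit 7) (nat_lit 4) (nat_lit 484) (nat_lit 286) (nat_lit 250)) (XT.lf (nat_lit 0) (nat_lit 28431748341) (nat_lit 152) (nat_lit 7676521548) (nat_lit 0) (nat_lit 24685210664) (nat_lit 7) (nat_lit 5) (nat_lit 9) (nat_lit 4) (nat_lit 7) (nat_lit 4) (nat_lit 485) (nat_lit 286) (nat_lit 249)))) (XT.nd (nat_lit 156) (nat_lit 0) (nat_lit 0) (XT.nd (nat_lit 78) (nat_lit 0) (nat_lit 0) (XT.lf (nat_lit 0) (nat_lit 2671012075) (nat_lit 76) (nat_lit 31793594944) (nat_lit 76) (nat_lit 27992090014) (nat_lit 6) (nat_lit 4) (nat_lit 7) (nat_lit 5) (nat_lit 7) (nat_lit 4) (nat_lit 486) (nat_lit 286) (nat_lit 248)) (XT.lf (nat_lit 0) (nat_lit 13361992405) (nat_lit 76) (nat_lit 27331125105) (nat_lit 76) (nat_lit 23476253909) (nat_lit 6) (nat_lit 4) (nat_lit 7) (nat_lit 5) (nat_lit 7) (nat_lit 4) (nat_lit 487) (nat_lit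 286) (nat_lit 247))) (XT.nd (nat_lit 78) (nat_lit 0) (nat_lit 0) (XT.lf (nat_lit 0) (nat_lit 24252983246) (nat_lit 76) (nat_lit 22794478941) (nat_lit 76) (nat_lit 18887795838) (nat_lit 6) (nat_lit 4) (nat_lit 7) (nat_lit 5) (nat_lit 7) (nat_lit 4) (nat_lit 488) (nat_lit 286) (nat_lit 246)) (XT.lf (nat_lit 0) (nat_lit 35353500996) (nat_lit 76) (nat_lit 18179692394) (nat_lit 76) (nat_lit 14222706468) (nat_lit 6) (nat_lit 4) (nat_lit 7) (nat_lit 5) (nat_lit 7) (nat_lit 4) (nat_lit 489) (nat_lit 286) (nat_lit 245))))))) (XT.nd (nat_lit 50466) (nat_lit 0) (nat_lit 608) (XT.nd (nat_lit 49920) (nat_lit 0) (nat_lit 1140) (XT.nd (nat_lit 234) (nat_lit 76) (nat_lit 0) (XT.nd (nat_lit 78) (nat_lit 76) (nat_lit 0) (XT.lf (nat_lit 0) (nat_lit 46673245136) (nat_lit 76) (nat_lit 13482733125) (nat_lit 76) (nat_lit 9476909507) (nat_lit 6) (nat_lit 4) (nat_lit 7) (nat_lit 5) (nat_lit 7) (nat_lit 4) (nat_lit 490) (nat_lit 286) (nat_lit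 244)) (XT.nd (nat_lit 78) (nat_lit 76) (nat_lit 0) (XT.lf (nat_lit 0) (nat_lit 58222106707) (nat_lit 76) (nat_lit 8699496996) (nat_lit 76) (nat_lit 4646258143) (nat_lit 6) (nat_lit 4) (nat_lit 7) (nat_lit 5) (nat_lit 7) (nat_lit 4) (nat_lit 491) (nat_lit 286) (nat_lit 243)) (XT.lf (nat_lit 0) (nat_lit 268132224) (nat_lit 152) (nat_lit 3554964645) (nat_lit 76) (nat_lit 69739337111) (nat_lit 5) (nat_lit 5) (nat_lit 7) (nat_lit 5) (nat_lit 6) (nat_lit 4) (nat_lit 492) (nat_lit 286) (nat_lit 242)))) (XT.nd (nat_lit 49530) (nat_lit 0) (nat_lit 1596) (XT.nd (nat_lit 49452) (nat_lit 0) (nat_lit 1748) (XT.lf (nat_lit 0) (nat_lit 5258048018) (nat_lit 152) (nat_lit 69121992349) (nat_lit 0) (nat_lit 1234779602) (nat_lit 4) (nat_lit 5) (nat_lit 6) (nat_lit 4) (nat_lit 4) (nat_lit 4) (nat_lit 493) (nat_lit 286) (nat_lit 241)) (XT.lf (nat_lit 0) (nat_lit 7455682059) (nat_lit 76) (nat_lit 2151286795) (nat_lit 76) (nat_lit 2151286795)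 (nat_lit 27) (nat_lit 4) (nat_lit 28) (nat_lit 5) (nat_lit 28) (nat_lit 4) (nat_lit 446) (nat_lit 287) (nat_lit 287))) (XT.nd (nat_lit 78) (nat_lit 0) (nat_lit 0) (XT.lf (nat_lit 0) (nat_lit 2281042522) (nat_lit 152) (nat_lit 19657721907) (nat_lit 0) (nat_lit 2079232877) (nat_lit 25) (nat_lit 5) (nat_lit 27) (nat_lit 4) (nat_lit 25) (nat_lit 4) (nat_lit 447) (nat_lit 287) (nat_lit 286)) (XT.lf (nat_lit 0) (nat_lit 8971476002) (nat_lit 152) (nat_lit 6988170766) (nat_lit 0) (nat_lit 8573734663) (nat_lit 25) (nat_lit 5) (nat_lit 27) (nat_lit 4) (nat_lit 25) (nat_lit 4) (nat_lit 448) (nat_lit 287) (nat_lit 285))))) (XT.nd (nat_lit 234) (nat_lit 228) (nat_lit 0) (XT.nd (nat_lit 78) (nat_lit 152) (nat_lit 0) (XT.lf (nat_lit 0) (nat_lit 5923415599) (nat_lit 76) (nat_lit 9865497016) (nat_lit 76) (nat_lit 9277530731) (nat_lit 24) (nat_lit 4) (nat_lit 25) (nat_lit 5) (nat_lit 25) (nat_lit 4) (nat_lit 449) (nat_lit 287) (nat_lit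 284)) (XT.nd (nat_lit 78) (nat_lit 152) (nat_lit 0) (XT.lf (nat_lit 0) (nat_lit 19114448375) (nat_lit 76) (nat_lit 3637732506) (nat_lit 76) (nat_lit 2865081807) (nat_lit 24) (nat_lit 4) (nat_lit 25) (nat_lit 5) (nat_lit 25) (nat_lit 4) (nat_lit 450) (nat_lit 287) (nat_lit 283)) (XT.lf (nat_lit 0) (nat_lit 3627648844) (nat_lit 152) (nat_lit 19853637568) (nat_lit 0) (nat_lit 2703419762) (nat_lit 22) (nat_lit 5) (nat_lit 24) (nat_lit 4) (nat_lit 22) (nat_lit 4) (nat_lit 451) (nat_lit 287) (nat_lit 282)))) (XT.nd (nat_lit 156) (nat_lit 152) (nat_lit 0) (XT.nd (nat_lit 78) (nat_lit 76) (nat_lit 0) (XT.lf (nat_lit 0) (nat_lit 10233375399) (nat_lit 152) (nat_lit 7395543073) (nat_lit 0) (nat_lit 9140133915) (nat_lit 22) (nat_lit 5) (nat_lit 24) (nat_lit 4) (nat_lit 22) (nat_lit 4) (nat_lit 452) (nat_lit 287) (nat_lit 281)) (XT.lf (nat_lit 0) (nat_lit 5300329616) (nat_lit 76) (nat_lit 11665045899) (nat_lit 76) (nat_lit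 10407714707) (nat_lit 21) (nat_lit 4) (nat_lit 22) (nat_lit 5) (nat_lit 22) (nat_lit 4) (nat_lit 453) (nat_lit 287) (nat_lit 280))) (XT.nd (nat_lit 78) (nat_lit 152) (nat_lit 0) (XT.lf (nat_lit 0) (nat_lit 18291633701) (nat_lit 76) (nat_lit 5560833646) (nat_lit 76) (nat_lit 4144192056) (nat_lit 21) (nat_lit 4) (nat_lit 22) (nat_lit 5) (nat_lit 22) (nat_lit 4) (nat_lit 454) (nat_lit 287) (nat_lit 279)) (XT.lf (nat_lit 0) (nat_lit 2176661935) (nat_lit 152) (nat_lit 25813062423) (nat_lit 0) (nat_lit 651116422) (nat_lit 19) (nat_lit 5) (nat_lit 21) (nat_lit 4) (nat_lit 19) (nat_lit 4) (nat_lit 455) (nat_lit 287) (nat_lit 278)))))) (XT.nd (nat_lit 546) (nat_lit 304) (nat_lit 0) (XT.nd (nat_lit 234) (nat_lit 152) (nat_lit 0) (XT.nd (nat_lit 78) (nat_lit 76) (nat_lit 0) (XT.lf (nat_lit 0) (nat_lit 8638874766) (nat_lit 152) (nat_lit 13695657203) (nat_lit 0) (nat_lit 6967537670) (nat_lit 19) (nat_lit 5) (nat_lit 21) (nat_lit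 4) (nat_lit 19) (nat_lit 4) (nat_lit 456) (nat_lit 287) (nat_lit 277)) (XT.nd (nat_lit 78) (nat_lit 76) (nat_lit 0) (XT.lf (nat_lit 0) (nat_lit 15179417643) (nat_lit 152) (nat_lit 1440652186) (nat_lit 0) (nat_lit 13366535323) (nat_lit 19) (nat_lit 5) (nat_lit 21) (nat_lit 4) (nat_lit 19) (nat_lit 4) (nat_lit 457) (nat_lit 287) (nat_lit 276)) (XT.lf (nat_lit 0) (nat_lit 11180839332) (nat_lit 76) (nat_lit 10730643340) (nat_lit 76) (nat_lit 8780338472) (nat_lit 18) (nat_lit 4) (nat_lit 19) (nat_lit 5) (nat_lit 19) (nat_lit 4) (nat_lit 458) (nat_lit 287) (nat_lit 275)))) (XT.nd (nat_lit 156) (nat_lit 0) (nat_lit 0) (XT.nd (nat_lit 78) (nat_lit 152) (nat_lit 0) (XT.lf (nat_lit 0) (nat_lit 23993315870) (nat_lit 76) (nat_lit 4755749687) (nat_lit 76) (nat_lit 2672024869) (nat_lit 18) (nat_lit 4) (nat_lit 19) (nat_lit 5) (nat_lit 19) (nat_lit 4) (nat_lit 459) (nat_lit 287) (nat_lit 274)) (XT.lf (nat_lit 0) (nat_lit 3500092297)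 (nat_lit 152) (nat_lit 27321272051) (nat_lit 0) (nat_lit 1351297394) (nat_lit 16) (nat_lit 5) (nat_lit 18) (nat_lit 4) (nat_lit 16) (nat_lit 4) (nat_lit 460) (nat_lit 287) (nat_lit 273))) (XT.nd (nat_lit 78) (nat_lit 0) (nat_lit 0) (XT.lf (nat_lit 0) (nat_lit 9817823274) (nat_lit 152) (nat_lit 15580811568) (nat_lit 0) (nat_lit 7546930217) (nat_lit 16) (nat_lit 5) (nat_lit 18) (nat_lit 4) (nat_lit 16) (nat_lit 4) (nat_lit 461) (nat_lit 287) (nat_lit 272)) (XT.lf (nat_lit 0) (nat_lit 16219571738) (nat_lit 152) (nat_lit 3695115481) (nat_lit 0) (nat_lit 13830136784) (nat_lit 16) (nat_lit 5) (nat_lit 18) (nat_lit 4) (nat_lit 16) (nat_lit 4) (nat_lit 462) (nat_lit 287) (nat_lit 271))))) (XT.nd (nat_lit 312) (nat_lit 76) (nat_lit 0) (XT.nd (nat_lit 156) (nat_lit 152) (nat_lit 0) (XT.nd (nat_lit 78) (nat_lit 0) (nat_lit 0) (XT.lf (nat_lit 0) (nat_lit 8512307548) (nat_lit 76) (nat_lit 14280449411) (nat_lit 76) (nat_lit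 11775925236) (nat_lit 15) (nat_lit 4) (nat_lit 16) (nat_lit 5) (nat_lit 16) (nat_lit 4) (nat_lit 463) (nat_lit 287) (nat_lit 270)) (XT.lf (nat_lit 0) (nat_lit 20962719891) (nat_lit 76) (nat_lit 8536361073) (nat_lit 76) (nat_lit 5920099791) (nat_lit 15) (nat_lit 4) (nat_lit 16) (nat_lit 5) (nat_lit 16) (nat_lit 4) (nat_lit 464) (nat_lit 287) (nat_lit 269))) (XT.nd (nat_lit 78) (nat_lit 76) (nat_lit 0) (XT.lf (nat_lit 0) (nat_lit 9831718) (nat_lit 152) (nat_lit 2704785522) (nat_lit 76) (nat_lit 33583529504) (nat_lit 14) (nat_lit 5) (nat_lit 16) (nat_lit 5) (nat_lit 15) (nat_lit 4) (nat_lit 465) (nat_lit 287) (nat_lit 268)) (XT.lf (nat_lit 0) (nat_lit 6024013546) (nat_lit 152) (nat_lit 27900576351) (nat_lit 0) (nat_lit 3276375826) (nat_lit 13) (nat_lit 5) (nat_lit 15) (nat_lit 4) (nat_lit 13) (nat_lit 4) (nat_lit 466) (nat_lit 287) (nat_lit 267)))) (XT.nd (nat_lit 156) (nat_lit 76) (nat_lit 0) (XT.nd (nat_lit 78)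 (nat_lit 0) (nat_lit 0) (XT.lf (nat_lit 0) (nat_lit 12176703323) (nat_lit 152) (nat_lit 16625637439) (nat_lit 0) (nat_lit 9329788630) (nat_lit 13) (nat_lit 5) (nat_lit 15) (nat_lit 4) (nat_lit 13) (nat_lit 4) (nat_lit 467) (nat_lit 287) (nat_lit 266)) (XT.lf (nat_lit 0) (nat_lit 18420402568) (nat_lit 152) (nat_lit 5196532591) (nat_lit 0) (nat_lit 15477102465) (nat_lit 13) (nat_lit 5) (nat_lit 15) (nat_lit 4) (nat_lit 13) (nat_lit 4) (nat_lit 468) (nat_lit 287) (nat_lit 265))) (XT.nd (nat_lit 78) (nat_lit 0) (nat_lit 0) (XT.lf (nat_lit 0) (nat_lit 6524032153) (nat_lit 76) (nat_lit 18299247777) (nat_lit 76) (nat_lit 15262369605) (nat_lit 12) (nat_lit 4) (nat_lit 13) (nat_lit 5) (nat_lit 13) (nat_lit 4) (nat_lit 469) (nat_lit 287) (nat_lit 264)) (XT.lf (nat_lit 0) (nat_lit 18525769213) (nat_lit 76) (nat_lit 12855048207) (nat_lit 76) (nat_lit 9727317542) (nat_lit 12) (nat_lit 4) (nat_lit 13) (nat_lit 5) (nat_lit 13)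 (nat_lit 4) (nat_lit 470) (nat_lit 287) (nat_lit 263))))))))
noncomputable def xc10 : XT := (XT.nd (nat_lit 51480) (nat_lit 0) (nat_lit 380) (XT.nd (nat_lit 1092) (nat_lit 228) (nat_lit 0) (XT.nd (nat_lit 546) (nat_lit 152) (nat_lit 0) (XT.nd (nat_lit 234) (nat_lit 76) (nat_lit 0) (XT.nd (nat_lit 78) (nat_lit 152) (nat_lit 0) (XT.lf (nat_lit 0) (nat_lit 30715744354) (nat_lit 76) (nat_lit 7332054174) (nat_lit 76) (nat_lit 4116117204) (nat_lit 12) (nat_lit 4) (nat_lit 13) (nat_lit 5) (nat_lit 13) (nat_lit 4) (nat_lit 471) (nat_lit 287) (nat_lit 262)) (XT.nd (nat_lit 78) (nat_lit 76) (nat_lit 0) (XT.lf (nat_lit 0) (nat_lit 1545378340) (nat_lit 152) (nat_lit 164456128) (nat_lit 76) (nat_lit 41543625380) (nat_lit 11) (nat_lit 5) (nat_lit 13) (nat_lit 5) (nat_lit 12) (nat_lit 4) (nat_lit 472) (nat_lit 287) (nat_lit 261)) (XT.lf (nat_lit 0) (nat_lit 7361179010) (nat_lit 152) (nat_lit 32936229131) (nat_lit 0) (nat_lit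 4075045942) (nat_lit 10) (nat_lit 5) (nat_lit 12) (nat_lit 4) (nat_lit 10) (nat_lit 4) (nat_lit 473) (nat_lit 287) (nat_lit 260)))) (XT.nd (nat_lit 156) (nat_lit 76) (nat_lit 0) (XT.nd (nat_lit 78) (nat_lit 0) (nat_lit 0) (XT.lf (nat_lit 0) (nat_lit 13287066969) (nat_lit 152) (nat_lit 22317321083) (nat_lit 0) (nat_lit 9922563742) (nat_lit 10) (nat_lit 5) (nat_lit 12) (nat_lit 4) (nat_lit 10) (nat_lit 4) (nat_lit 474) (nat_lit 287) (nat_lit 259)) (XT.lf (nat_lit 0) (nat_lit 19310155924) (nat_lit 152) (nat_lit 11538782607) (nat_lit 0) (nat_lit 15869565164) (nat_lit 10) (nat_lit 5) (nat_lit 12) (nat_lit 4) (nat_lit 10) (nat_lit 4) (nat_lit 475) (nat_lit 287) (nat_lit 258))) (XT.nd (nat_lit 78) (nat_lit 76) (nat_lit 0) (XT.lf (nat_lit 0) (nat_lit 25435708769) (nat_lit 152) (nat_lit 591195561) (nat_lit 0) (nat_lit 21921246617) (nat_lit 10) (nat_lit 5) (nat_lit 12) (nat_lit 4) (nat_lit 10) (nat_lit 4) (nat_lit 476) (nat_lit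 287) (nat_lit 257)) (XT.lf (nat_lit 0) (nat_lit 10744673181) (nat_lit 76) (nat_lit 21027689117) (nat_lit 76) (nat_lit 17441507167) (nat_lit 9) (nat_lit 4) (nat_lit 10) (nat_lit 5) (nat_lit 10) (nat_lit 4) (nat_lit 477) (nat_lit 287) (nat_lit 256))))) (XT.nd (nat_lit 234) (nat_lit 152) (nat_lit 0) (XT.nd (nat_lit 78) (nat_lit 0) (nat_lit 0) (XT.lf (nat_lit 0) (nat_lit 22284392483) (nat_lit 76) (nat_lit 15945528761) (nat_lit 76) (nat_lit 12289715941) (nat_lit 9) (nat_lit 4) (nat_lit 10) (nat_lit 5) (nat_lit 10) (nat_lit 4) (nat_lit 478) (nat_lit 287) (nat_lit 255)) (XT.nd (nat_lit 78) (nat_lit 0) (nat_lit 0) (XT.lf (nat_lit 0) (nat_lit 34026279644) (nat_lit 76) (nat_lit 10781952456) (nat_lit 76) (nat_lit 7058536848) (nat_lit 9) (nat_lit 4) (nat_lit 10) (nat_lit 5) (nat_lit 10) (nat_lit 4) (nat_lit 479) (nat_lit 287) (nat_lit 254)) (XT.lf (nat_lit 0) (nat_lit 45980594564) (nat_lit 76) (nat_lit 5532448340) (nat_lit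 76) (nat_lit 1743398957) (nat_lit 9) (nat_lit 4) (nat_lit 10) (nat_lit 5) (nat_lit 10) (nat_lit 4) (nat_lit 480) (nat_lit 287) (nat_lit 253)))) (XT.nd (nat_lit 156) (nat_lit 0) (nat_lit 0) (XT.nd (nat_lit 78) (nat_lit 0) (nat_lit 0) (XT.lf (nat_lit 0) (nat_lit 3501045114) (nat_lit 76) (nat_lit 121524643) (nat_lit 152) (nat_lit 51065235253) (nat_lit 7) (nat_lit 5) (nat_lit 8) (nat_lit 5) (nat_lit 9) (nat_lit 4) (nat_lit 481) (nat_lit 287) (nat_lit 252)) (XT.lf (nat_lit 0) (nat_lit 9171686546) (nat_lit 152) (nat_lit 41617122452) (nat_lit 0) (nat_lit 5371067496) (nat_lit 7) (nat_lit 5) (nat_lit 9) (nat_lit 4) (nat_lit 7) (nat_lit 4) (nat_lit 482) (nat_lit 287) (nat_lit 251))) (XT.nd (nat_lit 78) (nat_lit 0) (nat_lit 0) (XT.lf (nat_lit 0) (nat_lit 14821106301) (nat_lit 152) (nat_lit 31894817968) (nat_lit 0) (nat_lit 10962172493) (nat_lit 7) (nat_lit 5) (nat_lit 9) (nat_lit 4) (nat_lit 7) (nat_lit 4) (nat_lit 483) (nat_lit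 287) (nat_lit 250)) (XT.lf (nat_lit 0) (nat_lit 20574597240) (nat_lit 152) (nat_lit 22010183058) (nat_lit 0) (nat_lit 16659047162) (nat_lit 7) (nat_lit 5) (nat_lit 9) (nat_lit 4) (nat_lit 7) (nat_lit 4) (nat_lit 484) (nat_lit 287) (nat_lit 249)))))) (XT.nd (nat_lit 546) (nat_lit 152) (nat_lit 0) (XT.nd (nat_lit 234) (nat_lit 0) (nat_lit 0) (XT.nd (nat_lit 78) (nat_lit 76) (nat_lit 0) (XT.lf (nat_lit 0) (nat_lit 26437186686) (nat_lit 152) (nat_lit 11954580660) (nat_lit 0) (nat_lit 22466669355) (nat_lit 7) (nat_lit 5) (nat_lit 9) (nat_lit 4) (nat_lit 7) (nat_lit 4) (nat_lit 485) (nat_lit 287) (nat_lit 248)) (XT.nd (nat_lit 78) (nat_lit 76) (nat_lit 0) (XT.lf (nat_lit 0) (nat_lit 32413997289) (nat_lit 152) (nat_lit 1719224328) (nat_lit 0) (nat_lit 28390113693) (nat_lit 7) (nat_lit 5) (nat_lit 9) (nat_lit 4) (nat_lit 7) (nat_lit 4) (nat_lit 486) (nat_lit 287) (nat_lit 247)) (XT.lf (nat_lit 0) (nat_lit 8878072628) (nat_lit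 76) (nat_lit 29717520342) (nat_lit 76) (nat_lit 25641824838) (nat_lit 6) (nat_lit 4) (nat_lit 7) (nat_lit 5) (nat_lit 7) (nat_lit 4) (nat_lit 487) (nat_lit 287) (nat_lit 246)))) (XT.nd (nat_lit 156) (nat_lit 0) (nat_lit 0) (XT.nd (nat_lit 78) (nat_lit 0) (nat_lit 0) (XT.lf (nat_lit 0) (nat_lit 19711328091) (nat_lit 76) (nat_lit 25209425410) (nat_lit 76) (nat_lit 21083427084) (nat_lit 6) (nat_lit 4) (nat_lit 7) (nat_lit 5) (nat_lit 7) (nat_lit 4) (nat_lit 488) (nat_lit 287) (nat_lit 245)) (XT.lf (nat_lit 0) (nat_lit 30755792076) (nat_lit 76) (nat_lit 20622358506) (nat_lit 76) (nat_lit 16447522487) (nat_lit 6) (nat_lit 4) (nat_lit 7) (nat_lit 5) (nat_lit 7) (nat_lit 4) (nat_lit 489) (nat_lit 287) (nat_lit 244))) (XT.nd (nat_lit 78) (nat_lit 0) (nat_lit 0) (XT.lf (nat_lit 0) (nat_lit 42021115087) (nat_lit 76) (nat_lit 15952311512) (nat_lit 76) (nat_lit 11730060258) (nat_lit 6) (nat_lit 4) (nat_lit 7) (nat_lit 5) (nat_lit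 7) (nat_lit 4) (nat_lit 490) (nat_lit 287) (nat_lit 243)) (XT.lf (nat_lit 0) (nat_lit 53517140609) (nat_lit 76) (nat_lit 11195203805) (nat_lit 76) (nat_lit 6926918342) (nat_lit 6) (nat_lit 4) (nat_lit 7) (nat_lit 5) (nat_lit 7) (nat_lit 4) (nat_lit 491) (nat_lit 287) (nat_lit 242))))) (XT.nd (nat_lit 49530) (nat_lit 0) (nat_lit 1520) (XT.nd (nat_lit 49374) (nat_lit 0) (nat_lit 1748) (XT.nd (nat_lit 78) (nat_lit 152) (nat_lit 0) (XT.lf (nat_lit 0) (nat_lit 65253913712) (nat_lit 76) (nat_lit 6346878688) (nat_lit 76) (nat_lit 2033899819) (nat_lit 6) (nat_lit 4) (nat_lit 7) (nat_lit 5) (nat_lit 7) (nat_lit 4) (nat_lit 492) (nat_lit 287) (nat_lit 241)) (XT.lf (nat_lit 0) (nat_lit 1552068808) (nat_lit 76) (nat_lit 1358492440) (nat_lit 152) (nat_lit 72779658338) (nat_lit 4) (nat_lit 5) (nat_lit 5) (nat_lit 5) (nat_lit 6) (nat_lit 4) (nat_lit 493) (nat_lit 287) (nat_lit 240))) (XT.nd (nat_lit 78) (nat_lit 76) (nat_lit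 0) (XT.lf (nat_lit 0) (nat_lit 2844805748) (nat_lit 152) (nat_lit 5589616896) (nat_lit 0) (nat_lit 2844805748) (nat_lit 28) (nat_lit 5) (nat_lit 30) (nat_lit 4) (nat_lit 28) (nat_lit 4) (nat_lit 444) (nat_lit 288) (nat_lit 288)) (XT.lf (nat_lit 0) (nat_lit 1624953664) (nat_lit 76) (nat_lit 10810108529) (nat_lit 76) (nat_lit 10596008677) (nat_lit 27) (nat_lit 4) (nat_lit 28) (nat_lit 5) (nat_lit 28) (nat_lit 4) (nat_lit 445) (nat_lit 288) (nat_lit 287)))) (XT.nd (nat_lit 156) (nat_lit 76) (nat_lit 0) (XT.nd (nat_lit 78) (nat_lit 152) (nat_lit 0) (XT.lf (nat_lit 0) (nat_lit 14784115615) (nat_lit 76) (nat_lit 4578167391) (nat_lit 76) (nat_lit 4156203604) (nat_lit 27) (nat_lit 4) (nat_lit 28) (nat_lit 5) (nat_lit 28) (nat_lit 4) (nat_lit 446) (nat_lit 288) (nat_lit 286)) (XT.lf (nat_lit 0) (nat_lit 2354337610) (nat_lit 152) (nat_lit 19918969545) (nat_lit 0) (nat_lit 1748732336) (nat_lit 25) (nat_lit 5) (nat_lit 27)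 (nat_lit 4) (nat_lit 25) (nat_lit 4) (nat_lit 447) (nat_lit 288) (nat_lit 285))) (XT.nd (nat_lit 78) (nat_lit 76) (nat_lit 0) (XT.lf (nat_lit 0) (nat_lit 8980411797) (nat_lit 152) (nat_lit 7374363469) (nat_lit 0) (nat_lit 8184581577) (nat_lit 25) (nat_lit 5) (nat_lit 27) (nat_lit 4) (nat_lit 25) (nat_lit 4) (nat_lit 448) (nat_lit 288) (nat_lit 284)) (XT.lf (nat_lit 0) (nat_lit 5405816790) (nat_lit 76) (nat_lit 10324571392) (nat_lit 76) (nat_lit 9344056759) (nat_lit 24) (nat_lit 4) (nat_lit 25) (nat_lit 5) (nat_lit 25) (nat_lit 4) (nat_lit 449) (nat_lit 288) (nat_lit 283))))))) (XT.nd (nat_lit 1092) (nat_lit 456) (nat_lit 0) (XT.nd (nat_lit 546) (nat_lit 304) (nat_lit 0) (XT.nd (nat_lit 234) (nat_lit 228) (nat_lit 0) (XT.nd (nat_lit 78) (nat_lit 152) (nat_lit 0) (XT.lf (nat_lit 0) (nat_lit 18476732950) (nat_lit 76) (nat_lit 4155104056) (nat_lit 76) (nat_lit 2995284166) (nat_lit 24) (nat_lit 4) (nat_lit 25) (nat_lit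 5) (nat_lit 25) (nat_lit 4) (nat_lit 450) (nat_lit 288) (nat_lit 282)) (XT.nd (nat_lit 78) (nat_lit 0) (nat_lit 0) (XT.lf (nat_lit 0) (nat_lit 3426270419) (nat_lit 152) (nat_lit 20639326177) (nat_lit 0) (nat_lit 2131219290) (nat_lit 22) (nat_lit 5) (nat_lit 24) (nat_lit 4) (nat_lit 22) (nat_lit 4) (nat_lit 451) (nat_lit 288) (nat_lit 281)) (XT.lf (nat_lit 0) (nat_lit 9971480596) (nat_lit 152) (nat_lit 8299159348) (nat_lit 0) (nat_lit 8512339759) (nat_lit 22) (nat_lit 5) (nat_lit 24) (nat_lit 4) (nat_lit 22) (nat_lit 4) (nat_lit 452) (nat_lit 288) (nat_lit 280)))) (XT.nd (nat_lit 156) (nat_lit 152) (nat_lit 0) (XT.nd (nat_lit 78) (nat_lit 0) (nat_lit 0) (XT.lf (nat_lit 0) (nat_lit 4261958094) (nat_lit 76) (nat_lit 12372787393) (nat_lit 76) (nat_lit 10754336158) (nat_lit 21) (nat_lit 4) (nat_lit 22) (nat_lit 5) (nat_lit 22) (nat_lit 4) (nat_lit 453) (nat_lit 288) (nat_lit 279)) (XT.lf (nat_lit 0) (nat_lit 17139891779)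 (nat_lit 76) (nat_lit 6323813265) (nat_lit 76) (nat_lit 4550691740) (nat_lit 21) (nat_lit 4) (nat_lit 22) (nat_lit 5) (nat_lit 22) (nat_lit 4) (nat_lit 454) (nat_lit 288) (nat_lit 278))) (XT.nd (nat_lit 78) (nat_lit 0) (nat_lit 0) (XT.lf (nat_lit 0) (nat_lit 1532166590) (nat_lit 76) (nat_lit 170027224) (nat_lit 152) (nat_lit 26958780472) (nat_lit 19) (nat_lit 5) (nat_lit 20) (nat_lit 5) (nat_lit 21) (nat_lit 4) (nat_lit 455) (nat_lit 288) (nat_lit 277)) (XT.lf (nat_lit 0) (nat_lit 8105857786) (nat_lit 152) (nat_lit 15121059873) (nat_lit 0) (nat_lit 6097043772) (nat_lit 19) (nat_lit 5) (nat_lit 21) (nat_lit 4) (nat_lit 19) (nat_lit 4) (nat_lit 456) (nat_lit 288) (nat_lit 276))))) (XT.nd (nat_lit 234) (nat_lit 228) (nat_lit 0) (XT.nd (nat_lit 78) (nat_lit 76) (nat_lit 0) (XT.lf (nat_lit 0) (nat_lit 14591143914) (nat_lit 152) (nat_lit 2974105149) (nat_lit 0) (nat_lit 12444907352) (nat_lit 19) (nat_lit 5) (nat_lit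 21) (nat_lit 4) (nat_lit 19) (nat_lit 4) (nat_lit 457) (nat_lit 288) (nat_lit 275)) (XT.nd (nat_lit 78) (nat_lit 0) (nat_lit 0) (XT.lf (nat_lit 0) (nat_lit 9509876670) (nat_lit 76) (nat_lit 11743622628) (nat_lit 76) (nat_lit 9463966116) (nat_lit 18) (nat_lit 4) (nat_lit 19) (nat_lit 5) (nat_lit 19) (nat_lit 4) (nat_lit 458) (nat_lit 288) (nat_lit 274)) (XT.lf (nat_lit 0) (nat_lit 22218478473) (nat_lit 76) (nat_lit 5819520416) (nat_lit 76) (nat_lit 3410329972) (nat_lit 18) (nat_lit 4) (nat_lit 19) (nat_lit 5) (nat_lit 19) (nat_lit 4) (nat_lit 459) (nat_lit 288) (nat_lit 273)))) (XT.nd (nat_lit 156) (nat_lit 76) (nat_lit 0) (XT.nd (nat_lit 78) (nat_lit 0) (nat_lit 0) (XT.lf (nat_lit 0) (nat_lit 2694589352) (nat_lit 152) (nat_lit 29274502106) (nat_lit 0) (nat_lit 233471349) (nat_lit 16) (nat_lit 5) (nat_lit 18) (nat_lit 4) (nat_lit 16) (nat_lit 4) (nat_lit 460) (nat_lit 288) (nat_lit 272)) (XT.lf (nat_lit 0) (nat_lit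 8960342771) (nat_lit 152) (nat_lit 17636001332) (nat_lit 0) (nat_lit 6380682871) (nat_lit 16) (nat_lit 5) (nat_lit 18) (nat_lit 4) (nat_lit 16) (nat_lit 4) (nat_lit 461) (nat_lit 288) (nat_lit 271))) (XT.nd (nat_lit 78) (nat_lit 76) (nat_lit 0) (XT.lf (nat_lit 0) (nat_lit 15311627588) (nat_lit 152) (nat_lit 5849295255) (nat_lit 0) (nat_lit 12616878467) (nat_lit 16) (nat_lit 5) (nat_lit 18) (nat_lit 4) (nat_lit 16) (nat_lit 4) (nat_lit 462) (nat_lit 288) (nat_lit 270)) (XT.lf (nat_lit 0) (nat_lit 6217235854) (nat_lit 76) (nat_lit 15596521489) (nat_lit 76) (nat_lit 12790035261) (nat_lit 15) (nat_lit 4) (nat_lit 16) (nat_lit 5) (nat_lit 16) (nat_lit 4) (nat_lit 463) (nat_lit 288) (nat_lit 269)))))) (XT.nd (nat_lit 546) (nat_lit 228) (nat_lit 0) (XT.nd (nat_lit 234) (nat_lit 76) (nat_lit 0) (XT.nd (nat_lit 78) (nat_lit 152) (nat_lit 0) (XT.lf (nat_lit 0) (nat_lit 18572483616) (nat_lit 76) (nat_lit 9899116125) (nat_lit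 76) (nat_lit 6984147268) (nat_lit 15) (nat_lit 4) (nat_lit 16) (nat_lit 5) (nat_lit 16) (nat_lit 4) (nat_lit 464) (nat_lit 288) (nat_lit 268)) (XT.nd (nat_lit 78) (nat_lit 152) (nat_lit 0) (XT.lf (nat_lit 0) (nat_lit 31110831430) (nat_lit 76) (nat_lit 4122794849) (nat_lit 76) (nat_lit 1102503051) (nat_lit 15) (nat_lit 4) (nat_lit 16) (nat_lit 5) (nat_lit 16) (nat_lit 4) (nat_lit 465) (nat_lit 288) (nat_lit 267)) (XT.lf (nat_lit 0) (nat_lit 4847223724) (nat_lit 152) (nat_lit 30578998250) (nat_lit 0) (nat_lit 1815624617) (nat_lit 13) (nat_lit 5) (nat_lit 15) (nat_lit 4) (nat_lit 13) (nat_lit 4) (nat_lit 466) (nat_lit 288) (nat_lit 266)))) (XT.nd (nat_lit 156) (nat_lit 76) (nat_lit 0) (XT.nd (nat_lit 78) (nat_lit 0) (nat_lit 0) (XT.lf (nat_lit 0) (nat_lit 10953819301) (nat_lit 152) (nat_lit 19394740240) (nat_lit 0) (nat_lit 7825834784) (nat_lit 13) (nat_lit 5) (nat_lit 15) (nat_lit 4) (nat_lit 13) (nat_lit 4) (nat_lit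 467) (nat_lit 288) (nat_lit 265)) (XT.lf (nat_lit 0) (nat_lit 17152766897) (nat_lit 152) (nat_lit 8053675104) (nat_lit 0) (nat_lit 13931204311) (nat_lit 13) (nat_lit 5) (nat_lit 15) (nat_lit 4) (nat_lit 13) (nat_lit 4) (nat_lit 468) (nat_lit 288) (nat_lit 264))) (XT.nd (nat_lit 78) (nat_lit 0) (nat_lit 0) (XT.lf (nat_lit 0) (nat_lit 3522850325) (nat_lit 76) (nat_lit 19960496534) (nat_lit 76) (nat_lit 16648081455) (nat_lit 12) (nat_lit 4) (nat_lit 13) (nat_lit 5) (nat_lit 13) (nat_lit 4) (nat_lit 469) (nat_lit 288) (nat_lit 263)) (XT.lf (nat_lit 0) (nat_lit 15439949931) (nat_lit 76) (nat_lit 14557938109) (nat_lit 76) (nat_lit 11157316725) (nat_lit 12) (nat_lit 4) (nat_lit 13) (nat_lit 5) (nat_lit 13) (nat_lit 4) (nat_lit 470) (nat_lit 288) (nat_lit 262))))) (XT.nd (nat_lit 312) (nat_lit 76) (nat_lit 0) (XT.nd (nat_lit 156) (nat_lit 76) (nat_lit 0) (XT.nd (nat_lit 78) (nat_lit 76) (nat_lit 0) (XT.lf (nat_lit 0) (nat_lit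 27547752788) (nat_lit 76) (nat_lit 9075372371) (nat_lit 76) (nat_lit 5589113799) (nat_lit 12) (nat_lit 4) (nat_lit 13) (nat_lit 5) (nat_lit 13) (nat_lit 4) (nat_lit 471) (nat_lit 288) (nat_lit 261)) (XT.lf (nat_lit 0) (nat_lit 60194751) (nat_lit 152) (nat_lit 3447206128) (nat_lit 76) (nat_lit 39796035927) (nat_lit 11) (nat_lit 5) (nat_lit 13) (nat_lit 5) (nat_lit 12) (nat_lit 4) (nat_lit 472) (nat_lit 288) (nat_lit 260))) (XT.nd (nat_lit 78) (nat_lit 0) (nat_lit 0) (XT.lf (nat_lit 0) (nat_lit 5785330430) (nat_lit 152) (nat_lit 36398299623) (nat_lit 0) (nat_lit 2241521947) (nat_lit 10) (nat_lit 5) (nat_lit 12) (nat_lit 4) (nat_lit 10) (nat_lit 4) (nat_lit 473) (nat_lit 288) (nat_lit 259)) (XT.lf (nat_lit 0) (nat_lit 11671525955) (nat_lit 152) (nat_lit 25857685571) (nat_lit 0) (nat_lit 8051629938) (nat_lit 10) (nat_lit 5) (nat_lit 12) (nat_lit 4) (nat_lit 10) (nat_lit 4) (nat_lit 474) (nat_lit 288) (nat_lit 258))))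 (XT.nd (nat_lit 156) (nat_lit 76) (nat_lit 0) (XT.nd (nat_lit 78) (nat_lit 0) (nat_lit 0) (XT.lf (nat_lit 0) (nat_lit 17656078565) (nat_lit 152) (nat_lit 15155160683) (nat_lit 0) (nat_lit 13962311157) (nat_lit 10) (nat_lit 5) (nat_lit 12) (nat_lit 4) (nat_lit 10) (nat_lit 4) (nat_lit 475) (nat_lit 288) (nat_lit 257)) (XT.lf (nat_lit 0) (nat_lit 23744217482) (nat_lit 152) (nat_lit 4281373238) (nat_lit 0) (nat_lit 19978730277) (nat_lit 10) (nat_lit 5) (nat_lit 12) (nat_lit 4) (nat_lit 10) (nat_lit 4) (nat_lit 476) (nat_lit 288) (nat_lit 256))) (XT.nd (nat_lit 78) (nat_lit 0) (nat_lit 0) (XT.lf (nat_lit 0) (nat_lit 6907977657) (nat_lit 76) (nat_lit 23099688489) (nat_lit 76) (nat_lit 19264570412) (nat_lit 9) (nat_lit 4) (nat_lit 10) (nat_lit 5) (nat_lit 10) (nat_lit 4) (nat_lit 477) (nat_lit 288) (nat_lit 255)) (XT.lf (nat_lit 0) (nat_lit 18376749314) (nat_lit 76) (nat_lit 18052527573) (nat_lit 76) (nat_lit 14149806708)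 (nat_lit 9) (nat_lit 4) (nat_lit 10) (nat_lit 5) (nat_lit 10) (nat_lit 4) (nat_lit 478) (nat_lit 288) (nat_lit 254))))))))
noncomputable def xc11 : XT := (XT.nd (nat_lit 51324) (nat_lit 0) (nat_lit 152) (XT.nd (nat_lit 1092) (nat_lit 76) (nat_lit 0) (XT.nd (nat_lit 546) (nat_lit 76) (nat_lit 0) (XT.nd (nat_lit 234) (nat_lit 76) (nat_lit 0) (XT.nd (nat_lit 78) (nat_lit 76) (nat_lit 0) (XT.lf (nat_lit 0) (nat_lit 30049755265) (nat_lit 76) (nat_lit 12922931306) (nat_lit 76) (nat_lit 8954576667) (nat_lit 9) (nat_lit 4) (nat_lit 10) (nat_lit 5) (nat_lit 10) (nat_lit 4) (nat_lit 479) (nat_lit 288) (nat_lit 253)) (XT.nd (nat_lit 78) (nat_lit 76) (nat_lit 0) (XT.lf (nat_lit 0) (nat_lit 41937195224) (nat_lit 76) (nat_lit 7706417517) (nat_lit 76) (nat_lit 3674340768) (nat_lit 9) (nat_lit 4) (nat_lit 10) (nat_lit 5) (nat_lit 10) (nat_lit 4) (nat_lit 480) (nat_lit 288) (nat_lit 252)) (XT.lf (nat_lit 0) (nat_lit 1662429187)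 (nat_lit 152) (nat_lit 719211625) (nat_lit 76) (nat_lit 52370239813) (nat_lit 8) (nat_lit 5) (nat_lit 10) (nat_lit 5) (nat_lit 9) (nat_lit 4) (nat_lit 481) (nat_lit 288) (nat_lit 251)))) (XT.nd (nat_lit 156) (nat_lit 0) (nat_lit 0) (XT.nd (nat_lit 78) (nat_lit 0) (nat_lit 0) (XT.lf (nat_lit 0) (nat_lit 7149510409) (nat_lit 152) (nat_lit 45959809689) (nat_lit 0) (nat_lit 3116493828) (nat_lit 7) (nat_lit 5) (nat_lit 9) (nat_lit 4) (nat_lit 7) (nat_lit 4) (nat_lit 482) (nat_lit 288) (nat_lit 250)) (XT.lf (nat_lit 0) (nat_lit 12766707796) (nat_lit 152) (nat_lit 36301218854) (nat_lit 0) (nat_lit 8677074945) (nat_lit 7) (nat_lit 5) (nat_lit 9) (nat_lit 4) (nat_lit 7) (nat_lit 4) (nat_lit 483) (nat_lit 288) (nat_lit 249))) (XT.nd (nat_lit 78) (nat_lit 0) (nat_lit 0) (XT.lf (nat_lit 0) (nat_lit 18488914882) (nat_lit 152) (nat_lit 26478441856) (nat_lit 0) (nat_lit 14344314778) (nat_lit 7) (nat_lit 5) (nat_lit 9) (nat_lit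 4) (nat_lit 7) (nat_lit 4) (nat_lit 484) (nat_lit 288) (nat_lit 248)) (XT.lf (nat_lit 0) (nat_lit 24321131655) (nat_lit 152) (nat_lit 16482895683) (nat_lit 0) (nat_lit 20123165286) (nat_lit 7) (nat_lit 5) (nat_lit 9) (nat_lit 4) (nat_lit 7) (nat_lit 4) (nat_lit 485) (nat_lit 288) (nat_lit 247))))) (XT.nd (nat_lit 234) (nat_lit 0) (nat_lit 0) (XT.nd (nat_lit 78) (nat_lit 76) (nat_lit 0) (XT.lf (nat_lit 0) (nat_lit 30268454225) (nat_lit 152) (nat_lit 6305846366) (nat_lit 0) (nat_lit 26018675949) (nat_lit 7) (nat_lit 5) (nat_lit 9) (nat_lit 4) (nat_lit 7) (nat_lit 4) (nat_lit 486) (nat_lit 288) (nat_lit 246)) (XT.nd (nat_lit 78) (nat_lit 0) (nat_lit 0) (XT.lf (nat_lit 0) (nat_lit 4142432441) (nat_lit 76) (nat_lit 32233466437) (nat_lit 76) (nat_lit 27933385338) (nat_lit 6) (nat_lit 4) (nat_lit 7) (nat_lit 5) (nat_lit 7) (nat_lit 4) (nat_lit 487) (nat_lit 288) (nat_lit 245)) (XT.lf (nat_lit 0) (nat_lit 14919634140)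 (nat_lit 76) (nat_lit 27753091149) (nat_lit 76) (nat_lit 23404172357) (nat_lit 6) (nat_lit 4) (nat_lit 7) (nat_lit 5) (nat_lit 7) (nat_lit 4) (nat_lit 488) (nat_lit 288) (nat_lit 244)))) (XT.nd (nat_lit 156) (nat_lit 0) (nat_lit 0) (XT.nd (nat_lit 78) (nat_lit 0) (nat_lit 0) (XT.lf (nat_lit 0) (nat_lit 25909676995) (nat_lit 76) (nat_lit 23192936519) (nat_lit 76) (nat_lit 18796602493) (nat_lit 6) (nat_lit 4) (nat_lit 7) (nat_lit 5) (nat_lit 7) (nat_lit 4) (nat_lit 489) (nat_lit 288) (nat_lit 243)) (XT.lf (nat_lit 0) (nat_lit 37122163957) (nat_lit 76) (nat_lit 18549017947) (nat_lit 76) (nat_lit 14106649712) (nat_lit 6) (nat_lit 4) (nat_lit 7) (nat_lit 5) (nat_lit 7) (nat_lit 4) (nat_lit 490) (nat_lit 288) (nat_lit 242))) (XT.nd (nat_lit 78) (nat_lit 0) (nat_lit 0) (XT.lf (nat_lit 0) (nat_lit 48566892344) (nat_lit 76) (nat_lit 13817277640) (nat_lit 76) (nat_lit 9330215998) (nat_lit 6) (nat_lit 4) (nat_lit 7) (nat_lit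 5) (nat_lit 7) (nat_lit 4) (nat_lit 491) (nat_lit 288) (nat_lit 241)) (XT.lf (nat_lit 0) (nat_lit 60253862403) (nat_lit 76) (nat_lit 8993581067) (nat_lit 76) (nat_lit 4463127768) (nat_lit 6) (nat_lit 4) (nat_lit 7) (nat_lit 5) (nat_lit 7) (nat_lit 4) (nat_lit 492) (nat_lit 288) (nat_lit 240)))))) (XT.nd (nat_lit 49608) (nat_lit 0) (nat_lit 1140) (XT.nd (nat_lit 49296) (nat_lit 0) (nat_lit 1520) (XT.nd (nat_lit 49140) (nat_lit 0) (nat_lit 1900) (XT.lf (nat_lit 0) (nat_lit 489133065) (nat_lit 152) (nat_lit 3579640997) (nat_lit 76) (nat_lit 71699213702) (nat_lit 5) (nat_lit 5) (nat_lit 7) (nat_lit 5) (nat_lit 6) (nat_lit 4) (nat_lit 493) (nat_lit 288) (nat_lit 239)) (XT.nd (nat_lit 78) (nat_lit 0) (nat_lit 0) (XT.lf (nat_lit 0) (nat_lit 3606910155) (nat_lit 76) (nat_lit 3610176580) (nat_lit 76) (nat_lit 3610176580) (nat_lit 30) (nat_lit 4) (nat_lit 31) (nat_lit 5) (nat_lit 31) (nat_lit 4) (nat_lit 442) (nat_lit 289)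 (nat_lit 289)) (XT.lf (nat_lit 0) (nat_lit 20389161662) (nat_lit 76) (nat_lit 970031355) (nat_lit 76) (nat_lit 742892822) (nat_lit 30) (nat_lit 4) (nat_lit 31) (nat_lit 5) (nat_lit 31) (nat_lit 4) (nat_lit 443) (nat_lit 289) (nat_lit 288)))) (XT.nd (nat_lit 156) (nat_lit 152) (nat_lit 0) (XT.nd (nat_lit 78) (nat_lit 76) (nat_lit 0) (XT.lf (nat_lit 0) (nat_lit 5843667040) (nat_lit 152) (nat_lit 11307742182) (nat_lit 0) (nat_lit 5409044339) (nat_lit 28) (nat_lit 5) (nat_lit 30) (nat_lit 4) (nat_lit 28) (nat_lit 4) (nat_lit 444) (nat_lit 289) (nat_lit 287)) (XT.lf (nat_lit 0) (nat_lit 1366639202) (nat_lit 76) (nat_lit 11155464094) (nat_lit 76) (nat_lit 10512977458) (nat_lit 27) (nat_lit 4) (nat_lit 28) (nat_lit 5) (nat_lit 28) (nat_lit 4) (nat_lit 445) (nat_lit 289) (nat_lit 286))) (XT.nd (nat_lit 78) (nat_lit 152) (nat_lit 0) (XT.lf (nat_lit 0) (nat_lit 14402258916) (nat_lit 76) (nat_lit 4983225818) (nat_lit 76)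 (nat_lit 4138929538) (nat_lit 27) (nat_lit 4) (nat_lit 28) (nat_lit 5) (nat_lit 28) (nat_lit 4) (nat_lit 446) (nat_lit 289) (nat_lit 285)) (XT.lf (nat_lit 0) (nat_lit 2299182185) (nat_lit 152) (nat_lit 20441693094) (nat_lit 0) (nat_lit 1289252112) (nat_lit 25) (nat_lit 5) (nat_lit 27) (nat_lit 4) (nat_lit 25) (nat_lit 4) (nat_lit 447) (nat_lit 289) (nat_lit 284))))) (XT.nd (nat_lit 312) (nat_lit 152) (nat_lit 0) (XT.nd (nat_lit 156) (nat_lit 152) (nat_lit 0) (XT.nd (nat_lit 78) (nat_lit 76) (nat_lit 0) (XT.lf (nat_lit 0) (nat_lit 8862771621) (nat_lit 152) (nat_lit 8018392907) (nat_lit 0) (nat_lit 7668157135) (nat_lit 25) (nat_lit 5) (nat_lit 27) (nat_lit 4) (nat_lit 25) (nat_lit 4) (nat_lit 448) (nat_lit 289) (nat_lit 283)) (XT.lf (nat_lit 0) (nat_lit 4628853288) (nat_lit 76) (nat_lit 10915761264) (nat_lit 76) (nat_lit 9541841521) (nat_lit 24) (nat_lit 4) (nat_lit 25) (nat_lit 5) (nat_lit 25) (nat_lit 4) (nat_lit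 449) (nat_lit 289) (nat_lit 282))) (XT.nd (nat_lit 78) (nat_lit 152) (nat_lit 0) (XT.lf (nat_lit 0) (nat_lit 17583151375) (nat_lit 76) (nat_lit 4802893126) (nat_lit 76) (nat_lit 3254890611) (nat_lit 24) (nat_lit 4) (nat_lit 25) (nat_lit 5) (nat_lit 25) (nat_lit 4) (nat_lit 450) (nat_lit 289) (nat_lit 281)) (XT.lf (nat_lit 0) (nat_lit 3096002396) (nat_lit 152) (nat_lit 21687978605) (nat_lit 0) (nat_lit 1428997623) (nat_lit 22) (nat_lit 5) (nat_lit 24) (nat_lit 4) (nat_lit 22) (nat_lit 4) (nat_lit 451) (nat_lit 289) (nat_lit 280)))) (XT.nd (nat_lit 156) (nat_lit 76) (nat_lit 0) (XT.nd (nat_lit 78) (nat_lit 76) (nat_lit 0) (XT.lf (nat_lit 0) (nat_lit 9582458810) (nat_lit 152) (nat_lit 9462304655) (nat_lit 0) (nat_lit 7756143640) (nat_lit 22) (nat_lit 5) (nat_lit 24) (nat_lit 4) (nat_lit 22) (nat_lit 4) (nat_lit 452) (nat_lit 289) (nat_lit 279)) (XT.lf (nat_lit 0) (nat_lit 2962293515) (nat_lit 76) (nat_lit 13213894525)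 (nat_lit 76) (nat_lit 11232909067) (nat_lit 21) (nat_lit 4) (nat_lit 22) (nat_lit 5) (nat_lit 22) (nat_lit 4) (nat_lit 453) (nat_lit 289) (nat_lit 278))) (XT.nd (nat_lit 78) (nat_lit 76) (nat_lit 0) (XT.lf (nat_lit 0) (nat_lit 15730158851) (nat_lit 76) (nat_lit 7218549644) (nat_lit 76) (nat_lit 5087398857) (nat_lit 21) (nat_lit 4) (nat_lit 22) (nat_lit 5) (nat_lit 22) (nat_lit 4) (nat_lit 454) (nat_lit 289) (nat_lit 277)) (XT.lf (nat_lit 0) (nat_lit 1105892053) (nat_lit 152) (nat_lit 31981500) (nat_lit 76) (nat_lit 27547069929) (nat_lit 20) (nat_lit 5) (nat_lit 22) (nat_lit 5) (nat_lit 21) (nat_lit 4) (nat_lit 455) (nat_lit 289) (nat_lit 276))))))) (XT.nd (nat_lit 1092) (nat_lit 380) (nat_lit 0) (XT.nd (nat_lit 546) (nat_lit 304) (nat_lit 0) (XT.nd (nat_lit 234) (nat_lit 152) (nat_lit 0) (XT.nd (nat_lit 78) (nat_lit 76) (nat_lit 0) (XT.lf (nat_lit 0) (nat_lit 7444679096) (nat_lit 152) (nat_lit 16808566719) (nat_lit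 0) (nat_lit 5096632889) (nat_lit 19) (nat_lit 5) (nat_lit 21) (nat_lit 4) (nat_lit 19) (nat_lit 4) (nat_lit 456) (nat_lit 289) (nat_lit 275)) (XT.nd (nat_lit 78) (nat_lit 76) (nat_lit 0) (XT.lf (nat_lit 0) (nat_lit 13876317895) (nat_lit 152) (nat_lit 4766515194) (nat_lit 0) (nat_lit 11394851737) (nat_lit 19) (nat_lit 5) (nat_lit 21) (nat_lit 4) (nat_lit 19) (nat_lit 4) (nat_lit 457) (nat_lit 289) (nat_lit 274)) (XT.lf (nat_lit 0) (nat_lit 7577919416) (nat_lit 76) (nat_lit 12890097921) (nat_lit 76) (nat_lit 10279097832) (nat_lit 18) (nat_lit 4) (nat_lit 19) (nat_lit 5) (nat_lit 19) (nat_lit 4) (nat_lit 458) (nat_lit 289) (nat_lit 273)))) (XT.nd (nat_lit 156) (nat_lit 0) (nat_lit 0) (XT.nd (nat_lit 78) (nat_lit 152) (nat_lit 0) (XT.lf (nat_lit 0) (nat_lit 20185671962) (nat_lit 76) (nat_lit 7015307789) (nat_lit 76) (nat_lit 4278546600) (nat_lit 18) (nat_lit 4) (nat_lit 19) (nat_lit 5) (nat_lit 19) (nat_lit 4) (nat_lit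 459) (nat_lit 289) (nat_lit 272)) (XT.lf (nat_lit 0) (nat_lit 732960688) (nat_lit 76) (nat_lit 1036408785) (nat_lit 152) (nat_lit 30466861082) (nat_lit 16) (nat_lit 5) (nat_lit 17) (nat_lit 5) (nat_lit 18) (nat_lit 4) (nat_lit 460) (nat_lit 289) (nat_lit 271))) (XT.nd (nat_lit 78) (nat_lit 0) (nat_lit 0) (XT.lf (nat_lit 0) (nat_lit 7974696649) (nat_lit 152) (nat_lit 19953796508) (nat_lit 0) (nat_lit 5084015834) (nat_lit 16) (nat_lit 5) (nat_lit 18) (nat_lit 4) (nat_lit 16) (nat_lit 4) (nat_lit 461) (nat_lit 289) (nat_lit 270)) (XT.lf (nat_lit 0) (nat_lit 14276987634) (nat_lit 152) (nat_lit 8263197236) (nat_lit 0) (nat_lit 11274569711) (nat_lit 16) (nat_lit 5) (nat_lit 18) (nat_lit 4) (nat_lit 16) (nat_lit 4) (nat_lit 462) (nat_lit 289) (nat_lit 269))))) (XT.nd (nat_lit 234) (nat_lit 228) (nat_lit 0) (XT.nd (nat_lit 78) (nat_lit 0) (nat_lit 0) (XT.lf (nat_lit 0) (nat_lit 3660127909) (nat_lit 76) (nat_lit 17046842166)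 (nat_lit 76) (nat_lit 13935941614) (nat_lit 15) (nat_lit 4) (nat_lit 16) (nat_lit 5) (nat_lit 16) (nat_lit 4) (nat_lit 463) (nat_lit 289) (nat_lit 268)) (XT.nd (nat_lit 78) (nat_lit 0) (nat_lit 0) (XT.lf (nat_lit 0) (nat_lit 15922982873) (nat_lit 76) (nat_lit 11394760077) (nat_lit 76) (nat_lit 8178536585) (nat_lit 15) (nat_lit 4) (nat_lit 16) (nat_lit 5) (nat_lit 16) (nat_lit 4) (nat_lit 464) (nat_lit 289) (nat_lit 267)) (XT.lf (nat_lit 0) (nat_lit 28371628942) (nat_lit 76) (nat_lit 5662441981) (nat_lit 76) (nat_lit 2343963207) (nat_lit 15) (nat_lit 4) (nat_lit 16) (nat_lit 5) (nat_lit 16) (nat_lit 4) (nat_lit 465) (nat_lit 289) (nat_lit 266)))) (XT.nd (nat_lit 156) (nat_lit 76) (nat_lit 0) (XT.nd (nat_lit 78) (nat_lit 0) (nat_lit 0) (XT.lf (nat_lit 0) (nat_lit 3541558982) (nat_lit 152) (nat_lit 33521855039) (nat_lit 0) (nat_lit 223349519) (nat_lit 13) (nat_lit 5) (nat_lit 15) (nat_lit 4) (nat_lit 13) (nat_lit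 4) (nat_lit 466) (nat_lit 289) (nat_lit 265)) (XT.lf (nat_lit 0) (nat_lit 9603402910) (nat_lit 152) (nat_lit 22425636740) (nat_lit 0) (nat_lit 6191615378) (nat_lit 13) (nat_lit 5) (nat_lit 15) (nat_lit 4) (nat_lit 13) (nat_lit 4) (nat_lit 467) (nat_lit 289) (nat_lit 264))) (XT.nd (nat_lit 78) (nat_lit 76) (nat_lit 0) (XT.lf (nat_lit 0) (nat_lit 15758902302) (nat_lit 152) (nat_lit 11170047052) (nat_lit 0) (nat_lit 12256262277) (nat_lit 13) (nat_lit 5) (nat_lit 15) (nat_lit 4) (nat_lit 13) (nat_lit 4) (nat_lit 468) (nat_lit 289) (nat_lit 263)) (XT.lf (nat_lit 0) (nat_lit 259819012) (nat_lit 76) (nat_lit 21756114277) (nat_lit 76) (nat_lit 18165267948) (nat_lit 12) (nat_lit 4) (nat_lit 13) (nat_lit 5) (nat_lit 13) (nat_lit 4) (nat_lit 469) (nat_lit 289) (nat_lit 262)))))) (XT.nd (nat_lit 546) (nat_lit 228) (nat_lit 0) (XT.nd (nat_lit 234) (nat_lit 152) (nat_lit 0) (XT.nd (nat_lit 78) (nat_lit 0) (nat_lit 0) (XT.lf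 (nat_lit 0) (nat_lit 12094746333) (nat_lit 76) (nat_lit 16393984147) (nat_lit 76) (nat_lit 12717500629) (nat_lit 12) (nat_lit 4) (nat_lit 13) (nat_lit 5) (nat_lit 13) (nat_lit 4) (nat_lit 470) (nat_lit 289) (nat_lit 261)) (XT.nd (nat_lit 78) (nat_lit 0) (nat_lit 0) (XT.lf (nat_lit 0) (nat_lit 24122770272) (nat_lit 76) (nat_lit 10950669182) (nat_lit 76) (nat_lit 7191042762) (nat_lit 12) (nat_lit 4) (nat_lit 13) (nat_lit 5) (nat_lit 13) (nat_lit 4) (nat_lit 471) (nat_lit 289) (nat_lit 260)) (XT.lf (nat_lit 0) (nat_lit 36354400753) (nat_lit 76) (nat_lit 5421413085) (nat_lit 76) (nat_lit 1581065401) (nat_lit 12) (nat_lit 4) (nat_lit 13) (nat_lit 5) (nat_lit 13) (nat_lit 4) (nat_lit 472) (nat_lit 289) (nat_lit 259)))) (XT.nd (nat_lit 156) (nat_lit 0) (nat_lit 0) (XT.nd (nat_lit 78) (nat_lit 0) (nat_lit 0) (XT.lf (nat_lit 0) (nat_lit 4081630750) (nat_lit 152) (nat_lit 40123169042) (nat_lit 0) (nat_lit 277050320) (nat_lit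 10) (nat_lit 5) (nat_lit 12) (nat_lit 4) (nat_lit 10) (nat_lit 4) (nat_lit 473) (nat_lit 289) (nat_lit 258)) (XT.lf (nat_lit 0) (nat_lit 9929289930) (nat_lit 152) (nat_lit 29658568579) (nat_lit 0) (nat_lit 6050838108) (nat_lit 10) (nat_lit 5) (nat_lit 12) (nat_lit 4) (nat_lit 10) (nat_lit 4) (nat_lit 474) (nat_lit 289) (nat_lit 257))) (XT.nd (nat_lit 78) (nat_lit 0) (nat_lit 0) (XT.lf (nat_lit 0) (nat_lit 15876428613) (nat_lit 152) (nat_lit 19029843291) (nat_lit 0) (nat_lit 11926256995) (nat_lit 10) (nat_lit 5) (nat_lit 12) (nat_lit 4) (nat_lit 10) (nat_lit 4) (nat_lit 475) (nat_lit 289) (nat_lit 256)) (XT.lf (nat_lit 0) (nat_lit 21928243330) (nat_lit 152) (nat_lit 8227705944) (nat_lit 0) (nat_lit 17908440840) (nat_lit 10) (nat_lit 5) (nat_lit 12) (nat_lit 4) (nat_lit 10) (nat_lit 4) (nat_lit 476) (nat_lit 289) (nat_lit 255))))) (XT.nd (nat_lit 312) (nat_lit 152) (nat_lit 0) (XT.nd (nat_lit 156) (nat_lit 0) (nat_lit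 0) (XT.nd (nat_lit 78) (nat_lit 0) (nat_lit 0) (XT.lf (nat_lit 0) (nat_lit 2812157547) (nat_lit 76) (nat_lit 25304896704) (nat_lit 76) (nat_lit 21217491426) (nat_lit 9) (nat_lit 4) (nat_lit 10) (nat_lit 5) (nat_lit 10) (nat_lit 4) (nat_lit 477) (nat_lit 289) (nat_lit 254)) (XT.lf (nat_lit 0) (nat_lit 14212047994) (nat_lit 76) (nat_lit 20291715825) (nat_lit 76) (nat_lit 16138676773) (nat_lit 9) (nat_lit 4) (nat_lit 10) (nat_lit 5) (nat_lit 10) (nat_lit 4) (nat_lit 478) (nat_lit 289) (nat_lit 253))) (XT.nd (nat_lit 78) (nat_lit 0) (nat_lit 0) (XT.lf (nat_lit 0) (nat_lit 25818178985) (nat_lit 76) (nat_lit 15195109887) (nat_lit 76) (nat_lit 10978348724) (nat_lit 9) (nat_lit 4) (nat_lit 10) (nat_lit 5) (nat_lit 10) (nat_lit 4) (nat_lit 479) (nat_lit 289) (nat_lit 252)) (XT.lf (nat_lit 0) (nat_lit 37640691798) (nat_lit 76) (nat_lit 10010625543) (nat_lit 76) (nat_lit 5731998253) (nat_lit 9) (nat_lit 4) (nat_lit 10) (nat_lit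 5) (nat_lit 10) (nat_lit 4) (nat_lit 480) (nat_lit 289) (nat_lit 251)))) (XT.nd (nat_lit 156) (nat_lit 0) (nat_lit 0) (XT.nd (nat_lit 78) (nat_lit 152) (nat_lit 0) (XT.lf (nat_lit 0) (nat_lit 49689916785) (nat_lit 76) (nat_lit 4733732663) (nat_lit 76) (nat_lit 395041171) (nat_lit 9) (nat_lit 4) (nat_lit 10) (nat_lit 5) (nat_lit 10) (nat_lit 4) (nat_lit 481) (nat_lit 289) (nat_lit 250)) (XT.lf (nat_lit 0) (nat_lit 5001257580) (nat_lit 152) (nat_lit 50562116251) (nat_lit 0) (nat_lit 732319473) (nat_lit 7) (nat_lit 5) (nat_lit 9) (nat_lit 4) (nat_lit 7) (nat_lit 4) (nat_lit 482) (nat_lit 289) (nat_lit 249))) (XT.nd (nat_lit 78) (nat_lit 0) (nat_lit 0) (XT.lf (nat_lit 0) (nat_lit 10587171113) (nat_lit 152) (nat_lit 40965383328) (nat_lit 0) (nat_lit 6263265754) (nat_lit 7) (nat_lit 5) (nat_lit 9) (nat_lit 4) (nat_lit 7) (nat_lit 4) (nat_lit 483) (nat_lit 289) (nat_lit 248)) (XT.lf (nat_lit 0) (nat_lit 16279005527) (nat_lit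 152) (nat_lit 31202662554) (nat_lit 0) (nat_lit 11901733902) (nat_lit 7) (nat_lit 5) (nat_lit 9) (nat_lit 4) (nat_lit 7) (nat_lit 4) (nat_lit 484) (nat_lit 289) (nat_lit 247))))))))
noncomputable def xc12 : XT := (XT.nd (nat_lit 51090) (nat_lit 0) (nat_lit 76) (XT.nd (nat_lit 49998) (nat_lit 0) (nat_lit 912) (XT.nd (nat_lit 546) (nat_lit 0) (nat_lit 0) (XT.nd (nat_lit 234) (nat_lit 76) (nat_lit 0) (XT.nd (nat_lit 78) (nat_lit 0) (nat_lit 0) (XT.lf (nat_lit 0) (nat_lit 22081734267) (nat_lit 152) (nat_lit 21265423397) (nat_lit 0) (nat_lit 17652650735) (nat_lit 7) (nat_lit 5) (nat_lit 9) (nat_lit 4) (nat_lit 7) (nat_lit 4) (nat_lit 485) (nat_lit 289) (nat_lit 246)) (XT.nd (nat_lit 78) (nat_lit 0) (nat_lit 0) (XT.lf (nat_lit 0) (nat_lit 28000427681) (nat_lit 152) (nat_lit 11144982831) (nat_lit 0) (nat_lit 23521041326) (nat_lit 7) (nat_lit 5) (nat_lit 9) (nat_lit 4) (nat_lit 7) (nat_lit 4) (nat_lit 486) (nat_lit 289)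 (nat_lit 245)) (XT.lf (nat_lit 0) (nat_lit 34040257441) (nat_lit 152) (nat_lit 832497754) (nat_lit 0) (nat_lit 29512033394) (nat_lit 7) (nat_lit 5) (nat_lit 9) (nat_lit 4) (nat_lit 7) (nat_lit 4) (nat_lit 487) (nat_lit 289) (nat_lit 244)))) (XT.nd (nat_lit 156) (nat_lit 0) (nat_lit 0) (XT.nd (nat_lit 78) (nat_lit 0) (nat_lit 0) (XT.lf (nat_lit 0) (nat_lit 9873714476) (nat_lit 76) (nat_lit 30427698777) (nat_lit 76) (nat_lit 25852059494) (nat_lit 6) (nat_lit 4) (nat_lit 7) (nat_lit 5) (nat_lit 7) (nat_lit 4) (nat_lit 488) (nat_lit 289) (nat_lit 243)) (XT.lf (nat_lit 0) (nat_lit 20810921282) (nat_lit 76) (nat_lit 25893672569) (nat_lit 76) (nat_lit 21271999078) (nat_lit 6) (nat_lit 4) (nat_lit 7) (nat_lit 5) (nat_lit 7) (nat_lit 4) (nat_lit 489) (nat_lit 289) (nat_lit 242))) (XT.nd (nat_lit 78) (nat_lit 0) (nat_lit 0) (XT.lf (nat_lit 0) (nat_lit 31972111109) (nat_lit 76) (nat_lit 21275121397) (nat_lit 76) (nat_lit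 16608754499) (nat_lit 6) (nat_lit 4) (nat_lit 7) (nat_lit 5) (nat_lit 7) (nat_lit 4) (nat_lit 490) (nat_lit 289) (nat_lit 241)) (XT.lf (nat_lit 0) (nat_lit 43367036452) (nat_lit 76) (nat_lit 16568009633) (nat_lit 76) (nat_lit 11858251078) (nat_lit 6) (nat_lit 4) (nat_lit 7) (nat_lit 5) (nat_lit 7) (nat_lit 4) (nat_lit 491) (nat_lit 289) (nat_lit 240))))) (XT.nd (nat_lit 49140) (nat_lit 0) (nat_lit 1672) (XT.nd (nat_lit 78) (nat_lit 0) (nat_lit 0) (XT.lf (nat_lit 0) (nat_lit 55005654043) (nat_lit 76) (nat_lit 11768224268) (nat_lit 76) (nat_lit 7016337891) (nat_lit 6) (nat_lit 4) (nat_lit 7) (nat_lit 5) (nat_lit 7) (nat_lit 4) (nat_lit 492) (nat_lit 289) (nat_lit 239)) (XT.nd (nat_lit 48984) (nat_lit 0) (nat_lit 1900) (XT.lf (nat_lit 0) (nat_lit 66898133546) (nat_lit 76) (nat_lit 6871571313) (nat_lit 76) (nat_lit 2078784138) (nat_lit 6) (nat_lit 4) (nat_lit 7) (nat_lit 5) (nat_lit 7) (nat_lit 4) (nat_lit 493) (nat_lit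 289) (nat_lit 238)) (XT.lf (nat_lit 0) (nat_lit 637097797) (nat_lit 152) (nat_lit 9127026102) (nat_lit 0) (nat_lit 637097797) (nat_lit 31) (nat_lit 5) (nat_lit 33) (nat_lit 4) (nat_lit 31) (nat_lit 4) (nat_lit 440) (nat_lit 290) (nat_lit 290)))) (XT.nd (nat_lit 156) (nat_lit 152) (nat_lit 0) (XT.nd (nat_lit 78) (nat_lit 76) (nat_lit 0) (XT.lf (nat_lit 0) (nat_lit 7870869430) (nat_lit 152) (nat_lit 5714440823) (nat_lit 0) (nat_lit 7636916741) (nat_lit 31) (nat_lit 5) (nat_lit 33) (nat_lit 4) (nat_lit 31) (nat_lit 4) (nat_lit 441) (nat_lit 290) (nat_lit 289)) (XT.lf (nat_lit 0) (nat_lit 7086772009) (nat_lit 76) (nat_lit 7515413494) (nat_lit 76) (nat_lit 7054322271) (nat_lit 30) (nat_lit 4) (nat_lit 31) (nat_lit 5) (nat_lit 31) (nat_lit 4) (nat_lit 442) (nat_lit 290) (nat_lit 288))) (XT.nd (nat_lit 78) (nat_lit 152) (nat_lit 0) (XT.lf (nat_lit 0) (nat_lit 20138765495) (nat_lit 76) (nat_lit 1324419499) (nat_lit 76)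 (nat_lit 642805428) (nat_lit 30) (nat_lit 4) (nat_lit 31) (nat_lit 5) (nat_lit 31) (nat_lit 4) (nat_lit 443) (nat_lit 290) (nat_lit 287)) (XT.lf (nat_lit 0) (nat_lit 5871345579) (nat_lit 152) (nat_lit 11693379641) (nat_lit 0) (nat_lit 5001720410) (nat_lit 28) (nat_lit 5) (nat_lit 30) (nat_lit 4) (nat_lit 28) (nat_lit 4) (nat_lit 444) (nat_lit 290) (nat_lit 286)))))) (XT.nd (nat_lit 546) (nat_lit 304) (nat_lit 0) (XT.nd (nat_lit 234) (nat_lit 228) (nat_lit 0) (XT.nd (nat_lit 78) (nat_lit 152) (nat_lit 0) (XT.lf (nat_lit 0) (nat_lit 849784565) (nat_lit 76) (nat_lit 11632377137) (nat_lit 76) (nat_lit 10560942323) (nat_lit 27) (nat_lit 4) (nat_lit 28) (nat_lit 5) (nat_lit 28) (nat_lit 4) (nat_lit 445) (nat_lit 290) (nat_lit 285)) (XT.nd (nat_lit 78) (nat_lit 152) (nat_lit 0) (XT.lf (nat_lit 0) (nat_lit 13765460360) (nat_lit 76) (nat_lit 5518102806) (nat_lit 76) (nat_lit 4250736297) (nat_lit 27) (nat_lit 4) (nat_lit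 28) (nat_lit 5) (nat_lit 28) (nat_lit 4) (nat_lit 446) (nat_lit 290) (nat_lit 284)) (XT.lf (nat_lit 0) (nat_lit 2115528053) (nat_lit 152) (nat_lit 21226349304) (nat_lit 0) (nat_lit 700390719) (nat_lit 25) (nat_lit 5) (nat_lit 27) (nat_lit 4) (nat_lit 25) (nat_lit 4) (nat_lit 447) (nat_lit 290) (nat_lit 283)))) (XT.nd (nat_lit 156) (nat_lit 152) (nat_lit 0) (XT.nd (nat_lit 78) (nat_lit 76) (nat_lit 0) (XT.lf (nat_lit 0) (nat_lit 8618452682) (nat_lit 152) (nat_lit 8920821825) (nat_lit 0) (nat_lit 7024010092) (nat_lit 25) (nat_lit 5) (nat_lit 27) (nat_lit 4) (nat_lit 25) (nat_lit 4) (nat_lit 448) (nat_lit 290) (nat_lit 282)) (XT.lf (nat_lit 0) (nat_lit 3591846192) (nat_lit 76) (nat_lit 11639583204) (nat_lit 76) (nat_lit 9871057841) (nat_lit 24) (nat_lit 4) (nat_lit 25) (nat_lit 5) (nat_lit 25) (nat_lit 4) (nat_lit 449) (nat_lit 290) (nat_lit 281))) (XT.nd (nat_lit 78) (nat_lit 152) (nat_lit 0) (XT.lf (nat_lit 0) (nat_lit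 16432922849) (nat_lit 76) (nat_lit 5581665744) (nat_lit 76) (nat_lit 3644127980) (nat_lit 24) (nat_lit 4) (nat_lit 25) (nat_lit 5) (nat_lit 25) (nat_lit 4) (nat_lit 450) (nat_lit 290) (nat_lit 280)) (XT.lf (nat_lit 0) (nat_lit 2636556192) (nat_lit 152) (nat_lit 23000511150) (nat_lit 0) (nat_lit 596141169) (nat_lit 22) (nat_lit 5) (nat_lit 24) (nat_lit 4) (nat_lit 22) (nat_lit 4) (nat_lit 451) (nat_lit 290) (nat_lit 279))))) (XT.nd (nat_lit 234) (nat_lit 228) (nat_lit 0) (XT.nd (nat_lit 78) (nat_lit 76) (nat_lit 0) (XT.lf (nat_lit 0) (nat_lit 9065970117) (nat_lit 152) (nat_lit 10885995335) (nat_lit 0) (nat_lit 6870884805) (nat_lit 22) (nat_lit 5) (nat_lit 24) (nat_lit 4) (nat_lit 22) (nat_lit 4) (nat_lit 452) (nat_lit 290) (nat_lit 278)) (XT.nd (nat_lit 78) (nat_lit 0) (nat_lit 0) (XT.lf (nat_lit 0) (nat_lit 1400200250) (nat_lit 76) (nat_lit 14189102244) (nat_lit 76) (nat_lit 11843851604) (nat_lit 21) (nat_lit 4)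 (nat_lit 22) (nat_lit 5) (nat_lit 22) (nat_lit 4) (nat_lit 453) (nat_lit 290) (nat_lit 277)) (XT.lf (nat_lit 0) (nat_lit 14061203111) (nat_lit 76) (nat_lit 8245824593) (nat_lit 76) (nat_lit 5754782372) (nat_lit 21) (nat_lit 4) (nat_lit 22) (nat_lit 5) (nat_lit 22) (nat_lit 4) (nat_lit 454) (nat_lit 290) (nat_lit 276)))) (XT.nd (nat_lit 156) (nat_lit 76) (nat_lit 0) (XT.nd (nat_lit 78) (nat_lit 76) (nat_lit 0) (XT.lf (nat_lit 0) (nat_lit 397803816) (nat_lit 152) (nat_lit 1825045698) (nat_lit 76) (nat_lit 26489602752) (nat_lit 20) (nat_lit 5) (nat_lit 22) (nat_lit 5) (nat_lit 21) (nat_lit 4) (nat_lit 455) (nat_lit 290) (nat_lit 275)) (XT.lf (nat_lit 0) (nat_lit 6654760966) (nat_lit 152) (nat_lit 18759652263) (nat_lit 0) (nat_lit 3965430874) (nat_lit 19) (nat_lit 5) (nat_lit 21) (nat_lit 4) (nat_lit 19) (nat_lit 4) (nat_lit 456) (nat_lit 290) (nat_lit 274))) (XT.nd (nat_lit 78) (nat_lit 76) (nat_lit 0) (XT.lf (nat_lit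 0) (nat_lit 13034314979) (nat_lit 152) (nat_lit 6819448502) (nat_lit 0) (nat_lit 10215450955) (nat_lit 19) (nat_lit 5) (nat_lit 21) (nat_lit 4) (nat_lit 19) (nat_lit 4) (nat_lit 457) (nat_lit 290) (nat_lit 273)) (XT.lf (nat_lit 0) (nat_lit 5383279452) (nat_lit 76) (nat_lit 14171070994) (nat_lit 76) (nat_lit 11226445871) (nat_lit 18) (nat_lit 4) (nat_lit 19) (nat_lit 5) (nat_lit 19) (nat_lit 4) (nat_lit 458) (nat_lit 290) (nat_lit 272))))))) (XT.nd (nat_lit 1092) (nat_lit 380) (nat_lit 0) (XT.nd (nat_lit 546) (nat_lit 228) (nat_lit 0) (XT.nd (nat_lit 234) (nat_lit 76) (nat_lit 0) (XT.nd (nat_lit 78) (nat_lit 152) (nat_lit 0) (XT.lf (nat_lit 0) (nat_lit 17893120097) (nat_lit 76) (nat_lit 8344156666) (nat_lit 76) (nat_lit 5277433389) (nat_lit 18) (nat_lit 4) (nat_lit 19) (nat_lit 5) (nat_lit 19) (nat_lit 4) (nat_lit 459) (nat_lit 290) (nat_lit 271)) (XT.nd (nat_lit 78) (nat_lit 76) (nat_lit 0) (XT.lf (nat_lit 0) (nat_lit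 733867690) (nat_lit 152) (nat_lit 1695513763) (nat_lit 76) (nat_lit 29844005649) (nat_lit 17) (nat_lit 5) (nat_lit 19) (nat_lit 5) (nat_lit 18) (nat_lit 4) (nat_lit 460) (nat_lit 290) (nat_lit 270)) (XT.lf (nat_lit 0) (nat_lit 6860023663) (nat_lit 152) (nat_lit 22536222354) (nat_lit 0) (nat_lit 3655796095) (nat_lit 16) (nat_lit 5) (nat_lit 18) (nat_lit 4) (nat_lit 16) (nat_lit 4) (nat_lit 461) (nat_lit 290) (nat_lit 269)))) (XT.nd (nat_lit 156) (nat_lit 0) (nat_lit 0) (XT.nd (nat_lit 78) (nat_lit 76) (nat_lit 0) (XT.lf (nat_lit 0) (nat_lit 13114747820) (nat_lit 152) (nat_lit 10938930660) (nat_lit 0) (nat_lit 9802037623) (nat_lit 16) (nat_lit 5) (nat_lit 18) (nat_lit 4) (nat_lit 16) (nat_lit 4) (nat_lit 462) (nat_lit 290) (nat_lit 268)) (XT.lf (nat_lit 0) (nat_lit 838749346) (nat_lit 76) (nat_lit 18632678712) (nat_lit 76) (nat_lit 15214645575) (nat_lit 15) (nat_lit 4) (nat_lit 16) (nat_lit 5) (nat_lit 16) (nat_lit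 4) (nat_lit 463) (nat_lit 290) (nat_lit 267))) (XT.nd (nat_lit 78) (nat_lit 0) (nat_lit 0) (XT.lf (nat_lit 0) (nat_lit 13011902564) (nat_lit 76) (nat_lit 13024599803) (nat_lit 76) (nat_lit 9504311384) (nat_lit 15) (nat_lit 4) (nat_lit 16) (nat_lit 5) (nat_lit 16) (nat_lit 4) (nat_lit 464) (nat_lit 290) (nat_lit 266)) (XT.lf (nat_lit 0) (nat_lit 25373459561) (nat_lit 76) (nat_lit 7335003241) (nat_lit 76) (nat_lit 3715437849) (nat_lit 15) (nat_lit 4) (nat_lit 16) (nat_lit 5) (nat_lit 16) (nat_lit 4) (nat_lit 465) (nat_lit 290) (nat_lit 265))))) (XT.nd (nat_lit 234) (nat_lit 76) (nat_lit 0) (XT.nd (nat_lit 78) (nat_lit 0) (nat_lit 0) (XT.lf (nat_lit 0) (nat_lit 588872026) (nat_lit 76) (nat_lit 1531730352) (nat_lit 152) (nat_lit 35214711722) (nat_lit 13) (nat_lit 5) (nat_lit 14) (nat_lit 5) (nat_lit 15) (nat_lit 4) (nat_lit 466) (nat_lit 290) (nat_lit 264)) (XT.nd (nat_lit 78) (nat_lit 0) (nat_lit 0) (XT.lf (nat_lit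 0) (nat_lit 8124274173) (nat_lit 152) (nat_lit 25720975294) (nat_lit 0) (nat_lit 4425702454) (nat_lit 13) (nat_lit 5) (nat_lit 15) (nat_lit 4) (nat_lit 13) (nat_lit 4) (nat_lit 467) (nat_lit 290) (nat_lit 263)) (XT.lf (nat_lit 0) (nat_lit 14237590843) (nat_lit 152) (nat_lit 14548371477) (nat_lit 0) (nat_lit 10450812819) (nat_lit 13) (nat_lit 5) (nat_lit 15) (nat_lit 4) (nat_lit 13) (nat_lit 4) (nat_lit 468) (nat_lit 290) (nat_lit 262)))) (XT.nd (nat_lit 156) (nat_lit 0) (nat_lit 0) (XT.nd (nat_lit 78) (nat_lit 76) (nat_lit 0) (XT.lf (nat_lit 0) (nat_lit 20451170192) (nat_lit 152) (nat_lit 3204144225) (nat_lit 0) (nat_lit 16578754980) (nat_lit 13) (nat_lit 5) (nat_lit 15) (nat_lit 4) (nat_lit 13) (nat_lit 4) (nat_lit 469) (nat_lit 290) (nat_lit 261)) (XT.lf (nat_lit 0) (nat_lit 8487235425) (nat_lit 76) (nat_lit 18364790635) (nat_lit 76) (nat_lit 14409232520) (nat_lit 12) (nat_lit 4) (nat_lit 13) (nat_lit 5) (nat_lit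 13) (nat_lit 4) (nat_lit 470) (nat_lit 290) (nat_lit 260))) (XT.nd (nat_lit 78) (nat_lit 0) (nat_lit 0) (XT.lf (nat_lit 0) (nat_lit 20437804105) (nat_lit 76) (nat_lit 12959583215) (nat_lit 76) (nat_lit 8923303837) (nat_lit 12) (nat_lit 4) (nat_lit 13) (nat_lit 5) (nat_lit 13) (nat_lit 4) (nat_lit 471) (nat_lit 290) (nat_lit 259)) (XT.lf (nat_lit 0) (nat_lit 32594235305) (nat_lit 76) (nat_lit 7467324736) (nat_lit 76) (nat_lit 3352675199) (nat_lit 12) (nat_lit 4) (nat_lit 13) (nat_lit 5) (nat_lit 13) (nat_lit 4) (nat_lit 472) (nat_lit 290) (nat_lit 258)))))) (XT.nd (nat_lit 546) (nat_lit 152) (nat_lit 0) (XT.nd (nat_lit 234) (nat_lit 76) (nat_lit 0) (XT.nd (nat_lit 78) (nat_lit 0) (nat_lit 0) (XT.lf (nat_lit 0) (nat_lit 410126539) (nat_lit 76) (nat_lit 1856308736) (nat_lit 152) (nat_lit 42275627367) (nat_lit 10) (nat_lit 5) (nat_lit 11) (nat_lit 5) (nat_lit 12) (nat_lit 4) (nat_lit 473) (nat_lit 290) (nat_lit 257))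 (XT.nd (nat_lit 78) (nat_lit 0) (nat_lit 0) (XT.lf (nat_lit 0) (nat_lit 8058836553) (nat_lit 152) (nat_lit 33723291266) (nat_lit 0) (nat_lit 3918439988) (nat_lit 10) (nat_lit 5) (nat_lit 12) (nat_lit 4) (nat_lit 10) (nat_lit 4) (nat_lit 474) (nat_lit 290) (nat_lit 256)) (XT.lf (nat_lit 0) (nat_lit 13969651036) (nat_lit 152) (nat_lit 23166216076) (nat_lit 0) (nat_lit 9759623600) (nat_lit 10) (nat_lit 5) (nat_lit 12) (nat_lit 4) (nat_lit 10) (nat_lit 4) (nat_lit 475) (nat_lit 290) (nat_lit 255)))) (XT.nd (nat_lit 156) (nat_lit 76) (nat_lit 0) (XT.nd (nat_lit 78) (nat_lit 0) (nat_lit 0) (XT.lf (nat_lit 0) (nat_lit 19986199538) (nat_lit 152) (nat_lit 12433641930) (nat_lit 0) (nat_lit 15708569314) (nat_lit 10) (nat_lit 5) (nat_lit 12) (nat_lit 4) (nat_lit 10) (nat_lit 4) (nat_lit 476) (nat_lit 290) (nat_lit 254)) (XT.lf (nat_lit 0) (nat_lit 26113739238) (nat_lit 152) (nat_lit 1516190849) (nat_lit 0) (nat_lit 21770475240)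 (nat_lit 10) (nat_lit 5) (nat_lit 12) (nat_lit 4) (nat_lit 10) (nat_lit 4) (nat_lit 477) (nat_lit 290) (nat_lit 253))) (XT.nd (nat_lit 78) (nat_lit 0) (nat_lit 0) (XT.lf (nat_lit 0) (nat_lit 9786649465) (nat_lit 76) (nat_lit 22665050092) (nat_lit 76) (nat_lit 18258063983) (nat_lit 9) (nat_lit 4) (nat_lit 10) (nat_lit 5) (nat_lit 10) (nat_lit 4) (nat_lit 478) (nat_lit 290) (nat_lit 252)) (XT.lf (nat_lit 0) (nat_lit 21327853309) (nat_lit 76) (nat_lit 17600473598) (nat_lit 76) (nat_lit 13131621362) (nat_lit 9) (nat_lit 4) (nat_lit 10) (nat_lit 5) (nat_lit 10) (nat_lit 4) (nat_lit 479) (nat_lit 290) (nat_lit 251))))) (XT.nd (nat_lit 312) (nat_lit 0) (nat_lit 0) (XT.nd (nat_lit 156) (nat_lit 152) (nat_lit 0) (XT.nd (nat_lit 78) (nat_lit 0) (nat_lit 0) (XT.lf (nat_lit 0) (nat_lit 33087330058) (nat_lit 76) (nat_lit 12447085803) (nat_lit 76) (nat_lit 7918169366) (nat_lit 9) (nat_lit 4) (nat_lit 10) (nat_lit 5) (nat_lit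 10) (nat_lit 4) (nat_lit 480) (nat_lit 290) (nat_lit 250)) (XT.lf (nat_lit 0) (nat_lit 45075354983) (nat_lit 76) (nat_lit 7200383746) (nat_lit 76) (nat_lit 2613152550) (nat_lit 9) (nat_lit 4) (nat_lit 10) (nat_lit 5) (nat_lit 10) (nat_lit 4) (nat_lit 481) (nat_lit 290) (nat_lit 249))) (XT.nd (nat_lit 78) (nat_lit 0) (nat_lit 0) (XT.lf (nat_lit 0) (nat_lit 923501870) (nat_lit 76) (nat_lit 1819034748) (nat_lit 152) (nat_lit 53626514497) (nat_lit 7) (nat_lit 5) (nat_lit 8) (nat_lit 5) (nat_lit 9) (nat_lit 4) (nat_lit 482) (nat_lit 290) (nat_lit 248)) (XT.lf (nat_lit 0) (nat_lit 8280591804) (nat_lit 152) (nat_lit 45891386873) (nat_lit 0) (nat_lit 3718635766) (nat_lit 7) (nat_lit 5) (nat_lit 9) (nat_lit 4) (nat_lit 7) (nat_lit 4) (nat_lit 483) (nat_lit 290) (nat_lit 247)))) (XT.nd (nat_lit 156) (nat_lit 0) (nat_lit 0) (XT.nd (nat_lit 78) (nat_lit 0) (nat_lit 0) (XT.lf (nat_lit 0) (nat_lit 13942938186) (nat_lit 152)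 (nat_lit 36186973113) (nat_lit 0) (nat_lit 9329170240) (nat_lit 7) (nat_lit 5) (nat_lit 9) (nat_lit 4) (nat_lit 7) (nat_lit 4) (nat_lit 484) (nat_lit 290) (nat_lit 246)) (XT.lf (nat_lit 0) (nat_lit 19717037769) (nat_lit 152) (nat_lit 26306342708) (nat_lit 0) (nat_lit 15052967000) (nat_lit 7) (nat_lit 5) (nat_lit 9) (nat_lit 4) (nat_lit 7) (nat_lit 4) (nat_lit 485) (nat_lit 290) (nat_lit 245))) (XT.nd (nat_lit 78) (nat_lit 0) (nat_lit 0) (XT.lf (nat_lit 0) (nat_lit 25607935884) (nat_lit 152) (nat_lit 16240862096) (nat_lit 0) (nat_lit 20895027423) (nat_lit 7) (nat_lit 5) (nat_lit 9) (nat_lit 4) (nat_lit 7) (nat_lit 4) (nat_lit 486) (nat_lit 290) (nat_lit 244)) (XT.lf (nat_lit 0) (nat_lit 31620779918) (nat_lit 152) (nat_lit 5981736197) (nat_lit 0) (nat_lit 26860456222) (nat_lit 7) (nat_lit 5) (nat_lit 9) (nat_lit 4) (nat_lit 7) (nat_lit 4) (nat_lit 487) (nat_lit 290) (nat_lit 243))))))))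
noncomputable def xc13 : XT := (XT.nd (nat_lit 51012) (nat_lit 0) (nat_lit 0) (XT.nd (nat_lit 49842) (nat_lit 0) (nat_lit 912) (XT.nd (nat_lit 49296) (nat_lit 0) (nat_lit 1596) (XT.nd (nat_lit 234) (nat_lit 0) (nat_lit 0) (XT.nd (nat_lit 78) (nat_lit 0) (nat_lit 0) (XT.lf (nat_lit 0) (nat_lit 4569160043) (nat_lit 76) (nat_lit 33235585330) (nat_lit 76) (nat_lit 28429227425) (nat_lit 6) (nat_lit 4) (nat_lit 7) (nat_lit 5) (nat_lit 7) (nat_lit 4) (nat_lit 488) (nat_lit 290) (nat_lit 242)) (XT.nd (nat_lit 78) (nat_lit 0) (nat_lit 0) (XT.lf (nat_lit 0) (nat_lit 15455069714) (nat_lit 76) (nat_lit 28726926522) (nat_lit 76) (nat_lit 23875875211) (nat_lit 6) (nat_lit 4) (nat_lit 7) (nat_lit 5) (nat_lit 7) (nat_lit 4) (nat_lit 489) (nat_lit 290) (nat_lit 241)) (XT.lf (nat_lit 0) (nat_lit 26566456497) (nat_lit 76) (nat_lit 24133003894) (nat_lit 76) (nat_lit 19238560925) (nat_lit 6) (nat_lit 4) (nat_lit 7) (nat_lit 5) (nat_lit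 7) (nat_lit 4) (nat_lit 490) (nat_lit 290) (nat_lit 240)))) (XT.nd (nat_lit 156) (nat_lit 0) (nat_lit 0) (XT.nd (nat_lit 78) (nat_lit 0) (nat_lit 0) (XT.lf (nat_lit 0) (nat_lit 37913029371) (nat_lit 76) (nat_lit 19449803338) (nat_lit 76) (nat_lit 14513232547) (nat_lit 6) (nat_lit 4) (nat_lit 7) (nat_lit 5) (nat_lit 7) (nat_lit 4) (nat_lit 491) (nat_lit 290) (nat_lit 239)) (XT.lf (nat_lit 0) (nat_lit 49504702816) (nat_lit 76) (nat_lit 14673232737) (nat_lit 76) (nat_lit 9695761148) (nat_lit 6) (nat_lit 4) (nat_lit 7) (nat_lit 5) (nat_lit 7) (nat_lit 4) (nat_lit 492) (nat_lit 290) (nat_lit 238))) (XT.nd (nat_lit 48828) (nat_lit 0) (nat_lit 2128) (XT.lf (nat_lit 0) (nat_lit 61351605480) (nat_lit 76) (nat_lit 9799118389) (nat_lit 76) (nat_lit 4781937287) (nat_lit 6) (nat_lit 4) (nat_lit 7) (nat_lit 5) (nat_lit 7) (nat_lit 4) (nat_lit 493) (nat_lit 290) (nat_lit 237)) (XT.lf (nat_lit 0) (nat_lit 4350143737) (nat_lit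 152) (nat_lit 1297195044) (nat_lit 0) (nat_lit 4350143737) (nat_lit 34) (nat_lit 5) (nat_lit 36) (nat_lit 4) (nat_lit 34) (nat_lit 4) (nat_lit 438) (nat_lit 291) (nat_lit 291))))) (XT.nd (nat_lit 234) (nat_lit 304) (nat_lit 0) (XT.nd (nat_lit 78) (nat_lit 152) (nat_lit 0) (XT.lf (nat_lit 0) (nat_lit 10211208311) (nat_lit 76) (nat_lit 5214932758) (nat_lit 76) (nat_lit 4966732350) (nat_lit 33) (nat_lit 4) (nat_lit 34) (nat_lit 5) (nat_lit 34) (nat_lit 4) (nat_lit 439) (nat_lit 291) (nat_lit 290)) (XT.nd (nat_lit 78) (nat_lit 0) (nat_lit 0) (XT.lf (nat_lit 0) (nat_lit 1448505893) (nat_lit 152) (nat_lit 18382358409) (nat_lit 0) (nat_lit 973581933) (nat_lit 31) (nat_lit 5) (nat_lit 33) (nat_lit 4) (nat_lit 31) (nat_lit 4) (nat_lit 440) (nat_lit 291) (nat_lit 289)) (XT.lf (nat_lit 0) (nat_lit 7980460336) (nat_lit 152) (nat_lit 5967316160) (nat_lit 0) (nat_lit 7278397843) (nat_lit 31) (nat_lit 5) (nat_lit 33) (nat_lit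 4) (nat_lit 31) (nat_lit 4) (nat_lit 441) (nat_lit 291) (nat_lit 288)))) (XT.nd (nat_lit 156) (nat_lit 228) (nat_lit 0) (XT.nd (nat_lit 78) (nat_lit 0) (nat_lit 0) (XT.lf (nat_lit 0) (nat_lit 6705516092) (nat_lit 76) (nat_lit 7939761092) (nat_lit 76) (nat_lit 7017175750) (nat_lit 30) (nat_lit 4) (nat_lit 31) (nat_lit 5) (nat_lit 31) (nat_lit 4) (nat_lit 442) (nat_lit 291) (nat_lit 287)) (XT.lf (nat_lit 0) (nat_lit 19637754369) (nat_lit 76) (nat_lit 1806366913) (nat_lit 76) (nat_lit 669681718) (nat_lit 30) (nat_lit 4) (nat_lit 31) (nat_lit 5) (nat_lit 31) (nat_lit 4) (nat_lit 443) (nat_lit 291) (nat_lit 286))) (XT.nd (nat_lit 78) (nat_lit 76) (nat_lit 0) (XT.lf (nat_lit 0) (nat_lit 5772671300) (nat_lit 152) (nat_lit 12336483133) (nat_lit 0) (nat_lit 4467283796) (nat_lit 28) (nat_lit 5) (nat_lit 30) (nat_lit 4) (nat_lit 28) (nat_lit 4) (nat_lit 444) (nat_lit 291) (nat_lit 285)) (XT.lf (nat_lit 0) (nat_lit 73938133)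 (nat_lit 76) (nat_lit 12241264378) (nat_lit 76) (nat_lit 10739945180) (nat_lit 27) (nat_lit 4) (nat_lit 28) (nat_lit 5) (nat_lit 28) (nat_lit 4) (nat_lit 445) (nat_lit 291) (nat_lit 284)))))) (XT.nd (nat_lit 546) (nat_lit 304) (nat_lit 0) (XT.nd (nat_lit 234) (nat_lit 228) (nat_lit 0) (XT.nd (nat_lit 78) (nat_lit 152) (nat_lit 0) (XT.lf (nat_lit 0) (nat_lit 12873163522) (nat_lit 76) (nat_lit 6183265722) (nat_lit 76) (nat_lit 4491721578) (nat_lit 27) (nat_lit 4) (nat_lit 28) (nat_lit 5) (nat_lit 28) (nat_lit 4) (nat_lit 446) (nat_lit 291) (nat_lit 283)) (XT.nd (nat_lit 78) (nat_lit 0) (nat_lit 0) (XT.lf (nat_lit 0) (nat_lit 1784662891) (nat_lit 76) (nat_lit 18731910) (nat_lit 152) (nat_lit 22255071949) (nat_lit 25) (nat_lit 5) (nat_lit 26) (nat_lit 5) (nat_lit 27) (nat_lit 4) (nat_lit 447) (nat_lit 291) (nat_lit 282)) (XT.lf (nat_lit 0) (nat_lit 8247241498) (nat_lit 152) (nat_lit 10082438752) (nat_lit 0) (nat_lit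 6251577602) (nat_lit 25) (nat_lit 5) (nat_lit 27) (nat_lit 4) (nat_lit 25) (nat_lit 4) (nat_lit 448) (nat_lit 291) (nat_lit 281)))) (XT.nd (nat_lit 156) (nat_lit 152) (nat_lit 0) (XT.nd (nat_lit 78) (nat_lit 0) (nat_lit 0) (XT.lf (nat_lit 0) (nat_lit 2293889380) (nat_lit 76) (nat_lit 12496669678) (nat_lit 76) (nat_lit 10331993381) (nat_lit 24) (nat_lit 4) (nat_lit 25) (nat_lit 5) (nat_lit 25) (nat_lit 4) (nat_lit 449) (nat_lit 291) (nat_lit 280)) (XT.lf (nat_lit 0) (nat_lit 15025042318) (nat_lit 76) (nat_lit 6492102391) (nat_lit 76) (nat_lit 4163336384) (nat_lit 24) (nat_lit 4) (nat_lit 25) (nat_lit 5) (nat_lit 25) (nat_lit 4) (nat_lit 450) (nat_lit 291) (nat_lit 279))) (XT.nd (nat_lit 78) (nat_lit 0) (nat_lit 0) (XT.lf (nat_lit 0) (nat_lit 1675735674) (nat_lit 76) (nat_lit 375403280) (nat_lit 152) (nat_lit 24206276011) (nat_lit 22) (nat_lit 5) (nat_lit 23) (nat_lit 5) (nat_lit 24) (nat_lit 4) (nat_lit 451) (nat_lit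 291) (nat_lit 278)) (XT.lf (nat_lit 0) (nat_lit 8421563216) (nat_lit 152) (nat_lit 12571475389) (nat_lit 0) (nat_lit 5855789728) (nat_lit 22) (nat_lit 5) (nat_lit 24) (nat_lit 4) (nat_lit 22) (nat_lit 4) (nat_lit 452) (nat_lit 291) (nat_lit 277))))) (XT.nd (nat_lit 312) (nat_lit 76) (nat_lit 0) (XT.nd (nat_lit 156) (nat_lit 152) (nat_lit 0) (XT.nd (nat_lit 78) (nat_lit 76) (nat_lit 0) (XT.lf (nat_lit 0) (nat_lit 14877667996) (nat_lit 152) (nat_lit 417379957) (nat_lit 0) (nat_lit 12166102926) (nat_lit 22) (nat_lit 5) (nat_lit 24) (nat_lit 4) (nat_lit 22) (nat_lit 4) (nat_lit 453) (nat_lit 291) (nat_lit 276)) (XT.lf (nat_lit 0) (nat_lit 12131566248) (nat_lit 76) (nat_lit 9406535731) (nat_lit 76) (nat_lit 6553425436) (nat_lit 21) (nat_lit 4) (nat_lit 22) (nat_lit 5) (nat_lit 22) (nat_lit 4) (nat_lit 454) (nat_lit 291) (nat_lit 275))) (XT.nd (nat_lit 78) (nat_lit 152) (nat_lit 0) (XT.lf (nat_lit 0) (nat_lit 24861058613)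 (nat_lit 76) (nat_lit 3436656050) (nat_lit 76) (nat_lit 446123207) (nat_lit 21) (nat_lit 4) (nat_lit 22) (nat_lit 5) (nat_lit 22) (nat_lit 4) (nat_lit 455) (nat_lit 291) (nat_lit 274)) (XT.lf (nat_lit 0) (nat_lit 5735413177) (nat_lit 152) (nat_lit 20976021335) (nat_lit 0) (nat_lit 2702449300) (nat_lit 19) (nat_lit 5) (nat_lit 21) (nat_lit 4) (nat_lit 19) (nat_lit 4) (nat_lit 456) (nat_lit 291) (nat_lit 273)))) (XT.nd (nat_lit 156) (nat_lit 0) (nat_lit 0) (XT.nd (nat_lit 78) (nat_lit 76) (nat_lit 0) (XT.lf (nat_lit 0) (nat_lit 12064399435) (nat_lit 152) (nat_lit 9134698900) (nat_lit 0) (nat_lit 8905674460) (nat_lit 19) (nat_lit 5) (nat_lit 21) (nat_lit 4) (nat_lit 19) (nat_lit 4) (nat_lit 457) (nat_lit 291) (nat_lit 272)) (XT.lf (nat_lit 0) (nat_lit 2924039132) (nat_lit 76) (nat_lit 15587661143) (nat_lit 76) (nat_lit 12306838013) (nat_lit 18) (nat_lit 4) (nat_lit 19) (nat_lit 5) (nat_lit 19) (nat_lit 4) (nat_lit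 458) (nat_lit 291) (nat_lit 271))) (XT.nd (nat_lit 78) (nat_lit 0) (nat_lit 0) (XT.lf (nat_lit 0) (nat_lit 15338819679) (nat_lit 76) (nat_lit 9807228179) (nat_lit 76) (nat_lit 6407863152) (nat_lit 18) (nat_lit 4) (nat_lit 19) (nat_lit 5) (nat_lit 19) (nat_lit 4) (nat_lit 459) (nat_lit 291) (nat_lit 270)) (XT.lf (nat_lit 0) (nat_lit 27938692189) (nat_lit 76) (nat_lit 3944991129) (nat_lit 76) (nat_lit 430536881) (nat_lit 18) (nat_lit 4) (nat_lit 19) (nat_lit 5) (nat_lit 19) (nat_lit 4) (nat_lit 460) (nat_lit 291) (nat_lit 269))))))) (XT.nd (nat_lit 1092) (nat_lit 304) (nat_lit 0) (XT.nd (nat_lit 546) (nat_lit 228) (nat_lit 0) (XT.nd (nat_lit 234) (nat_lit 228) (nat_lit 0) (XT.nd (nat_lit 78) (nat_lit 0) (nat_lit 0) (XT.lf (nat_lit 0) (nat_lit 5615349827) (nat_lit 152) (nat_lit 25385535358) (nat_lit 0) (nat_lit 2094775696) (nat_lit 16) (nat_lit 5) (nat_lit 18) (nat_lit 4) (nat_lit 16) (nat_lit 4) (nat_lit 461) (nat_lit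 291) (nat_lit 268)) (XT.nd (nat_lit 78) (nat_lit 0) (nat_lit 0) (XT.lf (nat_lit 0) (nat_lit 11823892597) (nat_lit 152) (nat_lit 13878833545) (nat_lit 0) (nat_lit 8197995525) (nat_lit 16) (nat_lit 5) (nat_lit 18) (nat_lit 4) (nat_lit 16) (nat_lit 4) (nat_lit 462) (nat_lit 291) (nat_lit 267)) (XT.lf (nat_lit 0) (nat_lit 18127673967) (nat_lit 152) (nat_lit 2205471900) (nat_lit 0) (nat_lit 14399521613) (nat_lit 16) (nat_lit 5) (nat_lit 18) (nat_lit 4) (nat_lit 16) (nat_lit 4) (nat_lit 463) (nat_lit 291) (nat_lit 266)))) (XT.nd (nat_lit 156) (nat_lit 152) (nat_lit 0) (XT.nd (nat_lit 78) (nat_lit 0) (nat_lit 0) (XT.lf (nat_lit 0) (nat_lit 9836699029) (nat_lit 76) (nat_lit 14790059435) (nat_lit 76) (nat_lit 10962630108) (nat_lit 15) (nat_lit 4) (nat_lit 16) (nat_lit 5) (nat_lit 16) (nat_lit 4) (nat_lit 464) (nat_lit 291) (nat_lit 265)) (XT.lf (nat_lit 0) (nat_lit 22113703527) (nat_lit 76) (nat_lit 9141940090) (nat_lit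 76) (nat_lit 5218125353) (nat_lit 15) (nat_lit 4) (nat_lit 16) (nat_lit 5) (nat_lit 16) (nat_lit 4) (nat_lit 465) (nat_lit 291) (nat_lit 264))) (XT.nd (nat_lit 78) (nat_lit 76) (nat_lit 0) (XT.lf (nat_lit 0) (nat_lit 599341214) (nat_lit 152) (nat_lit 2800730139) (nat_lit 76) (nat_lit 33986982472) (nat_lit 14) (nat_lit 5) (nat_lit 16) (nat_lit 5) (nat_lit 15) (nat_lit 4) (nat_lit 466) (nat_lit 291) (nat_lit 263)) (XT.lf (nat_lit 0) (nat_lit 6515140649) (nat_lit 152) (nat_lit 29283635324) (nat_lit 0) (nat_lit 2526552980) (nat_lit 13) (nat_lit 5) (nat_lit 15) (nat_lit 4) (nat_lit 13) (nat_lit 4) (nat_lit 467) (nat_lit 291) (nat_lit 262))))) (XT.nd (nat_lit 234) (nat_lit 152) (nat_lit 0) (XT.nd (nat_lit 78) (nat_lit 76) (nat_lit 0) (XT.lf (nat_lit 0) (nat_lit 12587503220) (nat_lit 152) (nat_lit 18191600315) (nat_lit 0) (nat_lit 8513278362) (nat_lit 13) (nat_lit 5) (nat_lit 15) (nat_lit 4) (nat_lit 13) (nat_lit 4) (nat_lit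 468) (nat_lit 291) (nat_lit 261)) (XT.nd (nat_lit 78) (nat_lit 76) (nat_lit 0) (XT.lf (nat_lit 0) (nat_lit 18761321308) (nat_lit 152) (nat_lit 6925595206) (nat_lit 0) (nat_lit 14603953548) (nat_lit 13) (nat_lit 5) (nat_lit 15) (nat_lit 4) (nat_lit 13) (nat_lit 4) (nat_lit 469) (nat_lit 291) (nat_lit 260)) (XT.lf (nat_lit 0) (nat_lit 4614265014) (nat_lit 76) (nat_lit 20472079635) (nat_lit 76) (nat_lit 16233990612) (nat_lit 12) (nat_lit 4) (nat_lit 13) (nat_lit 5) (nat_lit 13) (nat_lit 4) (nat_lit 470) (nat_lit 291) (nat_lit 259)))) (XT.nd (nat_lit 156) (nat_lit 152) (nat_lit 0) (XT.nd (nat_lit 78) (nat_lit 0) (nat_lit 0) (XT.lf (nat_lit 0) (nat_lit 16489634412) (nat_lit 76) (nat_lit 15103869833) (nat_lit 76) (nat_lit 10787410650) (nat_lit 12) (nat_lit 4) (nat_lit 13) (nat_lit 5) (nat_lit 13) (nat_lit 4) (nat_lit 471) (nat_lit 291) (nat_lit 258)) (XT.lf (nat_lit 0) (nat_lit 28573056601) (nat_lit 76) (nat_lit 9647531370)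 (nat_lit 76) (nat_lit 5254984655) (nat_lit 12) (nat_lit 4) (nat_lit 13) (nat_lit 5) (nat_lit 13) (nat_lit 4) (nat_lit 472) (nat_lit 291) (nat_lit 257))) (XT.nd (nat_lit 78) (nat_lit 76) (nat_lit 0) (XT.lf (nat_lit 0) (nat_lit 360938155) (nat_lit 152) (nat_lit 3733713651) (nat_lit 76) (nat_lit 40510506988) (nat_lit 11) (nat_lit 5) (nat_lit 13) (nat_lit 5) (nat_lit 12) (nat_lit 4) (nat_lit 473) (nat_lit 291) (nat_lit 256)) (XT.lf (nat_lit 0) (nat_lit 6058531447) (nat_lit 152) (nat_lit 38055405332) (nat_lit 0) (nat_lit 1652572316) (nat_lit 10) (nat_lit 5) (nat_lit 12) (nat_lit 4) (nat_lit 10) (nat_lit 4) (nat_lit 474) (nat_lit 291) (nat_lit 255)))))) (XT.nd (nat_lit 546) (nat_lit 228) (nat_lit 0) (XT.nd (nat_lit 234) (nat_lit 76) (nat_lit 0) (XT.nd (nat_lit 78) (nat_lit 0) (nat_lit 0) (XT.lf (nat_lit 0) (nat_lit 11934079715) (nat_lit 152) (nat_lit 27567893343) (nat_lit 0) (nat_lit 7460517797) (nat_lit 10) (nat_lit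 5) (nat_lit 12) (nat_lit 4) (nat_lit 10) (nat_lit 4) (nat_lit 475) (nat_lit 291) (nat_lit 254)) (XT.nd (nat_lit 78) (nat_lit 0) (nat_lit 0) (XT.lf (nat_lit 0) (nat_lit 17916389175) (nat_lit 152) (nat_lit 16902856286) (nat_lit 0) (nat_lit 13377193482) (nat_lit 10) (nat_lit 5) (nat_lit 12) (nat_lit 4) (nat_lit 10) (nat_lit 4) (nat_lit 476) (nat_lit 291) (nat_lit 253)) (XT.lf (nat_lit 0) (nat_lit 24010687085) (nat_lit 152) (nat_lit 6050975195) (nat_lit 0) (nat_lit 19407769281) (nat_lit 10) (nat_lit 5) (nat_lit 12) (nat_lit 4) (nat_lit 10) (nat_lit 4) (nat_lit 477) (nat_lit 291) (nat_lit 252)))) (XT.nd (nat_lit 156) (nat_lit 0) (nat_lit 0) (XT.nd (nat_lit 78) (nat_lit 0) (nat_lit 0) (XT.lf (nat_lit 0) (nat_lit 5096686873) (nat_lit 76) (nat_lit 25174604160) (nat_lit 76) (nat_lit 20509820229) (nat_lit 9) (nat_lit 4) (nat_lit 10) (nat_lit 5) (nat_lit 10) (nat_lit 4) (nat_lit 478) (nat_lit 291) (nat_lit 251)) (XT.lf (nat_lit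 0) (nat_lit 16574854653) (nat_lit 76) (nat_lit 20141124215) (nat_lit 76) (nat_lit 15416276083) (nat_lit 9) (nat_lit 4) (nat_lit 10) (nat_lit 5) (nat_lit 10) (nat_lit 4) (nat_lit 479) (nat_lit 291) (nat_lit 250))) (XT.nd (nat_lit 78) (nat_lit 0) (nat_lit 0) (XT.lf (nat_lit 0) (nat_lit 28273131339) (nat_lit 76) (nat_lit 15017927243) (nat_lit 76) (nat_lit 10234764352) (nat_lit 9) (nat_lit 4) (nat_lit 10) (nat_lit 5) (nat_lit 10) (nat_lit 4) (nat_lit 480) (nat_lit 291) (nat_lit 249)) (XT.lf (nat_lit 0) (nat_lit 40201738728) (nat_lit 76) (nat_lit 9800536665) (nat_lit 76) (nat_lit 4960757504) (nat_lit 9) (nat_lit 4) (nat_lit 10) (nat_lit 5) (nat_lit 10) (nat_lit 4) (nat_lit 481) (nat_lit 291) (nat_lit 248))))) (XT.nd (nat_lit 312) (nat_lit 76) (nat_lit 0) (XT.nd (nat_lit 156) (nat_lit 0) (nat_lit 0) (XT.nd (nat_lit 78) (nat_lit 76) (nat_lit 0) (XT.lf (nat_lit 0) (nat_lit 402345355) (nat_lit 152) (nat_lit 4077985342)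 (nat_lit 76) (nat_lit 51964691618) (nat_lit 8) (nat_lit 5) (nat_lit 10) (nat_lit 5) (nat_lit 9) (nat_lit 4) (nat_lit 482) (nat_lit 291) (nat_lit 247)) (XT.lf (nat_lit 0) (nat_lit 5844954411) (nat_lit 152) (nat_lit 51083533763) (nat_lit 0) (nat_lit 1040961519) (nat_lit 7) (nat_lit 5) (nat_lit 9) (nat_lit 4) (nat_lit 7) (nat_lit 4) (nat_lit 483) (nat_lit 291) (nat_lit 246))) (XT.nd (nat_lit 78) (nat_lit 0) (nat_lit 0) (XT.lf (nat_lit 0) (nat_lit 11478671635) (nat_lit 152) (nat_lit 41435728756) (nat_lit 0) (nat_lit 6624375920) (nat_lit 7) (nat_lit 5) (nat_lit 9) (nat_lit 4) (nat_lit 7) (nat_lit 4) (nat_lit 484) (nat_lit 291) (nat_lit 245)) (XT.lf (nat_lit 0) (nat_lit 17224975920) (nat_lit 152) (nat_lit 31610058304) (nat_lit 0) (nat_lit 12321842513) (nat_lit 7) (nat_lit 5) (nat_lit 9) (nat_lit 4) (nat_lit 7) (nat_lit 4) (nat_lit 485) (nat_lit 291) (nat_lit 244)))) (XT.nd (nat_lit 156) (nat_lit 76) (nat_lit 0) (XT.nd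 (nat_lit 78) (nat_lit 0) (nat_lit 0) (XT.lf (nat_lit 0) (nat_lit 23088888309) (nat_lit 152) (nat_lit 21597936870) (nat_lit 0) (nat_lit 18138339667) (nat_lit 7) (nat_lit 5) (nat_lit 9) (nat_lit 4) (nat_lit 7) (nat_lit 4) (nat_lit 486) (nat_lit 291) (nat_lit 243)) (XT.lf (nat_lit 0) (nat_lit 29075532608) (nat_lit 152) (nat_lit 11390615998) (nat_lit 0) (nat_lit 24078949757) (nat_lit 7) (nat_lit 5) (nat_lit 9) (nat_lit 4) (nat_lit 7) (nat_lit 4) (nat_lit 487) (nat_lit 291) (nat_lit 242))) (XT.nd (nat_lit 78) (nat_lit 76) (nat_lit 0) (XT.lf (nat_lit 0) (nat_lit 35190139866) (nat_lit 152) (nat_lit 979176671) (nat_lit 0) (nat_lit 30148863609) (nat_lit 7) (nat_lit 5) (nat_lit 9) (nat_lit 4) (nat_lit 7) (nat_lit 4) (nat_lit 488) (nat_lit 291) (nat_lit 241)) (XT.lf (nat_lit 0) (nat_lit 9837442420) (nat_lit 76) (nat_lit 31695174038) (nat_lit 76) (nat_lit 26610506123) (nat_lit 6) (nat_lit 4) (nat_lit 7) (nat_lit 5) (nat_lit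 7) (nat_lit 4) (nat_lit 489) (nat_lit 291) (nat_lit 240))))))))
noncomputable def xc14 : XT := (XT.nd (nat_lit 50856) (nat_lit 0) (nat_lit 0) (XT.nd (nat_lit 49686) (nat_lit 0) (nat_lit 912) (XT.nd (nat_lit 49140) (nat_lit 0) (nat_lit 1672) (XT.nd (nat_lit 234) (nat_lit 0) (nat_lit 0) (XT.nd (nat_lit 78) (nat_lit 0) (nat_lit 0) (XT.lf (nat_lit 0) (nat_lit 20900476734) (nat_lit 76) (nat_lit 27125162617) (nat_lit 76) (nat_lit 21998366880) (nat_lit 6) (nat_lit 4) (nat_lit 7) (nat_lit 5) (nat_lit 7) (nat_lit 4) (nat_lit 490) (nat_lit 291) (nat_lit 239)) (XT.nd (nat_lit 78) (nat_lit 0) (nat_lit 0) (XT.lf (nat_lit 0) (nat_lit 32200105463) (nat_lit 76) (nat_lit 22465176825) (nat_lit 76) (nat_lit 17297480290) (nat_lit 6) (nat_lit 4) (nat_lit 7) (nat_lit 5) (nat_lit 7) (nat_lit 4) (nat_lit 491) (nat_lit 291) (nat_lit 238)) (XT.lf (nat_lit 0) (nat_lit 43746202068) (nat_lit 76) (nat_lit 17711144830) (nat_lit 76) (nat_lit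 12503738783) (nat_lit 6) (nat_lit 4) (nat_lit 7) (nat_lit 5) (nat_lit 7) (nat_lit 4) (nat_lit 492) (nat_lit 291) (nat_lit 237)))) (XT.nd (nat_lit 48750) (nat_lit 0) (nat_lit 2128) (XT.nd (nat_lit 48672) (nat_lit 0) (nat_lit 2280) (XT.lf (nat_lit 0) (nat_lit 55548855373) (nat_lit 76) (nat_lit 12858912624) (nat_lit 76) (nat_lit 7612953651) (nat_lit 6) (nat_lit 4) (nat_lit 7) (nat_lit 5) (nat_lit 7) (nat_lit 4) (nat_lit 493) (nat_lit 291) (nat_lit 236)) (XT.lf (nat_lit 0) (nat_lit 5612952176) (nat_lit 76) (nat_lit 2001720562) (nat_lit 76) (nat_lit 2001720562) (nat_lit 36) (nat_lit 4) (nat_lit 37) (nat_lit 5) (nat_lit 37) (nat_lit 4) (nat_lit 436) (nat_lit 292) (nat_lit 292))) (XT.nd (nat_lit 78) (nat_lit 0) (nat_lit 0) (XT.lf (nat_lit 0) (nat_lit 2393317716) (nat_lit 152) (nat_lit 15078643345) (nat_lit 0) (nat_lit 2137671295) (nat_lit 34) (nat_lit 5) (nat_lit 36) (nat_lit 4) (nat_lit 34) (nat_lit 4) (nat_lit 437)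 (nat_lit 292) (nat_lit 291)) (XT.lf (nat_lit 0) (nat_lit 8891009043) (nat_lit 152) (nat_lit 2718744723) (nat_lit 0) (nat_lit 8387162214) (nat_lit 34) (nat_lit 5) (nat_lit 36) (nat_lit 4) (nat_lit 34) (nat_lit 4) (nat_lit 438) (nat_lit 292) (nat_lit 290))))) (XT.nd (nat_lit 234) (nat_lit 228) (nat_lit 0) (XT.nd (nat_lit 78) (nat_lit 152) (nat_lit 0) (XT.lf (nat_lit 0) (nat_lit 9961243306) (nat_lit 76) (nat_lit 5590182677) (nat_lit 76) (nat_lit 4845364577) (nat_lit 33) (nat_lit 4) (nat_lit 34) (nat_lit 5) (nat_lit 34) (nat_lit 4) (nat_lit 439) (nat_lit 292) (nat_lit 289)) (XT.nd (nat_lit 78) (nat_lit 0) (nat_lit 0) (XT.lf (nat_lit 0) (nat_lit 1496665135) (nat_lit 152) (nat_lit 18767389138) (nat_lit 0) (nat_lit 546402233) (nat_lit 31) (nat_lit 5) (nat_lit 33) (nat_lit 4) (nat_lit 31) (nat_lit 4) (nat_lit 440) (nat_lit 292) (nat_lit 288)) (XT.lf (nat_lit 0) (nat_lit 7965785218) (nat_lit 152) (nat_lit 6473287792) (nat_lit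 0) (nat_lit 6794999468) (nat_lit 31) (nat_lit 5) (nat_lit 33) (nat_lit 4) (nat_lit 31) (nat_lit 4) (nat_lit 441) (nat_lit 292) (nat_lit 287)))) (XT.nd (nat_lit 156) (nat_lit 152) (nat_lit 0) (XT.nd (nat_lit 78) (nat_lit 0) (nat_lit 0) (XT.lf (nat_lit 0) (nat_lit 6069719423) (nat_lit 76) (nat_lit 8493766743) (nat_lit 76) (nat_lit 7108881141) (nat_lit 30) (nat_lit 4) (nat_lit 31) (nat_lit 5) (nat_lit 31) (nat_lit 4) (nat_lit 442) (nat_lit 292) (nat_lit 286)) (XT.lf (nat_lit 0) (nat_lit 18885690506) (nat_lit 76) (nat_lit 2416294715) (nat_lit 76) (nat_lit 823545178) (nat_lit 30) (nat_lit 4) (nat_lit 31) (nat_lit 5) (nat_lit 31) (nat_lit 4) (nat_lit 443) (nat_lit 292) (nat_lit 285))) (XT.nd (nat_lit 78) (nat_lit 0) (nat_lit 0) (XT.lf (nat_lit 0) (nat_lit 5547557982) (nat_lit 152) (nat_lit 13237614594) (nat_lit 0) (nat_lit 3805267513) (nat_lit 28) (nat_lit 5) (nat_lit 30) (nat_lit 4) (nat_lit 28) (nat_lit 4) (nat_lit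 444) (nat_lit 292) (nat_lit 284)) (XT.lf (nat_lit 0) (nat_lit 12030323115) (nat_lit 152) (nat_lit 942814166) (nat_lit 0) (nat_lit 10097807701) (nat_lit 28) (nat_lit 5) (nat_lit 30) (nat_lit 4) (nat_lit 28) (nat_lit 4) (nat_lit 445) (nat_lit 292) (nat_lit 283)))))) (XT.nd (nat_lit 546) (nat_lit 304) (nat_lit 0) (XT.nd (nat_lit 234) (nat_lit 228) (nat_lit 0) (XT.nd (nat_lit 78) (nat_lit 152) (nat_lit 0) (XT.lf (nat_lit 0) (nat_lit 11724588723) (nat_lit 76) (nat_lit 6979295777) (nat_lit 76) (nat_lit 4862095949) (nat_lit 27) (nat_lit 4) (nat_lit 28) (nat_lit 5) (nat_lit 28) (nat_lit 4) (nat_lit 446) (nat_lit 292) (nat_lit 282)) (XT.nd (nat_lit 78) (nat_lit 0) (nat_lit 0) (XT.lf (nat_lit 0) (nat_lit 485560577) (nat_lit 76) (nat_lit 884915117) (nat_lit 152) (nat_lit 22708022895) (nat_lit 25) (nat_lit 5) (nat_lit 26) (nat_lit 5) (nat_lit 27) (nat_lit 4) (nat_lit 447) (nat_lit 292) (nat_lit 281)) (XT.lf (nat_lit 0) (nat_lit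 7748813710) (nat_lit 152) (nat_lit 11504258695) (nat_lit 0) (nat_lit 5350184723) (nat_lit 25) (nat_lit 5) (nat_lit 27) (nat_lit 4) (nat_lit 25) (nat_lit 4) (nat_lit 448) (nat_lit 292) (nat_lit 280)))) (XT.nd (nat_lit 156) (nat_lit 152) (nat_lit 0) (XT.nd (nat_lit 78) (nat_lit 0) (nat_lit 0) (XT.lf (nat_lit 0) (nat_lit 733848714) (nat_lit 76) (nat_lit 13487769598) (nat_lit 76) (nat_lit 10925050902) (nat_lit 24) (nat_lit 4) (nat_lit 25) (nat_lit 5) (nat_lit 25) (nat_lit 4) (nat_lit 449) (nat_lit 292) (nat_lit 279)) (XT.lf (nat_lit 0) (nat_lit 13358279595) (nat_lit 76) (nat_lit 7534998595) (nat_lit 76) (nat_lit 4812969501) (nat_lit 24) (nat_lit 4) (nat_lit 25) (nat_lit 5) (nat_lit 25) (nat_lit 4) (nat_lit 450) (nat_lit 292) (nat_lit 278))) (XT.nd (nat_lit 78) (nat_lit 76) (nat_lit 0) (XT.lf (nat_lit 0) (nat_lit 1344218398) (nat_lit 152) (nat_lit 147936033) (nat_lit 76) (nat_lit 24793315329) (nat_lit 23) (nat_lit 5)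 (nat_lit 25) (nat_lit 5) (nat_lit 24) (nat_lit 4) (nat_lit 451) (nat_lit 292) (nat_lit 277)) (XT.lf (nat_lit 0) (nat_lit 7648675035) (nat_lit 152) (nat_lit 14520217568) (nat_lit 0) (nat_lit 4709971431) (nat_lit 22) (nat_lit 5) (nat_lit 24) (nat_lit 4) (nat_lit 22) (nat_lit 4) (nat_lit 452) (nat_lit 292) (nat_lit 276))))) (XT.nd (nat_lit 312) (nat_lit 76) (nat_lit 0) (XT.nd (nat_lit 156) (nat_lit 152) (nat_lit 0) (XT.nd (nat_lit 78) (nat_lit 76) (nat_lit 0) (XT.lf (nat_lit 0) (nat_lit 14052577856) (nat_lit 152) (nat_lit 2467847575) (nat_lit 0) (nat_lit 10972329028) (nat_lit 22) (nat_lit 5) (nat_lit 24) (nat_lit 4) (nat_lit 22) (nat_lit 4) (nat_lit 453) (nat_lit 292) (nat_lit 275)) (XT.lf (nat_lit 0) (nat_lit 9939562172) (nat_lit 76) (nat_lit 10701697271) (nat_lit 76) (nat_lit 7484025894) (nat_lit 21) (nat_lit 4) (nat_lit 22) (nat_lit 5) (nat_lit 22) (nat_lit 4) (nat_lit 454) (nat_lit 292) (nat_lit 274))) (XT.nd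 (nat_lit 78) (nat_lit 152) (nat_lit 0) (XT.lf (nat_lit 0) (nat_lit 22571260234) (nat_lit 76) (nat_lit 4779466481) (nat_lit 76) (nat_lit 1428375154) (nat_lit 21) (nat_lit 4) (nat_lit 22) (nat_lit 5) (nat_lit 22) (nat_lit 4) (nat_lit 455) (nat_lit 292) (nat_lit 273)) (XT.lf (nat_lit 0) (nat_lit 4685832414) (nat_lit 152) (nat_lit 23459610570) (nat_lit 0) (nat_lit 1306584590) (nat_lit 19) (nat_lit 5) (nat_lit 21) (nat_lit 4) (nat_lit 19) (nat_lit 4) (nat_lit 456) (nat_lit 292) (nat_lit 272)))) (XT.nd (nat_lit 156) (nat_lit 0) (nat_lit 0) (XT.nd (nat_lit 78) (nat_lit 76) (nat_lit 0) (XT.lf (nat_lit 0) (nat_lit 10965723766) (nat_lit 152) (nat_lit 11714289421) (nat_lit 0) (nat_lit 7464377788) (nat_lit 19) (nat_lit 5) (nat_lit 21) (nat_lit 4) (nat_lit 19) (nat_lit 4) (nat_lit 457) (nat_lit 292) (nat_lit 271)) (XT.lf (nat_lit 0) (nat_lit 198049604) (nat_lit 76) (nat_lit 17141106165) (nat_lit 76) (nat_lit 13521218290) (nat_lit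 18) (nat_lit 4) (nat_lit 19) (nat_lit 5) (nat_lit 19) (nat_lit 4) (nat_lit 458) (nat_lit 292) (nat_lit 270))) (XT.nd (nat_lit 78) (nat_lit 0) (nat_lit 0) (XT.lf (nat_lit 0) (nat_lit 12520538794) (nat_lit 76) (nat_lit 11405800740) (nat_lit 76) (nat_lit 7670823644) (nat_lit 18) (nat_lit 4) (nat_lit 19) (nat_lit 5) (nat_lit 19) (nat_lit 4) (nat_lit 459) (nat_lit 292) (nat_lit 269)) (XT.lf (nat_lit 0) (nat_lit 25030808045) (nat_lit 76) (nat_lit 5587376833) (nat_lit 76) (nat_lit 1740662630) (nat_lit 18) (nat_lit 4) (nat_lit 19) (nat_lit 5) (nat_lit 19) (nat_lit 4) (nat_lit 460) (nat_lit 292) (nat_lit 268))))))) (XT.nd (nat_lit 1092) (nat_lit 304) (nat_lit 0) (XT.nd (nat_lit 546) (nat_lit 228) (nat_lit 0) (XT.nd (nat_lit 234) (nat_lit 228) (nat_lit 0) (XT.nd (nat_lit 78) (nat_lit 0) (nat_lit 0) (XT.lf (nat_lit 0) (nat_lit 4239587562) (nat_lit 152) (nat_lit 28504225212) (nat_lit 0) (nat_lit 399590637) (nat_lit 16) (nat_lit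 5) (nat_lit 18) (nat_lit 4) (nat_lit 16) (nat_lit 4) (nat_lit 461) (nat_lit 292) (nat_lit 267)) (XT.nd (nat_lit 78) (nat_lit 0) (nat_lit 0) (XT.lf (nat_lit 0) (nat_lit 10403294035) (nat_lit 152) (nat_lit 17085474740) (nat_lit 0) (nat_lit 6461041828) (nat_lit 16) (nat_lit 5) (nat_lit 18) (nat_lit 4) (nat_lit 16) (nat_lit 4) (nat_lit 462) (nat_lit 292) (nat_lit 266)) (XT.lf (nat_lit 0) (nat_lit 16663545019) (nat_lit 152) (nat_lit 5497502747) (nat_lit 0) (nat_lit 12622015840) (nat_lit 16) (nat_lit 5) (nat_lit 18) (nat_lit 4) (nat_lit 16) (nat_lit 4) (nat_lit 463) (nat_lit 292) (nat_lit 265)))) (XT.nd (nat_lit 156) (nat_lit 152) (nat_lit 0) (XT.nd (nat_lit 78) (nat_lit 0) (nat_lit 0) (XT.lf (nat_lit 0) (nat_lit 6394597815) (nat_lit 76) (nat_lit 16692681607) (nat_lit 76) (nat_lit 12554767017) (nat_lit 15) (nat_lit 4) (nat_lit 16) (nat_lit 5) (nat_lit 16) (nat_lit 4) (nat_lit 464) (nat_lit 292) (nat_lit 264)) (XT.lf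 (nat_lit 0) (nat_lit 18589512510) (nat_lit 76) (nat_lit 11084831405) (nat_lit 76) (nat_lit 6853338747) (nat_lit 15) (nat_lit 4) (nat_lit 16) (nat_lit 5) (nat_lit 16) (nat_lit 4) (nat_lit 465) (nat_lit 292) (nat_lit 263))) (XT.nd (nat_lit 78) (nat_lit 152) (nat_lit 0) (XT.lf (nat_lit 0) (nat_lit 30988486002) (nat_lit 76) (nat_lit 5388111095) (nat_lit 76) (nat_lit 1065765944) (nat_lit 15) (nat_lit 4) (nat_lit 16) (nat_lit 5) (nat_lit 16) (nat_lit 4) (nat_lit 466) (nat_lit 292) (nat_lit 262)) (XT.lf (nat_lit 0) (nat_lit 4774596298) (nat_lit 152) (nat_lit 33116729834) (nat_lit 0) (nat_lit 492507506) (nat_lit 13) (nat_lit 5) (nat_lit 15) (nat_lit 4) (nat_lit 13) (nat_lit 4) (nat_lit 467) (nat_lit 292) (nat_lit 261))))) (XT.nd (nat_lit 234) (nat_lit 152) (nat_lit 0) (XT.nd (nat_lit 78) (nat_lit 76) (nat_lit 0) (XT.lf (nat_lit 0) (nat_lit 10807197608) (nat_lit 152) (nat_lit 22102916968) (nat_lit 0) (nat_lit 6441965914)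 (nat_lit 13) (nat_lit 5) (nat_lit 15) (nat_lit 4) (nat_lit 13) (nat_lit 4) (nat_lit 468) (nat_lit 292) (nat_lit 260)) (XT.nd (nat_lit 78) (nat_lit 76) (nat_lit 0) (XT.lf (nat_lit 0) (nat_lit 16942412529) (nat_lit 152) (nat_lit 10912855688) (nat_lit 0) (nat_lit 12496459572) (nat_lit 13) (nat_lit 5) (nat_lit 15) (nat_lit 4) (nat_lit 13) (nat_lit 4) (nat_lit 469) (nat_lit 292) (nat_lit 259)) (XT.lf (nat_lit 0) (nat_lit 472450949) (nat_lit 76) (nat_lit 22717692469) (nat_lit 76) (nat_lit 18193369352) (nat_lit 12) (nat_lit 4) (nat_lit 13) (nat_lit 5) (nat_lit 13) (nat_lit 4) (nat_lit 470) (nat_lit 292) (nat_lit 258)))) (XT.nd (nat_lit 156) (nat_lit 152) (nat_lit 0) (XT.nd (nat_lit 78) (nat_lit 0) (nat_lit 0) (XT.lf (nat_lit 0) (nat_lit 12274811337) (nat_lit 76) (nat_lit 17385402683) (nat_lit 76) (nat_lit 12784992033) (nat_lit 12) (nat_lit 4) (nat_lit 13) (nat_lit 5) (nat_lit 13) (nat_lit 4) (nat_lit 471) (nat_lit 292)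 (nat_lit 257)) (XT.lf (nat_lit 0) (nat_lit 24287350991) (nat_lit 76) (nat_lit 11963938024) (nat_lit 76) (nat_lit 7289655982) (nat_lit 12) (nat_lit 4) (nat_lit 13) (nat_lit 5) (nat_lit 13) (nat_lit 4) (nat_lit 472) (nat_lit 292) (nat_lit 256))) (XT.nd (nat_lit 78) (nat_lit 152) (nat_lit 0) (XT.lf (nat_lit 0) (nat_lit 36520566306) (nat_lit 76) (nat_lit 6448561288) (nat_lit 76) (nat_lit 1702559450) (nat_lit 12) (nat_lit 4) (nat_lit 13) (nat_lit 5) (nat_lit 13) (nat_lit 4) (nat_lit 473) (nat_lit 292) (nat_lit 255)) (XT.lf (nat_lit 0) (nat_lit 3170321128) (nat_lit 76) (nat_lit 763646279) (nat_lit 152) (nat_lit 41902390474) (nat_lit 10) (nat_lit 5) (nat_lit 11) (nat_lit 5) (nat_lit 12) (nat_lit 4) (nat_lit 474) (nat_lit 292) (nat_lit 254)))))) (XT.nd (nat_lit 546) (nat_lit 228) (nat_lit 0) (XT.nd (nat_lit 234) (nat_lit 76) (nat_lit 0) (XT.nd (nat_lit 78) (nat_lit 0) (nat_lit 0) (XT.lf (nat_lit 0) (nat_lit 9767935998)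 (nat_lit 152) (nat_lit 32238721219) (nat_lit 0) (nat_lit 5026930660) (nat_lit 10) (nat_lit 5) (nat_lit 12) (nat_lit 4) (nat_lit 10) (nat_lit 4) (nat_lit 475) (nat_lit 292) (nat_lit 253)) (XT.nd (nat_lit 78) (nat_lit 0) (nat_lit 0) (XT.lf (nat_lit 0) (nat_lit 15717003668) (nat_lit 152) (nat_lit 21639254151) (nat_lit 0) (nat_lit 10912276219) (nat_lit 10) (nat_lit 5) (nat_lit 12) (nat_lit 4) (nat_lit 10) (nat_lit 4) (nat_lit 476) (nat_lit 292) (nat_lit 252)) (XT.lf (nat_lit 0) (nat_lit 21779027996) (nat_lit 152) (nat_lit 10851033244) (nat_lit 0) (nat_lit 16912434420) (nat_lit 10) (nat_lit 5) (nat_lit 12) (nat_lit 4) (nat_lit 10) (nat_lit 4) (nat_lit 477) (nat_lit 292) (nat_lit 251)))) (XT.nd (nat_lit 156) (nat_lit 0) (nat_lit 0) (XT.nd (nat_lit 78) (nat_lit 0) (nat_lit 0) (XT.lf (nat_lit 0) (nat_lit 138062193) (nat_lit 76) (nat_lit 27822570843) (nat_lit 76) (nat_lit 22895913066) (nat_lit 9) (nat_lit 4) (nat_lit 10)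 (nat_lit 5) (nat_lit 10) (nat_lit 4) (nat_lit 478) (nat_lit 292) (nat_lit 250)) (XT.lf (nat_lit 0) (nat_lit 11555029910) (nat_lit 76) (nat_lit 22819281721) (nat_lit 76) (nat_lit 17834309185) (nat_lit 9) (nat_lit 4) (nat_lit 10) (nat_lit 5) (nat_lit 10) (nat_lit 4) (nat_lit 479) (nat_lit 292) (nat_lit 249))) (XT.nd (nat_lit 78) (nat_lit 0) (nat_lit 0) (XT.lf (nat_lit 0) (nat_lit 23193889061) (nat_lit 76) (nat_lit 17725396229) (nat_lit 76) (nat_lit 12683807423) (nat_lit 9) (nat_lit 4) (nat_lit 10) (nat_lit 5) (nat_lit 10) (nat_lit 4) (nat_lit 480) (nat_lit 292) (nat_lit 248)) (XT.lf (nat_lit 0) (nat_lit 35064809520) (nat_lit 76) (nat_lit 12536463398) (nat_lit 76) (nat_lit 7439907339) (nat_lit 9) (nat_lit 4) (nat_lit 10) (nat_lit 5) (nat_lit 10) (nat_lit 4) (nat_lit 481) (nat_lit 292) (nat_lit 247))))) (XT.nd (nat_lit 312) (nat_lit 76) (nat_lit 0) (XT.nd (nat_lit 156) (nat_lit 0) (nat_lit 0) (XT.nd (nat_lit 78) (nat_lit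 152) (nat_lit 0) (XT.lf (nat_lit 0) (nat_lit 47178163939) (nat_lit 76) (nat_lit 7247949210) (nat_lit 76) (nat_lit 2098026886) (nat_lit 9) (nat_lit 4) (nat_lit 10) (nat_lit 5) (nat_lit 10) (nat_lit 4) (nat_lit 482) (nat_lit 292) (nat_lit 246)) (XT.lf (nat_lit 0) (nat_lit 1488139303) (nat_lit 76) (nat_lit 1807364900) (nat_lit 152) (nat_lit 54756369424) (nat_lit 7) (nat_lit 5) (nat_lit 8) (nat_lit 5) (nat_lit 9) (nat_lit 4) (nat_lit 483) (nat_lit 292) (nat_lit 245))) (XT.nd (nat_lit 78) (nat_lit 0) (nat_lit 0) (XT.lf (nat_lit 0) (nat_lit 8884052632) (nat_lit 152) (nat_lit 46953515773) (nat_lit 0) (nat_lit 3784987531) (nat_lit 7) (nat_lit 5) (nat_lit 9) (nat_lit 4) (nat_lit 7) (nat_lit 4) (nat_lit 484) (nat_lit 292) (nat_lit 244)) (XT.lf (nat_lit 0) (nat_lit 14603371191) (nat_lit 152) (nat_lit 37181204500) (nat_lit 0) (nat_lit 9456890855) (nat_lit 7) (nat_lit 5) (nat_lit 9) (nat_lit 4) (nat_lit 7) (nat_lit 4) (nat_lit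 485) (nat_lit 292) (nat_lit 243)))) (XT.nd (nat_lit 156) (nat_lit 76) (nat_lit 0) (XT.nd (nat_lit 78) (nat_lit 0) (nat_lit 0) (XT.lf (nat_lit 0) (nat_lit 20441083845) (nat_lit 152) (nat_lit 27220888093) (nat_lit 0) (nat_lit 15248569300) (nat_lit 7) (nat_lit 5) (nat_lit 9) (nat_lit 4) (nat_lit 7) (nat_lit 4) (nat_lit 486) (nat_lit 292) (nat_lit 242)) (XT.lf (nat_lit 0) (nat_lit 26402291509) (nat_lit 152) (nat_lit 17063863364) (nat_lit 0) (nat_lit 21165083557) (nat_lit 7) (nat_lit 5) (nat_lit 9) (nat_lit 4) (nat_lit 7) (nat_lit 4) (nat_lit 487) (nat_lit 292) (nat_lit 241))) (XT.nd (nat_lit 78) (nat_lit 76) (nat_lit 0) (XT.lf (nat_lit 0) (nat_lit 32492203004) (nat_lit 152) (nat_lit 6701255243) (nat_lit 0) (nat_lit 27211603396) (nat_lit 7) (nat_lit 5) (nat_lit 9) (nat_lit 4) (nat_lit 7) (nat_lit 4) (nat_lit 488) (nat_lit 292) (nat_lit 240)) (XT.lf (nat_lit 0) (nat_lit 3953130795) (nat_lit 76) (nat_lit 34801008730)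 (nat_lit 76) (nat_lit 29478281299) (nat_lit 6) (nat_lit 4) (nat_lit 7) (nat_lit 5) (nat_lit 7) (nat_lit 4) (nat_lit 489) (nat_lit 292) (nat_lit 239))))))))
noncomputable def xc15 : XT := (XT.nd (nat_lit 50700) (nat_lit 0) (nat_lit 76) (XT.nd (nat_lit 49530) (nat_lit 0) (nat_lit 988) (XT.nd (nat_lit 48984) (nat_lit 0) (nat_lit 1824) (XT.nd (nat_lit 234) (nat_lit 0) (nat_lit 0) (XT.nd (nat_lit 78) (nat_lit 0) (nat_lit 0) (XT.lf (nat_lit 0) (nat_lit 14969220964) (nat_lit 76) (nat_lit 30254212073) (nat_lit 76) (nat_lit 24890583844) (nat_lit 6) (nat_lit 4) (nat_lit 7) (nat_lit 5) (nat_lit 7) (nat_lit 4) (nat_lit 490) (nat_lit 292) (nat_lit 238)) (XT.nd (nat_lit 78) (nat_lit 0) (nat_lit 0) (XT.lf (nat_lit 0) (nat_lit 26223272852) (nat_lit 76) (nat_lit 25616764888) (nat_lit 76) (nat_lit 20213427146) (nat_lit 6) (nat_lit 4) (nat_lit 7) (nat_lit 5) (nat_lit 7) (nat_lit 4) (nat_lit 491) (nat_lit 292) (nat_lit 237)) (XT.lf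 (nat_lit 0) (nat_lit 37725120099) (nat_lit 76) (nat_lit 20884615035) (nat_lit 76) (nat_lit 15442724368) (nat_lit 6) (nat_lit 4) (nat_lit 7) (nat_lit 5) (nat_lit 7) (nat_lit 4) (nat_lit 492) (nat_lit 292) (nat_lit 236)))) (XT.nd (nat_lit 48594) (nat_lit 0) (nat_lit 2280) (XT.nd (nat_lit 48516) (nat_lit 0) (nat_lit 2356) (XT.lf (nat_lit 0) (nat_lit 49484812860) (nat_lit 76) (nat_lit 16053627627) (nat_lit 76) (nat_lit 10574306936) (nat_lit 6) (nat_lit 4) (nat_lit 7) (nat_lit 5) (nat_lit 7) (nat_lit 4) (nat_lit 493) (nat_lit 292) (nat_lit 235)) (XT.lf (nat_lit 0) (nat_lit 1194766724) (nat_lit 152) (nat_lit 6866514973) (nat_lit 0) (nat_lit 1194766724) (nat_lit 37) (nat_lit 5) (nat_lit 39) (nat_lit 4) (nat_lit 37) (nat_lit 4) (nat_lit 434) (nat_lit 293) (nat_lit 293))) (XT.nd (nat_lit 78) (nat_lit 76) (nat_lit 0) (XT.lf (nat_lit 0) (nat_lit 8827103116) (nat_lit 152) (nat_lit 1484755701) (nat_lit 0) (nat_lit 8555887828)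 (nat_lit 37) (nat_lit 5) (nat_lit 39) (nat_lit 4) (nat_lit 37) (nat_lit 4) (nat_lit 435) (nat_lit 293) (nat_lit 292)) (XT.lf (nat_lit 0) (nat_lit 11103000971) (nat_lit 76) (nat_lit 4333126559) (nat_lit 76) (nat_lit 3798595458) (nat_lit 36) (nat_lit 4) (nat_lit 37) (nat_lit 5) (nat_lit 37) (nat_lit 4) (nat_lit 436) (nat_lit 293) (nat_lit 291))))) (XT.nd (nat_lit 234) (nat_lit 228) (nat_lit 0) (XT.nd (nat_lit 78) (nat_lit 76) (nat_lit 0) (XT.lf (nat_lit 0) (nat_lit 2524836077) (nat_lit 152) (nat_lit 15331083252) (nat_lit 0) (nat_lit 1757673435) (nat_lit 34) (nat_lit 5) (nat_lit 36) (nat_lit 4) (nat_lit 34) (nat_lit 4) (nat_lit 437) (nat_lit 293) (nat_lit 290)) (XT.nd (nat_lit 78) (nat_lit 76) (nat_lit 0) (XT.lf (nat_lit 0) (nat_lit 8959493566) (nat_lit 152) (nat_lit 3091917284) (nat_lit 0) (nat_lit 7951359654) (nat_lit 34) (nat_lit 5) (nat_lit 36) (nat_lit 4) (nat_lit 34) (nat_lit 4) (nat_lit 438) (nat_lit 293) (nat_lit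 289)) (XT.lf (nat_lit 0) (nat_lit 9461094878) (nat_lit 76) (nat_lit 6092809994) (nat_lit 76) (nat_lit 4850723392) (nat_lit 33) (nat_lit 4) (nat_lit 34) (nat_lit 5) (nat_lit 34) (nat_lit 4) (nat_lit 439) (nat_lit 293) (nat_lit 288)))) (XT.nd (nat_lit 156) (nat_lit 76) (nat_lit 0) (XT.nd (nat_lit 78) (nat_lit 0) (nat_lit 0) (XT.lf (nat_lit 0) (nat_lit 1410920711) (nat_lit 76) (nat_lit 7870346) (nat_lit 152) (nat_lit 19401686132) (nat_lit 31) (nat_lit 5) (nat_lit 32) (nat_lit 5) (nat_lit 33) (nat_lit 4) (nat_lit 440) (nat_lit 293) (nat_lit 287)) (XT.lf (nat_lit 0) (nat_lit 7826831253) (nat_lit 152) (nat_lit 7232797832) (nat_lit 0) (nat_lit 6186299230) (nat_lit 31) (nat_lit 5) (nat_lit 33) (nat_lit 4) (nat_lit 31) (nat_lit 4) (nat_lit 441) (nat_lit 293) (nat_lit 286))) (XT.nd (nat_lit 78) (nat_lit 0) (nat_lit 0) (XT.lf (nat_lit 0) (nat_lit 5178826451) (nat_lit 76) (nat_lit 9177914531) (nat_lit 76) (nat_lit 7329518573)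 (nat_lit 30) (nat_lit 4) (nat_lit 31) (nat_lit 5) (nat_lit 31) (nat_lit 4) (nat_lit 442) (nat_lit 293) (nat_lit 285)) (XT.lf (nat_lit 0) (nat_lit 17881916764) (nat_lit 76) (nat_lit 3154735852) (nat_lit 76) (nat_lit 1104530249) (nat_lit 30) (nat_lit 4) (nat_lit 31) (nat_lit 5) (nat_lit 31) (nat_lit 4) (nat_lit 443) (nat_lit 293) (nat_lit 284)))))) (XT.nd (nat_lit 546) (nat_lit 380) (nat_lit 0) (XT.nd (nat_lit 234) (nat_lit 228) (nat_lit 0) (XT.nd (nat_lit 78) (nat_lit 76) (nat_lit 0) (XT.lf (nat_lit 0) (nat_lit 5195808924) (nat_lit 152) (nat_lit 14397561419) (nat_lit 0) (nat_lit 3015093101) (nat_lit 28) (nat_lit 5) (nat_lit 30) (nat_lit 4) (nat_lit 28) (nat_lit 4) (nat_lit 444) (nat_lit 293) (nat_lit 283)) (XT.nd (nat_lit 78) (nat_lit 76) (nat_lit 0) (XT.lf (nat_lit 0) (nat_lit 11621238776) (nat_lit 152) (nat_lit 2213613458) (nat_lit 0) (nat_lit 9255838540) (nat_lit 28) (nat_lit 5) (nat_lit 30) (nat_lit 4) (nat_lit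 28) (nat_lit 4) (nat_lit 445) (nat_lit 293) (nat_lit 282)) (XT.lf (nat_lit 0) (nat_lit 10318732357) (nat_lit 76) (nat_lit 7906888531) (nat_lit 76) (nat_lit 5362183039) (nat_lit 27) (nat_lit 4) (nat_lit 28) (nat_lit 5) (nat_lit 28) (nat_lit 4) (nat_lit 446) (nat_lit 293) (nat_lit 281)))) (XT.nd (nat_lit 156) (nat_lit 76) (nat_lit 0) (XT.nd (nat_lit 78) (nat_lit 76) (nat_lit 0) (XT.lf (nat_lit 0) (nat_lit 819863767) (nat_lit 152) (nat_lit 1054464816) (nat_lit 76) (nat_lit 22227948373) (nat_lit 26) (nat_lit 5) (nat_lit 28) (nat_lit 5) (nat_lit 27) (nat_lit 4) (nat_lit 447) (nat_lit 293) (nat_lit 280)) (XT.lf (nat_lit 0) (nat_lit 7122733797) (nat_lit 152) (nat_lit 13187524018) (nat_lit 0) (nat_lit 4319043830) (nat_lit 25) (nat_lit 5) (nat_lit 27) (nat_lit 4) (nat_lit 25) (nat_lit 4) (nat_lit 448) (nat_lit 293) (nat_lit 279))) (XT.nd (nat_lit 78) (nat_lit 76) (nat_lit 0) (XT.lf (nat_lit 0) (nat_lit 13534584302) (nat_lit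 152) (nat_lit 1068376166) (nat_lit 0) (nat_lit 10571583938) (nat_lit 25) (nat_lit 5) (nat_lit 27) (nat_lit 4) (nat_lit 25) (nat_lit 4) (nat_lit 449) (nat_lit 293) (nat_lit 278)) (XT.lf (nat_lit 0) (nat_lit 11431178286) (nat_lit 76) (nat_lit 8711265625) (nat_lit 76) (nat_lit 5593594972) (nat_lit 24) (nat_lit 4) (nat_lit 25) (nat_lit 5) (nat_lit 25) (nat_lit 4) (nat_lit 450) (nat_lit 293) (nat_lit 277))))) (XT.nd (nat_lit 312) (nat_lit 152) (nat_lit 0) (XT.nd (nat_lit 156) (nat_lit 76) (nat_lit 0) (XT.nd (nat_lit 78) (nat_lit 76) (nat_lit 0) (XT.lf (nat_lit 0) (nat_lit 526538437) (nat_lit 152) (nat_lit 2198962953) (nat_lit 76) (nat_lit 23591555171) (nat_lit 23) (nat_lit 5) (nat_lit 25) (nat_lit 5) (nat_lit 24) (nat_lit 4) (nat_lit 451) (nat_lit 293) (nat_lit 276)) (XT.lf (nat_lit 0) (nat_lit 6746630233) (nat_lit 152) (nat_lit 16733924654) (nat_lit 0) (nat_lit 3432428715) (nat_lit 22) (nat_lit 5) (nat_lit 24) (nat_lit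 4) (nat_lit 22) (nat_lit 4) (nat_lit 452) (nat_lit 293) (nat_lit 275))) (XT.nd (nat_lit 78) (nat_lit 76) (nat_lit 0) (XT.lf (nat_lit 0) (nat_lit 13099851541) (nat_lit 152) (nat_lit 4780317225) (nat_lit 0) (nat_lit 9648227475) (nat_lit 22) (nat_lit 5) (nat_lit 24) (nat_lit 4) (nat_lit 22) (nat_lit 4) (nat_lit 453) (nat_lit 293) (nat_lit 274)) (XT.lf (nat_lit 0) (nat_lit 7483275540) (nat_lit 76) (nat_lit 12132440907) (nat_lit 76) (nat_lit 8547396891) (nat_lit 21) (nat_lit 4) (nat_lit 22) (nat_lit 5) (nat_lit 22) (nat_lit 4) (nat_lit 454) (nat_lit 293) (nat_lit 273)))) (XT.nd (nat_lit 156) (nat_lit 0) (nat_lit 0) (XT.nd (nat_lit 78) (nat_lit 152) (nat_lit 0) (XT.lf (nat_lit 0) (nat_lit 20020027677) (nat_lit 76) (nat_lit 6256471177) (nat_lit 76) (nat_lit 2541893229) (nat_lit 21) (nat_lit 4) (nat_lit 22) (nat_lit 5) (nat_lit 22) (nat_lit 4) (nat_lit 455) (nat_lit 293) (nat_lit 272)) (XT.lf (nat_lit 0) (nat_lit 3279462896)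 (nat_lit 76) (nat_lit 227828701) (nat_lit 152) (nat_lit 25986951421) (nat_lit 19) (nat_lit 5) (nat_lit 20) (nat_lit 5) (nat_lit 21) (nat_lit 4) (nat_lit 456) (nat_lit 293) (nat_lit 271))) (XT.nd (nat_lit 78) (nat_lit 0) (nat_lit 0) (XT.lf (nat_lit 0) (nat_lit 9737327963) (nat_lit 152) (nat_lit 14560474077) (nat_lit 0) (nat_lit 5890301554) (nat_lit 19) (nat_lit 5) (nat_lit 21) (nat_lit 4) (nat_lit 19) (nat_lit 4) (nat_lit 457) (nat_lit 293) (nat_lit 270)) (XT.lf (nat_lit 0) (nat_lit 16062579535) (nat_lit 152) (nat_lit 2742490133) (nat_lit 0) (nat_lit 12100463905) (nat_lit 19) (nat_lit 5) (nat_lit 21) (nat_lit 4) (nat_lit 19) (nat_lit 4) (nat_lit 458) (nat_lit 293) (nat_lit 269))))))) (XT.nd (nat_lit 1092) (nat_lit 380) (nat_lit 0) (XT.nd (nat_lit 546) (nat_lit 228) (nat_lit 0) (XT.nd (nat_lit 234) (nat_lit 76) (nat_lit 0) (XT.nd (nat_lit 78) (nat_lit 152) (nat_lit 0) (XT.lf (nat_lit 0) (nat_lit 9435814867) (nat_lit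 76) (nat_lit 13141271159) (nat_lit 76) (nat_lit 9067418422) (nat_lit 18) (nat_lit 4) (nat_lit 19) (nat_lit 5) (nat_lit 19) (nat_lit 4) (nat_lit 459) (nat_lit 293) (nat_lit 268)) (XT.nd (nat_lit 78) (nat_lit 152) (nat_lit 0) (XT.lf (nat_lit 0) (nat_lit 21859090662) (nat_lit 76) (nat_lit 7365384285) (nat_lit 76) (nat_lit 3183048919) (nat_lit 18) (nat_lit 4) (nat_lit 19) (nat_lit 5) (nat_lit 19) (nat_lit 4) (nat_lit 460) (nat_lit 293) (nat_lit 267)) (XT.lf (nat_lit 0) (nat_lit 1285841715) (nat_lit 76) (nat_lit 1459724797) (nat_lit 152) (nat_lit 30449323953) (nat_lit 16) (nat_lit 5) (nat_lit 17) (nat_lit 5) (nat_lit 18) (nat_lit 4) (nat_lit 461) (nat_lit 293) (nat_lit 266)))) (XT.nd (nat_lit 156) (nat_lit 76) (nat_lit 0) (XT.nd (nat_lit 78) (nat_lit 0) (nat_lit 0) (XT.lf (nat_lit 0) (nat_lit 8851710832) (nat_lit 152) (nat_lit 20561656163) (nat_lit 0) (nat_lit 4589658805) (nat_lit 16) (nat_lit 5) (nat_lit 18) (nat_lit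 4) (nat_lit 16) (nat_lit 4) (nat_lit 462) (nat_lit 293) (nat_lit 265)) (XT.lf (nat_lit 0) (nat_lit 15069699306) (nat_lit 152) (nat_lit 9056586744) (nat_lit 0) (nat_lit 10711261868) (nat_lit 16) (nat_lit 5) (nat_lit 18) (nat_lit 4) (nat_lit 16) (nat_lit 4) (nat_lit 463) (nat_lit 293) (nat_lit 264))) (XT.nd (nat_lit 78) (nat_lit 0) (nat_lit 0) (XT.lf (nat_lit 0) (nat_lit 2682591264) (nat_lit 76) (nat_lit 18734128804) (nat_lit 76) (nat_lit 14282113298) (nat_lit 15) (nat_lit 4) (nat_lit 16) (nat_lit 5) (nat_lit 16) (nat_lit 4) (nat_lit 464) (nat_lit 293) (nat_lit 263)) (XT.lf (nat_lit 0) (nat_lit 14797807119) (nat_lit 76) (nat_lit 13165374858) (nat_lit 76) (nat_lit 8622506858) (nat_lit 15) (nat_lit 4) (nat_lit 16) (nat_lit 5) (nat_lit 16) (nat_lit 4) (nat_lit 465) (nat_lit 293) (nat_lit 262))))) (XT.nd (nat_lit 234) (nat_lit 76) (nat_lit 0) (XT.nd (nat_lit 78) (nat_lit 152) (nat_lit 0) (XT.lf (nat_lit 0) (nat_lit 27119403097)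 (nat_lit 76) (nat_lit 7506612078) (nat_lit 76) (nat_lit 2875537773) (nat_lit 15) (nat_lit 4) (nat_lit 16) (nat_lit 5) (nat_lit 16) (nat_lit 4) (nat_lit 466) (nat_lit 293) (nat_lit 261)) (XT.nd (nat_lit 78) (nat_lit 0) (nat_lit 0) (XT.lf (nat_lit 0) (nat_lit 1205962323) (nat_lit 76) (nat_lit 1711610985) (nat_lit 152) (nat_lit 35528450197) (nat_lit 13) (nat_lit 5) (nat_lit 14) (nat_lit 5) (nat_lit 15) (nat_lit 4) (nat_lit 467) (nat_lit 293) (nat_lit 260)) (XT.lf (nat_lit 0) (nat_lit 8895118400) (nat_lit 152) (nat_lit 26285739093) (nat_lit 0) (nat_lit 4235065589) (nat_lit 13) (nat_lit 5) (nat_lit 15) (nat_lit 4) (nat_lit 13) (nat_lit 4) (nat_lit 468) (nat_lit 293) (nat_lit 259)))) (XT.nd (nat_lit 156) (nat_lit 76) (nat_lit 0) (XT.nd (nat_lit 78) (nat_lit 0) (nat_lit 0) (XT.lf (nat_lit 0) (nat_lit 14992854519) (nat_lit 152) (nat_lit 15169409685) (nat_lit 0) (nat_lit 10254431550) (nat_lit 13) (nat_lit 5) (nat_lit 15)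 (nat_lit 4) (nat_lit 13) (nat_lit 4) (nat_lit 469) (nat_lit 293) (nat_lit 258)) (XT.lf (nat_lit 0) (nat_lit 21199656734) (nat_lit 152) (nat_lit 3864906609) (nat_lit 0) (nat_lit 16385146231) (nat_lit 13) (nat_lit 5) (nat_lit 15) (nat_lit 4) (nat_lit 13) (nat_lit 4) (nat_lit 470) (nat_lit 293) (nat_lit 257))) (XT.nd (nat_lit 78) (nat_lit 0) (nat_lit 0) (XT.lf (nat_lit 0) (nat_lit 7789652024) (nat_lit 76) (nat_lit 19806175339) (nat_lit 76) (nat_lit 14917793445) (nat_lit 12) (nat_lit 4) (nat_lit 13) (nat_lit 5) (nat_lit 13) (nat_lit 4) (nat_lit 471) (nat_lit 293) (nat_lit 256)) (XT.lf (nat_lit 0) (nat_lit 19733373683) (nat_lit 76) (nat_lit 14418568741) (nat_lit 76) (nat_lit 9458467049) (nat_lit 12) (nat_lit 4) (nat_lit 13) (nat_lit 5) (nat_lit 13) (nat_lit 4) (nat_lit 472) (nat_lit 293) (nat_lit 255)))))) (XT.nd (nat_lit 546) (nat_lit 152) (nat_lit 0) (XT.nd (nat_lit 234) (nat_lit 76) (nat_lit 0) (XT.nd (nat_lit 78)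 (nat_lit 152) (nat_lit 0) (XT.lf (nat_lit 0) (nat_lit 31899775411) (nat_lit 76) (nat_lit 8936063909) (nat_lit 76) (nat_lit 3906331346) (nat_lit 12) (nat_lit 4) (nat_lit 13) (nat_lit 5) (nat_lit 13) (nat_lit 4) (nat_lit 473) (nat_lit 293) (nat_lit 254)) (XT.nd (nat_lit 78) (nat_lit 76) (nat_lit 0) (XT.lf (nat_lit 0) (nat_lit 1709443760) (nat_lit 152) (nat_lit 1627164515) (nat_lit 76) (nat_lit 42572782251) (nat_lit 11) (nat_lit 5) (nat_lit 13) (nat_lit 5) (nat_lit 12) (nat_lit 4) (nat_lit 474) (nat_lit 293) (nat_lit 253)) (XT.lf (nat_lit 0) (nat_lit 7469327137) (nat_lit 152) (nat_lit 37182781009) (nat_lit 0) (nat_lit 2456735753) (nat_lit 10) (nat_lit 5) (nat_lit 12) (nat_lit 4) (nat_lit 10) (nat_lit 4) (nat_lit 475) (nat_lit 293) (nat_lit 252)))) (XT.nd (nat_lit 156) (nat_lit 76) (nat_lit 0) (XT.nd (nat_lit 78) (nat_lit 0) (nat_lit 0) (XT.lf (nat_lit 0) (nat_lit 13386121225) (nat_lit 152) (nat_lit 26646974125) (nat_lit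 0) (nat_lit 8311663714) (nat_lit 10) (nat_lit 5) (nat_lit 12) (nat_lit 4) (nat_lit 10) (nat_lit 4) (nat_lit 476) (nat_lit 293) (nat_lit 251)) (XT.lf (nat_lit 0) (nat_lit 19416811978) (nat_lit 152) (nat_lit 15920559221) (nat_lit 0) (nat_lit 14282290267) (nat_lit 10) (nat_lit 5) (nat_lit 12) (nat_lit 4) (nat_lit 10) (nat_lit 4) (nat_lit 477) (nat_lit 293) (nat_lit 250))) (XT.nd (nat_lit 78) (nat_lit 76) (nat_lit 0) (XT.lf (nat_lit 0) (nat_lit 25566668934) (nat_lit 152) (nat_lit 4994163703) (nat_lit 0) (nat_lit 20373832464) (nat_lit 10) (nat_lit 5) (nat_lit 12) (nat_lit 4) (nat_lit 10) (nat_lit 4) (nat_lit 478) (nat_lit 293) (nat_lit 249)) (XT.lf (nat_lit 0) (nat_lit 6263992827) (nat_lit 76) (nat_lit 25637286256) (nat_lit 76) (nat_lit 20387833515) (nat_lit 9) (nat_lit 4) (nat_lit 10) (nat_lit 5) (nat_lit 10) (nat_lit 4) (nat_lit 479) (nat_lit 293) (nat_lit 248))))) (XT.nd (nat_lit 312) (nat_lit 76) (nat_lit 0) (XT.nd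 (nat_lit 156) (nat_lit 76) (nat_lit 0) (XT.nd (nat_lit 78) (nat_lit 0) (nat_lit 0) (XT.lf (nat_lit 0) (nat_lit 17845165048) (nat_lit 76) (nat_lit 20571858511) (nat_lit 76) (nat_lit 15267438517) (nat_lit 9) (nat_lit 4) (nat_lit 10) (nat_lit 5) (nat_lit 10) (nat_lit 4) (nat_lit 480) (nat_lit 293) (nat_lit 247)) (XT.lf (nat_lit 0) (nat_lit 29660078782) (nat_lit 76) (nat_lit 15410554560) (nat_lit 76) (nat_lit 10052768302) (nat_lit 9) (nat_lit 4) (nat_lit 10) (nat_lit 5) (nat_lit 10) (nat_lit 4) (nat_lit 481) (nat_lit 293) (nat_lit 246))) (XT.nd (nat_lit 78) (nat_lit 76) (nat_lit 0) (XT.lf (nat_lit 0) (nat_lit 41719057737) (nat_lit 76) (nat_lit 10148864528) (nat_lit 76) (nat_lit 4739266362) (nat_lit 9) (nat_lit 4) (nat_lit 10) (nat_lit 5) (nat_lit 10) (nat_lit 4) (nat_lit 482) (nat_lit 293) (nat_lit 245)) (XT.lf (nat_lit 0) (nat_lit 664485602) (nat_lit 152) (nat_lit 4110995216) (nat_lit 76) (nat_lit 53361443284) (nat_lit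 8) (nat_lit 5) (nat_lit 10) (nat_lit 5) (nat_lit 9) (nat_lit 4) (nat_lit 483) (nat_lit 293) (nat_lit 244)))) (XT.nd (nat_lit 156) (nat_lit 0) (nat_lit 0) (XT.nd (nat_lit 78) (nat_lit 0) (nat_lit 0) (XT.lf (nat_lit 0) (nat_lit 6156814035) (nat_lit 152) (nat_lit 52745155533) (nat_lit 0) (nat_lit 808524053) (nat_lit 7) (nat_lit 5) (nat_lit 9) (nat_lit 4) (nat_lit 7) (nat_lit 4) (nat_lit 484) (nat_lit 293) (nat_lit 243)) (XT.lf (nat_lit 0) (nat_lit 11849932859) (nat_lit 152) (nat_lit 43024649286) (nat_lit 0) (nat_lit 6455608668) (nat_lit 7) (nat_lit 5) (nat_lit 9) (nat_lit 4) (nat_lit 7) (nat_lit 4) (nat_lit 485) (nat_lit 293) (nat_lit 242))) (XT.nd (nat_lit 78) (nat_lit 0) (nat_lit 0) (XT.lf (nat_lit 0) (nat_lit 17662208877) (nat_lit 152) (nat_lit 33114629023) (nat_lit 0) (nat_lit 12223191280) (nat_lit 7) (nat_lit 5) (nat_lit 9) (nat_lit 4) (nat_lit 7) (nat_lit 4) (nat_lit 486) (nat_lit 293) (nat_lit 241)) (XT.lf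 (nat_lit 0) (nat_lit 23598720779) (nat_lit 152) (nat_lit 23006435501) (nat_lit 0) (nat_lit 18116311525) (nat_lit 7) (nat_lit 5) (nat_lit 9) (nat_lit 4) (nat_lit 7) (nat_lit 4) (nat_lit 487) (nat_lit 293) (nat_lit 240))))))))
noncomputable def xc16 : XT := (XT.nd (nat_lit 50466) (nat_lit 0) (nat_lit 228) (XT.nd (nat_lit 49374) (nat_lit 0) (nat_lit 1216) (XT.nd (nat_lit 48828) (nat_lit 0) (nat_lit 2052) (XT.nd (nat_lit 234) (nat_lit 0) (nat_lit 0) (XT.nd (nat_lit 78) (nat_lit 76) (nat_lit 0) (XT.lf (nat_lit 0) (nat_lit 29664655806) (nat_lit 152) (nat_lit 12691236318) (nat_lit 0) (nat_lit 24140118730) (nat_lit 7) (nat_lit 5) (nat_lit 9) (nat_lit 4) (nat_lit 7) (nat_lit 4) (nat_lit 488) (nat_lit 293) (nat_lit 239)) (XT.nd (nat_lit 78) (nat_lit 76) (nat_lit 0) (XT.lf (nat_lit 0) (nat_lit 35865314290) (nat_lit 152) (nat_lit 2160018195) (nat_lit 0) (nat_lit 30299876416) (nat_lit 7) (nat_lit 5) (nat_lit 9) (nat_lit 4)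 (nat_lit 7) (nat_lit 4) (nat_lit 489) (nat_lit 293) (nat_lit 238)) (XT.lf (nat_lit 0) (nat_lit 8767506535) (nat_lit 76) (nat_lit 33522886384) (nat_lit 76) (nat_lit 27917738997) (nat_lit 6) (nat_lit 4) (nat_lit 7) (nat_lit 5) (nat_lit 7) (nat_lit 4) (nat_lit 490) (nat_lit 293) (nat_lit 237)))) (XT.nd (nat_lit 156) (nat_lit 0) (nat_lit 0) (XT.nd (nat_lit 78) (nat_lit 0) (nat_lit 0) (XT.lf (nat_lit 0) (nat_lit 19977309065) (nat_lit 76) (nat_lit 28907321341) (nat_lit 76) (nat_lit 23263621028) (nat_lit 6) (nat_lit 4) (nat_lit 7) (nat_lit 5) (nat_lit 7) (nat_lit 4) (nat_lit 491) (nat_lit 293) (nat_lit 236)) (XT.lf (nat_lit 0) (nat_lit 31436195768) (nat_lit 76) (nat_lit 24196416287) (nat_lit 76) (nat_lit 18515285950) (nat_lit 6) (nat_lit 4) (nat_lit 7) (nat_lit 5) (nat_lit 7) (nat_lit 4) (nat_lit 492) (nat_lit 293) (nat_lit 235))) (XT.nd (nat_lit 48360) (nat_lit 0) (nat_lit 2660) (XT.lf (nat_lit 0) (nat_lit 43154179265)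 (nat_lit 76) (nat_lit 19386054896) (nat_lit 76) (nat_lit 13668584730) (nat_lit 6) (nat_lit 4) (nat_lit 7) (nat_lit 5) (nat_lit 7) (nat_lit 4) (nat_lit 493) (nat_lit 293) (nat_lit 234)) (XT.lf (nat_lit 0) (nat_lit 3989118287) (nat_lit 152) (nat_lit 936277814) (nat_lit 0) (nat_lit 3989118287) (nat_lit 41) (nat_lit 5) (nat_lit 43) (nat_lit 4) (nat_lit 41) (nat_lit 4) (nat_lit 432) (nat_lit 294) (nat_lit 294))))) (XT.nd (nat_lit 234) (nat_lit 304) (nat_lit 0) (XT.nd (nat_lit 78) (nat_lit 152) (nat_lit 0) (XT.lf (nat_lit 0) (nat_lit 10543158788) (nat_lit 152) (nat_lit 3955387805) (nat_lit 152) (nat_lit 3667655506) (nat_lit 39) (nat_lit 4) (nat_lit 41) (nat_lit 5) (nat_lit 41) (nat_lit 4) (nat_lit 433) (nat_lit 294) (nat_lit 293)) (XT.nd (nat_lit 78) (nat_lit 0) (nat_lit 0) (XT.lf (nat_lit 0) (nat_lit 2603735828) (nat_lit 152) (nat_lit 13857150193) (nat_lit 0) (nat_lit 2053168794) (nat_lit 37) (nat_lit 5) (nat_lit 39)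 (nat_lit 4) (nat_lit 37) (nat_lit 4) (nat_lit 434) (nat_lit 294) (nat_lit 292)) (XT.lf (nat_lit 0) (nat_lit 8978053683) (nat_lit 152) (nat_lit 1729381041) (nat_lit 0) (nat_lit 8164170836) (nat_lit 37) (nat_lit 5) (nat_lit 39) (nat_lit 4) (nat_lit 37) (nat_lit 4) (nat_lit 435) (nat_lit 294) (nat_lit 291)))) (XT.nd (nat_lit 156) (nat_lit 76) (nat_lit 0) (XT.nd (nat_lit 78) (nat_lit 152) (nat_lit 0) (XT.lf (nat_lit 0) (nat_lit 10734183436) (nat_lit 76) (nat_lit 4787939835) (nat_lit 76) (nat_lit 3718410567) (nat_lit 36) (nat_lit 4) (nat_lit 37) (nat_lit 5) (nat_lit 37) (nat_lit 4) (nat_lit 436) (nat_lit 294) (nat_lit 290)) (XT.lf (nat_lit 0) (nat_lit 2532341299) (nat_lit 152) (nat_lit 15836183644) (nat_lit 0) (nat_lit 1252992099) (nat_lit 34) (nat_lit 5) (nat_lit 36) (nat_lit 4) (nat_lit 34) (nat_lit 4) (nat_lit 437) (nat_lit 294) (nat_lit 289))) (XT.nd (nat_lit 78) (nat_lit 76) (nat_lit 0) (XT.lf (nat_lit 0) (nat_lit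 8905800887) (nat_lit 152) (nat_lit 3714233845) (nat_lit 0) (nat_lit 7392498997) (nat_lit 34) (nat_lit 5) (nat_lit 36) (nat_lit 4) (nat_lit 34) (nat_lit 4) (nat_lit 438) (nat_lit 294) (nat_lit 288)) (XT.lf (nat_lit 0) (nat_lit 8710326006) (nat_lit 76) (nat_lit 6723253899) (nat_lit 76) (nat_lit 4982813476) (nat_lit 33) (nat_lit 4) (nat_lit 34) (nat_lit 5) (nat_lit 34) (nat_lit 4) (nat_lit 439) (nat_lit 294) (nat_lit 287)))))) (XT.nd (nat_lit 546) (nat_lit 380) (nat_lit 0) (XT.nd (nat_lit 234) (nat_lit 228) (nat_lit 0) (XT.nd (nat_lit 78) (nat_lit 76) (nat_lit 0) (XT.lf (nat_lit 0) (nat_lit 518369167) (nat_lit 76) (nat_lit 702976861) (nat_lit 152) (nat_lit 19612975100) (nat_lit 31) (nat_lit 5) (nat_lit 32) (nat_lit 5) (nat_lit 33) (nat_lit 4) (nat_lit 440) (nat_lit 294) (nat_lit 286)) (XT.nd (nat_lit 78) (nat_lit 76) (nat_lit 0) (XT.lf (nat_lit 0) (nat_lit 7563477024) (nat_lit 152) (nat_lit 8246509928) (nat_lit 0)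 (nat_lit 5451765253) (nat_lit 31) (nat_lit 5) (nat_lit 33) (nat_lit 4) (nat_lit 31) (nat_lit 4) (nat_lit 441) (nat_lit 294) (nat_lit 285)) (XT.lf (nat_lit 0) (nat_lit 4032058726) (nat_lit 76) (nat_lit 9992802253) (nat_lit 76) (nat_lit 7679280836) (nat_lit 30) (nat_lit 4) (nat_lit 31) (nat_lit 5) (nat_lit 31) (nat_lit 4) (nat_lit 442) (nat_lit 294) (nat_lit 284)))) (XT.nd (nat_lit 156) (nat_lit 76) (nat_lit 0) (XT.nd (nat_lit 78) (nat_lit 152) (nat_lit 0) (XT.lf (nat_lit 0) (nat_lit 16625556059) (nat_lit 76) (nat_lit 4022335565) (nat_lit 76) (nat_lit 1512882455) (nat_lit 30) (nat_lit 4) (nat_lit 31) (nat_lit 5) (nat_lit 31) (nat_lit 4) (nat_lit 443) (nat_lit 294) (nat_lit 283)) (XT.lf (nat_lit 0) (nat_lit 4717116773) (nat_lit 152) (nat_lit 15817337156) (nat_lit 0) (nat_lit 2096070116) (nat_lit 28) (nat_lit 5) (nat_lit 30) (nat_lit 4) (nat_lit 28) (nat_lit 4) (nat_lit 444) (nat_lit 294) (nat_lit 282))) (XT.nd (nat_lit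 78) (nat_lit 76) (nat_lit 0) (XT.lf (nat_lit 0) (nat_lit 11086881303) (nat_lit 152) (nat_lit 3741012948) (nat_lit 0) (nat_lit 8286529390) (nat_lit 28) (nat_lit 5) (nat_lit 30) (nat_lit 4) (nat_lit 28) (nat_lit 4) (nat_lit 445) (nat_lit 294) (nat_lit 281)) (XT.lf (nat_lit 0) (nat_lit 8654366004) (nat_lit 76) (nat_lit 8966854502) (nat_lit 76) (nat_lit 5992419816) (nat_lit 27) (nat_lit 4) (nat_lit 28) (nat_lit 5) (nat_lit 28) (nat_lit 4) (nat_lit 446) (nat_lit 294) (nat_lit 280))))) (XT.nd (nat_lit 234) (nat_lit 228) (nat_lit 0) (XT.nd (nat_lit 78) (nat_lit 76) (nat_lit 0) (XT.lf (nat_lit 0) (nat_lit 147929224) (nat_lit 152) (nat_lit 2843150759) (nat_lit 76) (nat_lit 21138837105) (nat_lit 26) (nat_lit 5) (nat_lit 28) (nat_lit 5) (nat_lit 27) (nat_lit 4) (nat_lit 447) (nat_lit 294) (nat_lit 279)) (XT.nd (nat_lit 78) (nat_lit 0) (nat_lit 0) (XT.lf (nat_lit 0) (nat_lit 6368454700) (nat_lit 152) (nat_lit 15133705538)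 (nat_lit 0) (nat_lit 3157253927) (nat_lit 25) (nat_lit 5) (nat_lit 27) (nat_lit 4) (nat_lit 25) (nat_lit 4) (nat_lit 448) (nat_lit 294) (nat_lit 278)) (XT.lf (nat_lit 0) (nat_lit 12727975210) (nat_lit 152) (nat_lit 3116149458) (nat_lit 0) (nat_lit 9362104149) (nat_lit 25) (nat_lit 5) (nat_lit 27) (nat_lit 4) (nat_lit 25) (nat_lit 4) (nat_lit 449) (nat_lit 294) (nat_lit 277)))) (XT.nd (nat_lit 156) (nat_lit 152) (nat_lit 0) (XT.nd (nat_lit 78) (nat_lit 0) (nat_lit 0) (XT.lf (nat_lit 0) (nat_lit 9242054516) (nat_lit 76) (nat_lit 10021931285) (nat_lit 76) (nat_lit 6505894895) (nat_lit 24) (nat_lit 4) (nat_lit 25) (nat_lit 5) (nat_lit 25) (nat_lit 4) (nat_lit 450) (nat_lit 294) (nat_lit 276)) (XT.lf (nat_lit 0) (nat_lit 21836621044) (nat_lit 76) (nat_lit 4088884994) (nat_lit 76) (nat_lit 427057023) (nat_lit 24) (nat_lit 4) (nat_lit 25) (nat_lit 5) (nat_lit 25) (nat_lit 4) (nat_lit 451) (nat_lit 294) (nat_lit 275)))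 (XT.nd (nat_lit 78) (nat_lit 0) (nat_lit 0) (XT.lf (nat_lit 0) (nat_lit 5714640616) (nat_lit 152) (nat_lit 19214530957) (nat_lit 0) (nat_lit 2022045279) (nat_lit 22) (nat_lit 5) (nat_lit 24) (nat_lit 4) (nat_lit 22) (nat_lit 4) (nat_lit 452) (nat_lit 294) (nat_lit 274)) (XT.lf (nat_lit 0) (nat_lit 12018656572) (nat_lit 152) (nat_lit 7356809510) (nat_lit 0) (nat_lit 8192641286) (nat_lit 22) (nat_lit 5) (nat_lit 24) (nat_lit 4) (nat_lit 22) (nat_lit 4) (nat_lit 453) (nat_lit 294) (nat_lit 273))))))) (XT.nd (nat_lit 1092) (nat_lit 380) (nat_lit 0) (XT.nd (nat_lit 546) (nat_lit 304) (nat_lit 0) (XT.nd (nat_lit 234) (nat_lit 76) (nat_lit 0) (XT.nd (nat_lit 78) (nat_lit 152) (nat_lit 0) (XT.lf (nat_lit 0) (nat_lit 4760560081) (nat_lit 76) (nat_lit 13700016804) (nat_lit 76) (nat_lit 9744467585) (nat_lit 21) (nat_lit 4) (nat_lit 22) (nat_lit 5) (nat_lit 22) (nat_lit 4) (nat_lit 454) (nat_lit 294) (nat_lit 272)) (XT.nd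 (nat_lit 78) (nat_lit 152) (nat_lit 0) (XT.lf (nat_lit 0) (nat_lit 17205131708) (nat_lit 76) (nat_lit 7868960724) (nat_lit 76) (nat_lit 3787650407) (nat_lit 21) (nat_lit 4) (nat_lit 22) (nat_lit 5) (nat_lit 22) (nat_lit 4) (nat_lit 455) (nat_lit 294) (nat_lit 271)) (XT.lf (nat_lit 0) (nat_lit 284325692) (nat_lit 76) (nat_lit 1926380792) (nat_lit 152) (nat_lit 27329502181) (nat_lit 19) (nat_lit 5) (nat_lit 20) (nat_lit 5) (nat_lit 21) (nat_lit 4) (nat_lit 456) (nat_lit 294) (nat_lit 270)))) (XT.nd (nat_lit 156) (nat_lit 76) (nat_lit 0) (XT.nd (nat_lit 78) (nat_lit 0) (nat_lit 0) (XT.lf (nat_lit 0) (nat_lit 8378138671) (nat_lit 152) (nat_lit 17675739826) (nat_lit 0) (nat_lit 4182070352) (nat_lit 19) (nat_lit 5) (nat_lit 21) (nat_lit 4) (nat_lit 19) (nat_lit 4) (nat_lit 457) (nat_lit 294) (nat_lit 269)) (XT.lf (nat_lit 0) (nat_lit 14658461448) (nat_lit 152) (nat_lit 5945610658) (nat_lit 0) (nat_lit 10350656021) (nat_lit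 19) (nat_lit 5) (nat_lit 21) (nat_lit 4) (nat_lit 19) (nat_lit 4) (nat_lit 458) (nat_lit 294) (nat_lit 268))) (XT.nd (nat_lit 78) (nat_lit 0) (nat_lit 0) (XT.lf (nat_lit 0) (nat_lit 6081952507) (nat_lit 76) (nat_lit 15015155867) (nat_lit 76) (nat_lit 10598867811) (nat_lit 18) (nat_lit 4) (nat_lit 19) (nat_lit 5) (nat_lit 19) (nat_lit 4) (nat_lit 459) (nat_lit 294) (nat_lit 267)) (XT.lf (nat_lit 0) (nat_lit 18420768637) (nat_lit 76) (nat_lit 9280567082) (nat_lit 76) (nat_lit 4758956087) (nat_lit 18) (nat_lit 4) (nat_lit 19) (nat_lit 5) (nat_lit 19) (nat_lit 4) (nat_lit 460) (nat_lit 294) (nat_lit 266))))) (XT.nd (nat_lit 234) (nat_lit 152) (nat_lit 0) (XT.nd (nat_lit 78) (nat_lit 76) (nat_lit 0) (XT.lf (nat_lit 0) (nat_lit 1145730044) (nat_lit 152) (nat_lit 2298034286) (nat_lit 76) (nat_lit 29805990239) (nat_lit 17) (nat_lit 5) (nat_lit 19) (nat_lit 5) (nat_lit 18) (nat_lit 4) (nat_lit 461) (nat_lit 294) (nat_lit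 265)) (XT.nd (nat_lit 78) (nat_lit 0) (nat_lit 0) (XT.lf (nat_lit 0) (nat_lit 7167787237) (nat_lit 152) (nat_lit 24310415255) (nat_lit 0) (nat_lit 2582211266) (nat_lit 16) (nat_lit 5) (nat_lit 18) (nat_lit 4) (nat_lit 16) (nat_lit 4) (nat_lit 462) (nat_lit 294) (nat_lit 264)) (XT.lf (nat_lit 0) (nat_lit 13344744147) (nat_lit 152) (nat_lit 12885833772) (nat_lit 0) (nat_lit 8665590108) (nat_lit 16) (nat_lit 5) (nat_lit 18) (nat_lit 4) (nat_lit 16) (nat_lit 4) (nat_lit 463) (nat_lit 294) (nat_lit 263)))) (XT.nd (nat_lit 156) (nat_lit 76) (nat_lit 0) (XT.nd (nat_lit 78) (nat_lit 76) (nat_lit 0) (XT.lf (nat_lit 0) (nat_lit 19626141732) (nat_lit 152) (nat_lit 1277146409) (nat_lit 0) (nat_lit 14856135199) (nat_lit 16) (nat_lit 5) (nat_lit 18) (nat_lit 4) (nat_lit 16) (nat_lit 4) (nat_lit 464) (nat_lit 294) (nat_lit 262)) (XT.lf (nat_lit 0) (nat_lit 10735274214) (nat_lit 76) (nat_lit 15385388399) (nat_lit 76) (nat_lit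 10527175561) (nat_lit 15) (nat_lit 4) (nat_lit 16) (nat_lit 5) (nat_lit 16) (nat_lit 4) (nat_lit 465) (nat_lit 294) (nat_lit 261))) (XT.nd (nat_lit 78) (nat_lit 76) (nat_lit 0) (XT.lf (nat_lit 0) (nat_lit 22981746393) (nat_lit 76) (nat_lit 9763477590) (nat_lit 76) (nat_lit 4819627563) (nat_lit 15) (nat_lit 4) (nat_lit 16) (nat_lit 5) (nat_lit 16) (nat_lit 4) (nat_lit 466) (nat_lit 294) (nat_lit 260)) (XT.lf (nat_lit 0) (nat_lit 962301208) (nat_lit 152) (nat_lit 3073521475) (nat_lit 76) (nat_lit 34475534647) (nat_lit 14) (nat_lit 5) (nat_lit 16) (nat_lit 5) (nat_lit 15) (nat_lit 4) (nat_lit 467) (nat_lit 294) (nat_lit 259)))))) (XT.nd (nat_lit 546) (nat_lit 228) (nat_lit 0) (XT.nd (nat_lit 234) (nat_lit 76) (nat_lit 0) (XT.nd (nat_lit 78) (nat_lit 0) (nat_lit 0) (XT.lf (nat_lit 0) (nat_lit 6849594847) (nat_lit 152) (nat_lit 30743721582) (nat_lit 0) (nat_lit 1890649030) (nat_lit 13) (nat_lit 5) (nat_lit 15) (nat_lit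 4) (nat_lit 13) (nat_lit 4) (nat_lit 468) (nat_lit 294) (nat_lit 258)) (XT.nd (nat_lit 78) (nat_lit 0) (nat_lit 0) (XT.lf (nat_lit 0) (nat_lit 12910943780) (nat_lit 152) (nat_lit 19698976516) (nat_lit 0) (nat_lit 7875910430) (nat_lit 13) (nat_lit 5) (nat_lit 15) (nat_lit 4) (nat_lit 13) (nat_lit 4) (nat_lit 469) (nat_lit 294) (nat_lit 257)) (XT.lf (nat_lit 0) (nat_lit 19082418629) (nat_lit 152) (nat_lit 8463972801) (nat_lit 0) (nat_lit 13973513887) (nat_lit 13) (nat_lit 5) (nat_lit 15) (nat_lit 4) (nat_lit 13) (nat_lit 4) (nat_lit 470) (nat_lit 294) (nat_lit 256)))) (XT.nd (nat_lit 156) (nat_lit 0) (nat_lit 0) (XT.nd (nat_lit 78) (nat_lit 0) (nat_lit 0) (XT.lf (nat_lit 0) (nat_lit 3030237402) (nat_lit 76) (nat_lit 22368303038) (nat_lit 76) (nat_lit 17187678499) (nat_lit 12) (nat_lit 4) (nat_lit 13) (nat_lit 5) (nat_lit 13) (nat_lit 4) (nat_lit 471) (nat_lit 294) (nat_lit 255)) (XT.lf (nat_lit 0) (nat_lit 14907145474)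 (nat_lit 76) (nat_lit 17013568344) (nat_lit 76) (nat_lit 11763312933) (nat_lit 12) (nat_lit 4) (nat_lit 13) (nat_lit 5) (nat_lit 13) (nat_lit 4) (nat_lit 472) (nat_lit 294) (nat_lit 254))) (XT.nd (nat_lit 78) (nat_lit 0) (nat_lit 0) (XT.lf (nat_lit 0) (nat_lit 27008679641) (nat_lit 76) (nat_lit 11562977982) (nat_lit 76) (nat_lit 6245119783) (nat_lit 12) (nat_lit 4) (nat_lit 13) (nat_lit 5) (nat_lit 13) (nat_lit 4) (nat_lit 473) (nat_lit 294) (nat_lit 253)) (XT.lf (nat_lit 0) (nat_lit 39345414059) (nat_lit 76) (nat_lit 6011769301) (nat_lit 76) (nat_lit 628277328) (nat_lit 12) (nat_lit 4) (nat_lit 13) (nat_lit 5) (nat_lit 13) (nat_lit 4) (nat_lit 474) (nat_lit 294) (nat_lit 252))))) (XT.nd (nat_lit 312) (nat_lit 76) (nat_lit 0) (XT.nd (nat_lit 156) (nat_lit 0) (nat_lit 0) (XT.nd (nat_lit 78) (nat_lit 0) (nat_lit 0) (XT.lf (nat_lit 0) (nat_lit 4781384050) (nat_lit 76) (nat_lit 257334242) (nat_lit 152) (nat_lit 42149532178)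 (nat_lit 10) (nat_lit 5) (nat_lit 11) (nat_lit 5) (nat_lit 12) (nat_lit 4) (nat_lit 475) (nat_lit 294) (nat_lit 251)) (XT.lf (nat_lit 0) (nat_lit 10921705151) (nat_lit 152) (nat_lit 31930391886) (nat_lit 0) (nat_lit 5573083587) (nat_lit 10) (nat_lit 5) (nat_lit 12) (nat_lit 4) (nat_lit 10) (nat_lit 4) (nat_lit 476) (nat_lit 294) (nat_lit 250))) (XT.nd (nat_lit 78) (nat_lit 0) (nat_lit 0) (XT.lf (nat_lit 0) (nat_lit 16921974959) (nat_lit 152) (nat_lit 21263982811) (nat_lit 0) (nat_lit 11515038636) (nat_lit 10) (nat_lit 5) (nat_lit 12) (nat_lit 4) (nat_lit 10) (nat_lit 4) (nat_lit 477) (nat_lit 294) (nat_lit 249)) (XT.lf (nat_lit 0) (nat_lit 23042297015) (nat_lit 152) (nat_lit 10395845379) (nat_lit 0) (nat_lit 17578744422) (nat_lit 10) (nat_lit 5) (nat_lit 12) (nat_lit 4) (nat_lit 10) (nat_lit 4) (nat_lit 478) (nat_lit 294) (nat_lit 248)))) (XT.nd (nat_lit 156) (nat_lit 0) (nat_lit 0) (XT.nd (nat_lit 78) (nat_lit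 0) (nat_lit 0) (XT.lf (nat_lit 0) (nat_lit 697120166) (nat_lit 76) (nat_lit 28597600153) (nat_lit 76) (nat_lit 23079080307) (nat_lit 9) (nat_lit 4) (nat_lit 10) (nat_lit 5) (nat_lit 10) (nat_lit 4) (nat_lit 479) (nat_lit 294) (nat_lit 247)) (XT.lf (nat_lit 0) (nat_lit 12222285661) (nat_lit 76) (nat_lit 23559801288) (nat_lit 76) (nat_lit 17987915177) (nat_lit 9) (nat_lit 4) (nat_lit 10) (nat_lit 5) (nat_lit 10) (nat_lit 4) (nat_lit 480) (nat_lit 294) (nat_lit 246))) (XT.nd (nat_lit 78) (nat_lit 0) (nat_lit 0) (XT.lf (nat_lit 0) (nat_lit 23982823931) (nat_lit 76) (nat_lit 18425321494) (nat_lit 76) (nat_lit 12801623475) (nat_lit 9) (nat_lit 4) (nat_lit 10) (nat_lit 5) (nat_lit 10) (nat_lit 4) (nat_lit 481) (nat_lit 294) (nat_lit 245)) (XT.lf (nat_lit 0) (nat_lit 35989011176) (nat_lit 76) (nat_lit 13189674331) (nat_lit 76) (nat_lit 7515673489) (nat_lit 9) (nat_lit 4) (nat_lit 10) (nat_lit 5) (nat_lit 10) (nat_lit 4)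 (nat_lit 482) (nat_lit 294) (nat_lit 244))))))))
noncomputable def xc17 : XT := (XT.nd (nat_lit 50388) (nat_lit 0) (nat_lit 304) (XT.nd (nat_lit 49218) (nat_lit 0) (nat_lit 1596) (XT.nd (nat_lit 546) (nat_lit 76) (nat_lit 0) (XT.nd (nat_lit 234) (nat_lit 0) (nat_lit 0) (XT.nd (nat_lit 78) (nat_lit 152) (nat_lit 0) (XT.lf (nat_lit 0) (nat_lit 48251338237) (nat_lit 76) (nat_lit 7848284962) (nat_lit 76) (nat_lit 2125446429) (nat_lit 9) (nat_lit 4) (nat_lit 10) (nat_lit 5) (nat_lit 10) (nat_lit 4) (nat_lit 483) (nat_lit 294) (nat_lit 243)) (XT.nd (nat_lit 78) (nat_lit 0) (nat_lit 0) (XT.lf (nat_lit 0) (nat_lit 963655122) (nat_lit 76) (nat_lit 2353541375) (nat_lit 152) (nat_lit 56484790995) (nat_lit 7) (nat_lit 5) (nat_lit 8) (nat_lit 5) (nat_lit 9) (nat_lit 4) (nat_lit 484) (nat_lit 294) (nat_lit 242)) (XT.lf (nat_lit 0) (nat_lit 8962255007) (nat_lit 152) (nat_lit 49145498587) (nat_lit 0) (nat_lit 3315373475) (nat_lit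 7) (nat_lit 5) (nat_lit 9) (nat_lit 4) (nat_lit 7) (nat_lit 4) (nat_lit 485) (nat_lit 294) (nat_lit 241)))) (XT.nd (nat_lit 156) (nat_lit 0) (nat_lit 0) (XT.nd (nat_lit 78) (nat_lit 0) (nat_lit 0) (XT.lf (nat_lit 0) (nat_lit 14749835263) (nat_lit 152) (nat_lit 39284309530) (nat_lit 0) (nat_lit 9059562074) (nat_lit 7) (nat_lit 5) (nat_lit 9) (nat_lit 4) (nat_lit 7) (nat_lit 4) (nat_lit 486) (nat_lit 294) (nat_lit 240)) (XT.lf (nat_lit 0) (nat_lit 20662370695) (nat_lit 152) (nat_lit 29223524947) (nat_lit 0) (nat_lit 14929969685) (nat_lit 7) (nat_lit 5) (nat_lit 9) (nat_lit 4) (nat_lit 7) (nat_lit 4) (nat_lit 487) (nat_lit 294) (nat_lit 239))) (XT.nd (nat_lit 78) (nat_lit 0) (nat_lit 0) (XT.lf (nat_lit 0) (nat_lit 26705027598) (nat_lit 152) (nat_lit 18954353860) (nat_lit 0) (nat_lit 20931725789) (nat_lit 7) (nat_lit 5) (nat_lit 9) (nat_lit 4) (nat_lit 7) (nat_lit 4) (nat_lit 488) (nat_lit 294) (nat_lit 238)) (XT.lf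 (nat_lit 0) (nat_lit 32883085961) (nat_lit 152) (nat_lit 8467823209) (nat_lit 0) (nat_lit 27070074639) (nat_lit 7) (nat_lit 5) (nat_lit 9) (nat_lit 4) (nat_lit 7) (nat_lit 4) (nat_lit 489) (nat_lit 294) (nat_lit 237))))) (XT.nd (nat_lit 234) (nat_lit 0) (nat_lit 0) (XT.nd (nat_lit 78) (nat_lit 0) (nat_lit 0) (XT.lf (nat_lit 0) (nat_lit 2289914475) (nat_lit 76) (nat_lit 36934041673) (nat_lit 76) (nat_lit 31082477426) (nat_lit 6) (nat_lit 4) (nat_lit 7) (nat_lit 5) (nat_lit 7) (nat_lit 4) (nat_lit 490) (nat_lit 294) (nat_lit 236)) (XT.nd (nat_lit 78) (nat_lit 0) (nat_lit 0) (XT.lf (nat_lit 0) (nat_lit 13456756461) (nat_lit 76) (nat_lit 32339721428) (nat_lit 76) (nat_lit 26450727156) (nat_lit 6) (nat_lit 4) (nat_lit 7) (nat_lit 5) (nat_lit 7) (nat_lit 4) (nat_lit 491) (nat_lit 294) (nat_lit 235)) (XT.lf (nat_lit 0) (nat_lit 24873933900) (nat_lit 76) (nat_lit 27649442391) (nat_lit 76) (nat_lit 21724108290) (nat_lit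 6) (nat_lit 4) (nat_lit 7) (nat_lit 5) (nat_lit 7) (nat_lit 4) (nat_lit 492) (nat_lit 294) (nat_lit 234)))) (XT.nd (nat_lit 48282) (nat_lit 0) (nat_lit 2660) (XT.nd (nat_lit 48204) (nat_lit 0) (nat_lit 2812) (XT.lf (nat_lit 0) (nat_lit 36551422965) (nat_lit 76) (nat_lit 22859106260) (nat_lit 76) (nat_lit 16898490771) (nat_lit 6) (nat_lit 4) (nat_lit 7) (nat_lit 5) (nat_lit 7) (nat_lit 4) (nat_lit 493) (nat_lit 294) (nat_lit 233)) (XT.lf (nat_lit 0) (nat_lit 4315514214) (nat_lit 152) (nat_lit 2137831736) (nat_lit 152) (nat_lit 2137831736) (nat_lit 43) (nat_lit 4) (nat_lit 45) (nat_lit 5) (nat_lit 45) (nat_lit 4) (nat_lit 430) (nat_lit 295) (nat_lit 295))) (XT.nd (nat_lit 78) (nat_lit 0) (nat_lit 0) (XT.lf (nat_lit 0) (nat_lit 1917467420) (nat_lit 152) (nat_lit 13963914825) (nat_lit 0) (nat_lit 1621103152) (nat_lit 41) (nat_lit 5) (nat_lit 43) (nat_lit 4) (nat_lit 41) (nat_lit 4) (nat_lit 431) (nat_lit 295) (nat_lit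 294)) (XT.lf (nat_lit 0) (nat_lit 8211110843) (nat_lit 152) (nat_lit 1992812061) (nat_lit 0) (nat_lit 7627014277) (nat_lit 41) (nat_lit 5) (nat_lit 43) (nat_lit 4) (nat_lit 41) (nat_lit 4) (nat_lit 432) (nat_lit 295) (nat_lit 293)))))) (XT.nd (nat_lit 546) (nat_lit 456) (nat_lit 0) (XT.nd (nat_lit 234) (nat_lit 304) (nat_lit 0) (XT.nd (nat_lit 78) (nat_lit 152) (nat_lit 0) (XT.lf (nat_lit 0) (nat_lit 10301431570) (nat_lit 152) (nat_lit 4366024887) (nat_lit 152) (nat_lit 3502576574) (nat_lit 39) (nat_lit 4) (nat_lit 41) (nat_lit 5) (nat_lit 41) (nat_lit 4) (nat_lit 433) (nat_lit 295) (nat_lit 292)) (XT.nd (nat_lit 78) (nat_lit 0) (nat_lit 0) (XT.lf (nat_lit 0) (nat_lit 2695963100) (nat_lit 152) (nat_lit 14229619387) (nat_lit 0) (nat_lit 1594347954) (nat_lit 37) (nat_lit 5) (nat_lit 39) (nat_lit 4) (nat_lit 37) (nat_lit 4) (nat_lit 434) (nat_lit 295) (nat_lit 291)) (XT.lf (nat_lit 0) (nat_lit 9008871428) (nat_lit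 152) (nat_lit 2218845472) (nat_lit 0) (nat_lit 7651609861) (nat_lit 37) (nat_lit 5) (nat_lit 39) (nat_lit 4) (nat_lit 37) (nat_lit 4) (nat_lit 435) (nat_lit 295) (nat_lit 290)))) (XT.nd (nat_lit 156) (nat_lit 76) (nat_lit 0) (XT.nd (nat_lit 78) (nat_lit 152) (nat_lit 0) (XT.lf (nat_lit 0) (nat_lit 10119129479) (nat_lit 76) (nat_lit 5368278363) (nat_lit 76) (nat_lit 3762816388) (nat_lit 36) (nat_lit 4) (nat_lit 37) (nat_lit 5) (nat_lit 37) (nat_lit 4) (nat_lit 436) (nat_lit 295) (nat_lit 289)) (XT.lf (nat_lit 0) (nat_lit 2415839938) (nat_lit 152) (nat_lit 16594385871) (nat_lit 0) (nat_lit 623186302) (nat_lit 34) (nat_lit 5) (nat_lit 36) (nat_lit 4) (nat_lit 34) (nat_lit 4) (nat_lit 437) (nat_lit 295) (nat_lit 288))) (XT.nd (nat_lit 78) (nat_lit 76) (nat_lit 0) (XT.lf (nat_lit 0) (nat_lit 8729884089) (nat_lit 152) (nat_lit 4586238177) (nat_lit 0) (nat_lit 6710091919) (nat_lit 34) (nat_lit 5) (nat_lit 36) (nat_lit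 4) (nat_lit 34) (nat_lit 4) (nat_lit 438) (nat_lit 295) (nat_lit 287)) (XT.lf (nat_lit 0) (nat_lit 7708280678) (nat_lit 76) (nat_lit 7482065265) (nat_lit 76) (nat_lit 5241750247) (nat_lit 33) (nat_lit 4) (nat_lit 34) (nat_lit 5) (nat_lit 34) (nat_lit 4) (nat_lit 439) (nat_lit 295) (nat_lit 286))))) (XT.nd (nat_lit 312) (nat_lit 228) (nat_lit 0) (XT.nd (nat_lit 156) (nat_lit 76) (nat_lit 0) (XT.nd (nat_lit 78) (nat_lit 76) (nat_lit 0) (XT.lf (nat_lit 0) (nat_lit 904855139) (nat_lit 152) (nat_lit 617558938) (nat_lit 76) (nat_lit 19329565416) (nat_lit 32) (nat_lit 5) (nat_lit 34) (nat_lit 5) (nat_lit 33) (nat_lit 4) (nat_lit 440) (nat_lit 295) (nat_lit 285)) (XT.lf (nat_lit 0) (nat_lit 7175492417) (nat_lit 152) (nat_lit 9515309848) (nat_lit 0) (nat_lit 4590755713) (nat_lit 31) (nat_lit 5) (nat_lit 33) (nat_lit 4) (nat_lit 31) (nat_lit 4) (nat_lit 441) (nat_lit 295) (nat_lit 284))) (XT.nd (nat_lit 78) (nat_lit 0) (nat_lit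 0) (XT.lf (nat_lit 0) (nat_lit 2628414219) (nat_lit 76) (nat_lit 10939141948) (nat_lit 76) (nat_lit 8158473549) (nat_lit 30) (nat_lit 4) (nat_lit 31) (nat_lit 5) (nat_lit 31) (nat_lit 4) (nat_lit 442) (nat_lit 295) (nat_lit 283)) (XT.lf (nat_lit 0) (nat_lit 15115510599) (nat_lit 76) (nat_lit 5019851950) (nat_lit 76) (nat_lit 2048958606) (nat_lit 30) (nat_lit 4) (nat_lit 31) (nat_lit 5) (nat_lit 31) (nat_lit 4) (nat_lit 443) (nat_lit 295) (nat_lit 282)))) (XT.nd (nat_lit 156) (nat_lit 76) (nat_lit 0) (XT.nd (nat_lit 78) (nat_lit 0) (nat_lit 0) (XT.lf (nat_lit 0) (nat_lit 4111063254) (nat_lit 152) (nat_lit 17498182384) (nat_lit 0) (nat_lit 1047395528) (nat_lit 28) (nat_lit 5) (nat_lit 30) (nat_lit 4) (nat_lit 28) (nat_lit 4) (nat_lit 444) (nat_lit 295) (nat_lit 281)) (XT.lf (nat_lit 0) (nat_lit 10426783783) (nat_lit 152) (nat_lit 5526347257) (nat_lit 0) (nat_lit 7189033284) (nat_lit 28) (nat_lit 5) (nat_lit 30) (nat_lit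 4) (nat_lit 28) (nat_lit 4) (nat_lit 445) (nat_lit 295) (nat_lit 280))) (XT.nd (nat_lit 78) (nat_lit 0) (nat_lit 0) (XT.lf (nat_lit 0) (nat_lit 6730035363) (nat_lit 76) (nat_lit 10160119874) (nat_lit 76) (nat_lit 6753356974) (nat_lit 27) (nat_lit 4) (nat_lit 28) (nat_lit 5) (nat_lit 28) (nat_lit 4) (nat_lit 446) (nat_lit 295) (nat_lit 279)) (XT.lf (nat_lit 0) (nat_lit 19263478341) (nat_lit 76) (nat_lit 4234383042) (nat_lit 76) (nat_lit 663530433) (nat_lit 27) (nat_lit 4) (nat_lit 28) (nat_lit 5) (nat_lit 28) (nat_lit 4) (nat_lit 447) (nat_lit 295) (nat_lit 278))))))) (XT.nd (nat_lit 1092) (nat_lit 608) (nat_lit 0) (XT.nd (nat_lit 546) (nat_lit 228) (nat_lit 0) (XT.nd (nat_lit 234) (nat_lit 228) (nat_lit 0) (XT.nd (nat_lit 78) (nat_lit 76) (nat_lit 0) (XT.lf (nat_lit 0) (nat_lit 5485317339) (nat_lit 152) (nat_lit 17344503801) (nat_lit 0) (nat_lit 1863799857) (nat_lit 25) (nat_lit 5) (nat_lit 27) (nat_lit 4) (nat_lit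 25) (nat_lit 4) (nat_lit 448) (nat_lit 295) (nat_lit 277)) (XT.nd (nat_lit 78) (nat_lit 76) (nat_lit 0) (XT.lf (nat_lit 0) (nat_lit 11794032029) (nat_lit 152) (nat_lit 5425580509) (nat_lit 0) (nat_lit 8022349218) (nat_lit 25) (nat_lit 5) (nat_lit 27) (nat_lit 4) (nat_lit 25) (nat_lit 4) (nat_lit 449) (nat_lit 295) (nat_lit 276)) (XT.lf (nat_lit 0) (nat_lit 6788995458) (nat_lit 76) (nat_lit 11468140819) (nat_lit 76) (nat_lit 7550666426) (nat_lit 24) (nat_lit 4) (nat_lit 25) (nat_lit 5) (nat_lit 25) (nat_lit 4) (nat_lit 450) (nat_lit 295) (nat_lit 275)))) (XT.nd (nat_lit 156) (nat_lit 76) (nat_lit 0) (XT.nd (nat_lit 78) (nat_lit 152) (nat_lit 0) (XT.lf (nat_lit 0) (nat_lit 19288740821) (nat_lit 76) (nat_lit 5581114856) (nat_lit 76) (nat_lit 1522095239) (nat_lit 24) (nat_lit 4) (nat_lit 25) (nat_lit 5) (nat_lit 25) (nat_lit 4) (nat_lit 451) (nat_lit 295) (nat_lit 274)) (XT.lf (nat_lit 0) (nat_lit 4551804446) (nat_lit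 152) (nat_lit 21964203994) (nat_lit 0) (nat_lit 477588751) (nat_lit 22) (nat_lit 5) (nat_lit 24) (nat_lit 4) (nat_lit 22) (nat_lit 4) (nat_lit 452) (nat_lit 295) (nat_lit 273))) (XT.nd (nat_lit 78) (nat_lit 76) (nat_lit 0) (XT.lf (nat_lit 0) (nat_lit 10808048216) (nat_lit 152) (nat_lit 10199575736) (nat_lit 0) (nat_lit 6604298589) (nat_lit 22) (nat_lit 5) (nat_lit 24) (nat_lit 4) (nat_lit 22) (nat_lit 4) (nat_lit 453) (nat_lit 295) (nat_lit 272)) (XT.lf (nat_lit 0) (nat_lit 1769036723) (nat_lit 76) (nat_lit 15405794688) (nat_lit 76) (nat_lit 11076283962) (nat_lit 21) (nat_lit 4) (nat_lit 22) (nat_lit 5) (nat_lit 22) (nat_lit 4) (nat_lit 454) (nat_lit 295) (nat_lit 271))))) (XT.nd (nat_lit 234) (nat_lit 76) (nat_lit 0) (XT.nd (nat_lit 78) (nat_lit 152) (nat_lit 0) (XT.lf (nat_lit 0) (nat_lit 14124112711) (nat_lit 76) (nat_lit 9618344095) (nat_lit 76) (nat_lit 5166735215) (nat_lit 21) (nat_lit 4) (nat_lit 22) (nat_lit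 5) (nat_lit 22) (nat_lit 4) (nat_lit 455) (nat_lit 295) (nat_lit 270)) (XT.nd (nat_lit 78) (nat_lit 76) (nat_lit 0) (XT.lf (nat_lit 0) (nat_lit 810803308) (nat_lit 152) (nat_lit 2924220061) (nat_lit 76) (nat_lit 25854465534) (nat_lit 20) (nat_lit 5) (nat_lit 22) (nat_lit 5) (nat_lit 21) (nat_lit 4) (nat_lit 456) (nat_lit 295) (nat_lit 269)) (XT.lf (nat_lit 0) (nat_lit 6886968248) (nat_lit 152) (nat_lit 21062808743) (nat_lit 0) (nat_lit 2338191551) (nat_lit 19) (nat_lit 5) (nat_lit 21) (nat_lit 4) (nat_lit 19) (nat_lit 4) (nat_lit 457) (nat_lit 295) (nat_lit 268)))) (XT.nd (nat_lit 156) (nat_lit 0) (nat_lit 0) (XT.nd (nat_lit 78) (nat_lit 76) (nat_lit 0) (XT.lf (nat_lit 0) (nat_lit 13123670837) (nat_lit 152) (nat_lit 9417975475) (nat_lit 0) (nat_lit 8466411511) (nat_lit 19) (nat_lit 5) (nat_lit 21) (nat_lit 4) (nat_lit 19) (nat_lit 4) (nat_lit 458) (nat_lit 295) (nat_lit 267)) (XT.lf (nat_lit 0) (nat_lit 2456021156)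 (nat_lit 76) (nat_lit 17029092238) (nat_lit 76) (nat_lit 12266509972) (nat_lit 18) (nat_lit 4) (nat_lit 19) (nat_lit 5) (nat_lit 19) (nat_lit 4) (nat_lit 459) (nat_lit 295) (nat_lit 266))) (XT.nd (nat_lit 78) (nat_lit 0) (nat_lit 0) (XT.lf (nat_lit 0) (nat_lit 14712837611) (nat_lit 76) (nat_lit 11334598687) (nat_lit 76) (nat_lit 6469761139) (nat_lit 18) (nat_lit 4) (nat_lit 19) (nat_lit 5) (nat_lit 19) (nat_lit 4) (nat_lit 460) (nat_lit 295) (nat_lit 265)) (XT.lf (nat_lit 0) (nat_lit 27175747549) (nat_lit 76) (nat_lit 5548292973) (nat_lit 76) (nat_lit 584178452) (nat_lit 18) (nat_lit 4) (nat_lit 19) (nat_lit 5) (nat_lit 19) (nat_lit 4) (nat_lit 461) (nat_lit 295) (nat_lit 264)))))) (XT.nd (nat_lit 546) (nat_lit 228) (nat_lit 0) (XT.nd (nat_lit 234) (nat_lit 228) (nat_lit 0) (XT.nd (nat_lit 78) (nat_lit 0) (nat_lit 0) (XT.lf (nat_lit 0) (nat_lit 5350051861) (nat_lit 152) (nat_lit 28335027630) (nat_lit 0) (nat_lit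 436945131) (nat_lit 16) (nat_lit 5) (nat_lit 18) (nat_lit 4) (nat_lit 16) (nat_lit 4) (nat_lit 462) (nat_lit 295) (nat_lit 263)) (XT.nd (nat_lit 78) (nat_lit 0) (nat_lit 0) (XT.lf (nat_lit 0) (nat_lit 11487172301) (nat_lit 152) (nat_lit 16988589775) (nat_lit 0) (nat_lit 6483213078) (nat_lit 16) (nat_lit 5) (nat_lit 18) (nat_lit 4) (nat_lit 16) (nat_lit 4) (nat_lit 463) (nat_lit 295) (nat_lit 262)) (XT.lf (nat_lit 0) (nat_lit 17729893702) (nat_lit 152) (nat_lit 5455770011) (nat_lit 0) (nat_lit 12637728174) (nat_lit 16) (nat_lit 5) (nat_lit 18) (nat_lit 4) (nat_lit 16) (nat_lit 4) (nat_lit 464) (nat_lit 295) (nat_lit 261)))) (XT.nd (nat_lit 156) (nat_lit 152) (nat_lit 0) (XT.nd (nat_lit 78) (nat_lit 0) (nat_lit 0) (XT.lf (nat_lit 0) (nat_lit 6398364009) (nat_lit 76) (nat_lit 17746811847) (nat_lit 76) (nat_lit 12569009130) (nat_lit 15) (nat_lit 4) (nat_lit 16) (nat_lit 5) (nat_lit 16) (nat_lit 4) (nat_lit 465) (nat_lit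 295) (nat_lit 260)) (XT.lf (nat_lit 0) (nat_lit 18571900461) (nat_lit 76) (nat_lit 12160679649) (nat_lit 76) (nat_lit 6899734031) (nat_lit 15) (nat_lit 4) (nat_lit 16) (nat_lit 5) (nat_lit 16) (nat_lit 4) (nat_lit 466) (nat_lit 295) (nat_lit 259))) (XT.nd (nat_lit 78) (nat_lit 152) (nat_lit 0) (XT.lf (nat_lit 0) (nat_lit 30966895892) (nat_lit 76) (nat_lit 6477478615) (nat_lit 76) (nat_lit 1135811733) (nat_lit 15) (nat_lit 4) (nat_lit 16) (nat_lit 5) (nat_lit 16) (nat_lit 4) (nat_lit 467) (nat_lit 295) (nat_lit 258)) (XT.lf (nat_lit 0) (nat_lit 4069515823) (nat_lit 76) (nat_lit 605140760) (nat_lit 152) (nat_lit 34881435983) (nat_lit 13) (nat_lit 5) (nat_lit 14) (nat_lit 5) (nat_lit 15) (nat_lit 4) (nat_lit 468) (nat_lit 295) (nat_lit 257))))) (XT.nd (nat_lit 312) (nat_lit 152) (nat_lit 0) (XT.nd (nat_lit 156) (nat_lit 76) (nat_lit 0) (XT.nd (nat_lit 78) (nat_lit 0) (nat_lit 0) (XT.lf (nat_lit 0) (nat_lit 10694861167)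 (nat_lit 152) (nat_lit 24505514055) (nat_lit 0) (nat_lit 5358817891) (nat_lit 13) (nat_lit 5) (nat_lit 15) (nat_lit 4) (nat_lit 13) (nat_lit 4) (nat_lit 469) (nat_lit 295) (nat_lit 256)) (XT.lf (nat_lit 0) (nat_lit 16832037603) (nat_lit 152) (nat_lit 13337985447) (nat_lit 0) (nat_lit 11424274530) (nat_lit 13) (nat_lit 5) (nat_lit 15) (nat_lit 4) (nat_lit 13) (nat_lit 4) (nat_lit 470) (nat_lit 295) (nat_lit 255))) (XT.nd (nat_lit 78) (nat_lit 76) (nat_lit 0) (XT.lf (nat_lit 0) (nat_lit 23085731488) (nat_lit 152) (nat_lit 1968415903) (nat_lit 0) (nat_lit 17608337544) (nat_lit 13) (nat_lit 5) (nat_lit 15) (nat_lit 4) (nat_lit 13) (nat_lit 4) (nat_lit 471) (nat_lit 295) (nat_lit 254)) (XT.lf (nat_lit 0) (nat_lit 9804449271) (nat_lit 76) (nat_lit 19751204308) (nat_lit 76) (nat_lit 14206207576) (nat_lit 12) (nat_lit 4) (nat_lit 13) (nat_lit 5) (nat_lit 13) (nat_lit 4) (nat_lit 472) (nat_lit 295) (nat_lit 253)))) (XT.nd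 (nat_lit 156) (nat_lit 152) (nat_lit 0) (XT.nd (nat_lit 78) (nat_lit 0) (nat_lit 0) (XT.lf (nat_lit 0) (nat_lit 21843005224) (nat_lit 76) (nat_lit 14331598869) (nat_lit 76) (nat_lit 8720968362) (nat_lit 12) (nat_lit 4) (nat_lit 13) (nat_lit 5) (nat_lit 13) (nat_lit 4) (nat_lit 473) (nat_lit 295) (nat_lit 252)) (XT.lf (nat_lit 0) (nat_lit 34118595745) (nat_lit 76) (nat_lit 8810472637) (nat_lit 76) (nat_lit 3136120019) (nat_lit 12) (nat_lit 4) (nat_lit 13) (nat_lit 5) (nat_lit 13) (nat_lit 4) (nat_lit 474) (nat_lit 295) (nat_lit 251))) (XT.nd (nat_lit 78) (nat_lit 76) (nat_lit 0) (XT.lf (nat_lit 0) (nat_lit 2503394948) (nat_lit 152) (nat_lit 654326998) (nat_lit 76) (nat_lit 44113272748) (nat_lit 11) (nat_lit 5) (nat_lit 13) (nat_lit 5) (nat_lit 12) (nat_lit 4) (nat_lit 475) (nat_lit 295) (nat_lit 250)) (XT.lf (nat_lit 0) (nat_lit 8321602075) (nat_lit 152) (nat_lit 37494124011) (nat_lit 0) (nat_lit 2694142904) (nat_lit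 10) (nat_lit 5) (nat_lit 12) (nat_lit 4) (nat_lit 10) (nat_lit 4) (nat_lit 476) (nat_lit 295) (nat_lit 249))))))))
noncomputable def xc18 : XT := (XT.nd (nat_lit 50154) (nat_lit 0) (nat_lit 684) (XT.nd (nat_lit 1092) (nat_lit 76) (nat_lit 0) (XT.nd (nat_lit 546) (nat_lit 152) (nat_lit 0) (XT.nd (nat_lit 234) (nat_lit 76) (nat_lit 0) (XT.nd (nat_lit 78) (nat_lit 0) (nat_lit 0) (XT.lf (nat_lit 0) (nat_lit 14292336983) (nat_lit 152) (nat_lit 26885973023) (nat_lit 0) (nat_lit 8608261542) (nat_lit 10) (nat_lit 5) (nat_lit 12) (nat_lit 4) (nat_lit 10) (nat_lit 4) (nat_lit 477) (nat_lit 295) (nat_lit 248)) (XT.nd (nat_lit 78) (nat_lit 0) (nat_lit 0) (XT.lf (nat_lit 0) (nat_lit 20383984380) (nat_lit 152) (nat_lit 16074396839) (nat_lit 0) (nat_lit 14644941686) (nat_lit 10) (nat_lit 5) (nat_lit 12) (nat_lit 4) (nat_lit 10) (nat_lit 4) (nat_lit 478) (nat_lit 295) (nat_lit 247)) (XT.lf (nat_lit 0) (nat_lit 26601867063) (nat_lit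 152) (nat_lit 5049948453) (nat_lit 0) (nat_lit 20809458104) (nat_lit 10) (nat_lit 5) (nat_lit 12) (nat_lit 4) (nat_lit 10) (nat_lit 4) (nat_lit 479) (nat_lit 295) (nat_lit 246)))) (XT.nd (nat_lit 156) (nat_lit 0) (nat_lit 0) (XT.nd (nat_lit 78) (nat_lit 0) (nat_lit 0) (XT.lf (nat_lit 0) (nat_lit 6320337702) (nat_lit 76) (nat_lit 26691835385) (nat_lit 76) (nat_lit 20847614519) (nat_lit 9) (nat_lit 4) (nat_lit 10) (nat_lit 5) (nat_lit 10) (nat_lit 4) (nat_lit 480) (nat_lit 295) (nat_lit 245)) (XT.lf (nat_lit 0) (nat_lit 18028084261) (nat_lit 76) (nat_lit 21583398461) (nat_lit 76) (nat_lit 15688874771) (nat_lit 9) (nat_lit 4) (nat_lit 10) (nat_lit 5) (nat_lit 10) (nat_lit 4) (nat_lit 481) (nat_lit 295) (nat_lit 244))) (XT.nd (nat_lit 78) (nat_lit 0) (nat_lit 0) (XT.lf (nat_lit 0) (nat_lit 29983017417) (nat_lit 76) (nat_lit 16373035637) (nat_lit 76) (nat_lit 10429674255) (nat_lit 9) (nat_lit 4) (nat_lit 10) (nat_lit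 5) (nat_lit 10) (nat_lit 4) (nat_lit 482) (nat_lit 295) (nat_lit 243)) (XT.lf (nat_lit 0) (nat_lit 42195583227) (nat_lit 76) (nat_lit 11056194171) (nat_lit 76) (nat_lit 5065417554) (nat_lit 9) (nat_lit 4) (nat_lit 10) (nat_lit 5) (nat_lit 10) (nat_lit 4) (nat_lit 483) (nat_lit 295) (nat_lit 242))))) (XT.nd (nat_lit 234) (nat_lit 0) (nat_lit 0) (XT.nd (nat_lit 78) (nat_lit 76) (nat_lit 0) (XT.lf (nat_lit 0) (nat_lit 400609629) (nat_lit 152) (nat_lit 5223573277) (nat_lit 76) (nat_lit 54271797864) (nat_lit 8) (nat_lit 5) (nat_lit 10) (nat_lit 5) (nat_lit 9) (nat_lit 4) (nat_lit 484) (nat_lit 295) (nat_lit 241)) (XT.nd (nat_lit 78) (nat_lit 0) (nat_lit 0) (XT.lf (nat_lit 0) (nat_lit 5937814421) (nat_lit 152) (nat_lit 55549100716) (nat_lit 0) (nat_lit 33441380) (nat_lit 7) (nat_lit 5) (nat_lit 9) (nat_lit 4) (nat_lit 7) (nat_lit 4) (nat_lit 485) (nat_lit 295) (nat_lit 240)) (XT.lf (nat_lit 0) (nat_lit 11701418209) (nat_lit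 152) (nat_lit 45735320598) (nat_lit 0) (nat_lit 5754917345) (nat_lit 7) (nat_lit 5) (nat_lit 9) (nat_lit 4) (nat_lit 7) (nat_lit 4) (nat_lit 486) (nat_lit 295) (nat_lit 239)))) (XT.nd (nat_lit 156) (nat_lit 0) (nat_lit 0) (XT.nd (nat_lit 78) (nat_lit 0) (nat_lit 0) (XT.lf (nat_lit 0) (nat_lit 17590675516) (nat_lit 152) (nat_lit 35720564110) (nat_lit 0) (nat_lit 11603273855) (nat_lit 7) (nat_lit 5) (nat_lit 9) (nat_lit 4) (nat_lit 7) (nat_lit 4) (nat_lit 487) (nat_lit 295) (nat_lit 238)) (XT.lf (nat_lit 0) (nat_lit 23610732298) (nat_lit 152) (nat_lit 25496080496) (nat_lit 0) (nat_lit 17583621123) (nat_lit 7) (nat_lit 5) (nat_lit 9) (nat_lit 4) (nat_lit 7) (nat_lit 4) (nat_lit 488) (nat_lit 295) (nat_lit 237))) (XT.nd (nat_lit 78) (nat_lit 0) (nat_lit 0) (XT.lf (nat_lit 0) (nat_lit 29766848796) (nat_lit 152) (nat_lit 15052935739) (nat_lit 0) (nat_lit 23701184696) (nat_lit 7) (nat_lit 5) (nat_lit 9) (nat_lit 4) (nat_lit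 7) (nat_lit 4) (nat_lit 489) (nat_lit 295) (nat_lit 236)) (XT.lf (nat_lit 0) (nat_lit 36064404142) (nat_lit 152) (nat_lit 4382004762) (nat_lit 0) (nat_lit 29961310018) (nat_lit 7) (nat_lit 5) (nat_lit 9) (nat_lit 4) (nat_lit 7) (nat_lit 4) (nat_lit 490) (nat_lit 295) (nat_lit 235)))))) (XT.nd (nat_lit 48516) (nat_lit 0) (nat_lit 2128) (XT.nd (nat_lit 48204) (nat_lit 0) (nat_lit 2660) (XT.nd (nat_lit 78) (nat_lit 0) (nat_lit 0) (XT.lf (nat_lit 0) (nat_lit 6655917472) (nat_lit 76) (nat_lit 35916964333) (nat_lit 76) (nat_lit 29777530379) (nat_lit 6) (nat_lit 4) (nat_lit 7) (nat_lit 5) (nat_lit 7) (nat_lit 4) (nat_lit 491) (nat_lit 295) (nat_lit 234)) (XT.nd (nat_lit 78) (nat_lit 0) (nat_lit 0) (XT.lf (nat_lit 0) (nat_lit 18032600479) (nat_lit 76) (nat_lit 31246710556) (nat_lit 76) (nat_lit 25071995214) (nat_lit 6) (nat_lit 4) (nat_lit 7) (nat_lit 5) (nat_lit 7) (nat_lit 4) (nat_lit 492) (nat_lit 295) (nat_lit 233))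 (XT.lf (nat_lit 0) (nat_lit 29670774561) (nat_lit 76) (nat_lit 26475816425) (nat_lit 76) (nat_lit 20266847309) (nat_lit 6) (nat_lit 4) (nat_lit 7) (nat_lit 5) (nat_lit 7) (nat_lit 4) (nat_lit 493) (nat_lit 295) (nat_lit 232)))) (XT.nd (nat_lit 156) (nat_lit 304) (nat_lit 0) (XT.nd (nat_lit 78) (nat_lit 0) (nat_lit 0) (XT.lf (nat_lit 0) (nat_lit 310662091) (nat_lit 152) (nat_lit 7663985293) (nat_lit 0) (nat_lit 310662091) (nat_lit 45) (nat_lit 5) (nat_lit 47) (nat_lit 4) (nat_lit 45) (nat_lit 4) (nat_lit 428) (nat_lit 296) (nat_lit 296)) (XT.lf (nat_lit 0) (nat_lit 6818646409) (nat_lit 152) (nat_lit 3549368972) (nat_lit 0) (nat_lit 6504233557) (nat_lit 45) (nat_lit 5) (nat_lit 47) (nat_lit 4) (nat_lit 45) (nat_lit 4) (nat_lit 429) (nat_lit 296) (nat_lit 295))) (XT.nd (nat_lit 78) (nat_lit 152) (nat_lit 0) (XT.lf (nat_lit 0) (nat_lit 8512220037) (nat_lit 152) (nat_lit 4645849190) (nat_lit 152) (nat_lit 4026181143)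 (nat_lit 43) (nat_lit 4) (nat_lit 45) (nat_lit 5) (nat_lit 45) (nat_lit 4) (nat_lit 430) (nat_lit 296) (nat_lit 294)) (XT.lf (nat_lit 0) (nat_lit 2093837917) (nat_lit 152) (nat_lit 14208035383) (nat_lit 0) (nat_lit 1204486155) (nat_lit 41) (nat_lit 5) (nat_lit 43) (nat_lit 4) (nat_lit 41) (nat_lit 4) (nat_lit 431) (nat_lit 296) (nat_lit 293))))) (XT.nd (nat_lit 234) (nat_lit 228) (nat_lit 0) (XT.nd (nat_lit 78) (nat_lit 304) (nat_lit 0) (XT.lf (nat_lit 0) (nat_lit 8325840565) (nat_lit 152) (nat_lit 2353686436) (nat_lit 0) (nat_lit 7157137057) (nat_lit 41) (nat_lit 5) (nat_lit 43) (nat_lit 4) (nat_lit 41) (nat_lit 4) (nat_lit 432) (nat_lit 296) (nat_lit 292)) (XT.nd (nat_lit 78) (nat_lit 152) (nat_lit 0) (XT.lf (nat_lit 0) (nat_lit 9817765915) (nat_lit 152) (nat_lit 4899925560) (nat_lit 152) (nat_lit 3460006764) (nat_lit 39) (nat_lit 4) (nat_lit 41) (nat_lit 5) (nat_lit 41) (nat_lit 4) (nat_lit 433) (nat_lit 296)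 (nat_lit 291)) (XT.lf (nat_lit 0) (nat_lit 2666295851) (nat_lit 152) (nat_lit 14850762987) (nat_lit 0) (nat_lit 1012670017) (nat_lit 37) (nat_lit 5) (nat_lit 39) (nat_lit 4) (nat_lit 37) (nat_lit 4) (nat_lit 434) (nat_lit 296) (nat_lit 290)))) (XT.nd (nat_lit 156) (nat_lit 152) (nat_lit 0) (XT.nd (nat_lit 78) (nat_lit 76) (nat_lit 0) (XT.lf (nat_lit 0) (nat_lit 8919583279) (nat_lit 152) (nat_lit 2953576680) (nat_lit 0) (nat_lit 7017757037) (nat_lit 37) (nat_lit 5) (nat_lit 39) (nat_lit 4) (nat_lit 37) (nat_lit 4) (nat_lit 435) (nat_lit 296) (nat_lit 289)) (XT.lf (nat_lit 0) (nat_lit 9257301674) (nat_lit 76) (nat_lit 6074649234) (nat_lit 76) (nat_lit 3931851721) (nat_lit 36) (nat_lit 4) (nat_lit 37) (nat_lit 5) (nat_lit 37) (nat_lit 4) (nat_lit 436) (nat_lit 296) (nat_lit 288))) (XT.nd (nat_lit 78) (nat_lit 0) (nat_lit 0) (XT.lf (nat_lit 0) (nat_lit 2041600016) (nat_lit 76) (nat_lit 134927185) (nat_lit 152) (nat_lit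 17472722257) (nat_lit 34) (nat_lit 5) (nat_lit 35) (nat_lit 5) (nat_lit 36) (nat_lit 4) (nat_lit 437) (nat_lit 296) (nat_lit 287)) (XT.lf (nat_lit 0) (nat_lit 8431589458) (nat_lit 152) (nat_lit 5708692228) (nat_lit 0) (nat_lit 5903542141) (nat_lit 34) (nat_lit 5) (nat_lit 36) (nat_lit 4) (nat_lit 34) (nat_lit 4) (nat_lit 438) (nat_lit 296) (nat_lit 286))))))) (XT.nd (nat_lit 1092) (nat_lit 532) (nat_lit 0) (XT.nd (nat_lit 546) (nat_lit 456) (nat_lit 0) (XT.nd (nat_lit 234) (nat_lit 228) (nat_lit 0) (XT.nd (nat_lit 78) (nat_lit 152) (nat_lit 0) (XT.lf (nat_lit 0) (nat_lit 6454083321) (nat_lit 76) (nat_lit 8369907131) (nat_lit 76) (nat_lit 5627759962) (nat_lit 33) (nat_lit 4) (nat_lit 34) (nat_lit 5) (nat_lit 34) (nat_lit 4) (nat_lit 439) (nat_lit 296) (nat_lit 285)) (XT.nd (nat_lit 78) (nat_lit 76) (nat_lit 0) (XT.lf (nat_lit 0) (nat_lit 470432208) (nat_lit 152) (nat_lit 1995033721) (nat_lit 76) (nat_lit 18407960070)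 (nat_lit 32) (nat_lit 5) (nat_lit 34) (nat_lit 5) (nat_lit 33) (nat_lit 4) (nat_lit 440) (nat_lit 296) (nat_lit 284)) (XT.lf (nat_lit 0) (nat_lit 6662538415) (nat_lit 152) (nat_lit 11040306253) (nat_lit 0) (nat_lit 3602518270) (nat_lit 31) (nat_lit 5) (nat_lit 33) (nat_lit 4) (nat_lit 31) (nat_lit 4) (nat_lit 441) (nat_lit 296) (nat_lit 283)))) (XT.nd (nat_lit 156) (nat_lit 152) (nat_lit 0) (XT.nd (nat_lit 78) (nat_lit 0) (nat_lit 0) (XT.lf (nat_lit 0) (nat_lit 966666443) (nat_lit 76) (nat_lit 12017760514) (nat_lit 76) (nat_lit 8767515424) (nat_lit 30) (nat_lit 4) (nat_lit 31) (nat_lit 5) (nat_lit 31) (nat_lit 4) (nat_lit 442) (nat_lit 296) (nat_lit 282)) (XT.lf (nat_lit 0) (nat_lit 13350460928) (nat_lit 76) (nat_lit 6148156624) (nat_lit 76) (nat_lit 2713227119) (nat_lit 30) (nat_lit 4) (nat_lit 31) (nat_lit 5) (nat_lit 31) (nat_lit 4) (nat_lit 443) (nat_lit 296) (nat_lit 281))) (XT.nd (nat_lit 78) (nat_lit 0)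 (nat_lit 0) (XT.lf (nat_lit 0) (nat_lit 3243940430) (nat_lit 76) (nat_lit 134470993) (nat_lit 152) (nat_lit 19308387428) (nat_lit 28) (nat_lit 5) (nat_lit 29) (nat_lit 5) (nat_lit 30) (nat_lit 4) (nat_lit 444) (nat_lit 296) (nat_lit 280)) (XT.lf (nat_lit 0) (nat_lit 9640369430) (nat_lit 152) (nat_lit 7571176386) (nat_lit 0) (nat_lit 5962391243) (nat_lit 28) (nat_lit 5) (nat_lit 30) (nat_lit 4) (nat_lit 28) (nat_lit 4) (nat_lit 445) (nat_lit 296) (nat_lit 279))))) (XT.nd (nat_lit 234) (nat_lit 228) (nat_lit 0) (XT.nd (nat_lit 78) (nat_lit 152) (nat_lit 0) (XT.lf (nat_lit 0) (nat_lit 4544058981) (nat_lit 76) (nat_lit 11487727306) (nat_lit 76) (nat_lit 7645659409) (nat_lit 27) (nat_lit 4) (nat_lit 28) (nat_lit 5) (nat_lit 28) (nat_lit 4) (nat_lit 446) (nat_lit 296) (nat_lit 278)) (XT.nd (nat_lit 78) (nat_lit 152) (nat_lit 0) (XT.lf (nat_lit 0) (nat_lit 16979976576) (nat_lit 76) (nat_lit 5609120466) (nat_lit 76) (nat_lit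 1607742172) (nat_lit 27) (nat_lit 4) (nat_lit 28) (nat_lit 5) (nat_lit 28) (nat_lit 4) (nat_lit 447) (nat_lit 296) (nat_lit 277)) (XT.lf (nat_lit 0) (nat_lit 4472550043) (nat_lit 152) (nat_lit 19821850573) (nat_lit 0) (nat_lit 437551419) (nat_lit 25) (nat_lit 5) (nat_lit 27) (nat_lit 4) (nat_lit 25) (nat_lit 4) (nat_lit 448) (nat_lit 296) (nat_lit 276)))) (XT.nd (nat_lit 156) (nat_lit 152) (nat_lit 0) (XT.nd (nat_lit 78) (nat_lit 76) (nat_lit 0) (XT.lf (nat_lit 0) (nat_lit 10731938693) (nat_lit 152) (nat_lit 7998687269) (nat_lit 0) (nat_lit 6551148488) (nat_lit 25) (nat_lit 5) (nat_lit 27) (nat_lit 4) (nat_lit 25) (nat_lit 4) (nat_lit 449) (nat_lit 296) (nat_lit 275)) (XT.lf (nat_lit 0) (nat_lit 4069857663) (nat_lit 76) (nat_lit 13051157904) (nat_lit 76) (nat_lit 8728822473) (nat_lit 24) (nat_lit 4) (nat_lit 25) (nat_lit 5) (nat_lit 25) (nat_lit 4) (nat_lit 450) (nat_lit 296) (nat_lit 274))) (XT.nd (nat_lit 78)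 (nat_lit 152) (nat_lit 0) (XT.lf (nat_lit 0) (nat_lit 16477543642) (nat_lit 76) (nat_lit 7208811871) (nat_lit 76) (nat_lit 2749053892) (nat_lit 24) (nat_lit 4) (nat_lit 25) (nat_lit 5) (nat_lit 25) (nat_lit 4) (nat_lit 451) (nat_lit 296) (nat_lit 273)) (XT.lf (nat_lit 0) (nat_lit 2042674481) (nat_lit 76) (nat_lit 1226218331) (nat_lit 152) (nat_lit 23770915224) (nat_lit 22) (nat_lit 5) (nat_lit 23) (nat_lit 5) (nat_lit 24) (nat_lit 4) (nat_lit 452) (nat_lit 296) (nat_lit 272)))))) (XT.nd (nat_lit 546) (nat_lit 304) (nat_lit 0) (XT.nd (nat_lit 234) (nat_lit 152) (nat_lit 0) (XT.nd (nat_lit 78) (nat_lit 76) (nat_lit 0) (XT.lf (nat_lit 0) (nat_lit 9466968658) (nat_lit 152) (nat_lit 13311099873) (nat_lit 0) (nat_lit 4881811512) (nat_lit 22) (nat_lit 5) (nat_lit 24) (nat_lit 4) (nat_lit 22) (nat_lit 4) (nat_lit 453) (nat_lit 296) (nat_lit 271)) (XT.nd (nat_lit 78) (nat_lit 76) (nat_lit 0) (XT.lf (nat_lit 0) (nat_lit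 15771716923) (nat_lit 152) (nat_lit 1464756948) (nat_lit 0) (nat_lit 11064461623) (nat_lit 22) (nat_lit 5) (nat_lit 24) (nat_lit 4) (nat_lit 22) (nat_lit 4) (nat_lit 454) (nat_lit 296) (nat_lit 270)) (XT.lf (nat_lit 0) (nat_lit 10774278531) (nat_lit 76) (nat_lit 11506149875) (nat_lit 76) (nat_lit 6680352677) (nat_lit 21) (nat_lit 4) (nat_lit 22) (nat_lit 5) (nat_lit 22) (nat_lit 4) (nat_lit 455) (nat_lit 296) (nat_lit 269)))) (XT.nd (nat_lit 156) (nat_lit 0) (nat_lit 0) (XT.nd (nat_lit 78) (nat_lit 152) (nat_lit 0) (XT.lf (nat_lit 0) (nat_lit 23239263962) (nat_lit 76) (nat_lit 5672119026) (nat_lit 76) (nat_lit 731232607) (nat_lit 21) (nat_lit 4) (nat_lit 22) (nat_lit 5) (nat_lit 22) (nat_lit 4) (nat_lit 456) (nat_lit 296) (nat_lit 268)) (XT.lf (nat_lit 0) (nat_lit 5262513729) (nat_lit 152) (nat_lit 24724640404) (nat_lit 0) (nat_lit 357053995) (nat_lit 19) (nat_lit 5) (nat_lit 21) (nat_lit 4) (nat_lit 19) (nat_lit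 4) (nat_lit 457) (nat_lit 296) (nat_lit 267))) (XT.nd (nat_lit 78) (nat_lit 0) (nat_lit 0) (XT.lf (nat_lit 0) (nat_lit 11456866621) (nat_lit 152) (nat_lit 13162618689) (nat_lit 0) (nat_lit 6446083947) (nat_lit 19) (nat_lit 5) (nat_lit 21) (nat_lit 4) (nat_lit 19) (nat_lit 4) (nat_lit 458) (nat_lit 296) (nat_lit 266)) (XT.lf (nat_lit 0) (nat_lit 17753584191) (nat_lit 152) (nat_lit 1416947442) (nat_lit 0) (nat_lit 12640546234) (nat_lit 19) (nat_lit 5) (nat_lit 21) (nat_lit 4) (nat_lit 19) (nat_lit 4) (nat_lit 459) (nat_lit 296) (nat_lit 265))))) (XT.nd (nat_lit 312) (nat_lit 76) (nat_lit 0) (XT.nd (nat_lit 156) (nat_lit 152) (nat_lit 0) (XT.nd (nat_lit 78) (nat_lit 0) (nat_lit 0) (XT.lf (nat_lit 0) (nat_lit 10732057644) (nat_lit 76) (nat_lit 13529273884) (nat_lit 76) (nat_lit 8316958955) (nat_lit 18) (nat_lit 4) (nat_lit 19) (nat_lit 5) (nat_lit 19) (nat_lit 4) (nat_lit 460) (nat_lit 296) (nat_lit 264)) (XT.lf (nat_lit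 0) (nat_lit 23117675024) (nat_lit 76) (nat_lit 7780761772) (nat_lit 76) (nat_lit 2472061433) (nat_lit 18) (nat_lit 4) (nat_lit 19) (nat_lit 5) (nat_lit 19) (nat_lit 4) (nat_lit 461) (nat_lit 296) (nat_lit 263))) (XT.nd (nat_lit 78) (nat_lit 0) (nat_lit 0) (XT.lf (nat_lit 0) (nat_lit 1530240967) (nat_lit 76) (nat_lit 1884793207) (nat_lit 152) (nat_lit 30772334518) (nat_lit 16) (nat_lit 5) (nat_lit 17) (nat_lit 5) (nat_lit 18) (nat_lit 4) (nat_lit 462) (nat_lit 296) (nat_lit 262)) (XT.lf (nat_lit 0) (nat_lit 9495360646) (nat_lit 152) (nat_lit 21368439685) (nat_lit 0) (nat_lit 4162223849) (nat_lit 16) (nat_lit 5) (nat_lit 18) (nat_lit 4) (nat_lit 16) (nat_lit 4) (nat_lit 463) (nat_lit 296) (nat_lit 261)))) (XT.nd (nat_lit 156) (nat_lit 0) (nat_lit 0) (XT.nd (nat_lit 78) (nat_lit 76) (nat_lit 0) (XT.lf (nat_lit 0) (nat_lit 15700532354) (nat_lit 152) (nat_lit 9909277785) (nat_lit 0) (nat_lit 10281758367) (nat_lit 16)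 (nat_lit 5) (nat_lit 18) (nat_lit 4) (nat_lit 16) (nat_lit 4) (nat_lit 464) (nat_lit 296) (nat_lit 260)) (XT.lf (nat_lit 0) (nat_lit 1783286971) (nat_lit 76) (nat_lit 20251708580) (nat_lit 76) (nat_lit 14749791692) (nat_lit 15) (nat_lit 4) (nat_lit 16) (nat_lit 5) (nat_lit 16) (nat_lit 4) (nat_lit 465) (nat_lit 296) (nat_lit 259))) (XT.nd (nat_lit 78) (nat_lit 0) (nat_lit 0) (XT.lf (nat_lit 0) (nat_lit 13886012037) (nat_lit 76) (nat_lit 14700312900) (nat_lit 76) (nat_lit 9117674747) (nat_lit 15) (nat_lit 4) (nat_lit 16) (nat_lit 5) (nat_lit 16) (nat_lit 4) (nat_lit 466) (nat_lit 296) (nat_lit 258)) (XT.lf (nat_lit 0) (nat_lit 26212258549) (nat_lit 76) (nat_lit 9050836638) (nat_lit 76) (nat_lit 3389828327) (nat_lit 15) (nat_lit 4) (nat_lit 16) (nat_lit 5) (nat_lit 16) (nat_lit 4) (nat_lit 467) (nat_lit 296) (nat_lit 257))))))))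
noncomputable def xc19 : XT := (XT.nd (nat_lit 50076) (nat_lit 0) (nat_lit 988) (XT.nd (nat_lit 1092) (nat_lit 228) (nat_lit 0) (XT.nd (nat_lit 546) (nat_lit 228) (nat_lit 0) (XT.nd (nat_lit 234) (nat_lit 76) (nat_lit 0) (XT.nd (nat_lit 78) (nat_lit 76) (nat_lit 0) (XT.lf (nat_lit 0) (nat_lit 2391163637) (nat_lit 152) (nat_lit 883033659) (nat_lit 76) (nat_lit 36357487314) (nat_lit 14) (nat_lit 5) (nat_lit 16) (nat_lit 5) (nat_lit 15) (nat_lit 4) (nat_lit 468) (nat_lit 296) (nat_lit 256)) (XT.nd (nat_lit 78) (nat_lit 0) (nat_lit 0) (XT.lf (nat_lit 0) (nat_lit 8342670297) (nat_lit 152) (nat_lit 29593222189) (nat_lit 0) (nat_lit 2700954534) (nat_lit 13) (nat_lit 5) (nat_lit 15) (nat_lit 4) (nat_lit 13) (nat_lit 4) (nat_lit 469) (nat_lit 296) (nat_lit 255)) (XT.lf (nat_lit 0) (nat_lit 14446547302) (nat_lit 152) (nat_lit 18491203395) (nat_lit 0) (nat_lit 8735200668) (nat_lit 13) (nat_lit 5) (nat_lit 15) (nat_lit 4)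 (nat_lit 13) (nat_lit 4) (nat_lit 470) (nat_lit 296) (nat_lit 254)))) (XT.nd (nat_lit 156) (nat_lit 0) (nat_lit 0) (XT.nd (nat_lit 78) (nat_lit 76) (nat_lit 0) (XT.lf (nat_lit 0) (nat_lit 20667911644) (nat_lit 152) (nat_lit 7185235611) (nat_lit 0) (nat_lit 14888962222) (nat_lit 13) (nat_lit 5) (nat_lit 15) (nat_lit 4) (nat_lit 13) (nat_lit 4) (nat_lit 471) (nat_lit 296) (nat_lit 253)) (XT.lf (nat_lit 0) (nat_lit 4420826408) (nat_lit 76) (nat_lit 22633868744) (nat_lit 76) (nat_lit 16789285548) (nat_lit 12) (nat_lit 4) (nat_lit 13) (nat_lit 5) (nat_lit 13) (nat_lit 4) (nat_lit 472) (nat_lit 296) (nat_lit 252))) (XT.nd (nat_lit 78) (nat_lit 0) (nat_lit 0) (XT.lf (nat_lit 0) (nat_lit 16398238464) (nat_lit 76) (nat_lit 17244345753) (nat_lit 76) (nat_lit 11336040446) (nat_lit 12) (nat_lit 4) (nat_lit 13) (nat_lit 5) (nat_lit 13) (nat_lit 4) (nat_lit 473) (nat_lit 296) (nat_lit 251)) (XT.lf (nat_lit 0) (nat_lit 28614465978)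 (nat_lit 76) (nat_lit 11752425782) (nat_lit 76) (nat_lit 5782254347) (nat_lit 12) (nat_lit 4) (nat_lit 13) (nat_lit 5) (nat_lit 13) (nat_lit 4) (nat_lit 474) (nat_lit 296) (nat_lit 250))))) (XT.nd (nat_lit 234) (nat_lit 76) (nat_lit 0) (XT.nd (nat_lit 78) (nat_lit 152) (nat_lit 0) (XT.lf (nat_lit 0) (nat_lit 41080183322) (nat_lit 76) (nat_lit 6153310066) (nat_lit 76) (nat_lit 123074430) (nat_lit 12) (nat_lit 4) (nat_lit 13) (nat_lit 5) (nat_lit 13) (nat_lit 4) (nat_lit 475) (nat_lit 296) (nat_lit 249)) (XT.nd (nat_lit 78) (nat_lit 0) (nat_lit 0) (XT.lf (nat_lit 0) (nat_lit 5252557283) (nat_lit 76) (nat_lit 334195267) (nat_lit 152) (nat_lit 43012049238) (nat_lit 10) (nat_lit 5) (nat_lit 11) (nat_lit 5) (nat_lit 12) (nat_lit 4) (nat_lit 476) (nat_lit 296) (nat_lit 248)) (XT.lf (nat_lit 0) (nat_lit 11525600309) (nat_lit 152) (nat_lit 32791442276) (nat_lit 0) (nat_lit 5559419082) (nat_lit 10) (nat_lit 5) (nat_lit 12)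 (nat_lit 4) (nat_lit 10) (nat_lit 4) (nat_lit 477) (nat_lit 296) (nat_lit 247)))) (XT.nd (nat_lit 156) (nat_lit 76) (nat_lit 0) (XT.nd (nat_lit 78) (nat_lit 0) (nat_lit 0) (XT.lf (nat_lit 0) (nat_lit 17589408231) (nat_lit 152) (nat_lit 22034779926) (nat_lit 0) (nat_lit 11569860738) (nat_lit 10) (nat_lit 5) (nat_lit 12) (nat_lit 4) (nat_lit 10) (nat_lit 4) (nat_lit 478) (nat_lit 296) (nat_lit 246)) (XT.lf (nat_lit 0) (nat_lit 23780262298) (nat_lit 152) (nat_lit 11063645942) (nat_lit 0) (nat_lit 17708902897) (nat_lit 10) (nat_lit 5) (nat_lit 12) (nat_lit 4) (nat_lit 10) (nat_lit 4) (nat_lit 479) (nat_lit 296) (nat_lit 245))) (XT.nd (nat_lit 78) (nat_lit 0) (nat_lit 0) (XT.lf (nat_lit 0) (nat_lit 134164130) (nat_lit 76) (nat_lit 29970697531) (nat_lit 76) (nat_lit 23849035308) (nat_lit 9) (nat_lit 4) (nat_lit 10) (nat_lit 5) (nat_lit 10) (nat_lit 4) (nat_lit 480) (nat_lit 296) (nat_lit 244)) (XT.lf (nat_lit 0) (nat_lit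 11790656601) (nat_lit 76) (nat_lit 24887544946) (nat_lit 76) (nat_lit 18717045030) (nat_lit 9) (nat_lit 4) (nat_lit 10) (nat_lit 5) (nat_lit 10) (nat_lit 4) (nat_lit 481) (nat_lit 296) (nat_lit 243)))))) (XT.nd (nat_lit 546) (nat_lit 76) (nat_lit 0) (XT.nd (nat_lit 234) (nat_lit 152) (nat_lit 0) (XT.nd (nat_lit 78) (nat_lit 0) (nat_lit 0) (XT.lf (nat_lit 0) (nat_lit 23695828505) (nat_lit 76) (nat_lit 19701730025) (nat_lit 76) (nat_lit 13483814874) (nat_lit 9) (nat_lit 4) (nat_lit 10) (nat_lit 5) (nat_lit 10) (nat_lit 4) (nat_lit 482) (nat_lit 296) (nat_lit 242)) (XT.nd (nat_lit 78) (nat_lit 0) (nat_lit 0) (XT.lf (nat_lit 0) (nat_lit 35860082421) (nat_lit 76) (nat_lit 14408721474) (nat_lit 76) (nat_lit 8144772114) (nat_lit 9) (nat_lit 4) (nat_lit 10) (nat_lit 5) (nat_lit 10) (nat_lit 4) (nat_lit 483) (nat_lit 296) (nat_lit 241)) (XT.lf (nat_lit 0) (nat_lit 48294047307) (nat_lit 76) (nat_lit 9003894333) (nat_lit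 76) (nat_lit 2695251568) (nat_lit 9) (nat_lit 4) (nat_lit 10) (nat_lit 5) (nat_lit 10) (nat_lit 4) (nat_lit 484) (nat_lit 296) (nat_lit 240)))) (XT.nd (nat_lit 156) (nat_lit 0) (nat_lit 0) (XT.nd (nat_lit 78) (nat_lit 76) (nat_lit 0) (XT.lf (nat_lit 0) (nat_lit 2813514036) (nat_lit 152) (nat_lit 640600928) (nat_lit 76) (nat_lit 58166662783) (nat_lit 8) (nat_lit 5) (nat_lit 10) (nat_lit 5) (nat_lit 9) (nat_lit 4) (nat_lit 485) (nat_lit 296) (nat_lit 239)) (XT.lf (nat_lit 0) (nat_lit 8514294049) (nat_lit 152) (nat_lit 52473299032) (nat_lit 0) (nat_lit 2306369540) (nat_lit 7) (nat_lit 5) (nat_lit 9) (nat_lit 4) (nat_lit 7) (nat_lit 4) (nat_lit 486) (nat_lit 296) (nat_lit 238))) (XT.nd (nat_lit 78) (nat_lit 0) (nat_lit 0) (XT.lf (nat_lit 0) (nat_lit 14380951236) (nat_lit 152) (nat_lit 42503230017) (nat_lit 0) (nat_lit 8133317213) (nat_lit 7) (nat_lit 5) (nat_lit 9) (nat_lit 4) (nat_lit 7) (nat_lit 4) (nat_lit 487)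 (nat_lit 296) (nat_lit 237)) (XT.lf (nat_lit 0) (nat_lit 20379066152) (nat_lit 152) (nat_lit 32322132296) (nat_lit 0) (nat_lit 14092879204) (nat_lit 7) (nat_lit 5) (nat_lit 9) (nat_lit 4) (nat_lit 7) (nat_lit 4) (nat_lit 488) (nat_lit 296) (nat_lit 236))))) (XT.nd (nat_lit 312) (nat_lit 0) (nat_lit 0) (XT.nd (nat_lit 156) (nat_lit 76) (nat_lit 0) (XT.nd (nat_lit 78) (nat_lit 0) (nat_lit 0) (XT.lf (nat_lit 0) (nat_lit 26513879869) (nat_lit 152) (nat_lit 21921109768) (nat_lit 0) (nat_lit 20190262896) (nat_lit 7) (nat_lit 5) (nat_lit 9) (nat_lit 4) (nat_lit 7) (nat_lit 4) (nat_lit 489) (nat_lit 296) (nat_lit 235)) (XT.lf (nat_lit 0) (nat_lit 32790752903) (nat_lit 152) (nat_lit 11291074158) (nat_lit 0) (nat_lit 26430796101) (nat_lit 7) (nat_lit 5) (nat_lit 9) (nat_lit 4) (nat_lit 7) (nat_lit 4) (nat_lit 490) (nat_lit 296) (nat_lit 234))) (XT.nd (nat_lit 78) (nat_lit 76) (nat_lit 0) (XT.lf (nat_lit 0) (nat_lit 39215169900)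 (nat_lit 152) (nat_lit 422737086) (nat_lit 0) (nat_lit 32819931711) (nat_lit 7) (nat_lit 5) (nat_lit 9) (nat_lit 4) (nat_lit 7) (nat_lit 4) (nat_lit 491) (nat_lit 296) (nat_lit 233)) (XT.lf (nat_lit 0) (nat_lit 10906217640) (nat_lit 76) (nat_lit 34991364025) (nat_lit 76) (nat_lit 28561872061) (nat_lit 6) (nat_lit 4) (nat_lit 7) (nat_lit 5) (nat_lit 7) (nat_lit 4) (nat_lit 492) (nat_lit 296) (nat_lit 232)))) (XT.nd (nat_lit 47970) (nat_lit 0) (nat_lit 2964) (XT.nd (nat_lit 47892) (nat_lit 0) (nat_lit 3268) (XT.lf (nat_lit 0) (nat_lit 22506221837) (nat_lit 76) (nat_lit 30239345622) (nat_lit 76) (nat_lit 23776597566) (nat_lit 6) (nat_lit 4) (nat_lit 7) (nat_lit 5) (nat_lit 7) (nat_lit 4) (nat_lit 493) (nat_lit 296) (nat_lit 231)) (XT.lf (nat_lit 0) (nat_lit 2467615532) (nat_lit 152) (nat_lit 3058772862) (nat_lit 0) (nat_lit 2467615532) (nat_lit 49) (nat_lit 5) (nat_lit 51) (nat_lit 4) (nat_lit 49) (nat_lit 4) (nat_lit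 426) (nat_lit 297) (nat_lit 297))) (XT.nd (nat_lit 78) (nat_lit 152) (nat_lit 0) (XT.lf (nat_lit 0) (nat_lit 5661991832) (nat_lit 152) (nat_lit 5473453609) (nat_lit 152) (nat_lit 5139893015) (nat_lit 47) (nat_lit 4) (nat_lit 49) (nat_lit 5) (nat_lit 49) (nat_lit 4) (nat_lit 427) (nat_lit 297) (nat_lit 296)) (XT.lf (nat_lit 0) (nat_lit 881419149) (nat_lit 152) (nat_lit 15447955299) (nat_lit 0) (nat_lit 243161060) (nat_lit 45) (nat_lit 5) (nat_lit 47) (nat_lit 4) (nat_lit 45) (nat_lit 4) (nat_lit 428) (nat_lit 297) (nat_lit 295))))))) (XT.nd (nat_lit 1092) (nat_lit 912) (nat_lit 0) (XT.nd (nat_lit 546) (nat_lit 456) (nat_lit 0) (XT.nd (nat_lit 234) (nat_lit 304) (nat_lit 0) (XT.nd (nat_lit 78) (nat_lit 304) (nat_lit 0) (XT.lf (nat_lit 0) (nat_lit 7016847906) (nat_lit 152) (nat_lit 3785843697) (nat_lit 0) (nat_lit 6073334622) (nat_lit 45) (nat_lit 5) (nat_lit 47) (nat_lit 4) (nat_lit 45) (nat_lit 4) (nat_lit 429)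 (nat_lit 297) (nat_lit 294)) (XT.nd (nat_lit 78) (nat_lit 152) (nat_lit 0) (XT.lf (nat_lit 0) (nat_lit 8155691047) (nat_lit 152) (nat_lit 5137061757) (nat_lit 152) (nat_lit 3897184205) (nat_lit 43) (nat_lit 4) (nat_lit 45) (nat_lit 5) (nat_lit 45) (nat_lit 4) (nat_lit 430) (nat_lit 297) (nat_lit 293)) (XT.lf (nat_lit 0) (nat_lit 2150368755) (nat_lit 152) (nat_lit 14696489807) (nat_lit 0) (nat_lit 667252395) (nat_lit 41) (nat_lit 5) (nat_lit 43) (nat_lit 4) (nat_lit 41) (nat_lit 4) (nat_lit 431) (nat_lit 297) (nat_lit 292)))) (XT.nd (nat_lit 156) (nat_lit 152) (nat_lit 0) (XT.nd (nat_lit 78) (nat_lit 152) (nat_lit 0) (XT.lf (nat_lit 0) (nat_lit 8322525990) (nat_lit 152) (nat_lit 2955494081) (nat_lit 0) (nat_lit 6568194342) (nat_lit 41) (nat_lit 5) (nat_lit 43) (nat_lit 4) (nat_lit 41) (nat_lit 4) (nat_lit 432) (nat_lit 297) (nat_lit 291)) (XT.lf (nat_lit 0) (nat_lit 9091739203) (nat_lit 152) (nat_lit 5557556341)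 (nat_lit 152) (nat_lit 3539908880) (nat_lit 39) (nat_lit 4) (nat_lit 41) (nat_lit 5) (nat_lit 41) (nat_lit 4) (nat_lit 433) (nat_lit 297) (nat_lit 290))) (XT.nd (nat_lit 78) (nat_lit 0) (nat_lit 0) (XT.lf (nat_lit 0) (nat_lit 2514708158) (nat_lit 152) (nat_lit 15721123740) (nat_lit 0) (nat_lit 307626720) (nat_lit 37) (nat_lit 5) (nat_lit 39) (nat_lit 4) (nat_lit 37) (nat_lit 4) (nat_lit 434) (nat_lit 297) (nat_lit 289)) (XT.lf (nat_lit 0) (nat_lit 8710111218) (nat_lit 152) (nat_lit 3934216665) (nat_lit 0) (nat_lit 6262058509) (nat_lit 37) (nat_lit 5) (nat_lit 39) (nat_lit 4) (nat_lit 37) (nat_lit 4) (nat_lit 435) (nat_lit 297) (nat_lit 288))))) (XT.nd (nat_lit 234) (nat_lit 228) (nat_lit 0) (XT.nd (nat_lit 78) (nat_lit 152) (nat_lit 0) (XT.lf (nat_lit 0) (nat_lit 8147946969) (nat_lit 76) (nat_lit 6907669666) (nat_lit 76) (nat_lit 4225664268) (nat_lit 36) (nat_lit 4) (nat_lit 37) (nat_lit 5) (nat_lit 37) (nat_lit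 4) (nat_lit 436) (nat_lit 297) (nat_lit 287)) (XT.nd (nat_lit 78) (nat_lit 0) (nat_lit 0) (XT.lf (nat_lit 0) (nat_lit 785951570) (nat_lit 76) (nat_lit 1034292519) (nat_lit 152) (nat_lit 17848617327) (nat_lit 34) (nat_lit 5) (nat_lit 35) (nat_lit 5) (nat_lit 36) (nat_lit 4) (nat_lit 437) (nat_lit 297) (nat_lit 286)) (XT.lf (nat_lit 0) (nat_lit 8010656348) (nat_lit 152) (nat_lit 7082576781) (nat_lit 0) (nat_lit 4972144911) (nat_lit 34) (nat_lit 5) (nat_lit 36) (nat_lit 4) (nat_lit 34) (nat_lit 4) (nat_lit 438) (nat_lit 297) (nat_lit 285)))) (XT.nd (nat_lit 156) (nat_lit 152) (nat_lit 0) (XT.nd (nat_lit 78) (nat_lit 0) (nat_lit 0) (XT.lf (nat_lit 0) (nat_lit 4946638033) (nat_lit 76) (nat_lit 9387555281) (nat_lit 76) (nat_lit 6141179910) (nat_lit 33) (nat_lit 4) (nat_lit 34) (nat_lit 5) (nat_lit 34) (nat_lit 4) (nat_lit 439) (nat_lit 297) (nat_lit 284)) (XT.lf (nat_lit 0) (nat_lit 17272573415) (nat_lit 76) (nat_lit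 3537207402) (nat_lit 76) (nat_lit 89022385) (nat_lit 33) (nat_lit 4) (nat_lit 34) (nat_lit 5) (nat_lit 34) (nat_lit 4) (nat_lit 440) (nat_lit 297) (nat_lit 283))) (XT.nd (nat_lit 78) (nat_lit 0) (nat_lit 0) (XT.lf (nat_lit 0) (nat_lit 6024166806) (nat_lit 152) (nat_lit 12822831664) (nat_lit 0) (nat_lit 2486189417) (nat_lit 31) (nat_lit 5) (nat_lit 33) (nat_lit 4) (nat_lit 31) (nat_lit 4) (nat_lit 441) (nat_lit 297) (nat_lit 282)) (XT.lf (nat_lit 0) (nat_lit 12284140372) (nat_lit 152) (nat_lit 936008214) (nat_lit 0) (nat_lit 8561478569) (nat_lit 31) (nat_lit 5) (nat_lit 33) (nat_lit 4) (nat_lit 31) (nat_lit 4) (nat_lit 442) (nat_lit 297) (nat_lit 281)))))) (XT.nd (nat_lit 546) (nat_lit 456) (nat_lit 0) (XT.nd (nat_lit 234) (nat_lit 228) (nat_lit 0) (XT.nd (nat_lit 78) (nat_lit 152) (nat_lit 0) (XT.lf (nat_lit 0) (nat_lit 11328864768) (nat_lit 76) (nat_lit 7408235482) (nat_lit 76) (nat_lit 3506268424) (nat_lit 30)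 (nat_lit 4) (nat_lit 31) (nat_lit 5) (nat_lit 31) (nat_lit 4) (nat_lit 443) (nat_lit 297) (nat_lit 280)) (XT.nd (nat_lit 78) (nat_lit 0) (nat_lit 0) (XT.lf (nat_lit 0) (nat_lit 1057385985) (nat_lit 76) (nat_lit 1471400131) (nat_lit 152) (nat_lit 20191929383) (nat_lit 28) (nat_lit 5) (nat_lit 29) (nat_lit 5) (nat_lit 30) (nat_lit 4) (nat_lit 444) (nat_lit 297) (nat_lit 279)) (XT.lf (nat_lit 0) (nat_lit 8726951087) (nat_lit 152) (nat_lit 9877287079) (nat_lit 0) (nat_lit 4605531444) (nat_lit 28) (nat_lit 5) (nat_lit 30) (nat_lit 4) (nat_lit 28) (nat_lit 4) (nat_lit 445) (nat_lit 297) (nat_lit 278)))) (XT.nd (nat_lit 156) (nat_lit 152) (nat_lit 0) (XT.nd (nat_lit 78) (nat_lit 0) (nat_lit 0) (XT.lf (nat_lit 0) (nat_lit 2094526781) (nat_lit 76) (nat_lit 12950836843) (nat_lit 76) (nat_lit 8670106803) (nat_lit 27) (nat_lit 4) (nat_lit 28) (nat_lit 5) (nat_lit 28) (nat_lit 4) (nat_lit 446) (nat_lit 297) (nat_lit 277)) (XT.lf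 (nat_lit 0) (nat_lit 14435759539) (nat_lit 76) (nat_lit 7117987276) (nat_lit 76) (nat_lit 2682586947) (nat_lit 27) (nat_lit 4) (nat_lit 28) (nat_lit 5) (nat_lit 28) (nat_lit 4) (nat_lit 447) (nat_lit 297) (nat_lit 276))) (XT.nd (nat_lit 78) (nat_lit 0) (nat_lit 0) (XT.lf (nat_lit 0) (nat_lit 2195192793) (nat_lit 76) (nat_lit 1145082305) (nat_lit 152) (nat_lit 21433835450) (nat_lit 25) (nat_lit 5) (nat_lit 26) (nat_lit 5) (nat_lit 27) (nat_lit 4) (nat_lit 448) (nat_lit 297) (nat_lit 275)) (XT.lf (nat_lit 0) (nat_lit 9540767159) (nat_lit 152) (nat_lit 10837718084) (nat_lit 0) (nat_lit 4947216441) (nat_lit 25) (nat_lit 5) (nat_lit 27) (nat_lit 4) (nat_lit 25) (nat_lit 4) (nat_lit 449) (nat_lit 297) (nat_lit 274))))) (XT.nd (nat_lit 312) (nat_lit 228) (nat_lit 0) (XT.nd (nat_lit 156) (nat_lit 152) (nat_lit 0) (XT.nd (nat_lit 78) (nat_lit 0) (nat_lit 0) (XT.lf (nat_lit 0) (nat_lit 1082265184) (nat_lit 76) (nat_lit 14772365759)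 (nat_lit 76) (nat_lit 10041392492) (nat_lit 24) (nat_lit 4) (nat_lit 25) (nat_lit 5) (nat_lit 25) (nat_lit 4) (nat_lit 450) (nat_lit 297) (nat_lit 273)) (XT.lf (nat_lit 0) (nat_lit 13400573121) (nat_lit 76) (nat_lit 8973398298) (nat_lit 76) (nat_lit 4109005082) (nat_lit 24) (nat_lit 4) (nat_lit 25) (nat_lit 5) (nat_lit 25) (nat_lit 4) (nat_lit 451) (nat_lit 297) (nat_lit 272))) (XT.nd (nat_lit 78) (nat_lit 76) (nat_lit 0) (XT.lf (nat_lit 0) (nat_lit 1870740242) (nat_lit 152) (nat_lit 1196324455) (nat_lit 76) (nat_lit 24022646403) (nat_lit 23) (nat_lit 5) (nat_lit 25) (nat_lit 5) (nat_lit 24) (nat_lit 4) (nat_lit 452) (nat_lit 297) (nat_lit 271)) (XT.lf (nat_lit 0) (nat_lit 7994246082) (nat_lit 152) (nat_lit 16694100727) (nat_lit 0) (nat_lit 3023674968) (nat_lit 22) (nat_lit 5) (nat_lit 24) (nat_lit 4) (nat_lit 22) (nat_lit 4) (nat_lit 453) (nat_lit 297) (nat_lit 270)))) (XT.nd (nat_lit 156) (nat_lit 152) (nat_lit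 0) (XT.nd (nat_lit 78) (nat_lit 76) (nat_lit 0) (XT.lf (nat_lit 0) (nat_lit 14255276029) (nat_lit 152) (nat_lit 4932951257) (nat_lit 0) (nat_lit 9166163018) (nat_lit 22) (nat_lit 5) (nat_lit 24) (nat_lit 4) (nat_lit 22) (nat_lit 4) (nat_lit 454) (nat_lit 297) (nat_lit 269)) (XT.lf (nat_lit 0) (nat_lit 7152702131) (nat_lit 76) (nat_lit 13534027605) (nat_lit 76) (nat_lit 8329825373) (nat_lit 21) (nat_lit 4) (nat_lit 22) (nat_lit 5) (nat_lit 22) (nat_lit 4) (nat_lit 455) (nat_lit 297) (nat_lit 268))) (XT.nd (nat_lit 78) (nat_lit 152) (nat_lit 0) (XT.lf (nat_lit 0) (nat_lit 19535786373) (nat_lit 76) (nat_lit 7739901952) (nat_lit 76) (nat_lit 2423962613) (nat_lit 21) (nat_lit 4) (nat_lit 22) (nat_lit 5) (nat_lit 22) (nat_lit 4) (nat_lit 456) (nat_lit 297) (nat_lit 267)) (XT.lf (nat_lit 0) (nat_lit 1722478701) (nat_lit 76) (nat_lit 1798162022) (nat_lit 152) (nat_lit 26883557479) (nat_lit 19) (nat_lit 5) (nat_lit 20)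 (nat_lit 5) (nat_lit 21) (nat_lit 4) (nat_lit 457) (nat_lit 297) (nat_lit 266))))))))
noncomputable def xc20 : XT := (XT.nd (nat_lit 2184) (nat_lit 228) (nat_lit 0) (XT.nd (nat_lit 1092) (nat_lit 304) (nat_lit 0) (XT.nd (nat_lit 546) (nat_lit 228) (nat_lit 0) (XT.nd (nat_lit 234) (nat_lit 152) (nat_lit 0) (XT.nd (nat_lit 78) (nat_lit 76) (nat_lit 0) (XT.lf (nat_lit 0) (nat_lit 9656592370) (nat_lit 152) (nat_lit 17182812320) (nat_lit 0) (nat_lit 4287907993) (nat_lit 19) (nat_lit 5) (nat_lit 21) (nat_lit 4) (nat_lit 19) (nat_lit 4) (nat_lit 458) (nat_lit 297) (nat_lit 265)) (XT.nd (nat_lit 78) (nat_lit 76) (nat_lit 0) (XT.lf (nat_lit 0) (nat_lit 15913391289) (nat_lit 152) (nat_lit 5515198904) (nat_lit 0) (nat_lit 10445429939) (nat_lit 19) (nat_lit 5) (nat_lit 21) (nat_lit 4) (nat_lit 19) (nat_lit 4) (nat_lit 459) (nat_lit 297) (nat_lit 264)) (XT.lf (nat_lit 0) (nat_lit 6474950385) (nat_lit 76) (nat_lit 15866510350)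 (nat_lit 76) (nat_lit 10302163589) (nat_lit 18) (nat_lit 4) (nat_lit 19) (nat_lit 5) (nat_lit 19) (nat_lit 4) (nat_lit 460) (nat_lit 297) (nat_lit 263)))) (XT.nd (nat_lit 156) (nat_lit 76) (nat_lit 0) (XT.nd (nat_lit 78) (nat_lit 76) (nat_lit 0) (XT.lf (nat_lit 0) (nat_lit 18785526446) (nat_lit 76) (nat_lit 10154691056) (nat_lit 76) (nat_lit 4496766228) (nat_lit 18) (nat_lit 4) (nat_lit 19) (nat_lit 5) (nat_lit 19) (nat_lit 4) (nat_lit 461) (nat_lit 297) (nat_lit 262)) (XT.lf (nat_lit 0) (nat_lit 1377527721) (nat_lit 152) (nat_lit 2952396047) (nat_lit 76) (nat_lit 29926084770) (nat_lit 17) (nat_lit 5) (nat_lit 19) (nat_lit 5) (nat_lit 18) (nat_lit 4) (nat_lit 462) (nat_lit 297) (nat_lit 261))) (XT.nd (nat_lit 78) (nat_lit 0) (nat_lit 0) (XT.lf (nat_lit 0) (nat_lit 7367568765) (nat_lit 152) (nat_lit 26029210555) (nat_lit 0) (nat_lit 1700594370) (nat_lit 16) (nat_lit 5) (nat_lit 18) (nat_lit 4) (nat_lit 16) (nat_lit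 4) (nat_lit 463) (nat_lit 297) (nat_lit 260)) (XT.lf (nat_lit 0) (nat_lit 13536284460) (nat_lit 152) (nat_lit 14641561144) (nat_lit 0) (nat_lit 7786167163) (nat_lit 16) (nat_lit 5) (nat_lit 18) (nat_lit 4) (nat_lit 16) (nat_lit 4) (nat_lit 464) (nat_lit 297) (nat_lit 259))))) (XT.nd (nat_lit 234) (nat_lit 152) (nat_lit 0) (XT.nd (nat_lit 78) (nat_lit 76) (nat_lit 0) (XT.lf (nat_lit 0) (nat_lit 19818211425) (nat_lit 152) (nat_lit 3053224340) (nat_lit 0) (nat_lit 13987372865) (nat_lit 16) (nat_lit 5) (nat_lit 18) (nat_lit 4) (nat_lit 16) (nat_lit 4) (nat_lit 465) (nat_lit 297) (nat_lit 258)) (XT.nd (nat_lit 78) (nat_lit 0) (nat_lit 0) (XT.lf (nat_lit 0) (nat_lit 8919986655) (nat_lit 76) (nat_lit 17384596437) (nat_lit 76) (nat_lit 11475387718) (nat_lit 15) (nat_lit 4) (nat_lit 16) (nat_lit 5) (nat_lit 16) (nat_lit 4) (nat_lit 466) (nat_lit 297) (nat_lit 257)) (XT.lf (nat_lit 0) (nat_lit 21179486645) (nat_lit 76) (nat_lit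 11767862674) (nat_lit 76) (nat_lit 5782566422) (nat_lit 15) (nat_lit 4) (nat_lit 16) (nat_lit 5) (nat_lit 16) (nat_lit 4) (nat_lit 467) (nat_lit 297) (nat_lit 256)))) (XT.nd (nat_lit 156) (nat_lit 0) (nat_lit 0) (XT.nd (nat_lit 78) (nat_lit 76) (nat_lit 0) (XT.lf (nat_lit 0) (nat_lit 11775066) (nat_lit 152) (nat_lit 6035264259) (nat_lit 76) (nat_lit 33663328691) (nat_lit 14) (nat_lit 5) (nat_lit 16) (nat_lit 5) (nat_lit 15) (nat_lit 4) (nat_lit 468) (nat_lit 297) (nat_lit 255)) (XT.lf (nat_lit 0) (nat_lit 5751303985) (nat_lit 76) (nat_lit 101992283) (nat_lit 152) (nat_lit 34865534617) (nat_lit 13) (nat_lit 5) (nat_lit 14) (nat_lit 5) (nat_lit 15) (nat_lit 4) (nat_lit 469) (nat_lit 297) (nat_lit 254))) (XT.nd (nat_lit 78) (nat_lit 0) (nat_lit 0) (XT.lf (nat_lit 0) (nat_lit 11923863318) (nat_lit 152) (nat_lit 23928129455) (nat_lit 0) (nat_lit 5903942626) (nat_lit 13) (nat_lit 5) (nat_lit 15) (nat_lit 4) (nat_lit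 13) (nat_lit 4) (nat_lit 470) (nat_lit 297) (nat_lit 253)) (XT.lf (nat_lit 0) (nat_lit 18113839753) (nat_lit 152) (nat_lit 12683910954) (nat_lit 0) (nat_lit 12028285287) (nat_lit 13) (nat_lit 5) (nat_lit 15) (nat_lit 4) (nat_lit 13) (nat_lit 4) (nat_lit 471) (nat_lit 297) (nat_lit 252)))))) (XT.nd (nat_lit 546) (nat_lit 76) (nat_lit 0) (XT.nd (nat_lit 234) (nat_lit 152) (nat_lit 0) (XT.nd (nat_lit 78) (nat_lit 76) (nat_lit 0) (XT.lf (nat_lit 0) (nat_lit 24427653878) (nat_lit 152) (nat_lit 1224065939) (nat_lit 0) (nat_lit 18278377301) (nat_lit 13) (nat_lit 5) (nat_lit 15) (nat_lit 4) (nat_lit 13) (nat_lit 4) (nat_lit 472) (nat_lit 297) (nat_lit 251)) (XT.nd (nat_lit 78) (nat_lit 0) (nat_lit 0) (XT.lf (nat_lit 0) (nat_lit 10669621797) (nat_lit 76) (nat_lit 20303763753) (nat_lit 76) (nat_lit 14092621049) (nat_lit 12) (nat_lit 4) (nat_lit 13) (nat_lit 5) (nat_lit 13) (nat_lit 4) (nat_lit 473) (nat_lit 297) (nat_lit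 250)) (XT.lf (nat_lit 0) (nat_lit 22828215323) (nat_lit 76) (nat_lit 14840199375) (nat_lit 76) (nat_lit 8568992469) (nat_lit 12) (nat_lit 4) (nat_lit 13) (nat_lit 5) (nat_lit 13) (nat_lit 4) (nat_lit 474) (nat_lit 297) (nat_lit 249)))) (XT.nd (nat_lit 156) (nat_lit 76) (nat_lit 0) (XT.nd (nat_lit 78) (nat_lit 76) (nat_lit 0) (XT.lf (nat_lit 0) (nat_lit 35237977341) (nat_lit 76) (nat_lit 9268613361) (nat_lit 76) (nat_lit 2939091696) (nat_lit 12) (nat_lit 4) (nat_lit 13) (nat_lit 5) (nat_lit 13) (nat_lit 4) (nat_lit 475) (nat_lit 297) (nat_lit 248)) (XT.lf (nat_lit 0) (nat_lit 2747323476) (nat_lit 152) (nat_lit 809071277) (nat_lit 76) (nat_lit 45134685274) (nat_lit 11) (nat_lit 5) (nat_lit 13) (nat_lit 5) (nat_lit 12) (nat_lit 4) (nat_lit 476) (nat_lit 297) (nat_lit 247))) (XT.nd (nat_lit 78) (nat_lit 0) (nat_lit 0) (XT.lf (nat_lit 0) (nat_lit 8619347401) (nat_lit 152) (nat_lit 38985550689) (nat_lit 0) (nat_lit 2365847218)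 (nat_lit 10) (nat_lit 5) (nat_lit 12) (nat_lit 4) (nat_lit 10) (nat_lit 4) (nat_lit 477) (nat_lit 297) (nat_lit 246)) (XT.lf (nat_lit 0) (nat_lit 14656126705) (nat_lit 152) (nat_lit 28282202741) (nat_lit 0) (nat_lit 8350814615) (nat_lit 10) (nat_lit 5) (nat_lit 12) (nat_lit 4) (nat_lit 10) (nat_lit 4) (nat_lit 478) (nat_lit 297) (nat_lit 245))))) (XT.nd (nat_lit 234) (nat_lit 0) (nat_lit 0) (XT.nd (nat_lit 78) (nat_lit 76) (nat_lit 0) (XT.lf (nat_lit 0) (nat_lit 20820739396) (nat_lit 152) (nat_lit 17362830312) (nat_lit 0) (nat_lit 14465124484) (nat_lit 10) (nat_lit 5) (nat_lit 12) (nat_lit 4) (nat_lit 10) (nat_lit 4) (nat_lit 479) (nat_lit 297) (nat_lit 244)) (XT.nd (nat_lit 78) (nat_lit 76) (nat_lit 0) (XT.lf (nat_lit 0) (nat_lit 27118572029) (nat_lit 152) (nat_lit 6217892201) (nat_lit 0) (nat_lit 20714119425) (nat_lit 10) (nat_lit 5) (nat_lit 12) (nat_lit 4) (nat_lit 10) (nat_lit 4) (nat_lit 480) (nat_lit 297)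 (nat_lit 243)) (XT.lf (nat_lit 0) (nat_lit 5265090770) (nat_lit 76) (nat_lit 28340648067) (nat_lit 76) (nat_lit 21888780227) (nat_lit 9) (nat_lit 4) (nat_lit 10) (nat_lit 5) (nat_lit 10) (nat_lit 4) (nat_lit 481) (nat_lit 297) (nat_lit 242)))) (XT.nd (nat_lit 156) (nat_lit 0) (nat_lit 0) (XT.nd (nat_lit 78) (nat_lit 0) (nat_lit 0) (XT.lf (nat_lit 0) (nat_lit 17121950780) (nat_lit 76) (nat_lit 23178666061) (nat_lit 76) (nat_lit 16680764012) (nat_lit 9) (nat_lit 4) (nat_lit 10) (nat_lit 5) (nat_lit 10) (nat_lit 4) (nat_lit 482) (nat_lit 297) (nat_lit 241)) (XT.lf (nat_lit 0) (nat_lit 29239299944) (nat_lit 76) (nat_lit 17908796263) (nat_lit 76) (nat_lit 11366200807) (nat_lit 9) (nat_lit 4) (nat_lit 10) (nat_lit 5) (nat_lit 10) (nat_lit 4) (nat_lit 483) (nat_lit 297) (nat_lit 240))) (XT.nd (nat_lit 78) (nat_lit 0) (nat_lit 0) (XT.lf (nat_lit 0) (nat_lit 41627726237) (nat_lit 76) (nat_lit 12526433931) (nat_lit 76) (nat_lit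 5940446818) (nat_lit 9) (nat_lit 4) (nat_lit 10) (nat_lit 5) (nat_lit 10) (nat_lit 4) (nat_lit 484) (nat_lit 297) (nat_lit 239)) (XT.lf (nat_lit 0) (nat_lit 54298054497) (nat_lit 76) (nat_lit 7026876030) (nat_lit 76) (nat_lit 398761096) (nat_lit 9) (nat_lit 4) (nat_lit 10) (nat_lit 5) (nat_lit 10) (nat_lit 4) (nat_lit 485) (nat_lit 297) (nat_lit 238))))))) (XT.nd (nat_lit 48750) (nat_lit 0) (nat_lit 1748) (XT.nd (nat_lit 546) (nat_lit 0) (nat_lit 0) (XT.nd (nat_lit 234) (nat_lit 76) (nat_lit 0) (XT.nd (nat_lit 78) (nat_lit 0) (nat_lit 0) (XT.lf (nat_lit 0) (nat_lit 3883565955) (nat_lit 76) (nat_lit 1314750147) (nat_lit 152) (nat_lit 58202020423) (nat_lit 7) (nat_lit 5) (nat_lit 8) (nat_lit 5) (nat_lit 9) (nat_lit 4) (nat_lit 486) (nat_lit 297) (nat_lit 237)) (XT.nd (nat_lit 78) (nat_lit 0) (nat_lit 0) (XT.lf (nat_lit 0) (nat_lit 11030393241) (nat_lit 152) (nat_lit 49577449266) (nat_lit 0) (nat_lit 4517067760) (nat_lit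 7) (nat_lit 5) (nat_lit 9) (nat_lit 4) (nat_lit 7) (nat_lit 4) (nat_lit 487) (nat_lit 297) (nat_lit 236)) (XT.lf (nat_lit 0) (nat_lit 17007205375) (nat_lit 152) (nat_lit 39438473774) (nat_lit 0) (nat_lit 10456449870) (nat_lit 7) (nat_lit 5) (nat_lit 9) (nat_lit 4) (nat_lit 7) (nat_lit 4) (nat_lit 488) (nat_lit 297) (nat_lit 235)))) (XT.nd (nat_lit 156) (nat_lit 76) (nat_lit 0) (XT.nd (nat_lit 78) (nat_lit 0) (nat_lit 0) (XT.lf (nat_lit 0) (nat_lit 23121336780) (nat_lit 152) (nat_lit 29078346612) (nat_lit 0) (nat_lit 16534241444) (nat_lit 7) (nat_lit 5) (nat_lit 9) (nat_lit 4) (nat_lit 7) (nat_lit 4) (nat_lit 489) (nat_lit 297) (nat_lit 234)) (XT.lf (nat_lit 0) (nat_lit 29378129899) (nat_lit 152) (nat_lit 18488015242) (nat_lit 0) (nat_lit 22755753175) (nat_lit 7) (nat_lit 5) (nat_lit 9) (nat_lit 4) (nat_lit 7) (nat_lit 4) (nat_lit 490) (nat_lit 297) (nat_lit 233))) (XT.nd (nat_lit 78) (nat_lit 76) (nat_lit 0) (XT.lf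 (nat_lit 0) (nat_lit 35783051833) (nat_lit 152) (nat_lit 7658225976) (nat_lit 0) (nat_lit 29126421335) (nat_lit 7) (nat_lit 5) (nat_lit 9) (nat_lit 4) (nat_lit 7) (nat_lit 4) (nat_lit 491) (nat_lit 297) (nat_lit 232)) (XT.lf (nat_lit 0) (nat_lit 3488558449) (nat_lit 76) (nat_lit 38886674826) (nat_lit 76) (nat_lit 32196788236) (nat_lit 6) (nat_lit 4) (nat_lit 7) (nat_lit 5) (nat_lit 7) (nat_lit 4) (nat_lit 492) (nat_lit 297) (nat_lit 231))))) (XT.nd (nat_lit 47892) (nat_lit 0) (nat_lit 2964) (XT.nd (nat_lit 47736) (nat_lit 0) (nat_lit 3420) (XT.lf (nat_lit 0) (nat_lit 15051504503) (nat_lit 76) (nat_lit 34152982373) (nat_lit 76) (nat_lit 27430808315) (nat_lit 6) (nat_lit 4) (nat_lit 7) (nat_lit 5) (nat_lit 7) (nat_lit 4) (nat_lit 493) (nat_lit 297) (nat_lit 230)) (XT.nd (nat_lit 78) (nat_lit 0) (nat_lit 0) (XT.lf (nat_lit 0) (nat_lit 1000053174) (nat_lit 152) (nat_lit 3359060953) (nat_lit 152) (nat_lit 3359060953)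 (nat_lit 51) (nat_lit 4) (nat_lit 53) (nat_lit 5) (nat_lit 53) (nat_lit 4) (nat_lit 424) (nat_lit 298) (nat_lit 298)) (XT.lf (nat_lit 0) (nat_lit 13764671177) (nat_lit 152) (nat_lit 1149604811) (nat_lit 152) (nat_lit 795730376) (nat_lit 51) (nat_lit 4) (nat_lit 53) (nat_lit 5) (nat_lit 53) (nat_lit 4) (nat_lit 425) (nat_lit 298) (nat_lit 297)))) (XT.nd (nat_lit 156) (nat_lit 152) (nat_lit 0) (XT.nd (nat_lit 78) (nat_lit 152) (nat_lit 0) (XT.lf (nat_lit 0) (nat_lit 5216628885) (nat_lit 152) (nat_lit 6233747471) (nat_lit 0) (nat_lit 4539500878) (nat_lit 49) (nat_lit 5) (nat_lit 51) (nat_lit 4) (nat_lit 49) (nat_lit 4) (nat_lit 426) (nat_lit 298) (nat_lit 296)) (XT.lf (nat_lit 0) (nat_lit 5428414931) (nat_lit 152) (nat_lit 5925824220) (nat_lit 152) (nat_lit 4924850977) (nat_lit 47) (nat_lit 4) (nat_lit 49) (nat_lit 5) (nat_lit 49) (nat_lit 4) (nat_lit 427) (nat_lit 298) (nat_lit 295))) (XT.nd (nat_lit 78) (nat_lit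 0) (nat_lit 0) (XT.lf (nat_lit 0) (nat_lit 767713718) (nat_lit 76) (nat_lit 258443825) (nat_lit 152) (nat_lit 15552054774) (nat_lit 45) (nat_lit 5) (nat_lit 46) (nat_lit 5) (nat_lit 47) (nat_lit 4) (nat_lit 428) (nat_lit 298) (nat_lit 294)) (XT.lf (nat_lit 0) (nat_lit 7099011235) (nat_lit 152) (nat_lit 4258999777) (nat_lit 0) (nat_lit 5525573089) (nat_lit 45) (nat_lit 5) (nat_lit 47) (nat_lit 4) (nat_lit 45) (nat_lit 4) (nat_lit 429) (nat_lit 298) (nat_lit 293)))))) (XT.nd (nat_lit 546) (nat_lit 532) (nat_lit 0) (XT.nd (nat_lit 234) (nat_lit 380) (nat_lit 0) (XT.nd (nat_lit 78) (nat_lit 152) (nat_lit 0) (XT.lf (nat_lit 0) (nat_lit 7561129929) (nat_lit 152) (nat_lit 5749730390) (nat_lit 152) (nat_lit 3888559945) (nat_lit 43) (nat_lit 4) (nat_lit 45) (nat_lit 5) (nat_lit 45) (nat_lit 4) (nat_lit 430) (nat_lit 298) (nat_lit 292)) (XT.nd (nat_lit 78) (nat_lit 0) (nat_lit 0) (XT.lf (nat_lit 0) (nat_lit 2087109329) (nat_lit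 152) (nat_lit 15429704902) (nat_lit 0) (nat_lit 8932445) (nat_lit 41) (nat_lit 5) (nat_lit 43) (nat_lit 4) (nat_lit 41) (nat_lit 4) (nat_lit 431) (nat_lit 298) (nat_lit 291)) (XT.lf (nat_lit 0) (nat_lit 8201164221) (nat_lit 152) (nat_lit 3798760847) (nat_lit 0) (nat_lit 5859671523) (nat_lit 41) (nat_lit 5) (nat_lit 43) (nat_lit 4) (nat_lit 41) (nat_lit 4) (nat_lit 432) (nat_lit 298) (nat_lit 290)))) (XT.nd (nat_lit 156) (nat_lit 76) (nat_lit 0) (XT.nd (nat_lit 78) (nat_lit 152) (nat_lit 0) (XT.lf (nat_lit 0) (nat_lit 8122717041) (nat_lit 152) (nat_lit 6339491858) (nat_lit 152) (nat_lit 3742352739) (nat_lit 39) (nat_lit 4) (nat_lit 41) (nat_lit 5) (nat_lit 41) (nat_lit 4) (nat_lit 433) (nat_lit 298) (nat_lit 289)) (XT.lf (nat_lit 0) (nat_lit 1714404476) (nat_lit 76) (nat_lit 531774835) (nat_lit 152) (nat_lit 16314799065) (nat_lit 37) (nat_lit 5) (nat_lit 38) (nat_lit 5) (nat_lit 39) (nat_lit 4) (nat_lit 434) (nat_lit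 298) (nat_lit 288))) (XT.nd (nat_lit 78) (nat_lit 76) (nat_lit 0) (XT.lf (nat_lit 0) (nat_lit 8380272210) (nat_lit 152) (nat_lit 5161622295) (nat_lit 0) (nat_lit 5383853960) (nat_lit 37) (nat_lit 5) (nat_lit 39) (nat_lit 4) (nat_lit 37) (nat_lit 4) (nat_lit 435) (nat_lit 298) (nat_lit 287)) (XT.lf (nat_lit 0) (nat_lit 6790096023) (nat_lit 76) (nat_lit 7868067541) (nat_lit 76) (nat_lit 4644510758) (nat_lit 36) (nat_lit 4) (nat_lit 37) (nat_lit 5) (nat_lit 37) (nat_lit 4) (nat_lit 436) (nat_lit 298) (nat_lit 286))))) (XT.nd (nat_lit 312) (nat_lit 304) (nat_lit 0) (XT.nd (nat_lit 156) (nat_lit 76) (nat_lit 0) (XT.nd (nat_lit 78) (nat_lit 76) (nat_lit 0) (XT.lf (nat_lit 0) (nat_lit 1347516878) (nat_lit 152) (nat_lit 708620368) (nat_lit 76) (nat_lit 17636102749) (nat_lit 35) (nat_lit 5) (nat_lit 37) (nat_lit 5) (nat_lit 36) (nat_lit 4) (nat_lit 437) (nat_lit 298) (nat_lit 285)) (XT.lf (nat_lit 0) (nat_lit 7466716954)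 (nat_lit 152) (nat_lit 8709092318) (nat_lit 0) (nat_lit 3915086387) (nat_lit 34) (nat_lit 5) (nat_lit 36) (nat_lit 4) (nat_lit 34) (nat_lit 4) (nat_lit 438) (nat_lit 298) (nat_lit 284))) (XT.nd (nat_lit 78) (nat_lit 0) (nat_lit 0) (XT.lf (nat_lit 0) (nat_lit 3184627629) (nat_lit 76) (nat_lit 10535898922) (nat_lit 76) (nat_lit 6782458710) (nat_lit 33) (nat_lit 4) (nat_lit 34) (nat_lit 5) (nat_lit 34) (nat_lit 4) (nat_lit 439) (nat_lit 298) (nat_lit 283)) (XT.lf (nat_lit 0) (nat_lit 15410442605) (nat_lit 76) (nat_lit 4733456752) (nat_lit 76) (nat_lit 784084845) (nat_lit 33) (nat_lit 4) (nat_lit 34) (nat_lit 5) (nat_lit 34) (nat_lit 4) (nat_lit 440) (nat_lit 298) (nat_lit 282)))) (XT.nd (nat_lit 156) (nat_lit 152) (nat_lit 0) (XT.nd (nat_lit 78) (nat_lit 0) (nat_lit 0) (XT.lf (nat_lit 0) (nat_lit 5259819791) (nat_lit 152) (nat_lit 14864443626) (nat_lit 0) (nat_lit 1240793720) (nat_lit 31) (nat_lit 5) (nat_lit 33)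 (nat_lit 4) (nat_lit 31) (nat_lit 4) (nat_lit 441) (nat_lit 298) (nat_lit 281)) (XT.lf (nat_lit 0) (nat_lit 11468703272) (nat_lit 152) (nat_lit 3075956199) (nat_lit 0) (nat_lit 7270371945) (nat_lit 31) (nat_lit 5) (nat_lit 33) (nat_lit 4) (nat_lit 31) (nat_lit 4) (nat_lit 442) (nat_lit 298) (nat_lit 280))) (XT.nd (nat_lit 78) (nat_lit 76) (nat_lit 0) (XT.lf (nat_lit 0) (nat_lit 9048955678) (nat_lit 76) (nat_lit 8801189567) (nat_lit 76) (nat_lit 4428775468) (nat_lit 30) (nat_lit 4) (nat_lit 31) (nat_lit 5) (nat_lit 31) (nat_lit 4) (nat_lit 443) (nat_lit 298) (nat_lit 279)) (XT.lf (nat_lit 0) (nat_lit 1564562290) (nat_lit 152) (nat_lit 1365365050) (nat_lit 76) (nat_lit 19828399886) (nat_lit 29) (nat_lit 5) (nat_lit 31) (nat_lit 5) (nat_lit 30) (nat_lit 4) (nat_lit 444) (nat_lit 298) (nat_lit 278))))))))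
noncomputable def xc21 : XT := (XT.nd (nat_lit 2262) (nat_lit 456) (nat_lit 0) (XT.nd (nat_lit 1092) (nat_lit 532) (nat_lit 0) (XT.nd (nat_lit 546) (nat_lit 380) (nat_lit 0) (XT.nd (nat_lit 234) (nat_lit 228) (nat_lit 0) (XT.nd (nat_lit 78) (nat_lit 76) (nat_lit 0) (XT.lf (nat_lit 0) (nat_lit 7685730621) (nat_lit 152) (nat_lit 12446694384) (nat_lit 0) (nat_lit 3117268282) (nat_lit 28) (nat_lit 5) (nat_lit 30) (nat_lit 4) (nat_lit 28) (nat_lit 4) (nat_lit 445) (nat_lit 298) (nat_lit 277)) (XT.nd (nat_lit 78) (nat_lit 76) (nat_lit 0) (XT.lf (nat_lit 0) (nat_lit 13935991891) (nat_lit 152) (nat_lit 608589480) (nat_lit 0) (nat_lit 9212859263) (nat_lit 28) (nat_lit 5) (nat_lit 30) (nat_lit 4) (nat_lit 28) (nat_lit 4) (nat_lit 446) (nat_lit 298) (nat_lit 276)) (XT.lf (nat_lit 0) (nat_lit 11628604127) (nat_lit 76) (nat_lit 8762301901) (nat_lit 76) (nat_lit 3889003944) (nat_lit 27) (nat_lit 4) (nat_lit 28) (nat_lit 5) (nat_lit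 28) (nat_lit 4) (nat_lit 447) (nat_lit 298) (nat_lit 275)))) (XT.nd (nat_lit 156) (nat_lit 76) (nat_lit 0) (XT.nd (nat_lit 78) (nat_lit 76) (nat_lit 0) (XT.lf (nat_lit 0) (nat_lit 2089720722) (nat_lit 152) (nat_lit 776956471) (nat_lit 76) (nat_lit 21953389660) (nat_lit 26) (nat_lit 5) (nat_lit 28) (nat_lit 5) (nat_lit 27) (nat_lit 4) (nat_lit 448) (nat_lit 298) (nat_lit 274)) (XT.lf (nat_lit 0) (nat_lit 8219476598) (nat_lit 152) (nat_lit 13945153659) (nat_lit 0) (nat_lit 3209151585) (nat_lit 25) (nat_lit 5) (nat_lit 27) (nat_lit 4) (nat_lit 25) (nat_lit 4) (nat_lit 449) (nat_lit 298) (nat_lit 273))) (XT.nd (nat_lit 78) (nat_lit 76) (nat_lit 0) (XT.lf (nat_lit 0) (nat_lit 14477796674) (nat_lit 152) (nat_lit 2133923237) (nat_lit 0) (nat_lit 9334051711) (nat_lit 25) (nat_lit 5) (nat_lit 27) (nat_lit 4) (nat_lit 25) (nat_lit 4) (nat_lit 450) (nat_lit 298) (nat_lit 272)) (XT.lf (nat_lit 0) (nat_lit 10055140643) (nat_lit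 76) (nat_lit 10876416011) (nat_lit 76) (nat_lit 5603137116) (nat_lit 24) (nat_lit 4) (nat_lit 25) (nat_lit 5) (nat_lit 25) (nat_lit 4) (nat_lit 451) (nat_lit 298) (nat_lit 271))))) (XT.nd (nat_lit 234) (nat_lit 228) (nat_lit 0) (XT.nd (nat_lit 78) (nat_lit 76) (nat_lit 0) (XT.lf (nat_lit 0) (nat_lit 361974310) (nat_lit 152) (nat_lit 4664232142) (nat_lit 76) (nat_lit 22116968057) (nat_lit 23) (nat_lit 5) (nat_lit 25) (nat_lit 5) (nat_lit 24) (nat_lit 4) (nat_lit 452) (nat_lit 298) (nat_lit 270)) (XT.nd (nat_lit 78) (nat_lit 0) (nat_lit 0) (XT.lf (nat_lit 0) (nat_lit 6388593644) (nat_lit 152) (nat_lit 20351534319) (nat_lit 0) (nat_lit 1028265345) (nat_lit 22) (nat_lit 5) (nat_lit 24) (nat_lit 4) (nat_lit 22) (nat_lit 4) (nat_lit 453) (nat_lit 298) (nat_lit 269)) (XT.lf (nat_lit 0) (nat_lit 12607178622) (nat_lit 152) (nat_lit 8673096941) (nat_lit 0) (nat_lit 7131761102) (nat_lit 22) (nat_lit 5) (nat_lit 24) (nat_lit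 4) (nat_lit 22) (nat_lit 4) (nat_lit 454) (nat_lit 298) (nat_lit 268)))) (XT.nd (nat_lit 156) (nat_lit 152) (nat_lit 0) (XT.nd (nat_lit 78) (nat_lit 0) (nat_lit 0) (XT.lf (nat_lit 0) (nat_lit 3256219025) (nat_lit 76) (nat_lit 15703749216) (nat_lit 76) (nat_lit 10116594589) (nat_lit 21) (nat_lit 4) (nat_lit 22) (nat_lit 5) (nat_lit 22) (nat_lit 4) (nat_lit 455) (nat_lit 298) (nat_lit 267)) (XT.lf (nat_lit 0) (nat_lit 15559787550) (nat_lit 76) (nat_lit 9948366473) (nat_lit 76) (nat_lit 4252729217) (nat_lit 21) (nat_lit 4) (nat_lit 22) (nat_lit 5) (nat_lit 22) (nat_lit 4) (nat_lit 456) (nat_lit 298) (nat_lit 266))) (XT.nd (nat_lit 78) (nat_lit 76) (nat_lit 0) (XT.lf (nat_lit 0) (nat_lit 1671023911) (nat_lit 152) (nat_lit 2408781655) (nat_lit 76) (nat_lit 26387849711) (nat_lit 20) (nat_lit 5) (nat_lit 22) (nat_lit 5) (nat_lit 21) (nat_lit 4) (nat_lit 457) (nat_lit 298) (nat_lit 265)) (XT.lf (nat_lit 0) (nat_lit 7721275030)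 (nat_lit 152) (nat_lit 21482069156) (nat_lit 0) (nat_lit 1989997866) (nat_lit 19) (nat_lit 5) (nat_lit 21) (nat_lit 4) (nat_lit 19) (nat_lit 4) (nat_lit 458) (nat_lit 298) (nat_lit 264)))))) (XT.nd (nat_lit 546) (nat_lit 304) (nat_lit 0) (XT.nd (nat_lit 234) (nat_lit 152) (nat_lit 0) (XT.nd (nat_lit 78) (nat_lit 76) (nat_lit 0) (XT.lf (nat_lit 0) (nat_lit 13939317976) (nat_lit 152) (nat_lit 9890240042) (nat_lit 0) (nat_lit 8111655402) (nat_lit 19) (nat_lit 5) (nat_lit 21) (nat_lit 4) (nat_lit 19) (nat_lit 4) (nat_lit 459) (nat_lit 298) (nat_lit 263)) (XT.nd (nat_lit 78) (nat_lit 0) (nat_lit 0) (XT.lf (nat_lit 0) (nat_lit 1937796030) (nat_lit 76) (nat_lit 18348350330) (nat_lit 76) (nat_lit 12427109688) (nat_lit 18) (nat_lit 4) (nat_lit 19) (nat_lit 5) (nat_lit 19) (nat_lit 4) (nat_lit 460) (nat_lit 298) (nat_lit 262)) (XT.lf (nat_lit 0) (nat_lit 14175516442) (nat_lit 76) (nat_lit 12672155132) (nat_lit 76) (nat_lit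 6660061996) (nat_lit 18) (nat_lit 4) (nat_lit 19) (nat_lit 5) (nat_lit 19) (nat_lit 4) (nat_lit 461) (nat_lit 298) (nat_lit 261)))) (XT.nd (nat_lit 156) (nat_lit 0) (nat_lit 0) (XT.nd (nat_lit 78) (nat_lit 152) (nat_lit 0) (XT.lf (nat_lit 0) (nat_lit 26636779177) (nat_lit 76) (nat_lit 6895884673) (nat_lit 76) (nat_lit 795585233) (nat_lit 18) (nat_lit 4) (nat_lit 19) (nat_lit 5) (nat_lit 19) (nat_lit 4) (nat_lit 462) (nat_lit 298) (nat_lit 260)) (XT.lf (nat_lit 0) (nat_lit 4188984252) (nat_lit 76) (nat_lit 921814211) (nat_lit 152) (nat_lit 30062021734) (nat_lit 16) (nat_lit 5) (nat_lit 17) (nat_lit 5) (nat_lit 18) (nat_lit 4) (nat_lit 463) (nat_lit 298) (nat_lit 259))) (XT.nd (nat_lit 78) (nat_lit 0) (nat_lit 0) (XT.lf (nat_lit 0) (nat_lit 11235258929) (nat_lit 152) (nat_lit 19656755093) (nat_lit 0) (nat_lit 5148773947) (nat_lit 16) (nat_lit 5) (nat_lit 18) (nat_lit 4) (nat_lit 16) (nat_lit 4) (nat_lit 464) (nat_lit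 298) (nat_lit 258)) (XT.lf (nat_lit 0) (nat_lit 17482822606) (nat_lit 152) (nat_lit 8135825669) (nat_lit 0) (nat_lit 11317967465) (nat_lit 16) (nat_lit 5) (nat_lit 18) (nat_lit 4) (nat_lit 16) (nat_lit 4) (nat_lit 465) (nat_lit 298) (nat_lit 257))))) (XT.nd (nat_lit 312) (nat_lit 76) (nat_lit 0) (XT.nd (nat_lit 156) (nat_lit 152) (nat_lit 0) (XT.nd (nat_lit 78) (nat_lit 0) (nat_lit 0) (XT.lf (nat_lit 0) (nat_lit 3669485071) (nat_lit 76) (nat_lit 20215875753) (nat_lit 76) (nat_lit 13974933079) (nat_lit 15) (nat_lit 4) (nat_lit 16) (nat_lit 5) (nat_lit 16) (nat_lit 4) (nat_lit 466) (nat_lit 298) (nat_lit 256)) (XT.lf (nat_lit 0) (nat_lit 15864182611) (nat_lit 76) (nat_lit 14630930823) (nat_lit 76) (nat_lit 8316116759) (nat_lit 15) (nat_lit 4) (nat_lit 16) (nat_lit 5) (nat_lit 16) (nat_lit 4) (nat_lit 467) (nat_lit 298) (nat_lit 255))) (XT.nd (nat_lit 78) (nat_lit 152) (nat_lit 0) (XT.lf (nat_lit 0) (nat_lit 28297003629)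 (nat_lit 76) (nat_lit 8941089325) (nat_lit 76) (nat_lit 2554555462) (nat_lit 15) (nat_lit 4) (nat_lit 16) (nat_lit 5) (nat_lit 16) (nat_lit 4) (nat_lit 468) (nat_lit 298) (nat_lit 254)) (XT.lf (nat_lit 0) (nat_lit 144358850) (nat_lit 76) (nat_lit 3107130599) (nat_lit 152) (nat_lit 37552919131) (nat_lit 13) (nat_lit 5) (nat_lit 14) (nat_lit 5) (nat_lit 15) (nat_lit 4) (nat_lit 469) (nat_lit 298) (nat_lit 253)))) (XT.nd (nat_lit 156) (nat_lit 76) (nat_lit 0) (XT.nd (nat_lit 78) (nat_lit 0) (nat_lit 0) (XT.lf (nat_lit 0) (nat_lit 9261781364) (nat_lit 152) (nat_lit 29653514340) (nat_lit 0) (nat_lit 2928026489) (nat_lit 13) (nat_lit 5) (nat_lit 15) (nat_lit 4) (nat_lit 13) (nat_lit 4) (nat_lit 470) (nat_lit 298) (nat_lit 252)) (XT.lf (nat_lit 0) (nat_lit 15421284103) (nat_lit 152) (nat_lit 18469246598) (nat_lit 0) (nat_lit 9023807117) (nat_lit 13) (nat_lit 5) (nat_lit 15) (nat_lit 4) (nat_lit 13) (nat_lit 4) (nat_lit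 471) (nat_lit 298) (nat_lit 251))) (XT.nd (nat_lit 78) (nat_lit 76) (nat_lit 0) (XT.lf (nat_lit 0) (nat_lit 21705512116) (nat_lit 152) (nat_lit 7067606204) (nat_lit 0) (nat_lit 15246169003) (nat_lit 13) (nat_lit 5) (nat_lit 15) (nat_lit 4) (nat_lit 13) (nat_lit 4) (nat_lit 472) (nat_lit 298) (nat_lit 250)) (XT.lf (nat_lit 0) (nat_lit 4652149635) (nat_lit 76) (nat_lit 23512526148) (nat_lit 76) (nat_lit 16993118833) (nat_lit 12) (nat_lit 4) (nat_lit 13) (nat_lit 5) (nat_lit 13) (nat_lit 4) (nat_lit 473) (nat_lit 298) (nat_lit 249))))))) (XT.nd (nat_lit 1092) (nat_lit 76) (nat_lit 0) (XT.nd (nat_lit 546) (nat_lit 228) (nat_lit 0) (XT.nd (nat_lit 234) (nat_lit 152) (nat_lit 0) (XT.nd (nat_lit 78) (nat_lit 0) (nat_lit 0) (XT.lf (nat_lit 0) (nat_lit 16754787834) (nat_lit 76) (nat_lit 18076491471) (nat_lit 76) (nat_lit 11498769399) (nat_lit 12) (nat_lit 4) (nat_lit 13) (nat_lit 5) (nat_lit 13) (nat_lit 4) (nat_lit 474)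 (nat_lit 298) (nat_lit 248)) (XT.nd (nat_lit 78) (nat_lit 0) (nat_lit 0) (XT.lf (nat_lit 0) (nat_lit 29110224291) (nat_lit 76) (nat_lit 12531633323) (nat_lit 76) (nat_lit 5897294980) (nat_lit 12) (nat_lit 4) (nat_lit 13) (nat_lit 5) (nat_lit 13) (nat_lit 4) (nat_lit 475) (nat_lit 298) (nat_lit 247)) (XT.lf (nat_lit 0) (nat_lit 41729255019) (nat_lit 76) (nat_lit 6873106681) (nat_lit 76) (nat_lit 183801084) (nat_lit 12) (nat_lit 4) (nat_lit 13) (nat_lit 5) (nat_lit 13) (nat_lit 4) (nat_lit 476) (nat_lit 298) (nat_lit 246)))) (XT.nd (nat_lit 156) (nat_lit 0) (nat_lit 0) (XT.nd (nat_lit 78) (nat_lit 0) (nat_lit 0) (XT.lf (nat_lit 0) (nat_lit 4585946208) (nat_lit 76) (nat_lit 994653825) (nat_lit 152) (nat_lit 44488617986) (nat_lit 10) (nat_lit 5) (nat_lit 11) (nat_lit 5) (nat_lit 12) (nat_lit 4) (nat_lit 477) (nat_lit 298) (nat_lit 245)) (XT.lf (nat_lit 0) (nat_lit 11581576741) (nat_lit 152) (nat_lit 34822124198) (nat_lit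 0) (nat_lit 4984990558) (nat_lit 10) (nat_lit 5) (nat_lit 12) (nat_lit 4) (nat_lit 10) (nat_lit 4) (nat_lit 478) (nat_lit 298) (nat_lit 244))) (XT.nd (nat_lit 78) (nat_lit 0) (nat_lit 0) (XT.lf (nat_lit 0) (nat_lit 17720712369) (nat_lit 152) (nat_lit 23953005705) (nat_lit 0) (nat_lit 11075288494) (nat_lit 10) (nat_lit 5) (nat_lit 12) (nat_lit 4) (nat_lit 10) (nat_lit 4) (nat_lit 479) (nat_lit 298) (nat_lit 243)) (XT.lf (nat_lit 0) (nat_lit 23993809989) (nat_lit 152) (nat_lit 12856857824) (nat_lit 0) (nat_lit 17300970879) (nat_lit 10) (nat_lit 5) (nat_lit 12) (nat_lit 4) (nat_lit 10) (nat_lit 4) (nat_lit 480) (nat_lit 298) (nat_lit 242))))) (XT.nd (nat_lit 234) (nat_lit 152) (nat_lit 0) (XT.nd (nat_lit 78) (nat_lit 76) (nat_lit 0) (XT.lf (nat_lit 0) (nat_lit 30406350948) (nat_lit 152) (nat_lit 1523984892) (nat_lit 0) (nat_lit 23667477629) (nat_lit 10) (nat_lit 5) (nat_lit 12) (nat_lit 4) (nat_lit 10) (nat_lit 4)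 (nat_lit 481) (nat_lit 298) (nat_lit 241)) (XT.nd (nat_lit 78) (nat_lit 0) (nat_lit 0) (XT.lf (nat_lit 0) (nat_lit 10255640077) (nat_lit 76) (nat_lit 26806881846) (nat_lit 76) (nat_lit 20023315121) (nat_lit 9) (nat_lit 4) (nat_lit 10) (nat_lit 5) (nat_lit 10) (nat_lit 4) (nat_lit 482) (nat_lit 298) (nat_lit 240)) (XT.lf (nat_lit 0) (nat_lit 22327450647) (nat_lit 76) (nat_lit 21559476856) (nat_lit 76) (nat_lit 14732518473) (nat_lit 9) (nat_lit 4) (nat_lit 10) (nat_lit 5) (nat_lit 10) (nat_lit 4) (nat_lit 483) (nat_lit 298) (nat_lit 239)))) (XT.nd (nat_lit 156) (nat_lit 152) (nat_lit 0) (XT.nd (nat_lit 78) (nat_lit 0) (nat_lit 0) (XT.lf (nat_lit 0) (nat_lit 34671664713) (nat_lit 76) (nat_lit 16198925017) (nat_lit 76) (nat_lit 9329838812) (nat_lit 9) (nat_lit 4) (nat_lit 10) (nat_lit 5) (nat_lit 10) (nat_lit 4) (nat_lit 484) (nat_lit 298) (nat_lit 238)) (XT.lf (nat_lit 0) (nat_lit 47299068481) (nat_lit 76) (nat_lit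 10720542353) (nat_lit 76) (nat_lit 3810555350) (nat_lit 9) (nat_lit 4) (nat_lit 10) (nat_lit 5) (nat_lit 10) (nat_lit 4) (nat_lit 485) (nat_lit 298) (nat_lit 237))) (XT.nd (nat_lit 78) (nat_lit 76) (nat_lit 0) (XT.lf (nat_lit 0) (nat_lit 1794441680) (nat_lit 152) (nat_lit 3306979905) (nat_lit 76) (nat_lit 58408133582) (nat_lit 8) (nat_lit 5) (nat_lit 10) (nat_lit 5) (nat_lit 9) (nat_lit 4) (nat_lit 486) (nat_lit 298) (nat_lit 236)) (XT.lf (nat_lit 0) (nat_lit 7536073859) (nat_lit 152) (nat_lit 56949403216) (nat_lit 0) (nat_lit 751365664) (nat_lit 7) (nat_lit 5) (nat_lit 9) (nat_lit 4) (nat_lit 7) (nat_lit 4) (nat_lit 487) (nat_lit 298) (nat_lit 235)))))) (XT.nd (nat_lit 48048) (nat_lit 0) (nat_lit 2812) (XT.nd (nat_lit 234) (nat_lit 76) (nat_lit 0) (XT.nd (nat_lit 78) (nat_lit 0) (nat_lit 0) (XT.lf (nat_lit 0) (nat_lit 13492203681) (nat_lit 152) (nat_lit 46851323091) (nat_lit 0) (nat_lit 6671155656) (nat_lit 7)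 (nat_lit 5) (nat_lit 9) (nat_lit 4) (nat_lit 7) (nat_lit 4) (nat_lit 488) (nat_lit 298) (nat_lit 234)) (XT.nd (nat_lit 78) (nat_lit 0) (nat_lit 0) (XT.lf (nat_lit 0) (nat_lit 19586255171) (nat_lit 152) (nat_lit 36530900168) (nat_lit 0) (nat_lit 12729925758) (nat_lit 7) (nat_lit 5) (nat_lit 9) (nat_lit 4) (nat_lit 7) (nat_lit 4) (nat_lit 489) (nat_lit 298) (nat_lit 233)) (XT.lf (nat_lit 0) (nat_lit 25823553227) (nat_lit 152) (nat_lit 25979116604) (nat_lit 0) (nat_lit 18932970039) (nat_lit 7) (nat_lit 5) (nat_lit 9) (nat_lit 4) (nat_lit 7) (nat_lit 4) (nat_lit 490) (nat_lit 298) (nat_lit 232)))) (XT.nd (nat_lit 156) (nat_lit 76) (nat_lit 0) (XT.nd (nat_lit 78) (nat_lit 0) (nat_lit 0) (XT.lf (nat_lit 0) (nat_lit 32209547916) (nat_lit 152) (nat_lit 15186752392) (nat_lit 0) (nat_lit 25285708636) (nat_lit 7) (nat_lit 5) (nat_lit 9) (nat_lit 4) (nat_lit 7) (nat_lit 4) (nat_lit 491) (nat_lit 298) (nat_lit 231)) (XT.lf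 (nat_lit 0) (nat_lit 38749819233) (nat_lit 152) (nat_lit 4144377311) (nat_lit 0) (nat_lit 31793692486) (nat_lit 7) (nat_lit 5) (nat_lit 9) (nat_lit 4) (nat_lit 7) (nat_lit 4) (nat_lit 492) (nat_lit 298) (nat_lit 230))) (XT.nd (nat_lit 47580) (nat_lit 0) (nat_lit 3724) (XT.lf (nat_lit 0) (nat_lit 7300108730) (nat_lit 76) (nat_lit 38220146359) (nat_lit 76) (nat_lit 31232672556) (nat_lit 6) (nat_lit 4) (nat_lit 7) (nat_lit 5) (nat_lit 7) (nat_lit 4) (nat_lit 493) (nat_lit 298) (nat_lit 229)) (XT.lf (nat_lit 0) (nat_lit 4612040766) (nat_lit 152) (nat_lit 1422075107) (nat_lit 152) (nat_lit 1422075107) (nat_lit 55) (nat_lit 4) (nat_lit 57) (nat_lit 5) (nat_lit 57) (nat_lit 4) (nat_lit 422) (nat_lit 299) (nat_lit 299))))) (XT.nd (nat_lit 312) (nat_lit 456) (nat_lit 0) (XT.nd (nat_lit 156) (nat_lit 152) (nat_lit 0) (XT.nd (nat_lit 78) (nat_lit 152) (nat_lit 0) (XT.lf (nat_lit 0) (nat_lit 3038169741) (nat_lit 152) (nat_lit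 9459693755) (nat_lit 0) (nat_lit 2673679073) (nat_lit 53) (nat_lit 5) (nat_lit 55) (nat_lit 4) (nat_lit 53) (nat_lit 4) (nat_lit 423) (nat_lit 299) (nat_lit 298)) (XT.lf (nat_lit 0) (nat_lit 1885355744) (nat_lit 152) (nat_lit 7135608359) (nat_lit 152) (nat_lit 6417243257) (nat_lit 51) (nat_lit 4) (nat_lit 53) (nat_lit 5) (nat_lit 53) (nat_lit 4) (nat_lit 424) (nat_lit 299) (nat_lit 297))) (XT.nd (nat_lit 78) (nat_lit 152) (nat_lit 0) (XT.lf (nat_lit 0) (nat_lit 13538512219) (nat_lit 152) (nat_lit 1618543482) (nat_lit 152) (nat_lit 556610968) (nat_lit 51) (nat_lit 4) (nat_lit 53) (nat_lit 5) (nat_lit 53) (nat_lit 4) (nat_lit 425) (nat_lit 299) (nat_lit 296)) (XT.lf (nat_lit 0) (nat_lit 5383940222) (nat_lit 152) (nat_lit 6582454244) (nat_lit 0) (nat_lit 4029092544) (nat_lit 49) (nat_lit 5) (nat_lit 51) (nat_lit 4) (nat_lit 49) (nat_lit 4) (nat_lit 426) (nat_lit 299) (nat_lit 295)))) (XT.nd (nat_lit 156) (nat_lit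 152) (nat_lit 0) (XT.nd (nat_lit 78) (nat_lit 152) (nat_lit 0) (XT.lf (nat_lit 0) (nat_lit 4961057032) (nat_lit 152) (nat_lit 6497400124) (nat_lit 152) (nat_lit 4828139594) (nat_lit 47) (nat_lit 4) (nat_lit 49) (nat_lit 5) (nat_lit 49) (nat_lit 4) (nat_lit 427) (nat_lit 299) (nat_lit 294)) (XT.lf (nat_lit 0) (nat_lit 170642730) (nat_lit 76) (nat_lit 886085572) (nat_lit 152) (nat_lit 15530894165) (nat_lit 45) (nat_lit 5) (nat_lit 46) (nat_lit 5) (nat_lit 47) (nat_lit 4) (nat_lit 428) (nat_lit 299) (nat_lit 293))) (XT.nd (nat_lit 78) (nat_lit 152) (nat_lit 0) (XT.lf (nat_lit 0) (nat_lit 7065208189) (nat_lit 152) (nat_lit 4969250648) (nat_lit 0) (nat_lit 4860470332) (nat_lit 45) (nat_lit 5) (nat_lit 47) (nat_lit 4) (nat_lit 45) (nat_lit 4) (nat_lit 429) (nat_lit 299) (nat_lit 292)) (XT.lf (nat_lit 0) (nat_lit 6728017163) (nat_lit 152) (nat_lit 6484390428) (nat_lit 152) (nat_lit 4000300825) (nat_lit 43) (nat_lit 4)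 (nat_lit 45) (nat_lit 5) (nat_lit 45) (nat_lit 4) (nat_lit 430) (nat_lit 299) (nat_lit 291))))))))
noncomputable def xc22 : XT := (XT.nd (nat_lit 2262) (nat_lit 912) (nat_lit 0) (XT.nd (nat_lit 1092) (nat_lit 760) (nat_lit 0) (XT.nd (nat_lit 546) (nat_lit 456) (nat_lit 0) (XT.nd (nat_lit 234) (nat_lit 304) (nat_lit 0) (XT.nd (nat_lit 78) (nat_lit 152) (nat_lit 0) (XT.lf (nat_lit 0) (nat_lit 1125169354) (nat_lit 76) (nat_lit 786394312) (nat_lit 152) (nat_lit 15629486332) (nat_lit 41) (nat_lit 5) (nat_lit 42) (nat_lit 5) (nat_lit 43) (nat_lit 4) (nat_lit 431) (nat_lit 299) (nat_lit 290)) (XT.nd (nat_lit 78) (nat_lit 152) (nat_lit 0) (XT.lf (nat_lit 0) (nat_lit 7961649214) (nat_lit 152) (nat_lit 4884223570) (nat_lit 0) (nat_lit 5030949501) (nat_lit 41) (nat_lit 5) (nat_lit 43) (nat_lit 4) (nat_lit 41) (nat_lit 4) (nat_lit 432) (nat_lit 299) (nat_lit 289)) (XT.lf (nat_lit 0) (nat_lit 6909852712) (nat_lit 152) (nat_lit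 7246415355) (nat_lit 152) (nat_lit 4067515234) (nat_lit 39) (nat_lit 4) (nat_lit 41) (nat_lit 5) (nat_lit 41) (nat_lit 4) (nat_lit 433) (nat_lit 299) (nat_lit 288)))) (XT.nd (nat_lit 156) (nat_lit 152) (nat_lit 0) (XT.nd (nat_lit 78) (nat_lit 0) (nat_lit 0) (XT.lf (nat_lit 0) (nat_lit 355110553) (nat_lit 76) (nat_lit 1504486463) (nat_lit 152) (nat_lit 16722732751) (nat_lit 37) (nat_lit 5) (nat_lit 38) (nat_lit 5) (nat_lit 39) (nat_lit 4) (nat_lit 434) (nat_lit 299) (nat_lit 287)) (XT.lf (nat_lit 0) (nat_lit 7929778047) (nat_lit 152) (nat_lit 6636866062) (nat_lit 0) (nat_lit 4382376027) (nat_lit 37) (nat_lit 5) (nat_lit 39) (nat_lit 4) (nat_lit 37) (nat_lit 4) (nat_lit 435) (nat_lit 299) (nat_lit 286))) (XT.nd (nat_lit 78) (nat_lit 76) (nat_lit 0) (XT.lf (nat_lit 0) (nat_lit 5182562366) (nat_lit 76) (nat_lit 8956682042) (nat_lit 76) (nat_lit 5188757173) (nat_lit 36) (nat_lit 4) (nat_lit 37) (nat_lit 5) (nat_lit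 37) (nat_lit 4) (nat_lit 436) (nat_lit 299) (nat_lit 285)) (XT.lf (nat_lit 0) (nat_lit 760979139) (nat_lit 152) (nat_lit 2437237068) (nat_lit 76) (nat_lit 16521098016) (nat_lit 35) (nat_lit 5) (nat_lit 37) (nat_lit 5) (nat_lit 36) (nat_lit 4) (nat_lit 437) (nat_lit 299) (nat_lit 284))))) (XT.nd (nat_lit 234) (nat_lit 304) (nat_lit 0) (XT.nd (nat_lit 78) (nat_lit 76) (nat_lit 0) (XT.lf (nat_lit 0) (nat_lit 6799295990) (nat_lit 152) (nat_lit 10589660066) (nat_lit 0) (nat_lit 2731442926) (nat_lit 34) (nat_lit 5) (nat_lit 36) (nat_lit 4) (nat_lit 34) (nat_lit 4) (nat_lit 438) (nat_lit 299) (nat_lit 283)) (XT.nd (nat_lit 78) (nat_lit 0) (nat_lit 0) (XT.lf (nat_lit 0) (nat_lit 1166512489) (nat_lit 76) (nat_lit 11815941462) (nat_lit 76) (nat_lit 7552156703) (nat_lit 33) (nat_lit 4) (nat_lit 34) (nat_lit 5) (nat_lit 34) (nat_lit 4) (nat_lit 439) (nat_lit 299) (nat_lit 282)) (XT.lf (nat_lit 0) (nat_lit 13295123187) (nat_lit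 76) (nat_lit 6060009689) (nat_lit 76) (nat_lit 1605999984) (nat_lit 33) (nat_lit 4) (nat_lit 34) (nat_lit 5) (nat_lit 34) (nat_lit 4) (nat_lit 440) (nat_lit 299) (nat_lit 281)))) (XT.nd (nat_lit 156) (nat_lit 152) (nat_lit 0) (XT.nd (nat_lit 78) (nat_lit 0) (nat_lit 0) (XT.lf (nat_lit 0) (nat_lit 4232711680) (nat_lit 76) (nat_lit 137438959) (nat_lit 152) (nat_lit 17030808262) (nat_lit 31) (nat_lit 5) (nat_lit 32) (nat_lit 5) (nat_lit 33) (nat_lit 4) (nat_lit 441) (nat_lit 299) (nat_lit 280)) (XT.lf (nat_lit 0) (nat_lit 10528110949) (nat_lit 152) (nat_lit 5473910514) (nat_lit 0) (nat_lit 5850441654) (nat_lit 31) (nat_lit 5) (nat_lit 33) (nat_lit 4) (nat_lit 31) (nat_lit 4) (nat_lit 442) (nat_lit 299) (nat_lit 279))) (XT.nd (nat_lit 78) (nat_lit 76) (nat_lit 0) (XT.lf (nat_lit 0) (nat_lit 6508741503) (nat_lit 76) (nat_lit 10328236021) (nat_lit 76) (nat_lit 5481554325) (nat_lit 30) (nat_lit 4) (nat_lit 31) (nat_lit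 5) (nat_lit 31) (nat_lit 4) (nat_lit 443) (nat_lit 299) (nat_lit 278)) (XT.lf (nat_lit 0) (nat_lit 484216282) (nat_lit 152) (nat_lit 4027812351) (nat_lit 76) (nat_lit 18287658699) (nat_lit 29) (nat_lit 5) (nat_lit 31) (nat_lit 5) (nat_lit 30) (nat_lit 4) (nat_lit 444) (nat_lit 299) (nat_lit 277)))))) (XT.nd (nat_lit 546) (nat_lit 380) (nat_lit 0) (XT.nd (nat_lit 234) (nat_lit 228) (nat_lit 0) (XT.nd (nat_lit 78) (nat_lit 76) (nat_lit 0) (XT.lf (nat_lit 0) (nat_lit 6515798228) (nat_lit 152) (nat_lit 15281643414) (nat_lit 0) (nat_lit 1496301333) (nat_lit 28) (nat_lit 5) (nat_lit 30) (nat_lit 4) (nat_lit 28) (nat_lit 4) (nat_lit 445) (nat_lit 299) (nat_lit 276)) (XT.nd (nat_lit 78) (nat_lit 76) (nat_lit 0) (XT.lf (nat_lit 0) (nat_lit 12719440667) (nat_lit 152) (nat_lit 3533671709) (nat_lit 0) (nat_lit 7549778443) (nat_lit 28) (nat_lit 5) (nat_lit 30) (nat_lit 4) (nat_lit 28) (nat_lit 4) (nat_lit 446) (nat_lit 299)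 (nat_lit 275)) (XT.lf (nat_lit 0) (nat_lit 8556057486) (nat_lit 76) (nat_lit 10543501120) (nat_lit 76) (nat_lit 5228047314) (nat_lit 27) (nat_lit 4) (nat_lit 28) (nat_lit 5) (nat_lit 28) (nat_lit 4) (nat_lit 447) (nat_lit 299) (nat_lit 274)))) (XT.nd (nat_lit 156) (nat_lit 76) (nat_lit 0) (XT.nd (nat_lit 78) (nat_lit 76) (nat_lit 0) (XT.lf (nat_lit 0) (nat_lit 731586150) (nat_lit 152) (nat_lit 3971879146) (nat_lit 76) (nat_lit 20166042048) (nat_lit 26) (nat_lit 5) (nat_lit 28) (nat_lit 5) (nat_lit 27) (nat_lit 4) (nat_lit 448) (nat_lit 299) (nat_lit 273)) (XT.lf (nat_lit 0) (nat_lit 6766912483) (nat_lit 152) (nat_lit 17323709231) (nat_lit 0) (nat_lit 1335435222) (nat_lit 25) (nat_lit 5) (nat_lit 27) (nat_lit 4) (nat_lit 25) (nat_lit 4) (nat_lit 449) (nat_lit 299) (nat_lit 272))) (XT.nd (nat_lit 78) (nat_lit 76) (nat_lit 0) (XT.lf (nat_lit 0) (nat_lit 12981407012) (nat_lit 152) (nat_lit 5597560319) (nat_lit 0) (nat_lit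 7420395818) (nat_lit 25) (nat_lit 5) (nat_lit 27) (nat_lit 4) (nat_lit 25) (nat_lit 4) (nat_lit 450) (nat_lit 299) (nat_lit 271)) (XT.lf (nat_lit 0) (nat_lit 6438323015) (nat_lit 76) (nat_lit 12919527839) (nat_lit 76) (nat_lit 7232755546) (nat_lit 24) (nat_lit 4) (nat_lit 25) (nat_lit 5) (nat_lit 25) (nat_lit 4) (nat_lit 451) (nat_lit 299) (nat_lit 270))))) (XT.nd (nat_lit 312) (nat_lit 228) (nat_lit 0) (XT.nd (nat_lit 156) (nat_lit 0) (nat_lit 0) (XT.nd (nat_lit 78) (nat_lit 152) (nat_lit 0) (XT.lf (nat_lit 0) (nat_lit 18783986400) (nat_lit 76) (nat_lit 7112671050) (nat_lit 76) (nat_lit 1303800604) (nat_lit 24) (nat_lit 4) (nat_lit 25) (nat_lit 5) (nat_lit 25) (nat_lit 4) (nat_lit 452) (nat_lit 299) (nat_lit 269)) (XT.lf (nat_lit 0) (nat_lit 3531277368) (nat_lit 76) (nat_lit 1128175691) (nat_lit 152) (nat_lit 23169265489) (nat_lit 22) (nat_lit 5) (nat_lit 23) (nat_lit 5) (nat_lit 24) (nat_lit 4) (nat_lit 453)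 (nat_lit 299) (nat_lit 268))) (XT.nd (nat_lit 78) (nat_lit 0) (nat_lit 0) (XT.lf (nat_lit 0) (nat_lit 10825984615) (nat_lit 152) (nat_lit 12688462089) (nat_lit 0) (nat_lit 4959478242) (nat_lit 22) (nat_lit 5) (nat_lit 24) (nat_lit 4) (nat_lit 22) (nat_lit 4) (nat_lit 454) (nat_lit 299) (nat_lit 267)) (XT.lf (nat_lit 0) (nat_lit 17107465011) (nat_lit 152) (nat_lit 900650763) (nat_lit 0) (nat_lit 11132476009) (nat_lit 22) (nat_lit 5) (nat_lit 24) (nat_lit 4) (nat_lit 22) (nat_lit 4) (nat_lit 455) (nat_lit 299) (nat_lit 266)))) (XT.nd (nat_lit 156) (nat_lit 152) (nat_lit 0) (XT.nd (nat_lit 78) (nat_lit 0) (nat_lit 0) (XT.lf (nat_lit 0) (nat_lit 11307793319) (nat_lit 76) (nat_lit 12299442313) (nat_lit 76) (nat_lit 6219130371) (nat_lit 21) (nat_lit 4) (nat_lit 22) (nat_lit 5) (nat_lit 22) (nat_lit 4) (nat_lit 456) (nat_lit 299) (nat_lit 265)) (XT.lf (nat_lit 0) (nat_lit 23748802267) (nat_lit 76) (nat_lit 6484274380)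 (nat_lit 76) (nat_lit 301707156) (nat_lit 21) (nat_lit 4) (nat_lit 22) (nat_lit 5) (nat_lit 22) (nat_lit 4) (nat_lit 457) (nat_lit 299) (nat_lit 264))) (XT.nd (nat_lit 78) (nat_lit 0) (nat_lit 0) (XT.lf (nat_lit 0) (nat_lit 5195028602) (nat_lit 76) (nat_lit 458603318) (nat_lit 152) (nat_lit 25609950888) (nat_lit 19) (nat_lit 5) (nat_lit 20) (nat_lit 5) (nat_lit 21) (nat_lit 4) (nat_lit 458) (nat_lit 299) (nat_lit 263)) (XT.lf (nat_lit 0) (nat_lit 11829639333) (nat_lit 152) (nat_lit 14545893709) (nat_lit 0) (nat_lit 5637183403) (nat_lit 19) (nat_lit 5) (nat_lit 21) (nat_lit 4) (nat_lit 19) (nat_lit 4) (nat_lit 459) (nat_lit 299) (nat_lit 262))))))) (XT.nd (nat_lit 1092) (nat_lit 456) (nat_lit 0) (XT.nd (nat_lit 546) (nat_lit 228) (nat_lit 0) (XT.nd (nat_lit 234) (nat_lit 152) (nat_lit 0) (XT.nd (nat_lit 78) (nat_lit 76) (nat_lit 0) (XT.lf (nat_lit 0) (nat_lit 18121309216) (nat_lit 152) (nat_lit 2827104989) (nat_lit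 0) (nat_lit 11838000793) (nat_lit 19) (nat_lit 5) (nat_lit 21) (nat_lit 4) (nat_lit 19) (nat_lit 4) (nat_lit 460) (nat_lit 299) (nat_lit 261)) (XT.nd (nat_lit 78) (nat_lit 0) (nat_lit 0) (XT.lf (nat_lit 0) (nat_lit 9283616849) (nat_lit 76) (nat_lit 15335353725) (nat_lit 76) (nat_lit 8963838997) (nat_lit 18) (nat_lit 4) (nat_lit 19) (nat_lit 5) (nat_lit 19) (nat_lit 4) (nat_lit 461) (nat_lit 299) (nat_lit 260)) (XT.lf (nat_lit 0) (nat_lit 21676206147) (nat_lit 76) (nat_lit 9592662393) (nat_lit 76) (nat_lit 3135510476) (nat_lit 18) (nat_lit 4) (nat_lit 19) (nat_lit 5) (nat_lit 19) (nat_lit 4) (nat_lit 462) (nat_lit 299) (nat_lit 259)))) (XT.nd (nat_lit 156) (nat_lit 0) (nat_lit 0) (XT.nd (nat_lit 78) (nat_lit 76) (nat_lit 0) (XT.lf (nat_lit 0) (nat_lit 2741855967) (nat_lit 152) (nat_lit 974327204) (nat_lit 76) (nat_lit 31535683110) (nat_lit 17) (nat_lit 5) (nat_lit 19) (nat_lit 5) (nat_lit 18) (nat_lit 4) (nat_lit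 463) (nat_lit 299) (nat_lit 258)) (XT.lf (nat_lit 0) (nat_lit 8795445156) (nat_lit 152) (nat_lit 24959241842) (nat_lit 0) (nat_lit 2367274202) (nat_lit 16) (nat_lit 5) (nat_lit 18) (nat_lit 4) (nat_lit 16) (nat_lit 4) (nat_lit 464) (nat_lit 299) (nat_lit 257))) (XT.nd (nat_lit 78) (nat_lit 0) (nat_lit 0) (XT.lf (nat_lit 0) (nat_lit 15009646417) (nat_lit 152) (nat_lit 13503756475) (nat_lit 0) (nat_lit 8505387930) (nat_lit 16) (nat_lit 5) (nat_lit 18) (nat_lit 4) (nat_lit 16) (nat_lit 4) (nat_lit 465) (nat_lit 299) (nat_lit 256)) (XT.lf (nat_lit 0) (nat_lit 21344520605) (nat_lit 152) (nat_lit 1833588525) (nat_lit 0) (nat_lit 14766390727) (nat_lit 16) (nat_lit 5) (nat_lit 18) (nat_lit 4) (nat_lit 16) (nat_lit 4) (nat_lit 466) (nat_lit 299) (nat_lit 255))))) (XT.nd (nat_lit 234) (nat_lit 76) (nat_lit 0) (XT.nd (nat_lit 78) (nat_lit 76) (nat_lit 0) (XT.lf (nat_lit 0) (nat_lit 10261702008) (nat_lit 76) (nat_lit 17642542795)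 (nat_lit 76) (nat_lit 10992693120) (nat_lit 15) (nat_lit 4) (nat_lit 16) (nat_lit 5) (nat_lit 16) (nat_lit 4) (nat_lit 467) (nat_lit 299) (nat_lit 254)) (XT.nd (nat_lit 78) (nat_lit 76) (nat_lit 0) (XT.lf (nat_lit 0) (nat_lit 22633440502) (nat_lit 76) (nat_lit 11982665321) (nat_lit 76) (nat_lit 5263184774) (nat_lit 15) (nat_lit 4) (nat_lit 16) (nat_lit 5) (nat_lit 16) (nat_lit 4) (nat_lit 468) (nat_lit 299) (nat_lit 253)) (XT.lf (nat_lit 0) (nat_lit 563815468) (nat_lit 152) (nat_lit 5642537933) (nat_lit 76) (nat_lit 34686436308) (nat_lit 14) (nat_lit 5) (nat_lit 16) (nat_lit 5) (nat_lit 15) (nat_lit 4) (nat_lit 469) (nat_lit 299) (nat_lit 252)))) (XT.nd (nat_lit 156) (nat_lit 0) (nat_lit 0) (XT.nd (nat_lit 78) (nat_lit 0) (nat_lit 0) (XT.lf (nat_lit 0) (nat_lit 6260856679) (nat_lit 76) (nat_lit 199031886) (nat_lit 152) (nat_lit 35475242143) (nat_lit 13) (nat_lit 5) (nat_lit 14) (nat_lit 5) (nat_lit 15) (nat_lit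 4) (nat_lit 470) (nat_lit 299) (nat_lit 251)) (XT.lf (nat_lit 0) (nat_lit 12587891975) (nat_lit 152) (nat_lit 24546297691) (nat_lit 0) (nat_lit 5872902441) (nat_lit 13) (nat_lit 5) (nat_lit 15) (nat_lit 4) (nat_lit 13) (nat_lit 4) (nat_lit 471) (nat_lit 299) (nat_lit 250))) (XT.nd (nat_lit 78) (nat_lit 0) (nat_lit 0) (XT.lf (nat_lit 0) (nat_lit 18843395607) (nat_lit 152) (nat_lit 13201166638) (nat_lit 0) (nat_lit 12068341872) (nat_lit 13) (nat_lit 5) (nat_lit 15) (nat_lit 4) (nat_lit 13) (nat_lit 4) (nat_lit 472) (nat_lit 299) (nat_lit 249)) (XT.lf (nat_lit 0) (nat_lit 25229952218) (nat_lit 152) (nat_lit 1627054431) (nat_lit 0) (nat_lit 18396583724) (nat_lit 13) (nat_lit 5) (nat_lit 15) (nat_lit 4) (nat_lit 13) (nat_lit 4) (nat_lit 473) (nat_lit 299) (nat_lit 248)))))) (XT.nd (nat_lit 546) (nat_lit 228) (nat_lit 0) (XT.nd (nat_lit 234) (nat_lit 152) (nat_lit 0) (XT.nd (nat_lit 78) (nat_lit 0) (nat_lit 0) (XT.lf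 (nat_lit 0) (nat_lit 10388876633) (nat_lit 76) (nat_lit 21464129899) (nat_lit 76) (nat_lit 14574145135) (nat_lit 12) (nat_lit 4) (nat_lit 13) (nat_lit 5) (nat_lit 13) (nat_lit 4) (nat_lit 474) (nat_lit 299) (nat_lit 247)) (XT.nd (nat_lit 78) (nat_lit 0) (nat_lit 0) (XT.lf (nat_lit 0) (nat_lit 22691569827) (nat_lit 76) (nat_lit 15945221134) (nat_lit 76) (nat_lit 9000269118) (nat_lit 12) (nat_lit 4) (nat_lit 13) (nat_lit 5) (nat_lit 13) (nat_lit 4) (nat_lit 475) (nat_lit 299) (nat_lit 246)) (XT.lf (nat_lit 0) (nat_lit 35259393503) (nat_lit 76) (nat_lit 10311888069) (nat_lit 76) (nat_lit 3313569788) (nat_lit 12) (nat_lit 4) (nat_lit 13) (nat_lit 5) (nat_lit 13) (nat_lit 4) (nat_lit 476) (nat_lit 299) (nat_lit 245)))) (XT.nd (nat_lit 156) (nat_lit 0) (nat_lit 0) (XT.nd (nat_lit 78) (nat_lit 76) (nat_lit 0) (XT.lf (nat_lit 0) (nat_lit 2442314959) (nat_lit 152) (nat_lit 2092230821) (nat_lit 76) (nat_lit 45636351703)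 (nat_lit 11) (nat_lit 5) (nat_lit 13) (nat_lit 5) (nat_lit 12) (nat_lit 4) (nat_lit 477) (nat_lit 299) (nat_lit 244)) (XT.lf (nat_lit 0) (nat_lit 8363071840) (nat_lit 152) (nat_lit 41660258789) (nat_lit 0) (nat_lit 1469447556) (nat_lit 10) (nat_lit 5) (nat_lit 12) (nat_lit 4) (nat_lit 10) (nat_lit 4) (nat_lit 478) (nat_lit 299) (nat_lit 243))) (XT.nd (nat_lit 78) (nat_lit 0) (nat_lit 0) (XT.lf (nat_lit 0) (nat_lit 14477472454) (nat_lit 152) (nat_lit 30839930526) (nat_lit 0) (nat_lit 7536432936) (nat_lit 10) (nat_lit 5) (nat_lit 12) (nat_lit 4) (nat_lit 10) (nat_lit 4) (nat_lit 479) (nat_lit 299) (nat_lit 242)) (XT.lf (nat_lit 0) (nat_lit 20726555498) (nat_lit 152) (nat_lit 19791151801) (nat_lit 0) (nat_lit 13739481771) (nat_lit 10) (nat_lit 5) (nat_lit 12) (nat_lit 4) (nat_lit 10) (nat_lit 4) (nat_lit 480) (nat_lit 299) (nat_lit 241))))) (XT.nd (nat_lit 312) (nat_lit 152) (nat_lit 0) (XT.nd (nat_lit 156) (nat_lit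 0) (nat_lit 0) (XT.nd (nat_lit 78) (nat_lit 76) (nat_lit 0) (XT.lf (nat_lit 0) (nat_lit 27115781335) (nat_lit 152) (nat_lit 8504268340) (nat_lit 0) (nat_lit 20084014201) (nat_lit 10) (nat_lit 5) (nat_lit 12) (nat_lit 4) (nat_lit 10) (nat_lit 4) (nat_lit 481) (nat_lit 299) (nat_lit 240)) (XT.lf (nat_lit 0) (nat_lit 3090896708) (nat_lit 76) (nat_lit 30589547666) (nat_lit 76) (nat_lit 23514388875) (nat_lit 9) (nat_lit 4) (nat_lit 10) (nat_lit 5) (nat_lit 10) (nat_lit 4) (nat_lit 482) (nat_lit 299) (nat_lit 239))) (XT.nd (nat_lit 78) (nat_lit 0) (nat_lit 0) (XT.lf (nat_lit 0) (nat_lit 15118495050) (nat_lit 76) (nat_lit 25363953169) (nat_lit 76) (nat_lit 18246666555) (nat_lit 9) (nat_lit 4) (nat_lit 10) (nat_lit 5) (nat_lit 10) (nat_lit 4) (nat_lit 483) (nat_lit 299) (nat_lit 238)) (XT.lf (nat_lit 0) (nat_lit 27419784623) (nat_lit 76) (nat_lit 20024576566) (nat_lit 76) (nat_lit 12866389155) (nat_lit 9) (nat_lit 4) (nat_lit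 10) (nat_lit 5) (nat_lit 10) (nat_lit 4) (nat_lit 484) (nat_lit 299) (nat_lit 237)))) (XT.nd (nat_lit 156) (nat_lit 152) (nat_lit 0) (XT.nd (nat_lit 78) (nat_lit 0) (nat_lit 0) (XT.lf (nat_lit 0) (nat_lit 40005514127) (nat_lit 76) (nat_lit 14566752384) (nat_lit 76) (nat_lit 7368855459) (nat_lit 9) (nat_lit 4) (nat_lit 10) (nat_lit 5) (nat_lit 10) (nat_lit 4) (nat_lit 485) (nat_lit 299) (nat_lit 236)) (XT.lf (nat_lit 0) (nat_lit 52886680800) (nat_lit 76) (nat_lit 8985711649) (nat_lit 76) (nat_lit 1749261800) (nat_lit 9) (nat_lit 4) (nat_lit 10) (nat_lit 5) (nat_lit 10) (nat_lit 4) (nat_lit 486) (nat_lit 299) (nat_lit 235))) (XT.nd (nat_lit 78) (nat_lit 0) (nat_lit 0) (XT.lf (nat_lit 0) (nat_lit 695879016) (nat_lit 76) (nat_lit 3230110584) (nat_lit 152) (nat_lit 61426472593) (nat_lit 7) (nat_lit 5) (nat_lit 8) (nat_lit 5) (nat_lit 9) (nat_lit 4) (nat_lit 487) (nat_lit 299) (nat_lit 234)) (XT.lf (nat_lit 0) (nat_lit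 9830989709) (nat_lit 152) (nat_lit 54567157494) (nat_lit 0) (nat_lit 2733689026) (nat_lit 7) (nat_lit 5) (nat_lit 9) (nat_lit 4) (nat_lit 7) (nat_lit 4) (nat_lit 488) (nat_lit 299) (nat_lit 233))))))))
noncomputable def xc23 : XT := (XT.nd (nat_lit 49686) (nat_lit 0) (nat_lit 456) (XT.nd (nat_lit 48516) (nat_lit 0) (nat_lit 1748) (XT.nd (nat_lit 47970) (nat_lit 0) (nat_lit 2888) (XT.nd (nat_lit 234) (nat_lit 0) (nat_lit 0) (XT.nd (nat_lit 78) (nat_lit 0) (nat_lit 0) (XT.lf (nat_lit 0) (nat_lit 15905546135) (nat_lit 152) (nat_lit 44285282377) (nat_lit 0) (nat_lit 8773991677) (nat_lit 7) (nat_lit 5) (nat_lit 9) (nat_lit 4) (nat_lit 7) (nat_lit 4) (nat_lit 489) (nat_lit 299) (nat_lit 232)) (XT.nd (nat_lit 78) (nat_lit 0) (nat_lit 0) (XT.lf (nat_lit 0) (nat_lit 22123916946) (nat_lit 152) (nat_lit 33770923866) (nat_lit 0) (nat_lit 14959106396) (nat_lit 7) (nat_lit 5) (nat_lit 9) (nat_lit 4) (nat_lit 7) (nat_lit 4) (nat_lit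 490) (nat_lit 299) (nat_lit 231)) (XT.lf (nat_lit 0) (nat_lit 28491535668) (nat_lit 152) (nat_lit 23014894658) (nat_lit 0) (nat_lit 21294437650) (nat_lit 7) (nat_lit 5) (nat_lit 9) (nat_lit 4) (nat_lit 7) (nat_lit 4) (nat_lit 491) (nat_lit 299) (nat_lit 230)))) (XT.nd (nat_lit 47580) (nat_lit 0) (nat_lit 3648) (XT.nd (nat_lit 47502) (nat_lit 0) (nat_lit 3800) (XT.lf (nat_lit 0) (nat_lit 35013966241) (nat_lit 152) (nat_lit 12007796280) (nat_lit 0) (nat_lit 27785521167) (nat_lit 7) (nat_lit 5) (nat_lit 9) (nat_lit 4) (nat_lit 7) (nat_lit 4) (nat_lit 492) (nat_lit 299) (nat_lit 229)) (XT.lf (nat_lit 0) (nat_lit 287923132) (nat_lit 152) (nat_lit 6631705532) (nat_lit 0) (nat_lit 287923132) (nat_lit 57) (nat_lit 5) (nat_lit 59) (nat_lit 4) (nat_lit 57) (nat_lit 4) (nat_lit 420) (nat_lit 300) (nat_lit 300))) (XT.nd (nat_lit 78) (nat_lit 152) (nat_lit 0) (XT.lf (nat_lit 0) (nat_lit 6413963499) (nat_lit 152) (nat_lit 2219236301)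 (nat_lit 0) (nat_lit 6027275350) (nat_lit 57) (nat_lit 5) (nat_lit 59) (nat_lit 4) (nat_lit 57) (nat_lit 4) (nat_lit 421) (nat_lit 300) (nat_lit 299)) (XT.lf (nat_lit 0) (nat_lit 9113004082) (nat_lit 152) (nat_lit 3281652080) (nat_lit 152) (nat_lit 2519538543) (nat_lit 55) (nat_lit 4) (nat_lit 57) (nat_lit 5) (nat_lit 57) (nat_lit 4) (nat_lit 422) (nat_lit 300) (nat_lit 298))))) (XT.nd (nat_lit 234) (nat_lit 456) (nat_lit 0) (XT.nd (nat_lit 78) (nat_lit 152) (nat_lit 0) (XT.lf (nat_lit 0) (nat_lit 3290472043) (nat_lit 152) (nat_lit 9688091910) (nat_lit 0) (nat_lit 2196681553) (nat_lit 53) (nat_lit 5) (nat_lit 55) (nat_lit 4) (nat_lit 53) (nat_lit 4) (nat_lit 423) (nat_lit 300) (nat_lit 297)) (XT.nd (nat_lit 78) (nat_lit 0) (nat_lit 0) (XT.lf (nat_lit 0) (nat_lit 1541003664) (nat_lit 152) (nat_lit 7670067408) (nat_lit 152) (nat_lit 6232709507) (nat_lit 51) (nat_lit 4) (nat_lit 53) (nat_lit 5) (nat_lit 53) (nat_lit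 4) (nat_lit 424) (nat_lit 300) (nat_lit 296)) (XT.lf (nat_lit 0) (nat_lit 13085996688) (nat_lit 152) (nat_lit 2202956142) (nat_lit 152) (nat_lit 432037646) (nat_lit 51) (nat_lit 4) (nat_lit 53) (nat_lit 5) (nat_lit 53) (nat_lit 4) (nat_lit 425) (nat_lit 300) (nat_lit 295)))) (XT.nd (nat_lit 156) (nat_lit 152) (nat_lit 0) (XT.nd (nat_lit 78) (nat_lit 152) (nat_lit 0) (XT.lf (nat_lit 0) (nat_lit 5437311270) (nat_lit 152) (nat_lit 7163970739) (nat_lit 0) (nat_lit 3403560073) (nat_lit 49) (nat_lit 5) (nat_lit 51) (nat_lit 4) (nat_lit 49) (nat_lit 4) (nat_lit 426) (nat_lit 300) (nat_lit 294)) (XT.lf (nat_lit 0) (nat_lit 4259509764) (nat_lit 152) (nat_lit 7188680755) (nat_lit 152) (nat_lit 4849674363) (nat_lit 47) (nat_lit 4) (nat_lit 49) (nat_lit 5) (nat_lit 49) (nat_lit 4) (nat_lit 427) (nat_lit 300) (nat_lit 293))) (XT.nd (nat_lit 78) (nat_lit 76) (nat_lit 0) (XT.lf (nat_lit 0) (nat_lit 977163701) (nat_lit 228) (nat_lit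 651728345) (nat_lit 76) (nat_lit 14971761967) (nat_lit 46) (nat_lit 5) (nat_lit 49) (nat_lit 5) (nat_lit 47) (nat_lit 4) (nat_lit 428) (nat_lit 300) (nat_lit 292)) (XT.lf (nat_lit 0) (nat_lit 6915409230) (nat_lit 152) (nat_lit 5917216919) (nat_lit 0) (nat_lit 4077445192) (nat_lit 45) (nat_lit 5) (nat_lit 47) (nat_lit 4) (nat_lit 45) (nat_lit 4) (nat_lit 429) (nat_lit 300) (nat_lit 291)))))) (XT.nd (nat_lit 546) (nat_lit 456) (nat_lit 0) (XT.nd (nat_lit 234) (nat_lit 380) (nat_lit 0) (XT.nd (nat_lit 78) (nat_lit 152) (nat_lit 0) (XT.lf (nat_lit 0) (nat_lit 5655624787) (nat_lit 152) (nat_lit 7341683809) (nat_lit 152) (nat_lit 4232504484) (nat_lit 43) (nat_lit 4) (nat_lit 45) (nat_lit 5) (nat_lit 45) (nat_lit 4) (nat_lit 430) (nat_lit 300) (nat_lit 290)) (XT.nd (nat_lit 78) (nat_lit 76) (nat_lit 0) (XT.lf (nat_lit 0) (nat_lit 1618158634) (nat_lit 228) (nat_lit 87633111) (nat_lit 76) (nat_lit 15854405147) (nat_lit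 42) (nat_lit 5) (nat_lit 45) (nat_lit 5) (nat_lit 43) (nat_lit 4) (nat_lit 431) (nat_lit 300) (nat_lit 289)) (XT.lf (nat_lit 0) (nat_lit 7603771684) (nat_lit 152) (nat_lit 6212830711) (nat_lit 0) (nat_lit 4081304151) (nat_lit 41) (nat_lit 5) (nat_lit 43) (nat_lit 4) (nat_lit 41) (nat_lit 4) (nat_lit 432) (nat_lit 300) (nat_lit 288)))) (XT.nd (nat_lit 156) (nat_lit 152) (nat_lit 0) (XT.nd (nat_lit 78) (nat_lit 76) (nat_lit 0) (XT.lf (nat_lit 0) (nat_lit 5452086431) (nat_lit 152) (nat_lit 8279119291) (nat_lit 152) (nat_lit 4515680487) (nat_lit 39) (nat_lit 4) (nat_lit 41) (nat_lit 5) (nat_lit 41) (nat_lit 4) (nat_lit 433) (nat_lit 300) (nat_lit 287)) (XT.lf (nat_lit 0) (nat_lit 1363658177) (nat_lit 228) (nat_lit 1229165393) (nat_lit 76) (nat_lit 16014436837) (nat_lit 38) (nat_lit 5) (nat_lit 41) (nat_lit 5) (nat_lit 39) (nat_lit 4) (nat_lit 434) (nat_lit 300) (nat_lit 286))) (XT.nd (nat_lit 78) (nat_lit 76) (nat_lit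 0) (XT.lf (nat_lit 0) (nat_lit 7358235093) (nat_lit 152) (nat_lit 8361237013) (nat_lit 0) (nat_lit 3256749630) (nat_lit 37) (nat_lit 5) (nat_lit 39) (nat_lit 4) (nat_lit 37) (nat_lit 4) (nat_lit 435) (nat_lit 300) (nat_lit 285)) (XT.lf (nat_lit 0) (nat_lit 3323941356) (nat_lit 76) (nat_lit 10174464384) (nat_lit 76) (nat_lit 5858879068) (nat_lit 36) (nat_lit 4) (nat_lit 37) (nat_lit 5) (nat_lit 37) (nat_lit 4) (nat_lit 436) (nat_lit 300) (nat_lit 284))))) (XT.nd (nat_lit 312) (nat_lit 228) (nat_lit 0) (XT.nd (nat_lit 156) (nat_lit 76) (nat_lit 0) (XT.nd (nat_lit 78) (nat_lit 76) (nat_lit 0) (XT.lf (nat_lit 0) (nat_lit 52563316) (nat_lit 152) (nat_lit 4416745718) (nat_lit 76) (nat_lit 15281025375) (nat_lit 35) (nat_lit 5) (nat_lit 37) (nat_lit 5) (nat_lit 36) (nat_lit 4) (nat_lit 437) (nat_lit 300) (nat_lit 283)) (XT.lf (nat_lit 0) (nat_lit 6007810271) (nat_lit 152) (nat_lit 12725923241) (nat_lit 0) (nat_lit 1420180275)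 (nat_lit 34) (nat_lit 5) (nat_lit 36) (nat_lit 4) (nat_lit 34) (nat_lit 4) (nat_lit 438) (nat_lit 300) (nat_lit 282))) (XT.nd (nat_lit 78) (nat_lit 76) (nat_lit 0) (XT.lf (nat_lit 0) (nat_lit 12129995507) (nat_lit 152) (nat_lit 1087821017) (nat_lit 0) (nat_lit 7352140565) (nat_lit 34) (nat_lit 5) (nat_lit 36) (nat_lit 4) (nat_lit 34) (nat_lit 4) (nat_lit 439) (nat_lit 300) (nat_lit 281)) (XT.lf (nat_lit 0) (nat_lit 10924766824) (nat_lit 76) (nat_lit 7518025335) (nat_lit 76) (nat_lit 2555485980) (nat_lit 33) (nat_lit 4) (nat_lit 34) (nat_lit 5) (nat_lit 34) (nat_lit 4) (nat_lit 440) (nat_lit 300) (nat_lit 280)))) (XT.nd (nat_lit 156) (nat_lit 76) (nat_lit 0) (XT.nd (nat_lit 78) (nat_lit 0) (nat_lit 0) (XT.lf (nat_lit 0) (nat_lit 1692175008) (nat_lit 76) (nat_lit 1674337119) (nat_lit 152) (nat_lit 18074048518) (nat_lit 31) (nat_lit 5) (nat_lit 32) (nat_lit 5) (nat_lit 33) (nat_lit 4) (nat_lit 441) (nat_lit 300) (nat_lit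 279)) (XT.lf (nat_lit 0) (nat_lit 9461541527) (nat_lit 152) (nat_lit 8131966456) (nat_lit 0) (nat_lit 4300446979) (nat_lit 31) (nat_lit 5) (nat_lit 33) (nat_lit 4) (nat_lit 31) (nat_lit 4) (nat_lit 442) (nat_lit 300) (nat_lit 278))) (XT.nd (nat_lit 78) (nat_lit 0) (nat_lit 0) (XT.lf (nat_lit 0) (nat_lit 3706002639) (nat_lit 76) (nat_lit 11990709157) (nat_lit 76) (nat_lit 6665524900) (nat_lit 30) (nat_lit 4) (nat_lit 31) (nat_lit 5) (nat_lit 31) (nat_lit 4) (nat_lit 443) (nat_lit 300) (nat_lit 277)) (XT.lf (nat_lit 0) (nat_lit 15884916630) (nat_lit 76) (nat_lit 6222251077) (nat_lit 76) (nat_lit 737756423) (nat_lit 30) (nat_lit 4) (nat_lit 31) (nat_lit 5) (nat_lit 31) (nat_lit 4) (nat_lit 444) (nat_lit 300) (nat_lit 276))))))) (XT.nd (nat_lit 1092) (nat_lit 456) (nat_lit 0) (XT.nd (nat_lit 546) (nat_lit 380) (nat_lit 0) (XT.nd (nat_lit 234) (nat_lit 228) (nat_lit 0) (XT.nd (nat_lit 78) (nat_lit 76) (nat_lit 0) (XT.lf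 (nat_lit 0) (nat_lit 4954732626) (nat_lit 76) (nat_lit 263936127) (nat_lit 152) (nat_lit 18123212297) (nat_lit 28) (nat_lit 5) (nat_lit 29) (nat_lit 5) (nat_lit 30) (nat_lit 4) (nat_lit 445) (nat_lit 300) (nat_lit 275)) (XT.nd (nat_lit 78) (nat_lit 76) (nat_lit 0) (XT.lf (nat_lit 0) (nat_lit 11374513075) (nat_lit 152) (nat_lit 6724147565) (nat_lit 0) (nat_lit 5753804074) (nat_lit 28) (nat_lit 5) (nat_lit 30) (nat_lit 4) (nat_lit 28) (nat_lit 4) (nat_lit 446) (nat_lit 300) (nat_lit 274)) (XT.lf (nat_lit 0) (nat_lit 5215434866) (nat_lit 76) (nat_lit 12463141321) (nat_lit 76) (nat_lit 6700887095) (nat_lit 27) (nat_lit 4) (nat_lit 28) (nat_lit 5) (nat_lit 28) (nat_lit 4) (nat_lit 447) (nat_lit 300) (nat_lit 273)))) (XT.nd (nat_lit 156) (nat_lit 76) (nat_lit 0) (XT.nd (nat_lit 78) (nat_lit 152) (nat_lit 0) (XT.lf (nat_lit 0) (nat_lit 17480266912) (nat_lit 76) (nat_lit 6671147827) (nat_lit 76) (nat_lit 771471052) (nat_lit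 27) (nat_lit 4) (nat_lit 28) (nat_lit 5) (nat_lit 28) (nat_lit 4) (nat_lit 448) (nat_lit 300) (nat_lit 272)) (XT.lf (nat_lit 0) (nat_lit 4499413777) (nat_lit 76) (nat_lit 689015041) (nat_lit 152) (nat_lit 20293945128) (nat_lit 25) (nat_lit 5) (nat_lit 26) (nat_lit 5) (nat_lit 27) (nat_lit 4) (nat_lit 449) (nat_lit 300) (nat_lit 271))) (XT.nd (nat_lit 78) (nat_lit 76) (nat_lit 0) (XT.lf (nat_lit 0) (nat_lit 11353751038) (nat_lit 152) (nat_lit 9332791430) (nat_lit 0) (nat_lit 5370614478) (nat_lit 25) (nat_lit 5) (nat_lit 27) (nat_lit 4) (nat_lit 25) (nat_lit 4) (nat_lit 450) (nat_lit 300) (nat_lit 270)) (XT.lf (nat_lit 0) (nat_lit 2546959910) (nat_lit 76) (nat_lit 15104519026) (nat_lit 76) (nat_lit 8999284311) (nat_lit 24) (nat_lit 4) (nat_lit 25) (nat_lit 5) (nat_lit 25) (nat_lit 4) (nat_lit 451) (nat_lit 300) (nat_lit 269))))) (XT.nd (nat_lit 234) (nat_lit 228) (nat_lit 0) (XT.nd (nat_lit 78) (nat_lit 152) (nat_lit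 0) (XT.lf (nat_lit 0) (nat_lit 14813212062) (nat_lit 76) (nat_lit 9336203537) (nat_lit 76) (nat_lit 3112426926) (nat_lit 24) (nat_lit 4) (nat_lit 25) (nat_lit 5) (nat_lit 25) (nat_lit 4) (nat_lit 452) (nat_lit 300) (nat_lit 268)) (XT.nd (nat_lit 78) (nat_lit 76) (nat_lit 0) (XT.lf (nat_lit 0) (nat_lit 2812100887) (nat_lit 152) (nat_lit 630301029) (nat_lit 76) (nat_lit 24450444669) (nat_lit 23) (nat_lit 5) (nat_lit 25) (nat_lit 5) (nat_lit 24) (nat_lit 4) (nat_lit 453) (nat_lit 300) (nat_lit 267)) (XT.lf (nat_lit 0) (nat_lit 8910137626) (nat_lit 152) (nat_lit 16982555273) (nat_lit 0) (nat_lit 2647416325) (nat_lit 22) (nat_lit 5) (nat_lit 24) (nat_lit 4) (nat_lit 22) (nat_lit 4) (nat_lit 454) (nat_lit 300) (nat_lit 266)))) (XT.nd (nat_lit 156) (nat_lit 152) (nat_lit 0) (XT.nd (nat_lit 78) (nat_lit 76) (nat_lit 0) (XT.lf (nat_lit 0) (nat_lit 15152774863) (nat_lit 152) (nat_lit 5270437227) (nat_lit 0) (nat_lit 8784730622)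 (nat_lit 22) (nat_lit 5) (nat_lit 24) (nat_lit 4) (nat_lit 22) (nat_lit 4) (nat_lit 455) (nat_lit 300) (nat_lit 265)) (XT.lf (nat_lit 0) (nat_lit 6776088347) (nat_lit 76) (nat_lit 14795183812) (nat_lit 76) (nat_lit 8324884289) (nat_lit 21) (nat_lit 4) (nat_lit 22) (nat_lit 5) (nat_lit 22) (nat_lit 4) (nat_lit 456) (nat_lit 300) (nat_lit 264))) (XT.nd (nat_lit 78) (nat_lit 152) (nat_lit 0) (XT.lf (nat_lit 0) (nat_lit 19144329149) (nat_lit 76) (nat_lit 9015471130) (nat_lit 76) (nat_lit 2445894634) (nat_lit 21) (nat_lit 4) (nat_lit 22) (nat_lit 5) (nat_lit 22) (nat_lit 4) (nat_lit 457) (nat_lit 300) (nat_lit 263)) (XT.lf (nat_lit 0) (nat_lit 374817922) (nat_lit 76) (nat_lit 3093546525) (nat_lit 152) (nat_lit 27869236636) (nat_lit 19) (nat_lit 5) (nat_lit 20) (nat_lit 5) (nat_lit 21) (nat_lit 4) (nat_lit 458) (nat_lit 300) (nat_lit 262)))))) (XT.nd (nat_lit 546) (nat_lit 228) (nat_lit 0) (XT.nd (nat_lit 234) (nat_lit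 152) (nat_lit 0) (XT.nd (nat_lit 78) (nat_lit 76) (nat_lit 0) (XT.lf (nat_lit 0) (nat_lit 9582511953) (nat_lit 152) (nat_lit 19486227952) (nat_lit 0) (nat_lit 3019851783) (nat_lit 19) (nat_lit 5) (nat_lit 21) (nat_lit 4) (nat_lit 19) (nat_lit 4) (nat_lit 459) (nat_lit 300) (nat_lit 261)) (XT.nd (nat_lit 78) (nat_lit 76) (nat_lit 0) (XT.lf (nat_lit 0) (nat_lit 15838714631) (nat_lit 152) (nat_lit 7836792604) (nat_lit 0) (nat_lit 9187848157) (nat_lit 19) (nat_lit 5) (nat_lit 21) (nat_lit 4) (nat_lit 19) (nat_lit 4) (nat_lit 460) (nat_lit 300) (nat_lit 260)) (XT.lf (nat_lit 0) (nat_lit 4105553191) (nat_lit 76) (nat_lit 18146613903) (nat_lit 76) (nat_lit 11410110240) (nat_lit 18) (nat_lit 4) (nat_lit 19) (nat_lit 5) (nat_lit 19) (nat_lit 4) (nat_lit 461) (nat_lit 300) (nat_lit 259)))) (XT.nd (nat_lit 156) (nat_lit 76) (nat_lit 0) (XT.nd (nat_lit 78) (nat_lit 76) (nat_lit 0) (XT.lf (nat_lit 0) (nat_lit 16431469249) (nat_lit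 76) (nat_lit 12436523664) (nat_lit 76) (nat_lit 5616877099) (nat_lit 18) (nat_lit 4) (nat_lit 19) (nat_lit 5) (nat_lit 19) (nat_lit 4) (nat_lit 462) (nat_lit 300) (nat_lit 258)) (XT.lf (nat_lit 0) (nat_lit 275501450) (nat_lit 152) (nat_lit 6341099884) (nat_lit 76) (nat_lit 28717474774) (nat_lit 17) (nat_lit 5) (nat_lit 19) (nat_lit 5) (nat_lit 18) (nat_lit 4) (nat_lit 463) (nat_lit 300) (nat_lit 257))) (XT.nd (nat_lit 78) (nat_lit 0) (nat_lit 0) (XT.lf (nat_lit 0) (nat_lit 5648286156) (nat_lit 76) (nat_lit 571922781) (nat_lit 152) (nat_lit 29987229520) (nat_lit 16) (nat_lit 5) (nat_lit 17) (nat_lit 5) (nat_lit 18) (nat_lit 4) (nat_lit 464) (nat_lit 300) (nat_lit 256)) (XT.lf (nat_lit 0) (nat_lit 12396521832) (nat_lit 152) (nat_lit 19161707183) (nat_lit 0) (nat_lit 5547176666) (nat_lit 16) (nat_lit 5) (nat_lit 18) (nat_lit 4) (nat_lit 16) (nat_lit 4) (nat_lit 465) (nat_lit 300) (nat_lit 255))))) (XT.nd (nat_lit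 312) (nat_lit 152) (nat_lit 0) (XT.nd (nat_lit 156) (nat_lit 0) (nat_lit 0) (XT.nd (nat_lit 78) (nat_lit 76) (nat_lit 0) (XT.lf (nat_lit 0) (nat_lit 18699948743) (nat_lit 152) (nat_lit 7553226535) (nat_lit 0) (nat_lit 11778883780) (nat_lit 16) (nat_lit 5) (nat_lit 18) (nat_lit 4) (nat_lit 16) (nat_lit 4) (nat_lit 466) (nat_lit 300) (nat_lit 254)) (XT.lf (nat_lit 0) (nat_lit 4367149464) (nat_lit 76) (nat_lit 20805330096) (nat_lit 76) (nat_lit 13814634261) (nat_lit 15) (nat_lit 4) (nat_lit 16) (nat_lit 5) (nat_lit 16) (nat_lit 4) (nat_lit 467) (nat_lit 300) (nat_lit 253))) (XT.nd (nat_lit 78) (nat_lit 0) (nat_lit 0) (XT.lf (nat_lit 0) (nat_lit 16679584537) (nat_lit 76) (nat_lit 15174543907) (nat_lit 76) (nat_lit 8116245285) (nat_lit 15) (nat_lit 4) (nat_lit 16) (nat_lit 5) (nat_lit 16) (nat_lit 4) (nat_lit 468) (nat_lit 300) (nat_lit 252)) (XT.lf (nat_lit 0) (nat_lit 29244513105) (nat_lit 76) (nat_lit 9432169385)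 (nat_lit 76) (nat_lit 2308236989) (nat_lit 15) (nat_lit 4) (nat_lit 16) (nat_lit 5) (nat_lit 16) (nat_lit 4) (nat_lit 469) (nat_lit 300) (nat_lit 251)))) (XT.nd (nat_lit 156) (nat_lit 0) (nat_lit 0) (XT.nd (nat_lit 78) (nat_lit 0) (nat_lit 0) (XT.lf (nat_lit 0) (nat_lit 6662212) (nat_lit 76) (nat_lit 3537336171) (nat_lit 152) (nat_lit 38486594927) (nat_lit 13) (nat_lit 5) (nat_lit 14) (nat_lit 5) (nat_lit 15) (nat_lit 4) (nat_lit 470) (nat_lit 300) (nat_lit 250)) (XT.lf (nat_lit 0) (nat_lit 9611187590) (nat_lit 152) (nat_lit 30920374279) (nat_lit 0) (nat_lit 2572818042) (nat_lit 13) (nat_lit 5) (nat_lit 15) (nat_lit 4) (nat_lit 13) (nat_lit 4) (nat_lit 471) (nat_lit 300) (nat_lit 249))) (XT.nd (nat_lit 78) (nat_lit 0) (nat_lit 0) (XT.lf (nat_lit 0) (nat_lit 15838803473) (nat_lit 152) (nat_lit 19630106663) (nat_lit 0) (nat_lit 8742119166) (nat_lit 13) (nat_lit 5) (nat_lit 15) (nat_lit 4) (nat_lit 13) (nat_lit 4)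 (nat_lit 472) (nat_lit 300) (nat_lit 248)) (XT.lf (nat_lit 0) (nat_lit 22198284600) (nat_lit 152) (nat_lit 8109259929) (nat_lit 0) (nat_lit 15044984023) (nat_lit 13) (nat_lit 5) (nat_lit 15) (nat_lit 4) (nat_lit 13) (nat_lit 4) (nat_lit 473) (nat_lit 300) (nat_lit 247))))))))
noncomputable def xc24 : XT := (XT.nd (nat_lit 49452) (nat_lit 0) (nat_lit 1140) (XT.nd (nat_lit 1092) (nat_lit 76) (nat_lit 0) (XT.nd (nat_lit 546) (nat_lit 152) (nat_lit 0) (XT.nd (nat_lit 234) (nat_lit 152) (nat_lit 0) (XT.nd (nat_lit 78) (nat_lit 0) (nat_lit 0) (XT.lf (nat_lit 0) (nat_lit 3724919272) (nat_lit 76) (nat_lit 25006074729) (nat_lit 76) (nat_lit 17797806899) (nat_lit 12) (nat_lit 4) (nat_lit 13) (nat_lit 5) (nat_lit 13) (nat_lit 4) (nat_lit 474) (nat_lit 300) (nat_lit 246)) (XT.nd (nat_lit 78) (nat_lit 0) (nat_lit 0) (XT.lf (nat_lit 0) (nat_lit 15976405415) (nat_lit 76) (nat_lit 19512359542) (nat_lit 76) (nat_lit 12250725447)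 (nat_lit 12) (nat_lit 4) (nat_lit 13) (nat_lit 5) (nat_lit 13) (nat_lit 4) (nat_lit 475) (nat_lit 300) (nat_lit 245)) (XT.lf (nat_lit 0) (nat_lit 28494513508) (nat_lit 76) (nat_lit 13903486260) (nat_lit 76) (nat_lit 6590040258) (nat_lit 12) (nat_lit 4) (nat_lit 13) (nat_lit 5) (nat_lit 13) (nat_lit 4) (nat_lit 476) (nat_lit 300) (nat_lit 244)))) (XT.nd (nat_lit 156) (nat_lit 0) (nat_lit 0) (XT.nd (nat_lit 78) (nat_lit 152) (nat_lit 0) (XT.lf (nat_lit 0) (nat_lit 41290181702) (nat_lit 76) (nat_lit 8174553926) (nat_lit 76) (nat_lit 810805101) (nat_lit 12) (nat_lit 4) (nat_lit 13) (nat_lit 5) (nat_lit 13) (nat_lit 4) (nat_lit 477) (nat_lit 300) (nat_lit 243)) (XT.lf (nat_lit 0) (nat_lit 2776709050) (nat_lit 76) (nat_lit 2242648372) (nat_lit 152) (nat_lit 46581490922) (nat_lit 10) (nat_lit 5) (nat_lit 11) (nat_lit 5) (nat_lit 12) (nat_lit 4) (nat_lit 478) (nat_lit 300) (nat_lit 242))) (XT.nd (nat_lit 78) (nat_lit 0)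 (nat_lit 0) (XT.lf (nat_lit 0) (nat_lit 11088185753) (nat_lit 152) (nat_lit 38029622478) (nat_lit 0) (nat_lit 3845465605) (nat_lit 10) (nat_lit 5) (nat_lit 12) (nat_lit 4) (nat_lit 10) (nat_lit 4) (nat_lit 479) (nat_lit 300) (nat_lit 241)) (XT.lf (nat_lit 0) (nat_lit 17313953674) (nat_lit 152) (nat_lit 27026833224) (nat_lit 0) (nat_lit 10026540120) (nat_lit 10) (nat_lit 5) (nat_lit 12) (nat_lit 4) (nat_lit 10) (nat_lit 4) (nat_lit 480) (nat_lit 300) (nat_lit 240))))) (XT.nd (nat_lit 234) (nat_lit 76) (nat_lit 0) (XT.nd (nat_lit 78) (nat_lit 76) (nat_lit 0) (XT.lf (nat_lit 0) (nat_lit 23680543470) (nat_lit 152) (nat_lit 15784599735) (nat_lit 0) (nat_lit 16349738259) (nat_lit 10) (nat_lit 5) (nat_lit 12) (nat_lit 4) (nat_lit 10) (nat_lit 4) (nat_lit 481) (nat_lit 300) (nat_lit 239)) (XT.nd (nat_lit 78) (nat_lit 76) (nat_lit 0) (XT.lf (nat_lit 0) (nat_lit 30193518180) (nat_lit 152) (nat_lit 4293098701) (nat_lit 0)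 (nat_lit 22820585146) (nat_lit 10) (nat_lit 5) (nat_lit 12) (nat_lit 4) (nat_lit 10) (nat_lit 4) (nat_lit 482) (nat_lit 300) (nat_lit 238)) (XT.lf (nat_lit 0) (nat_lit 7606134066) (nat_lit 76) (nat_lit 29325549501) (nat_lit 76) (nat_lit 21911715668) (nat_lit 9) (nat_lit 4) (nat_lit 10) (nat_lit 5) (nat_lit 10) (nat_lit 4) (nat_lit 483) (nat_lit 300) (nat_lit 237)))) (XT.nd (nat_lit 156) (nat_lit 76) (nat_lit 0) (XT.nd (nat_lit 78) (nat_lit 0) (nat_lit 0) (XT.lf (nat_lit 0) (nat_lit 19865749374) (nat_lit 76) (nat_lit 24006731380) (nat_lit 76) (nat_lit 16553188035) (nat_lit 9) (nat_lit 4) (nat_lit 10) (nat_lit 5) (nat_lit 10) (nat_lit 4) (nat_lit 484) (nat_lit 300) (nat_lit 236)) (XT.lf (nat_lit 0) (nat_lit 32411018427) (nat_lit 76) (nat_lit 18568866889) (nat_lit 76) (nat_lit 11076770618) (nat_lit 9) (nat_lit 4) (nat_lit 10) (nat_lit 5) (nat_lit 10) (nat_lit 4) (nat_lit 485) (nat_lit 300) (nat_lit 235))) (XT.nd (nat_lit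 78) (nat_lit 76) (nat_lit 0) (XT.lf (nat_lit 0) (nat_lit 45252903109) (nat_lit 76) (nat_lit 13007204495) (nat_lit 76) (nat_lit 5477678200) (nat_lit 9) (nat_lit 4) (nat_lit 10) (nat_lit 5) (nat_lit 10) (nat_lit 4) (nat_lit 486) (nat_lit 300) (nat_lit 234)) (XT.lf (nat_lit 0) (nat_lit 244123102) (nat_lit 152) (nat_lit 7070296226) (nat_lit 76) (nat_lit 58156036217) (nat_lit 8) (nat_lit 5) (nat_lit 10) (nat_lit 5) (nat_lit 9) (nat_lit 4) (nat_lit 487) (nat_lit 300) (nat_lit 233)))))) (XT.nd (nat_lit 47814) (nat_lit 0) (nat_lit 3192) (XT.nd (nat_lit 234) (nat_lit 0) (nat_lit 0) (XT.nd (nat_lit 78) (nat_lit 0) (nat_lit 0) (XT.lf (nat_lit 0) (nat_lit 4647246635) (nat_lit 76) (nat_lit 1386445063) (nat_lit 152) (nat_lit 61219601269) (nat_lit 7) (nat_lit 5) (nat_lit 8) (nat_lit 5) (nat_lit 9) (nat_lit 4) (nat_lit 488) (nat_lit 300) (nat_lit 232)) (XT.nd (nat_lit 78) (nat_lit 0) (nat_lit 0) (XT.lf (nat_lit 0) (nat_lit 12075993520)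 (nat_lit 152) (nat_lit 52348268911) (nat_lit 0) (nat_lit 4662982562) (nat_lit 7) (nat_lit 5) (nat_lit 9) (nat_lit 4) (nat_lit 7) (nat_lit 4) (nat_lit 489) (nat_lit 300) (nat_lit 231)) (XT.lf (nat_lit 0) (nat_lit 18275988364) (nat_lit 152) (nat_lit 41870245404) (nat_lit 0) (nat_lit 10830689938) (nat_lit 7) (nat_lit 5) (nat_lit 9) (nat_lit 4) (nat_lit 7) (nat_lit 4) (nat_lit 490) (nat_lit 300) (nat_lit 230)))) (XT.nd (nat_lit 47424) (nat_lit 0) (nat_lit 3952) (XT.nd (nat_lit 78) (nat_lit 0) (nat_lit 0) (XT.lf (nat_lit 0) (nat_lit 24625766342) (nat_lit 152) (nat_lit 31149492898) (nat_lit 0) (nat_lit 17149120860) (nat_lit 7) (nat_lit 5) (nat_lit 9) (nat_lit 4) (nat_lit 7) (nat_lit 4) (nat_lit 491) (nat_lit 300) (nat_lit 229)) (XT.lf (nat_lit 0) (nat_lit 31130875804) (nat_lit 152) (nat_lit 20176643746) (nat_lit 0) (nat_lit 23623796287) (nat_lit 7) (nat_lit 5) (nat_lit 9) (nat_lit 4) (nat_lit 7) (nat_lit 4) (nat_lit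 492) (nat_lit 300) (nat_lit 228))) (XT.nd (nat_lit 78) (nat_lit 152) (nat_lit 0) (XT.lf (nat_lit 0) (nat_lit 1808151789) (nat_lit 228) (nat_lit 3353902056) (nat_lit 0) (nat_lit 1808151789) (nat_lit 61) (nat_lit 5) (nat_lit 64) (nat_lit 4) (nat_lit 61) (nat_lit 4) (nat_lit 418) (nat_lit 301) (nat_lit 301)) (XT.lf (nat_lit 0) (nat_lit 4246476276) (nat_lit 152) (nat_lit 5169221378) (nat_lit 152) (nat_lit 4758983921) (nat_lit 59) (nat_lit 4) (nat_lit 61) (nat_lit 5) (nat_lit 61) (nat_lit 4) (nat_lit 419) (nat_lit 301) (nat_lit 300))))) (XT.nd (nat_lit 234) (nat_lit 456) (nat_lit 0) (XT.nd (nat_lit 78) (nat_lit 152) (nat_lit 0) (XT.lf (nat_lit 0) (nat_lit 913163189) (nat_lit 152) (nat_lit 13375588290) (nat_lit 0) (nat_lit 128186247) (nat_lit 57) (nat_lit 5) (nat_lit 59) (nat_lit 4) (nat_lit 57) (nat_lit 4) (nat_lit 420) (nat_lit 301) (nat_lit 299)) (XT.nd (nat_lit 78) (nat_lit 152) (nat_lit 0) (XT.lf (nat_lit 0) (nat_lit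 6692084435) (nat_lit 152) (nat_lit 2440323456) (nat_lit 0) (nat_lit 5531682104) (nat_lit 57) (nat_lit 5) (nat_lit 59) (nat_lit 4) (nat_lit 57) (nat_lit 4) (nat_lit 421) (nat_lit 301) (nat_lit 298)) (XT.lf (nat_lit 0) (nat_lit 8779674675) (nat_lit 152) (nat_lit 3832426422) (nat_lit 152) (nat_lit 2307533424) (nat_lit 55) (nat_lit 4) (nat_lit 57) (nat_lit 5) (nat_lit 57) (nat_lit 4) (nat_lit 422) (nat_lit 301) (nat_lit 297)))) (XT.nd (nat_lit 156) (nat_lit 152) (nat_lit 0) (XT.nd (nat_lit 78) (nat_lit 152) (nat_lit 0) (XT.lf (nat_lit 0) (nat_lit 3430806438) (nat_lit 152) (nat_lit 10145087793) (nat_lit 0) (nat_lit 1606760388) (nat_lit 53) (nat_lit 5) (nat_lit 55) (nat_lit 4) (nat_lit 53) (nat_lit 4) (nat_lit 423) (nat_lit 301) (nat_lit 296)) (XT.lf (nat_lit 0) (nat_lit 966749217) (nat_lit 152) (nat_lit 8321966059) (nat_lit 152) (nat_lit 6164359414) (nat_lit 51) (nat_lit 4) (nat_lit 53) (nat_lit 5) (nat_lit 53) (nat_lit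 4) (nat_lit 424) (nat_lit 301) (nat_lit 295))) (XT.nd (nat_lit 78) (nat_lit 152) (nat_lit 0) (XT.lf (nat_lit 0) (nat_lit 12406729183) (nat_lit 152) (nat_lit 2903353443) (nat_lit 152) (nat_lit 421901561) (nat_lit 51) (nat_lit 4) (nat_lit 53) (nat_lit 5) (nat_lit 53) (nat_lit 4) (nat_lit 425) (nat_lit 301) (nat_lit 294)) (XT.lf (nat_lit 0) (nat_lit 5376788664) (nat_lit 152) (nat_lit 7978805079) (nat_lit 0) (nat_lit 2662356884) (nat_lit 49) (nat_lit 5) (nat_lit 51) (nat_lit 4) (nat_lit 49) (nat_lit 4) (nat_lit 426) (nat_lit 301) (nat_lit 293))))))) (XT.nd (nat_lit 1092) (nat_lit 836) (nat_lit 0) (XT.nd (nat_lit 546) (nat_lit 456) (nat_lit 0) (XT.nd (nat_lit 234) (nat_lit 456) (nat_lit 0) (XT.nd (nat_lit 78) (nat_lit 152) (nat_lit 0) (XT.lf (nat_lit 0) (nat_lit 3323160124) (nat_lit 152) (nat_lit 8000270146) (nat_lit 152) (nat_lit 4989474098) (nat_lit 47) (nat_lit 4) (nat_lit 49) (nat_lit 5) (nat_lit 49) (nat_lit 4)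 (nat_lit 427) (nat_lit 301) (nat_lit 292)) (XT.nd (nat_lit 78) (nat_lit 76) (nat_lit 0) (XT.lf (nat_lit 0) (nat_lit 784936883) (nat_lit 228) (nat_lit 1705106473) (nat_lit 76) (nat_lit 14127348708) (nat_lit 46) (nat_lit 5) (nat_lit 49) (nat_lit 5) (nat_lit 47) (nat_lit 4) (nat_lit 428) (nat_lit 301) (nat_lit 291)) (XT.lf (nat_lit 0) (nat_lit 6649483467) (nat_lit 152) (nat_lit 7103726908) (nat_lit 0) (nat_lit 3175813474) (nat_lit 45) (nat_lit 5) (nat_lit 47) (nat_lit 4) (nat_lit 45) (nat_lit 4) (nat_lit 429) (nat_lit 301) (nat_lit 290)))) (XT.nd (nat_lit 156) (nat_lit 228) (nat_lit 0) (XT.nd (nat_lit 78) (nat_lit 76) (nat_lit 0) (XT.lf (nat_lit 0) (nat_lit 4343015760) (nat_lit 152) (nat_lit 8322359624) (nat_lit 152) (nat_lit 4585373818) (nat_lit 43) (nat_lit 4) (nat_lit 45) (nat_lit 5) (nat_lit 45) (nat_lit 4) (nat_lit 430) (nat_lit 301) (nat_lit 289)) (XT.lf (nat_lit 0) (nat_lit 1218857878) (nat_lit 228) (nat_lit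 1518350733) (nat_lit 76) (nat_lit 14845628872) (nat_lit 42) (nat_lit 5) (nat_lit 45) (nat_lit 5) (nat_lit 43) (nat_lit 4) (nat_lit 431) (nat_lit 301) (nat_lit 288))) (XT.nd (nat_lit 78) (nat_lit 152) (nat_lit 0) (XT.lf (nat_lit 0) (nat_lit 7127218923) (nat_lit 152) (nat_lit 7785743190) (nat_lit 0) (nat_lit 3009905685) (nat_lit 41) (nat_lit 5) (nat_lit 43) (nat_lit 4) (nat_lit 41) (nat_lit 4) (nat_lit 432) (nat_lit 301) (nat_lit 287)) (XT.lf (nat_lit 0) (nat_lit 3748144422) (nat_lit 152) (nat_lit 9438506027) (nat_lit 152) (nat_lit 5087240099) (nat_lit 39) (nat_lit 4) (nat_lit 41) (nat_lit 5) (nat_lit 41) (nat_lit 4) (nat_lit 433) (nat_lit 301) (nat_lit 286))))) (XT.nd (nat_lit 234) (nat_lit 228) (nat_lit 0) (XT.nd (nat_lit 78) (nat_lit 152) (nat_lit 0) (XT.lf (nat_lit 0) (nat_lit 751693144) (nat_lit 228) (nat_lit 3052467378) (nat_lit 76) (nat_lit 14831818645) (nat_lit 38) (nat_lit 5) (nat_lit 41) (nat_lit 5) (nat_lit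 39) (nat_lit 4) (nat_lit 434) (nat_lit 301) (nat_lit 285)) (XT.nd (nat_lit 78) (nat_lit 76) (nat_lit 0) (XT.lf (nat_lit 0) (nat_lit 6665143942) (nat_lit 152) (nat_lit 10336241880) (nat_lit 0) (nat_lit 2005991214) (nat_lit 37) (nat_lit 5) (nat_lit 39) (nat_lit 4) (nat_lit 37) (nat_lit 4) (nat_lit 435) (nat_lit 301) (nat_lit 284)) (XT.lf (nat_lit 0) (nat_lit 1212608955) (nat_lit 76) (nat_lit 11522478650) (nat_lit 76) (nat_lit 6655461988) (nat_lit 36) (nat_lit 4) (nat_lit 37) (nat_lit 5) (nat_lit 37) (nat_lit 4) (nat_lit 436) (nat_lit 301) (nat_lit 283)))) (XT.nd (nat_lit 156) (nat_lit 76) (nat_lit 0) (XT.nd (nat_lit 78) (nat_lit 152) (nat_lit 0) (XT.lf (nat_lit 0) (nat_lit 13128591869) (nat_lit 76) (nat_lit 5862666585) (nat_lit 76) (nat_lit 793840278) (nat_lit 36) (nat_lit 4) (nat_lit 37) (nat_lit 5) (nat_lit 37) (nat_lit 4) (nat_lit 437) (nat_lit 301) (nat_lit 282)) (XT.lf (nat_lit 0) (nat_lit 5071520461) (nat_lit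 76) (nat_lit 20242328) (nat_lit 152) (nat_lit 15099700732) (nat_lit 34) (nat_lit 5) (nat_lit 35) (nat_lit 5) (nat_lit 36) (nat_lit 4) (nat_lit 438) (nat_lit 301) (nat_lit 281))) (XT.nd (nat_lit 78) (nat_lit 76) (nat_lit 0) (XT.lf (nat_lit 0) (nat_lit 11165443256) (nat_lit 152) (nat_lit 3574177781) (nat_lit 0) (nat_lit 5869343307) (nat_lit 34) (nat_lit 5) (nat_lit 36) (nat_lit 4) (nat_lit 34) (nat_lit 4) (nat_lit 439) (nat_lit 301) (nat_lit 280)) (XT.lf (nat_lit 0) (nat_lit 8297302331) (nat_lit 76) (nat_lit 9108777687) (nat_lit 76) (nat_lit 3633372482) (nat_lit 33) (nat_lit 4) (nat_lit 34) (nat_lit 5) (nat_lit 34) (nat_lit 4) (nat_lit 440) (nat_lit 301) (nat_lit 279)))))) (XT.nd (nat_lit 546) (nat_lit 380) (nat_lit 0) (XT.nd (nat_lit 234) (nat_lit 228) (nat_lit 0) (XT.nd (nat_lit 78) (nat_lit 152) (nat_lit 0) (XT.lf (nat_lit 0) (nat_lit 2246539246) (nat_lit 152) (nat_lit 1089013306) (nat_lit 76) (nat_lit 18148389060)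 (nat_lit 32) (nat_lit 5) (nat_lit 34) (nat_lit 5) (nat_lit 33) (nat_lit 4) (nat_lit 441) (nat_lit 301) (nat_lit 278)) (XT.nd (nat_lit 78) (nat_lit 76) (nat_lit 0) (XT.lf (nat_lit 0) (nat_lit 8268063051) (nat_lit 152) (nat_lit 11052446601) (nat_lit 0) (nat_lit 2619033558) (nat_lit 31) (nat_lit 5) (nat_lit 33) (nat_lit 4) (nat_lit 31) (nat_lit 4) (nat_lit 442) (nat_lit 301) (nat_lit 277)) (XT.lf (nat_lit 0) (nat_lit 638290091) (nat_lit 76) (nat_lit 13790061622) (nat_lit 76) (nat_lit 7981721731) (nat_lit 30) (nat_lit 4) (nat_lit 31) (nat_lit 5) (nat_lit 31) (nat_lit 4) (nat_lit 443) (nat_lit 301) (nat_lit 276)))) (XT.nd (nat_lit 156) (nat_lit 76) (nat_lit 0) (XT.nd (nat_lit 78) (nat_lit 152) (nat_lit 0) (XT.lf (nat_lit 0) (nat_lit 12730690371) (nat_lit 76) (nat_lit 8063214874) (nat_lit 76) (nat_lit 2100204694) (nat_lit 30) (nat_lit 4) (nat_lit 31) (nat_lit 5) (nat_lit 31) (nat_lit 4) (nat_lit 444) (nat_lit 301) (nat_lit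 275)) (XT.lf (nat_lit 0) (nat_lit 1614362577) (nat_lit 76) (nat_lit 2192306430) (nat_lit 152) (nat_lit 19587076760) (nat_lit 28) (nat_lit 5) (nat_lit 29) (nat_lit 5) (nat_lit 30) (nat_lit 4) (nat_lit 445) (nat_lit 301) (nat_lit 274))) (XT.nd (nat_lit 78) (nat_lit 76) (nat_lit 0) (XT.lf (nat_lit 0) (nat_lit 9900033936) (nat_lit 152) (nat_lit 10182804841) (nat_lit 0) (nat_lit 3823366858) (nat_lit 28) (nat_lit 5) (nat_lit 30) (nat_lit 4) (nat_lit 28) (nat_lit 4) (nat_lit 446) (nat_lit 301) (nat_lit 273)) (XT.lf (nat_lit 0) (nat_lit 1603817276) (nat_lit 76) (nat_lit 14522899860) (nat_lit 76) (nat_lit 8308810233) (nat_lit 27) (nat_lit 4) (nat_lit 28) (nat_lit 5) (nat_lit 28) (nat_lit 4) (nat_lit 447) (nat_lit 301) (nat_lit 272))))) (XT.nd (nat_lit 312) (nat_lit 228) (nat_lit 0) (XT.nd (nat_lit 156) (nat_lit 0) (nat_lit 0) (XT.nd (nat_lit 78) (nat_lit 152) (nat_lit 0) (XT.lf (nat_lit 0) (nat_lit 13786973350) (nat_lit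 76) (nat_lit 8770376991) (nat_lit 76) (nat_lit 2422867415) (nat_lit 27) (nat_lit 4) (nat_lit 28) (nat_lit 5) (nat_lit 28) (nat_lit 4) (nat_lit 448) (nat_lit 301) (nat_lit 271)) (XT.lf (nat_lit 0) (nat_lit 608616728) (nat_lit 76) (nat_lit 2881856294) (nat_lit 152) (nat_lit 22052074258) (nat_lit 25) (nat_lit 5) (nat_lit 26) (nat_lit 5) (nat_lit 27) (nat_lit 4) (nat_lit 449) (nat_lit 301) (nat_lit 270))) (XT.nd (nat_lit 78) (nat_lit 0) (nat_lit 0) (XT.lf (nat_lit 0) (nat_lit 9593406529) (nat_lit 152) (nat_lit 13342880365) (nat_lit 0) (nat_lit 3182916619) (nat_lit 25) (nat_lit 5) (nat_lit 27) (nat_lit 4) (nat_lit 25) (nat_lit 4) (nat_lit 450) (nat_lit 301) (nat_lit 269)) (XT.lf (nat_lit 0) (nat_lit 15826544906) (nat_lit 152) (nat_lit 1590691020) (nat_lit 0) (nat_lit 9297513099) (nat_lit 25) (nat_lit 5) (nat_lit 27) (nat_lit 4) (nat_lit 25) (nat_lit 4) (nat_lit 451) (nat_lit 301) (nat_lit 268)))) (XT.nd (nat_lit 156)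 (nat_lit 76) (nat_lit 0) (XT.nd (nat_lit 78) (nat_lit 76) (nat_lit 0) (XT.lf (nat_lit 0) (nat_lit 10566804977) (nat_lit 76) (nat_lit 11702402037) (nat_lit 76) (nat_lit 5058281009) (nat_lit 24) (nat_lit 4) (nat_lit 25) (nat_lit 5) (nat_lit 25) (nat_lit 4) (nat_lit 452) (nat_lit 301) (nat_lit 267)) (XT.lf (nat_lit 0) (nat_lit 865310760) (nat_lit 152) (nat_lit 4999277290) (nat_lit 76) (nat_lit 22095633769) (nat_lit 23) (nat_lit 5) (nat_lit 25) (nat_lit 5) (nat_lit 24) (nat_lit 4) (nat_lit 453) (nat_lit 301) (nat_lit 266))) (XT.nd (nat_lit 78) (nat_lit 0) (nat_lit 0) (XT.lf (nat_lit 0) (nat_lit 6857963614) (nat_lit 152) (nat_lit 21559128612) (nat_lit 0) (nat_lit 193555105) (nat_lit 22) (nat_lit 5) (nat_lit 24) (nat_lit 4) (nat_lit 22) (nat_lit 4) (nat_lit 454) (nat_lit 301) (nat_lit 265)) (XT.lf (nat_lit 0) (nat_lit 13062889046) (nat_lit 152) (nat_lit 9920499188) (nat_lit 0) (nat_lit 6296225255) (nat_lit 22) (nat_lit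 5) (nat_lit 24) (nat_lit 4) (nat_lit 22) (nat_lit 4) (nat_lit 455) (nat_lit 301) (nat_lit 264))))))))
noncomputable def xc25 : XT := (XT.nd (nat_lit 2262) (nat_lit 152) (nat_lit 0) (XT.nd (nat_lit 1092) (nat_lit 456) (nat_lit 0) (XT.nd (nat_lit 546) (nat_lit 228) (nat_lit 0) (XT.nd (nat_lit 234) (nat_lit 152) (nat_lit 0) (XT.nd (nat_lit 78) (nat_lit 76) (nat_lit 0) (XT.lf (nat_lit 0) (nat_lit 1960712889) (nat_lit 76) (nat_lit 17437771715) (nat_lit 76) (nat_lit 10571830951) (nat_lit 21) (nat_lit 4) (nat_lit 22) (nat_lit 5) (nat_lit 22) (nat_lit 4) (nat_lit 456) (nat_lit 301) (nat_lit 263)) (XT.nd (nat_lit 78) (nat_lit 76) (nat_lit 0) (XT.lf (nat_lit 0) (nat_lit 14258305006) (nat_lit 76) (nat_lit 11692481606) (nat_lit 76) (nat_lit 4730155432) (nat_lit 21) (nat_lit 4) (nat_lit 22) (nat_lit 5) (nat_lit 22) (nat_lit 4) (nat_lit 457) (nat_lit 301) (nat_lit 262)) (XT.lf (nat_lit 0) (nat_lit 1189554435) (nat_lit 152) (nat_lit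 4641108737) (nat_lit 76) (nat_lit 25584018643) (nat_lit 20) (nat_lit 5) (nat_lit 22) (nat_lit 5) (nat_lit 21) (nat_lit 4) (nat_lit 458) (nat_lit 301) (nat_lit 261)))) (XT.nd (nat_lit 156) (nat_lit 76) (nat_lit 0) (XT.nd (nat_lit 78) (nat_lit 0) (nat_lit 0) (XT.lf (nat_lit 0) (nat_lit 7195972325) (nat_lit 152) (nat_lit 24715559567) (nat_lit 0) (nat_lit 257373552) (nat_lit 19) (nat_lit 5) (nat_lit 21) (nat_lit 4) (nat_lit 19) (nat_lit 4) (nat_lit 459) (nat_lit 301) (nat_lit 260)) (XT.lf (nat_lit 0) (nat_lit 13417740824) (nat_lit 152) (nat_lit 13133457590) (nat_lit 0) (nat_lit 6393504862) (nat_lit 19) (nat_lit 5) (nat_lit 21) (nat_lit 4) (nat_lit 19) (nat_lit 4) (nat_lit 460) (nat_lit 301) (nat_lit 259))) (XT.nd (nat_lit 78) (nat_lit 76) (nat_lit 0) (XT.lf (nat_lit 0) (nat_lit 19758296956) (nat_lit 152) (nat_lit 1336598129) (nat_lit 0) (nat_lit 12650918092) (nat_lit 19) (nat_lit 5) (nat_lit 21) (nat_lit 4) (nat_lit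 19) (nat_lit 4) (nat_lit 461) (nat_lit 301) (nat_lit 258)) (XT.lf (nat_lit 0) (nat_lit 10897985704) (nat_lit 76) (nat_lit 15429953414) (nat_lit 76) (nat_lit 8241853287) (nat_lit 18) (nat_lit 4) (nat_lit 19) (nat_lit 5) (nat_lit 19) (nat_lit 4) (nat_lit 462) (nat_lit 301) (nat_lit 257))))) (XT.nd (nat_lit 234) (nat_lit 76) (nat_lit 0) (XT.nd (nat_lit 78) (nat_lit 152) (nat_lit 0) (XT.lf (nat_lit 0) (nat_lit 23399428780) (nat_lit 76) (nat_lit 9643542767) (nat_lit 76) (nat_lit 2377072480) (nat_lit 18) (nat_lit 4) (nat_lit 19) (nat_lit 5) (nat_lit 19) (nat_lit 4) (nat_lit 463) (nat_lit 301) (nat_lit 256)) (XT.nd (nat_lit 78) (nat_lit 76) (nat_lit 0) (XT.lf (nat_lit 0) (nat_lit 3528234949) (nat_lit 152) (nat_lit 180240871) (nat_lit 76) (nat_lit 32588190561) (nat_lit 17) (nat_lit 5) (nat_lit 19) (nat_lit 5) (nat_lit 18) (nat_lit 4) (nat_lit 464) (nat_lit 301) (nat_lit 255)) (XT.lf (nat_lit 0) (nat_lit 9641165537) (nat_lit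 152) (nat_lit 25114621634) (nat_lit 0) (nat_lit 2440748827) (nat_lit 16) (nat_lit 5) (nat_lit 18) (nat_lit 4) (nat_lit 16) (nat_lit 4) (nat_lit 465) (nat_lit 301) (nat_lit 254)))) (XT.nd (nat_lit 156) (nat_lit 76) (nat_lit 0) (XT.nd (nat_lit 78) (nat_lit 0) (nat_lit 0) (XT.lf (nat_lit 0) (nat_lit 15914061111) (nat_lit 152) (nat_lit 13566031569) (nat_lit 0) (nat_lit 8644013530) (nat_lit 16) (nat_lit 5) (nat_lit 18) (nat_lit 4) (nat_lit 16) (nat_lit 4) (nat_lit 466) (nat_lit 301) (nat_lit 253)) (XT.lf (nat_lit 0) (nat_lit 22314970141) (nat_lit 152) (nat_lit 1789020583) (nat_lit 0) (nat_lit 14977319773) (nat_lit 16) (nat_lit 5) (nat_lit 18) (nat_lit 4) (nat_lit 16) (nat_lit 4) (nat_lit 467) (nat_lit 301) (nat_lit 252))) (XT.nd (nat_lit 78) (nat_lit 0) (nat_lit 0) (XT.lf (nat_lit 0) (nat_lit 10430233335) (nat_lit 76) (nat_lit 18519514103) (nat_lit 76) (nat_lit 11116229961) (nat_lit 15) (nat_lit 4) (nat_lit 16) (nat_lit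 5) (nat_lit 16) (nat_lit 4) (nat_lit 468) (nat_lit 301) (nat_lit 251)) (XT.lf (nat_lit 0) (nat_lit 22939262740) (nat_lit 76) (nat_lit 12804560909) (nat_lit 76) (nat_lit 5337554655) (nat_lit 15) (nat_lit 4) (nat_lit 16) (nat_lit 5) (nat_lit 16) (nat_lit 4) (nat_lit 469) (nat_lit 301) (nat_lit 250)))))) (XT.nd (nat_lit 546) (nat_lit 228) (nat_lit 0) (XT.nd (nat_lit 234) (nat_lit 76) (nat_lit 0) (XT.nd (nat_lit 78) (nat_lit 76) (nat_lit 0) (XT.lf (nat_lit 0) (nat_lit 545806665) (nat_lit 152) (nat_lit 6420884850) (nat_lit 76) (nat_lit 35162074592) (nat_lit 14) (nat_lit 5) (nat_lit 16) (nat_lit 5) (nat_lit 15) (nat_lit 4) (nat_lit 470) (nat_lit 301) (nat_lit 249)) (XT.nd (nat_lit 78) (nat_lit 0) (nat_lit 0) (XT.lf (nat_lit 0) (nat_lit 5600360788) (nat_lit 76) (nat_lit 896830034) (nat_lit 152) (nat_lit 36708836787) (nat_lit 13) (nat_lit 5) (nat_lit 14) (nat_lit 5) (nat_lit 15) (nat_lit 4) (nat_lit 471) (nat_lit 301)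 (nat_lit 248)) (XT.lf (nat_lit 0) (nat_lit 12689110343) (nat_lit 152) (nat_lit 26360043800) (nat_lit 0) (nat_lit 5264594478) (nat_lit 13) (nat_lit 5) (nat_lit 15) (nat_lit 4) (nat_lit 13) (nat_lit 4) (nat_lit 472) (nat_lit 301) (nat_lit 247)))) (XT.nd (nat_lit 156) (nat_lit 76) (nat_lit 0) (XT.nd (nat_lit 78) (nat_lit 0) (nat_lit 0) (XT.lf (nat_lit 0) (nat_lit 19022304592) (nat_lit 152) (nat_lit 14890911118) (nat_lit 0) (nat_lit 11542821474) (nat_lit 13) (nat_lit 5) (nat_lit 15) (nat_lit 4) (nat_lit 13) (nat_lit 4) (nat_lit 473) (nat_lit 301) (nat_lit 246)) (XT.lf (nat_lit 0) (nat_lit 25493686550) (nat_lit 152) (nat_lit 3179626324) (nat_lit 0) (nat_lit 17960837167) (nat_lit 13) (nat_lit 5) (nat_lit 15) (nat_lit 4) (nat_lit 13) (nat_lit 4) (nat_lit 474) (nat_lit 301) (nat_lit 245))) (XT.nd (nat_lit 78) (nat_lit 0) (nat_lit 0) (XT.lf (nat_lit 0) (nat_lit 8958863436) (nat_lit 76) (nat_lit 23236165462) (nat_lit 76)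 (nat_lit 15651504172) (nat_lit 12) (nat_lit 4) (nat_lit 13) (nat_lit 5) (nat_lit 13) (nat_lit 4) (nat_lit 475) (nat_lit 301) (nat_lit 244)) (XT.lf (nat_lit 0) (nat_lit 21428703972) (nat_lit 76) (nat_lit 17651039543) (nat_lit 76) (nat_lit 10016075430) (nat_lit 12) (nat_lit 4) (nat_lit 13) (nat_lit 5) (nat_lit 13) (nat_lit 4) (nat_lit 476) (nat_lit 301) (nat_lit 243))))) (XT.nd (nat_lit 312) (nat_lit 76) (nat_lit 0) (XT.nd (nat_lit 156) (nat_lit 76) (nat_lit 0) (XT.nd (nat_lit 78) (nat_lit 76) (nat_lit 0) (XT.lf (nat_lit 0) (nat_lit 34177510460) (nat_lit 76) (nat_lit 11945162902) (nat_lit 76) (nat_lit 4261361096) (nat_lit 12) (nat_lit 4) (nat_lit 13) (nat_lit 5) (nat_lit 13) (nat_lit 4) (nat_lit 477) (nat_lit 301) (nat_lit 242)) (XT.lf (nat_lit 0) (nat_lit 1586100706) (nat_lit 152) (nat_lit 4511432606) (nat_lit 76) (nat_lit 45614305423) (nat_lit 11) (nat_lit 5) (nat_lit 13) (nat_lit 5) (nat_lit 12) (nat_lit 4) (nat_lit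 478) (nat_lit 301) (nat_lit 241))) (XT.nd (nat_lit 78) (nat_lit 0) (nat_lit 0) (XT.lf (nat_lit 0) (nat_lit 7549043668) (nat_lit 76) (nat_lit 855305) (nat_lit 152) (nat_lit 45527516731) (nat_lit 10) (nat_lit 5) (nat_lit 11) (nat_lit 5) (nat_lit 12) (nat_lit 4) (nat_lit 479) (nat_lit 301) (nat_lit 240)) (XT.lf (nat_lit 0) (nat_lit 13753022633) (nat_lit 152) (nat_lit 34570224533) (nat_lit 0) (nat_lit 6158901608) (nat_lit 10) (nat_lit 5) (nat_lit 12) (nat_lit 4) (nat_lit 10) (nat_lit 4) (nat_lit 480) (nat_lit 301) (nat_lit 239)))) (XT.nd (nat_lit 156) (nat_lit 76) (nat_lit 0) (XT.nd (nat_lit 78) (nat_lit 0) (nat_lit 0) (XT.lf (nat_lit 0) (nat_lit 20097635690) (nat_lit 152) (nat_lit 23371340531) (nat_lit 0) (nat_lit 12461386842) (nat_lit 10) (nat_lit 5) (nat_lit 12) (nat_lit 4) (nat_lit 10) (nat_lit 4) (nat_lit 481) (nat_lit 301) (nat_lit 238)) (XT.lf (nat_lit 0) (nat_lit 26589273760) (nat_lit 152) (nat_lit 11921926379)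 (nat_lit 0) (nat_lit 18912124114) (nat_lit 10) (nat_lit 5) (nat_lit 12) (nat_lit 4) (nat_lit 10) (nat_lit 4) (nat_lit 482) (nat_lit 301) (nat_lit 237))) (XT.nd (nat_lit 78) (nat_lit 76) (nat_lit 0) (XT.lf (nat_lit 0) (nat_lit 33233609149) (nat_lit 152) (nat_lit 211977732) (nat_lit 0) (nat_lit 25516749990) (nat_lit 10) (nat_lit 5) (nat_lit 12) (nat_lit 4) (nat_lit 10) (nat_lit 4) (nat_lit 483) (nat_lit 301) (nat_lit 236)) (XT.lf (nat_lit 0) (nat_lit 12002958352) (nat_lit 76) (nat_lit 28148869011) (nat_lit 76) (nat_lit 20393456927) (nat_lit 9) (nat_lit 4) (nat_lit 10) (nat_lit 5) (nat_lit 10) (nat_lit 4) (nat_lit 484) (nat_lit 301) (nat_lit 235))))))) (XT.nd (nat_lit 48204) (nat_lit 0) (nat_lit 2280) (XT.nd (nat_lit 546) (nat_lit 0) (nat_lit 0) (XT.nd (nat_lit 234) (nat_lit 152) (nat_lit 0) (XT.nd (nat_lit 78) (nat_lit 0) (nat_lit 0) (XT.lf (nat_lit 0) (nat_lit 24508945414) (nat_lit 76) (nat_lit 22730382861) (nat_lit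 76) (nat_lit 14937540753) (nat_lit 9) (nat_lit 4) (nat_lit 10) (nat_lit 5) (nat_lit 10) (nat_lit 4) (nat_lit 485) (nat_lit 301) (nat_lit 234)) (XT.nd (nat_lit 78) (nat_lit 0) (nat_lit 0) (XT.lf (nat_lit 0) (nat_lit 37312692240) (nat_lit 76) (nat_lit 17187534390) (nat_lit 76) (nat_lit 9358352452) (nat_lit 9) (nat_lit 4) (nat_lit 10) (nat_lit 5) (nat_lit 10) (nat_lit 4) (nat_lit 486) (nat_lit 301) (nat_lit 233)) (XT.lf (nat_lit 0) (nat_lit 50425386571) (nat_lit 76) (nat_lit 11515480333) (nat_lit 76) (nat_lit 3651017007) (nat_lit 9) (nat_lit 4) (nat_lit 10) (nat_lit 5) (nat_lit 10) (nat_lit 4) (nat_lit 487) (nat_lit 301) (nat_lit 232)))) (XT.nd (nat_lit 156) (nat_lit 0) (nat_lit 0) (XT.nd (nat_lit 78) (nat_lit 76) (nat_lit 0) (XT.lf (nat_lit 0) (nat_lit 2146728467) (nat_lit 152) (nat_lit 3540858311) (nat_lit 76) (nat_lit 61690079885) (nat_lit 8) (nat_lit 5) (nat_lit 10) (nat_lit 5) (nat_lit 9) (nat_lit 4) (nat_lit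 488) (nat_lit 301) (nat_lit 231)) (XT.lf (nat_lit 0) (nat_lit 8094251115) (nat_lit 152) (nat_lit 60726905099) (nat_lit 0) (nat_lit 393306268) (nat_lit 7) (nat_lit 5) (nat_lit 9) (nat_lit 4) (nat_lit 7) (nat_lit 4) (nat_lit 489) (nat_lit 301) (nat_lit 230))) (XT.nd (nat_lit 78) (nat_lit 0) (nat_lit 0) (XT.lf (nat_lit 0) (nat_lit 14276405214) (nat_lit 152) (nat_lit 50284158295) (nat_lit 0) (nat_lit 6544113311) (nat_lit 7) (nat_lit 5) (nat_lit 9) (nat_lit 4) (nat_lit 7) (nat_lit 4) (nat_lit 490) (nat_lit 301) (nat_lit 229)) (XT.lf (nat_lit 0) (nat_lit 20608862081) (nat_lit 152) (nat_lit 39597655015) (nat_lit 0) (nat_lit 12846136143) (nat_lit 7) (nat_lit 5) (nat_lit 9) (nat_lit 4) (nat_lit 7) (nat_lit 4) (nat_lit 491) (nat_lit 301) (nat_lit 228))))) (XT.nd (nat_lit 47346) (nat_lit 0) (nat_lit 3800) (XT.nd (nat_lit 47190) (nat_lit 0) (nat_lit 4332) (XT.lf (nat_lit 0) (nat_lit 27097154930) (nat_lit 152) (nat_lit 28658057539)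 (nat_lit 0) (nat_lit 19304881385) (nat_lit 7) (nat_lit 5) (nat_lit 9) (nat_lit 4) (nat_lit 7) (nat_lit 4) (nat_lit 492) (nat_lit 301) (nat_lit 227)) (XT.nd (nat_lit 78) (nat_lit 152) (nat_lit 0) (XT.lf (nat_lit 0) (nat_lit 3149668512) (nat_lit 228) (nat_lit 445591502) (nat_lit 0) (nat_lit 3149668512) (nat_lit 66) (nat_lit 5) (nat_lit 69) (nat_lit 4) (nat_lit 66) (nat_lit 4) (nat_lit 416) (nat_lit 302) (nat_lit 302)) (XT.lf (nat_lit 0) (nat_lit 9988780137) (nat_lit 152) (nat_lit 2079783243) (nat_lit 152) (nat_lit 1644562325) (nat_lit 64) (nat_lit 4) (nat_lit 66) (nat_lit 5) (nat_lit 66) (nat_lit 4) (nat_lit 417) (nat_lit 302) (nat_lit 301)))) (XT.nd (nat_lit 156) (nat_lit 152) (nat_lit 0) (XT.nd (nat_lit 78) (nat_lit 152) (nat_lit 0) (XT.lf (nat_lit 0) (nat_lit 3979312573) (nat_lit 228) (nat_lit 6816359509) (nat_lit 0) (nat_lit 3146530535) (nat_lit 61) (nat_lit 5) (nat_lit 64) (nat_lit 4) (nat_lit 61) (nat_lit 4)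 (nat_lit 418) (nat_lit 302) (nat_lit 300)) (XT.lf (nat_lit 0) (nat_lit 4028269285) (nat_lit 152) (nat_lit 5690538283) (nat_lit 152) (nat_lit 4459467451) (nat_lit 59) (nat_lit 4) (nat_lit 61) (nat_lit 5) (nat_lit 61) (nat_lit 4) (nat_lit 419) (nat_lit 302) (nat_lit 299))) (XT.nd (nat_lit 78) (nat_lit 0) (nat_lit 0) (XT.lf (nat_lit 0) (nat_lit 705879482) (nat_lit 76) (nat_lit 438770006) (nat_lit 152) (nat_lit 13277665707) (nat_lit 57) (nat_lit 5) (nat_lit 58) (nat_lit 5) (nat_lit 59) (nat_lit 4) (nat_lit 420) (nat_lit 302) (nat_lit 298)) (XT.lf (nat_lit 0) (nat_lit 6861881174) (nat_lit 152) (nat_lit 2882690949) (nat_lit 0) (nat_lit 4926750719) (nat_lit 57) (nat_lit 5) (nat_lit 59) (nat_lit 4) (nat_lit 57) (nat_lit 4) (nat_lit 421) (nat_lit 302) (nat_lit 297)))))) (XT.nd (nat_lit 546) (nat_lit 684) (nat_lit 0) (XT.nd (nat_lit 234) (nat_lit 380) (nat_lit 0) (XT.nd (nat_lit 78) (nat_lit 304) (nat_lit 0) (XT.lf (nat_lit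 0) (nat_lit 8223802052) (nat_lit 152) (nat_lit 4496954499) (nat_lit 152) (nat_lit 2207949610) (nat_lit 55) (nat_lit 4) (nat_lit 57) (nat_lit 5) (nat_lit 57) (nat_lit 4) (nat_lit 422) (nat_lit 302) (nat_lit 296)) (XT.nd (nat_lit 78) (nat_lit 152) (nat_lit 0) (XT.lf (nat_lit 0) (nat_lit 3459295549) (nat_lit 152) (nat_lit 10831080718) (nat_lit 0) (nat_lit 903400110) (nat_lit 53) (nat_lit 5) (nat_lit 55) (nat_lit 4) (nat_lit 53) (nat_lit 4) (nat_lit 423) (nat_lit 302) (nat_lit 295)) (XT.lf (nat_lit 0) (nat_lit 162090628) (nat_lit 152) (nat_lit 9091873930) (nat_lit 152) (nat_lit 6212133254) (nat_lit 51) (nat_lit 4) (nat_lit 53) (nat_lit 5) (nat_lit 53) (nat_lit 4) (nat_lit 424) (nat_lit 302) (nat_lit 294)))) (XT.nd (nat_lit 156) (nat_lit 228) (nat_lit 0) (XT.nd (nat_lit 78) (nat_lit 152) (nat_lit 0) (XT.lf (nat_lit 0) (nat_lit 11500116169) (nat_lit 152) (nat_lit 3720347383) (nat_lit 152) (nat_lit 526193856) (nat_lit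 51) (nat_lit 4) (nat_lit 53) (nat_lit 5) (nat_lit 53) (nat_lit 4) (nat_lit 425) (nat_lit 302) (nat_lit 293)) (XT.lf (nat_lit 0) (nat_lit 5202319519) (nat_lit 152) (nat_lit 9027669252) (nat_lit 0) (nat_lit 1804835323) (nat_lit 49) (nat_lit 5) (nat_lit 51) (nat_lit 4) (nat_lit 49) (nat_lit 4) (nat_lit 426) (nat_lit 302) (nat_lit 292))) (XT.nd (nat_lit 78) (nat_lit 76) (nat_lit 0) (XT.lf (nat_lit 0) (nat_lit 2151189944) (nat_lit 152) (nat_lit 8932877452) (nat_lit 152) (nat_lit 5247660956) (nat_lit 47) (nat_lit 4) (nat_lit 49) (nat_lit 5) (nat_lit 49) (nat_lit 4) (nat_lit 427) (nat_lit 302) (nat_lit 291)) (XT.lf (nat_lit 0) (nat_lit 478239560) (nat_lit 228) (nat_lit 2993741934) (nat_lit 76) (nat_lit 13165918958) (nat_lit 46) (nat_lit 5) (nat_lit 49) (nat_lit 5) (nat_lit 47) (nat_lit 4) (nat_lit 428) (nat_lit 302) (nat_lit 290))))) (XT.nd (nat_lit 312) (nat_lit 304) (nat_lit 0) (XT.nd (nat_lit 156) (nat_lit 152) (nat_lit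 0) (XT.nd (nat_lit 78) (nat_lit 152) (nat_lit 0) (XT.lf (nat_lit 0) (nat_lit 6267198538) (nat_lit 152) (nat_lit 8529817373) (nat_lit 0) (nat_lit 2154787344) (nat_lit 45) (nat_lit 5) (nat_lit 47) (nat_lit 4) (nat_lit 45) (nat_lit 4) (nat_lit 429) (nat_lit 302) (nat_lit 289)) (XT.lf (nat_lit 0) (nat_lit 2789043140) (nat_lit 152) (nat_lit 9427274774) (nat_lit 152) (nat_lit 5059217160) (nat_lit 43) (nat_lit 4) (nat_lit 45) (nat_lit 5) (nat_lit 45) (nat_lit 4) (nat_lit 430) (nat_lit 302) (nat_lit 288))) (XT.nd (nat_lit 78) (nat_lit 76) (nat_lit 0) (XT.lf (nat_lit 0) (nat_lit 702496681) (nat_lit 228) (nat_lit 3190189759) (nat_lit 76) (nat_lit 13716629590) (nat_lit 42) (nat_lit 5) (nat_lit 45) (nat_lit 5) (nat_lit 43) (nat_lit 4) (nat_lit 431) (nat_lit 302) (nat_lit 287)) (XT.lf (nat_lit 0) (nat_lit 6531574525) (nat_lit 152) (nat_lit 9604335397) (nat_lit 0) (nat_lit 1815817930) (nat_lit 41) (nat_lit 5) (nat_lit 43) (nat_lit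 4) (nat_lit 41) (nat_lit 4) (nat_lit 432) (nat_lit 302) (nat_lit 286)))) (XT.nd (nat_lit 156) (nat_lit 76) (nat_lit 0) (XT.nd (nat_lit 78) (nat_lit 76) (nat_lit 0) (XT.lf (nat_lit 0) (nat_lit 1796537803) (nat_lit 152) (nat_lit 10725588620) (nat_lit 152) (nat_lit 5782693491) (nat_lit 39) (nat_lit 4) (nat_lit 41) (nat_lit 5) (nat_lit 41) (nat_lit 4) (nat_lit 433) (nat_lit 302) (nat_lit 285)) (XT.lf (nat_lit 0) (nat_lit 19753652) (nat_lit 228) (nat_lit 5123318063) (nat_lit 76) (nat_lit 13525541835) (nat_lit 38) (nat_lit 5) (nat_lit 41) (nat_lit 5) (nat_lit 39) (nat_lit 4) (nat_lit 434) (nat_lit 302) (nat_lit 284))) (XT.nd (nat_lit 78) (nat_lit 0) (nat_lit 0) (XT.lf (nat_lit 0) (nat_lit 5849898980) (nat_lit 152) (nat_lit 12563606396) (nat_lit 0) (nat_lit 629007883) (nat_lit 37) (nat_lit 5) (nat_lit 39) (nat_lit 4) (nat_lit 37) (nat_lit 4) (nat_lit 435) (nat_lit 302) (nat_lit 283)) (XT.lf (nat_lit 0) (nat_lit 11859709056)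 (nat_lit 152) (nat_lit 1130775048) (nat_lit 0) (nat_lit 6437008315) (nat_lit 37) (nat_lit 5) (nat_lit 39) (nat_lit 4) (nat_lit 37) (nat_lit 4) (nat_lit 436) (nat_lit 302) (nat_lit 282))))))))
noncomputable def xc26 : XT := (XT.nd (nat_lit 2262) (nat_lit 684) (nat_lit 0) (XT.nd (nat_lit 1092) (nat_lit 684) (nat_lit 0) (XT.nd (nat_lit 546) (nat_lit 456) (nat_lit 0) (XT.nd (nat_lit 234) (nat_lit 228) (nat_lit 0) (XT.nd (nat_lit 78) (nat_lit 152) (nat_lit 0) (XT.lf (nat_lit 0) (nat_lit 10671251566) (nat_lit 76) (nat_lit 7385597931) (nat_lit 76) (nat_lit 1766965495) (nat_lit 36) (nat_lit 4) (nat_lit 37) (nat_lit 5) (nat_lit 37) (nat_lit 4) (nat_lit 437) (nat_lit 302) (nat_lit 281)) (XT.nd (nat_lit 78) (nat_lit 0) (nat_lit 0) (XT.lf (nat_lit 0) (nat_lit 2443816188) (nat_lit 76) (nat_lit 1621540250) (nat_lit 152) (nat_lit 16167274458) (nat_lit 34) (nat_lit 5) (nat_lit 35) (nat_lit 5) (nat_lit 36) (nat_lit 4) (nat_lit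 438) (nat_lit 302) (nat_lit 280)) (XT.lf (nat_lit 0) (nat_lit 10076741154) (nat_lit 152) (nat_lit 6317493208) (nat_lit 0) (nat_lit 4257768537) (nat_lit 34) (nat_lit 5) (nat_lit 36) (nat_lit 4) (nat_lit 34) (nat_lit 4) (nat_lit 439) (nat_lit 302) (nat_lit 279)))) (XT.nd (nat_lit 156) (nat_lit 76) (nat_lit 0) (XT.nd (nat_lit 78) (nat_lit 76) (nat_lit 0) (XT.lf (nat_lit 0) (nat_lit 5410433864) (nat_lit 76) (nat_lit 10833656721) (nat_lit 76) (nat_lit 4840601331) (nat_lit 33) (nat_lit 4) (nat_lit 34) (nat_lit 5) (nat_lit 34) (nat_lit 4) (nat_lit 440) (nat_lit 302) (nat_lit 278)) (XT.lf (nat_lit 0) (nat_lit 1017378842) (nat_lit 152) (nat_lit 4096788739) (nat_lit 76) (nat_lit 16416728366) (nat_lit 32) (nat_lit 5) (nat_lit 34) (nat_lit 5) (nat_lit 33) (nat_lit 4) (nat_lit 441) (nat_lit 302) (nat_lit 277))) (XT.nd (nat_lit 78) (nat_lit 0) (nat_lit 0) (XT.lf (nat_lit 0) (nat_lit 6946632678) (nat_lit 152) (nat_lit 14237902824)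 (nat_lit 0) (nat_lit 804732192) (nat_lit 31) (nat_lit 5) (nat_lit 33) (nat_lit 4) (nat_lit 31) (nat_lit 4) (nat_lit 442) (nat_lit 302) (nat_lit 276)) (XT.lf (nat_lit 0) (nat_lit 13056714949) (nat_lit 152) (nat_lit 2644446986) (nat_lit 0) (nat_lit 6760144175) (nat_lit 31) (nat_lit 5) (nat_lit 33) (nat_lit 4) (nat_lit 31) (nat_lit 4) (nat_lit 443) (nat_lit 302) (nat_lit 275))))) (XT.nd (nat_lit 234) (nat_lit 228) (nat_lit 0) (XT.nd (nat_lit 78) (nat_lit 152) (nat_lit 0) (XT.lf (nat_lit 0) (nat_lit 9311329718) (nat_lit 76) (nat_lit 10041418269) (nat_lit 76) (nat_lit 3594682165) (nat_lit 30) (nat_lit 4) (nat_lit 31) (nat_lit 5) (nat_lit 31) (nat_lit 4) (nat_lit 444) (nat_lit 302) (nat_lit 274)) (XT.nd (nat_lit 78) (nat_lit 76) (nat_lit 0) (XT.lf (nat_lit 0) (nat_lit 2283090238) (nat_lit 152) (nat_lit 1957854500) (nat_lit 76) (nat_lit 19208301958) (nat_lit 29) (nat_lit 5) (nat_lit 31) (nat_lit 5) (nat_lit 30) (nat_lit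 4) (nat_lit 445) (nat_lit 302) (nat_lit 273)) (XT.lf (nat_lit 0) (nat_lit 8294714870) (nat_lit 152) (nat_lit 13912665666) (nat_lit 0) (nat_lit 1756780006) (nat_lit 28) (nat_lit 5) (nat_lit 30) (nat_lit 4) (nat_lit 28) (nat_lit 4) (nat_lit 446) (nat_lit 302) (nat_lit 272)))) (XT.nd (nat_lit 156) (nat_lit 152) (nat_lit 0) (XT.nd (nat_lit 78) (nat_lit 76) (nat_lit 0) (XT.lf (nat_lit 0) (nat_lit 14464560970) (nat_lit 152) (nat_lit 2237421979) (nat_lit 0) (nat_lit 7793206156) (nat_lit 28) (nat_lit 5) (nat_lit 30) (nat_lit 4) (nat_lit 28) (nat_lit 4) (nat_lit 447) (nat_lit 302) (nat_lit 271)) (XT.lf (nat_lit 0) (nat_lit 9821907948) (nat_lit 76) (nat_lit 11010374652) (nat_lit 76) (nat_lit 4209485907) (nat_lit 27) (nat_lit 4) (nat_lit 28) (nat_lit 5) (nat_lit 28) (nat_lit 4) (nat_lit 448) (nat_lit 302) (nat_lit 270))) (XT.nd (nat_lit 78) (nat_lit 76) (nat_lit 0) (XT.lf (nat_lit 0) (nat_lit 1692689435) (nat_lit 152) (nat_lit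 3490490289) (nat_lit 76) (nat_lit 20422815954) (nat_lit 26) (nat_lit 5) (nat_lit 28) (nat_lit 5) (nat_lit 27) (nat_lit 4) (nat_lit 449) (nat_lit 302) (nat_lit 269)) (XT.lf (nat_lit 0) (nat_lit 7698835320) (nat_lit 152) (nat_lit 17631331086) (nat_lit 0) (nat_lit 855390661) (nat_lit 25) (nat_lit 5) (nat_lit 27) (nat_lit 4) (nat_lit 25) (nat_lit 4) (nat_lit 450) (nat_lit 302) (nat_lit 268)))))) (XT.nd (nat_lit 546) (nat_lit 380) (nat_lit 0) (XT.nd (nat_lit 234) (nat_lit 228) (nat_lit 0) (XT.nd (nat_lit 78) (nat_lit 76) (nat_lit 0) (XT.lf (nat_lit 0) (nat_lit 13893035266) (nat_lit 152) (nat_lit 5954735560) (nat_lit 0) (nat_lit 6934501386) (nat_lit 25) (nat_lit 5) (nat_lit 27) (nat_lit 4) (nat_lit 25) (nat_lit 4) (nat_lit 451) (nat_lit 302) (nat_lit 267)) (XT.nd (nat_lit 78) (nat_lit 0) (nat_lit 0) (XT.lf (nat_lit 0) (nat_lit 6041054690) (nat_lit 76) (nat_lit 14213334100) (nat_lit 76) (nat_lit 7143063113) (nat_lit 24)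 (nat_lit 4) (nat_lit 25) (nat_lit 5) (nat_lit 25) (nat_lit 4) (nat_lit 452) (nat_lit 302) (nat_lit 266)) (XT.lf (nat_lit 0) (nat_lit 18371259658) (nat_lit 76) (nat_lit 8419528806) (nat_lit 76) (nat_lit 1240775191) (nat_lit 24) (nat_lit 4) (nat_lit 25) (nat_lit 5) (nat_lit 25) (nat_lit 4) (nat_lit 453) (nat_lit 302) (nat_lit 265)))) (XT.nd (nat_lit 156) (nat_lit 76) (nat_lit 0) (XT.nd (nat_lit 78) (nat_lit 0) (nat_lit 0) (XT.lf (nat_lit 0) (nat_lit 2239141642) (nat_lit 76) (nat_lit 2452098849) (nat_lit 152) (nat_lit 23993653279) (nat_lit 22) (nat_lit 5) (nat_lit 23) (nat_lit 5) (nat_lit 24) (nat_lit 4) (nat_lit 454) (nat_lit 302) (nat_lit 264)) (XT.lf (nat_lit 0) (nat_lit 10835981446) (nat_lit 152) (nat_lit 14854899807) (nat_lit 0) (nat_lit 3664785487) (nat_lit 22) (nat_lit 5) (nat_lit 24) (nat_lit 4) (nat_lit 22) (nat_lit 4) (nat_lit 455) (nat_lit 302) (nat_lit 263))) (XT.nd (nat_lit 78) (nat_lit 76) (nat_lit 0)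 (XT.lf (nat_lit 0) (nat_lit 17117182439) (nat_lit 152) (nat_lit 3081218374) (nat_lit 0) (nat_lit 9849601070) (nat_lit 22) (nat_lit 5) (nat_lit 24) (nat_lit 4) (nat_lit 22) (nat_lit 4) (nat_lit 456) (nat_lit 302) (nat_lit 262)) (XT.lf (nat_lit 0) (nat_lit 9086460499) (nat_lit 76) (nat_lit 14517644943) (nat_lit 76) (nat_lit 7156485505) (nat_lit 21) (nat_lit 4) (nat_lit 22) (nat_lit 5) (nat_lit 22) (nat_lit 4) (nat_lit 457) (nat_lit 302) (nat_lit 261))))) (XT.nd (nat_lit 312) (nat_lit 228) (nat_lit 0) (XT.nd (nat_lit 156) (nat_lit 0) (nat_lit 0) (XT.nd (nat_lit 78) (nat_lit 152) (nat_lit 0) (XT.lf (nat_lit 0) (nat_lit 21547147577) (nat_lit 76) (nat_lit 8700285254) (nat_lit 76) (nat_lit 1248273323) (nat_lit 21) (nat_lit 4) (nat_lit 22) (nat_lit 5) (nat_lit 22) (nat_lit 4) (nat_lit 458) (nat_lit 302) (nat_lit 260)) (XT.lf (nat_lit 0) (nat_lit 1988483302) (nat_lit 76) (nat_lit 2705458341) (nat_lit 152) (nat_lit 27559006052)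 (nat_lit 19) (nat_lit 5) (nat_lit 20) (nat_lit 5) (nat_lit 21) (nat_lit 4) (nat_lit 459) (nat_lit 302) (nat_lit 259))) (XT.nd (nat_lit 78) (nat_lit 0) (nat_lit 0) (XT.lf (nat_lit 0) (nat_lit 10856272380) (nat_lit 152) (nat_lit 18721728101) (nat_lit 0) (nat_lit 3452529249) (nat_lit 19) (nat_lit 5) (nat_lit 21) (nat_lit 4) (nat_lit 19) (nat_lit 4) (nat_lit 460) (nat_lit 302) (nat_lit 258)) (XT.lf (nat_lit 0) (nat_lit 17164370996) (nat_lit 152) (nat_lit 6988336800) (nat_lit 0) (nat_lit 9679906601) (nat_lit 19) (nat_lit 5) (nat_lit 21) (nat_lit 4) (nat_lit 19) (nat_lit 4) (nat_lit 461) (nat_lit 302) (nat_lit 257)))) (XT.nd (nat_lit 156) (nat_lit 152) (nat_lit 0) (XT.nd (nat_lit 78) (nat_lit 0) (nat_lit 0) (XT.lf (nat_lit 0) (nat_lit 5070920428) (nat_lit 76) (nat_lit 18575567261) (nat_lit 76) (nat_lit 11012732707) (nat_lit 18) (nat_lit 4) (nat_lit 19) (nat_lit 5) (nat_lit 19) (nat_lit 4) (nat_lit 462) (nat_lit 302)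 (nat_lit 256)) (XT.lf (nat_lit 0) (nat_lit 17511348045) (nat_lit 76) (nat_lit 12818991233) (nat_lit 76) (nat_lit 5180069146) (nat_lit 18) (nat_lit 4) (nat_lit 19) (nat_lit 5) (nat_lit 19) (nat_lit 4) (nat_lit 463) (nat_lit 302) (nat_lit 255))) (XT.nd (nat_lit 78) (nat_lit 76) (nat_lit 0) (XT.lf (nat_lit 0) (nat_lit 749361522) (nat_lit 152) (nat_lit 6191589586) (nat_lit 76) (nat_lit 29447806116) (nat_lit 17) (nat_lit 5) (nat_lit 19) (nat_lit 5) (nat_lit 18) (nat_lit 4) (nat_lit 464) (nat_lit 302) (nat_lit 254)) (XT.lf (nat_lit 0) (nat_lit 5916313841) (nat_lit 76) (nat_lit 832862078) (nat_lit 152) (nat_lit 30542845305) (nat_lit 16) (nat_lit 5) (nat_lit 17) (nat_lit 5) (nat_lit 18) (nat_lit 4) (nat_lit 465) (nat_lit 302) (nat_lit 253))))))) (XT.nd (nat_lit 1092) (nat_lit 304) (nat_lit 0) (XT.nd (nat_lit 546) (nat_lit 152) (nat_lit 0) (XT.nd (nat_lit 234) (nat_lit 152) (nat_lit 0) (XT.nd (nat_lit 78) (nat_lit 76) (nat_lit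 0) (XT.lf (nat_lit 0) (nat_lit 12984423439) (nat_lit 152) (nat_lit 19877257536) (nat_lit 0) (nat_lit 5359040772) (nat_lit 16) (nat_lit 5) (nat_lit 18) (nat_lit 4) (nat_lit 16) (nat_lit 4) (nat_lit 466) (nat_lit 302) (nat_lit 252)) (XT.nd (nat_lit 78) (nat_lit 76) (nat_lit 0) (XT.lf (nat_lit 0) (nat_lit 19356553756) (nat_lit 152) (nat_lit 8156699169) (nat_lit 0) (nat_lit 11665537315) (nat_lit 16) (nat_lit 5) (nat_lit 18) (nat_lit 4) (nat_lit 16) (nat_lit 4) (nat_lit 467) (nat_lit 302) (nat_lit 251)) (XT.lf (nat_lit 0) (nat_lit 3879926297) (nat_lit 76) (nat_lit 22020498699) (nat_lit 76) (nat_lit 14265760147) (nat_lit 15) (nat_lit 4) (nat_lit 16) (nat_lit 5) (nat_lit 16) (nat_lit 4) (nat_lit 468) (nat_lit 302) (nat_lit 250)))) (XT.nd (nat_lit 156) (nat_lit 152) (nat_lit 0) (XT.nd (nat_lit 78) (nat_lit 0) (nat_lit 0) (XT.lf (nat_lit 0) (nat_lit 16334684671) (nat_lit 76) (nat_lit 16332168152) (nat_lit 76) (nat_lit 8515563472)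 (nat_lit 15) (nat_lit 4) (nat_lit 16) (nat_lit 5) (nat_lit 16) (nat_lit 4) (nat_lit 469) (nat_lit 302) (nat_lit 249)) (XT.lf (nat_lit 0) (nat_lit 29056124445) (nat_lit 76) (nat_lit 10525657566) (nat_lit 76) (nat_lit 2648988685) (nat_lit 15) (nat_lit 4) (nat_lit 16) (nat_lit 5) (nat_lit 16) (nat_lit 4) (nat_lit 470) (nat_lit 302) (nat_lit 248))) (XT.nd (nat_lit 78) (nat_lit 76) (nat_lit 0) (XT.lf (nat_lit 0) (nat_lit 3273932667) (nat_lit 152) (nat_lit 1288900325) (nat_lit 76) (nat_lit 38748368470) (nat_lit 14) (nat_lit 5) (nat_lit 16) (nat_lit 5) (nat_lit 15) (nat_lit 4) (nat_lit 471) (nat_lit 302) (nat_lit 247)) (XT.lf (nat_lit 0) (nat_lit 9391564056) (nat_lit 152) (nat_lit 33396858575) (nat_lit 0) (nat_lit 1632729192) (nat_lit 13) (nat_lit 5) (nat_lit 15) (nat_lit 4) (nat_lit 13) (nat_lit 4) (nat_lit 472) (nat_lit 302) (nat_lit 246))))) (XT.nd (nat_lit 234) (nat_lit 76) (nat_lit 0) (XT.nd (nat_lit 78) (nat_lit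 76) (nat_lit 0) (XT.lf (nat_lit 0) (nat_lit 15699237065) (nat_lit 152) (nat_lit 21977933710) (nat_lit 0) (nat_lit 7887035936) (nat_lit 13) (nat_lit 5) (nat_lit 15) (nat_lit 4) (nat_lit 13) (nat_lit 4) (nat_lit 473) (nat_lit 302) (nat_lit 245)) (XT.nd (nat_lit 78) (nat_lit 76) (nat_lit 0) (XT.lf (nat_lit 0) (nat_lit 22145841120) (nat_lit 152) (nat_lit 10315394370) (nat_lit 0) (nat_lit 14281828083) (nat_lit 13) (nat_lit 5) (nat_lit 15) (nat_lit 4) (nat_lit 13) (nat_lit 4) (nat_lit 474) (nat_lit 302) (nat_lit 244)) (XT.lf (nat_lit 0) (nat_lit 1632812057) (nat_lit 76) (nat_lit 27119892707) (nat_lit 76) (nat_lit 19205576847) (nat_lit 12) (nat_lit 4) (nat_lit 13) (nat_lit 5) (nat_lit 13) (nat_lit 4) (nat_lit 475) (nat_lit 302) (nat_lit 243)))) (XT.nd (nat_lit 156) (nat_lit 76) (nat_lit 0) (XT.nd (nat_lit 78) (nat_lit 0) (nat_lit 0) (XT.lf (nat_lit 0) (nat_lit 14055790887) (nat_lit 76) (nat_lit 21557822480) (nat_lit 76)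 (nat_lit 13594668928) (nat_lit 12) (nat_lit 4) (nat_lit 13) (nat_lit 5) (nat_lit 13) (nat_lit 4) (nat_lit 476) (nat_lit 302) (nat_lit 242)) (XT.lf (nat_lit 0) (nat_lit 26759100574) (nat_lit 76) (nat_lit 15874330005) (nat_lit 76) (nat_lit 7863761218) (nat_lit 12) (nat_lit 4) (nat_lit 13) (nat_lit 5) (nat_lit 13) (nat_lit 4) (nat_lit 477) (nat_lit 302) (nat_lit 241))) (XT.nd (nat_lit 78) (nat_lit 76) (nat_lit 0) (XT.lf (nat_lit 0) (nat_lit 39753841097) (nat_lit 76) (nat_lit 10064449124) (nat_lit 76) (nat_lit 2007846129) (nat_lit 12) (nat_lit 4) (nat_lit 13) (nat_lit 5) (nat_lit 13) (nat_lit 4) (nat_lit 478) (nat_lit 302) (nat_lit 240)) (XT.lf (nat_lit 0) (nat_lit 3900564282) (nat_lit 152) (nat_lit 183150908) (nat_lit 76) (nat_lit 49111414752) (nat_lit 11) (nat_lit 5) (nat_lit 13) (nat_lit 5) (nat_lit 12) (nat_lit 4) (nat_lit 479) (nat_lit 302) (nat_lit 239)))))) (XT.nd (nat_lit 546) (nat_lit 152) (nat_lit 0) (XT.nd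 (nat_lit 234) (nat_lit 76) (nat_lit 0) (XT.nd (nat_lit 78) (nat_lit 0) (nat_lit 0) (XT.lf (nat_lit 0) (nat_lit 10040650880) (nat_lit 152) (nat_lit 42427917040) (nat_lit 0) (nat_lit 2133186745) (nat_lit 10) (nat_lit 5) (nat_lit 12) (nat_lit 4) (nat_lit 10) (nat_lit 4) (nat_lit 480) (nat_lit 302) (nat_lit 238)) (XT.nd (nat_lit 78) (nat_lit 0) (nat_lit 0) (XT.lf (nat_lit 0) (nat_lit 16363927297) (nat_lit 152) (nat_lit 31271119920) (nat_lit 0) (nat_lit 8415562364) (nat_lit 10) (nat_lit 5) (nat_lit 12) (nat_lit 4) (nat_lit 10) (nat_lit 4) (nat_lit 481) (nat_lit 302) (nat_lit 237)) (XT.lf (nat_lit 0) (nat_lit 22834850183) (nat_lit 152) (nat_lit 19862566817) (nat_lit 0) (nat_lit 14846775737) (nat_lit 10) (nat_lit 5) (nat_lit 12) (nat_lit 4) (nat_lit 10) (nat_lit 4) (nat_lit 482) (nat_lit 302) (nat_lit 236)))) (XT.nd (nat_lit 156) (nat_lit 0) (nat_lit 0) (XT.nd (nat_lit 78) (nat_lit 76) (nat_lit 0) (XT.lf (nat_lit 0) (nat_lit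 29459073743) (nat_lit 152) (nat_lit 8192289092) (nat_lit 0) (nat_lit 21432446371) (nat_lit 10) (nat_lit 5) (nat_lit 12) (nat_lit 4) (nat_lit 10) (nat_lit 4) (nat_lit 483) (nat_lit 302) (nat_lit 235)) (XT.lf (nat_lit 0) (nat_lit 3824541158) (nat_lit 76) (nat_lit 32454608803) (nat_lit 76) (nat_lit 24390551407) (nat_lit 9) (nat_lit 4) (nat_lit 10) (nat_lit 5) (nat_lit 10) (nat_lit 4) (nat_lit 484) (nat_lit 302) (nat_lit 234))) (XT.nd (nat_lit 78) (nat_lit 0) (nat_lit 0) (XT.lf (nat_lit 0) (nat_lit 16292390363) (nat_lit 76) (nat_lit 27054936576) (nat_lit 76) (nat_lit 18954539350) (nat_lit 9) (nat_lit 4) (nat_lit 10) (nat_lit 5) (nat_lit 10) (nat_lit 4) (nat_lit 485) (nat_lit 302) (nat_lit 233)) (XT.lf (nat_lit 0) (nat_lit 29059110145) (nat_lit 76) (nat_lit 21530354050) (nat_lit 76) (nat_lit 13394675437) (nat_lit 9) (nat_lit 4) (nat_lit 10) (nat_lit 5) (nat_lit 10) (nat_lit 4) (nat_lit 486) (nat_lit 302) (nat_lit 232)))))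 (XT.nd (nat_lit 312) (nat_lit 0) (nat_lit 0) (XT.nd (nat_lit 156) (nat_lit 152) (nat_lit 0) (XT.nd (nat_lit 78) (nat_lit 0) (nat_lit 0) (XT.lf (nat_lit 0) (nat_lit 42135855890) (nat_lit 76) (nat_lit 15876033920) (nat_lit 76) (nat_lit 7706101532) (nat_lit 9) (nat_lit 4) (nat_lit 10) (nat_lit 5) (nat_lit 10) (nat_lit 4) (nat_lit 487) (nat_lit 302) (nat_lit 231)) (XT.lf (nat_lit 0) (nat_lit 55534053879) (nat_lit 76) (nat_lit 10087035518) (nat_lit 76) (nat_lit 1883847038) (nat_lit 9) (nat_lit 4) (nat_lit 10) (nat_lit 5) (nat_lit 10) (nat_lit 4) (nat_lit 488) (nat_lit 302) (nat_lit 230))) (XT.nd (nat_lit 78) (nat_lit 76) (nat_lit 0) (XT.lf (nat_lit 0) (nat_lit 3997615072) (nat_lit 152) (nat_lit 120317350) (nat_lit 76) (nat_lit 65227428131) (nat_lit 8) (nat_lit 5) (nat_lit 10) (nat_lit 5) (nat_lit 9) (nat_lit 4) (nat_lit 489) (nat_lit 302) (nat_lit 229)) (XT.lf (nat_lit 0) (nat_lit 10121672714) (nat_lit 152) (nat_lit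 59020014501) (nat_lit 0) (nat_lit 2095630963) (nat_lit 7) (nat_lit 5) (nat_lit 9) (nat_lit 4) (nat_lit 7) (nat_lit 4) (nat_lit 490) (nat_lit 302) (nat_lit 228)))) (XT.nd (nat_lit 47112) (nat_lit 0) (nat_lit 4484) (XT.nd (nat_lit 78) (nat_lit 0) (nat_lit 0) (XT.lf (nat_lit 0) (nat_lit 16437312968) (nat_lit 152) (nat_lit 48366762897) (nat_lit 0) (nat_lit 8381723610) (nat_lit 7) (nat_lit 5) (nat_lit 9) (nat_lit 4) (nat_lit 7) (nat_lit 4) (nat_lit 491) (nat_lit 302) (nat_lit 227)) (XT.lf (nat_lit 0) (nat_lit 22909279009) (nat_lit 152) (nat_lit 37459448601) (nat_lit 0) (nat_lit 14825002654) (nat_lit 7) (nat_lit 5) (nat_lit 9) (nat_lit 4) (nat_lit 7) (nat_lit 4) (nat_lit 492) (nat_lit 302) (nat_lit 226))) (XT.nd (nat_lit 78) (nat_lit 228) (nat_lit 0) (XT.lf (nat_lit 0) (nat_lit 2181371856) (nat_lit 152) (nat_lit 2174460434) (nat_lit 152) (nat_lit 2174460434) (nat_lit 69) (nat_lit 4) (nat_lit 71) (nat_lit 5) (nat_lit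 71) (nat_lit 4) (nat_lit 414) (nat_lit 303) (nat_lit 303)) (XT.lf (nat_lit 0) (nat_lit 1125015944) (nat_lit 228) (nat_lit 11471990305) (nat_lit 0) (nat_lit 676738398) (nat_lit 66) (nat_lit 5) (nat_lit 69) (nat_lit 4) (nat_lit 66) (nat_lit 4) (nat_lit 415) (nat_lit 303) (nat_lit 302))))))))
noncomputable def xc27 : XT := (XT.nd (nat_lit 2262) (nat_lit 1292) (nat_lit 0) (XT.nd (nat_lit 1092) (nat_lit 1140) (nat_lit 0) (XT.nd (nat_lit 546) (nat_lit 760) (nat_lit 0) (XT.nd (nat_lit 234) (nat_lit 456) (nat_lit 0) (XT.nd (nat_lit 78) (nat_lit 380) (nat_lit 0) (XT.lf (nat_lit 0) (nat_lit 6689452751) (nat_lit 228) (nat_lit 996200470) (nat_lit 0) (nat_lit 5805954286) (nat_lit 66) (nat_lit 5) (nat_lit 69) (nat_lit 4) (nat_lit 66) (nat_lit 4) (nat_lit 416) (nat_lit 303) (nat_lit 301)) (XT.nd (nat_lit 78) (nat_lit 228) (nat_lit 0) (XT.lf (nat_lit 0) (nat_lit 9777684734) (nat_lit 152) (nat_lit 2622497410) (nat_lit 152) (nat_lit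 1316454364) (nat_lit 64) (nat_lit 4) (nat_lit 66) (nat_lit 5) (nat_lit 66) (nat_lit 4) (nat_lit 417) (nat_lit 303) (nat_lit 300)) (XT.lf (nat_lit 0) (nat_lit 4235874711) (nat_lit 228) (nat_lit 7142120554) (nat_lit 0) (nat_lit 2569582960) (nat_lit 61) (nat_lit 5) (nat_lit 64) (nat_lit 4) (nat_lit 61) (nat_lit 4) (nat_lit 418) (nat_lit 303) (nat_lit 299)))) (XT.nd (nat_lit 156) (nat_lit 152) (nat_lit 0) (XT.nd (nat_lit 78) (nat_lit 152) (nat_lit 0) (XT.lf (nat_lit 0) (nat_lit 3591664639) (nat_lit 152) (nat_lit 6323390156) (nat_lit 152) (nat_lit 4270410257) (nat_lit 59) (nat_lit 4) (nat_lit 61) (nat_lit 5) (nat_lit 61) (nat_lit 4) (nat_lit 419) (nat_lit 303) (nat_lit 298)) (XT.lf (nat_lit 0) (nat_lit 146920036) (nat_lit 76) (nat_lit 1121713128) (nat_lit 152) (nat_lit 13162663766) (nat_lit 57) (nat_lit 5) (nat_lit 58) (nat_lit 5) (nat_lit 59) (nat_lit 4) (nat_lit 420) (nat_lit 303) (nat_lit 297))) (XT.nd (nat_lit 78)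 (nat_lit 152) (nat_lit 0) (XT.lf (nat_lit 0) (nat_lit 6923502084) (nat_lit 152) (nat_lit 3546725314) (nat_lit 0) (nat_lit 4211952614) (nat_lit 57) (nat_lit 5) (nat_lit 59) (nat_lit 4) (nat_lit 57) (nat_lit 4) (nat_lit 421) (nat_lit 303) (nat_lit 296)) (XT.lf (nat_lit 0) (nat_lit 7444900499) (nat_lit 152) (nat_lit 5275816968) (nat_lit 152) (nat_lit 2220700086) (nat_lit 55) (nat_lit 4) (nat_lit 57) (nat_lit 5) (nat_lit 57) (nat_lit 4) (nat_lit 422) (nat_lit 303) (nat_lit 295))))) (XT.nd (nat_lit 234) (nat_lit 456) (nat_lit 0) (XT.nd (nat_lit 78) (nat_lit 152) (nat_lit 0) (XT.lf (nat_lit 0) (nat_lit 3375964268) (nat_lit 152) (nat_lit 11746670099) (nat_lit 0) (nat_lit 85986135) (nat_lit 53) (nat_lit 5) (nat_lit 55) (nat_lit 4) (nat_lit 53) (nat_lit 4) (nat_lit 423) (nat_lit 303) (nat_lit 294)) (XT.nd (nat_lit 78) (nat_lit 152) (nat_lit 0) (XT.lf (nat_lit 0) (nat_lit 9115186855) (nat_lit 152) (nat_lit 856626651) (nat_lit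 0) (nat_lit 5510795871) (nat_lit 53) (nat_lit 5) (nat_lit 55) (nat_lit 4) (nat_lit 53) (nat_lit 4) (nat_lit 424) (nat_lit 303) (nat_lit 293)) (XT.lf (nat_lit 0) (nat_lit 10365365459) (nat_lit 152) (nat_lit 4654651839) (nat_lit 152) (nat_lit 745005659) (nat_lit 51) (nat_lit 4) (nat_lit 53) (nat_lit 5) (nat_lit 53) (nat_lit 4) (nat_lit 425) (nat_lit 303) (nat_lit 292)))) (XT.nd (nat_lit 156) (nat_lit 152) (nat_lit 0) (XT.nd (nat_lit 78) (nat_lit 152) (nat_lit 0) (XT.lf (nat_lit 0) (nat_lit 4913751388) (nat_lit 152) (nat_lit 10311479744) (nat_lit 0) (nat_lit 830246099) (nat_lit 49) (nat_lit 5) (nat_lit 51) (nat_lit 4) (nat_lit 49) (nat_lit 4) (nat_lit 426) (nat_lit 303) (nat_lit 291)) (XT.lf (nat_lit 0) (nat_lit 742575172) (nat_lit 152) (nat_lit 9987317572) (nat_lit 152) (nat_lit 5624460537) (nat_lit 47) (nat_lit 4) (nat_lit 49) (nat_lit 5) (nat_lit 49) (nat_lit 4) (nat_lit 427) (nat_lit 303) (nat_lit 290))) (XT.nd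 (nat_lit 78) (nat_lit 76) (nat_lit 0) (XT.lf (nat_lit 0) (nat_lit 56803744) (nat_lit 228) (nat_lit 4518760722) (nat_lit 76) (nat_lit 12086632633) (nat_lit 46) (nat_lit 5) (nat_lit 49) (nat_lit 5) (nat_lit 47) (nat_lit 4) (nat_lit 428) (nat_lit 303) (nat_lit 289)) (XT.lf (nat_lit 0) (nat_lit 5768220407) (nat_lit 152) (nat_lit 10196734412) (nat_lit 0) (nat_lit 1013474643) (nat_lit 45) (nat_lit 5) (nat_lit 47) (nat_lit 4) (nat_lit 45) (nat_lit 4) (nat_lit 429) (nat_lit 303) (nat_lit 288)))))) (XT.nd (nat_lit 546) (nat_lit 532) (nat_lit 0) (XT.nd (nat_lit 234) (nat_lit 304) (nat_lit 0) (XT.nd (nat_lit 78) (nat_lit 152) (nat_lit 0) (XT.lf (nat_lit 0) (nat_lit 992349089) (nat_lit 152) (nat_lit 10657394719) (nat_lit 152) (nat_lit 5654448547) (nat_lit 43) (nat_lit 4) (nat_lit 45) (nat_lit 5) (nat_lit 45) (nat_lit 4) (nat_lit 430) (nat_lit 303) (nat_lit 287)) (XT.nd (nat_lit 78) (nat_lit 76) (nat_lit 0) (XT.lf (nat_lit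 0) (nat_lit 68623853) (nat_lit 228) (nat_lit 5104611019) (nat_lit 76) (nat_lit 12466420797) (nat_lit 42) (nat_lit 5) (nat_lit 45) (nat_lit 5) (nat_lit 43) (nat_lit 4) (nat_lit 431) (nat_lit 303) (nat_lit 286)) (XT.lf (nat_lit 0) (nat_lit 5816318025) (nat_lit 152) (nat_lit 11670196392) (nat_lit 0) (nat_lit 497997509) (nat_lit 41) (nat_lit 5) (nat_lit 43) (nat_lit 4) (nat_lit 41) (nat_lit 4) (nat_lit 432) (nat_lit 303) (nat_lit 285)))) (XT.nd (nat_lit 156) (nat_lit 152) (nat_lit 0) (XT.nd (nat_lit 78) (nat_lit 152) (nat_lit 0) (XT.lf (nat_lit 0) (nat_lit 11740940704) (nat_lit 152) (nat_lit 396546657) (nat_lit 0) (nat_lit 6202097340) (nat_lit 41) (nat_lit 5) (nat_lit 43) (nat_lit 4) (nat_lit 41) (nat_lit 4) (nat_lit 433) (nat_lit 303) (nat_lit 284)) (XT.lf (nat_lit 0) (nat_lit 11253255496) (nat_lit 152) (nat_lit 6602317425) (nat_lit 152) (nat_lit 849374208) (nat_lit 39) (nat_lit 4) (nat_lit 41) (nat_lit 5) (nat_lit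 41) (nat_lit 4) (nat_lit 434) (nat_lit 303) (nat_lit 283))) (XT.nd (nat_lit 78) (nat_lit 0) (nat_lit 0) (XT.lf (nat_lit 0) (nat_lit 4027544444) (nat_lit 76) (nat_lit 892825799) (nat_lit 152) (nat_lit 14161033389) (nat_lit 37) (nat_lit 5) (nat_lit 38) (nat_lit 5) (nat_lit 39) (nat_lit 4) (nat_lit 435) (nat_lit 303) (nat_lit 282)) (XT.lf (nat_lit 0) (nat_lit 10874532644) (nat_lit 152) (nat_lit 3702112560) (nat_lit 0) (nat_lit 4891409541) (nat_lit 37) (nat_lit 5) (nat_lit 39) (nat_lit 4) (nat_lit 37) (nat_lit 4) (nat_lit 436) (nat_lit 303) (nat_lit 281))))) (XT.nd (nat_lit 312) (nat_lit 228) (nat_lit 0) (XT.nd (nat_lit 156) (nat_lit 152) (nat_lit 0) (XT.nd (nat_lit 78) (nat_lit 76) (nat_lit 0) (XT.lf (nat_lit 0) (nat_lit 7959951378) (nat_lit 76) (nat_lit 9039964576) (nat_lit 76) (nat_lit 2866616526) (nat_lit 36) (nat_lit 4) (nat_lit 37) (nat_lit 5) (nat_lit 37) (nat_lit 4) (nat_lit 437) (nat_lit 303) (nat_lit 280))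 (XT.lf (nat_lit 0) (nat_lit 2918030151) (nat_lit 152) (nat_lit 434431256) (nat_lit 76) (nat_lit 16925280403) (nat_lit 35) (nat_lit 5) (nat_lit 37) (nat_lit 5) (nat_lit 36) (nat_lit 4) (nat_lit 438) (nat_lit 303) (nat_lit 279))) (XT.nd (nat_lit 78) (nat_lit 76) (nat_lit 0) (XT.lf (nat_lit 0) (nat_lit 8862937908) (nat_lit 152) (nat_lit 9320164369) (nat_lit 0) (nat_lit 2516008084) (nat_lit 34) (nat_lit 5) (nat_lit 36) (nat_lit 4) (nat_lit 34) (nat_lit 4) (nat_lit 439) (nat_lit 303) (nat_lit 278)) (XT.lf (nat_lit 0) (nat_lit 2261638917) (nat_lit 76) (nat_lit 12694169612) (nat_lit 76) (nat_lit 6178227387) (nat_lit 33) (nat_lit 4) (nat_lit 34) (nat_lit 5) (nat_lit 34) (nat_lit 4) (nat_lit 440) (nat_lit 303) (nat_lit 277)))) (XT.nd (nat_lit 156) (nat_lit 76) (nat_lit 0) (XT.nd (nat_lit 78) (nat_lit 152) (nat_lit 0) (XT.lf (nat_lit 0) (nat_lit 14211736530) (nat_lit 76) (nat_lit 7025074282) (nat_lit 76) (nat_lit 345042348)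 (nat_lit 33) (nat_lit 4) (nat_lit 34) (nat_lit 5) (nat_lit 34) (nat_lit 4) (nat_lit 441) (nat_lit 303) (nat_lit 276)) (XT.lf (nat_lit 0) (nat_lit 4340500745) (nat_lit 76) (nat_lit 1166811115) (nat_lit 152) (nat_lit 16535523520) (nat_lit 31) (nat_lit 5) (nat_lit 32) (nat_lit 5) (nat_lit 33) (nat_lit 4) (nat_lit 442) (nat_lit 303) (nat_lit 275))) (XT.nd (nat_lit 78) (nat_lit 76) (nat_lit 0) (XT.lf (nat_lit 0) (nat_lit 11563390887) (nat_lit 152) (nat_lit 6180017566) (nat_lit 0) (nat_lit 4773087372) (nat_lit 31) (nat_lit 5) (nat_lit 33) (nat_lit 4) (nat_lit 31) (nat_lit 4) (nat_lit 443) (nat_lit 303) (nat_lit 274)) (XT.lf (nat_lit 0) (nat_lit 5623846881) (nat_lit 76) (nat_lit 12158589789) (nat_lit 76) (nat_lit 5222494692) (nat_lit 30) (nat_lit 4) (nat_lit 31) (nat_lit 5) (nat_lit 31) (nat_lit 4) (nat_lit 444) (nat_lit 303) (nat_lit 273))))))) (XT.nd (nat_lit 1092) (nat_lit 608) (nat_lit 0) (XT.nd (nat_lit 546) (nat_lit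 304) (nat_lit 0) (XT.nd (nat_lit 234) (nat_lit 228) (nat_lit 0) (XT.nd (nat_lit 78) (nat_lit 76) (nat_lit 0) (XT.lf (nat_lit 0) (nat_lit 645541521) (nat_lit 152) (nat_lit 5767191031) (nat_lit 76) (nat_lit 17095731568) (nat_lit 29) (nat_lit 5) (nat_lit 31) (nat_lit 5) (nat_lit 30) (nat_lit 4) (nat_lit 445) (nat_lit 303) (nat_lit 272)) (XT.nd (nat_lit 78) (nat_lit 0) (nat_lit 0) (XT.lf (nat_lit 0) (nat_lit 6104869412) (nat_lit 76) (nat_lit 456673583) (nat_lit 152) (nat_lit 17464705382) (nat_lit 28) (nat_lit 5) (nat_lit 29) (nat_lit 5) (nat_lit 30) (nat_lit 4) (nat_lit 446) (nat_lit 303) (nat_lit 271)) (XT.lf (nat_lit 0) (nat_lit 12686785457) (nat_lit 152) (nat_lit 6319495144) (nat_lit 0) (nat_lit 5552336118) (nat_lit 28) (nat_lit 5) (nat_lit 30) (nat_lit 4) (nat_lit 28) (nat_lit 4) (nat_lit 447) (nat_lit 303) (nat_lit 270)))) (XT.nd (nat_lit 156) (nat_lit 152) (nat_lit 0) (XT.nd (nat_lit 78) (nat_lit 0) (nat_lit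 0) (XT.lf (nat_lit 0) (nat_lit 5581606087) (nat_lit 76) (nat_lit 13393098089) (nat_lit 76) (nat_lit 6132887650) (nat_lit 27) (nat_lit 4) (nat_lit 28) (nat_lit 5) (nat_lit 28) (nat_lit 4) (nat_lit 448) (nat_lit 303) (nat_lit 269)) (XT.lf (nat_lit 0) (nat_lit 17817551287) (nat_lit 76) (nat_lit 7619117220) (nat_lit 76) (nat_lit 236808627) (nat_lit 27) (nat_lit 4) (nat_lit 28) (nat_lit 5) (nat_lit 28) (nat_lit 4) (nat_lit 449) (nat_lit 303) (nat_lit 268))) (XT.nd (nat_lit 78) (nat_lit 0) (nat_lit 0) (XT.lf (nat_lit 0) (nat_lit 4038086595) (nat_lit 76) (nat_lit 1646118865) (nat_lit 152) (nat_lit 20571595417) (nat_lit 25) (nat_lit 5) (nat_lit 26) (nat_lit 5) (nat_lit 27) (nat_lit 4) (nat_lit 450) (nat_lit 303) (nat_lit 267)) (XT.lf (nat_lit 0) (nat_lit 11824777603) (nat_lit 152) (nat_lit 10598687313) (nat_lit 0) (nat_lit 4430661379) (nat_lit 25) (nat_lit 5) (nat_lit 27) (nat_lit 4) (nat_lit 25) (nat_lit 4) (nat_lit 451)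 (nat_lit 303) (nat_lit 266))))) (XT.nd (nat_lit 234) (nat_lit 152) (nat_lit 0) (XT.nd (nat_lit 78) (nat_lit 76) (nat_lit 0) (XT.lf (nat_lit 0) (nat_lit 1232006664) (nat_lit 76) (nat_lit 16871193747) (nat_lit 76) (nat_lit 9368594894) (nat_lit 24) (nat_lit 4) (nat_lit 25) (nat_lit 5) (nat_lit 25) (nat_lit 4) (nat_lit 452) (nat_lit 303) (nat_lit 265)) (XT.nd (nat_lit 78) (nat_lit 76) (nat_lit 0) (XT.lf (nat_lit 0) (nat_lit 13491655779) (nat_lit 76) (nat_lit 11111631899) (nat_lit 76) (nat_lit 3503710106) (nat_lit 24) (nat_lit 4) (nat_lit 25) (nat_lit 5) (nat_lit 25) (nat_lit 4) (nat_lit 453) (nat_lit 303) (nat_lit 264)) (XT.lf (nat_lit 0) (nat_lit 2415334477) (nat_lit 152) (nat_lit 2807048085) (nat_lit 76) (nat_lit 23540313069) (nat_lit 23) (nat_lit 5) (nat_lit 25) (nat_lit 5) (nat_lit 24) (nat_lit 4) (nat_lit 454) (nat_lit 303) (nat_lit 263)))) (XT.nd (nat_lit 156) (nat_lit 76) (nat_lit 0) (XT.nd (nat_lit 78) (nat_lit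 0) (nat_lit 0) (XT.lf (nat_lit 0) (nat_lit 8470106222) (nat_lit 152) (nat_lit 20077950696) (nat_lit 0) (nat_lit 888112000) (nat_lit 22) (nat_lit 5) (nat_lit 24) (nat_lit 4) (nat_lit 22) (nat_lit 4) (nat_lit 455) (nat_lit 303) (nat_lit 262)) (XT.lf (nat_lit 0) (nat_lit 14716795571) (nat_lit 152) (nat_lit 8371521763) (nat_lit 0) (nat_lit 7041223281) (nat_lit 22) (nat_lit 5) (nat_lit 24) (nat_lit 4) (nat_lit 22) (nat_lit 4) (nat_lit 456) (nat_lit 303) (nat_lit 261))) (XT.nd (nat_lit 78) (nat_lit 0) (nat_lit 0) (XT.lf (nat_lit 0) (nat_lit 3624276538) (nat_lit 76) (nat_lit 17493429731) (nat_lit 76) (nat_lit 9727004947) (nat_lit 21) (nat_lit 4) (nat_lit 22) (nat_lit 5) (nat_lit 22) (nat_lit 4) (nat_lit 457) (nat_lit 303) (nat_lit 260)) (XT.lf (nat_lit 0) (nat_lit 16020310061) (nat_lit 76) (nat_lit 11707571573) (nat_lit 76) (nat_lit 3852940485) (nat_lit 21) (nat_lit 4) (nat_lit 22) (nat_lit 5) (nat_lit 22) (nat_lit 4)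 (nat_lit 458) (nat_lit 303) (nat_lit 259)))))) (XT.nd (nat_lit 546) (nat_lit 304) (nat_lit 0) (XT.nd (nat_lit 234) (nat_lit 152) (nat_lit 0) (XT.nd (nat_lit 78) (nat_lit 76) (nat_lit 0) (XT.lf (nat_lit 0) (nat_lit 2088480212) (nat_lit 152) (nat_lit 3700653444) (nat_lit 76) (nat_lit 26551230826) (nat_lit 20) (nat_lit 5) (nat_lit 22) (nat_lit 5) (nat_lit 21) (nat_lit 4) (nat_lit 459) (nat_lit 303) (nat_lit 258)) (XT.nd (nat_lit 78) (nat_lit 0) (nat_lit 0) (XT.lf (nat_lit 0) (nat_lit 8152071125) (nat_lit 152) (nat_lit 24606487092) (nat_lit 0) (nat_lit 362351534) (nat_lit 19) (nat_lit 5) (nat_lit 21) (nat_lit 4) (nat_lit 19) (nat_lit 4) (nat_lit 460) (nat_lit 303) (nat_lit 257)) (XT.lf (nat_lit 0) (nat_lit 14428657588) (nat_lit 152) (nat_lit 12934715364) (nat_lit 0) (nat_lit 6560567838) (nat_lit 19) (nat_lit 5) (nat_lit 21) (nat_lit 4) (nat_lit 19) (nat_lit 4) (nat_lit 461) (nat_lit 303) (nat_lit 256)))) (XT.nd (nat_lit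 156) (nat_lit 76) (nat_lit 0) (XT.nd (nat_lit 78) (nat_lit 76) (nat_lit 0) (XT.lf (nat_lit 0) (nat_lit 20831435171) (nat_lit 152) (nat_lit 1034234885) (nat_lit 0) (nat_lit 12887257888) (nat_lit 19) (nat_lit 5) (nat_lit 21) (nat_lit 4) (nat_lit 19) (nat_lit 4) (nat_lit 462) (nat_lit 303) (nat_lit 255)) (XT.lf (nat_lit 0) (nat_lit 11326371119) (nat_lit 76) (nat_lit 16148503421) (nat_lit 76) (nat_lit 8130454747) (nat_lit 18) (nat_lit 4) (nat_lit 19) (nat_lit 5) (nat_lit 19) (nat_lit 4) (nat_lit 463) (nat_lit 303) (nat_lit 254))) (XT.nd (nat_lit 78) (nat_lit 76) (nat_lit 0) (XT.lf (nat_lit 0) (nat_lit 23962244873) (nat_lit 76) (nat_lit 10306152370) (nat_lit 76) (nat_lit 2216383898) (nat_lit 18) (nat_lit 4) (nat_lit 19) (nat_lit 5) (nat_lit 19) (nat_lit 4) (nat_lit 464) (nat_lit 303) (nat_lit 253)) (XT.lf (nat_lit 0) (nat_lit 3740990615) (nat_lit 152) (nat_lit 565188394) (nat_lit 76) (nat_lit 33085076843) (nat_lit 17)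 (nat_lit 5) (nat_lit 19) (nat_lit 5) (nat_lit 18) (nat_lit 4) (nat_lit 465) (nat_lit 303) (nat_lit 252))))) (XT.nd (nat_lit 312) (nat_lit 152) (nat_lit 0) (XT.nd (nat_lit 156) (nat_lit 76) (nat_lit 0) (XT.nd (nat_lit 78) (nat_lit 0) (nat_lit 0) (XT.lf (nat_lit 0) (nat_lit 9908475850) (nat_lit 152) (nat_lit 26492419099) (nat_lit 0) (nat_lit 1921095140) (nat_lit 16) (nat_lit 5) (nat_lit 18) (nat_lit 4) (nat_lit 16) (nat_lit 4) (nat_lit 466) (nat_lit 303) (nat_lit 251)) (XT.lf (nat_lit 0) (nat_lit 16252665669) (nat_lit 152) (nat_lit 14826669100) (nat_lit 0) (nat_lit 8201562848) (nat_lit 16) (nat_lit 5) (nat_lit 18) (nat_lit 4) (nat_lit 16) (nat_lit 4) (nat_lit 467) (nat_lit 303) (nat_lit 250))) (XT.nd (nat_lit 78) (nat_lit 76) (nat_lit 0) (XT.lf (nat_lit 0) (nat_lit 22732113987) (nat_lit 152) (nat_lit 2918966977) (nat_lit 0) (nat_lit 14619145039) (nat_lit 16) (nat_lit 5) (nat_lit 18) (nat_lit 4) (nat_lit 16) (nat_lit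 4) (nat_lit 468) (nat_lit 303) (nat_lit 249)) (XT.lf (nat_lit 0) (nat_lit 9425007908) (nat_lit 76) (nat_lit 20018073491) (nat_lit 76) (nat_lit 11845040342) (nat_lit 15) (nat_lit 4) (nat_lit 16) (nat_lit 5) (nat_lit 16) (nat_lit 4) (nat_lit 469) (nat_lit 303) (nat_lit 248)))) (XT.nd (nat_lit 156) (nat_lit 152) (nat_lit 0) (XT.nd (nat_lit 78) (nat_lit 0) (nat_lit 0) (XT.lf (nat_lit 0) (nat_lit 22095292029) (nat_lit 76) (nat_lit 14236657304) (nat_lit 76) (nat_lit 6005309397) (nat_lit 15) (nat_lit 4) (nat_lit 16) (nat_lit 5) (nat_lit 16) (nat_lit 4) (nat_lit 470) (nat_lit 303) (nat_lit 247)) (XT.lf (nat_lit 0) (nat_lit 35044863341) (nat_lit 76) (nat_lit 8331256524) (nat_lit 76) (nat_lit 43292346) (nat_lit 15) (nat_lit 4) (nat_lit 16) (nat_lit 5) (nat_lit 16) (nat_lit 4) (nat_lit 471) (nat_lit 303) (nat_lit 246))) (XT.nd (nat_lit 78) (nat_lit 0) (nat_lit 0) (XT.lf (nat_lit 0) (nat_lit 3764855161) (nat_lit 76) (nat_lit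 2199571730) (nat_lit 152) (nat_lit 38568271561) (nat_lit 13) (nat_lit 5) (nat_lit 14) (nat_lit 5) (nat_lit 15) (nat_lit 4) (nat_lit 472) (nat_lit 303) (nat_lit 245)) (XT.lf (nat_lit 0) (nat_lit 12226178368) (nat_lit 152) (nat_lit 29376520252) (nat_lit 0) (nat_lit 4074433033) (nat_lit 13) (nat_lit 5) (nat_lit 15) (nat_lit 4) (nat_lit 13) (nat_lit 4) (nat_lit 473) (nat_lit 303) (nat_lit 244))))))))
noncomputable def xc28 : XT := (XT.nd (nat_lit 48984) (nat_lit 0) (nat_lit 1520) (XT.nd (nat_lit 1092) (nat_lit 152) (nat_lit 0) (XT.nd (nat_lit 546) (nat_lit 76) (nat_lit 0) (XT.nd (nat_lit 234) (nat_lit 152) (nat_lit 0) (XT.nd (nat_lit 78) (nat_lit 76) (nat_lit 0) (XT.lf (nat_lit 0) (nat_lit 18648726206) (nat_lit 152) (nat_lit 17761306595) (nat_lit 0) (nat_lit 10446678048) (nat_lit 13) (nat_lit 5) (nat_lit 15) (nat_lit 4) (nat_lit 13) (nat_lit 4) (nat_lit 474) (nat_lit 303) (nat_lit 243)) (XT.nd (nat_lit 78) (nat_lit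 76) (nat_lit 0) (XT.lf (nat_lit 0) (nat_lit 25216538712) (nat_lit 152) (nat_lit 5890909476) (nat_lit 0) (nat_lit 16965652862) (nat_lit 13) (nat_lit 5) (nat_lit 15) (nat_lit 4) (nat_lit 13) (nat_lit 4) (nat_lit 475) (nat_lit 303) (nat_lit 242)) (XT.lf (nat_lit 0) (nat_lit 6369331902) (nat_lit 76) (nat_lit 25627248763) (nat_lit 76) (nat_lit 17328947678) (nat_lit 12) (nat_lit 4) (nat_lit 13) (nat_lit 5) (nat_lit 13) (nat_lit 4) (nat_lit 476) (nat_lit 303) (nat_lit 241)))) (XT.nd (nat_lit 156) (nat_lit 152) (nat_lit 0) (XT.nd (nat_lit 78) (nat_lit 0) (nat_lit 0) (XT.lf (nat_lit 0) (nat_lit 19028469937) (nat_lit 76) (nat_lit 19965488490) (nat_lit 76) (nat_lit 11621153195) (nat_lit 12) (nat_lit 4) (nat_lit 13) (nat_lit 5) (nat_lit 13) (nat_lit 4) (nat_lit 477) (nat_lit 303) (nat_lit 240)) (XT.lf (nat_lit 0) (nat_lit 31980325361) (nat_lit 76) (nat_lit 14176706833) (nat_lit 76) (nat_lit 5787678132) (nat_lit 12) (nat_lit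 4) (nat_lit 13) (nat_lit 5) (nat_lit 13) (nat_lit 4) (nat_lit 478) (nat_lit 303) (nat_lit 239))) (XT.nd (nat_lit 78) (nat_lit 76) (nat_lit 0) (XT.lf (nat_lit 0) (nat_lit 173129114) (nat_lit 152) (nat_lit 8080968255) (nat_lit 76) (nat_lit 45061337952) (nat_lit 11) (nat_lit 5) (nat_lit 13) (nat_lit 5) (nat_lit 12) (nat_lit 4) (nat_lit 479) (nat_lit 303) (nat_lit 238)) (XT.lf (nat_lit 0) (nat_lit 4098729907) (nat_lit 76) (nat_lit 2095003140) (nat_lit 152) (nat_lit 48531912003) (nat_lit 10) (nat_lit 5) (nat_lit 11) (nat_lit 5) (nat_lit 12) (nat_lit 4) (nat_lit 480) (nat_lit 303) (nat_lit 237))))) (XT.nd (nat_lit 234) (nat_lit 76) (nat_lit 0) (XT.nd (nat_lit 78) (nat_lit 0) (nat_lit 0) (XT.lf (nat_lit 0) (nat_lit 12476155829) (nat_lit 152) (nat_lit 39490840621) (nat_lit 0) (nat_lit 4208729636) (nat_lit 10) (nat_lit 5) (nat_lit 12) (nat_lit 4) (nat_lit 10) (nat_lit 4) (nat_lit 481) (nat_lit 303) (nat_lit 236)) (XT.nd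 (nat_lit 78) (nat_lit 0) (nat_lit 0) (XT.lf (nat_lit 0) (nat_lit 18926966886) (nat_lit 152) (nat_lit 28121958439) (nat_lit 0) (nat_lit 10620987768) (nat_lit 10) (nat_lit 5) (nat_lit 12) (nat_lit 4) (nat_lit 10) (nat_lit 4) (nat_lit 482) (nat_lit 303) (nat_lit 235)) (XT.lf (nat_lit 0) (nat_lit 25531664397) (nat_lit 152) (nat_lit 16490196172) (nat_lit 0) (nat_lit 17188255255) (nat_lit 10) (nat_lit 5) (nat_lit 12) (nat_lit 4) (nat_lit 10) (nat_lit 4) (nat_lit 483) (nat_lit 303) (nat_lit 234)))) (XT.nd (nat_lit 156) (nat_lit 0) (nat_lit 0) (XT.nd (nat_lit 78) (nat_lit 76) (nat_lit 0) (XT.lf (nat_lit 0) (nat_lit 32296019458) (nat_lit 152) (nat_lit 4585390144) (nat_lit 0) (nat_lit 23916270487) (nat_lit 10) (nat_lit 5) (nat_lit 12) (nat_lit 4) (nat_lit 10) (nat_lit 4) (nat_lit 484) (nat_lit 303) (nat_lit 233)) (XT.lf (nat_lit 0) (nat_lit 7754173761) (nat_lit 76) (nat_lit 31546306770) (nat_lit 76) (nat_lit 23131276411)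 (nat_lit 9) (nat_lit 4) (nat_lit 10) (nat_lit 5) (nat_lit 10) (nat_lit 4) (nat_lit 485) (nat_lit 303) (nat_lit 232))) (XT.nd (nat_lit 78) (nat_lit 0) (nat_lit 0) (XT.lf (nat_lit 0) (nat_lit 20484944957) (nat_lit 76) (nat_lit 26039458171) (nat_lit 76) (nat_lit 17590174037) (nat_lit 9) (nat_lit 4) (nat_lit 10) (nat_lit 5) (nat_lit 10) (nat_lit 4) (nat_lit 486) (nat_lit 303) (nat_lit 231)) (XT.lf (nat_lit 0) (nat_lit 33526789161) (nat_lit 76) (nat_lit 20402355446) (nat_lit 76) (nat_lit 11919815220) (nat_lit 9) (nat_lit 4) (nat_lit 10) (nat_lit 5) (nat_lit 10) (nat_lit 4) (nat_lit 487) (nat_lit 303) (nat_lit 230)))))) (XT.nd (nat_lit 47346) (nat_lit 0) (nat_lit 3876) (XT.nd (nat_lit 234) (nat_lit 0) (nat_lit 0) (XT.nd (nat_lit 78) (nat_lit 152) (nat_lit 0) (XT.lf (nat_lit 0) (nat_lit 46891102160) (nat_lit 76) (nat_lit 14630072972) (nat_lit 76) (nat_lit 6115245278) (nat_lit 9) (nat_lit 4) (nat_lit 10) (nat_lit 5) (nat_lit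 10) (nat_lit 4) (nat_lit 488) (nat_lit 303) (nat_lit 229)) (XT.nd (nat_lit 78) (nat_lit 152) (nat_lit 0) (XT.lf (nat_lit 0) (nat_lit 60589561509) (nat_lit 76) (nat_lit 8717567005) (nat_lit 76) (nat_lit 171392255) (nat_lit 9) (nat_lit 4) (nat_lit 10) (nat_lit 5) (nat_lit 10) (nat_lit 4) (nat_lit 489) (nat_lit 303) (nat_lit 228)) (XT.lf (nat_lit 0) (nat_lit 3264083018) (nat_lit 76) (nat_lit 2568770086) (nat_lit 152) (nat_lit 65541369797) (nat_lit 7) (nat_lit 5) (nat_lit 8) (nat_lit 5) (nat_lit 9) (nat_lit 4) (nat_lit 490) (nat_lit 303) (nat_lit 227)))) (XT.nd (nat_lit 46956) (nat_lit 0) (nat_lit 4864) (XT.nd (nat_lit 78) (nat_lit 0) (nat_lit 0) (XT.lf (nat_lit 0) (nat_lit 12107473961) (nat_lit 152) (nat_lit 57464478871) (nat_lit 0) (nat_lit 3751982318) (nat_lit 7) (nat_lit 5) (nat_lit 9) (nat_lit 4) (nat_lit 7) (nat_lit 4) (nat_lit 491) (nat_lit 303) (nat_lit 226)) (XT.lf (nat_lit 0) (nat_lit 18563588732) (nat_lit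 152) (nat_lit 46588507469) (nat_lit 0) (nat_lit 10180245636) (nat_lit 7) (nat_lit 5) (nat_lit 9) (nat_lit 4) (nat_lit 7) (nat_lit 4) (nat_lit 492) (nat_lit 303) (nat_lit 225))) (XT.nd (nat_lit 78) (nat_lit 228) (nat_lit 0) (XT.lf (nat_lit 0) (nat_lit 4528280430) (nat_lit 152) (nat_lit 898940674) (nat_lit 152) (nat_lit 898940674) (nat_lit 74) (nat_lit 4) (nat_lit 76) (nat_lit 5) (nat_lit 76) (nat_lit 4) (nat_lit 412) (nat_lit 304) (nat_lit 304)) (XT.lf (nat_lit 0) (nat_lit 3612663918) (nat_lit 228) (nat_lit 6104507048) (nat_lit 0) (nat_lit 3137086269) (nat_lit 71) (nat_lit 5) (nat_lit 74) (nat_lit 4) (nat_lit 71) (nat_lit 4) (nat_lit 413) (nat_lit 304) (nat_lit 303))))) (XT.nd (nat_lit 234) (nat_lit 608) (nat_lit 0) (XT.nd (nat_lit 78) (nat_lit 228) (nat_lit 0) (XT.lf (nat_lit 0) (nat_lit 4259162800) (nat_lit 152) (nat_lit 4870233742) (nat_lit 152) (nat_lit 3932930220) (nat_lit 69) (nat_lit 4) (nat_lit 71) (nat_lit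 5) (nat_lit 71) (nat_lit 4) (nat_lit 414) (nat_lit 304) (nat_lit 302)) (XT.nd (nat_lit 78) (nat_lit 0) (nat_lit 0) (XT.lf (nat_lit 0) (nat_lit 1468673324) (nat_lit 228) (nat_lit 11685175761) (nat_lit 0) (nat_lit 123448987) (nat_lit 66) (nat_lit 5) (nat_lit 69) (nat_lit 4) (nat_lit 66) (nat_lit 4) (nat_lit 415) (nat_lit 304) (nat_lit 301)) (XT.lf (nat_lit 0) (nat_lit 6976642346) (nat_lit 228) (nat_lit 1311344632) (nat_lit 0) (nat_lit 5208873427) (nat_lit 66) (nat_lit 5) (nat_lit 69) (nat_lit 4) (nat_lit 66) (nat_lit 4) (nat_lit 416) (nat_lit 304) (nat_lit 300)))) (XT.nd (nat_lit 156) (nat_lit 228) (nat_lit 0) (XT.nd (nat_lit 78) (nat_lit 228) (nat_lit 0) (XT.lf (nat_lit 0) (nat_lit 9355309476) (nat_lit 152) (nat_lit 3273179041) (nat_lit 152) (nat_lit 1095172665) (nat_lit 64) (nat_lit 4) (nat_lit 66) (nat_lit 5) (nat_lit 66) (nat_lit 4) (nat_lit 417) (nat_lit 304) (nat_lit 299)) (XT.lf (nat_lit 0) (nat_lit 4386214172)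 (nat_lit 228) (nat_lit 7685371891) (nat_lit 0) (nat_lit 1884956726) (nat_lit 61) (nat_lit 5) (nat_lit 64) (nat_lit 4) (nat_lit 61) (nat_lit 4) (nat_lit 418) (nat_lit 304) (nat_lit 298))) (XT.nd (nat_lit 78) (nat_lit 76) (nat_lit 0) (XT.lf (nat_lit 0) (nat_lit 2936280837) (nat_lit 152) (nat_lit 7068329974) (nat_lit 152) (nat_lit 4191647141) (nat_lit 59) (nat_lit 4) (nat_lit 61) (nat_lit 5) (nat_lit 61) (nat_lit 4) (nat_lit 419) (nat_lit 304) (nat_lit 297)) (XT.lf (nat_lit 0) (nat_lit 1290067165) (nat_lit 228) (nat_lit 622337154) (nat_lit 76) (nat_lit 12531341116) (nat_lit 58) (nat_lit 5) (nat_lit 61) (nat_lit 5) (nat_lit 59) (nat_lit 4) (nat_lit 420) (nat_lit 304) (nat_lit 296))))))) (XT.nd (nat_lit 1092) (nat_lit 912) (nat_lit 0) (XT.nd (nat_lit 546) (nat_lit 760) (nat_lit 0) (XT.nd (nat_lit 234) (nat_lit 304) (nat_lit 0) (XT.nd (nat_lit 78) (nat_lit 304) (nat_lit 0) (XT.lf (nat_lit 0) (nat_lit 6877001008) (nat_lit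 152) (nat_lit 4433006777) (nat_lit 0) (nat_lit 3386663207) (nat_lit 57) (nat_lit 5) (nat_lit 59) (nat_lit 4) (nat_lit 57) (nat_lit 4) (nat_lit 421) (nat_lit 304) (nat_lit 295)) (XT.nd (nat_lit 78) (nat_lit 152) (nat_lit 0) (XT.lf (nat_lit 0) (nat_lit 6442289422) (nat_lit 152) (nat_lit 6169694388) (nat_lit 152) (nat_lit 2345795993) (nat_lit 55) (nat_lit 4) (nat_lit 57) (nat_lit 5) (nat_lit 57) (nat_lit 4) (nat_lit 422) (nat_lit 304) (nat_lit 294)) (XT.lf (nat_lit 0) (nat_lit 2325999082) (nat_lit 76) (nat_lit 863036737) (nat_lit 152) (nat_lit 12037915264) (nat_lit 53) (nat_lit 5) (nat_lit 54) (nat_lit 5) (nat_lit 55) (nat_lit 4) (nat_lit 423) (nat_lit 304) (nat_lit 293)))) (XT.nd (nat_lit 156) (nat_lit 152) (nat_lit 0) (XT.nd (nat_lit 78) (nat_lit 152) (nat_lit 0) (XT.lf (nat_lit 0) (nat_lit 8867643623) (nat_lit 152) (nat_lit 2099665844) (nat_lit 0) (nat_lit 4535452862) (nat_lit 53) (nat_lit 5) (nat_lit 55) (nat_lit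 4) (nat_lit 53) (nat_lit 4) (nat_lit 424) (nat_lit 304) (nat_lit 292)) (XT.lf (nat_lit 0) (nat_lit 9001485524) (nat_lit 152) (nat_lit 5707083194) (nat_lit 152) (nat_lit 1078528165) (nat_lit 51) (nat_lit 4) (nat_lit 53) (nat_lit 5) (nat_lit 53) (nat_lit 4) (nat_lit 425) (nat_lit 304) (nat_lit 291))) (XT.nd (nat_lit 78) (nat_lit 0) (nat_lit 0) (XT.lf (nat_lit 0) (nat_lit 4245921419) (nat_lit 76) (nat_lit 267481904) (nat_lit 152) (nat_lit 11566447626) (nat_lit 49) (nat_lit 5) (nat_lit 50) (nat_lit 5) (nat_lit 51) (nat_lit 4) (nat_lit 426) (nat_lit 304) (nat_lit 290)) (XT.lf (nat_lit 0) (nat_lit 10269285826) (nat_lit 152) (nat_lit 886276383) (nat_lit 0) (nat_lit 5224976045) (nat_lit 49) (nat_lit 5) (nat_lit 51) (nat_lit 4) (nat_lit 49) (nat_lit 4) (nat_lit 427) (nat_lit 304) (nat_lit 289))))) (XT.nd (nat_lit 234) (nat_lit 456) (nat_lit 0) (XT.nd (nat_lit 78) (nat_lit 152) (nat_lit 0) (XT.lf (nat_lit 0) (nat_lit 10403963438)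 (nat_lit 152) (nat_lit 5796912145) (nat_lit 152) (nat_lit 489286551) (nat_lit 47) (nat_lit 4) (nat_lit 49) (nat_lit 5) (nat_lit 49) (nat_lit 4) (nat_lit 428) (nat_lit 304) (nat_lit 288)) (XT.nd (nat_lit 78) (nat_lit 0) (nat_lit 0) (XT.lf (nat_lit 0) (nat_lit 4900475539) (nat_lit 76) (nat_lit 254079905) (nat_lit 152) (nat_lit 11854297020) (nat_lit 45) (nat_lit 5) (nat_lit 46) (nat_lit 5) (nat_lit 47) (nat_lit 4) (nat_lit 429) (nat_lit 304) (nat_lit 287)) (XT.lf (nat_lit 0) (nat_lit 10975238133) (nat_lit 152) (nat_lit 1028173649) (nat_lit 0) (nat_lit 5333031897) (nat_lit 45) (nat_lit 5) (nat_lit 47) (nat_lit 4) (nat_lit 45) (nat_lit 4) (nat_lit 430) (nat_lit 304) (nat_lit 286)))) (XT.nd (nat_lit 156) (nat_lit 152) (nat_lit 0) (XT.nd (nat_lit 78) (nat_lit 152) (nat_lit 0) (XT.lf (nat_lit 0) (nat_lit 10403695466) (nat_lit 152) (nat_lit 6573072698) (nat_lit 152) (nat_lit 696913773) (nat_lit 43) (nat_lit 4) (nat_lit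 45) (nat_lit 5) (nat_lit 45) (nat_lit 4) (nat_lit 431) (nat_lit 304) (nat_lit 285)) (XT.lf (nat_lit 0) (nat_lit 4026577679) (nat_lit 76) (nat_lit 963508595) (nat_lit 152) (nat_lit 13030884535) (nat_lit 41) (nat_lit 5) (nat_lit 42) (nat_lit 5) (nat_lit 43) (nat_lit 4) (nat_lit 432) (nat_lit 304) (nat_lit 284))) (XT.nd (nat_lit 78) (nat_lit 152) (nat_lit 0) (XT.lf (nat_lit 0) (nat_lit 10858204598) (nat_lit 152) (nat_lit 2800963641) (nat_lit 0) (nat_lit 4718573232) (nat_lit 41) (nat_lit 5) (nat_lit 43) (nat_lit 4) (nat_lit 41) (nat_lit 4) (nat_lit 433) (nat_lit 304) (nat_lit 283)) (XT.lf (nat_lit 0) (nat_lit 8712381095) (nat_lit 152) (nat_lit 8190164754) (nat_lit 152) (nat_lit 1842669453) (nat_lit 39) (nat_lit 4) (nat_lit 41) (nat_lit 5) (nat_lit 41) (nat_lit 4) (nat_lit 434) (nat_lit 304) (nat_lit 282)))))) (XT.nd (nat_lit 546) (nat_lit 456) (nat_lit 0) (XT.nd (nat_lit 234) (nat_lit 228) (nat_lit 0) (XT.nd (nat_lit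 78) (nat_lit 76) (nat_lit 0) (XT.lf (nat_lit 0) (nat_lit 1316101722) (nat_lit 76) (nat_lit 2558482843) (nat_lit 152) (nat_lit 15249532404) (nat_lit 37) (nat_lit 5) (nat_lit 38) (nat_lit 5) (nat_lit 39) (nat_lit 4) (nat_lit 435) (nat_lit 304) (nat_lit 281)) (XT.nd (nat_lit 78) (nat_lit 76) (nat_lit 0) (XT.lf (nat_lit 0) (nat_lit 9767041196) (nat_lit 152) (nat_lit 6527312748) (nat_lit 0) (nat_lit 3218267759) (nat_lit 37) (nat_lit 5) (nat_lit 39) (nat_lit 4) (nat_lit 37) (nat_lit 4) (nat_lit 436) (nat_lit 304) (nat_lit 280)) (XT.lf (nat_lit 0) (nat_lit 4992322208) (nat_lit 76) (nat_lit 10827212082) (nat_lit 76) (nat_lit 4093754231) (nat_lit 36) (nat_lit 4) (nat_lit 37) (nat_lit 5) (nat_lit 37) (nat_lit 4) (nat_lit 437) (nat_lit 304) (nat_lit 279)))) (XT.nd (nat_lit 156) (nat_lit 76) (nat_lit 0) (XT.nd (nat_lit 78) (nat_lit 76) (nat_lit 0) (XT.lf (nat_lit 0) (nat_lit 1670525747) (nat_lit 152) (nat_lit 3521595839) (nat_lit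 76) (nat_lit 15134061763) (nat_lit 35) (nat_lit 5) (nat_lit 37) (nat_lit 5) (nat_lit 36) (nat_lit 4) (nat_lit 438) (nat_lit 304) (nat_lit 278)) (XT.lf (nat_lit 0) (nat_lit 7522972914) (nat_lit 152) (nat_lit 12584814958) (nat_lit 0) (nat_lit 642540022) (nat_lit 34) (nat_lit 5) (nat_lit 36) (nat_lit 4) (nat_lit 34) (nat_lit 4) (nat_lit 439) (nat_lit 304) (nat_lit 277))) (XT.nd (nat_lit 78) (nat_lit 76) (nat_lit 0) (XT.lf (nat_lit 0) (nat_lit 13551180303) (nat_lit 152) (nat_lit 1129357454) (nat_lit 0) (nat_lit 6506657701) (nat_lit 34) (nat_lit 5) (nat_lit 36) (nat_lit 4) (nat_lit 34) (nat_lit 4) (nat_lit 440) (nat_lit 304) (nat_lit 276)) (XT.lf (nat_lit 0) (nat_lit 10716856677) (nat_lit 76) (nat_lit 9061798449) (nat_lit 76) (nat_lit 1857965449) (nat_lit 33) (nat_lit 4) (nat_lit 34) (nat_lit 5) (nat_lit 34) (nat_lit 4) (nat_lit 441) (nat_lit 304) (nat_lit 275))))) (XT.nd (nat_lit 312) (nat_lit 228) (nat_lit 0) (XT.nd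 (nat_lit 156) (nat_lit 76) (nat_lit 0) (XT.nd (nat_lit 78) (nat_lit 0) (nat_lit 0) (XT.lf (nat_lit 0) (nat_lit 653585218) (nat_lit 76) (nat_lit 3293256410) (nat_lit 152) (nat_lit 18153511485) (nat_lit 31) (nat_lit 5) (nat_lit 32) (nat_lit 5) (nat_lit 33) (nat_lit 4) (nat_lit 442) (nat_lit 304) (nat_lit 274)) (XT.lf (nat_lit 0) (nat_lit 9940939048) (nat_lit 152) (nat_lit 9983966319) (nat_lit 0) (nat_lit 2650969516) (nat_lit 31) (nat_lit 5) (nat_lit 33) (nat_lit 4) (nat_lit 31) (nat_lit 4) (nat_lit 443) (nat_lit 304) (nat_lit 273))) (XT.nd (nat_lit 78) (nat_lit 0) (nat_lit 0) (XT.lf (nat_lit 0) (nat_lit 1665019788) (nat_lit 76) (nat_lit 14416579389) (nat_lit 76) (nat_lit 6985064633) (nat_lit 30) (nat_lit 4) (nat_lit 31) (nat_lit 5) (nat_lit 31) (nat_lit 4) (nat_lit 444) (nat_lit 304) (nat_lit 272)) (XT.lf (nat_lit 0) (nat_lit 13712098388) (nat_lit 76) (nat_lit 8714211987) (nat_lit 76) (nat_lit 1145274683) (nat_lit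 30) (nat_lit 4) (nat_lit 31) (nat_lit 5) (nat_lit 31) (nat_lit 4) (nat_lit 445) (nat_lit 304) (nat_lit 271)))) (XT.nd (nat_lit 156) (nat_lit 76) (nat_lit 0) (XT.nd (nat_lit 78) (nat_lit 0) (nat_lit 0) (XT.lf (nat_lit 0) (nat_lit 1865448801) (nat_lit 76) (nat_lit 2847756152) (nat_lit 152) (nat_lit 19378892411) (nat_lit 28) (nat_lit 5) (nat_lit 29) (nat_lit 5) (nat_lit 30) (nat_lit 4) (nat_lit 446) (nat_lit 304) (nat_lit 270)) (XT.lf (nat_lit 0) (nat_lit 10776420329) (nat_lit 152) (nat_lit 10677265327) (nat_lit 0) (nat_lit 3172642479) (nat_lit 28) (nat_lit 5) (nat_lit 30) (nat_lit 4) (nat_lit 28) (nat_lit 4) (nat_lit 447) (nat_lit 304) (nat_lit 269))) (XT.nd (nat_lit 78) (nat_lit 0) (nat_lit 0) (XT.lf (nat_lit 0) (nat_lit 1062362646) (nat_lit 76) (nat_lit 15920629293) (nat_lit 76) (nat_lit 8194753288) (nat_lit 27) (nat_lit 4) (nat_lit 28) (nat_lit 5) (nat_lit 28) (nat_lit 4) (nat_lit 448) (nat_lit 304) (nat_lit 268))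 (XT.lf (nat_lit 0) (nat_lit 13225739803) (nat_lit 76) (nat_lit 10181717564) (nat_lit 76) (nat_lit 2337299662) (nat_lit 27) (nat_lit 4) (nat_lit 28) (nat_lit 5) (nat_lit 28) (nat_lit 4) (nat_lit 449) (nat_lit 304) (nat_lit 267))))))))
noncomputable def xc29 : XT := (XT.nd (nat_lit 2262) (nat_lit 380) (nat_lit 0) (XT.nd (nat_lit 1092) (nat_lit 456) (nat_lit 0) (XT.nd (nat_lit 546) (nat_lit 304) (nat_lit 0) (XT.nd (nat_lit 234) (nat_lit 228) (nat_lit 0) (XT.nd (nat_lit 78) (nat_lit 76) (nat_lit 0) (XT.lf (nat_lit 0) (nat_lit 3549117396) (nat_lit 152) (nat_lit 754798808) (nat_lit 76) (nat_lit 22026039297) (nat_lit 26) (nat_lit 5) (nat_lit 28) (nat_lit 5) (nat_lit 27) (nat_lit 4) (nat_lit 450) (nat_lit 304) (nat_lit 266)) (XT.nd (nat_lit 78) (nat_lit 0) (nat_lit 0) (XT.lf (nat_lit 0) (nat_lit 9619964703) (nat_lit 152) (nat_lit 15526604101) (nat_lit 0) (nat_lit 1783805256) (nat_lit 25) (nat_lit 5) (nat_lit 27) (nat_lit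 4) (nat_lit 25) (nat_lit 4) (nat_lit 451) (nat_lit 304) (nat_lit 265)) (XT.lf (nat_lit 0) (nat_lit 15850910529) (nat_lit 152) (nat_lit 3789130065) (nat_lit 0) (nat_lit 7909428142) (nat_lit 25) (nat_lit 5) (nat_lit 27) (nat_lit 4) (nat_lit 25) (nat_lit 4) (nat_lit 452) (nat_lit 304) (nat_lit 264)))) (XT.nd (nat_lit 156) (nat_lit 76) (nat_lit 0) (XT.nd (nat_lit 78) (nat_lit 76) (nat_lit 0) (XT.lf (nat_lit 0) (nat_lit 8326607105) (nat_lit 76) (nat_lit 13951987594) (nat_lit 76) (nat_lit 5908249924) (nat_lit 24) (nat_lit 4) (nat_lit 25) (nat_lit 5) (nat_lit 25) (nat_lit 4) (nat_lit 453) (nat_lit 304) (nat_lit 263)) (XT.lf (nat_lit 0) (nat_lit 23147822) (nat_lit 152) (nat_lit 8096024561) (nat_lit 76) (nat_lit 20725101786) (nat_lit 23) (nat_lit 5) (nat_lit 25) (nat_lit 5) (nat_lit 24) (nat_lit 4) (nat_lit 454) (nat_lit 304) (nat_lit 262))) (XT.nd (nat_lit 78) (nat_lit 0) (nat_lit 0) (XT.lf (nat_lit 0) (nat_lit 3906412836)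 (nat_lit 76) (nat_lit 2076746222) (nat_lit 152) (nat_lit 23537432419) (nat_lit 22) (nat_lit 5) (nat_lit 23) (nat_lit 5) (nat_lit 24) (nat_lit 4) (nat_lit 455) (nat_lit 304) (nat_lit 261)) (XT.lf (nat_lit 0) (nat_lit 12176379002) (nat_lit 152) (nat_lit 13953080442) (nat_lit 0) (nat_lit 4086108981) (nat_lit 22) (nat_lit 5) (nat_lit 24) (nat_lit 4) (nat_lit 22) (nat_lit 4) (nat_lit 456) (nat_lit 304) (nat_lit 260))))) (XT.nd (nat_lit 234) (nat_lit 228) (nat_lit 0) (XT.nd (nat_lit 78) (nat_lit 76) (nat_lit 0) (XT.lf (nat_lit 0) (nat_lit 18509920402) (nat_lit 152) (nat_lit 2091396760) (nat_lit 0) (nat_lit 10331444078) (nat_lit 22) (nat_lit 5) (nat_lit 24) (nat_lit 4) (nat_lit 22) (nat_lit 4) (nat_lit 457) (nat_lit 304) (nat_lit 259)) (XT.nd (nat_lit 78) (nat_lit 0) (nat_lit 0) (XT.lf (nat_lit 0) (nat_lit 10200243424) (nat_lit 76) (nat_lit 14867162023) (nat_lit 76) (nat_lit 6603048509) (nat_lit 21) (nat_lit 4) (nat_lit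 22) (nat_lit 5) (nat_lit 22) (nat_lit 4) (nat_lit 458) (nat_lit 304) (nat_lit 258)) (XT.lf (nat_lit 0) (nat_lit 22779791781) (nat_lit 76) (nat_lit 8999506876) (nat_lit 76) (nat_lit 652250460) (nat_lit 21) (nat_lit 4) (nat_lit 22) (nat_lit 5) (nat_lit 22) (nat_lit 4) (nat_lit 459) (nat_lit 304) (nat_lit 257)))) (XT.nd (nat_lit 156) (nat_lit 76) (nat_lit 0) (XT.nd (nat_lit 78) (nat_lit 0) (nat_lit 0) (XT.lf (nat_lit 0) (nat_lit 2393966115) (nat_lit 76) (nat_lit 2937040680) (nat_lit 152) (nat_lit 27884068537) (nat_lit 19) (nat_lit 5) (nat_lit 20) (nat_lit 5) (nat_lit 21) (nat_lit 4) (nat_lit 460) (nat_lit 304) (nat_lit 256)) (XT.lf (nat_lit 0) (nat_lit 11548766304) (nat_lit 152) (nat_lit 19180929685) (nat_lit 0) (nat_lit 3290176169) (nat_lit 19) (nat_lit 5) (nat_lit 21) (nat_lit 4) (nat_lit 19) (nat_lit 4) (nat_lit 461) (nat_lit 304) (nat_lit 255))) (XT.nd (nat_lit 78) (nat_lit 76) (nat_lit 0) (XT.lf (nat_lit 0) (nat_lit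 17921840661) (nat_lit 152) (nat_lit 7338531563) (nat_lit 0) (nat_lit 9589379135) (nat_lit 19) (nat_lit 5) (nat_lit 21) (nat_lit 4) (nat_lit 19) (nat_lit 4) (nat_lit 462) (nat_lit 304) (nat_lit 254)) (XT.lf (nat_lit 0) (nat_lit 4839093653) (nat_lit 76) (nat_lit 19634988614) (nat_lit 76) (nat_lit 11230807291) (nat_lit 18) (nat_lit 4) (nat_lit 19) (nat_lit 5) (nat_lit 19) (nat_lit 4) (nat_lit 463) (nat_lit 304) (nat_lit 253)))))) (XT.nd (nat_lit 546) (nat_lit 228) (nat_lit 0) (XT.nd (nat_lit 234) (nat_lit 76) (nat_lit 0) (XT.nd (nat_lit 78) (nat_lit 152) (nat_lit 0) (XT.lf (nat_lit 0) (nat_lit 17419129618) (nat_lit 76) (nat_lit 13819940465) (nat_lit 76) (nat_lit 5346128271) (nat_lit 18) (nat_lit 4) (nat_lit 19) (nat_lit 5) (nat_lit 19) (nat_lit 4) (nat_lit 464) (nat_lit 304) (nat_lit 252)) (XT.nd (nat_lit 78) (nat_lit 76) (nat_lit 0) (XT.lf (nat_lit 0) (nat_lit 644339906) (nat_lit 152) (nat_lit 7233404970) (nat_lit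 76) (nat_lit 29615670951) (nat_lit 17) (nat_lit 5) (nat_lit 19) (nat_lit 5) (nat_lit 18) (nat_lit 4) (nat_lit 465) (nat_lit 304) (nat_lit 251)) (XT.lf (nat_lit 0) (nat_lit 4993810950) (nat_lit 76) (nat_lit 1706119939) (nat_lit 152) (nat_lit 31727576824) (nat_lit 16) (nat_lit 5) (nat_lit 17) (nat_lit 5) (nat_lit 18) (nat_lit 4) (nat_lit 466) (nat_lit 304) (nat_lit 250)))) (XT.nd (nat_lit 156) (nat_lit 76) (nat_lit 0) (XT.nd (nat_lit 78) (nat_lit 0) (nat_lit 0) (XT.lf (nat_lit 0) (nat_lit 13000593743) (nat_lit 152) (nat_lit 21804758505) (nat_lit 0) (nat_lit 4582369600) (nat_lit 16) (nat_lit 5) (nat_lit 18) (nat_lit 4) (nat_lit 16) (nat_lit 4) (nat_lit 467) (nat_lit 304) (nat_lit 249)) (XT.lf (nat_lit 0) (nat_lit 19453705462) (nat_lit 152) (nat_lit 9948718525) (nat_lit 0) (nat_lit 10975417117) (nat_lit 16) (nat_lit 5) (nat_lit 18) (nat_lit 4) (nat_lit 16) (nat_lit 4) (nat_lit 468) (nat_lit 304) (nat_lit 248))) (XT.nd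 (nat_lit 78) (nat_lit 0) (nat_lit 0) (XT.lf (nat_lit 0) (nat_lit 2204194869) (nat_lit 76) (nat_lit 23865497619) (nat_lit 76) (nat_lit 15328894516) (nat_lit 15) (nat_lit 4) (nat_lit 16) (nat_lit 5) (nat_lit 16) (nat_lit 4) (nat_lit 469) (nat_lit 304) (nat_lit 247)) (XT.lf (nat_lit 0) (nat_lit 14824813308) (nat_lit 76) (nat_lit 18108444926) (nat_lit 76) (nat_lit 9515225553) (nat_lit 15) (nat_lit 4) (nat_lit 16) (nat_lit 5) (nat_lit 16) (nat_lit 4) (nat_lit 470) (nat_lit 304) (nat_lit 246))))) (XT.nd (nat_lit 312) (nat_lit 76) (nat_lit 0) (XT.nd (nat_lit 156) (nat_lit 76) (nat_lit 0) (XT.nd (nat_lit 78) (nat_lit 76) (nat_lit 0) (XT.lf (nat_lit 0) (nat_lit 27726165511) (nat_lit 76) (nat_lit 12226698024) (nat_lit 76) (nat_lit 3578511397) (nat_lit 15) (nat_lit 4) (nat_lit 16) (nat_lit 5) (nat_lit 16) (nat_lit 4) (nat_lit 471) (nat_lit 304) (nat_lit 245)) (XT.lf (nat_lit 0) (nat_lit 2437916059) (nat_lit 152) (nat_lit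 3752583289) (nat_lit 76) (nat_lit 38456990273) (nat_lit 14) (nat_lit 5) (nat_lit 16) (nat_lit 5) (nat_lit 15) (nat_lit 4) (nat_lit 472) (nat_lit 304) (nat_lit 244))) (XT.nd (nat_lit 78) (nat_lit 0) (nat_lit 0) (XT.lf (nat_lit 0) (nat_lit 8600093791) (nat_lit 152) (nat_lit 37093135526) (nat_lit 0) (nat_lit 101681365) (nat_lit 13) (nat_lit 5) (nat_lit 15) (nat_lit 4) (nat_lit 13) (nat_lit 4) (nat_lit 473) (nat_lit 304) (nat_lit 243)) (XT.lf (nat_lit 0) (nat_lit 14999286078) (nat_lit 152) (nat_lit 25523869134) (nat_lit 0) (nat_lit 6452035960) (nat_lit 13) (nat_lit 5) (nat_lit 15) (nat_lit 4) (nat_lit 13) (nat_lit 4) (nat_lit 474) (nat_lit 304) (nat_lit 242)))) (XT.nd (nat_lit 156) (nat_lit 76) (nat_lit 0) (XT.nd (nat_lit 78) (nat_lit 0) (nat_lit 0) (XT.lf (nat_lit 0) (nat_lit 21544423292) (nat_lit 152) (nat_lit 13698081010) (nat_lit 0) (nat_lit 12949757939) (nat_lit 13) (nat_lit 5) (nat_lit 15) (nat_lit 4) (nat_lit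 13) (nat_lit 4) (nat_lit 475) (nat_lit 304) (nat_lit 241)) (XT.lf (nat_lit 0) (nat_lit 28241224485) (nat_lit 152) (nat_lit 1605437943) (nat_lit 0) (nat_lit 19600524923) (nat_lit 13) (nat_lit 5) (nat_lit 15) (nat_lit 4) (nat_lit 13) (nat_lit 4) (nat_lit 476) (nat_lit 304) (nat_lit 240))) (XT.nd (nat_lit 78) (nat_lit 0) (nat_lit 0) (XT.lf (nat_lit 0) (nat_lit 10978863629) (nat_lit 76) (nat_lit 24222213154) (nat_lit 76) (nat_lit 15536820185) (nat_lit 12) (nat_lit 4) (nat_lit 13) (nat_lit 5) (nat_lit 13) (nat_lit 4) (nat_lit 477) (nat_lit 304) (nat_lit 239)) (XT.lf (nat_lit 0) (nat_lit 23889083035) (nat_lit 76) (nat_lit 18453916181) (nat_lit 76) (nat_lit 9725131555) (nat_lit 12) (nat_lit 4) (nat_lit 13) (nat_lit 5) (nat_lit 13) (nat_lit 4) (nat_lit 478) (nat_lit 304) (nat_lit 238))))))) (XT.nd (nat_lit 47736) (nat_lit 0) (nat_lit 3496) (XT.nd (nat_lit 546) (nat_lit 228) (nat_lit 0) (XT.nd (nat_lit 234) (nat_lit 0)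 (nat_lit 0) (XT.nd (nat_lit 78) (nat_lit 152) (nat_lit 0) (XT.lf (nat_lit 0) (nat_lit 37104549685) (nat_lit 76) (nat_lit 12552943025) (nat_lit 76) (nat_lit 3782030577) (nat_lit 12) (nat_lit 4) (nat_lit 13) (nat_lit 5) (nat_lit 13) (nat_lit 4) (nat_lit 479) (nat_lit 304) (nat_lit 237)) (XT.nd (nat_lit 78) (nat_lit 76) (nat_lit 0) (XT.lf (nat_lit 0) (nat_lit 2252839820) (nat_lit 152) (nat_lit 4238548410) (nat_lit 76) (nat_lit 48361221990) (nat_lit 11) (nat_lit 5) (nat_lit 13) (nat_lit 5) (nat_lit 12) (nat_lit 4) (nat_lit 480) (nat_lit 304) (nat_lit 236)) (XT.lf (nat_lit 0) (nat_lit 8266493159) (nat_lit 76) (nat_lit 166026997) (nat_lit 152) (nat_lit 47873253870) (nat_lit 10) (nat_lit 5) (nat_lit 11) (nat_lit 5) (nat_lit 12) (nat_lit 4) (nat_lit 481) (nat_lit 304) (nat_lit 235)))) (XT.nd (nat_lit 156) (nat_lit 0) (nat_lit 0) (XT.nd (nat_lit 78) (nat_lit 0) (nat_lit 0) (XT.lf (nat_lit 0) (nat_lit 14862209212) (nat_lit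 152) (nat_lit 36707318190) (nat_lit 0) (nat_lit 6231067772) (nat_lit 10) (nat_lit 5) (nat_lit 12) (nat_lit 4) (nat_lit 10) (nat_lit 4) (nat_lit 482) (nat_lit 304) (nat_lit 234)) (XT.lf (nat_lit 0) (nat_lit 21447949396) (nat_lit 152) (nat_lit 25112949572) (nat_lit 0) (nat_lit 12780468125) (nat_lit 10) (nat_lit 5) (nat_lit 12) (nat_lit 4) (nat_lit 10) (nat_lit 4) (nat_lit 483) (nat_lit 304) (nat_lit 233))) (XT.nd (nat_lit 78) (nat_lit 0) (nat_lit 0) (XT.lf (nat_lit 0) (nat_lit 28193899284) (nat_lit 152) (nat_lit 13244448057) (nat_lit 0) (nat_lit 19491136626) (nat_lit 10) (nat_lit 5) (nat_lit 12) (nat_lit 4) (nat_lit 10) (nat_lit 4) (nat_lit 484) (nat_lit 304) (nat_lit 232)) (XT.lf (nat_lit 0) (nat_lit 35105953396) (nat_lit 152) (nat_lit 1091443110) (nat_lit 0) (nat_lit 26368936963) (nat_lit 10) (nat_lit 5) (nat_lit 12) (nat_lit 4) (nat_lit 10) (nat_lit 4) (nat_lit 485) (nat_lit 304) (nat_lit 231))))) (XT.nd (nat_lit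 234) (nat_lit 152) (nat_lit 0) (XT.nd (nat_lit 78) (nat_lit 0) (nat_lit 0) (XT.lf (nat_lit 0) (nat_lit 11582704685) (nat_lit 76) (nat_lit 30718786749) (nat_lit 76) (nat_lit 21948514224) (nat_lit 9) (nat_lit 4) (nat_lit 10) (nat_lit 5) (nat_lit 10) (nat_lit 4) (nat_lit 486) (nat_lit 304) (nat_lit 230)) (XT.nd (nat_lit 78) (nat_lit 0) (nat_lit 0) (XT.lf (nat_lit 0) (nat_lit 24590663899) (nat_lit 76) (nat_lit 25098399951) (nat_lit 76) (nat_lit 16295839958) (nat_lit 9) (nat_lit 4) (nat_lit 10) (nat_lit 5) (nat_lit 10) (nat_lit 4) (nat_lit 487) (nat_lit 304) (nat_lit 229)) (XT.lf (nat_lit 0) (nat_lit 37922078849) (nat_lit 76) (nat_lit 19342346531) (nat_lit 76) (nat_lit 10508439482) (nat_lit 9) (nat_lit 4) (nat_lit 10) (nat_lit 5) (nat_lit 10) (nat_lit 4) (nat_lit 488) (nat_lit 304) (nat_lit 228)))) (XT.nd (nat_lit 156) (nat_lit 76) (nat_lit 0) (XT.nd (nat_lit 78) (nat_lit 76) (nat_lit 0) (XT.lf (nat_lit 0) (nat_lit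 51588598344) (nat_lit 76) (nat_lit 13445596929) (nat_lit 76) (nat_lit 4581255845) (nat_lit 9) (nat_lit 4) (nat_lit 10) (nat_lit 5) (nat_lit 10) (nat_lit 4) (nat_lit 489) (nat_lit 304) (nat_lit 227)) (XT.lf (nat_lit 0) (nat_lit 1461797410) (nat_lit 152) (nat_lit 5926439947) (nat_lit 76) (nat_lit 64125605306) (nat_lit 8) (nat_lit 5) (nat_lit 10) (nat_lit 5) (nat_lit 9) (nat_lit 4) (nat_lit 490) (nat_lit 304) (nat_lit 226))) (XT.nd (nat_lit 78) (nat_lit 0) (nat_lit 0) (XT.lf (nat_lit 0) (nat_lit 6557854578) (nat_lit 76) (nat_lit 1067973139) (nat_lit 152) (nat_lit 65841045270) (nat_lit 7) (nat_lit 5) (nat_lit 8) (nat_lit 5) (nat_lit 9) (nat_lit 4) (nat_lit 491) (nat_lit 304) (nat_lit 225)) (XT.lf (nat_lit 0) (nat_lit 14056286894) (nat_lit 152) (nat_lit 56053210990) (nat_lit 0) (nat_lit 5366551805) (nat_lit 7) (nat_lit 5) (nat_lit 9) (nat_lit 4) (nat_lit 7) (nat_lit 4) (nat_lit 492) (nat_lit 304) (nat_lit 224))))))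 (XT.nd (nat_lit 546) (nat_lit 988) (nat_lit 0) (XT.nd (nat_lit 234) (nat_lit 608) (nat_lit 0) (XT.nd (nat_lit 78) (nat_lit 152) (nat_lit 0) (XT.lf (nat_lit 0) (nat_lit 248040970) (nat_lit 228) (nat_lit 5635641408) (nat_lit 0) (nat_lit 248040970) (nat_lit 76) (nat_lit 5) (nat_lit 79) (nat_lit 4) (nat_lit 76) (nat_lit 4) (nat_lit 410) (nat_lit 305) (nat_lit 305)) (XT.nd (nat_lit 78) (nat_lit 152) (nat_lit 0) (XT.lf (nat_lit 0) (nat_lit 5832589853) (nat_lit 228) (nat_lit 1294809317) (nat_lit 0) (nat_lit 5328049525) (nat_lit 76) (nat_lit 5) (nat_lit 79) (nat_lit 4) (nat_lit 76) (nat_lit 4) (nat_lit 411) (nat_lit 305) (nat_lit 304)) (XT.lf (nat_lit 0) (nat_lit 8956428622) (nat_lit 152) (nat_lit 2345991707) (nat_lit 152) (nat_lit 1351606401) (nat_lit 74) (nat_lit 4) (nat_lit 76) (nat_lit 5) (nat_lit 76) (nat_lit 4) (nat_lit 412) (nat_lit 305) (nat_lit 303)))) (XT.nd (nat_lit 156) (nat_lit 228) (nat_lit 0) (XT.nd (nat_lit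 78) (nat_lit 152) (nat_lit 0) (XT.lf (nat_lit 0) (nat_lit 3987103386) (nat_lit 228) (nat_lit 6310673191) (nat_lit 0) (nat_lit 2559954887) (nat_lit 71) (nat_lit 5) (nat_lit 74) (nat_lit 4) (nat_lit 71) (nat_lit 4) (nat_lit 413) (nat_lit 305) (nat_lit 302)) (XT.lf (nat_lit 0) (nat_lit 3948329553) (nat_lit 152) (nat_lit 5497324358) (nat_lit 152) (nat_lit 3621898312) (nat_lit 69) (nat_lit 4) (nat_lit 71) (nat_lit 5) (nat_lit 71) (nat_lit 4) (nat_lit 414) (nat_lit 305) (nat_lit 301))) (XT.nd (nat_lit 78) (nat_lit 0) (nat_lit 0) (XT.lf (nat_lit 0) (nat_lit 1167269236) (nat_lit 152) (nat_lit 545989975) (nat_lit 228) (nat_lit 11570991367) (nat_lit 66) (nat_lit 5) (nat_lit 68) (nat_lit 5) (nat_lit 69) (nat_lit 4) (nat_lit 415) (nat_lit 305) (nat_lit 300)) (XT.lf (nat_lit 0) (nat_lit 7161156750) (nat_lit 228) (nat_lit 1836890857) (nat_lit 0) (nat_lit 4507572726) (nat_lit 66) (nat_lit 5) (nat_lit 69) (nat_lit 4) (nat_lit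 66) (nat_lit 4) (nat_lit 416) (nat_lit 305) (nat_lit 299))))) (XT.nd (nat_lit 312) (nat_lit 380) (nat_lit 0) (XT.nd (nat_lit 156) (nat_lit 228) (nat_lit 0) (XT.nd (nat_lit 78) (nat_lit 228) (nat_lit 0) (XT.lf (nat_lit 0) (nat_lit 8721285297) (nat_lit 152) (nat_lit 4032396693) (nat_lit 152) (nat_lit 980523875) (nat_lit 64) (nat_lit 4) (nat_lit 66) (nat_lit 5) (nat_lit 66) (nat_lit 4) (nat_lit 417) (nat_lit 305) (nat_lit 298)) (XT.lf (nat_lit 0) (nat_lit 4430462321) (nat_lit 228) (nat_lit 8446588208) (nat_lit 0) (nat_lit 1092053616) (nat_lit 61) (nat_lit 5) (nat_lit 64) (nat_lit 4) (nat_lit 61) (nat_lit 4) (nat_lit 418) (nat_lit 305) (nat_lit 297))) (XT.nd (nat_lit 78) (nat_lit 76) (nat_lit 0) (XT.lf (nat_lit 0) (nat_lit 2061545214) (nat_lit 152) (nat_lit 7926008655) (nat_lit 152) (nat_lit 4223109282) (nat_lit 59) (nat_lit 4) (nat_lit 61) (nat_lit 5) (nat_lit 61) (nat_lit 4) (nat_lit 419) (nat_lit 305) (nat_lit 296))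 (XT.lf (nat_lit 0) (nat_lit 1206422967) (nat_lit 228) (nat_lit 1607735184) (nat_lit 76) (nat_lit 11645589858) (nat_lit 58) (nat_lit 5) (nat_lit 61) (nat_lit 5) (nat_lit 59) (nat_lit 4) (nat_lit 420) (nat_lit 305) (nat_lit 295)))) (XT.nd (nat_lit 156) (nat_lit 152) (nat_lit 0) (XT.nd (nat_lit 78) (nat_lit 152) (nat_lit 0) (XT.lf (nat_lit 0) (nat_lit 6722337314) (nat_lit 152) (nat_lit 5542309757) (nat_lit 0) (nat_lit 2450161373) (nat_lit 57) (nat_lit 5) (nat_lit 59) (nat_lit 4) (nat_lit 57) (nat_lit 4) (nat_lit 421) (nat_lit 305) (nat_lit 294)) (XT.lf (nat_lit 0) (nat_lit 5215092754) (nat_lit 152) (nat_lit 7179367817) (nat_lit 152) (nat_lit 2583346638) (nat_lit 55) (nat_lit 4) (nat_lit 57) (nat_lit 5) (nat_lit 57) (nat_lit 4) (nat_lit 422) (nat_lit 305) (nat_lit 293))) (XT.nd (nat_lit 78) (nat_lit 0) (nat_lit 0) (XT.lf (nat_lit 0) (nat_lit 960366052) (nat_lit 76) (nat_lit 1931653692) (nat_lit 152) (nat_lit 12356954205)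 (nat_lit 53) (nat_lit 5) (nat_lit 54) (nat_lit 5) (nat_lit 55) (nat_lit 4) (nat_lit 423) (nat_lit 305) (nat_lit 292)) (XT.lf (nat_lit 0) (nat_lit 8509560449) (nat_lit 152) (nat_lit 3571276072) (nat_lit 0) (nat_lit 3445784502) (nat_lit 53) (nat_lit 5) (nat_lit 55) (nat_lit 4) (nat_lit 53) (nat_lit 4) (nat_lit 424) (nat_lit 305) (nat_lit 291))))))))
noncomputable def xc30 : XT := (XT.nd (nat_lit 2262) (nat_lit 1064) (nat_lit 0) (XT.nd (nat_lit 1092) (nat_lit 836) (nat_lit 0) (XT.nd (nat_lit 546) (nat_lit 608) (nat_lit 0) (XT.nd (nat_lit 234) (nat_lit 456) (nat_lit 0) (XT.nd (nat_lit 78) (nat_lit 152) (nat_lit 0) (XT.lf (nat_lit 0) (nat_lit 7407284625) (nat_lit 152) (nat_lit 6878561049) (nat_lit 152) (nat_lit 1527052803) (nat_lit 51) (nat_lit 4) (nat_lit 53) (nat_lit 5) (nat_lit 53) (nat_lit 4) (nat_lit 425) (nat_lit 305) (nat_lit 290)) (XT.nd (nat_lit 78) (nat_lit 0) (nat_lit 0) (XT.lf (nat_lit 0) (nat_lit 2504684036)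 (nat_lit 76) (nat_lit 1502973120) (nat_lit 152) (nat_lit 12100107437) (nat_lit 49) (nat_lit 5) (nat_lit 50) (nat_lit 5) (nat_lit 51) (nat_lit 4) (nat_lit 426) (nat_lit 305) (nat_lit 289)) (XT.lf (nat_lit 0) (nat_lit 9702586112) (nat_lit 152) (nat_lit 2735281844) (nat_lit 0) (nat_lit 3972415937) (nat_lit 49) (nat_lit 5) (nat_lit 51) (nat_lit 4) (nat_lit 49) (nat_lit 4) (nat_lit 427) (nat_lit 305) (nat_lit 288)))) (XT.nd (nat_lit 156) (nat_lit 152) (nat_lit 0) (XT.nd (nat_lit 78) (nat_lit 152) (nat_lit 0) (XT.lf (nat_lit 0) (nat_lit 8427327733) (nat_lit 152) (nat_lit 7140199690) (nat_lit 152) (nat_lit 1154383095) (nat_lit 47) (nat_lit 4) (nat_lit 49) (nat_lit 5) (nat_lit 49) (nat_lit 4) (nat_lit 428) (nat_lit 305) (nat_lit 287)) (XT.lf (nat_lit 0) (nat_lit 2767731429) (nat_lit 76) (nat_lit 1666627404) (nat_lit 152) (nat_lit 12608479270) (nat_lit 45) (nat_lit 5) (nat_lit 46) (nat_lit 5) (nat_lit 47) (nat_lit 4) (nat_lit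 429) (nat_lit 305) (nat_lit 286))) (XT.nd (nat_lit 78) (nat_lit 152) (nat_lit 0) (XT.lf (nat_lit 0) (nat_lit 10194027061) (nat_lit 152) (nat_lit 3270605023) (nat_lit 0) (nat_lit 3907630679) (nat_lit 45) (nat_lit 5) (nat_lit 47) (nat_lit 4) (nat_lit 45) (nat_lit 4) (nat_lit 430) (nat_lit 305) (nat_lit 285)) (XT.lf (nat_lit 0) (nat_lit 8028230710) (nat_lit 152) (nat_lit 8098437410) (nat_lit 152) (nat_lit 1584902493) (nat_lit 43) (nat_lit 4) (nat_lit 45) (nat_lit 5) (nat_lit 45) (nat_lit 4) (nat_lit 431) (nat_lit 305) (nat_lit 284))))) (XT.nd (nat_lit 234) (nat_lit 304) (nat_lit 0) (XT.nd (nat_lit 78) (nat_lit 152) (nat_lit 0) (XT.lf (nat_lit 0) (nat_lit 1485425307) (nat_lit 76) (nat_lit 2563581131) (nat_lit 152) (nat_lit 14012224448) (nat_lit 41) (nat_lit 5) (nat_lit 42) (nat_lit 5) (nat_lit 43) (nat_lit 4) (nat_lit 432) (nat_lit 305) (nat_lit 283)) (XT.nd (nat_lit 78) (nat_lit 152) (nat_lit 0) (XT.lf (nat_lit 0)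 (nat_lit 9855877360) (nat_lit 152) (nat_lit 5453871019) (nat_lit 0) (nat_lit 3110093266) (nat_lit 41) (nat_lit 5) (nat_lit 43) (nat_lit 4) (nat_lit 41) (nat_lit 4) (nat_lit 433) (nat_lit 305) (nat_lit 282)) (XT.lf (nat_lit 0) (nat_lit 5920651576) (nat_lit 152) (nat_lit 9908200615) (nat_lit 152) (nat_lit 2960606876) (nat_lit 39) (nat_lit 4) (nat_lit 41) (nat_lit 5) (nat_lit 41) (nat_lit 4) (nat_lit 434) (nat_lit 305) (nat_lit 281)))) (XT.nd (nat_lit 156) (nat_lit 152) (nat_lit 0) (XT.nd (nat_lit 78) (nat_lit 76) (nat_lit 0) (XT.lf (nat_lit 0) (nat_lit 2721336046) (nat_lit 228) (nat_lit 1619213259) (nat_lit 76) (nat_lit 14829850048) (nat_lit 38) (nat_lit 5) (nat_lit 41) (nat_lit 5) (nat_lit 39) (nat_lit 4) (nat_lit 435) (nat_lit 305) (nat_lit 280)) (XT.lf (nat_lit 0) (nat_lit 8536267001) (nat_lit 152) (nat_lit 9608844233) (nat_lit 0) (nat_lit 1416121001) (nat_lit 37) (nat_lit 5) (nat_lit 39) (nat_lit 4) (nat_lit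 37) (nat_lit 4) (nat_lit 436) (nat_lit 305) (nat_lit 279))) (XT.nd (nat_lit 78) (nat_lit 76) (nat_lit 0) (XT.lf (nat_lit 0) (nat_lit 1765770982) (nat_lit 76) (nat_lit 12748902122) (nat_lit 76) (nat_lit 5449450867) (nat_lit 36) (nat_lit 4) (nat_lit 37) (nat_lit 5) (nat_lit 37) (nat_lit 4) (nat_lit 437) (nat_lit 305) (nat_lit 278)) (XT.lf (nat_lit 0) (nat_lit 298261719) (nat_lit 152) (nat_lit 6868062738) (nat_lit 76) (nat_lit 13212378127) (nat_lit 35) (nat_lit 5) (nat_lit 37) (nat_lit 5) (nat_lit 36) (nat_lit 4) (nat_lit 438) (nat_lit 305) (nat_lit 277)))))) (XT.nd (nat_lit 546) (nat_lit 456) (nat_lit 0) (XT.nd (nat_lit 234) (nat_lit 228) (nat_lit 0) (XT.nd (nat_lit 78) (nat_lit 76) (nat_lit 0) (XT.lf (nat_lit 0) (nat_lit 4677626188) (nat_lit 76) (nat_lit 1391424361) (nat_lit 152) (nat_lit 14736248441) (nat_lit 34) (nat_lit 5) (nat_lit 35) (nat_lit 5) (nat_lit 36) (nat_lit 4) (nat_lit 439) (nat_lit 305) (nat_lit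 276)) (XT.nd (nat_lit 78) (nat_lit 76) (nat_lit 0) (XT.lf (nat_lit 0) (nat_lit 12042209924) (nat_lit 152) (nat_lit 4738658585) (nat_lit 0) (nat_lit 4462951537) (nat_lit 34) (nat_lit 5) (nat_lit 36) (nat_lit 4) (nat_lit 34) (nat_lit 4) (nat_lit 440) (nat_lit 305) (nat_lit 275)) (XT.lf (nat_lit 0) (nat_lit 6956687404) (nat_lit 76) (nat_lit 11236393274) (nat_lit 76) (nat_lit 3502464598) (nat_lit 33) (nat_lit 4) (nat_lit 34) (nat_lit 5) (nat_lit 34) (nat_lit 4) (nat_lit 441) (nat_lit 305) (nat_lit 274)))) (XT.nd (nat_lit 156) (nat_lit 76) (nat_lit 0) (XT.nd (nat_lit 78) (nat_lit 76) (nat_lit 0) (XT.lf (nat_lit 0) (nat_lit 2287733587) (nat_lit 152) (nat_lit 3239994821) (nat_lit 76) (nat_lit 16633426490) (nat_lit 32) (nat_lit 5) (nat_lit 34) (nat_lit 5) (nat_lit 33) (nat_lit 4) (nat_lit 442) (nat_lit 305) (nat_lit 273)) (XT.lf (nat_lit 0) (nat_lit 8187941753) (nat_lit 152) (nat_lit 14059617084) (nat_lit 0) (nat_lit 391936330)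 (nat_lit 31) (nat_lit 5) (nat_lit 33) (nat_lit 4) (nat_lit 31) (nat_lit 4) (nat_lit 443) (nat_lit 305) (nat_lit 272))) (XT.nd (nat_lit 78) (nat_lit 76) (nat_lit 0) (XT.lf (nat_lit 0) (nat_lit 14273440399) (nat_lit 152) (nat_lit 2518487882) (nat_lit 0) (nat_lit 6340012427) (nat_lit 31) (nat_lit 5) (nat_lit 33) (nat_lit 4) (nat_lit 31) (nat_lit 4) (nat_lit 444) (nat_lit 305) (nat_lit 271)) (XT.lf (nat_lit 0) (nat_lit 9403840383) (nat_lit 76) (nat_lit 11150886970) (nat_lit 76) (nat_lit 3084039048) (nat_lit 30) (nat_lit 4) (nat_lit 31) (nat_lit 5) (nat_lit 31) (nat_lit 4) (nat_lit 445) (nat_lit 305) (nat_lit 270))))) (XT.nd (nat_lit 312) (nat_lit 228) (nat_lit 0) (XT.nd (nat_lit 156) (nat_lit 76) (nat_lit 0) (XT.nd (nat_lit 78) (nat_lit 76) (nat_lit 0) (XT.lf (nat_lit 0) (nat_lit 2756362031) (nat_lit 152) (nat_lit 2600966929) (nat_lit 76) (nat_lit 18804187787) (nat_lit 29) (nat_lit 5) (nat_lit 31) (nat_lit 5) (nat_lit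 30) (nat_lit 4) (nat_lit 446) (nat_lit 305) (nat_lit 269)) (XT.lf (nat_lit 0) (nat_lit 8731796335) (nat_lit 152) (nat_lit 15314540291) (nat_lit 0) (nat_lit 652045896) (nat_lit 28) (nat_lit 5) (nat_lit 30) (nat_lit 4) (nat_lit 28) (nat_lit 4) (nat_lit 447) (nat_lit 305) (nat_lit 268))) (XT.nd (nat_lit 78) (nat_lit 76) (nat_lit 0) (XT.lf (nat_lit 0) (nat_lit 14891354531) (nat_lit 152) (nat_lit 3666794818) (nat_lit 0) (nat_lit 6693062194) (nat_lit 28) (nat_lit 5) (nat_lit 30) (nat_lit 4) (nat_lit 28) (nat_lit 4) (nat_lit 448) (nat_lit 305) (nat_lit 267)) (XT.lf (nat_lit 0) (nat_lit 8353151520) (nat_lit 76) (nat_lit 12890312766) (nat_lit 76) (nat_lit 4576931209) (nat_lit 27) (nat_lit 4) (nat_lit 28) (nat_lit 5) (nat_lit 28) (nat_lit 4) (nat_lit 449) (nat_lit 305) (nat_lit 266)))) (XT.nd (nat_lit 156) (nat_lit 76) (nat_lit 0) (XT.nd (nat_lit 78) (nat_lit 76) (nat_lit 0) (XT.lf (nat_lit 0) (nat_lit 1317491440) (nat_lit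 152) (nat_lit 5750611041) (nat_lit 76) (nat_lit 19339209675) (nat_lit 26) (nat_lit 5) (nat_lit 28) (nat_lit 5) (nat_lit 27) (nat_lit 4) (nat_lit 450) (nat_lit 305) (nat_lit 265)) (XT.lf (nat_lit 0) (nat_lit 6258107603) (nat_lit 76) (nat_lit 1028448503) (nat_lit 152) (nat_lit 19724229444) (nat_lit 25) (nat_lit 5) (nat_lit 26) (nat_lit 5) (nat_lit 27) (nat_lit 4) (nat_lit 451) (nat_lit 305) (nat_lit 264))) (XT.nd (nat_lit 78) (nat_lit 76) (nat_lit 0) (XT.lf (nat_lit 0) (nat_lit 13473019564) (nat_lit 152) (nat_lit 9072481964) (nat_lit 0) (nat_lit 5085714483) (nat_lit 25) (nat_lit 5) (nat_lit 27) (nat_lit 4) (nat_lit 25) (nat_lit 4) (nat_lit 452) (nat_lit 305) (nat_lit 263)) (XT.lf (nat_lit 0) (nat_lit 2871600485) (nat_lit 76) (nat_lit 16943077755) (nat_lit 76) (nat_lit 8456495701) (nat_lit 24) (nat_lit 4) (nat_lit 25) (nat_lit 5) (nat_lit 25) (nat_lit 4) (nat_lit 453) (nat_lit 305) (nat_lit 262))))))) (XT.nd (nat_lit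 1092) (nat_lit 456) (nat_lit 0) (XT.nd (nat_lit 546) (nat_lit 304) (nat_lit 0) (XT.nd (nat_lit 234) (nat_lit 152) (nat_lit 0) (XT.nd (nat_lit 78) (nat_lit 152) (nat_lit 0) (XT.lf (nat_lit 0) (nat_lit 15228908137) (nat_lit 76) (nat_lit 11141833897) (nat_lit 76) (nat_lit 2558866433) (nat_lit 24) (nat_lit 4) (nat_lit 25) (nat_lit 5) (nat_lit 25) (nat_lit 4) (nat_lit 454) (nat_lit 305) (nat_lit 261)) (XT.nd (nat_lit 78) (nat_lit 76) (nat_lit 0) (XT.lf (nat_lit 0) (nat_lit 3380942953) (nat_lit 152) (nat_lit 1813231338) (nat_lit 76) (nat_lit 24414594611) (nat_lit 23) (nat_lit 5) (nat_lit 25) (nat_lit 5) (nat_lit 24) (nat_lit 4) (nat_lit 455) (nat_lit 305) (nat_lit 260)) (XT.lf (nat_lit 0) (nat_lit 9493712951) (nat_lit 152) (nat_lit 19830771501) (nat_lit 0) (nat_lit 981676032) (nat_lit 22) (nat_lit 5) (nat_lit 24) (nat_lit 4) (nat_lit 22) (nat_lit 4) (nat_lit 456) (nat_lit 305) (nat_lit 259)))) (XT.nd (nat_lit 156) (nat_lit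 76) (nat_lit 0) (XT.nd (nat_lit 78) (nat_lit 76) (nat_lit 0) (XT.lf (nat_lit 0) (nat_lit 15795671308) (nat_lit 152) (nat_lit 8030633384) (nat_lit 0) (nat_lit 7197997200) (nat_lit 22) (nat_lit 5) (nat_lit 24) (nat_lit 4) (nat_lit 22) (nat_lit 4) (nat_lit 457) (nat_lit 305) (nat_lit 258)) (XT.lf (nat_lit 0) (nat_lit 4081862170) (nat_lit 76) (nat_lit 18181817410) (nat_lit 76) (nat_lit 9501000401) (nat_lit 21) (nat_lit 4) (nat_lit 22) (nat_lit 5) (nat_lit 22) (nat_lit 4) (nat_lit 458) (nat_lit 305) (nat_lit 257))) (XT.nd (nat_lit 78) (nat_lit 76) (nat_lit 0) (XT.lf (nat_lit 0) (nat_lit 16602243365) (nat_lit 76) (nat_lit 12342990627) (nat_lit 76) (nat_lit 3581452353) (nat_lit 21) (nat_lit 4) (nat_lit 22) (nat_lit 5) (nat_lit 22) (nat_lit 4) (nat_lit 459) (nat_lit 305) (nat_lit 256)) (XT.lf (nat_lit 0) (nat_lit 2406204147) (nat_lit 152) (nat_lit 3955314013) (nat_lit 76) (nat_lit 26951122898) (nat_lit 20) (nat_lit 5)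 (nat_lit 22) (nat_lit 5) (nat_lit 21) (nat_lit 4) (nat_lit 460) (nat_lit 305) (nat_lit 255))))) (XT.nd (nat_lit 234) (nat_lit 228) (nat_lit 0) (XT.nd (nat_lit 78) (nat_lit 0) (nat_lit 0) (XT.lf (nat_lit 0) (nat_lit 8386700293) (nat_lit 76) (nat_lit 136795400) (nat_lit 152) (nat_lit 25596957182) (nat_lit 19) (nat_lit 5) (nat_lit 20) (nat_lit 5) (nat_lit 21) (nat_lit 4) (nat_lit 461) (nat_lit 305) (nat_lit 254)) (XT.nd (nat_lit 78) (nat_lit 0) (nat_lit 0) (XT.lf (nat_lit 0) (nat_lit 14866417006) (nat_lit 152) (nat_lit 13946430138) (nat_lit 0) (nat_lit 6138390446) (nat_lit 19) (nat_lit 5) (nat_lit 21) (nat_lit 4) (nat_lit 19) (nat_lit 4) (nat_lit 462) (nat_lit 305) (nat_lit 253)) (XT.lf (nat_lit 0) (nat_lit 21344144146) (nat_lit 152) (nat_lit 1917981260) (nat_lit 0) (nat_lit 12546486714) (nat_lit 19) (nat_lit 5) (nat_lit 21) (nat_lit 4) (nat_lit 19) (nat_lit 4) (nat_lit 463) (nat_lit 305) (nat_lit 252)))) (XT.nd (nat_lit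 156) (nat_lit 152) (nat_lit 0) (XT.nd (nat_lit 78) (nat_lit 0) (nat_lit 0) (XT.lf (nat_lit 0) (nat_lit 10569671672) (nat_lit 76) (nat_lit 17492952779) (nat_lit 76) (nat_lit 8627692560) (nat_lit 18) (nat_lit 4) (nat_lit 19) (nat_lit 5) (nat_lit 19) (nat_lit 4) (nat_lit 464) (nat_lit 305) (nat_lit 251)) (XT.lf (nat_lit 0) (nat_lit 23364427010) (nat_lit 76) (nat_lit 11582999365) (nat_lit 76) (nat_lit 2652105372) (nat_lit 18) (nat_lit 4) (nat_lit 19) (nat_lit 5) (nat_lit 19) (nat_lit 4) (nat_lit 465) (nat_lit 305) (nat_lit 250))) (XT.nd (nat_lit 78) (nat_lit 76) (nat_lit 0) (XT.lf (nat_lit 0) (nat_lit 3380861357) (nat_lit 152) (nat_lit 2131467549) (nat_lit 76) (nat_lit 33024291624) (nat_lit 17) (nat_lit 5) (nat_lit 19) (nat_lit 5) (nat_lit 18) (nat_lit 4) (nat_lit 466) (nat_lit 305) (nat_lit 249)) (XT.lf (nat_lit 0) (nat_lit 9597496363) (nat_lit 152) (nat_lit 29097064743) (nat_lit 0) (nat_lit 804795167) (nat_lit 16)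 (nat_lit 5) (nat_lit 18) (nat_lit 4) (nat_lit 16) (nat_lit 4) (nat_lit 467) (nat_lit 305) (nat_lit 248)))))) (XT.nd (nat_lit 546) (nat_lit 228) (nat_lit 0) (XT.nd (nat_lit 234) (nat_lit 152) (nat_lit 0) (XT.nd (nat_lit 78) (nat_lit 76) (nat_lit 0) (XT.lf (nat_lit 0) (nat_lit 16025038568) (nat_lit 152) (nat_lit 17291182184) (nat_lit 0) (nat_lit 7174022613) (nat_lit 16) (nat_lit 5) (nat_lit 18) (nat_lit 4) (nat_lit 16) (nat_lit 4) (nat_lit 468) (nat_lit 305) (nat_lit 247)) (XT.nd (nat_lit 78) (nat_lit 76) (nat_lit 0) (XT.lf (nat_lit 0) (nat_lit 22595012754) (nat_lit 152) (nat_lit 5229977095) (nat_lit 0) (nat_lit 13687380529) (nat_lit 16) (nat_lit 5) (nat_lit 18) (nat_lit 4) (nat_lit 16) (nat_lit 4) (nat_lit 469) (nat_lit 305) (nat_lit 246)) (XT.lf (nat_lit 0) (nat_lit 7238335436) (nat_lit 76) (nat_lit 22144403548) (nat_lit 76) (nat_lit 13181804071) (nat_lit 15) (nat_lit 4) (nat_lit 16) (nat_lit 5) (nat_lit 16) (nat_lit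 4) (nat_lit 470) (nat_lit 305) (nat_lit 245)))) (XT.nd (nat_lit 156) (nat_lit 152) (nat_lit 0) (XT.nd (nat_lit 78) (nat_lit 0) (nat_lit 0) (XT.lf (nat_lit 0) (nat_lit 20092872971) (nat_lit 76) (nat_lit 16285621575) (nat_lit 76) (nat_lit 7269655833) (nat_lit 15) (nat_lit 4) (nat_lit 16) (nat_lit 5) (nat_lit 16) (nat_lit 4) (nat_lit 471) (nat_lit 305) (nat_lit 244)) (XT.lf (nat_lit 0) (nat_lit 33240780830) (nat_lit 76) (nat_lit 10296337121) (nat_lit 76) (nat_lit 1228559471) (nat_lit 15) (nat_lit 4) (nat_lit 16) (nat_lit 5) (nat_lit 16) (nat_lit 4) (nat_lit 472) (nat_lit 305) (nat_lit 243))) (XT.nd (nat_lit 78) (nat_lit 0) (nat_lit 0) (XT.lf (nat_lit 0) (nat_lit 742382041) (nat_lit 76) (nat_lit 4114988655) (nat_lit 152) (nat_lit 41059089339) (nat_lit 13) (nat_lit 5) (nat_lit 14) (nat_lit 5) (nat_lit 15) (nat_lit 4) (nat_lit 473) (nat_lit 305) (nat_lit 242)) (XT.lf (nat_lit 0) (nat_lit 11194331904) (nat_lit 152) (nat_lit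 33609864810) (nat_lit 0) (nat_lit 2294411355) (nat_lit 13) (nat_lit 5) (nat_lit 15) (nat_lit 4) (nat_lit 13) (nat_lit 4) (nat_lit 474) (nat_lit 305) (nat_lit 241))))) (XT.nd (nat_lit 312) (nat_lit 152) (nat_lit 0) (XT.nd (nat_lit 156) (nat_lit 76) (nat_lit 0) (XT.nd (nat_lit 78) (nat_lit 0) (nat_lit 0) (XT.lf (nat_lit 0) (nat_lit 17717454272) (nat_lit 152) (nat_lit 21827386391) (nat_lit 0) (nat_lit 8771499514) (nat_lit 13) (nat_lit 5) (nat_lit 15) (nat_lit 4) (nat_lit 13) (nat_lit 4) (nat_lit 475) (nat_lit 305) (nat_lit 240)) (XT.lf (nat_lit 0) (nat_lit 24392881827) (nat_lit 152) (nat_lit 9776791579) (nat_lit 0) (nat_lit 15402233663) (nat_lit 13) (nat_lit 5) (nat_lit 15) (nat_lit 4) (nat_lit 13) (nat_lit 4) (nat_lit 476) (nat_lit 305) (nat_lit 239))) (XT.nd (nat_lit 78) (nat_lit 0) (nat_lit 0) (XT.lf (nat_lit 0) (nat_lit 2603248014) (nat_lit 76) (nat_lit 28648223466) (nat_lit 76) (nat_lit 19614183645) (nat_lit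 12) (nat_lit 4) (nat_lit 13) (nat_lit 5) (nat_lit 13) (nat_lit 4) (nat_lit 477) (nat_lit 305) (nat_lit 238)) (XT.lf (nat_lit 0) (nat_lit 15473044101) (nat_lit 76) (nat_lit 22899814535) (nat_lit 76) (nat_lit 13823646892) (nat_lit 12) (nat_lit 4) (nat_lit 13) (nat_lit 5) (nat_lit 13) (nat_lit 4) (nat_lit 478) (nat_lit 305) (nat_lit 237)))) (XT.nd (nat_lit 156) (nat_lit 152) (nat_lit 0) (XT.nd (nat_lit 78) (nat_lit 0) (nat_lit 0) (XT.lf (nat_lit 0) (nat_lit 28649264811) (nat_lit 76) (nat_lit 17018150158) (nat_lit 76) (nat_lit 7901081716) (nat_lit 12) (nat_lit 4) (nat_lit 13) (nat_lit 5) (nat_lit 13) (nat_lit 4) (nat_lit 479) (nat_lit 305) (nat_lit 236)) (XT.lf (nat_lit 0) (nat_lit 42143423345) (nat_lit 76) (nat_lit 10998091016) (nat_lit 76) (nat_lit 1841313062) (nat_lit 12) (nat_lit 4) (nat_lit 13) (nat_lit 5) (nat_lit 13) (nat_lit 4) (nat_lit 480) (nat_lit 305) (nat_lit 235))) (XT.nd (nat_lit 78) (nat_lit 76) (nat_lit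 0) (XT.lf (nat_lit 0) (nat_lit 4275856095) (nat_lit 152) (nat_lit 515343006) (nat_lit 76) (nat_lit 51648276860) (nat_lit 11) (nat_lit 5) (nat_lit 13) (nat_lit 5) (nat_lit 12) (nat_lit 4) (nat_lit 481) (nat_lit 305) (nat_lit 234)) (XT.lf (nat_lit 0) (nat_lit 10637025433) (nat_lit 152) (nat_lit 45626147841) (nat_lit 0) (nat_lit 1673179895) (nat_lit 10) (nat_lit 5) (nat_lit 12) (nat_lit 4) (nat_lit 10) (nat_lit 4) (nat_lit 482) (nat_lit 305) (nat_lit 233))))))))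
noncomputable def xc31 : XT := (XT.nd (nat_lit 48750) (nat_lit 0) (nat_lit 1216) (XT.nd (nat_lit 47580) (nat_lit 0) (nat_lit 3192) (XT.nd (nat_lit 546) (nat_lit 152) (nat_lit 0) (XT.nd (nat_lit 234) (nat_lit 76) (nat_lit 0) (XT.nd (nat_lit 78) (nat_lit 0) (nat_lit 0) (XT.lf (nat_lit 0) (nat_lit 17204360444) (nat_lit 152) (nat_lit 34068083736) (nat_lit 0) (nat_lit 8205233518) (nat_lit 10) (nat_lit 5) (nat_lit 12) (nat_lit 4) (nat_lit 10) (nat_lit 4) (nat_lit 483) (nat_lit 305) (nat_lit 232)) (XT.nd (nat_lit 78) (nat_lit 0) (nat_lit 0) (XT.lf (nat_lit 0) (nat_lit 23932441232) (nat_lit 152) (nat_lit 22234829321) (nat_lit 0) (nat_lit 14899060531) (nat_lit 10) (nat_lit 5) (nat_lit 12) (nat_lit 4) (nat_lit 10) (nat_lit 4) (nat_lit 484) (nat_lit 305) (nat_lit 231)) (XT.lf (nat_lit 0) (nat_lit 30827146704) (nat_lit 152) (nat_lit 10116044860) (nat_lit 0) (nat_lit 21760509911) (nat_lit 10) (nat_lit 5) (nat_lit 12) (nat_lit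 4) (nat_lit 10) (nat_lit 4) (nat_lit 485) (nat_lit 305) (nat_lit 230)))) (XT.nd (nat_lit 156) (nat_lit 0) (nat_lit 0) (XT.nd (nat_lit 78) (nat_lit 0) (nat_lit 0) (XT.lf (nat_lit 0) (nat_lit 2344610675) (nat_lit 76) (nat_lit 35572428515) (nat_lit 76) (nat_lit 26473504254) (nat_lit 9) (nat_lit 4) (nat_lit 10) (nat_lit 5) (nat_lit 10) (nat_lit 4) (nat_lit 486) (nat_lit 305) (nat_lit 229)) (XT.lf (nat_lit 0) (nat_lit 15319671839) (nat_lit 76) (nat_lit 29968270772) (nat_lit 76) (nat_lit 20837999456) (nat_lit 9) (nat_lit 4) (nat_lit 10) (nat_lit 5) (nat_lit 10) (nat_lit 4) (nat_lit 487) (nat_lit 305) (nat_lit 228))) (XT.nd (nat_lit 78) (nat_lit 0) (nat_lit 0) (XT.lf (nat_lit 0) (nat_lit 28619146935) (nat_lit 76) (nat_lit 24227973718) (nat_lit 76) (nat_lit 15067268366) (nat_lit 9) (nat_lit 4) (nat_lit 10) (nat_lit 5) (nat_lit 10) (nat_lit 4) (nat_lit 488) (nat_lit 305) (nat_lit 227)) (XT.lf (nat_lit 0) (nat_lit 42254656864)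 (nat_lit 76) (nat_lit 18346521557) (nat_lit 76) (nat_lit 9156268598) (nat_lit 9) (nat_lit 4) (nat_lit 10) (nat_lit 5) (nat_lit 10) (nat_lit 4) (nat_lit 489) (nat_lit 305) (nat_lit 226))))) (XT.nd (nat_lit 46722) (nat_lit 0) (nat_lit 5244) (XT.nd (nat_lit 78) (nat_lit 152) (nat_lit 0) (XT.lf (nat_lit 0) (nat_lit 56238116149) (nat_lit 76) (nat_lit 12318775157) (nat_lit 76) (nat_lit 3099835201) (nat_lit 9) (nat_lit 4) (nat_lit 10) (nat_lit 5) (nat_lit 10) (nat_lit 4) (nat_lit 490) (nat_lit 305) (nat_lit 225)) (XT.nd (nat_lit 78) (nat_lit 76) (nat_lit 0) (XT.lf (nat_lit 0) (nat_lit 3046688772) (nat_lit 152) (nat_lit 3062013201) (nat_lit 76) (nat_lit 67504288991) (nat_lit 8) (nat_lit 5) (nat_lit 10) (nat_lit 5) (nat_lit 9) (nat_lit 4) (nat_lit 491) (nat_lit 305) (nat_lit 224)) (XT.lf (nat_lit 0) (nat_lit 9383435075) (nat_lit 152) (nat_lit 65861829293) (nat_lit 0) (nat_lit 379715021) (nat_lit 7) (nat_lit 5) (nat_lit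 9) (nat_lit 4) (nat_lit 7) (nat_lit 4) (nat_lit 492) (nat_lit 305) (nat_lit 223)))) (XT.nd (nat_lit 156) (nat_lit 228) (nat_lit 0) (XT.nd (nat_lit 78) (nat_lit 152) (nat_lit 0) (XT.lf (nat_lit 0) (nat_lit 1288617916) (nat_lit 228) (nat_lit 3368520877) (nat_lit 0) (nat_lit 1288617916) (nat_lit 81) (nat_lit 5) (nat_lit 84) (nat_lit 4) (nat_lit 81) (nat_lit 4) (nat_lit 408) (nat_lit 306) (nat_lit 306)) (XT.lf (nat_lit 0) (nat_lit 3088110001) (nat_lit 152) (nat_lit 4761165771) (nat_lit 152) (nat_lit 4225898938) (nat_lit 79) (nat_lit 4) (nat_lit 81) (nat_lit 5) (nat_lit 81) (nat_lit 4) (nat_lit 409) (nat_lit 306) (nat_lit 305))) (XT.nd (nat_lit 78) (nat_lit 0) (nat_lit 0) (XT.lf (nat_lit 0) (nat_lit 892101055) (nat_lit 152) (nat_lit 67034129) (nat_lit 228) (nat_lit 11306016706) (nat_lit 76) (nat_lit 5) (nat_lit 78) (nat_lit 5) (nat_lit 79) (nat_lit 4) (nat_lit 410) (nat_lit 306) (nat_lit 304)) (XT.lf (nat_lit 0) (nat_lit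 6239399047) (nat_lit 228) (nat_lit 1494111262) (nat_lit 0) (nat_lit 4725337204) (nat_lit 76) (nat_lit 5) (nat_lit 79) (nat_lit 4) (nat_lit 76) (nat_lit 4) (nat_lit 411) (nat_lit 306) (nat_lit 303)))))) (XT.nd (nat_lit 546) (nat_lit 912) (nat_lit 0) (XT.nd (nat_lit 234) (nat_lit 608) (nat_lit 0) (XT.nd (nat_lit 78) (nat_lit 380) (nat_lit 0) (XT.lf (nat_lit 0) (nat_lit 8655944412) (nat_lit 152) (nat_lit 2996416405) (nat_lit 152) (nat_lit 1006776913) (nat_lit 74) (nat_lit 4) (nat_lit 76) (nat_lit 5) (nat_lit 76) (nat_lit 4) (nat_lit 412) (nat_lit 306) (nat_lit 302)) (XT.nd (nat_lit 78) (nat_lit 152) (nat_lit 0) (XT.lf (nat_lit 0) (nat_lit 4260731854) (nat_lit 228) (nat_lit 6723185622) (nat_lit 0) (nat_lit 1880765481) (nat_lit 71) (nat_lit 5) (nat_lit 74) (nat_lit 4) (nat_lit 71) (nat_lit 4) (nat_lit 413) (nat_lit 306) (nat_lit 301)) (XT.lf (nat_lit 0) (nat_lit 3429972371) (nat_lit 152) (nat_lit 6230740659) (nat_lit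 152) (nat_lit 3415553368) (nat_lit 69) (nat_lit 4) (nat_lit 71) (nat_lit 5) (nat_lit 71) (nat_lit 4) (nat_lit 414) (nat_lit 306) (nat_lit 300)))) (XT.nd (nat_lit 156) (nat_lit 380) (nat_lit 0) (XT.nd (nat_lit 78) (nat_lit 0) (nat_lit 0) (XT.lf (nat_lit 0) (nat_lit 529916746) (nat_lit 152) (nat_lit 1326067794) (nat_lit 228) (nat_lit 11438713779) (nat_lit 66) (nat_lit 5) (nat_lit 68) (nat_lit 5) (nat_lit 69) (nat_lit 4) (nat_lit 415) (nat_lit 306) (nat_lit 299)) (XT.lf (nat_lit 0) (nat_lit 7243157191) (nat_lit 228) (nat_lit 2573298362) (nat_lit 0) (nat_lit 3701439395) (nat_lit 66) (nat_lit 5) (nat_lit 69) (nat_lit 4) (nat_lit 66) (nat_lit 4) (nat_lit 416) (nat_lit 306) (nat_lit 298))) (XT.nd (nat_lit 78) (nat_lit 228) (nat_lit 0) (XT.lf (nat_lit 0) (nat_lit 7875058195) (nat_lit 152) (nat_lit 4900813760) (nat_lit 152) (nat_lit 972407815) (nat_lit 64) (nat_lit 4) (nat_lit 66) (nat_lit 5) (nat_lit 66) (nat_lit 4) (nat_lit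 417) (nat_lit 306) (nat_lit 297)) (XT.lf (nat_lit 0) (nat_lit 4368657822) (nat_lit 228) (nat_lit 9426434644) (nat_lit 0) (nat_lit 190180801) (nat_lit 61) (nat_lit 5) (nat_lit 64) (nat_lit 4) (nat_lit 61) (nat_lit 4) (nat_lit 418) (nat_lit 306) (nat_lit 296))))) (XT.nd (nat_lit 312) (nat_lit 456) (nat_lit 0) (XT.nd (nat_lit 156) (nat_lit 228) (nat_lit 0) (XT.nd (nat_lit 78) (nat_lit 76) (nat_lit 0) (XT.lf (nat_lit 0) (nat_lit 966693438) (nat_lit 152) (nat_lit 8897175628) (nat_lit 152) (nat_lit 4364824172) (nat_lit 59) (nat_lit 4) (nat_lit 61) (nat_lit 5) (nat_lit 61) (nat_lit 4) (nat_lit 419) (nat_lit 306) (nat_lit 295)) (XT.lf (nat_lit 0) (nat_lit 1016215196) (nat_lit 228) (nat_lit 2813002019) (nat_lit 76) (nat_lit 10650143787) (nat_lit 58) (nat_lit 5) (nat_lit 61) (nat_lit 5) (nat_lit 59) (nat_lit 4) (nat_lit 420) (nat_lit 306) (nat_lit 294))) (XT.nd (nat_lit 78) (nat_lit 152) (nat_lit 0) (XT.lf (nat_lit 0) (nat_lit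 6459375860) (nat_lit 152) (nat_lit 6875603548) (nat_lit 0) (nat_lit 1401628809) (nat_lit 57) (nat_lit 5) (nat_lit 59) (nat_lit 4) (nat_lit 57) (nat_lit 4) (nat_lit 421) (nat_lit 306) (nat_lit 293)) (XT.lf (nat_lit 0) (nat_lit 3762238187) (nat_lit 152) (nat_lit 8305719493) (nat_lit 152) (nat_lit 2933559591) (nat_lit 55) (nat_lit 4) (nat_lit 57) (nat_lit 5) (nat_lit 57) (nat_lit 4) (nat_lit 422) (nat_lit 306) (nat_lit 292)))) (XT.nd (nat_lit 156) (nat_lit 304) (nat_lit 0) (XT.nd (nat_lit 78) (nat_lit 76) (nat_lit 0) (XT.lf (nat_lit 0) (nat_lit 2489920152) (nat_lit 228) (nat_lit 622877188) (nat_lit 76) (nat_lit 12161753096) (nat_lit 54) (nat_lit 5) (nat_lit 57) (nat_lit 5) (nat_lit 55) (nat_lit 4) (nat_lit 423) (nat_lit 306) (nat_lit 291)) (XT.lf (nat_lit 0) (nat_lit 8040624444) (nat_lit 152) (nat_lit 5272743209) (nat_lit 0) (nat_lit 2240838652) (nat_lit 53) (nat_lit 5) (nat_lit 55) (nat_lit 4) (nat_lit 53) (nat_lit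 4) (nat_lit 424) (nat_lit 306) (nat_lit 290))) (XT.nd (nat_lit 78) (nat_lit 152) (nat_lit 0) (XT.lf (nat_lit 0) (nat_lit 5581369769) (nat_lit 152) (nat_lit 8170109025) (nat_lit 152) (nat_lit 2090971486) (nat_lit 51) (nat_lit 4) (nat_lit 53) (nat_lit 5) (nat_lit 53) (nat_lit 4) (nat_lit 425) (nat_lit 306) (nat_lit 289)) (XT.lf (nat_lit 0) (nat_lit 527147727) (nat_lit 76) (nat_lit 2860783579) (nat_lit 152) (nat_lit 12751555438) (nat_lit 49) (nat_lit 5) (nat_lit 50) (nat_lit 5) (nat_lit 51) (nat_lit 4) (nat_lit 426) (nat_lit 306) (nat_lit 288))))))) (XT.nd (nat_lit 1092) (nat_lit 836) (nat_lit 0) (XT.nd (nat_lit 546) (nat_lit 532) (nat_lit 0) (XT.nd (nat_lit 234) (nat_lit 304) (nat_lit 0) (XT.nd (nat_lit 78) (nat_lit 304) (nat_lit 0) (XT.lf (nat_lit 0) (nat_lit 9022160342) (nat_lit 152) (nat_lit 4820547162) (nat_lit 0) (nat_lit 2601122828) (nat_lit 49) (nat_lit 5) (nat_lit 51) (nat_lit 4) (nat_lit 49) (nat_lit 4)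 (nat_lit 427) (nat_lit 306) (nat_lit 287)) (XT.nd (nat_lit 78) (nat_lit 152) (nat_lit 0) (XT.lf (nat_lit 0) (nat_lit 6212375710) (nat_lit 152) (nat_lit 8607174454) (nat_lit 152) (nat_lit 1937936532) (nat_lit 47) (nat_lit 4) (nat_lit 49) (nat_lit 5) (nat_lit 49) (nat_lit 4) (nat_lit 428) (nat_lit 306) (nat_lit 286)) (XT.lf (nat_lit 0) (nat_lit 391833264) (nat_lit 76) (nat_lit 3205231985) (nat_lit 152) (nat_lit 13483648907) (nat_lit 45) (nat_lit 5) (nat_lit 46) (nat_lit 5) (nat_lit 47) (nat_lit 4) (nat_lit 429) (nat_lit 306) (nat_lit 285)))) (XT.nd (nat_lit 156) (nat_lit 152) (nat_lit 0) (XT.nd (nat_lit 78) (nat_lit 152) (nat_lit 0) (XT.lf (nat_lit 0) (nat_lit 9295888916) (nat_lit 152) (nat_lit 5756268741) (nat_lit 0) (nat_lit 2359809418) (nat_lit 45) (nat_lit 5) (nat_lit 47) (nat_lit 4) (nat_lit 45) (nat_lit 4) (nat_lit 430) (nat_lit 306) (nat_lit 284)) (XT.lf (nat_lit 0) (nat_lit 5407267699) (nat_lit 152) (nat_lit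 9751354817) (nat_lit 152) (nat_lit 2594752472) (nat_lit 43) (nat_lit 4) (nat_lit 45) (nat_lit 5) (nat_lit 45) (nat_lit 4) (nat_lit 431) (nat_lit 306) (nat_lit 283))) (XT.nd (nat_lit 78) (nat_lit 76) (nat_lit 0) (XT.lf (nat_lit 0) (nat_lit 2999931161) (nat_lit 228) (nat_lit 1280841940) (nat_lit 76) (nat_lit 13824323988) (nat_lit 42) (nat_lit 5) (nat_lit 45) (nat_lit 5) (nat_lit 43) (nat_lit 4) (nat_lit 432) (nat_lit 306) (nat_lit 282)) (XT.lf (nat_lit 0) (nat_lit 8733083172) (nat_lit 152) (nat_lit 8357586866) (nat_lit 0) (nat_lit 1375251975) (nat_lit 41) (nat_lit 5) (nat_lit 43) (nat_lit 4) (nat_lit 41) (nat_lit 4) (nat_lit 433) (nat_lit 306) (nat_lit 281))))) (XT.nd (nat_lit 234) (nat_lit 228) (nat_lit 0) (XT.nd (nat_lit 78) (nat_lit 152) (nat_lit 0) (XT.lf (nat_lit 0) (nat_lit 2875627565) (nat_lit 152) (nat_lit 11757926204) (nat_lit 152) (nat_lit 4204163313) (nat_lit 39) (nat_lit 4) (nat_lit 41) (nat_lit 5) (nat_lit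 41) (nat_lit 4) (nat_lit 434) (nat_lit 306) (nat_lit 280)) (XT.nd (nat_lit 78) (nat_lit 76) (nat_lit 0) (XT.lf (nat_lit 0) (nat_lit 1458866351) (nat_lit 228) (nat_lit 4782489143) (nat_lit 76) (nat_lit 12978958252) (nat_lit 38) (nat_lit 5) (nat_lit 41) (nat_lit 5) (nat_lit 39) (nat_lit 4) (nat_lit 435) (nat_lit 306) (nat_lit 279)) (XT.lf (nat_lit 0) (nat_lit 6659312498) (nat_lit 76) (nat_lit 526886885) (nat_lit 152) (nat_lit 12427577490) (nat_lit 37) (nat_lit 5) (nat_lit 38) (nat_lit 5) (nat_lit 39) (nat_lit 4) (nat_lit 436) (nat_lit 306) (nat_lit 278)))) (XT.nd (nat_lit 156) (nat_lit 152) (nat_lit 0) (XT.nd (nat_lit 78) (nat_lit 76) (nat_lit 0) (XT.lf (nat_lit 0) (nat_lit 13100750158) (nat_lit 152) (nat_lit 1688909015) (nat_lit 0) (nat_lit 5228927336) (nat_lit 37) (nat_lit 5) (nat_lit 39) (nat_lit 4) (nat_lit 37) (nat_lit 4) (nat_lit 437) (nat_lit 306) (nat_lit 277)) (XT.lf (nat_lit 0) (nat_lit 9946472102) (nat_lit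 76) (nat_lit 9264677799) (nat_lit 76) (nat_lit 1223842576) (nat_lit 36) (nat_lit 4) (nat_lit 37) (nat_lit 5) (nat_lit 37) (nat_lit 4) (nat_lit 438) (nat_lit 306) (nat_lit 276))) (XT.nd (nat_lit 78) (nat_lit 0) (nat_lit 0) (XT.lf (nat_lit 0) (nat_lit 918173976) (nat_lit 76) (nat_lit 3575963416) (nat_lit 152) (nat_lit 16370107185) (nat_lit 34) (nat_lit 5) (nat_lit 35) (nat_lit 5) (nat_lit 36) (nat_lit 4) (nat_lit 439) (nat_lit 306) (nat_lit 275)) (XT.lf (nat_lit 0) (nat_lit 10405838619) (nat_lit 152) (nat_lit 8613550954) (nat_lit 0) (nat_lit 2285221794) (nat_lit 34) (nat_lit 5) (nat_lit 36) (nat_lit 4) (nat_lit 34) (nat_lit 4) (nat_lit 440) (nat_lit 306) (nat_lit 274)))))) (XT.nd (nat_lit 546) (nat_lit 380) (nat_lit 0) (XT.nd (nat_lit 234) (nat_lit 228) (nat_lit 0) (XT.nd (nat_lit 78) (nat_lit 152) (nat_lit 0) (XT.lf (nat_lit 0) (nat_lit 2927943124) (nat_lit 76) (nat_lit 13550758890) (nat_lit 76) (nat_lit 5279976736)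 (nat_lit 33) (nat_lit 4) (nat_lit 34) (nat_lit 5) (nat_lit 34) (nat_lit 4) (nat_lit 441) (nat_lit 306) (nat_lit 273)) (XT.nd (nat_lit 78) (nat_lit 76) (nat_lit 0) (XT.lf (nat_lit 0) (nat_lit 505667956) (nat_lit 152) (nat_lit 7390067784) (nat_lit 76) (nat_lit 14330244226) (nat_lit 32) (nat_lit 5) (nat_lit 34) (nat_lit 5) (nat_lit 33) (nat_lit 4) (nat_lit 442) (nat_lit 306) (nat_lit 272)) (XT.lf (nat_lit 0) (nat_lit 4276624633) (nat_lit 76) (nat_lit 2045909156) (nat_lit 152) (nat_lit 16384288484) (nat_lit 31) (nat_lit 5) (nat_lit 32) (nat_lit 5) (nat_lit 33) (nat_lit 4) (nat_lit 443) (nat_lit 306) (nat_lit 271)))) (XT.nd (nat_lit 156) (nat_lit 152) (nat_lit 0) (XT.nd (nat_lit 78) (nat_lit 76) (nat_lit 0) (XT.lf (nat_lit 0) (nat_lit 12350350083) (nat_lit 152) (nat_lit 6942573144) (nat_lit 0) (nat_lit 3908076774) (nat_lit 31) (nat_lit 5) (nat_lit 33) (nat_lit 4) (nat_lit 31) (nat_lit 4) (nat_lit 444) (nat_lit 306)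 (nat_lit 270)) (XT.lf (nat_lit 0) (nat_lit 4819253278) (nat_lit 76) (nat_lit 13731405339) (nat_lit 76) (nat_lit 5159598098) (nat_lit 30) (nat_lit 4) (nat_lit 31) (nat_lit 5) (nat_lit 31) (nat_lit 4) (nat_lit 445) (nat_lit 306) (nat_lit 269))) (XT.nd (nat_lit 78) (nat_lit 76) (nat_lit 0) (XT.lf (nat_lit 0) (nat_lit 684431802) (nat_lit 152) (nat_lit 7308171780) (nat_lit 76) (nat_lit 16242109780) (nat_lit 29) (nat_lit 5) (nat_lit 31) (nat_lit 5) (nat_lit 30) (nat_lit 4) (nat_lit 446) (nat_lit 306) (nat_lit 268)) (XT.lf (nat_lit 0) (nat_lit 4519157035) (nat_lit 76) (nat_lit 2051691993) (nat_lit 152) (nat_lit 18203402147) (nat_lit 28) (nat_lit 5) (nat_lit 29) (nat_lit 5) (nat_lit 30) (nat_lit 4) (nat_lit 447) (nat_lit 306) (nat_lit 267))))) (XT.nd (nat_lit 312) (nat_lit 152) (nat_lit 0) (XT.nd (nat_lit 156) (nat_lit 152) (nat_lit 0) (XT.nd (nat_lit 78) (nat_lit 76) (nat_lit 0) (XT.lf (nat_lit 0) (nat_lit 12674955654)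 (nat_lit 152) (nat_lit 8656706141) (nat_lit 0) (nat_lit 3997083429) (nat_lit 28) (nat_lit 5) (nat_lit 30) (nat_lit 4) (nat_lit 28) (nat_lit 4) (nat_lit 448) (nat_lit 306) (nat_lit 266)) (XT.lf (nat_lit 0) (nat_lit 3195528836) (nat_lit 76) (nat_lit 15747269561) (nat_lit 76) (nat_lit 6957660228) (nat_lit 27) (nat_lit 4) (nat_lit 28) (nat_lit 5) (nat_lit 28) (nat_lit 4) (nat_lit 449) (nat_lit 306) (nat_lit 265))) (XT.nd (nat_lit 78) (nat_lit 152) (nat_lit 0) (XT.lf (nat_lit 0) (nat_lit 15445972472) (nat_lit 76) (nat_lit 9970456586) (nat_lit 76) (nat_lit 1072364626) (nat_lit 27) (nat_lit 4) (nat_lit 28) (nat_lit 5) (nat_lit 28) (nat_lit 4) (nat_lit 450) (nat_lit 306) (nat_lit 264)) (XT.lf (nat_lit 0) (nat_lit 804642149) (nat_lit 76) (nat_lit 4026913048) (nat_lit 152) (nat_lit 22263604561) (nat_lit 25) (nat_lit 5) (nat_lit 26) (nat_lit 5) (nat_lit 27) (nat_lit 4) (nat_lit 451) (nat_lit 306) (nat_lit 263)))) (XT.nd (nat_lit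 156) (nat_lit 152) (nat_lit 0) (XT.nd (nat_lit 78) (nat_lit 0) (nat_lit 0) (XT.lf (nat_lit 0) (nat_lit 10955606947) (nat_lit 152) (nat_lit 14646706443) (nat_lit 0) (nat_lit 2115150458) (nat_lit 25) (nat_lit 5) (nat_lit 27) (nat_lit 4) (nat_lit 25) (nat_lit 4) (nat_lit 452) (nat_lit 306) (nat_lit 262)) (XT.lf (nat_lit 0) (nat_lit 17237051720) (nat_lit 152) (nat_lit 2821967895) (nat_lit 0) (nat_lit 8300209821) (nat_lit 25) (nat_lit 5) (nat_lit 27) (nat_lit 4) (nat_lit 25) (nat_lit 4) (nat_lit 453) (nat_lit 306) (nat_lit 261))) (XT.nd (nat_lit 78) (nat_lit 76) (nat_lit 0) (XT.lf (nat_lit 0) (nat_lit 9416489101) (nat_lit 76) (nat_lit 14316696958) (nat_lit 76) (nat_lit 5286276990) (nat_lit 24) (nat_lit 4) (nat_lit 25) (nat_lit 5) (nat_lit 25) (nat_lit 4) (nat_lit 454) (nat_lit 306) (nat_lit 260)) (XT.lf (nat_lit 0) (nat_lit 675119319) (nat_lit 152) (nat_lit 7750780242) (nat_lit 76) (nat_lit 21274460624) (nat_lit 23)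 (nat_lit 5) (nat_lit 25) (nat_lit 5) (nat_lit 24) (nat_lit 4) (nat_lit 455) (nat_lit 306) (nat_lit 259))))))))
noncomputable def xc32 : XT := (XT.nd (nat_lit 2184) (nat_lit 152) (nat_lit 0) (XT.nd (nat_lit 1092) (nat_lit 456) (nat_lit 0) (XT.nd (nat_lit 546) (nat_lit 228) (nat_lit 0) (XT.nd (nat_lit 234) (nat_lit 228) (nat_lit 0) (XT.nd (nat_lit 78) (nat_lit 0) (nat_lit 0) (XT.lf (nat_lit 0) (nat_lit 4368694261) (nat_lit 76) (nat_lit 2320060924) (nat_lit 152) (nat_lit 23711971708) (nat_lit 22) (nat_lit 5) (nat_lit 23) (nat_lit 5) (nat_lit 24) (nat_lit 4) (nat_lit 456) (nat_lit 306) (nat_lit 258)) (XT.nd (nat_lit 78) (nat_lit 0) (nat_lit 0) (XT.lf (nat_lit 0) (nat_lit 12937748549) (nat_lit 152) (nat_lit 14269345645) (nat_lit 0) (nat_lit 3913364128) (nat_lit 22) (nat_lit 5) (nat_lit 24) (nat_lit 4) (nat_lit 22) (nat_lit 4) (nat_lit 457) (nat_lit 306) (nat_lit 257)) (XT.lf (nat_lit 0) (nat_lit 19336749419) (nat_lit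 152) (nat_lit 2294514520) (nat_lit 0) (nat_lit 10231643733) (nat_lit 22) (nat_lit 5) (nat_lit 24) (nat_lit 4) (nat_lit 22) (nat_lit 4) (nat_lit 458) (nat_lit 306) (nat_lit 256)))) (XT.nd (nat_lit 156) (nat_lit 152) (nat_lit 0) (XT.nd (nat_lit 78) (nat_lit 0) (nat_lit 0) (XT.lf (nat_lit 0) (nat_lit 10122757490) (nat_lit 76) (nat_lit 15843595955) (nat_lit 76) (nat_lit 6660120111) (nat_lit 21) (nat_lit 4) (nat_lit 22) (nat_lit 5) (nat_lit 22) (nat_lit 4) (nat_lit 459) (nat_lit 306) (nat_lit 255)) (XT.lf (nat_lit 0) (nat_lit 22846368389) (nat_lit 76) (nat_lit 9913594930) (nat_lit 76) (nat_lit 654031553) (nat_lit 21) (nat_lit 4) (nat_lit 22) (nat_lit 5) (nat_lit 22) (nat_lit 4) (nat_lit 460) (nat_lit 306) (nat_lit 254))) (XT.nd (nat_lit 78) (nat_lit 0) (nat_lit 0) (XT.lf (nat_lit 0) (nat_lit 1593407860) (nat_lit 76) (nat_lit 3789273237) (nat_lit 152) (nat_lit 28842115366) (nat_lit 19) (nat_lit 5) (nat_lit 20) (nat_lit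 5) (nat_lit 21) (nat_lit 4) (nat_lit 461) (nat_lit 306) (nat_lit 253)) (XT.lf (nat_lit 0) (nat_lit 11662494420) (nat_lit 152) (nat_lit 20863704499) (nat_lit 0) (nat_lit 2531276394) (nat_lit 19) (nat_lit 5) (nat_lit 21) (nat_lit 4) (nat_lit 19) (nat_lit 4) (nat_lit 462) (nat_lit 306) (nat_lit 252))))) (XT.nd (nat_lit 234) (nat_lit 152) (nat_lit 0) (XT.nd (nat_lit 78) (nat_lit 76) (nat_lit 0) (XT.lf (nat_lit 0) (nat_lit 18113038900) (nat_lit 152) (nat_lit 8888409206) (nat_lit 0) (nat_lit 8914218087) (nat_lit 19) (nat_lit 5) (nat_lit 21) (nat_lit 4) (nat_lit 19) (nat_lit 4) (nat_lit 463) (nat_lit 306) (nat_lit 251)) (XT.nd (nat_lit 78) (nat_lit 0) (nat_lit 0) (XT.lf (nat_lit 0) (nat_lit 3407886070) (nat_lit 76) (nat_lit 21328398739) (nat_lit 76) (nat_lit 12063944151) (nat_lit 18) (nat_lit 4) (nat_lit 19) (nat_lit 5) (nat_lit 19) (nat_lit 4) (nat_lit 464) (nat_lit 306) (nat_lit 250)) (XT.lf (nat_lit 0) (nat_lit 16151541923)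 (nat_lit 76) (nat_lit 15443431349) (nat_lit 76) (nat_lit 6115254650) (nat_lit 18) (nat_lit 4) (nat_lit 19) (nat_lit 5) (nat_lit 19) (nat_lit 4) (nat_lit 465) (nat_lit 306) (nat_lit 249)))) (XT.nd (nat_lit 156) (nat_lit 0) (nat_lit 0) (XT.nd (nat_lit 78) (nat_lit 152) (nat_lit 0) (XT.lf (nat_lit 0) (nat_lit 29176796812) (nat_lit 76) (nat_lit 9431159236) (nat_lit 76) (nat_lit 41116410) (nat_lit 18) (nat_lit 4) (nat_lit 19) (nat_lit 5) (nat_lit 19) (nat_lit 4) (nat_lit 466) (nat_lit 306) (nat_lit 248)) (XT.lf (nat_lit 0) (nat_lit 2874286792) (nat_lit 76) (nat_lit 3196843167) (nat_lit 152) (nat_lit 33543846576) (nat_lit 16) (nat_lit 5) (nat_lit 17) (nat_lit 5) (nat_lit 18) (nat_lit 4) (nat_lit 467) (nat_lit 306) (nat_lit 247))) (XT.nd (nat_lit 78) (nat_lit 0) (nat_lit 0) (XT.lf (nat_lit 0) (nat_lit 12443117382) (nat_lit 152) (nat_lit 24952773699) (nat_lit 0) (nat_lit 3211639920) (nat_lit 16) (nat_lit 5) (nat_lit 18)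 (nat_lit 4) (nat_lit 16) (nat_lit 4) (nat_lit 468) (nat_lit 306) (nat_lit 246)) (XT.lf (nat_lit 0) (nat_lit 18988989850) (nat_lit 152) (nat_lit 12938846790) (nat_lit 0) (nat_lit 9702545135) (nat_lit 16) (nat_lit 5) (nat_lit 18) (nat_lit 4) (nat_lit 16) (nat_lit 4) (nat_lit 469) (nat_lit 306) (nat_lit 245)))))) (XT.nd (nat_lit 546) (nat_lit 228) (nat_lit 0) (XT.nd (nat_lit 234) (nat_lit 152) (nat_lit 0) (XT.nd (nat_lit 78) (nat_lit 76) (nat_lit 0) (XT.lf (nat_lit 0) (nat_lit 25683737045) (nat_lit 152) (nat_lit 657681399) (nat_lit 0) (nat_lit 16343926065) (nat_lit 16) (nat_lit 5) (nat_lit 18) (nat_lit 4) (nat_lit 16) (nat_lit 4) (nat_lit 470) (nat_lit 306) (nat_lit 244)) (XT.nd (nat_lit 78) (nat_lit 0) (nat_lit 0) (XT.lf (nat_lit 0) (nat_lit 12138315852) (nat_lit 76) (nat_lit 20511573812) (nat_lit 76) (nat_lit 11119950924) (nat_lit 15) (nat_lit 4) (nat_lit 16) (nat_lit 5) (nat_lit 16) (nat_lit 4) (nat_lit 471) (nat_lit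 306) (nat_lit 243)) (XT.lf (nat_lit 0) (nat_lit 25242096396) (nat_lit 76) (nat_lit 14543936006) (nat_lit 76) (nat_lit 5102010296) (nat_lit 15) (nat_lit 4) (nat_lit 16) (nat_lit 5) (nat_lit 16) (nat_lit 4) (nat_lit 472) (nat_lit 306) (nat_lit 242)))) (XT.nd (nat_lit 156) (nat_lit 0) (nat_lit 0) (XT.nd (nat_lit 78) (nat_lit 76) (nat_lit 0) (XT.lf (nat_lit 0) (nat_lit 1030326015) (nat_lit 152) (nat_lit 7399201591) (nat_lit 76) (nat_lit 37611290700) (nat_lit 14) (nat_lit 5) (nat_lit 16) (nat_lit 5) (nat_lit 15) (nat_lit 4) (nat_lit 473) (nat_lit 306) (nat_lit 241)) (XT.lf (nat_lit 0) (nat_lit 5180213035) (nat_lit 76) (nat_lit 2070226212) (nat_lit 152) (nat_lit 39976033124) (nat_lit 13) (nat_lit 5) (nat_lit 14) (nat_lit 5) (nat_lit 15) (nat_lit 4) (nat_lit 474) (nat_lit 306) (nat_lit 240))) (XT.nd (nat_lit 78) (nat_lit 0) (nat_lit 0) (XT.lf (nat_lit 0) (nat_lit 13732287697) (nat_lit 152) (nat_lit 30285928893) (nat_lit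 0) (nat_lit 4427226682) (nat_lit 13) (nat_lit 5) (nat_lit 15) (nat_lit 4) (nat_lit 13) (nat_lit 4) (nat_lit 475) (nat_lit 306) (nat_lit 239)) (XT.lf (nat_lit 0) (nat_lit 20386964149) (nat_lit 152) (nat_lit 18276157631) (nat_lit 0) (nat_lit 11038511476) (nat_lit 13) (nat_lit 5) (nat_lit 15) (nat_lit 4) (nat_lit 13) (nat_lit 4) (nat_lit 476) (nat_lit 306) (nat_lit 238))))) (XT.nd (nat_lit 234) (nat_lit 152) (nat_lit 0) (XT.nd (nat_lit 78) (nat_lit 76) (nat_lit 0) (XT.lf (nat_lit 0) (nat_lit 27200383087) (nat_lit 152) (nat_lit 5986551297) (nat_lit 0) (nat_lit 17809802592) (nat_lit 13) (nat_lit 5) (nat_lit 15) (nat_lit 4) (nat_lit 13) (nat_lit 4) (nat_lit 477) (nat_lit 306) (nat_lit 237)) (XT.nd (nat_lit 78) (nat_lit 0) (nat_lit 0) (XT.lf (nat_lit 0) (nat_lit 6724854739) (nat_lit 76) (nat_lit 27518286662) (nat_lit 76) (nat_lit 18086805369) (nat_lit 12) (nat_lit 4) (nat_lit 13) (nat_lit 5) (nat_lit 13) (nat_lit 4) (nat_lit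 478) (nat_lit 306) (nat_lit 236)) (XT.lf (nat_lit 0) (nat_lit 19862972594) (nat_lit 76) (nat_lit 21655368672) (nat_lit 76) (nat_lit 12184177866) (nat_lit 12) (nat_lit 4) (nat_lit 13) (nat_lit 5) (nat_lit 13) (nat_lit 4) (nat_lit 479) (nat_lit 306) (nat_lit 235)))) (XT.nd (nat_lit 156) (nat_lit 76) (nat_lit 0) (XT.nd (nat_lit 78) (nat_lit 76) (nat_lit 0) (XT.lf (nat_lit 0) (nat_lit 33320138065) (nat_lit 76) (nat_lit 15653509907) (nat_lit 76) (nat_lit 6143766175) (nat_lit 12) (nat_lit 4) (nat_lit 13) (nat_lit 5) (nat_lit 13) (nat_lit 4) (nat_lit 480) (nat_lit 306) (nat_lit 234)) (XT.lf (nat_lit 0) (nat_lit 38932892) (nat_lit 152) (nat_lit 9468139984) (nat_lit 76) (nat_lit 47068783804) (nat_lit 11) (nat_lit 5) (nat_lit 13) (nat_lit 5) (nat_lit 12) (nat_lit 4) (nat_lit 481) (nat_lit 306) (nat_lit 233))) (XT.nd (nat_lit 78) (nat_lit 0) (nat_lit 0) (XT.lf (nat_lit 0) (nat_lit 3160198900) (nat_lit 76) (nat_lit 3117491979)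 (nat_lit 152) (nat_lit 51798715804) (nat_lit 10) (nat_lit 5) (nat_lit 11) (nat_lit 5) (nat_lit 12) (nat_lit 4) (nat_lit 482) (nat_lit 306) (nat_lit 232)) (XT.lf (nat_lit 0) (nat_lit 12797189550) (nat_lit 152) (nat_lit 43363423538) (nat_lit 0) (nat_lit 3458553654) (nat_lit 10) (nat_lit 5) (nat_lit 12) (nat_lit 4) (nat_lit 10) (nat_lit 4) (nat_lit 483) (nat_lit 306) (nat_lit 231))))))) (XT.nd (nat_lit 47424) (nat_lit 0) (nat_lit 3268) (XT.nd (nat_lit 546) (nat_lit 76) (nat_lit 0) (XT.nd (nat_lit 234) (nat_lit 76) (nat_lit 0) (XT.nd (nat_lit 78) (nat_lit 0) (nat_lit 0) (XT.lf (nat_lit 0) (nat_lit 19507921698) (nat_lit 152) (nat_lit 31564389609) (nat_lit 0) (nat_lit 10136029710) (nat_lit 10) (nat_lit 5) (nat_lit 12) (nat_lit 4) (nat_lit 10) (nat_lit 4) (nat_lit 484) (nat_lit 306) (nat_lit 230)) (XT.nd (nat_lit 78) (nat_lit 0) (nat_lit 0) (XT.lf (nat_lit 0) (nat_lit 26385783829) (nat_lit 152) (nat_lit 19478828920) (nat_lit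 0) (nat_lit 16981604373) (nat_lit 10) (nat_lit 5) (nat_lit 12) (nat_lit 4) (nat_lit 10) (nat_lit 4) (nat_lit 485) (nat_lit 306) (nat_lit 229)) (XT.lf (nat_lit 0) (nat_lit 33436785726) (nat_lit 152) (nat_lit 7096181273) (nat_lit 0) (nat_lit 24001259214) (nat_lit 10) (nat_lit 5) (nat_lit 12) (nat_lit 4) (nat_lit 10) (nat_lit 4) (nat_lit 486) (nat_lit 306) (nat_lit 228)))) (XT.nd (nat_lit 156) (nat_lit 0) (nat_lit 0) (XT.nd (nat_lit 78) (nat_lit 0) (nat_lit 0) (XT.lf (nat_lit 0) (nat_lit 5705712115) (nat_lit 76) (nat_lit 35016223139) (nat_lit 76) (nat_lit 25550262591) (nat_lit 9) (nat_lit 4) (nat_lit 10) (nat_lit 5) (nat_lit 10) (nat_lit 4) (nat_lit 487) (nat_lit 306) (nat_lit 227)) (XT.lf (nat_lit 0) (nat_lit 18974177644) (nat_lit 76) (nat_lit 29291223525) (nat_lit 76) (nat_lit 19795715371) (nat_lit 9) (nat_lit 4) (nat_lit 10) (nat_lit 5) (nat_lit 10) (nat_lit 4) (nat_lit 488) (nat_lit 306) (nat_lit 226))) (XT.nd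 (nat_lit 78) (nat_lit 0) (nat_lit 0) (XT.lf (nat_lit 0) (nat_lit 32579581198) (nat_lit 76) (nat_lit 23424623249) (nat_lit 76) (nat_lit 13900428098) (nat_lit 9) (nat_lit 4) (nat_lit 10) (nat_lit 5) (nat_lit 10) (nat_lit 4) (nat_lit 489) (nat_lit 306) (nat_lit 225)) (XT.lf (nat_lit 0) (nat_lit 46533810992) (nat_lit 76) (nat_lit 17411296155) (nat_lit 76) (nat_lit 7859249550) (nat_lit 9) (nat_lit 4) (nat_lit 10) (nat_lit 5) (nat_lit 10) (nat_lit 4) (nat_lit 490) (nat_lit 306) (nat_lit 224))))) (XT.nd (nat_lit 46566) (nat_lit 0) (nat_lit 5168) (XT.nd (nat_lit 78) (nat_lit 76) (nat_lit 0) (XT.lf (nat_lit 0) (nat_lit 60849060043) (nat_lit 76) (nat_lit 11245987879) (nat_lit 76) (nat_lit 1666901028) (nat_lit 9) (nat_lit 4) (nat_lit 10) (nat_lit 5) (nat_lit 10) (nat_lit 4) (nat_lit 491) (nat_lit 306) (nat_lit 223)) (XT.nd (nat_lit 46410) (nat_lit 0) (nat_lit 6004) (XT.lf (nat_lit 0) (nat_lit 4590665021) (nat_lit 152) (nat_lit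 286289522) (nat_lit 76) (nat_lit 70900815083) (nat_lit 8) (nat_lit 5) (nat_lit 10) (nat_lit 5) (nat_lit 9) (nat_lit 4) (nat_lit 492) (nat_lit 306) (nat_lit 222)) (XT.lf (nat_lit 0) (nat_lit 2229050318) (nat_lit 228) (nat_lit 1310666365) (nat_lit 0) (nat_lit 2229050318) (nat_lit 87) (nat_lit 5) (nat_lit 90) (nat_lit 4) (nat_lit 87) (nat_lit 4) (nat_lit 406) (nat_lit 307) (nat_lit 307)))) (XT.nd (nat_lit 156) (nat_lit 380) (nat_lit 0) (XT.nd (nat_lit 78) (nat_lit 228) (nat_lit 0) (XT.lf (nat_lit 0) (nat_lit 7064526438) (nat_lit 228) (nat_lit 2608140491) (nat_lit 228) (nat_lit 2040275907) (nat_lit 84) (nat_lit 4) (nat_lit 87) (nat_lit 5) (nat_lit 87) (nat_lit 4) (nat_lit 407) (nat_lit 307) (nat_lit 306)) (XT.lf (nat_lit 0) (nat_lit 3072517898) (nat_lit 228) (nat_lit 6834757468) (nat_lit 0) (nat_lit 1985926227) (nat_lit 81) (nat_lit 5) (nat_lit 84) (nat_lit 4) (nat_lit 81) (nat_lit 4) (nat_lit 408) (nat_lit 307) (nat_lit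 305))) (XT.nd (nat_lit 78) (nat_lit 228) (nat_lit 0) (XT.lf (nat_lit 0) (nat_lit 2891691836) (nat_lit 152) (nat_lit 5396567451) (nat_lit 152) (nat_lit 3790299242) (nat_lit 79) (nat_lit 4) (nat_lit 81) (nat_lit 5) (nat_lit 81) (nat_lit 4) (nat_lit 409) (nat_lit 307) (nat_lit 304)) (XT.lf (nat_lit 0) (nat_lit 587134979) (nat_lit 152) (nat_lit 741901235) (nat_lit 228) (nat_lit 10941096137) (nat_lit 76) (nat_lit 5) (nat_lit 78) (nat_lit 5) (nat_lit 79) (nat_lit 4) (nat_lit 410) (nat_lit 307) (nat_lit 303)))))) (XT.nd (nat_lit 546) (nat_lit 988) (nat_lit 0) (XT.nd (nat_lit 234) (nat_lit 532) (nat_lit 0) (XT.nd (nat_lit 78) (nat_lit 380) (nat_lit 0) (XT.lf (nat_lit 0) (nat_lit 6548832573) (nat_lit 228) (nat_lit 1892889299) (nat_lit 0) (nat_lit 4023926248) (nat_lit 76) (nat_lit 5) (nat_lit 79) (nat_lit 4) (nat_lit 76) (nat_lit 4) (nat_lit 411) (nat_lit 307) (nat_lit 302)) (XT.nd (nat_lit 78) (nat_lit 228) (nat_lit 0)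 (XT.lf (nat_lit 0) (nat_lit 8154845672) (nat_lit 152) (nat_lit 3749723776) (nat_lit 152) (nat_lit 763091578) (nat_lit 74) (nat_lit 4) (nat_lit 76) (nat_lit 5) (nat_lit 76) (nat_lit 4) (nat_lit 412) (nat_lit 307) (nat_lit 301)) (XT.lf (nat_lit 0) (nat_lit 4433788414) (nat_lit 228) (nat_lit 7342404789) (nat_lit 0) (nat_lit 1098924585) (nat_lit 71) (nat_lit 5) (nat_lit 74) (nat_lit 4) (nat_lit 71) (nat_lit 4) (nat_lit 413) (nat_lit 307) (nat_lit 300)))) (XT.nd (nat_lit 156) (nat_lit 304) (nat_lit 0) (XT.nd (nat_lit 78) (nat_lit 76) (nat_lit 0) (XT.lf (nat_lit 0) (nat_lit 2703638320) (nat_lit 152) (nat_lit 7071123495) (nat_lit 152) (nat_lit 3313715086) (nat_lit 69) (nat_lit 4) (nat_lit 71) (nat_lit 5) (nat_lit 71) (nat_lit 4) (nat_lit 414) (nat_lit 307) (nat_lit 299)) (XT.lf (nat_lit 0) (nat_lit 1898832523) (nat_lit 228) (nat_lit 313015844) (nat_lit 76) (nat_lit 11096746306) (nat_lit 68) (nat_lit 5) (nat_lit 71) (nat_lit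 5) (nat_lit 69) (nat_lit 4) (nat_lit 415) (nat_lit 307) (nat_lit 298))) (XT.nd (nat_lit 78) (nat_lit 152) (nat_lit 0) (XT.lf (nat_lit 0) (nat_lit 7222715319) (nat_lit 228) (nat_lit 3521210608) (nat_lit 0) (nat_lit 2789769047) (nat_lit 66) (nat_lit 5) (nat_lit 69) (nat_lit 4) (nat_lit 66) (nat_lit 4) (nat_lit 416) (nat_lit 307) (nat_lit 297)) (XT.lf (nat_lit 0) (nat_lit 6815888749) (nat_lit 152) (nat_lit 5879189054) (nat_lit 152) (nat_lit 1070817394) (nat_lit 64) (nat_lit 4) (nat_lit 66) (nat_lit 5) (nat_lit 66) (nat_lit 4) (nat_lit 417) (nat_lit 307) (nat_lit 296))))) (XT.nd (nat_lit 312) (nat_lit 456) (nat_lit 0) (XT.nd (nat_lit 156) (nat_lit 304) (nat_lit 0) (XT.nd (nat_lit 78) (nat_lit 0) (nat_lit 0) (XT.lf (nat_lit 0) (nat_lit 3371001876) (nat_lit 152) (nat_lit 837798223) (nat_lit 228) (nat_lit 9796022581) (nat_lit 61) (nat_lit 5) (nat_lit 63) (nat_lit 5) (nat_lit 64) (nat_lit 4) (nat_lit 418) (nat_lit 307)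 (nat_lit 295)) (XT.lf (nat_lit 0) (nat_lit 9636805349) (nat_lit 228) (nat_lit 342416400) (nat_lit 0) (nat_lit 4271041503) (nat_lit 61) (nat_lit 5) (nat_lit 64) (nat_lit 4) (nat_lit 61) (nat_lit 4) (nat_lit 419) (nat_lit 307) (nat_lit 294))) (XT.nd (nat_lit 78) (nat_lit 76) (nat_lit 0) (XT.lf (nat_lit 0) (nat_lit 719277652) (nat_lit 228) (nat_lit 4239190806) (nat_lit 76) (nat_lit 9544133095) (nat_lit 58) (nat_lit 5) (nat_lit 61) (nat_lit 5) (nat_lit 59) (nat_lit 4) (nat_lit 420) (nat_lit 307) (nat_lit 293)) (XT.lf (nat_lit 0) (nat_lit 6087886871) (nat_lit 152) (nat_lit 8434053165) (nat_lit 0) (nat_lit 240149320) (nat_lit 57) (nat_lit 5) (nat_lit 59) (nat_lit 4) (nat_lit 57) (nat_lit 4) (nat_lit 421) (nat_lit 307) (nat_lit 292)))) (XT.nd (nat_lit 156) (nat_lit 228) (nat_lit 0) (XT.nd (nat_lit 78) (nat_lit 76) (nat_lit 0) (XT.lf (nat_lit 0) (nat_lit 2082456235) (nat_lit 152) (nat_lit 9549733609) (nat_lit 152) (nat_lit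 3396740862) (nat_lit 55) (nat_lit 4) (nat_lit 57) (nat_lit 5) (nat_lit 57) (nat_lit 4) (nat_lit 422) (nat_lit 307) (nat_lit 291)) (XT.lf (nat_lit 0) (nat_lit 1987729711) (nat_lit 228) (nat_lit 2414265699) (nat_lit 76) (nat_lit 10901547160) (nat_lit 54) (nat_lit 5) (nat_lit 57) (nat_lit 5) (nat_lit 55) (nat_lit 4) (nat_lit 423) (nat_lit 307) (nat_lit 290))) (XT.nd (nat_lit 78) (nat_lit 152) (nat_lit 0) (XT.lf (nat_lit 0) (nat_lit 7460425858) (nat_lit 152) (nat_lit 7205553973) (nat_lit 0) (nat_lit 919562448) (nat_lit 53) (nat_lit 5) (nat_lit 55) (nat_lit 4) (nat_lit 53) (nat_lit 4) (nat_lit 424) (nat_lit 307) (nat_lit 289)) (XT.lf (nat_lit 0) (nat_lit 3522145498) (nat_lit 152) (nat_lit 9582855658) (nat_lit 152) (nat_lit 2770776960) (nat_lit 51) (nat_lit 4) (nat_lit 53) (nat_lit 5) (nat_lit 53) (nat_lit 4) (nat_lit 425) (nat_lit 307) (nat_lit 288))))))))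
noncomputable def xc33 : XT := (XT.nd (nat_lit 2262) (nat_lit 1064) (nat_lit 0) (XT.nd (nat_lit 1092) (nat_lit 836) (nat_lit 0) (XT.nd (nat_lit 546) (nat_lit 532) (nat_lit 0) (XT.nd (nat_lit 234) (nat_lit 380) (nat_lit 0) (XT.nd (nat_lit 78) (nat_lit 228) (nat_lit 0) (XT.lf (nat_lit 0) (nat_lit 2669914348) (nat_lit 228) (nat_lit 1655468384) (nat_lit 76) (nat_lit 11849175488) (nat_lit 50) (nat_lit 5) (nat_lit 53) (nat_lit 5) (nat_lit 51) (nat_lit 4) (nat_lit 426) (nat_lit 307) (nat_lit 287)) (XT.nd (nat_lit 78) (nat_lit 152) (nat_lit 0) (XT.lf (nat_lit 0) (nat_lit 8227413970) (nat_lit 152) (nat_lit 7143894414) (nat_lit 0) (nat_lit 1109898501) (nat_lit 49) (nat_lit 5) (nat_lit 51) (nat_lit 4) (nat_lit 49) (nat_lit 4) (nat_lit 427) (nat_lit 307) (nat_lit 286)) (XT.lf (nat_lit 0) (nat_lit 3757171977) (nat_lit 152) (nat_lit 10199118259) (nat_lit 152) (nat_lit 2840631521) (nat_lit 47) (nat_lit 4) (nat_lit 49) (nat_lit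 5) (nat_lit 49) (nat_lit 4) (nat_lit 428) (nat_lit 307) (nat_lit 285)))) (XT.nd (nat_lit 156) (nat_lit 228) (nat_lit 0) (XT.nd (nat_lit 78) (nat_lit 76) (nat_lit 0) (XT.lf (nat_lit 0) (nat_lit 2663372423) (nat_lit 228) (nat_lit 2185793408) (nat_lit 76) (nat_lit 12272705006) (nat_lit 46) (nat_lit 5) (nat_lit 49) (nat_lit 5) (nat_lit 47) (nat_lit 4) (nat_lit 429) (nat_lit 307) (nat_lit 284)) (XT.lf (nat_lit 0) (nat_lit 8280038915) (nat_lit 152) (nat_lit 8487336745) (nat_lit 0) (nat_lit 688215651) (nat_lit 45) (nat_lit 5) (nat_lit 47) (nat_lit 4) (nat_lit 45) (nat_lit 4) (nat_lit 430) (nat_lit 307) (nat_lit 283))) (XT.nd (nat_lit 78) (nat_lit 76) (nat_lit 0) (XT.lf (nat_lit 0) (nat_lit 2538516270) (nat_lit 152) (nat_lit 11533269217) (nat_lit 152) (nat_lit 3727346101) (nat_lit 43) (nat_lit 4) (nat_lit 45) (nat_lit 5) (nat_lit 45) (nat_lit 4) (nat_lit 431) (nat_lit 307) (nat_lit 282)) (XT.lf (nat_lit 0) (nat_lit 1846086772)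 (nat_lit 228) (nat_lit 4266230902) (nat_lit 76) (nat_lit 12040165781) (nat_lit 42) (nat_lit 5) (nat_lit 45) (nat_lit 5) (nat_lit 43) (nat_lit 4) (nat_lit 432) (nat_lit 307) (nat_lit 281))))) (XT.nd (nat_lit 234) (nat_lit 228) (nat_lit 0) (XT.nd (nat_lit 78) (nat_lit 228) (nat_lit 0) (XT.lf (nat_lit 0) (nat_lit 6996451971) (nat_lit 76) (nat_lit 497168062) (nat_lit 152) (nat_lit 11022259431) (nat_lit 41) (nat_lit 5) (nat_lit 42) (nat_lit 5) (nat_lit 43) (nat_lit 4) (nat_lit 433) (nat_lit 307) (nat_lit 280)) (XT.nd (nat_lit 78) (nat_lit 228) (nat_lit 0) (XT.lf (nat_lit 0) (nat_lit 13319694887) (nat_lit 152) (nat_lit 417051498) (nat_lit 0) (nat_lit 5153162469) (nat_lit 41) (nat_lit 5) (nat_lit 43) (nat_lit 4) (nat_lit 41) (nat_lit 4) (nat_lit 434) (nat_lit 307) (nat_lit 279)) (XT.lf (nat_lit 0) (nat_lit 73421177) (nat_lit 228) (nat_lit 8202171841) (nat_lit 76) (nat_lit 10998690279) (nat_lit 38) (nat_lit 5) (nat_lit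 41) (nat_lit 5) (nat_lit 39) (nat_lit 4) (nat_lit 435) (nat_lit 307) (nat_lit 278)))) (XT.nd (nat_lit 156) (nat_lit 152) (nat_lit 0) (XT.nd (nat_lit 78) (nat_lit 0) (nat_lit 0) (XT.lf (nat_lit 0) (nat_lit 3092790562) (nat_lit 76) (nat_lit 2632979215) (nat_lit 152) (nat_lit 13944228420) (nat_lit 37) (nat_lit 5) (nat_lit 38) (nat_lit 5) (nat_lit 39) (nat_lit 4) (nat_lit 436) (nat_lit 307) (nat_lit 277)) (XT.lf (nat_lit 0) (nat_lit 11579476573) (nat_lit 152) (nat_lit 5368754862) (nat_lit 0) (nat_lit 3128403893) (nat_lit 37) (nat_lit 5) (nat_lit 39) (nat_lit 4) (nat_lit 37) (nat_lit 4) (nat_lit 437) (nat_lit 307) (nat_lit 276))) (XT.nd (nat_lit 78) (nat_lit 76) (nat_lit 0) (XT.lf (nat_lit 0) (nat_lit 6116800783) (nat_lit 76) (nat_lit 11496845951) (nat_lit 76) (nat_lit 2881683561) (nat_lit 36) (nat_lit 4) (nat_lit 37) (nat_lit 5) (nat_lit 37) (nat_lit 4) (nat_lit 438) (nat_lit 307) (nat_lit 275)) (XT.lf (nat_lit 0)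 (nat_lit 2820449658) (nat_lit 152) (nat_lit 3048959980) (nat_lit 76) (nat_lit 15057098750) (nat_lit 35) (nat_lit 5) (nat_lit 37) (nat_lit 5) (nat_lit 36) (nat_lit 4) (nat_lit 439) (nat_lit 307) (nat_lit 274)))))) (XT.nd (nat_lit 546) (nat_lit 456) (nat_lit 0) (XT.nd (nat_lit 234) (nat_lit 228) (nat_lit 0) (XT.nd (nat_lit 78) (nat_lit 76) (nat_lit 0) (XT.lf (nat_lit 0) (nat_lit 8611915020) (nat_lit 76) (nat_lit 29000297) (nat_lit 152) (nat_lit 12728698860) (nat_lit 34) (nat_lit 5) (nat_lit 35) (nat_lit 5) (nat_lit 36) (nat_lit 4) (nat_lit 440) (nat_lit 307) (nat_lit 273)) (XT.nd (nat_lit 78) (nat_lit 76) (nat_lit 0) (XT.lf (nat_lit 0) (nat_lit 14647218256) (nat_lit 152) (nat_lit 1346106267) (nat_lit 0) (nat_lit 5832355727) (nat_lit 34) (nat_lit 5) (nat_lit 36) (nat_lit 4) (nat_lit 34) (nat_lit 4) (nat_lit 441) (nat_lit 307) (nat_lit 272)) (XT.lf (nat_lit 0) (nat_lit 10467849779) (nat_lit 76) (nat_lit 10391608766)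 (nat_lit 76) (nat_lit 1435201012) (nat_lit 33) (nat_lit 4) (nat_lit 34) (nat_lit 5) (nat_lit 34) (nat_lit 4) (nat_lit 442) (nat_lit 307) (nat_lit 271)))) (XT.nd (nat_lit 156) (nat_lit 76) (nat_lit 0) (XT.nd (nat_lit 78) (nat_lit 76) (nat_lit 0) (XT.lf (nat_lit 0) (nat_lit 4331574560) (nat_lit 152) (nat_lit 300733944) (nat_lit 76) (nat_lit 18145951846) (nat_lit 32) (nat_lit 5) (nat_lit 34) (nat_lit 5) (nat_lit 33) (nat_lit 4) (nat_lit 443) (nat_lit 307) (nat_lit 270)) (XT.lf (nat_lit 0) (nat_lit 10294642673) (nat_lit 152) (nat_lit 11643592235) (nat_lit 0) (nat_lit 1336147283) (nat_lit 31) (nat_lit 5) (nat_lit 33) (nat_lit 4) (nat_lit 31) (nat_lit 4) (nat_lit 444) (nat_lit 307) (nat_lit 269))) (XT.nd (nat_lit 78) (nat_lit 76) (nat_lit 0) (XT.lf (nat_lit 0) (nat_lit 16412792038) (nat_lit 152) (nat_lit 44777709) (nat_lit 0) (nat_lit 7328535549) (nat_lit 31) (nat_lit 5) (nat_lit 33) (nat_lit 4) (nat_lit 31) (nat_lit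 4) (nat_lit 445) (nat_lit 307) (nat_lit 268)) (XT.lf (nat_lit 0) (nat_lit 12000236127) (nat_lit 76) (nat_lit 10758979948) (nat_lit 76) (nat_lit 1552625305) (nat_lit 30) (nat_lit 4) (nat_lit 31) (nat_lit 5) (nat_lit 31) (nat_lit 4) (nat_lit 446) (nat_lit 307) (nat_lit 267))))) (XT.nd (nat_lit 312) (nat_lit 228) (nat_lit 0) (XT.nd (nat_lit 156) (nat_lit 76) (nat_lit 0) (XT.nd (nat_lit 78) (nat_lit 76) (nat_lit 0) (XT.lf (nat_lit 0) (nat_lit 4285892169) (nat_lit 152) (nat_lit 624535436) (nat_lit 76) (nat_lit 19943746725) (nat_lit 29) (nat_lit 5) (nat_lit 31) (nat_lit 5) (nat_lit 30) (nat_lit 4) (nat_lit 447) (nat_lit 307) (nat_lit 266)) (XT.lf (nat_lit 0) (nat_lit 10321646571) (nat_lit 152) (nat_lit 13932461961) (nat_lit 0) (nat_lit 1156611851) (nat_lit 28) (nat_lit 5) (nat_lit 30) (nat_lit 4) (nat_lit 28) (nat_lit 4) (nat_lit 448) (nat_lit 307) (nat_lit 265))) (XT.nd (nat_lit 78) (nat_lit 76) (nat_lit 0) (XT.lf (nat_lit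 0) (nat_lit 16525093501) (nat_lit 152) (nat_lit 2207697401) (nat_lit 0) (nat_lit 7251576153) (nat_lit 28) (nat_lit 5) (nat_lit 30) (nat_lit 4) (nat_lit 28) (nat_lit 4) (nat_lit 449) (nat_lit 307) (nat_lit 264)) (XT.lf (nat_lit 0) (nat_lit 9934332960) (nat_lit 76) (nat_lit 13009429820) (nat_lit 76) (nat_lit 3630589531) (nat_lit 27) (nat_lit 4) (nat_lit 28) (nat_lit 5) (nat_lit 28) (nat_lit 4) (nat_lit 450) (nat_lit 307) (nat_lit 263)))) (XT.nd (nat_lit 156) (nat_lit 76) (nat_lit 0) (XT.nd (nat_lit 78) (nat_lit 76) (nat_lit 0) (XT.lf (nat_lit 0) (nat_lit 2282847321) (nat_lit 152) (nat_lit 4846915508) (nat_lit 76) (nat_lit 20052906663) (nat_lit 26) (nat_lit 5) (nat_lit 28) (nat_lit 5) (nat_lit 27) (nat_lit 4) (nat_lit 451) (nat_lit 307) (nat_lit 262)) (XT.lf (nat_lit 0) (nat_lit 7281466312) (nat_lit 76) (nat_lit 1024858246) (nat_lit 152) (nat_lit 19501667500) (nat_lit 25) (nat_lit 5) (nat_lit 26) (nat_lit 5) (nat_lit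 27) (nat_lit 4) (nat_lit 452) (nat_lit 307) (nat_lit 261))) (XT.nd (nat_lit 78) (nat_lit 76) (nat_lit 0) (XT.lf (nat_lit 0) (nat_lit 14546257260) (nat_lit 152) (nat_lit 8753400328) (nat_lit 0) (nat_lit 5151346625) (nat_lit 25) (nat_lit 5) (nat_lit 27) (nat_lit 4) (nat_lit 25) (nat_lit 4) (nat_lit 453) (nat_lit 307) (nat_lit 260)) (XT.lf (nat_lit 0) (nat_lit 3306147435) (nat_lit 76) (nat_lit 17646769465) (nat_lit 76) (nat_lit 8161006337) (nat_lit 24) (nat_lit 4) (nat_lit 25) (nat_lit 5) (nat_lit 25) (nat_lit 4) (nat_lit 454) (nat_lit 307) (nat_lit 259))))))) (XT.nd (nat_lit 1092) (nat_lit 456) (nat_lit 0) (XT.nd (nat_lit 546) (nat_lit 304) (nat_lit 0) (XT.nd (nat_lit 234) (nat_lit 152) (nat_lit 0) (XT.nd (nat_lit 78) (nat_lit 152) (nat_lit 0) (XT.lf (nat_lit 0) (nat_lit 15786966243) (nat_lit 76) (nat_lit 11791467797) (nat_lit 76) (nat_lit 2217498364) (nat_lit 24) (nat_lit 4) (nat_lit 25) (nat_lit 5) (nat_lit 25)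 (nat_lit 4) (nat_lit 455) (nat_lit 307) (nat_lit 258)) (XT.nd (nat_lit 78) (nat_lit 76) (nat_lit 0) (XT.lf (nat_lit 0) (nat_lit 3767595600) (nat_lit 152) (nat_lit 2011387553) (nat_lit 76) (nat_lit 24720110908) (nat_lit 23) (nat_lit 5) (nat_lit 25) (nat_lit 5) (nat_lit 24) (nat_lit 4) (nat_lit 456) (nat_lit 307) (nat_lit 257)) (XT.lf (nat_lit 0) (nat_lit 9933654912) (nat_lit 152) (nat_lit 20812984846) (nat_lit 0) (nat_lit 474674792) (nat_lit 22) (nat_lit 5) (nat_lit 24) (nat_lit 4) (nat_lit 22) (nat_lit 4) (nat_lit 457) (nat_lit 307) (nat_lit 256)))) (XT.nd (nat_lit 156) (nat_lit 76) (nat_lit 0) (XT.nd (nat_lit 78) (nat_lit 76) (nat_lit 0) (XT.lf (nat_lit 0) (nat_lit 16303752822) (nat_lit 152) (nat_lit 8894476631) (nat_lit 0) (nat_lit 6766402543) (nat_lit 22) (nat_lit 5) (nat_lit 24) (nat_lit 4) (nat_lit 22) (nat_lit 4) (nat_lit 458) (nat_lit 307) (nat_lit 255)) (XT.lf (nat_lit 0) (nat_lit 3335672468) (nat_lit 76)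 (nat_lit 19504381643) (nat_lit 76) (nat_lit 9890943831) (nat_lit 21) (nat_lit 4) (nat_lit 22) (nat_lit 5) (nat_lit 22) (nat_lit 4) (nat_lit 459) (nat_lit 307) (nat_lit 254))) (XT.nd (nat_lit 78) (nat_lit 76) (nat_lit 0) (XT.lf (nat_lit 0) (nat_lit 16005137033) (nat_lit 76) (nat_lit 13600762654) (nat_lit 76) (nat_lit 3913453451) (nat_lit 21) (nat_lit 4) (nat_lit 22) (nat_lit 5) (nat_lit 22) (nat_lit 4) (nat_lit 460) (nat_lit 307) (nat_lit 253)) (XT.lf (nat_lit 0) (nat_lit 2144322028) (nat_lit 152) (nat_lit 5406055283) (nat_lit 76) (nat_lit 26781994468) (nat_lit 20) (nat_lit 5) (nat_lit 22) (nat_lit 5) (nat_lit 21) (nat_lit 4) (nat_lit 461) (nat_lit 307) (nat_lit 252))))) (XT.nd (nat_lit 234) (nat_lit 228) (nat_lit 0) (XT.nd (nat_lit 78) (nat_lit 0) (nat_lit 0) (XT.lf (nat_lit 0) (nat_lit 7059686252) (nat_lit 76) (nat_lit 1259696074) (nat_lit 152) (nat_lit 26848811763) (nat_lit 19) (nat_lit 5) (nat_lit 20) (nat_lit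 5) (nat_lit 21) (nat_lit 4) (nat_lit 462) (nat_lit 307) (nat_lit 251)) (XT.nd (nat_lit 78) (nat_lit 0) (nat_lit 0) (XT.lf (nat_lit 0) (nat_lit 14731426907) (nat_lit 152) (nat_lit 16172708998) (nat_lit 0) (nat_lit 5123404907) (nat_lit 19) (nat_lit 5) (nat_lit 21) (nat_lit 4) (nat_lit 19) (nat_lit 4) (nat_lit 463) (nat_lit 307) (nat_lit 250)) (XT.lf (nat_lit 0) (nat_lit 21296291867) (nat_lit 152) (nat_lit 3993016204) (nat_lit 0) (nat_lit 11624547756) (nat_lit 19) (nat_lit 5) (nat_lit 21) (nat_lit 4) (nat_lit 19) (nat_lit 4) (nat_lit 464) (nat_lit 307) (nat_lit 249)))) (XT.nd (nat_lit 156) (nat_lit 152) (nat_lit 0) (XT.nd (nat_lit 78) (nat_lit 0) (nat_lit 0) (XT.lf (nat_lit 0) (nat_lit 8621559644) (nat_lit 76) (nat_lit 19468920591) (nat_lit 76) (nat_lit 9735310353) (nat_lit 18) (nat_lit 4) (nat_lit 19) (nat_lit 5) (nat_lit 19) (nat_lit 4) (nat_lit 465) (nat_lit 307) (nat_lit 248)) (XT.lf (nat_lit 0) (nat_lit 21598648366)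 (nat_lit 76) (nat_lit 13480200201) (nat_lit 76) (nat_lit 3686525762) (nat_lit 18) (nat_lit 4) (nat_lit 19) (nat_lit 5) (nat_lit 19) (nat_lit 4) (nat_lit 466) (nat_lit 307) (nat_lit 247))) (XT.nd (nat_lit 78) (nat_lit 76) (nat_lit 0) (XT.lf (nat_lit 0) (nat_lit 2445091408) (nat_lit 152) (nat_lit 4888453637) (nat_lit 76) (nat_lit 32400338276) (nat_lit 17) (nat_lit 5) (nat_lit 19) (nat_lit 5) (nat_lit 18) (nat_lit 4) (nat_lit 467) (nat_lit 307) (nat_lit 246)) (XT.lf (nat_lit 0) (nat_lit 7780377177) (nat_lit 76) (nat_lit 933407377) (nat_lit 152) (nat_lit 32015752770) (nat_lit 16) (nat_lit 5) (nat_lit 17) (nat_lit 5) (nat_lit 18) (nat_lit 4) (nat_lit 468) (nat_lit 307) (nat_lit 245)))))) (XT.nd (nat_lit 546) (nat_lit 228) (nat_lit 0) (XT.nd (nat_lit 234) (nat_lit 152) (nat_lit 0) (XT.nd (nat_lit 78) (nat_lit 76) (nat_lit 0) (XT.lf (nat_lit 0) (nat_lit 15227284811) (nat_lit 152) (nat_lit 20972161900) (nat_lit 0) (nat_lit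 5553913238) (nat_lit 16) (nat_lit 5) (nat_lit 18) (nat_lit 4) (nat_lit 16) (nat_lit 4) (nat_lit 469) (nat_lit 307) (nat_lit 244)) (XT.nd (nat_lit 78) (nat_lit 76) (nat_lit 0) (XT.lf (nat_lit 0) (nat_lit 21899313824) (nat_lit 152) (nat_lit 8735560728) (nat_lit 0) (nat_lit 12174130343) (nat_lit 16) (nat_lit 5) (nat_lit 18) (nat_lit 4) (nat_lit 16) (nat_lit 4) (nat_lit 470) (nat_lit 307) (nat_lit 243)) (XT.lf (nat_lit 0) (nat_lit 3855543570) (nat_lit 76) (nat_lit 24908247312) (nat_lit 76) (nat_lit 15132761007) (nat_lit 15) (nat_lit 4) (nat_lit 16) (nat_lit 5) (nat_lit 16) (nat_lit 4) (nat_lit 471) (nat_lit 307) (nat_lit 242)))) (XT.nd (nat_lit 156) (nat_lit 152) (nat_lit 0) (XT.nd (nat_lit 78) (nat_lit 0) (nat_lit 0) (XT.lf (nat_lit 0) (nat_lit 16916482061) (nat_lit 76) (nat_lit 18961625670) (nat_lit 76) (nat_lit 9137301673) (nat_lit 15) (nat_lit 4) (nat_lit 16) (nat_lit 5) (nat_lit 16) (nat_lit 4) (nat_lit 472) (nat_lit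 307) (nat_lit 241)) (XT.lf (nat_lit 0) (nat_lit 30284812427) (nat_lit 76) (nat_lit 12878025585) (nat_lit 76) (nat_lit 3006286353) (nat_lit 15) (nat_lit 4) (nat_lit 16) (nat_lit 5) (nat_lit 16) (nat_lit 4) (nat_lit 473) (nat_lit 307) (nat_lit 240))) (XT.nd (nat_lit 78) (nat_lit 76) (nat_lit 0) (XT.lf (nat_lit 0) (nat_lit 3201917709) (nat_lit 152) (nat_lit 3417880490) (nat_lit 76) (nat_lit 40737964934) (nat_lit 14) (nat_lit 5) (nat_lit 16) (nat_lit 5) (nat_lit 15) (nat_lit 4) (nat_lit 474) (nat_lit 307) (nat_lit 239)) (XT.lf (nat_lit 0) (nat_lit 9497707779) (nat_lit 76) (nat_lit 88585140) (nat_lit 152) (nat_lit 38993365870) (nat_lit 13) (nat_lit 5) (nat_lit 14) (nat_lit 5) (nat_lit 15) (nat_lit 4) (nat_lit 475) (nat_lit 307) (nat_lit 238))))) (XT.nd (nat_lit 312) (nat_lit 152) (nat_lit 0) (XT.nd (nat_lit 156) (nat_lit 76) (nat_lit 0) (XT.nd (nat_lit 78) (nat_lit 0) (nat_lit 0) (XT.lf (nat_lit 0) (nat_lit 16219971133)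 (nat_lit 152) (nat_lit 27110962729) (nat_lit 0) (nat_lit 6505545401) (nat_lit 13) (nat_lit 5) (nat_lit 15) (nat_lit 4) (nat_lit 13) (nat_lit 4) (nat_lit 476) (nat_lit 307) (nat_lit 237)) (XT.lf (nat_lit 0) (nat_lit 23013830165) (nat_lit 152) (nat_lit 14859836506) (nat_lit 0) (nat_lit 13258503635) (nat_lit 13) (nat_lit 5) (nat_lit 15) (nat_lit 4) (nat_lit 13) (nat_lit 4) (nat_lit 477) (nat_lit 307) (nat_lit 236))) (XT.nd (nat_lit 78) (nat_lit 76) (nat_lit 0) (XT.lf (nat_lit 0) (nat_lit 29972954863) (nat_lit 152) (nat_lit 2317015938) (nat_lit 0) (nat_lit 20177918819) (nat_lit 13) (nat_lit 5) (nat_lit 15) (nat_lit 4) (nat_lit 13) (nat_lit 4) (nat_lit 478) (nat_lit 307) (nat_lit 235)) (XT.lf (nat_lit 0) (nat_lit 10737995692) (nat_lit 76) (nat_lit 26468650505) (nat_lit 76) (nat_lit 16635061537) (nat_lit 12) (nat_lit 4) (nat_lit 13) (nat_lit 5) (nat_lit 13) (nat_lit 4) (nat_lit 479) (nat_lit 307) (nat_lit 234)))) (XT.nd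 (nat_lit 156) (nat_lit 152) (nat_lit 0) (XT.nd (nat_lit 78) (nat_lit 0) (nat_lit 0) (XT.lf (nat_lit 0) (nat_lit 24159245568) (nat_lit 76) (nat_lit 20484462008) (nat_lit 76) (nat_lit 10613443015) (nat_lit 12) (nat_lit 4) (nat_lit 13) (nat_lit 5) (nat_lit 13) (nat_lit 4) (nat_lit 480) (nat_lit 307) (nat_lit 233)) (XT.lf (nat_lit 0) (nat_lit 37912347835) (nat_lit 76) (nat_lit 14355573724) (nat_lit 76) (nat_lit 4448214901) (nat_lit 12) (nat_lit 4) (nat_lit 13) (nat_lit 5) (nat_lit 13) (nat_lit 4) (nat_lit 481) (nat_lit 307) (nat_lit 232))) (XT.nd (nat_lit 78) (nat_lit 76) (nat_lit 0) (XT.lf (nat_lit 0) (nat_lit 1829597322) (nat_lit 152) (nat_lit 6228557645) (nat_lit 76) (nat_lit 50161247098) (nat_lit 11) (nat_lit 5) (nat_lit 13) (nat_lit 5) (nat_lit 12) (nat_lit 4) (nat_lit 482) (nat_lit 307) (nat_lit 231)) (XT.lf (nat_lit 0) (nat_lit 6744086047) (nat_lit 76) (nat_lit 1492849929) (nat_lit 152) (nat_lit 51528591378)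 (nat_lit 10) (nat_lit 5) (nat_lit 11) (nat_lit 5) (nat_lit 12) (nat_lit 4) (nat_lit 483) (nat_lit 307) (nat_lit 230))))))))
noncomputable def xc34 : XT := (XT.nd (nat_lit 48360) (nat_lit 0) (nat_lit 1368) (XT.nd (nat_lit 47268) (nat_lit 0) (nat_lit 3496) (XT.nd (nat_lit 546) (nat_lit 0) (nat_lit 0) (XT.nd (nat_lit 234) (nat_lit 76) (nat_lit 0) (XT.nd (nat_lit 78) (nat_lit 0) (nat_lit 0) (XT.lf (nat_lit 0) (nat_lit 14916474597) (nat_lit 152) (nat_lit 41241280964) (nat_lit 0) (nat_lit 5197882289) (nat_lit 10) (nat_lit 5) (nat_lit 12) (nat_lit 4) (nat_lit 10) (nat_lit 4) (nat_lit 484) (nat_lit 307) (nat_lit 229)) (XT.nd (nat_lit 78) (nat_lit 0) (nat_lit 0) (XT.lf (nat_lit 0) (nat_lit 21777983970) (nat_lit 152) (nat_lit 29187976365) (nat_lit 0) (nat_lit 12028044606) (nat_lit 10) (nat_lit 5) (nat_lit 12) (nat_lit 4) (nat_lit 10) (nat_lit 4) (nat_lit 485) (nat_lit 307) (nat_lit 228)) (XT.lf (nat_lit 0) (nat_lit 28813109404)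 (nat_lit 152) (nat_lit 16836645310) (nat_lit 0) (nat_lit 19032736005) (nat_lit 10) (nat_lit 5) (nat_lit 12) (nat_lit 4) (nat_lit 10) (nat_lit 4) (nat_lit 486) (nat_lit 307) (nat_lit 227)))) (XT.nd (nat_lit 156) (nat_lit 0) (nat_lit 0) (XT.nd (nat_lit 78) (nat_lit 76) (nat_lit 0) (XT.lf (nat_lit 0) (nat_lit 36027998094) (nat_lit 152) (nat_lit 4176495374) (nat_lit 0) (nat_lit 26218077088) (nat_lit 10) (nat_lit 5) (nat_lit 12) (nat_lit 4) (nat_lit 10) (nat_lit 4) (nat_lit 487) (nat_lit 307) (nat_lit 226)) (XT.lf (nat_lit 0) (nat_lit 8978743333) (nat_lit 76) (nat_lit 34536520153) (nat_lit 76) (nat_lit 24697912150) (nat_lit 9) (nat_lit 4) (nat_lit 10) (nat_lit 5) (nat_lit 10) (nat_lit 4) (nat_lit 488) (nat_lit 307) (nat_lit 225))) (XT.nd (nat_lit 78) (nat_lit 0) (nat_lit 0) (XT.lf (nat_lit 0) (nat_lit 22554917395) (nat_lit 76) (nat_lit 28684339182) (nat_lit 76) (nat_lit 18817879726) (nat_lit 9) (nat_lit 4) (nat_lit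 10) (nat_lit 5) (nat_lit 10) (nat_lit 4) (nat_lit 489) (nat_lit 307) (nat_lit 224)) (XT.lf (nat_lit 0) (nat_lit 36480769043) (nat_lit 76) (nat_lit 22685011414) (nat_lit 76) (nat_lit 12791511711) (nat_lit 9) (nat_lit 4) (nat_lit 10) (nat_lit 5) (nat_lit 10) (nat_lit 4) (nat_lit 490) (nat_lit 307) (nat_lit 223))))) (XT.nd (nat_lit 46410) (nat_lit 0) (nat_lit 5472) (XT.nd (nat_lit 78) (nat_lit 0) (nat_lit 0) (XT.lf (nat_lit 0) (nat_lit 50768466496) (nat_lit 76) (nat_lit 16533294717) (nat_lit 76) (nat_lit 6613542348) (nat_lit 9) (nat_lit 4) (nat_lit 10) (nat_lit 5) (nat_lit 10) (nat_lit 4) (nat_lit 491) (nat_lit 307) (nat_lit 222)) (XT.nd (nat_lit 46254) (nat_lit 0) (nat_lit 6156) (XT.lf (nat_lit 0) (nat_lit 65430494149) (nat_lit 76) (nat_lit 10223813804) (nat_lit 76) (nat_lit 278573410) (nat_lit 9) (nat_lit 4) (nat_lit 10) (nat_lit 5) (nat_lit 10) (nat_lit 4) (nat_lit 492) (nat_lit 307) (nat_lit 221)) (XT.lf (nat_lit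 0) (nat_lit 576803835) (nat_lit 228) (nat_lit 2511646157) (nat_lit 228) (nat_lit 2511646157) (nat_lit 90) (nat_lit 4) (nat_lit 93) (nat_lit 5) (nat_lit 93) (nat_lit 4) (nat_lit 404) (nat_lit 308) (nat_lit 308)))) (XT.nd (nat_lit 156) (nat_lit 456) (nat_lit 0) (XT.nd (nat_lit 78) (nat_lit 228) (nat_lit 0) (XT.lf (nat_lit 0) (nat_lit 10666319443) (nat_lit 228) (nat_lit 652116397) (nat_lit 228) (nat_lit 49668860) (nat_lit 90) (nat_lit 4) (nat_lit 93) (nat_lit 5) (nat_lit 93) (nat_lit 4) (nat_lit 405) (nat_lit 308) (nat_lit 307)) (XT.lf (nat_lit 0) (nat_lit 4988120616) (nat_lit 228) (nat_lit 2715711602) (nat_lit 0) (nat_lit 3835355511) (nat_lit 87) (nat_lit 5) (nat_lit 90) (nat_lit 4) (nat_lit 87) (nat_lit 4) (nat_lit 406) (nat_lit 308) (nat_lit 306))) (XT.nd (nat_lit 78) (nat_lit 228) (nat_lit 0) (XT.lf (nat_lit 0) (nat_lit 6874815655) (nat_lit 228) (nat_lit 3272765558) (nat_lit 228) (nat_lit 1568675615) (nat_lit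 84) (nat_lit 4) (nat_lit 87) (nat_lit 5) (nat_lit 87) (nat_lit 4) (nat_lit 407) (nat_lit 308) (nat_lit 305)) (XT.lf (nat_lit 0) (nat_lit 3472205192) (nat_lit 228) (nat_lit 7127989993) (nat_lit 0) (nat_lit 1298072399) (nat_lit 81) (nat_lit 5) (nat_lit 84) (nat_lit 4) (nat_lit 81) (nat_lit 4) (nat_lit 408) (nat_lit 308) (nat_lit 304)))))) (XT.nd (nat_lit 546) (nat_lit 988) (nat_lit 0) (XT.nd (nat_lit 234) (nat_lit 608) (nat_lit 0) (XT.nd (nat_lit 78) (nat_lit 228) (nat_lit 0) (XT.lf (nat_lit 0) (nat_lit 2498683877) (nat_lit 152) (nat_lit 6132659181) (nat_lit 152) (nat_lit 3453986061) (nat_lit 79) (nat_lit 4) (nat_lit 81) (nat_lit 5) (nat_lit 81) (nat_lit 4) (nat_lit 409) (nat_lit 308) (nat_lit 303)) (XT.nd (nat_lit 78) (nat_lit 0) (nat_lit 0) (XT.lf (nat_lit 0) (nat_lit 82008634) (nat_lit 152) (nat_lit 1519236061) (nat_lit 228) (nat_lit 10677293643) (nat_lit 76) (nat_lit 5) (nat_lit 78) (nat_lit 5) (nat_lit 79) (nat_lit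 4) (nat_lit 410) (nat_lit 308) (nat_lit 302)) (XT.lf (nat_lit 0) (nat_lit 6761160809) (nat_lit 228) (nat_lit 2491491875) (nat_lit 0) (nat_lit 3223203773) (nat_lit 76) (nat_lit 5) (nat_lit 79) (nat_lit 4) (nat_lit 76) (nat_lit 4) (nat_lit 411) (nat_lit 308) (nat_lit 301)))) (XT.nd (nat_lit 156) (nat_lit 228) (nat_lit 0) (XT.nd (nat_lit 78) (nat_lit 228) (nat_lit 0) (XT.lf (nat_lit 0) (nat_lit 7452694548) (nat_lit 152) (nat_lit 4606572049) (nat_lit 152) (nat_lit 620337468) (nat_lit 74) (nat_lit 4) (nat_lit 76) (nat_lit 5) (nat_lit 76) (nat_lit 4) (nat_lit 412) (nat_lit 308) (nat_lit 300)) (XT.lf (nat_lit 0) (nat_lit 4506424281) (nat_lit 228) (nat_lit 8168871758) (nat_lit 0) (nat_lit 213749038) (nat_lit 71) (nat_lit 5) (nat_lit 74) (nat_lit 4) (nat_lit 71) (nat_lit 4) (nat_lit 413) (nat_lit 308) (nat_lit 299))) (XT.nd (nat_lit 78) (nat_lit 76) (nat_lit 0) (XT.lf (nat_lit 0) (nat_lit 1768692739) (nat_lit 152) (nat_lit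 8019207182) (nat_lit 152) (nat_lit 3316294481) (nat_lit 69) (nat_lit 4) (nat_lit 71) (nat_lit 5) (nat_lit 71) (nat_lit 4) (nat_lit 414) (nat_lit 308) (nat_lit 298)) (XT.lf (nat_lit 0) (nat_lit 1845906195) (nat_lit 228) (nat_lit 1354011917) (nat_lit 76) (nat_lit 10125911700) (nat_lit 68) (nat_lit 5) (nat_lit 71) (nat_lit 5) (nat_lit 69) (nat_lit 4) (nat_lit 415) (nat_lit 308) (nat_lit 297))))) (XT.nd (nat_lit 234) (nat_lit 456) (nat_lit 0) (XT.nd (nat_lit 78) (nat_lit 380) (nat_lit 0) (XT.lf (nat_lit 0) (nat_lit 7099813272) (nat_lit 228) (nat_lit 4681455869) (nat_lit 0) (nat_lit 1771765075) (nat_lit 66) (nat_lit 5) (nat_lit 69) (nat_lit 4) (nat_lit 66) (nat_lit 4) (nat_lit 416) (nat_lit 308) (nat_lit 296)) (XT.nd (nat_lit 78) (nat_lit 228) (nat_lit 0) (XT.lf (nat_lit 0) (nat_lit 5542851470) (nat_lit 152) (nat_lit 6968377465) (nat_lit 152) (nat_lit 1275838600) (nat_lit 64) (nat_lit 4) (nat_lit 66) (nat_lit 5) (nat_lit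 66) (nat_lit 4) (nat_lit 417) (nat_lit 308) (nat_lit 295)) (XT.lf (nat_lit 0) (nat_lit 1963232343) (nat_lit 152) (nat_lit 1982405903) (nat_lit 228) (nat_lit 10082284558) (nat_lit 61) (nat_lit 5) (nat_lit 63) (nat_lit 5) (nat_lit 64) (nat_lit 4) (nat_lit 418) (nat_lit 308) (nat_lit 294)))) (XT.nd (nat_lit 156) (nat_lit 228) (nat_lit 0) (XT.nd (nat_lit 78) (nat_lit 228) (nat_lit 0) (XT.lf (nat_lit 0) (nat_lit 9314232947) (nat_lit 228) (nat_lit 1850548860) (nat_lit 0) (nat_lit 3110368179) (nat_lit 61) (nat_lit 5) (nat_lit 64) (nat_lit 4) (nat_lit 61) (nat_lit 4) (nat_lit 419) (nat_lit 308) (nat_lit 293)) (XT.lf (nat_lit 0) (nat_lit 315350874) (nat_lit 228) (nat_lit 5887547729) (nat_lit 76) (nat_lit 8326591364) (nat_lit 58) (nat_lit 5) (nat_lit 61) (nat_lit 5) (nat_lit 59) (nat_lit 4) (nat_lit 420) (nat_lit 308) (nat_lit 292))) (XT.nd (nat_lit 78) (nat_lit 152) (nat_lit 0) (XT.lf (nat_lit 0) (nat_lit 4561799353) (nat_lit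 76) (nat_lit 1055896316) (nat_lit 152) (nat_lit 9173273964) (nat_lit 57) (nat_lit 5) (nat_lit 58) (nat_lit 5) (nat_lit 59) (nat_lit 4) (nat_lit 421) (nat_lit 308) (nat_lit 291)) (XT.lf (nat_lit 0) (nat_lit 174279130) (nat_lit 152) (nat_lit 10912497165) (nat_lit 152) (nat_lit 3973295172) (nat_lit 55) (nat_lit 4) (nat_lit 57) (nat_lit 5) (nat_lit 57) (nat_lit 4) (nat_lit 422) (nat_lit 308) (nat_lit 290))))))) (XT.nd (nat_lit 1092) (nat_lit 836) (nat_lit 0) (XT.nd (nat_lit 546) (nat_lit 608) (nat_lit 0) (XT.nd (nat_lit 234) (nat_lit 380) (nat_lit 0) (XT.nd (nat_lit 78) (nat_lit 228) (nat_lit 0) (XT.lf (nat_lit 0) (nat_lit 1375777989) (nat_lit 228) (nat_lit 4434104973) (nat_lit 76) (nat_lit 9526369673) (nat_lit 54) (nat_lit 5) (nat_lit 57) (nat_lit 5) (nat_lit 55) (nat_lit 4) (nat_lit 423) (nat_lit 308) (nat_lit 289)) (XT.nd (nat_lit 78) (nat_lit 152) (nat_lit 0) (XT.lf (nat_lit 0) (nat_lit 6244016210) (nat_lit 76)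 (nat_lit 529531694) (nat_lit 152) (nat_lit 8846955715) (nat_lit 53) (nat_lit 5) (nat_lit 54) (nat_lit 5) (nat_lit 55) (nat_lit 4) (nat_lit 424) (nat_lit 308) (nat_lit 288)) (XT.lf (nat_lit 0) (nat_lit 1227812489) (nat_lit 152) (nat_lit 11118035389) (nat_lit 152) (nat_lit 3567063228) (nat_lit 51) (nat_lit 4) (nat_lit 53) (nat_lit 5) (nat_lit 53) (nat_lit 4) (nat_lit 425) (nat_lit 308) (nat_lit 287)))) (XT.nd (nat_lit 156) (nat_lit 228) (nat_lit 0) (XT.nd (nat_lit 78) (nat_lit 76) (nat_lit 0) (XT.lf (nat_lit 0) (nat_lit 1844108559) (nat_lit 228) (nat_lit 4063078206) (nat_lit 76) (nat_lit 10306089010) (nat_lit 50) (nat_lit 5) (nat_lit 53) (nat_lit 5) (nat_lit 51) (nat_lit 4) (nat_lit 426) (nat_lit 308) (nat_lit 286)) (XT.lf (nat_lit 0) (nat_lit 6810017630) (nat_lit 76) (nat_lit 512561985) (nat_lit 152) (nat_lit 9199718783) (nat_lit 49) (nat_lit 5) (nat_lit 50) (nat_lit 5) (nat_lit 51) (nat_lit 4) (nat_lit 427) (nat_lit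 308) (nat_lit 285))) (XT.nd (nat_lit 78) (nat_lit 76) (nat_lit 0) (XT.lf (nat_lit 0) (nat_lit 1059571207) (nat_lit 152) (nat_lit 11917422125) (nat_lit 152) (nat_lit 3863256824) (nat_lit 47) (nat_lit 4) (nat_lit 49) (nat_lit 5) (nat_lit 49) (nat_lit 4) (nat_lit 428) (nat_lit 308) (nat_lit 284)) (XT.lf (nat_lit 0) (nat_lit 1617162293) (nat_lit 228) (nat_lit 4998464377) (nat_lit 76) (nat_lit 10551176506) (nat_lit 46) (nat_lit 5) (nat_lit 49) (nat_lit 5) (nat_lit 47) (nat_lit 4) (nat_lit 429) (nat_lit 308) (nat_lit 283))))) (XT.nd (nat_lit 234) (nat_lit 304) (nat_lit 0) (XT.nd (nat_lit 78) (nat_lit 228) (nat_lit 0) (XT.lf (nat_lit 0) (nat_lit 6025783383) (nat_lit 76) (nat_lit 1130674777) (nat_lit 152) (nat_lit 10346389364) (nat_lit 45) (nat_lit 5) (nat_lit 46) (nat_lit 5) (nat_lit 47) (nat_lit 4) (nat_lit 430) (nat_lit 308) (nat_lit 282)) (XT.nd (nat_lit 78) (nat_lit 228) (nat_lit 0) (XT.lf (nat_lit 0) (nat_lit 12870787785)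 (nat_lit 152) (nat_lit 569202013) (nat_lit 0) (nat_lit 4408723188) (nat_lit 45) (nat_lit 5) (nat_lit 47) (nat_lit 4) (nat_lit 45) (nat_lit 4) (nat_lit 431) (nat_lit 308) (nat_lit 281)) (XT.lf (nat_lit 0) (nat_lit 572186242) (nat_lit 228) (nat_lit 7502336170) (nat_lit 76) (nat_lit 10129337344) (nat_lit 42) (nat_lit 5) (nat_lit 45) (nat_lit 5) (nat_lit 43) (nat_lit 4) (nat_lit 432) (nat_lit 308) (nat_lit 280)))) (XT.nd (nat_lit 156) (nat_lit 228) (nat_lit 0) (XT.nd (nat_lit 78) (nat_lit 0) (nat_lit 0) (XT.lf (nat_lit 0) (nat_lit 3617333642) (nat_lit 76) (nat_lit 2529040534) (nat_lit 152) (nat_lit 12423084396) (nat_lit 41) (nat_lit 5) (nat_lit 42) (nat_lit 5) (nat_lit 43) (nat_lit 4) (nat_lit 433) (nat_lit 308) (nat_lit 279)) (XT.lf (nat_lit 0) (nat_lit 11912165615) (nat_lit 152) (nat_lit 3907405362) (nat_lit 0) (nat_lit 3125727865) (nat_lit 41) (nat_lit 5) (nat_lit 43) (nat_lit 4) (nat_lit 41) (nat_lit 4) (nat_lit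 434) (nat_lit 308) (nat_lit 278))) (XT.nd (nat_lit 78) (nat_lit 76) (nat_lit 0) (XT.lf (nat_lit 0) (nat_lit 7436602834) (nat_lit 152) (nat_lit 10430536461) (nat_lit 152) (nat_lit 1464793454) (nat_lit 39) (nat_lit 4) (nat_lit 41) (nat_lit 5) (nat_lit 41) (nat_lit 4) (nat_lit 435) (nat_lit 308) (nat_lit 277)) (XT.lf (nat_lit 0) (nat_lit 4146893367) (nat_lit 228) (nat_lit 721632242) (nat_lit 76) (nat_lit 14861623985) (nat_lit 38) (nat_lit 5) (nat_lit 41) (nat_lit 5) (nat_lit 39) (nat_lit 4) (nat_lit 436) (nat_lit 308) (nat_lit 276)))))) (XT.nd (nat_lit 546) (nat_lit 380) (nat_lit 0) (XT.nd (nat_lit 234) (nat_lit 228) (nat_lit 0) (XT.nd (nat_lit 78) (nat_lit 152) (nat_lit 0) (XT.lf (nat_lit 0) (nat_lit 9932549411) (nat_lit 152) (nat_lit 9311438509) (nat_lit 0) (nat_lit 894842440) (nat_lit 37) (nat_lit 5) (nat_lit 39) (nat_lit 4) (nat_lit 37) (nat_lit 4) (nat_lit 437) (nat_lit 308) (nat_lit 275)) (XT.nd (nat_lit 78)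 (nat_lit 76) (nat_lit 0) (XT.lf (nat_lit 0) (nat_lit 2021291434) (nat_lit 76) (nat_lit 13867791210) (nat_lit 76) (nat_lit 4670773842) (nat_lit 36) (nat_lit 4) (nat_lit 37) (nat_lit 5) (nat_lit 37) (nat_lit 4) (nat_lit 438) (nat_lit 308) (nat_lit 274)) (XT.lf (nat_lit 0) (nat_lit 1028046556) (nat_lit 152) (nat_lit 7264753146) (nat_lit 76) (nat_lit 12699899476) (nat_lit 35) (nat_lit 5) (nat_lit 37) (nat_lit 5) (nat_lit 36) (nat_lit 4) (nat_lit 439) (nat_lit 308) (nat_lit 273)))) (XT.nd (nat_lit 156) (nat_lit 152) (nat_lit 0) (XT.nd (nat_lit 78) (nat_lit 0) (nat_lit 0) (XT.lf (nat_lit 0) (nat_lit 4239979097) (nat_lit 76) (nat_lit 2529396313) (nat_lit 152) (nat_lit 14668805539) (nat_lit 34) (nat_lit 5) (nat_lit 35) (nat_lit 5) (nat_lit 36) (nat_lit 4) (nat_lit 440) (nat_lit 308) (nat_lit 272)) (XT.lf (nat_lit 0) (nat_lit 12714617276) (nat_lit 152) (nat_lit 5833491335) (nat_lit 0) (nat_lit 3347972065) (nat_lit 34) (nat_lit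 5) (nat_lit 36) (nat_lit 4) (nat_lit 34) (nat_lit 4) (nat_lit 441) (nat_lit 308) (nat_lit 271))) (XT.nd (nat_lit 78) (nat_lit 76) (nat_lit 0) (XT.lf (nat_lit 0) (nat_lit 5820934510) (nat_lit 76) (nat_lit 13025306744) (nat_lit 76) (nat_lit 3521238985) (nat_lit 33) (nat_lit 4) (nat_lit 34) (nat_lit 5) (nat_lit 34) (nat_lit 4) (nat_lit 442) (nat_lit 308) (nat_lit 270)) (XT.lf (nat_lit 0) (nat_lit 2250333314) (nat_lit 152) (nat_lit 5069311080) (nat_lit 76) (nat_lit 15533117154) (nat_lit 32) (nat_lit 5) (nat_lit 34) (nat_lit 5) (nat_lit 33) (nat_lit 4) (nat_lit 443) (nat_lit 308) (nat_lit 269))))) (XT.nd (nat_lit 312) (nat_lit 152) (nat_lit 0) (XT.nd (nat_lit 156) (nat_lit 152) (nat_lit 0) (XT.nd (nat_lit 78) (nat_lit 0) (nat_lit 0) (XT.lf (nat_lit 0) (nat_lit 6712583219) (nat_lit 76) (nat_lit 1405448731) (nat_lit 152) (nat_lit 15233714143) (nat_lit 31) (nat_lit 5) (nat_lit 32) (nat_lit 5) (nat_lit 33) (nat_lit 4) (nat_lit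 444) (nat_lit 308) (nat_lit 268)) (XT.lf (nat_lit 0) (nat_lit 14187881421) (nat_lit 152) (nat_lit 5093800362) (nat_lit 0) (nat_lit 4583237984) (nat_lit 31) (nat_lit 5) (nat_lit 33) (nat_lit 4) (nat_lit 31) (nat_lit 4) (nat_lit 445) (nat_lit 308) (nat_lit 267))) (XT.nd (nat_lit 78) (nat_lit 76) (nat_lit 0) (XT.lf (nat_lit 0) (nat_lit 6784422468) (nat_lit 76) (nat_lit 13665968833) (nat_lit 76) (nat_lit 3942783499) (nat_lit 30) (nat_lit 4) (nat_lit 31) (nat_lit 5) (nat_lit 31) (nat_lit 4) (nat_lit 446) (nat_lit 308) (nat_lit 266)) (XT.lf (nat_lit 0) (nat_lit 1908630722) (nat_lit 152) (nat_lit 5963754187) (nat_lit 76) (nat_lit 17064825865) (nat_lit 29) (nat_lit 5) (nat_lit 31) (nat_lit 5) (nat_lit 30) (nat_lit 4) (nat_lit 447) (nat_lit 308) (nat_lit 265)))) (XT.nd (nat_lit 156) (nat_lit 76) (nat_lit 0) (XT.nd (nat_lit 78) (nat_lit 0) (nat_lit 0) (XT.lf (nat_lit 0) (nat_lit 5980048648) (nat_lit 76) (nat_lit 1867271701)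 (nat_lit 152) (nat_lit 17649349818) (nat_lit 28) (nat_lit 5) (nat_lit 29) (nat_lit 5) (nat_lit 30) (nat_lit 4) (nat_lit 448) (nat_lit 308) (nat_lit 264)) (XT.lf (nat_lit 0) (nat_lit 14000120412) (nat_lit 152) (nat_lit 7837125214) (nat_lit 0) (nat_lit 4234591974) (nat_lit 28) (nat_lit 5) (nat_lit 30) (nat_lit 4) (nat_lit 28) (nat_lit 4) (nat_lit 449) (nat_lit 308) (nat_lit 263))) (XT.nd (nat_lit 78) (nat_lit 0) (nat_lit 0) (XT.lf (nat_lit 0) (nat_lit 4130270664) (nat_lit 76) (nat_lit 16200981674) (nat_lit 76) (nat_lit 6333197955) (nat_lit 27) (nat_lit 4) (nat_lit 28) (nat_lit 5) (nat_lit 28) (nat_lit 4) (nat_lit 450) (nat_lit 308) (nat_lit 262)) (XT.lf (nat_lit 0) (nat_lit 16493969376) (nat_lit 76) (nat_lit 10373736818) (nat_lit 76) (nat_lit 406676126) (nat_lit 27) (nat_lit 4) (nat_lit 28) (nat_lit 5) (nat_lit 28) (nat_lit 4) (nat_lit 451) (nat_lit 308) (nat_lit 261))))))))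
noncomputable def xc35 : XT := (XT.nd (nat_lit 2262) (nat_lit 228) (nat_lit 0) (XT.nd (nat_lit 1092) (nat_lit 456) (nat_lit 0) (XT.nd (nat_lit 546) (nat_lit 304) (nat_lit 0) (XT.nd (nat_lit 234) (nat_lit 228) (nat_lit 0) (XT.nd (nat_lit 78) (nat_lit 0) (nat_lit 0) (XT.lf (nat_lit 0) (nat_lit 1173062630) (nat_lit 76) (nat_lit 4362163346) (nat_lit 152) (nat_lit 22367282717) (nat_lit 25) (nat_lit 5) (nat_lit 26) (nat_lit 5) (nat_lit 27) (nat_lit 4) (nat_lit 452) (nat_lit 308) (nat_lit 260)) (XT.nd (nat_lit 78) (nat_lit 0) (nat_lit 0) (XT.lf (nat_lit 0) (nat_lit 11712340103) (nat_lit 152) (nat_lit 14983914885) (nat_lit 0) (nat_lit 1851151587) (nat_lit 25) (nat_lit 5) (nat_lit 27) (nat_lit 4) (nat_lit 25) (nat_lit 4) (nat_lit 453) (nat_lit 308) (nat_lit 259)) (XT.lf (nat_lit 0) (nat_lit 18057375966) (nat_lit 152) (nat_lit 3046818334) (nat_lit 0) (nat_lit 8107981146) (nat_lit 25) (nat_lit 5) (nat_lit 27) (nat_lit 4)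 (nat_lit 25) (nat_lit 4) (nat_lit 454) (nat_lit 308) (nat_lit 258)))) (XT.nd (nat_lit 156) (nat_lit 76) (nat_lit 0) (XT.nd (nat_lit 78) (nat_lit 76) (nat_lit 0) (XT.lf (nat_lit 0) (nat_lit 9315994449) (nat_lit 76) (nat_lit 15307502579) (nat_lit 76) (nat_lit 5272470570) (nat_lit 24) (nat_lit 4) (nat_lit 25) (nat_lit 5) (nat_lit 25) (nat_lit 4) (nat_lit 455) (nat_lit 308) (nat_lit 257)) (XT.lf (nat_lit 0) (nat_lit 743286692) (nat_lit 152) (nat_lit 8609302925) (nat_lit 76) (nat_lit 21248290170) (nat_lit 23) (nat_lit 5) (nat_lit 25) (nat_lit 5) (nat_lit 24) (nat_lit 4) (nat_lit 456) (nat_lit 308) (nat_lit 256))) (XT.nd (nat_lit 78) (nat_lit 0) (nat_lit 0) (XT.lf (nat_lit 0) (nat_lit 3628173230) (nat_lit 76) (nat_lit 3183191008) (nat_lit 152) (nat_lit 24514676500) (nat_lit 22) (nat_lit 5) (nat_lit 23) (nat_lit 5) (nat_lit 24) (nat_lit 4) (nat_lit 457) (nat_lit 308) (nat_lit 255)) (XT.lf (nat_lit 0) (nat_lit 13122802245)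 (nat_lit 152) (nat_lit 15803442951) (nat_lit 0) (nat_lit 3144873765) (nat_lit 22) (nat_lit 5) (nat_lit 24) (nat_lit 4) (nat_lit 22) (nat_lit 4) (nat_lit 458) (nat_lit 308) (nat_lit 254))))) (XT.nd (nat_lit 234) (nat_lit 228) (nat_lit 0) (XT.nd (nat_lit 78) (nat_lit 76) (nat_lit 0) (XT.lf (nat_lit 0) (nat_lit 19599795199) (nat_lit 152) (nat_lit 3691474580) (nat_lit 0) (nat_lit 9547995328) (nat_lit 22) (nat_lit 5) (nat_lit 24) (nat_lit 4) (nat_lit 22) (nat_lit 4) (nat_lit 459) (nat_lit 308) (nat_lit 253)) (XT.nd (nat_lit 78) (nat_lit 0) (nat_lit 0) (XT.lf (nat_lit 0) (nat_lit 8851953145) (nat_lit 76) (nat_lit 17450541073) (nat_lit 76) (nat_lit 7327021405) (nat_lit 21) (nat_lit 4) (nat_lit 22) (nat_lit 5) (nat_lit 22) (nat_lit 4) (nat_lit 460) (nat_lit 308) (nat_lit 252)) (XT.lf (nat_lit 0) (nat_lit 21743747943) (nat_lit 76) (nat_lit 11446676777) (nat_lit 76) (nat_lit 1253526238) (nat_lit 21) (nat_lit 4) (nat_lit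 22) (nat_lit 5) (nat_lit 22) (nat_lit 4) (nat_lit 461) (nat_lit 308) (nat_lit 251)))) (XT.nd (nat_lit 156) (nat_lit 76) (nat_lit 0) (XT.nd (nat_lit 78) (nat_lit 76) (nat_lit 0) (XT.lf (nat_lit 0) (nat_lit 4852472163) (nat_lit 152) (nat_lit 410234834) (nat_lit 76) (nat_lit 30020234288) (nat_lit 20) (nat_lit 5) (nat_lit 22) (nat_lit 5) (nat_lit 21) (nat_lit 4) (nat_lit 462) (nat_lit 308) (nat_lit 250)) (XT.lf (nat_lit 0) (nat_lit 11196353359) (nat_lit 152) (nat_lit 23777245557) (nat_lit 0) (nat_lit 1170734813) (nat_lit 19) (nat_lit 5) (nat_lit 21) (nat_lit 4) (nat_lit 19) (nat_lit 4) (nat_lit 463) (nat_lit 308) (nat_lit 249))) (XT.nd (nat_lit 78) (nat_lit 76) (nat_lit 0) (XT.lf (nat_lit 0) (nat_lit 17736342335) (nat_lit 152) (nat_lit 11646195823) (nat_lit 0) (nat_lit 7648857663) (nat_lit 19) (nat_lit 5) (nat_lit 21) (nat_lit 4) (nat_lit 19) (nat_lit 4) (nat_lit 464) (nat_lit 308) (nat_lit 248)) (XT.lf (nat_lit 0)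 (nat_lit 767900577) (nat_lit 76) (nat_lit 23662984509) (nat_lit 76) (nat_lit 13515435635) (nat_lit 18) (nat_lit 4) (nat_lit 19) (nat_lit 5) (nat_lit 19) (nat_lit 4) (nat_lit 465) (nat_lit 308) (nat_lit 247)))))) (XT.nd (nat_lit 546) (nat_lit 228) (nat_lit 0) (XT.nd (nat_lit 234) (nat_lit 152) (nat_lit 0) (XT.nd (nat_lit 78) (nat_lit 76) (nat_lit 0) (XT.lf (nat_lit 0) (nat_lit 13698226031) (nat_lit 76) (nat_lit 17697129871) (nat_lit 76) (nat_lit 7491266239) (nat_lit 18) (nat_lit 4) (nat_lit 19) (nat_lit 5) (nat_lit 19) (nat_lit 4) (nat_lit 466) (nat_lit 308) (nat_lit 246)) (XT.nd (nat_lit 78) (nat_lit 76) (nat_lit 0) (XT.lf (nat_lit 0) (nat_lit 26924296747) (nat_lit 76) (nat_lit 11597365103) (nat_lit 76) (nat_lit 1334885200) (nat_lit 18) (nat_lit 4) (nat_lit 19) (nat_lit 5) (nat_lit 19) (nat_lit 4) (nat_lit 467) (nat_lit 308) (nat_lit 245)) (XT.lf (nat_lit 0) (nat_lit 4862317195) (nat_lit 152) (nat_lit 446943249)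 (nat_lit 76) (nat_lit 35546252422) (nat_lit 17) (nat_lit 5) (nat_lit 19) (nat_lit 5) (nat_lit 18) (nat_lit 4) (nat_lit 468) (nat_lit 308) (nat_lit 244)))) (XT.nd (nat_lit 156) (nat_lit 76) (nat_lit 0) (XT.nd (nat_lit 78) (nat_lit 0) (nat_lit 0) (XT.lf (nat_lit 0) (nat_lit 11306610713) (nat_lit 152) (nat_lit 29336941828) (nat_lit 0) (nat_lit 1237859819) (nat_lit 16) (nat_lit 5) (nat_lit 18) (nat_lit 4) (nat_lit 16) (nat_lit 4) (nat_lit 469) (nat_lit 308) (nat_lit 243)) (XT.lf (nat_lit 0) (nat_lit 17956583239) (nat_lit 152) (nat_lit 17143606888) (nat_lit 0) (nat_lit 7837529522) (nat_lit 16) (nat_lit 5) (nat_lit 18) (nat_lit 4) (nat_lit 16) (nat_lit 4) (nat_lit 470) (nat_lit 308) (nat_lit 242))) (XT.nd (nat_lit 78) (nat_lit 76) (nat_lit 0) (XT.lf (nat_lit 0) (nat_lit 24762584388) (nat_lit 152) (nat_lit 4669744181) (nat_lit 0) (nat_lit 14594692979) (nat_lit 16) (nat_lit 5) (nat_lit 18) (nat_lit 4) (nat_lit 16) (nat_lit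 4) (nat_lit 471) (nat_lit 308) (nat_lit 241)) (XT.lf (nat_lit 0) (nat_lit 8256663017) (nat_lit 76) (nat_lit 23553266230) (nat_lit 76) (nat_lit 13337959586) (nat_lit 15) (nat_lit 4) (nat_lit 16) (nat_lit 5) (nat_lit 16) (nat_lit 4) (nat_lit 472) (nat_lit 308) (nat_lit 240))))) (XT.nd (nat_lit 312) (nat_lit 76) (nat_lit 0) (XT.nd (nat_lit 156) (nat_lit 152) (nat_lit 0) (XT.nd (nat_lit 78) (nat_lit 0) (nat_lit 0) (XT.lf (nat_lit 0) (nat_lit 21584610639) (nat_lit 76) (nat_lit 17489475895) (nat_lit 76) (nat_lit 7228135043) (nat_lit 15) (nat_lit 4) (nat_lit 16) (nat_lit 5) (nat_lit 16) (nat_lit 4) (nat_lit 473) (nat_lit 308) (nat_lit 239)) (XT.lf (nat_lit 0) (nat_lit 35232807398) (nat_lit 76) (nat_lit 11282814367) (nat_lit 76) (nat_lit 976780108) (nat_lit 15) (nat_lit 4) (nat_lit 16) (nat_lit 5) (nat_lit 16) (nat_lit 4) (nat_lit 474) (nat_lit 308) (nat_lit 238))) (XT.nd (nat_lit 78) (nat_lit 0) (nat_lit 0) (XT.lf (nat_lit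 0) (nat_lit 450382373) (nat_lit 76) (nat_lit 4869720232) (nat_lit 152) (nat_lit 43397673739) (nat_lit 13) (nat_lit 5) (nat_lit 14) (nat_lit 5) (nat_lit 15) (nat_lit 4) (nat_lit 475) (nat_lit 308) (nat_lit 237)) (XT.lf (nat_lit 0) (nat_lit 11888261718) (nat_lit 152) (nat_lit 36288926606) (nat_lit 0) (nat_lit 1799374593) (nat_lit 13) (nat_lit 5) (nat_lit 15) (nat_lit 4) (nat_lit 13) (nat_lit 4) (nat_lit 476) (nat_lit 308) (nat_lit 236)))) (XT.nd (nat_lit 156) (nat_lit 76) (nat_lit 0) (XT.nd (nat_lit 78) (nat_lit 0) (nat_lit 0) (XT.lf (nat_lit 0) (nat_lit 18663130550) (nat_lit 152) (nat_lit 24075159714) (nat_lit 0) (nat_lit 8534533913) (nat_lit 13) (nat_lit 5) (nat_lit 15) (nat_lit 4) (nat_lit 13) (nat_lit 4) (nat_lit 477) (nat_lit 308) (nat_lit 235)) (XT.lf (nat_lit 0) (nat_lit 25603818161) (nat_lit 152) (nat_lit 11568610341) (nat_lit 0) (nat_lit 15436668598) (nat_lit 13) (nat_lit 5) (nat_lit 15) (nat_lit 4) (nat_lit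 13) (nat_lit 4) (nat_lit 478) (nat_lit 308) (nat_lit 234))) (XT.nd (nat_lit 78) (nat_lit 0) (nat_lit 0) (XT.lf (nat_lit 0) (nat_lit 1266360824) (nat_lit 76) (nat_lit 31462201438) (nat_lit 76) (nat_lit 21257621851) (nat_lit 12) (nat_lit 4) (nat_lit 13) (nat_lit 5) (nat_lit 13) (nat_lit 4) (nat_lit 479) (nat_lit 308) (nat_lit 233)) (XT.lf (nat_lit 0) (nat_lit 14652741190) (nat_lit 76) (nat_lit 25495168540) (nat_lit 76) (nat_lit 15254249124) (nat_lit 12) (nat_lit 4) (nat_lit 13) (nat_lit 5) (nat_lit 13) (nat_lit 4) (nat_lit 480) (nat_lit 308) (nat_lit 232))))))) (XT.nd (nat_lit 47112) (nat_lit 0) (nat_lit 3952) (XT.nd (nat_lit 546) (nat_lit 76) (nat_lit 0) (XT.nd (nat_lit 234) (nat_lit 76) (nat_lit 0) (XT.nd (nat_lit 78) (nat_lit 76) (nat_lit 0) (XT.lf (nat_lit 0) (nat_lit 28371989564) (nat_lit 76) (nat_lit 19382936179) (nat_lit 76) (nat_lit 9106735374) (nat_lit 12) (nat_lit 4) (nat_lit 13) (nat_lit 5) (nat_lit 13)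 (nat_lit 4) (nat_lit 481) (nat_lit 308) (nat_lit 231)) (XT.nd (nat_lit 78) (nat_lit 76) (nat_lit 0) (XT.lf (nat_lit 0) (nat_lit 42436093638) (nat_lit 76) (nat_lit 13120163567) (nat_lit 76) (nat_lit 2809708988) (nat_lit 12) (nat_lit 4) (nat_lit 13) (nat_lit 5) (nat_lit 13) (nat_lit 4) (nat_lit 482) (nat_lit 308) (nat_lit 230)) (XT.lf (nat_lit 0) (nat_lit 3571257268) (nat_lit 152) (nat_lit 3094058415) (nat_lit 76) (nat_lit 53250022470) (nat_lit 11) (nat_lit 5) (nat_lit 13) (nat_lit 5) (nat_lit 12) (nat_lit 4) (nat_lit 483) (nat_lit 308) (nat_lit 229)))) (XT.nd (nat_lit 156) (nat_lit 0) (nat_lit 0) (XT.nd (nat_lit 78) (nat_lit 0) (nat_lit 0) (XT.lf (nat_lit 0) (nat_lit 10154087985) (nat_lit 152) (nat_lit 51273958921) (nat_lit 0) (nat_lit 80303384) (nat_lit 10) (nat_lit 5) (nat_lit 12) (nat_lit 4) (nat_lit 10) (nat_lit 4) (nat_lit 484) (nat_lit 308) (nat_lit 228)) (XT.lf (nat_lit 0) (nat_lit 16999720894) (nat_lit 152)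 (nat_lit 39251970914) (nat_lit 0) (nat_lit 6895502258) (nat_lit 10) (nat_lit 5) (nat_lit 12) (nat_lit 4) (nat_lit 10) (nat_lit 4) (nat_lit 485) (nat_lit 308) (nat_lit 227))) (XT.nd (nat_lit 78) (nat_lit 0) (nat_lit 0) (XT.lf (nat_lit 0) (nat_lit 24019432285) (nat_lit 152) (nat_lit 26931044318) (nat_lit 0) (nat_lit 13885666042) (nat_lit 10) (nat_lit 5) (nat_lit 12) (nat_lit 4) (nat_lit 10) (nat_lit 4) (nat_lit 486) (nat_lit 308) (nat_lit 226)) (XT.lf (nat_lit 0) (nat_lit 31219355886) (nat_lit 152) (nat_lit 14300413273) (nat_lit 0) (nat_lit 21056902645) (nat_lit 10) (nat_lit 5) (nat_lit 12) (nat_lit 4) (nat_lit 10) (nat_lit 4) (nat_lit 487) (nat_lit 308) (nat_lit 225))))) (XT.nd (nat_lit 234) (nat_lit 0) (nat_lit 0) (XT.nd (nat_lit 78) (nat_lit 76) (nat_lit 0) (XT.lf (nat_lit 0) (nat_lit 38605782891) (nat_lit 152) (nat_lit 1349041306) (nat_lit 0) (nat_lit 28415478197) (nat_lit 10) (nat_lit 5) (nat_lit 12) (nat_lit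 4) (nat_lit 10) (nat_lit 4) (nat_lit 488) (nat_lit 308) (nat_lit 224)) (XT.nd (nat_lit 78) (nat_lit 0) (nat_lit 0) (XT.lf (nat_lit 0) (nat_lit 12171906042) (nat_lit 76) (nat_lit 34130265225) (nat_lit 76) (nat_lit 23912920285) (nat_lit 9) (nat_lit 4) (nat_lit 10) (nat_lit 5) (nat_lit 10) (nat_lit 4) (nat_lit 489) (nat_lit 308) (nat_lit 223)) (XT.lf (nat_lit 0) (nat_lit 26070206091) (nat_lit 76) (nat_lit 28144529035) (nat_lit 76) (nat_lit 17900931429) (nat_lit 9) (nat_lit 4) (nat_lit 10) (nat_lit 5) (nat_lit 10) (nat_lit 4) (nat_lit 490) (nat_lit 308) (nat_lit 222)))) (XT.nd (nat_lit 46176) (nat_lit 0) (nat_lit 6384) (XT.nd (nat_lit 78) (nat_lit 0) (nat_lit 0) (XT.lf (nat_lit 0) (nat_lit 40331154419) (nat_lit 76) (nat_lit 22006008045) (nat_lit 76) (nat_lit 11736922414) (nat_lit 9) (nat_lit 4) (nat_lit 10) (nat_lit 5) (nat_lit 10) (nat_lit 4) (nat_lit 491) (nat_lit 308) (nat_lit 221)) (XT.lf (nat_lit 0) (nat_lit 54967212049)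 (nat_lit 76) (nat_lit 15709338498) (nat_lit 76) (nat_lit 5415507212) (nat_lit 9) (nat_lit 4) (nat_lit 10) (nat_lit 5) (nat_lit 10) (nat_lit 4) (nat_lit 492) (nat_lit 308) (nat_lit 220))) (XT.nd (nat_lit 78) (nat_lit 228) (nat_lit 0) (XT.lf (nat_lit 0) (nat_lit 2330355880) (nat_lit 228) (nat_lit 1554386841) (nat_lit 228) (nat_lit 1554386841) (nat_lit 96) (nat_lit 4) (nat_lit 99) (nat_lit 5) (nat_lit 99) (nat_lit 4) (nat_lit 402) (nat_lit 309) (nat_lit 309)) (XT.lf (nat_lit 0) (nat_lit 1777332882) (nat_lit 228) (nat_lit 8103890204) (nat_lit 0) (nat_lit 1156811919) (nat_lit 93) (nat_lit 5) (nat_lit 96) (nat_lit 4) (nat_lit 93) (nat_lit 4) (nat_lit 403) (nat_lit 309) (nat_lit 308)))))) (XT.nd (nat_lit 546) (nat_lit 1292) (nat_lit 0) (XT.nd (nat_lit 234) (nat_lit 684) (nat_lit 0) (XT.nd (nat_lit 78) (nat_lit 228) (nat_lit 0) (XT.lf (nat_lit 0) (nat_lit 1060685088) (nat_lit 228) (nat_lit 5682061843) (nat_lit 228) (nat_lit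 4459093344) (nat_lit 90) (nat_lit 4) (nat_lit 93) (nat_lit 5) (nat_lit 93) (nat_lit 4) (nat_lit 404) (nat_lit 309) (nat_lit 307)) (XT.nd (nat_lit 78) (nat_lit 152) (nat_lit 0) (XT.lf (nat_lit 0) (nat_lit 450875262) (nat_lit 304) (nat_lit 892592237) (nat_lit 76) (nat_lit 10027752541) (nat_lit 89) (nat_lit 5) (nat_lit 93) (nat_lit 5) (nat_lit 90) (nat_lit 4) (nat_lit 405) (nat_lit 309) (nat_lit 306)) (XT.lf (nat_lit 0) (nat_lit 5425878574) (nat_lit 228) (nat_lit 2998930681) (nat_lit 0) (nat_lit 3119341094) (nat_lit 87) (nat_lit 5) (nat_lit 90) (nat_lit 4) (nat_lit 87) (nat_lit 4) (nat_lit 406) (nat_lit 309) (nat_lit 305)))) (XT.nd (nat_lit 156) (nat_lit 228) (nat_lit 0) (XT.nd (nat_lit 78) (nat_lit 228) (nat_lit 0) (XT.lf (nat_lit 0) (nat_lit 6495228323) (nat_lit 228) (nat_lit 4034731848) (nat_lit 228) (nat_lit 1192927535) (nat_lit 84) (nat_lit 4) (nat_lit 87) (nat_lit 5) (nat_lit 87) (nat_lit 4) (nat_lit 407) (nat_lit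 309) (nat_lit 304)) (XT.lf (nat_lit 0) (nat_lit 3776646955) (nat_lit 228) (nat_lit 7616995553) (nat_lit 0) (nat_lit 513073314) (nat_lit 81) (nat_lit 5) (nat_lit 84) (nat_lit 4) (nat_lit 81) (nat_lit 4) (nat_lit 408) (nat_lit 309) (nat_lit 303))) (XT.nd (nat_lit 78) (nat_lit 76) (nat_lit 0) (XT.lf (nat_lit 0) (nat_lit 1908742719) (nat_lit 152) (nat_lit 6970084150) (nat_lit 152) (nat_lit 3216665531) (nat_lit 79) (nat_lit 4) (nat_lit 81) (nat_lit 5) (nat_lit 81) (nat_lit 4) (nat_lit 409) (nat_lit 309) (nat_lit 302)) (XT.lf (nat_lit 0) (nat_lit 1781994052) (nat_lit 228) (nat_lit 611548340) (nat_lit 76) (nat_lit 9896654937) (nat_lit 78) (nat_lit 5) (nat_lit 81) (nat_lit 5) (nat_lit 79) (nat_lit 4) (nat_lit 410) (nat_lit 309) (nat_lit 301))))) (XT.nd (nat_lit 312) (nat_lit 608) (nat_lit 0) (XT.nd (nat_lit 156) (nat_lit 380) (nat_lit 0) (XT.nd (nat_lit 78) (nat_lit 152) (nat_lit 0) (XT.lf (nat_lit 0) (nat_lit 6876569284)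 (nat_lit 228) (nat_lit 3290442041) (nat_lit 0) (nat_lit 2322470119) (nat_lit 76) (nat_lit 5) (nat_lit 79) (nat_lit 4) (nat_lit 76) (nat_lit 4) (nat_lit 411) (nat_lit 309) (nat_lit 300)) (XT.lf (nat_lit 0) (nat_lit 6548877510) (nat_lit 152) (nat_lit 5567709928) (nat_lit 152) (nat_lit 578389844) (nat_lit 74) (nat_lit 4) (nat_lit 76) (nat_lit 5) (nat_lit 76) (nat_lit 4) (nat_lit 412) (nat_lit 309) (nat_lit 299))) (XT.nd (nat_lit 78) (nat_lit 152) (nat_lit 0) (XT.lf (nat_lit 0) (nat_lit 3695336929) (nat_lit 152) (nat_lit 790969274) (nat_lit 228) (nat_lit 8419942689) (nat_lit 71) (nat_lit 5) (nat_lit 73) (nat_lit 5) (nat_lit 74) (nat_lit 4) (nat_lit 413) (nat_lit 309) (nat_lit 298)) (XT.lf (nat_lit 0) (nat_lit 624318685) (nat_lit 152) (nat_lit 9075820140) (nat_lit 152) (nat_lit 3423293808) (nat_lit 69) (nat_lit 4) (nat_lit 71) (nat_lit 5) (nat_lit 71) (nat_lit 4) (nat_lit 414) (nat_lit 309) (nat_lit 297)))) (XT.nd (nat_lit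 156) (nat_lit 380) (nat_lit 0) (XT.nd (nat_lit 78) (nat_lit 152) (nat_lit 0) (XT.lf (nat_lit 0) (nat_lit 1692065425) (nat_lit 228) (nat_lit 2604321666) (nat_lit 76) (nat_lit 9050184522) (nat_lit 68) (nat_lit 5) (nat_lit 71) (nat_lit 5) (nat_lit 69) (nat_lit 4) (nat_lit 415) (nat_lit 309) (nat_lit 296)) (XT.lf (nat_lit 0) (nat_lit 6874343660) (nat_lit 228) (nat_lit 6055047952) (nat_lit 0) (nat_lit 646537962) (nat_lit 66) (nat_lit 5) (nat_lit 69) (nat_lit 4) (nat_lit 66) (nat_lit 4) (nat_lit 416) (nat_lit 309) (nat_lit 295))) (XT.nd (nat_lit 78) (nat_lit 228) (nat_lit 0) (XT.lf (nat_lit 0) (nat_lit 4054833997) (nat_lit 152) (nat_lit 8169330711) (nat_lit 152) (nat_lit 1587650578) (nat_lit 64) (nat_lit 4) (nat_lit 66) (nat_lit 5) (nat_lit 66) (nat_lit 4) (nat_lit 417) (nat_lit 309) (nat_lit 294)) (XT.lf (nat_lit 0) (nat_lit 336220387) (nat_lit 152) (nat_lit 3240857411) (nat_lit 228) (nat_lit 10477571961) (nat_lit 61)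 (nat_lit 5) (nat_lit 63) (nat_lit 5) (nat_lit 64) (nat_lit 4) (nat_lit 418) (nat_lit 309) (nat_lit 293))))))))
noncomputable def xc36 : XT := (XT.nd (nat_lit 2184) (nat_lit 1216) (nat_lit 0) (XT.nd (nat_lit 1092) (nat_lit 988) (nat_lit 0) (XT.nd (nat_lit 546) (nat_lit 760) (nat_lit 0) (XT.nd (nat_lit 234) (nat_lit 304) (nat_lit 0) (XT.nd (nat_lit 78) (nat_lit 304) (nat_lit 0) (XT.lf (nat_lit 0) (nat_lit 8886577551) (nat_lit 228) (nat_lit 3577885397) (nat_lit 0) (nat_lit 1839191009) (nat_lit 61) (nat_lit 5) (nat_lit 64) (nat_lit 4) (nat_lit 61) (nat_lit 4) (nat_lit 419) (nat_lit 309) (nat_lit 292)) (XT.nd (nat_lit 78) (nat_lit 152) (nat_lit 0) (XT.lf (nat_lit 0) (nat_lit 6798558253) (nat_lit 152) (nat_lit 7561616629) (nat_lit 152) (nat_lit 199817235) (nat_lit 59) (nat_lit 4) (nat_lit 61) (nat_lit 5) (nat_lit 61) (nat_lit 4) (nat_lit 420) (nat_lit 309) (nat_lit 291)) (XT.lf (nat_lit 0) (nat_lit 2567627308) (nat_lit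 76) (nat_lit 2474087912) (nat_lit 152) (nat_lit 9781759345) (nat_lit 57) (nat_lit 5) (nat_lit 58) (nat_lit 5) (nat_lit 59) (nat_lit 4) (nat_lit 421) (nat_lit 309) (nat_lit 290)))) (XT.nd (nat_lit 156) (nat_lit 76) (nat_lit 0) (XT.nd (nat_lit 78) (nat_lit 228) (nat_lit 0) (XT.lf (nat_lit 0) (nat_lit 10450119246) (nat_lit 152) (nat_lit 1925636526) (nat_lit 0) (nat_lit 2718644628) (nat_lit 57) (nat_lit 5) (nat_lit 59) (nat_lit 4) (nat_lit 57) (nat_lit 4) (nat_lit 422) (nat_lit 309) (nat_lit 289)) (XT.lf (nat_lit 0) (nat_lit 653530270) (nat_lit 228) (nat_lit 6684159916) (nat_lit 76) (nat_lit 8035019023) (nat_lit 54) (nat_lit 5) (nat_lit 57) (nat_lit 5) (nat_lit 55) (nat_lit 4) (nat_lit 423) (nat_lit 309) (nat_lit 288))) (XT.nd (nat_lit 78) (nat_lit 0) (nat_lit 0) (XT.lf (nat_lit 0) (nat_lit 3866443055) (nat_lit 76) (nat_lit 2118032170) (nat_lit 152) (nat_lit 9674493108) (nat_lit 53) (nat_lit 5) (nat_lit 54) (nat_lit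 5) (nat_lit 55) (nat_lit 4) (nat_lit 424) (nat_lit 309) (nat_lit 287)) (XT.lf (nat_lit 0) (nat_lit 11485886949) (nat_lit 152) (nat_lit 1278195418) (nat_lit 0) (nat_lit 3189423390) (nat_lit 53) (nat_lit 5) (nat_lit 55) (nat_lit 4) (nat_lit 53) (nat_lit 4) (nat_lit 425) (nat_lit 309) (nat_lit 286))))) (XT.nd (nat_lit 234) (nat_lit 456) (nat_lit 0) (XT.nd (nat_lit 78) (nat_lit 76) (nat_lit 0) (XT.lf (nat_lit 0) (nat_lit 904725094) (nat_lit 228) (nat_lit 6708072025) (nat_lit 76) (nat_lit 8643028137) (nat_lit 50) (nat_lit 5) (nat_lit 53) (nat_lit 5) (nat_lit 51) (nat_lit 4) (nat_lit 426) (nat_lit 309) (nat_lit 285)) (XT.nd (nat_lit 78) (nat_lit 0) (nat_lit 0) (XT.lf (nat_lit 0) (nat_lit 4031823381) (nat_lit 76) (nat_lit 2282195643) (nat_lit 152) (nat_lit 10252907181) (nat_lit 49) (nat_lit 5) (nat_lit 50) (nat_lit 5) (nat_lit 51) (nat_lit 4) (nat_lit 427) (nat_lit 309) (nat_lit 284)) (XT.lf (nat_lit 0) (nat_lit 11898902227)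 (nat_lit 152) (nat_lit 1846043831) (nat_lit 0) (nat_lit 3142020744) (nat_lit 49) (nat_lit 5) (nat_lit 51) (nat_lit 4) (nat_lit 49) (nat_lit 4) (nat_lit 428) (nat_lit 309) (nat_lit 283)))) (XT.nd (nat_lit 156) (nat_lit 152) (nat_lit 0) (XT.nd (nat_lit 78) (nat_lit 76) (nat_lit 0) (XT.lf (nat_lit 0) (nat_lit 453754155) (nat_lit 228) (nat_lit 8056283394) (nat_lit 76) (nat_lit 8705625881) (nat_lit 46) (nat_lit 5) (nat_lit 49) (nat_lit 5) (nat_lit 47) (nat_lit 4) (nat_lit 429) (nat_lit 309) (nat_lit 282)) (XT.lf (nat_lit 0) (nat_lit 2828688184) (nat_lit 76) (nat_lit 3092588844) (nat_lit 152) (nat_lit 11632586615) (nat_lit 45) (nat_lit 5) (nat_lit 46) (nat_lit 5) (nat_lit 47) (nat_lit 4) (nat_lit 430) (nat_lit 309) (nat_lit 281))) (XT.nd (nat_lit 78) (nat_lit 152) (nat_lit 0) (XT.lf (nat_lit 0) (nat_lit 11575828661) (nat_lit 152) (nat_lit 3875467835) (nat_lit 0) (nat_lit 2450228546) (nat_lit 45) (nat_lit 5) (nat_lit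 47) (nat_lit 4) (nat_lit 45) (nat_lit 4) (nat_lit 431) (nat_lit 309) (nat_lit 280)) (XT.lf (nat_lit 0) (nat_lit 7258975965) (nat_lit 152) (nat_lit 10160792351) (nat_lit 152) (nat_lit 839260542) (nat_lit 43) (nat_lit 4) (nat_lit 45) (nat_lit 5) (nat_lit 45) (nat_lit 4) (nat_lit 432) (nat_lit 309) (nat_lit 279)))))) (XT.nd (nat_lit 546) (nat_lit 456) (nat_lit 0) (XT.nd (nat_lit 234) (nat_lit 228) (nat_lit 0) (XT.nd (nat_lit 78) (nat_lit 228) (nat_lit 0) (XT.lf (nat_lit 0) (nat_lit 4676859380) (nat_lit 228) (nat_lit 17732213) (nat_lit 76) (nat_lit 13932513834) (nat_lit 42) (nat_lit 5) (nat_lit 45) (nat_lit 5) (nat_lit 43) (nat_lit 4) (nat_lit 433) (nat_lit 309) (nat_lit 278)) (XT.nd (nat_lit 78) (nat_lit 152) (nat_lit 0) (XT.lf (nat_lit 0) (nat_lit 10382093782) (nat_lit 152) (nat_lit 7654597703) (nat_lit 0) (nat_lit 968073230) (nat_lit 41) (nat_lit 5) (nat_lit 43) (nat_lit 4) (nat_lit 41) (nat_lit 4) (nat_lit 434)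 (nat_lit 309) (nat_lit 277)) (XT.lf (nat_lit 0) (nat_lit 3540628890) (nat_lit 152) (nat_lit 12720575594) (nat_lit 152) (nat_lit 3132472269) (nat_lit 39) (nat_lit 4) (nat_lit 41) (nat_lit 5) (nat_lit 41) (nat_lit 4) (nat_lit 435) (nat_lit 309) (nat_lit 276)))) (XT.nd (nat_lit 156) (nat_lit 76) (nat_lit 0) (XT.nd (nat_lit 78) (nat_lit 76) (nat_lit 0) (XT.lf (nat_lit 0) (nat_lit 2473392527) (nat_lit 228) (nat_lit 4736128894) (nat_lit 76) (nat_lit 12584006144) (nat_lit 38) (nat_lit 5) (nat_lit 41) (nat_lit 5) (nat_lit 39) (nat_lit 4) (nat_lit 436) (nat_lit 309) (nat_lit 275)) (XT.lf (nat_lit 0) (nat_lit 6669939363) (nat_lit 76) (nat_lit 1503038369) (nat_lit 152) (nat_lit 12031814774) (nat_lit 37) (nat_lit 5) (nat_lit 38) (nat_lit 5) (nat_lit 39) (nat_lit 4) (nat_lit 437) (nat_lit 309) (nat_lit 274))) (XT.nd (nat_lit 78) (nat_lit 76) (nat_lit 0) (XT.lf (nat_lit 0) (nat_lit 14058479179) (nat_lit 152) (nat_lit 2297901793)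 (nat_lit 0) (nat_lit 4271570604) (nat_lit 37) (nat_lit 5) (nat_lit 39) (nat_lit 4) (nat_lit 37) (nat_lit 4) (nat_lit 438) (nat_lit 309) (nat_lit 273)) (XT.lf (nat_lit 0) (nat_lit 9303311226) (nat_lit 76) (nat_lit 10848319730) (nat_lit 76) (nat_lit 911245826) (nat_lit 36) (nat_lit 4) (nat_lit 37) (nat_lit 5) (nat_lit 37) (nat_lit 4) (nat_lit 439) (nat_lit 309) (nat_lit 272))))) (XT.nd (nat_lit 234) (nat_lit 228) (nat_lit 0) (XT.nd (nat_lit 78) (nat_lit 152) (nat_lit 0) (XT.lf (nat_lit 0) (nat_lit 4771077263) (nat_lit 152) (nat_lit 397578640) (nat_lit 76) (nat_lit 16342270878) (nat_lit 35) (nat_lit 5) (nat_lit 37) (nat_lit 5) (nat_lit 36) (nat_lit 4) (nat_lit 440) (nat_lit 309) (nat_lit 271)) (XT.nd (nat_lit 78) (nat_lit 76) (nat_lit 0) (XT.lf (nat_lit 0) (nat_lit 10651065212) (nat_lit 152) (nat_lit 10595267811) (nat_lit 0) (nat_lit 724452872) (nat_lit 34) (nat_lit 5) (nat_lit 36) (nat_lit 4) (nat_lit 34) (nat_lit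 4) (nat_lit 441) (nat_lit 309) (nat_lit 270)) (XT.lf (nat_lit 0) (nat_lit 896212221) (nat_lit 76) (nat_lit 15804237219) (nat_lit 76) (nat_lit 5744204928) (nat_lit 33) (nat_lit 4) (nat_lit 34) (nat_lit 5) (nat_lit 34) (nat_lit 4) (nat_lit 442) (nat_lit 309) (nat_lit 269)))) (XT.nd (nat_lit 156) (nat_lit 76) (nat_lit 0) (XT.nd (nat_lit 78) (nat_lit 76) (nat_lit 0) (XT.lf (nat_lit 0) (nat_lit 35881959) (nat_lit 152) (nat_lit 10116725843) (nat_lit 76) (nat_lit 12779016454) (nat_lit 32) (nat_lit 5) (nat_lit 34) (nat_lit 5) (nat_lit 33) (nat_lit 4) (nat_lit 443) (nat_lit 309) (nat_lit 268)) (XT.lf (nat_lit 0) (nat_lit 1498483905) (nat_lit 76) (nat_lit 4321127535) (nat_lit 152) (nat_lit 17613518005) (nat_lit 31) (nat_lit 5) (nat_lit 32) (nat_lit 5) (nat_lit 33) (nat_lit 4) (nat_lit 444) (nat_lit 309) (nat_lit 267))) (XT.nd (nat_lit 78) (nat_lit 76) (nat_lit 0) (XT.lf (nat_lit 0) (nat_lit 11827657059) (nat_lit 152) (nat_lit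 10426267436) (nat_lit 0) (nat_lit 1694234267) (nat_lit 31) (nat_lit 5) (nat_lit 33) (nat_lit 4) (nat_lit 31) (nat_lit 4) (nat_lit 445) (nat_lit 309) (nat_lit 266)) (XT.lf (nat_lit 0) (nat_lit 1281454517) (nat_lit 76) (nat_lit 16723021746) (nat_lit 76) (nat_lit 6474509734) (nat_lit 30) (nat_lit 4) (nat_lit 31) (nat_lit 5) (nat_lit 31) (nat_lit 4) (nat_lit 446) (nat_lit 309) (nat_lit 265))))))) (XT.nd (nat_lit 1092) (nat_lit 532) (nat_lit 0) (XT.nd (nat_lit 546) (nat_lit 304) (nat_lit 0) (XT.nd (nat_lit 234) (nat_lit 228) (nat_lit 0) (XT.nd (nat_lit 78) (nat_lit 152) (nat_lit 0) (XT.lf (nat_lit 0) (nat_lit 13427262719) (nat_lit 76) (nat_lit 10978772162) (nat_lit 76) (nat_lit 618523042) (nat_lit 30) (nat_lit 4) (nat_lit 31) (nat_lit 5) (nat_lit 31) (nat_lit 4) (nat_lit 447) (nat_lit 309) (nat_lit 264)) (XT.nd (nat_lit 78) (nat_lit 0) (nat_lit 0) (XT.lf (nat_lit 0) (nat_lit 177919463) (nat_lit 76) (nat_lit 5066736305)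 (nat_lit 152) (nat_lit 20342168684) (nat_lit 28) (nat_lit 5) (nat_lit 29) (nat_lit 5) (nat_lit 30) (nat_lit 4) (nat_lit 448) (nat_lit 309) (nat_lit 263)) (XT.lf (nat_lit 0) (nat_lit 11334955465) (nat_lit 152) (nat_lit 13760029796) (nat_lit 0) (nat_lit 1068882952) (nat_lit 28) (nat_lit 5) (nat_lit 30) (nat_lit 4) (nat_lit 28) (nat_lit 4) (nat_lit 449) (nat_lit 309) (nat_lit 262)))) (XT.nd (nat_lit 156) (nat_lit 152) (nat_lit 0) (XT.nd (nat_lit 78) (nat_lit 76) (nat_lit 0) (XT.lf (nat_lit 0) (nat_lit 17595564164) (nat_lit 152) (nat_lit 1932819038) (nat_lit 0) (nat_lit 7230214678) (nat_lit 28) (nat_lit 5) (nat_lit 30) (nat_lit 4) (nat_lit 28) (nat_lit 4) (nat_lit 450) (nat_lit 309) (nat_lit 261)) (XT.lf (nat_lit 0) (nat_lit 10333408324) (nat_lit 76) (nat_lit 13749170449) (nat_lit 76) (nat_lit 3287435552) (nat_lit 27) (nat_lit 4) (nat_lit 28) (nat_lit 5) (nat_lit 28) (nat_lit 4) (nat_lit 451) (nat_lit 309) (nat_lit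 260))) (XT.nd (nat_lit 78) (nat_lit 76) (nat_lit 0) (XT.lf (nat_lit 0) (nat_lit 2669508096) (nat_lit 152) (nat_lit 5136211528) (nat_lit 76) (nat_lit 20194488166) (nat_lit 26) (nat_lit 5) (nat_lit 28) (nat_lit 5) (nat_lit 27) (nat_lit 4) (nat_lit 452) (nat_lit 309) (nat_lit 259)) (XT.lf (nat_lit 0) (nat_lit 7113375275) (nat_lit 76) (nat_lit 1635166958) (nat_lit 152) (nat_lit 19899506974) (nat_lit 25) (nat_lit 5) (nat_lit 26) (nat_lit 5) (nat_lit 27) (nat_lit 4) (nat_lit 453) (nat_lit 309) (nat_lit 258))))) (XT.nd (nat_lit 234) (nat_lit 228) (nat_lit 0) (XT.nd (nat_lit 78) (nat_lit 76) (nat_lit 0) (XT.lf (nat_lit 0) (nat_lit 15048886022) (nat_lit 152) (nat_lit 9638108057) (nat_lit 0) (nat_lit 4627165864) (nat_lit 25) (nat_lit 5) (nat_lit 27) (nat_lit 4) (nat_lit 25) (nat_lit 4) (nat_lit 454) (nat_lit 309) (nat_lit 257)) (XT.nd (nat_lit 78) (nat_lit 0) (nat_lit 0) (XT.lf (nat_lit 0) (nat_lit 2537827696) (nat_lit 76)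 (nat_lit 18983893552) (nat_lit 76) (nat_lit 8479030492) (nat_lit 24) (nat_lit 4) (nat_lit 25) (nat_lit 5) (nat_lit 25) (nat_lit 4) (nat_lit 455) (nat_lit 309) (nat_lit 256)) (XT.lf (nat_lit 0) (nat_lit 15166840662) (nat_lit 76) (nat_lit 13062731078) (nat_lit 76) (nat_lit 2477146754) (nat_lit 24) (nat_lit 4) (nat_lit 25) (nat_lit 5) (nat_lit 25) (nat_lit 4) (nat_lit 456) (nat_lit 309) (nat_lit 255)))) (XT.nd (nat_lit 156) (nat_lit 76) (nat_lit 0) (XT.nd (nat_lit 78) (nat_lit 76) (nat_lit 0) (XT.lf (nat_lit 0) (nat_lit 3577104273) (nat_lit 152) (nat_lit 3402432807) (nat_lit 76) (nat_lit 24454922637) (nat_lit 23) (nat_lit 5) (nat_lit 25) (nat_lit 5) (nat_lit 24) (nat_lit 4) (nat_lit 457) (nat_lit 309) (nat_lit 254)) (XT.lf (nat_lit 0) (nat_lit 9148587739) (nat_lit 76) (nat_lit 648766820) (nat_lit 152) (nat_lit 22384919965) (nat_lit 22) (nat_lit 5) (nat_lit 23) (nat_lit 5) (nat_lit 24) (nat_lit 4) (nat_lit 458) (nat_lit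 309) (nat_lit 253))) (XT.nd (nat_lit 78) (nat_lit 76) (nat_lit 0) (XT.lf (nat_lit 0) (nat_lit 16241660868) (nat_lit 152) (nat_lit 10967025511) (nat_lit 0) (nat_lit 5742715812) (nat_lit 22) (nat_lit 5) (nat_lit 24) (nat_lit 4) (nat_lit 22) (nat_lit 4) (nat_lit 459) (nat_lit 309) (nat_lit 252)) (XT.lf (nat_lit 0) (nat_lit 1380566371) (nat_lit 76) (nat_lit 21466294071) (nat_lit 76) (nat_lit 10897718144) (nat_lit 21) (nat_lit 4) (nat_lit 22) (nat_lit 5) (nat_lit 22) (nat_lit 4) (nat_lit 460) (nat_lit 309) (nat_lit 251)))))) (XT.nd (nat_lit 546) (nat_lit 304) (nat_lit 0) (XT.nd (nat_lit 234) (nat_lit 76) (nat_lit 0) (XT.nd (nat_lit 78) (nat_lit 152) (nat_lit 0) (XT.lf (nat_lit 0) (nat_lit 14222809603) (nat_lit 76) (nat_lit 15486573076) (nat_lit 76) (nat_lit 4850394361) (nat_lit 21) (nat_lit 4) (nat_lit 22) (nat_lit 5) (nat_lit 22) (nat_lit 4) (nat_lit 461) (nat_lit 309) (nat_lit 250)) (XT.nd (nat_lit 78) (nat_lit 76)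 (nat_lit 0) (XT.lf (nat_lit 0) (nat_lit 1300878605) (nat_lit 152) (nat_lit 8061028919) (nat_lit 76) (nat_lit 26038645321) (nat_lit 20) (nat_lit 5) (nat_lit 22) (nat_lit 5) (nat_lit 21) (nat_lit 4) (nat_lit 462) (nat_lit 309) (nat_lit 249)) (XT.lf (nat_lit 0) (nat_lit 4527721969) (nat_lit 76) (nat_lit 3005901956) (nat_lit 152) (nat_lit 28731656236) (nat_lit 19) (nat_lit 5) (nat_lit 20) (nat_lit 5) (nat_lit 21) (nat_lit 4) (nat_lit 463) (nat_lit 309) (nat_lit 248)))) (XT.nd (nat_lit 156) (nat_lit 76) (nat_lit 0) (XT.nd (nat_lit 78) (nat_lit 0) (nat_lit 0) (XT.lf (nat_lit 0) (nat_lit 14020566893) (nat_lit 152) (nat_lit 19624840161) (nat_lit 0) (nat_lit 3508527352) (nat_lit 19) (nat_lit 5) (nat_lit 21) (nat_lit 4) (nat_lit 19) (nat_lit 4) (nat_lit 464) (nat_lit 309) (nat_lit 247)) (XT.lf (nat_lit 0) (nat_lit 20684280114) (nat_lit 152) (nat_lit 7271579016) (nat_lit 0) (nat_lit 10113925814) (nat_lit 19) (nat_lit 5) (nat_lit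 21) (nat_lit 4) (nat_lit 19) (nat_lit 4) (nat_lit 465) (nat_lit 309) (nat_lit 246))) (XT.nd (nat_lit 78) (nat_lit 0) (nat_lit 0) (XT.lf (nat_lit 0) (nat_lit 5468626524) (nat_lit 76) (nat_lit 22085632940) (nat_lit 76) (nat_lit 11458662370) (nat_lit 18) (nat_lit 4) (nat_lit 19) (nat_lit 5) (nat_lit 19) (nat_lit 4) (nat_lit 466) (nat_lit 309) (nat_lit 245)) (XT.lf (nat_lit 0) (nat_lit 18650618375) (nat_lit 76) (nat_lit 16007421336) (nat_lit 76) (nat_lit 5325483513) (nat_lit 18) (nat_lit 4) (nat_lit 19) (nat_lit 5) (nat_lit 19) (nat_lit 4) (nat_lit 467) (nat_lit 309) (nat_lit 244))))) (XT.nd (nat_lit 312) (nat_lit 152) (nat_lit 0) (XT.nd (nat_lit 156) (nat_lit 0) (nat_lit 0) (XT.nd (nat_lit 78) (nat_lit 76) (nat_lit 0) (XT.lf (nat_lit 0) (nat_lit 927503010) (nat_lit 152) (nat_lit 8852472975) (nat_lit 76) (nat_lit 31204327126) (nat_lit 17) (nat_lit 5) (nat_lit 19) (nat_lit 5) (nat_lit 18) (nat_lit 4) (nat_lit 468) (nat_lit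 309) (nat_lit 243)) (XT.lf (nat_lit 0) (nat_lit 3941342862) (nat_lit 76) (nat_lit 3314055589) (nat_lit 152) (nat_lit 34758296745) (nat_lit 16) (nat_lit 5) (nat_lit 17) (nat_lit 5) (nat_lit 18) (nat_lit 4) (nat_lit 469) (nat_lit 309) (nat_lit 242))) (XT.nd (nat_lit 78) (nat_lit 0) (nat_lit 0) (XT.lf (nat_lit 0) (nat_lit 13852100183) (nat_lit 152) (nat_lit 25889166715) (nat_lit 0) (nat_lit 3330334340) (nat_lit 16) (nat_lit 5) (nat_lit 18) (nat_lit 4) (nat_lit 16) (nat_lit 4) (nat_lit 470) (nat_lit 309) (nat_lit 241)) (XT.lf (nat_lit 0) (nat_lit 20637310977) (nat_lit 152) (nat_lit 13456086581) (nat_lit 0) (nat_lit 10068129899) (nat_lit 16) (nat_lit 5) (nat_lit 18) (nat_lit 4) (nat_lit 16) (nat_lit 4) (nat_lit 471) (nat_lit 309) (nat_lit 240)))) (XT.nd (nat_lit 156) (nat_lit 76) (nat_lit 0) (XT.nd (nat_lit 78) (nat_lit 76) (nat_lit 0) (XT.lf (nat_lit 0) (nat_lit 27585102930) (nat_lit 152) (nat_lit 730391348) (nat_lit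 0) (nat_lit 16969887643) (nat_lit 16) (nat_lit 5) (nat_lit 18) (nat_lit 4) (nat_lit 16) (nat_lit 4) (nat_lit 472) (nat_lit 309) (nat_lit 239)) (XT.lf (nat_lit 0) (nat_lit 12543813505) (nat_lit 76) (nat_lit 22278312232) (nat_lit 76) (nat_lit 11618403538) (nat_lit 15) (nat_lit 4) (nat_lit 16) (nat_lit 5) (nat_lit 16) (nat_lit 4) (nat_lit 473) (nat_lit 309) (nat_lit 238))) (XT.nd (nat_lit 78) (nat_lit 76) (nat_lit 0) (XT.lf (nat_lit 0) (nat_lit 26153945655) (nat_lit 76) (nat_lit 16090323293) (nat_lit 76) (nat_lit 5387022943) (nat_lit 15) (nat_lit 4) (nat_lit 16) (nat_lit 5) (nat_lit 16) (nat_lit 4) (nat_lit 474) (nat_lit 309) (nat_lit 237)) (XT.lf (nat_lit 0) (nat_lit 972575999) (nat_lit 152) (nat_lit 8771098893) (nat_lit 76) (nat_lit 39114964119) (nat_lit 14) (nat_lit 5) (nat_lit 16) (nat_lit 5) (nat_lit 15) (nat_lit 4) (nat_lit 475) (nat_lit 309) (nat_lit 236))))))))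
noncomputable def xc37 : XT := (XT.nd (nat_lit 48126) (nat_lit 0) (nat_lit 1976) (XT.nd (nat_lit 1092) (nat_lit 0) (nat_lit 0) (XT.nd (nat_lit 546) (nat_lit 228) (nat_lit 0) (XT.nd (nat_lit 234) (nat_lit 76) (nat_lit 0) (XT.nd (nat_lit 78) (nat_lit 0) (nat_lit 0) (XT.lf (nat_lit 0) (nat_lit 4272794285) (nat_lit 76) (nat_lit 3145493032) (nat_lit 152) (nat_lit 42702812211) (nat_lit 13) (nat_lit 5) (nat_lit 14) (nat_lit 5) (nat_lit 15) (nat_lit 4) (nat_lit 476) (nat_lit 309) (nat_lit 235)) (XT.nd (nat_lit 78) (nat_lit 0) (nat_lit 0) (XT.lf (nat_lit 0) (nat_lit 14144482660) (nat_lit 152) (nat_lit 33640573144) (nat_lit 0) (nat_lit 3633765685) (nat_lit 13) (nat_lit 5) (nat_lit 15) (nat_lit 4) (nat_lit 13) (nat_lit 4) (nat_lit 477) (nat_lit 309) (nat_lit 234)) (XT.lf (nat_lit 0) (nat_lit 21067270186) (nat_lit 152) (nat_lit 21169238525) (nat_lit 0) (nat_lit 10519123187) (nat_lit 13) (nat_lit 5) (nat_lit 15) (nat_lit 4)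 (nat_lit 13) (nat_lit 4) (nat_lit 478) (nat_lit 309) (nat_lit 233)))) (XT.nd (nat_lit 156) (nat_lit 0) (nat_lit 0) (XT.nd (nat_lit 78) (nat_lit 76) (nat_lit 0) (XT.lf (nat_lit 0) (nat_lit 28162462530) (nat_lit 152) (nat_lit 8393167700) (nat_lit 0) (nat_lit 17577975701) (nat_lit 13) (nat_lit 5) (nat_lit 15) (nat_lit 4) (nat_lit 13) (nat_lit 4) (nat_lit 479) (nat_lit 309) (nat_lit 232)) (XT.lf (nat_lit 0) (nat_lit 4792318278) (nat_lit 76) (nat_lit 30690007792) (nat_lit 76) (nat_lit 20070239575) (nat_lit 12) (nat_lit 4) (nat_lit 13) (nat_lit 5) (nat_lit 13) (nat_lit 4) (nat_lit 480) (nat_lit 309) (nat_lit 231))) (XT.nd (nat_lit 78) (nat_lit 0) (nat_lit 0) (XT.lf (nat_lit 0) (nat_lit 18478698794) (nat_lit 76) (nat_lit 24593946228) (nat_lit 76) (nat_lit 13939924237) (nat_lit 12) (nat_lit 4) (nat_lit 13) (nat_lit 5) (nat_lit 13) (nat_lit 4) (nat_lit 481) (nat_lit 309) (nat_lit 230)) (XT.lf (nat_lit 0) (nat_lit 32510892326)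 (nat_lit 76) (nat_lit 18346873421) (nat_lit 76) (nat_lit 7659595338) (nat_lit 12) (nat_lit 4) (nat_lit 13) (nat_lit 5) (nat_lit 13) (nat_lit 4) (nat_lit 482) (nat_lit 309) (nat_lit 229))))) (XT.nd (nat_lit 234) (nat_lit 76) (nat_lit 0) (XT.nd (nat_lit 78) (nat_lit 152) (nat_lit 0) (XT.lf (nat_lit 0) (nat_lit 46901160015) (nat_lit 76) (nat_lit 11943330762) (nat_lit 76) (nat_lit 1223765211) (nat_lit 12) (nat_lit 4) (nat_lit 13) (nat_lit 5) (nat_lit 13) (nat_lit 4) (nat_lit 483) (nat_lit 309) (nat_lit 228)) (XT.nd (nat_lit 78) (nat_lit 76) (nat_lit 0) (XT.lf (nat_lit 0) (nat_lit 5268339399) (nat_lit 152) (nat_lit 56183626) (nat_lit 76) (nat_lit 56340536584) (nat_lit 11) (nat_lit 5) (nat_lit 13) (nat_lit 5) (nat_lit 12) (nat_lit 4) (nat_lit 484) (nat_lit 309) (nat_lit 227)) (XT.lf (nat_lit 0) (nat_lit 12046819420) (nat_lit 152) (nat_lit 49679606351) (nat_lit 0) (nat_lit 1579492583) (nat_lit 10) (nat_lit 5) (nat_lit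 12) (nat_lit 4) (nat_lit 10) (nat_lit 4) (nat_lit 485) (nat_lit 309) (nat_lit 226)))) (XT.nd (nat_lit 156) (nat_lit 76) (nat_lit 0) (XT.nd (nat_lit 78) (nat_lit 0) (nat_lit 0) (XT.lf (nat_lit 0) (nat_lit 19051565721) (nat_lit 152) (nat_lit 37388198646) (nat_lit 0) (nat_lit 8555551887) (nat_lit 10) (nat_lit 5) (nat_lit 12) (nat_lit 4) (nat_lit 10) (nat_lit 4) (nat_lit 486) (nat_lit 309) (nat_lit 225)) (XT.lf (nat_lit 0) (nat_lit 26236960108) (nat_lit 152) (nat_lit 24786226719) (nat_lit 0) (nat_lit 15713094820) (nat_lit 10) (nat_lit 5) (nat_lit 12) (nat_lit 4) (nat_lit 10) (nat_lit 4) (nat_lit 487) (nat_lit 309) (nat_lit 224))) (XT.nd (nat_lit 78) (nat_lit 76) (nat_lit 0) (XT.lf (nat_lit 0) (nat_lit 33609281081) (nat_lit 152) (nat_lit 11862679139) (nat_lit 0) (nat_lit 23058375547) (nat_lit 10) (nat_lit 5) (nat_lit 12) (nat_lit 4) (nat_lit 10) (nat_lit 4) (nat_lit 488) (nat_lit 309) (nat_lit 223)) (XT.lf (nat_lit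 0) (nat_lit 1421474603) (nat_lit 76) (nat_lit 39767159953) (nat_lit 76) (nat_lit 29190001753) (nat_lit 9) (nat_lit 4) (nat_lit 10) (nat_lit 5) (nat_lit 10) (nat_lit 4) (nat_lit 489) (nat_lit 309) (nat_lit 222)))))) (XT.nd (nat_lit 46410) (nat_lit 0) (nat_lit 5092) (XT.nd (nat_lit 46098) (nat_lit 0) (nat_lit 6384) (XT.nd (nat_lit 78) (nat_lit 0) (nat_lit 0) (XT.lf (nat_lit 0) (nat_lit 15293025528) (nat_lit 76) (nat_lit 33794619470) (nat_lit 76) (nat_lit 23191973245) (nat_lit 9) (nat_lit 4) (nat_lit 10) (nat_lit 5) (nat_lit 10) (nat_lit 4) (nat_lit 490) (nat_lit 309) (nat_lit 221)) (XT.nd (nat_lit 78) (nat_lit 0) (nat_lit 0) (XT.lf (nat_lit 0) (nat_lit 29528003832) (nat_lit 76) (nat_lit 27668909846) (nat_lit 76) (nat_lit 17041517965) (nat_lit 9) (nat_lit 4) (nat_lit 10) (nat_lit 5) (nat_lit 10) (nat_lit 4) (nat_lit 491) (nat_lit 309) (nat_lit 220)) (XT.lf (nat_lit 0) (nat_lit 44138847847) (nat_lit 76) (nat_lit 21384678519)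 (nat_lit 76) (nat_lit 10733261730) (nat_lit 9) (nat_lit 4) (nat_lit 10) (nat_lit 5) (nat_lit 10) (nat_lit 4) (nat_lit 492) (nat_lit 309) (nat_lit 219)))) (XT.nd (nat_lit 156) (nat_lit 456) (nat_lit 0) (XT.nd (nat_lit 78) (nat_lit 304) (nat_lit 0) (XT.lf (nat_lit 0) (nat_lit 3946573355) (nat_lit 228) (nat_lit 669638287) (nat_lit 228) (nat_lit 669638287) (nat_lit 103) (nat_lit 4) (nat_lit 106) (nat_lit 5) (nat_lit 106) (nat_lit 4) (nat_lit 400) (nat_lit 310) (nat_lit 310)) (XT.lf (nat_lit 0) (nat_lit 3470052916) (nat_lit 304) (nat_lit 4441569819) (nat_lit 0) (nat_lit 2811742227) (nat_lit 99) (nat_lit 5) (nat_lit 103) (nat_lit 4) (nat_lit 99) (nat_lit 4) (nat_lit 401) (nat_lit 310) (nat_lit 309))) (XT.nd (nat_lit 78) (nat_lit 228) (nat_lit 0) (XT.lf (nat_lit 0) (nat_lit 4571059001) (nat_lit 228) (nat_lit 3803131894) (nat_lit 228) (nat_lit 2505684613) (nat_lit 96) (nat_lit 4) (nat_lit 99) (nat_lit 5) (nat_lit 99) (nat_lit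 4) (nat_lit 402) (nat_lit 310) (nat_lit 308)) (XT.lf (nat_lit 0) (nat_lit 2307294471) (nat_lit 228) (nat_lit 8288842143) (nat_lit 0) (nat_lit 445189380) (nat_lit 93) (nat_lit 5) (nat_lit 96) (nat_lit 4) (nat_lit 93) (nat_lit 4) (nat_lit 403) (nat_lit 310) (nat_lit 307))))) (XT.nd (nat_lit 312) (nat_lit 608) (nat_lit 0) (XT.nd (nat_lit 156) (nat_lit 380) (nat_lit 0) (XT.nd (nat_lit 78) (nat_lit 76) (nat_lit 0) (XT.lf (nat_lit 0) (nat_lit 781836142) (nat_lit 228) (nat_lit 6435977554) (nat_lit 228) (nat_lit 3988971941) (nat_lit 90) (nat_lit 4) (nat_lit 93) (nat_lit 5) (nat_lit 93) (nat_lit 4) (nat_lit 404) (nat_lit 310) (nat_lit 306)) (XT.lf (nat_lit 0) (nat_lit 859769978) (nat_lit 304) (nat_lit 1269537138) (nat_lit 76) (nat_lit 9248291396) (nat_lit 89) (nat_lit 5) (nat_lit 93) (nat_lit 5) (nat_lit 90) (nat_lit 4) (nat_lit 405) (nat_lit 310) (nat_lit 305))) (XT.nd (nat_lit 78) (nat_lit 228) (nat_lit 0) (XT.lf (nat_lit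 0) (nat_lit 5771757017) (nat_lit 228) (nat_lit 3471237440) (nat_lit 0) (nat_lit 2309431742) (nat_lit 87) (nat_lit 5) (nat_lit 90) (nat_lit 4) (nat_lit 87) (nat_lit 4) (nat_lit 406) (nat_lit 310) (nat_lit 304)) (XT.lf (nat_lit 0) (nat_lit 5925432764) (nat_lit 228) (nat_lit 4894705157) (nat_lit 228) (nat_lit 912703344) (nat_lit 84) (nat_lit 4) (nat_lit 87) (nat_lit 5) (nat_lit 87) (nat_lit 4) (nat_lit 407) (nat_lit 310) (nat_lit 303)))) (XT.nd (nat_lit 156) (nat_lit 228) (nat_lit 0) (XT.nd (nat_lit 78) (nat_lit 152) (nat_lit 0) (XT.lf (nat_lit 0) (nat_lit 3612618436) (nat_lit 152) (nat_lit 377115837) (nat_lit 228) (nat_lit 7928710663) (nat_lit 81) (nat_lit 5) (nat_lit 83) (nat_lit 5) (nat_lit 84) (nat_lit 4) (nat_lit 408) (nat_lit 310) (nat_lit 302)) (XT.lf (nat_lit 0) (nat_lit 1121352881) (nat_lit 152) (nat_lit 7909574087) (nat_lit 152) (nat_lit 3078130283) (nat_lit 79) (nat_lit 4) (nat_lit 81) (nat_lit 5) (nat_lit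 81) (nat_lit 4) (nat_lit 409) (nat_lit 310) (nat_lit 301))) (XT.nd (nat_lit 78) (nat_lit 152) (nat_lit 0) (XT.lf (nat_lit 0) (nat_lit 1868163961) (nat_lit 228) (nat_lit 1500796834) (nat_lit 76) (nat_lit 8936257065) (nat_lit 78) (nat_lit 5) (nat_lit 81) (nat_lit 5) (nat_lit 79) (nat_lit 4) (nat_lit 410) (nat_lit 310) (nat_lit 300)) (XT.lf (nat_lit 0) (nat_lit 6895158841) (nat_lit 228) (nat_lit 4290437909) (nat_lit 0) (nat_lit 1320938237) (nat_lit 76) (nat_lit 5) (nat_lit 79) (nat_lit 4) (nat_lit 76) (nat_lit 4) (nat_lit 411) (nat_lit 310) (nat_lit 299))))))) (XT.nd (nat_lit 1092) (nat_lit 1368) (nat_lit 0) (XT.nd (nat_lit 546) (nat_lit 760) (nat_lit 0) (XT.nd (nat_lit 234) (nat_lit 608) (nat_lit 0) (XT.nd (nat_lit 78) (nat_lit 228) (nat_lit 0) (XT.lf (nat_lit 0) (nat_lit 5442604816) (nat_lit 152) (nat_lit 6633977241) (nat_lit 152) (nat_lit 637212055) (nat_lit 74) (nat_lit 4) (nat_lit 76) (nat_lit 5) (nat_lit 76)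 (nat_lit 4) (nat_lit 412) (nat_lit 310) (nat_lit 298)) (XT.nd (nat_lit 78) (nat_lit 0) (nat_lit 0) (XT.lf (nat_lit 0) (nat_lit 2461928100) (nat_lit 152) (nat_lit 1907003300) (nat_lit 228) (nat_lit 8557947423) (nat_lit 71) (nat_lit 5) (nat_lit 73) (nat_lit 5) (nat_lit 74) (nat_lit 4) (nat_lit 413) (nat_lit 310) (nat_lit 297)) (XT.lf (nat_lit 0) (nat_lit 9518423704) (nat_lit 228) (nat_lit 716229409) (nat_lit 0) (nat_lit 2911344639) (nat_lit 71) (nat_lit 5) (nat_lit 74) (nat_lit 4) (nat_lit 71) (nat_lit 4) (nat_lit 414) (nat_lit 310) (nat_lit 296)))) (XT.nd (nat_lit 156) (nat_lit 228) (nat_lit 0) (XT.nd (nat_lit 78) (nat_lit 152) (nat_lit 0) (XT.lf (nat_lit 0) (nat_lit 1437175791) (nat_lit 228) (nat_lit 4065037594) (nat_lit 76) (nat_lit 7868624816) (nat_lit 68) (nat_lit 5) (nat_lit 71) (nat_lit 5) (nat_lit 69) (nat_lit 4) (nat_lit 415) (nat_lit 310) (nat_lit 295)) (XT.lf (nat_lit 0) (nat_lit 5953287478) (nat_lit 152)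 (nat_lit 598575870) (nat_lit 228) (nat_lit 7050365089) (nat_lit 66) (nat_lit 5) (nat_lit 68) (nat_lit 5) (nat_lit 69) (nat_lit 4) (nat_lit 416) (nat_lit 310) (nat_lit 294))) (XT.nd (nat_lit 78) (nat_lit 76) (nat_lit 0) (XT.lf (nat_lit 0) (nat_lit 2350536119) (nat_lit 152) (nat_lit 9483098169) (nat_lit 152) (nat_lit 2006525786) (nat_lit 64) (nat_lit 4) (nat_lit 66) (nat_lit 5) (nat_lit 66) (nat_lit 4) (nat_lit 417) (nat_lit 310) (nat_lit 293)) (XT.lf (nat_lit 0) (nat_lit 3117325748) (nat_lit 228) (nat_lit 1481961707) (nat_lit 76) (nat_lit 9485303573) (nat_lit 63) (nat_lit 5) (nat_lit 66) (nat_lit 5) (nat_lit 64) (nat_lit 4) (nat_lit 418) (nat_lit 310) (nat_lit 292))))) (XT.nd (nat_lit 234) (nat_lit 304) (nat_lit 0) (XT.nd (nat_lit 78) (nat_lit 304) (nat_lit 0) (XT.lf (nat_lit 0) (nat_lit 8353465482) (nat_lit 228) (nat_lit 5525935336) (nat_lit 0) (nat_lit 456399255) (nat_lit 61) (nat_lit 5) (nat_lit 64) (nat_lit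 4) (nat_lit 61) (nat_lit 4) (nat_lit 419) (nat_lit 310) (nat_lit 291)) (XT.nd (nat_lit 78) (nat_lit 152) (nat_lit 0) (XT.lf (nat_lit 0) (nat_lit 4729355302) (nat_lit 152) (nat_lit 9033516999) (nat_lit 152) (nat_lit 831195576) (nat_lit 59) (nat_lit 4) (nat_lit 61) (nat_lit 5) (nat_lit 61) (nat_lit 4) (nat_lit 420) (nat_lit 310) (nat_lit 290)) (XT.lf (nat_lit 0) (nat_lit 346202616) (nat_lit 76) (nat_lit 4010885219) (nat_lit 152) (nat_lit 10502615354) (nat_lit 57) (nat_lit 5) (nat_lit 58) (nat_lit 5) (nat_lit 59) (nat_lit 4) (nat_lit 421) (nat_lit 310) (nat_lit 289)))) (XT.nd (nat_lit 156) (nat_lit 152) (nat_lit 0) (XT.nd (nat_lit 78) (nat_lit 152) (nat_lit 0) (XT.lf (nat_lit 0) (nat_lit 9706671850) (nat_lit 152) (nat_lit 4249556422) (nat_lit 0) (nat_lit 1176168948) (nat_lit 57) (nat_lit 5) (nat_lit 59) (nat_lit 4) (nat_lit 57) (nat_lit 4) (nat_lit 422) (nat_lit 310) (nat_lit 288)) (XT.lf (nat_lit 0) (nat_lit 6244733497)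 (nat_lit 152) (nat_lit 8984938003) (nat_lit 152) (nat_lit 183219813) (nat_lit 55) (nat_lit 4) (nat_lit 57) (nat_lit 5) (nat_lit 57) (nat_lit 4) (nat_lit 423) (nat_lit 310) (nat_lit 287))) (XT.nd (nat_lit 78) (nat_lit 0) (nat_lit 0) (XT.lf (nat_lit 0) (nat_lit 1254477126) (nat_lit 76) (nat_lit 3829025893) (nat_lit 152) (nat_lit 10617737468) (nat_lit 53) (nat_lit 5) (nat_lit 54) (nat_lit 5) (nat_lit 55) (nat_lit 4) (nat_lit 424) (nat_lit 310) (nat_lit 286)) (XT.lf (nat_lit 0) (nat_lit 10525927696) (nat_lit 152) (nat_lit 3994899619) (nat_lit 0) (nat_lit 1476723401) (nat_lit 53) (nat_lit 5) (nat_lit 55) (nat_lit 4) (nat_lit 53) (nat_lit 4) (nat_lit 425) (nat_lit 310) (nat_lit 285)))))) (XT.nd (nat_lit 546) (nat_lit 608) (nat_lit 0) (XT.nd (nat_lit 234) (nat_lit 456) (nat_lit 0) (XT.nd (nat_lit 78) (nat_lit 152) (nat_lit 0) (XT.lf (nat_lit 0) (nat_lit 6707977662) (nat_lit 152) (nat_lit 9442198954) (nat_lit 152) (nat_lit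 152023389) (nat_lit 51) (nat_lit 4) (nat_lit 53) (nat_lit 5) (nat_lit 53) (nat_lit 4) (nat_lit 426) (nat_lit 310) (nat_lit 284)) (XT.nd (nat_lit 78) (nat_lit 0) (nat_lit 0) (XT.lf (nat_lit 0) (nat_lit 1011509975) (nat_lit 76) (nat_lit 4178459596) (nat_lit 152) (nat_lit 11425486170) (nat_lit 49) (nat_lit 5) (nat_lit 50) (nat_lit 5) (nat_lit 51) (nat_lit 4) (nat_lit 427) (nat_lit 310) (nat_lit 283)) (XT.lf (nat_lit 0) (nat_lit 10715523301) (nat_lit 152) (nat_lit 4973481767) (nat_lit 0) (nat_lit 1248273992) (nat_lit 49) (nat_lit 5) (nat_lit 51) (nat_lit 4) (nat_lit 49) (nat_lit 4) (nat_lit 428) (nat_lit 310) (nat_lit 282)))) (XT.nd (nat_lit 156) (nat_lit 228) (nat_lit 0) (XT.nd (nat_lit 78) (nat_lit 76) (nat_lit 0) (XT.lf (nat_lit 0) (nat_lit 5898212104) (nat_lit 152) (nat_lit 10525693930) (nat_lit 152) (nat_lit 844344768) (nat_lit 47) (nat_lit 4) (nat_lit 49) (nat_lit 5) (nat_lit 49) (nat_lit 4) (nat_lit 429) (nat_lit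 310) (nat_lit 281)) (XT.lf (nat_lit 0) (nat_lit 4572618027) (nat_lit 228) (nat_lit 606798500) (nat_lit 76) (nat_lit 12429291665) (nat_lit 46) (nat_lit 5) (nat_lit 49) (nat_lit 5) (nat_lit 47) (nat_lit 4) (nat_lit 430) (nat_lit 310) (nat_lit 280))) (XT.nd (nat_lit 78) (nat_lit 152) (nat_lit 0) (XT.lf (nat_lit 0) (nat_lit 10161374828) (nat_lit 152) (nat_lit 7432705759) (nat_lit 0) (nat_lit 364265370) (nat_lit 45) (nat_lit 5) (nat_lit 47) (nat_lit 4) (nat_lit 45) (nat_lit 4) (nat_lit 431) (nat_lit 310) (nat_lit 279)) (XT.lf (nat_lit 0) (nat_lit 3556904569) (nat_lit 152) (nat_lit 12374253376) (nat_lit 152) (nat_lit 2386918972) (nat_lit 43) (nat_lit 4) (nat_lit 45) (nat_lit 5) (nat_lit 45) (nat_lit 4) (nat_lit 432) (nat_lit 310) (nat_lit 278))))) (XT.nd (nat_lit 312) (nat_lit 228) (nat_lit 0) (XT.nd (nat_lit 156) (nat_lit 228) (nat_lit 0) (XT.nd (nat_lit 78) (nat_lit 76) (nat_lit 0) (XT.lf (nat_lit 0) (nat_lit 3120883880)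 (nat_lit 228) (nat_lit 3836624540) (nat_lit 76) (nat_lit 11730249208) (nat_lit 42) (nat_lit 5) (nat_lit 45) (nat_lit 5) (nat_lit 43) (nat_lit 4) (nat_lit 433) (nat_lit 310) (nat_lit 277)) (XT.lf (nat_lit 0) (nat_lit 7393109223) (nat_lit 76) (nat_lit 1347990922) (nat_lit 152) (nat_lit 10326869556) (nat_lit 41) (nat_lit 5) (nat_lit 42) (nat_lit 5) (nat_lit 43) (nat_lit 4) (nat_lit 434) (nat_lit 310) (nat_lit 276))) (XT.nd (nat_lit 78) (nat_lit 228) (nat_lit 0) (XT.lf (nat_lit 0) (nat_lit 14535924760) (nat_lit 152) (nat_lit 606404575) (nat_lit 0) (nat_lit 4317083162) (nat_lit 41) (nat_lit 5) (nat_lit 43) (nat_lit 4) (nat_lit 41) (nat_lit 4) (nat_lit 435) (nat_lit 310) (nat_lit 275)) (XT.lf (nat_lit 0) (nat_lit 674075181) (nat_lit 228) (nat_lit 9014558689) (nat_lit 76) (nat_lit 10172445512) (nat_lit 38) (nat_lit 5) (nat_lit 41) (nat_lit 5) (nat_lit 39) (nat_lit 4) (nat_lit 436) (nat_lit 310) (nat_lit 274)))) (XT.nd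 (nat_lit 156) (nat_lit 152) (nat_lit 0) (XT.nd (nat_lit 78) (nat_lit 0) (nat_lit 0) (XT.lf (nat_lit 0) (nat_lit 2236364664) (nat_lit 76) (nat_lit 4058515320) (nat_lit 152) (nat_lit 13979829741) (nat_lit 37) (nat_lit 5) (nat_lit 38) (nat_lit 5) (nat_lit 39) (nat_lit 4) (nat_lit 437) (nat_lit 310) (nat_lit 273)) (XT.lf (nat_lit 0) (nat_lit 12119744998) (nat_lit 152) (nat_lit 6845551275) (nat_lit 0) (nat_lit 1734393547) (nat_lit 37) (nat_lit 5) (nat_lit 39) (nat_lit 4) (nat_lit 37) (nat_lit 4) (nat_lit 438) (nat_lit 310) (nat_lit 272))) (XT.nd (nat_lit 78) (nat_lit 76) (nat_lit 0) (XT.lf (nat_lit 0) (nat_lit 4597105980) (nat_lit 76) (nat_lit 13535530876) (nat_lit 76) (nat_lit 3004387845) (nat_lit 36) (nat_lit 4) (nat_lit 37) (nat_lit 5) (nat_lit 37) (nat_lit 4) (nat_lit 439) (nat_lit 310) (nat_lit 271)) (XT.lf (nat_lit 0) (nat_lit 2683799229) (nat_lit 152) (nat_lit 5224575821) (nat_lit 76) (nat_lit 13678354459) (nat_lit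 35) (nat_lit 5) (nat_lit 37) (nat_lit 5) (nat_lit 36) (nat_lit 4) (nat_lit 440) (nat_lit 310) (nat_lit 270))))))))
noncomputable def xc38 : XT := (XT.nd (nat_lit 2262) (nat_lit 608) (nat_lit 0) (XT.nd (nat_lit 1092) (nat_lit 608) (nat_lit 0) (XT.nd (nat_lit 546) (nat_lit 380) (nat_lit 0) (XT.nd (nat_lit 234) (nat_lit 228) (nat_lit 0) (XT.nd (nat_lit 78) (nat_lit 76) (nat_lit 0) (XT.lf (nat_lit 0) (nat_lit 6393659725) (nat_lit 76) (nat_lit 2081104082) (nat_lit 152) (nat_lit 13574497233) (nat_lit 34) (nat_lit 5) (nat_lit 35) (nat_lit 5) (nat_lit 36) (nat_lit 4) (nat_lit 441) (nat_lit 310) (nat_lit 269)) (XT.nd (nat_lit 78) (nat_lit 76) (nat_lit 0) (XT.lf (nat_lit 0) (nat_lit 14461644456) (nat_lit 152) (nat_lit 4226504516) (nat_lit 0) (nat_lit 3836857316) (nat_lit 34) (nat_lit 5) (nat_lit 36) (nat_lit 4) (nat_lit 34) (nat_lit 4) (nat_lit 442) (nat_lit 310) (nat_lit 268)) (XT.lf (nat_lit 0) (nat_lit 7544164806) (nat_lit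 76) (nat_lit 13110310155) (nat_lit 76) (nat_lit 2359761915) (nat_lit 33) (nat_lit 4) (nat_lit 34) (nat_lit 5) (nat_lit 34) (nat_lit 4) (nat_lit 443) (nat_lit 310) (nat_lit 267)))) (XT.nd (nat_lit 156) (nat_lit 76) (nat_lit 0) (XT.nd (nat_lit 78) (nat_lit 76) (nat_lit 0) (XT.lf (nat_lit 0) (nat_lit 3422748500) (nat_lit 152) (nat_lit 3924466938) (nat_lit 76) (nat_lit 16170626654) (nat_lit 32) (nat_lit 5) (nat_lit 34) (nat_lit 5) (nat_lit 33) (nat_lit 4) (nat_lit 444) (nat_lit 310) (nat_lit 266)) (XT.lf (nat_lit 0) (nat_lit 7975515175) (nat_lit 76) (nat_lit 1367688502) (nat_lit 152) (nat_lit 14692296925) (nat_lit 31) (nat_lit 5) (nat_lit 32) (nat_lit 5) (nat_lit 33) (nat_lit 4) (nat_lit 445) (nat_lit 310) (nat_lit 265))) (XT.nd (nat_lit 78) (nat_lit 76) (nat_lit 0) (XT.lf (nat_lit 0) (nat_lit 15462720047) (nat_lit 152) (nat_lit 4425401966) (nat_lit 0) (nat_lit 4679926347) (nat_lit 31) (nat_lit 5) (nat_lit 33) (nat_lit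 4) (nat_lit 31) (nat_lit 4) (nat_lit 446) (nat_lit 310) (nat_lit 264)) (XT.lf (nat_lit 0) (nat_lit 7571653082) (nat_lit 76) (nat_lit 14217745664) (nat_lit 76) (nat_lit 3326469334) (nat_lit 30) (nat_lit 4) (nat_lit 31) (nat_lit 5) (nat_lit 31) (nat_lit 4) (nat_lit 447) (nat_lit 310) (nat_lit 263))))) (XT.nd (nat_lit 234) (nat_lit 228) (nat_lit 0) (XT.nd (nat_lit 78) (nat_lit 76) (nat_lit 0) (XT.lf (nat_lit 0) (nat_lit 2556960592) (nat_lit 152) (nat_lit 5805969267) (nat_lit 76) (nat_lit 17316964700) (nat_lit 29) (nat_lit 5) (nat_lit 31) (nat_lit 5) (nat_lit 30) (nat_lit 4) (nat_lit 448) (nat_lit 310) (nat_lit 262)) (XT.nd (nat_lit 78) (nat_lit 0) (nat_lit 0) (XT.lf (nat_lit 0) (nat_lit 6256249215) (nat_lit 76) (nat_lit 2293062985) (nat_lit 152) (nat_lit 17710565840) (nat_lit 28) (nat_lit 5) (nat_lit 29) (nat_lit 5) (nat_lit 30) (nat_lit 4) (nat_lit 449) (nat_lit 310) (nat_lit 261)) (XT.lf (nat_lit 0) (nat_lit 14757955721)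 (nat_lit 152) (nat_lit 8212228814) (nat_lit 0) (nat_lit 3885983367) (nat_lit 28) (nat_lit 5) (nat_lit 30) (nat_lit 4) (nat_lit 28) (nat_lit 4) (nat_lit 450) (nat_lit 310) (nat_lit 260)))) (XT.nd (nat_lit 156) (nat_lit 152) (nat_lit 0) (XT.nd (nat_lit 78) (nat_lit 0) (nat_lit 0) (XT.lf (nat_lit 0) (nat_lit 3871740098) (nat_lit 76) (nat_lit 17282065411) (nat_lit 76) (nat_lit 6316514989) (nat_lit 27) (nat_lit 4) (nat_lit 28) (nat_lit 5) (nat_lit 28) (nat_lit 4) (nat_lit 451) (nat_lit 310) (nat_lit 259)) (XT.lf (nat_lit 0) (nat_lit 16373667470) (nat_lit 76) (nat_lit 11392448960) (nat_lit 76) (nat_lit 336046044) (nat_lit 27) (nat_lit 4) (nat_lit 28) (nat_lit 5) (nat_lit 28) (nat_lit 4) (nat_lit 452) (nat_lit 310) (nat_lit 258))) (XT.nd (nat_lit 78) (nat_lit 0) (nat_lit 0) (XT.lf (nat_lit 0) (nat_lit 337541781) (nat_lit 76) (nat_lit 5318690239) (nat_lit 152) (nat_lit 23096669287) (nat_lit 25) (nat_lit 5) (nat_lit 26)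 (nat_lit 5) (nat_lit 27) (nat_lit 4) (nat_lit 453) (nat_lit 310) (nat_lit 257)) (XT.lf (nat_lit 0) (nat_lit 11893037579) (nat_lit 152) (nat_lit 16537995956) (nat_lit 0) (nat_lit 989885726) (nat_lit 25) (nat_lit 5) (nat_lit 27) (nat_lit 4) (nat_lit 25) (nat_lit 4) (nat_lit 454) (nat_lit 310) (nat_lit 256)))))) (XT.nd (nat_lit 546) (nat_lit 304) (nat_lit 0) (XT.nd (nat_lit 234) (nat_lit 152) (nat_lit 0) (XT.nd (nat_lit 78) (nat_lit 152) (nat_lit 0) (XT.lf (nat_lit 0) (nat_lit 18314167022) (nat_lit 152) (nat_lit 4464602345) (nat_lit 0) (nat_lit 7330293904) (nat_lit 25) (nat_lit 5) (nat_lit 27) (nat_lit 4) (nat_lit 25) (nat_lit 4) (nat_lit 455) (nat_lit 310) (nat_lit 255)) (XT.nd (nat_lit 78) (nat_lit 76) (nat_lit 0) (XT.lf (nat_lit 0) (nat_lit 8023056099) (nat_lit 76) (nat_lit 16928170962) (nat_lit 76) (nat_lit 5865927686) (nat_lit 24) (nat_lit 4) (nat_lit 25) (nat_lit 5) (nat_lit 25) (nat_lit 4) (nat_lit 456) (nat_lit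 310) (nat_lit 254)) (XT.lf (nat_lit 0) (nat_lit 227957118) (nat_lit 152) (nat_lit 10675577859) (nat_lit 76) (nat_lit 20643134001) (nat_lit 23) (nat_lit 5) (nat_lit 25) (nat_lit 5) (nat_lit 24) (nat_lit 4) (nat_lit 457) (nat_lit 310) (nat_lit 253)))) (XT.nd (nat_lit 156) (nat_lit 76) (nat_lit 0) (XT.nd (nat_lit 78) (nat_lit 0) (nat_lit 0) (XT.lf (nat_lit 0) (nat_lit 1679698460) (nat_lit 76) (nat_lit 4670991520) (nat_lit 152) (nat_lit 25946720249) (nat_lit 22) (nat_lit 5) (nat_lit 23) (nat_lit 5) (nat_lit 24) (nat_lit 4) (nat_lit 458) (nat_lit 310) (nat_lit 252)) (XT.lf (nat_lit 0) (nat_lit 12730652301) (nat_lit 152) (nat_lit 18562428588) (nat_lit 0) (nat_lit 1775388225) (nat_lit 22) (nat_lit 5) (nat_lit 24) (nat_lit 4) (nat_lit 22) (nat_lit 4) (nat_lit 459) (nat_lit 310) (nat_lit 251))) (XT.nd (nat_lit 78) (nat_lit 76) (nat_lit 0) (XT.lf (nat_lit 0) (nat_lit 19297649082) (nat_lit 152) (nat_lit 6290361163) (nat_lit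 0) (nat_lit 8274782218) (nat_lit 22) (nat_lit 5) (nat_lit 24) (nat_lit 4) (nat_lit 22) (nat_lit 4) (nat_lit 460) (nat_lit 310) (nat_lit 250)) (XT.lf (nat_lit 0) (nat_lit 6378583230) (nat_lit 76) (nat_lit 19695249661) (nat_lit 76) (nat_lit 8606749023) (nat_lit 21) (nat_lit 4) (nat_lit 22) (nat_lit 5) (nat_lit 22) (nat_lit 4) (nat_lit 461) (nat_lit 310) (nat_lit 249))))) (XT.nd (nat_lit 312) (nat_lit 152) (nat_lit 0) (XT.nd (nat_lit 156) (nat_lit 76) (nat_lit 0) (XT.nd (nat_lit 78) (nat_lit 76) (nat_lit 0) (XT.lf (nat_lit 0) (nat_lit 19461726772) (nat_lit 76) (nat_lit 13606477809) (nat_lit 76) (nat_lit 2454255060) (nat_lit 21) (nat_lit 4) (nat_lit 22) (nat_lit 5) (nat_lit 22) (nat_lit 4) (nat_lit 462) (nat_lit 310) (nat_lit 248)) (XT.lf (nat_lit 0) (nat_lit 3759375219) (nat_lit 152) (nat_lit 3582557180) (nat_lit 76) (nat_lit 29047973277) (nat_lit 20) (nat_lit 5) (nat_lit 22) (nat_lit 5) (nat_lit 21) (nat_lit 4) (nat_lit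 463) (nat_lit 310) (nat_lit 247))) (XT.nd (nat_lit 78) (nat_lit 0) (nat_lit 0) (XT.lf (nat_lit 0) (nat_lit 9337578758) (nat_lit 76) (nat_lit 815983722) (nat_lit 152) (nat_lit 27127780863) (nat_lit 19) (nat_lit 5) (nat_lit 20) (nat_lit 5) (nat_lit 21) (nat_lit 4) (nat_lit 464) (nat_lit 310) (nat_lit 246)) (XT.lf (nat_lit 0) (nat_lit 16786666918) (nat_lit 152) (nat_lit 15627174996) (nat_lit 0) (nat_lit 5784270960) (nat_lit 19) (nat_lit 5) (nat_lit 21) (nat_lit 4) (nat_lit 19) (nat_lit 4) (nat_lit 465) (nat_lit 310) (nat_lit 245)))) (XT.nd (nat_lit 156) (nat_lit 76) (nat_lit 0) (XT.nd (nat_lit 78) (nat_lit 76) (nat_lit 0) (XT.lf (nat_lit 0) (nat_lit 23581976496) (nat_lit 152) (nat_lit 3036900784) (nat_lit 0) (nat_lit 12524613285) (nat_lit 19) (nat_lit 5) (nat_lit 21) (nat_lit 4) (nat_lit 19) (nat_lit 4) (nat_lit 466) (nat_lit 310) (nat_lit 244)) (XT.lf (nat_lit 0) (nat_lit 10041855770) (nat_lit 76) (nat_lit 20592257820)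 (nat_lit 76) (nat_lit 9481528345) (nat_lit 18) (nat_lit 4) (nat_lit 19) (nat_lit 5) (nat_lit 19) (nat_lit 4) (nat_lit 467) (nat_lit 310) (nat_lit 243))) (XT.nd (nat_lit 78) (nat_lit 76) (nat_lit 0) (XT.lf (nat_lit 0) (nat_lit 23490884935) (nat_lit 76) (nat_lit 14394494356) (nat_lit 76) (nat_lit 3231952973) (nat_lit 18) (nat_lit 4) (nat_lit 19) (nat_lit 5) (nat_lit 19) (nat_lit 4) (nat_lit 468) (nat_lit 310) (nat_lit 242)) (XT.lf (nat_lit 0) (nat_lit 3100303967) (nat_lit 152) (nat_lit 4919227150) (nat_lit 76) (nat_lit 34129887051) (nat_lit 17) (nat_lit 5) (nat_lit 19) (nat_lit 5) (nat_lit 18) (nat_lit 4) (nat_lit 469) (nat_lit 310) (nat_lit 241))))))) (XT.nd (nat_lit 1092) (nat_lit 228) (nat_lit 0) (XT.nd (nat_lit 546) (nat_lit 152) (nat_lit 0) (XT.nd (nat_lit 234) (nat_lit 152) (nat_lit 0) (XT.nd (nat_lit 78) (nat_lit 0) (nat_lit 0) (XT.lf (nat_lit 0) (nat_lit 8217238260) (nat_lit 76) (nat_lit 1378288911) (nat_lit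 152) (nat_lit 33614842005) (nat_lit 16) (nat_lit 5) (nat_lit 17) (nat_lit 5) (nat_lit 18) (nat_lit 4) (nat_lit 470) (nat_lit 310) (nat_lit 240)) (XT.nd (nat_lit 78) (nat_lit 0) (nat_lit 0) (XT.lf (nat_lit 0) (nat_lit 16347304199) (nat_lit 152) (nat_lit 22586396558) (nat_lit 0) (nat_lit 5367598245) (nat_lit 16) (nat_lit 5) (nat_lit 18) (nat_lit 4) (nat_lit 16) (nat_lit 4) (nat_lit 471) (nat_lit 310) (nat_lit 239)) (XT.lf (nat_lit 0) (nat_lit 23275499249) (nat_lit 152) (nat_lit 9899142811) (nat_lit 0) (nat_lit 12251099888) (nat_lit 16) (nat_lit 5) (nat_lit 18) (nat_lit 4) (nat_lit 16) (nat_lit 4) (nat_lit 472) (nat_lit 310) (nat_lit 238)))) (XT.nd (nat_lit 156) (nat_lit 76) (nat_lit 0) (XT.nd (nat_lit 78) (nat_lit 0) (nat_lit 0) (XT.lf (nat_lit 0) (nat_lit 3154521301) (nat_lit 76) (nat_lit 27248719015) (nat_lit 76) (nat_lit 16180927997) (nat_lit 15) (nat_lit 4) (nat_lit 16) (nat_lit 5) (nat_lit 16) (nat_lit 4) (nat_lit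 473) (nat_lit 310) (nat_lit 237)) (XT.lf (nat_lit 0) (nat_lit 16727697519) (nat_lit 76) (nat_lit 21078858804) (nat_lit 76) (nat_lit 9968939963) (nat_lit 15) (nat_lit 4) (nat_lit 16) (nat_lit 5) (nat_lit 16) (nat_lit 4) (nat_lit 474) (nat_lit 310) (nat_lit 236))) (XT.nd (nat_lit 78) (nat_lit 76) (nat_lit 0) (XT.lf (nat_lit 0) (nat_lit 30635233548) (nat_lit 76) (nat_lit 14759632220) (nat_lit 76) (nat_lit 3608812582) (nat_lit 15) (nat_lit 4) (nat_lit 16) (nat_lit 5) (nat_lit 16) (nat_lit 4) (nat_lit 475) (nat_lit 310) (nat_lit 235)) (XT.lf (nat_lit 0) (nat_lit 2848324302) (nat_lit 152) (nat_lit 5408430817) (nat_lit 76) (nat_lit 42012194810) (nat_lit 14) (nat_lit 5) (nat_lit 16) (nat_lit 5) (nat_lit 15) (nat_lit 4) (nat_lit 476) (nat_lit 310) (nat_lit 234))))) (XT.nd (nat_lit 234) (nat_lit 76) (nat_lit 0) (XT.nd (nat_lit 78) (nat_lit 0) (nat_lit 0) (XT.lf (nat_lit 0) (nat_lit 7991232088) (nat_lit 76) (nat_lit 1476902968)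 (nat_lit 152) (nat_lit 42101728853) (nat_lit 13) (nat_lit 5) (nat_lit 14) (nat_lit 5) (nat_lit 15) (nat_lit 4) (nat_lit 477) (nat_lit 310) (nat_lit 233)) (XT.nd (nat_lit 78) (nat_lit 0) (nat_lit 0) (XT.lf (nat_lit 0) (nat_lit 16359346964) (nat_lit 152) (nat_lit 31127289387) (nat_lit 0) (nat_lit 5420985701) (nat_lit 13) (nat_lit 5) (nat_lit 15) (nat_lit 4) (nat_lit 13) (nat_lit 4) (nat_lit 478) (nat_lit 310) (nat_lit 232)) (XT.lf (nat_lit 0) (nat_lit 23437666762) (nat_lit 152) (nat_lit 18384411844) (nat_lit 0) (nat_lit 12464024111) (nat_lit 13) (nat_lit 5) (nat_lit 15) (nat_lit 4) (nat_lit 13) (nat_lit 4) (nat_lit 479) (nat_lit 310) (nat_lit 231)))) (XT.nd (nat_lit 156) (nat_lit 0) (nat_lit 0) (XT.nd (nat_lit 78) (nat_lit 76) (nat_lit 0) (XT.lf (nat_lit 0) (nat_lit 30695082493) (nat_lit 152) (nat_lit 5324667744) (nat_lit 0) (nat_lit 19687186068) (nat_lit 13) (nat_lit 5) (nat_lit 15) (nat_lit 4) (nat_lit 13) (nat_lit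 4) (nat_lit 480) (nat_lit 310) (nat_lit 230)) (XT.lf (nat_lit 0) (nat_lit 8223830901) (nat_lit 76) (nat_lit 29993157182) (nat_lit 76) (nat_lit 18952004664) (nat_lit 12) (nat_lit 4) (nat_lit 13) (nat_lit 5) (nat_lit 13) (nat_lit 4) (nat_lit 481) (nat_lit 310) (nat_lit 229))) (XT.nd (nat_lit 78) (nat_lit 0) (nat_lit 0) (XT.lf (nat_lit 0) (nat_lit 22225043326) (nat_lit 76) (nat_lit 23761326903) (nat_lit 76) (nat_lit 12687886918) (nat_lit 12) (nat_lit 4) (nat_lit 13) (nat_lit 5) (nat_lit 13) (nat_lit 4) (nat_lit 482) (nat_lit 310) (nat_lit 228)) (XT.lf (nat_lit 0) (nat_lit 36585232269) (nat_lit 76) (nat_lit 17372582816) (nat_lit 76) (nat_lit 6267795774) (nat_lit 12) (nat_lit 4) (nat_lit 13) (nat_lit 5) (nat_lit 13) (nat_lit 4) (nat_lit 483) (nat_lit 310) (nat_lit 227)))))) (XT.nd (nat_lit 546) (nat_lit 0) (nat_lit 0) (XT.nd (nat_lit 234) (nat_lit 76) (nat_lit 0) (XT.nd (nat_lit 78) (nat_lit 76) (nat_lit 0) (XT.lf (nat_lit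 0) (nat_lit 307753652) (nat_lit 152) (nat_lit 10510481161) (nat_lit 76) (nat_lit 51006084108) (nat_lit 11) (nat_lit 5) (nat_lit 13) (nat_lit 5) (nat_lit 12) (nat_lit 4) (nat_lit 484) (nat_lit 310) (nat_lit 226)) (XT.nd (nat_lit 78) (nat_lit 0) (nat_lit 0) (XT.lf (nat_lit 0) (nat_lit 2950691230) (nat_lit 76) (nat_lit 4002737298) (nat_lit 152) (nat_lit 56515733661) (nat_lit 10) (nat_lit 5) (nat_lit 11) (nat_lit 5) (nat_lit 12) (nat_lit 4) (nat_lit 485) (nat_lit 310) (nat_lit 225)) (XT.lf (nat_lit 0) (nat_lit 13905168857) (nat_lit 152) (nat_lit 48217245613) (nat_lit 0) (nat_lit 3037736157) (nat_lit 10) (nat_lit 5) (nat_lit 12) (nat_lit 4) (nat_lit 10) (nat_lit 4) (nat_lit 486) (nat_lit 310) (nat_lit 224)))) (XT.nd (nat_lit 156) (nat_lit 76) (nat_lit 0) (XT.nd (nat_lit 78) (nat_lit 0) (nat_lit 0) (XT.lf (nat_lit 0) (nat_lit 21076457211) (nat_lit 152) (nat_lit 35643098073) (nat_lit 0) (nat_lit 10181984265) (nat_lit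 10) (nat_lit 5) (nat_lit 12) (nat_lit 4) (nat_lit 10) (nat_lit 4) (nat_lit 487) (nat_lit 310) (nat_lit 223)) (XT.lf (nat_lit 0) (nat_lit 28435083007) (nat_lit 152) (nat_lit 22746564460) (nat_lit 0) (nat_lit 17514357395) (nat_lit 10) (nat_lit 5) (nat_lit 12) (nat_lit 4) (nat_lit 10) (nat_lit 4) (nat_lit 488) (nat_lit 310) (nat_lit 222))) (XT.nd (nat_lit 78) (nat_lit 76) (nat_lit 0) (XT.lf (nat_lit 0) (nat_lit 35987476111) (nat_lit 152) (nat_lit 9516375959) (nat_lit 0) (nat_lit 25041262474) (nat_lit 10) (nat_lit 5) (nat_lit 12) (nat_lit 4) (nat_lit 10) (nat_lit 4) (nat_lit 489) (nat_lit 310) (nat_lit 221)) (XT.lf (nat_lit 0) (nat_lit 4139810400) (nat_lit 76) (nat_lit 39640219692) (nat_lit 76) (nat_lit 28669260399) (nat_lit 9) (nat_lit 4) (nat_lit 10) (nat_lit 5) (nat_lit 10) (nat_lit 4) (nat_lit 490) (nat_lit 310) (nat_lit 220))))) (XT.nd (nat_lit 46020) (nat_lit 0) (nat_lit 6384) (XT.nd (nat_lit 45864) (nat_lit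 0) (nat_lit 7372) (XT.nd (nat_lit 78) (nat_lit 0) (nat_lit 0) (XT.lf (nat_lit 0) (nat_lit 18349575089) (nat_lit 76) (nat_lit 33526948287) (nat_lit 76) (nat_lit 22531964086) (nat_lit 9) (nat_lit 4) (nat_lit 10) (nat_lit 5) (nat_lit 10) (nat_lit 4) (nat_lit 491) (nat_lit 310) (nat_lit 219)) (XT.lf (nat_lit 0) (nat_lit 32935939864) (nat_lit 76) (nat_lit 27254792902) (nat_lit 76) (nat_lit 16236483547) (nat_lit 9) (nat_lit 4) (nat_lit 10) (nat_lit 5) (nat_lit 10) (nat_lit 4) (nat_lit 492) (nat_lit 310) (nat_lit 218))) (XT.nd (nat_lit 78) (nat_lit 0) (nat_lit 0) (XT.lf (nat_lit 0) (nat_lit 154488969) (nat_lit 304) (nat_lit 4830739103) (nat_lit 0) (nat_lit 154488969) (nat_lit 106) (nat_lit 5) (nat_lit 110) (nat_lit 4) (nat_lit 106) (nat_lit 4) (nat_lit 398) (nat_lit 311) (nat_lit 311)) (XT.lf (nat_lit 0) (nat_lit 5037694680) (nat_lit 304) (nat_lit 1046748679) (nat_lit 0) (nat_lit 4339292869) (nat_lit 106) (nat_lit 5)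 (nat_lit 110) (nat_lit 4) (nat_lit 106) (nat_lit 4) (nat_lit 399) (nat_lit 311) (nat_lit 310)))) (XT.nd (nat_lit 156) (nat_lit 456) (nat_lit 0) (XT.nd (nat_lit 78) (nat_lit 304) (nat_lit 0) (XT.lf (nat_lit 0) (nat_lit 7806702847) (nat_lit 228) (nat_lit 2071522773) (nat_lit 228) (nat_lit 695060952) (nat_lit 103) (nat_lit 4) (nat_lit 106) (nat_lit 5) (nat_lit 106) (nat_lit 4) (nat_lit 400) (nat_lit 311) (nat_lit 309)) (XT.lf (nat_lit 0) (nat_lit 4041043744) (nat_lit 304) (nat_lit 4620013539) (nat_lit 0) (nat_lit 2065536453) (nat_lit 99) (nat_lit 5) (nat_lit 103) (nat_lit 4) (nat_lit 99) (nat_lit 4) (nat_lit 401) (nat_lit 311) (nat_lit 308))) (XT.nd (nat_lit 78) (nat_lit 228) (nat_lit 0) (XT.lf (nat_lit 0) (nat_lit 4302022387) (nat_lit 228) (nat_lit 4589365968) (nat_lit 228) (nat_lit 1993337714) (nat_lit 96) (nat_lit 4) (nat_lit 99) (nat_lit 5) (nat_lit 99) (nat_lit 4) (nat_lit 402) (nat_lit 311) (nat_lit 307)) (XT.lf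 (nat_lit 0) (nat_lit 2385386543) (nat_lit 152) (nat_lit 365284557) (nat_lit 228) (nat_lit 8297134410) (nat_lit 93) (nat_lit 5) (nat_lit 95) (nat_lit 5) (nat_lit 96) (nat_lit 4) (nat_lit 403) (nat_lit 311) (nat_lit 306))))))))
noncomputable def xc39 : XT := (XT.nd (nat_lit 2262) (nat_lit 1748) (nat_lit 0) (XT.nd (nat_lit 1092) (nat_lit 1444) (nat_lit 0) (XT.nd (nat_lit 546) (nat_lit 1064) (nat_lit 0) (XT.nd (nat_lit 234) (nat_lit 684) (nat_lit 0) (XT.nd (nat_lit 78) (nat_lit 228) (nat_lit 0) (XT.lf (nat_lit 0) (nat_lit 316817180) (nat_lit 228) (nat_lit 7285698207) (nat_lit 228) (nat_lit 3612517322) (nat_lit 90) (nat_lit 4) (nat_lit 93) (nat_lit 5) (nat_lit 93) (nat_lit 4) (nat_lit 404) (nat_lit 311) (nat_lit 305)) (XT.nd (nat_lit 78) (nat_lit 152) (nat_lit 0) (XT.lf (nat_lit 0) (nat_lit 1178341793) (nat_lit 304) (nat_lit 1832471883) (nat_lit 76) (nat_lit 8376446342) (nat_lit 89) (nat_lit 5) (nat_lit 93) (nat_lit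 5) (nat_lit 90) (nat_lit 4) (nat_lit 405) (nat_lit 311) (nat_lit 304)) (XT.lf (nat_lit 0) (nat_lit 6026058170) (nat_lit 228) (nat_lit 4133044576) (nat_lit 0) (nat_lit 1404919765) (nat_lit 87) (nat_lit 5) (nat_lit 90) (nat_lit 4) (nat_lit 87) (nat_lit 4) (nat_lit 406) (nat_lit 311) (nat_lit 303)))) (XT.nd (nat_lit 156) (nat_lit 228) (nat_lit 0) (XT.nd (nat_lit 78) (nat_lit 228) (nat_lit 0) (XT.lf (nat_lit 0) (nat_lit 5164931097) (nat_lit 228) (nat_lit 5853436919) (nat_lit 228) (nat_lit 727758187) (nat_lit 84) (nat_lit 4) (nat_lit 87) (nat_lit 5) (nat_lit 87) (nat_lit 4) (nat_lit 407) (nat_lit 311) (nat_lit 302)) (XT.lf (nat_lit 0) (nat_lit 2735940803) (nat_lit 152) (nat_lit 1378081124) (nat_lit 228) (nat_lit 7819372191) (nat_lit 81) (nat_lit 5) (nat_lit 83) (nat_lit 5) (nat_lit 84) (nat_lit 4) (nat_lit 408) (nat_lit 311) (nat_lit 301))) (XT.nd (nat_lit 78) (nat_lit 76) (nat_lit 0) (XT.lf (nat_lit 0) (nat_lit 135826352)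 (nat_lit 152) (nat_lit 8951949907) (nat_lit 152) (nat_lit 3038259267) (nat_lit 79) (nat_lit 4) (nat_lit 81) (nat_lit 5) (nat_lit 81) (nat_lit 4) (nat_lit 409) (nat_lit 311) (nat_lit 300)) (XT.lf (nat_lit 0) (nat_lit 1859041398) (nat_lit 228) (nat_lit 2588114145) (nat_lit 76) (nat_lit 7876481161) (nat_lit 78) (nat_lit 5) (nat_lit 81) (nat_lit 5) (nat_lit 79) (nat_lit 4) (nat_lit 410) (nat_lit 311) (nat_lit 299))))) (XT.nd (nat_lit 234) (nat_lit 532) (nat_lit 0) (XT.nd (nat_lit 78) (nat_lit 380) (nat_lit 0) (XT.lf (nat_lit 0) (nat_lit 6816945724) (nat_lit 228) (nat_lit 5492353260) (nat_lit 0) (nat_lit 217733002) (nat_lit 76) (nat_lit 5) (nat_lit 79) (nat_lit 4) (nat_lit 76) (nat_lit 4) (nat_lit 411) (nat_lit 311) (nat_lit 298)) (XT.nd (nat_lit 78) (nat_lit 228) (nat_lit 0) (XT.lf (nat_lit 0) (nat_lit 4132909818) (nat_lit 152) (nat_lit 7806305678) (nat_lit 152) (nat_lit 796855498) (nat_lit 74) (nat_lit 4) (nat_lit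 76) (nat_lit 5) (nat_lit 76) (nat_lit 4) (nat_lit 412) (nat_lit 311) (nat_lit 297)) (XT.lf (nat_lit 0) (nat_lit 1021027542) (nat_lit 152) (nat_lit 3131074189) (nat_lit 228) (nat_lit 8798914033) (nat_lit 71) (nat_lit 5) (nat_lit 73) (nat_lit 5) (nat_lit 74) (nat_lit 4) (nat_lit 413) (nat_lit 311) (nat_lit 296)))) (XT.nd (nat_lit 156) (nat_lit 304) (nat_lit 0) (XT.nd (nat_lit 78) (nat_lit 228) (nat_lit 0) (XT.lf (nat_lit 0) (nat_lit 9243603260) (nat_lit 228) (nat_lit 2252077700) (nat_lit 0) (nat_lit 1676198287) (nat_lit 71) (nat_lit 5) (nat_lit 74) (nat_lit 4) (nat_lit 71) (nat_lit 4) (nat_lit 414) (nat_lit 311) (nat_lit 295)) (XT.lf (nat_lit 0) (nat_lit 1081014574) (nat_lit 228) (nat_lit 5737436055) (nat_lit 76) (nat_lit 6580200150) (nat_lit 68) (nat_lit 5) (nat_lit 71) (nat_lit 5) (nat_lit 69) (nat_lit 4) (nat_lit 415) (nat_lit 311) (nat_lit 294))) (XT.nd (nat_lit 78) (nat_lit 152) (nat_lit 0) (XT.lf (nat_lit 0)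 (nat_lit 4165725522) (nat_lit 152) (nat_lit 1968016151) (nat_lit 228) (nat_lit 7498162578) (nat_lit 66) (nat_lit 5) (nat_lit 68) (nat_lit 5) (nat_lit 69) (nat_lit 4) (nat_lit 416) (nat_lit 311) (nat_lit 293)) (XT.lf (nat_lit 0) (nat_lit 428468645) (nat_lit 152) (nat_lit 10910827791) (nat_lit 152) (nat_lit 2532830230) (nat_lit 64) (nat_lit 4) (nat_lit 66) (nat_lit 5) (nat_lit 66) (nat_lit 4) (nat_lit 417) (nat_lit 311) (nat_lit 292)))))) (XT.nd (nat_lit 546) (nat_lit 684) (nat_lit 0) (XT.nd (nat_lit 234) (nat_lit 380) (nat_lit 0) (XT.nd (nat_lit 78) (nat_lit 304) (nat_lit 0) (XT.lf (nat_lit 0) (nat_lit 2556807272) (nat_lit 228) (nat_lit 3511524035) (nat_lit 76) (nat_lit 8049716658) (nat_lit 63) (nat_lit 5) (nat_lit 66) (nat_lit 5) (nat_lit 64) (nat_lit 4) (nat_lit 418) (nat_lit 311) (nat_lit 291)) (XT.nd (nat_lit 78) (nat_lit 152) (nat_lit 0) (XT.lf (nat_lit 0) (nat_lit 6664721528) (nat_lit 152) (nat_lit 1059897770)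 (nat_lit 228) (nat_lit 6646691471) (nat_lit 61) (nat_lit 5) (nat_lit 63) (nat_lit 5) (nat_lit 64) (nat_lit 4) (nat_lit 419) (nat_lit 311) (nat_lit 290)) (XT.lf (nat_lit 0) (nat_lit 2435709768) (nat_lit 152) (nat_lit 10623070266) (nat_lit 152) (nat_lit 1573059737) (nat_lit 59) (nat_lit 4) (nat_lit 61) (nat_lit 5) (nat_lit 61) (nat_lit 4) (nat_lit 420) (nat_lit 311) (nat_lit 289)))) (XT.nd (nat_lit 156) (nat_lit 228) (nat_lit 0) (XT.nd (nat_lit 78) (nat_lit 76) (nat_lit 0) (XT.lf (nat_lit 0) (nat_lit 3583444229) (nat_lit 228) (nat_lit 2063351042) (nat_lit 76) (nat_lit 9252285022) (nat_lit 58) (nat_lit 5) (nat_lit 61) (nat_lit 5) (nat_lit 59) (nat_lit 4) (nat_lit 421) (nat_lit 311) (nat_lit 288)) (XT.lf (nat_lit 0) (nat_lit 8366357307) (nat_lit 76) (nat_lit 492485983) (nat_lit 152) (nat_lit 6315160072) (nat_lit 57) (nat_lit 5) (nat_lit 58) (nat_lit 5) (nat_lit 59) (nat_lit 4) (nat_lit 422) (nat_lit 311) (nat_lit 287)))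 (XT.nd (nat_lit 78) (nat_lit 76) (nat_lit 0) (XT.lf (nat_lit 0) (nat_lit 3562653670) (nat_lit 152) (nat_lit 10747154527) (nat_lit 152) (nat_lit 1146853691) (nat_lit 55) (nat_lit 4) (nat_lit 57) (nat_lit 5) (nat_lit 57) (nat_lit 4) (nat_lit 423) (nat_lit 311) (nat_lit 286)) (XT.lf (nat_lit 0) (nat_lit 4085168108) (nat_lit 228) (nat_lit 1563055996) (nat_lit 76) (nat_lit 10098673191) (nat_lit 54) (nat_lit 5) (nat_lit 57) (nat_lit 5) (nat_lit 55) (nat_lit 4) (nat_lit 424) (nat_lit 311) (nat_lit 285))))) (XT.nd (nat_lit 312) (nat_lit 304) (nat_lit 0) (XT.nd (nat_lit 156) (nat_lit 152) (nat_lit 0) (XT.nd (nat_lit 78) (nat_lit 152) (nat_lit 0) (XT.lf (nat_lit 0) (nat_lit 9093205384) (nat_lit 76) (nat_lit 363618778) (nat_lit 152) (nat_lit 6588509524) (nat_lit 53) (nat_lit 5) (nat_lit 54) (nat_lit 5) (nat_lit 55) (nat_lit 4) (nat_lit 425) (nat_lit 311) (nat_lit 284)) (XT.lf (nat_lit 0) (nat_lit 3619595551) (nat_lit 152)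 (nat_lit 11388196823) (nat_lit 152) (nat_lit 1344392031) (nat_lit 51) (nat_lit 4) (nat_lit 53) (nat_lit 5) (nat_lit 53) (nat_lit 4) (nat_lit 426) (nat_lit 311) (nat_lit 283))) (XT.nd (nat_lit 78) (nat_lit 76) (nat_lit 0) (XT.lf (nat_lit 0) (nat_lit 3971111692) (nat_lit 228) (nat_lit 2209586590) (nat_lit 76) (nat_lit 10486581252) (nat_lit 50) (nat_lit 5) (nat_lit 53) (nat_lit 5) (nat_lit 51) (nat_lit 4) (nat_lit 427) (nat_lit 311) (nat_lit 282)) (XT.lf (nat_lit 0) (nat_lit 8637607052) (nat_lit 76) (nat_lit 785581728) (nat_lit 152) (nat_lit 7568121127) (nat_lit 49) (nat_lit 5) (nat_lit 50) (nat_lit 5) (nat_lit 51) (nat_lit 4) (nat_lit 428) (nat_lit 311) (nat_lit 281)))) (XT.nd (nat_lit 156) (nat_lit 76) (nat_lit 0) (XT.nd (nat_lit 78) (nat_lit 76) (nat_lit 0) (XT.lf (nat_lit 0) (nat_lit 2384565521) (nat_lit 152) (nat_lit 12666937146) (nat_lit 152) (nat_lit 2273183723) (nat_lit 47) (nat_lit 4) (nat_lit 49) (nat_lit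 5) (nat_lit 49) (nat_lit 4) (nat_lit 429) (nat_lit 311) (nat_lit 280)) (XT.lf (nat_lit 0) (nat_lit 3132976204) (nat_lit 228) (nat_lit 4235621373) (nat_lit 76) (nat_lit 10298121310) (nat_lit 46) (nat_lit 5) (nat_lit 49) (nat_lit 5) (nat_lit 47) (nat_lit 4) (nat_lit 430) (nat_lit 311) (nat_lit 279))) (XT.nd (nat_lit 78) (nat_lit 0) (nat_lit 0) (XT.lf (nat_lit 0) (nat_lit 6756509970) (nat_lit 76) (nat_lit 1887827336) (nat_lit 152) (nat_lit 9374343666) (nat_lit 45) (nat_lit 5) (nat_lit 46) (nat_lit 5) (nat_lit 47) (nat_lit 4) (nat_lit 431) (nat_lit 311) (nat_lit 278)) (XT.lf (nat_lit 0) (nat_lit 14324335765) (nat_lit 152) (nat_lit 394300115) (nat_lit 0) (nat_lit 3662471969) (nat_lit 45) (nat_lit 5) (nat_lit 47) (nat_lit 4) (nat_lit 45) (nat_lit 4) (nat_lit 432) (nat_lit 311) (nat_lit 277))))))) (XT.nd (nat_lit 1092) (nat_lit 684) (nat_lit 0) (XT.nd (nat_lit 546) (nat_lit 456) (nat_lit 0) (XT.nd (nat_lit 234) (nat_lit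 304) (nat_lit 0) (XT.nd (nat_lit 78) (nat_lit 76) (nat_lit 0) (XT.lf (nat_lit 0) (nat_lit 1442316061) (nat_lit 228) (nat_lit 7913267445) (nat_lit 76) (nat_lit 9396927830) (nat_lit 42) (nat_lit 5) (nat_lit 45) (nat_lit 5) (nat_lit 43) (nat_lit 4) (nat_lit 433) (nat_lit 311) (nat_lit 276)) (XT.nd (nat_lit 78) (nat_lit 0) (nat_lit 0) (XT.lf (nat_lit 0) (nat_lit 3165490745) (nat_lit 76) (nat_lit 3820096727) (nat_lit 152) (nat_lit 12149446459) (nat_lit 41) (nat_lit 5) (nat_lit 42) (nat_lit 5) (nat_lit 43) (nat_lit 4) (nat_lit 434) (nat_lit 311) (nat_lit 275)) (XT.lf (nat_lit 0) (nat_lit 12720441234) (nat_lit 152) (nat_lit 4945904452) (nat_lit 0) (nat_lit 1861932278) (nat_lit 41) (nat_lit 5) (nat_lit 43) (nat_lit 4) (nat_lit 41) (nat_lit 4) (nat_lit 435) (nat_lit 311) (nat_lit 274)))) (XT.nd (nat_lit 156) (nat_lit 76) (nat_lit 0) (XT.nd (nat_lit 78) (nat_lit 76) (nat_lit 0) (XT.lf (nat_lit 0) (nat_lit 6359554893) (nat_lit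 152) (nat_lit 12295380055) (nat_lit 152) (nat_lit 1277560701) (nat_lit 39) (nat_lit 4) (nat_lit 41) (nat_lit 5) (nat_lit 41) (nat_lit 4) (nat_lit 436) (nat_lit 311) (nat_lit 273)) (XT.lf (nat_lit 0) (nat_lit 4311567704) (nat_lit 228) (nat_lit 2420007201) (nat_lit 76) (nat_lit 13616619626) (nat_lit 38) (nat_lit 5) (nat_lit 41) (nat_lit 5) (nat_lit 39) (nat_lit 4) (nat_lit 437) (nat_lit 311) (nat_lit 272))) (XT.nd (nat_lit 78) (nat_lit 0) (nat_lit 0) (XT.lf (nat_lit 0) (nat_lit 9101140046) (nat_lit 76) (nat_lit 959842721) (nat_lit 152) (nat_lit 10714457236) (nat_lit 37) (nat_lit 5) (nat_lit 38) (nat_lit 5) (nat_lit 39) (nat_lit 4) (nat_lit 438) (nat_lit 311) (nat_lit 271)) (XT.lf (nat_lit 0) (nat_lit 15986456869) (nat_lit 152) (nat_lit 376899627) (nat_lit 0) (nat_lit 4852042740) (nat_lit 37) (nat_lit 5) (nat_lit 39) (nat_lit 4) (nat_lit 37) (nat_lit 4) (nat_lit 439) (nat_lit 311) (nat_lit 270))))) (XT.nd (nat_lit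 234) (nat_lit 228) (nat_lit 0) (XT.nd (nat_lit 78) (nat_lit 76) (nat_lit 0) (XT.lf (nat_lit 0) (nat_lit 464960198) (nat_lit 152) (nat_lit 10327967474) (nat_lit 76) (nat_lit 10873950410) (nat_lit 35) (nat_lit 5) (nat_lit 37) (nat_lit 5) (nat_lit 36) (nat_lit 4) (nat_lit 440) (nat_lit 311) (nat_lit 269)) (XT.nd (nat_lit 78) (nat_lit 0) (nat_lit 0) (XT.lf (nat_lit 0) (nat_lit 1124516082) (nat_lit 76) (nat_lit 5047785744) (nat_lit 152) (nat_lit 15959618143) (nat_lit 34) (nat_lit 5) (nat_lit 35) (nat_lit 5) (nat_lit 36) (nat_lit 4) (nat_lit 441) (nat_lit 311) (nat_lit 268)) (XT.lf (nat_lit 0) (nat_lit 12097768030) (nat_lit 152) (nat_lit 9612798996) (nat_lit 0) (nat_lit 898942244) (nat_lit 34) (nat_lit 5) (nat_lit 36) (nat_lit 4) (nat_lit 34) (nat_lit 4) (nat_lit 442) (nat_lit 311) (nat_lit 267)))) (XT.nd (nat_lit 156) (nat_lit 76) (nat_lit 0) (XT.nd (nat_lit 78) (nat_lit 76) (nat_lit 0) (XT.lf (nat_lit 0) (nat_lit 1988280778)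 (nat_lit 76) (nat_lit 16216972475) (nat_lit 76) (nat_lit 4896048535) (nat_lit 33) (nat_lit 4) (nat_lit 34) (nat_lit 5) (nat_lit 34) (nat_lit 4) (nat_lit 443) (nat_lit 311) (nat_lit 266)) (XT.lf (nat_lit 0) (nat_lit 904048941) (nat_lit 152) (nat_lit 9604246486) (nat_lit 76) (nat_lit 13098301619) (nat_lit 32) (nat_lit 5) (nat_lit 34) (nat_lit 5) (nat_lit 33) (nat_lit 4) (nat_lit 444) (nat_lit 311) (nat_lit 265))) (XT.nd (nat_lit 78) (nat_lit 0) (nat_lit 0) (XT.lf (nat_lit 0) (nat_lit 2122086039) (nat_lit 76) (nat_lit 4615175584) (nat_lit 152) (nat_lit 17389612645) (nat_lit 31) (nat_lit 5) (nat_lit 32) (nat_lit 5) (nat_lit 33) (nat_lit 4) (nat_lit 445) (nat_lit 311) (nat_lit 264)) (XT.lf (nat_lit 0) (nat_lit 12794650820) (nat_lit 152) (nat_lit 10398482847) (nat_lit 0) (nat_lit 1468153572) (nat_lit 31) (nat_lit 5) (nat_lit 33) (nat_lit 4) (nat_lit 31) (nat_lit 4) (nat_lit 446) (nat_lit 311) (nat_lit 263)))))) (XT.nd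 (nat_lit 546) (nat_lit 304) (nat_lit 0) (XT.nd (nat_lit 234) (nat_lit 228) (nat_lit 0) (XT.nd (nat_lit 78) (nat_lit 76) (nat_lit 0) (XT.lf (nat_lit 0) (nat_lit 1420784552) (nat_lit 76) (nat_lit 17611409014) (nat_lit 76) (nat_lit 6179588826) (nat_lit 30) (nat_lit 4) (nat_lit 31) (nat_lit 5) (nat_lit 31) (nat_lit 4) (nat_lit 447) (nat_lit 311) (nat_lit 262)) (XT.nd (nat_lit 78) (nat_lit 76) (nat_lit 0) (XT.lf (nat_lit 0) (nat_lit 13691681296) (nat_lit 76) (nat_lit 11809923491) (nat_lit 76) (nat_lit 275848021) (nat_lit 30) (nat_lit 4) (nat_lit 31) (nat_lit 5) (nat_lit 31) (nat_lit 4) (nat_lit 448) (nat_lit 311) (nat_lit 261)) (XT.lf (nat_lit 0) (nat_lit 5632639742) (nat_lit 152) (nat_lit 199093766) (nat_lit 76) (nat_lit 20528460969) (nat_lit 29) (nat_lit 5) (nat_lit 31) (nat_lit 5) (nat_lit 30) (nat_lit 4) (nat_lit 449) (nat_lit 311) (nat_lit 260)))) (XT.nd (nat_lit 156) (nat_lit 152) (nat_lit 0) (XT.nd (nat_lit 78)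 (nat_lit 0) (nat_lit 0) (XT.lf (nat_lit 0) (nat_lit 11776244858) (nat_lit 152) (nat_lit 14794041984) (nat_lit 0) (nat_lit 388149854) (nat_lit 28) (nat_lit 5) (nat_lit 30) (nat_lit 4) (nat_lit 28) (nat_lit 4) (nat_lit 450) (nat_lit 311) (nat_lit 259)) (XT.lf (nat_lit 0) (nat_lit 18106671952) (nat_lit 152) (nat_lit 2840156734) (nat_lit 0) (nat_lit 6627724455) (nat_lit 28) (nat_lit 5) (nat_lit 30) (nat_lit 4) (nat_lit 28) (nat_lit 4) (nat_lit 451) (nat_lit 311) (nat_lit 258))) (XT.nd (nat_lit 78) (nat_lit 76) (nat_lit 0) (XT.lf (nat_lit 0) (nat_lit 9551248510) (nat_lit 76) (nat_lit 15111986983) (nat_lit 76) (nat_lit 3544833181) (nat_lit 27) (nat_lit 4) (nat_lit 28) (nat_lit 5) (nat_lit 28) (nat_lit 4) (nat_lit 452) (nat_lit 311) (nat_lit 257)) (XT.lf (nat_lit 0) (nat_lit 2479455915) (nat_lit 152) (nat_lit 6619495481) (nat_lit 76) (nat_lit 19761700644) (nat_lit 26) (nat_lit 5) (nat_lit 28) (nat_lit 5) (nat_lit 27)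 (nat_lit 4) (nat_lit 453) (nat_lit 311) (nat_lit 256))))) (XT.nd (nat_lit 312) (nat_lit 152) (nat_lit 0) (XT.nd (nat_lit 156) (nat_lit 76) (nat_lit 0) (XT.nd (nat_lit 78) (nat_lit 0) (nat_lit 0) (XT.lf (nat_lit 0) (nat_lit 5751690051) (nat_lit 76) (nat_lit 2862903024) (nat_lit 152) (nat_lit 20917128010) (nat_lit 25) (nat_lit 5) (nat_lit 26) (nat_lit 5) (nat_lit 27) (nat_lit 4) (nat_lit 454) (nat_lit 311) (nat_lit 255)) (XT.lf (nat_lit 0) (nat_lit 14981687366) (nat_lit 152) (nat_lit 11730593161) (nat_lit 0) (nat_lit 3509206632) (nat_lit 25) (nat_lit 5) (nat_lit 27) (nat_lit 4) (nat_lit 25) (nat_lit 4) (nat_lit 455) (nat_lit 311) (nat_lit 254))) (XT.nd (nat_lit 78) (nat_lit 0) (nat_lit 0) (XT.lf (nat_lit 0) (nat_lit 561486770) (nat_lit 76) (nat_lit 20959792576) (nat_lit 76) (nat_lit 9411224309) (nat_lit 24) (nat_lit 4) (nat_lit 25) (nat_lit 5) (nat_lit 25) (nat_lit 4) (nat_lit 456) (nat_lit 311) (nat_lit 253)) (XT.lf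 (nat_lit 0) (nat_lit 13362337255) (nat_lit 76) (nat_lit 14961476175) (nat_lit 76) (nat_lit 3339036517) (nat_lit 24) (nat_lit 4) (nat_lit 25) (nat_lit 5) (nat_lit 25) (nat_lit 4) (nat_lit 457) (nat_lit 311) (nat_lit 252)))) (XT.nd (nat_lit 156) (nat_lit 0) (nat_lit 0) (XT.nd (nat_lit 78) (nat_lit 76) (nat_lit 0) (XT.lf (nat_lit 0) (nat_lit 2807733976) (nat_lit 152) (nat_lit 5994459482) (nat_lit 76) (nat_lit 23613595112) (nat_lit 23) (nat_lit 5) (nat_lit 25) (nat_lit 5) (nat_lit 24) (nat_lit 4) (nat_lit 458) (nat_lit 311) (nat_lit 251)) (XT.lf (nat_lit 0) (nat_lit 6682441933) (nat_lit 76) (nat_lit 2404371987) (nat_lit 152) (nat_lit 24103060875) (nat_lit 22) (nat_lit 5) (nat_lit 23) (nat_lit 5) (nat_lit 24) (nat_lit 4) (nat_lit 459) (nat_lit 311) (nat_lit 250))) (XT.nd (nat_lit 78) (nat_lit 0) (nat_lit 0) (XT.lf (nat_lit 0) (nat_lit 15606492635) (nat_lit 152) (nat_lit 14259422694) (nat_lit 0) (nat_lit 4119703203)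 (nat_lit 22) (nat_lit 5) (nat_lit 24) (nat_lit 4) (nat_lit 22) (nat_lit 4) (nat_lit 460) (nat_lit 311) (nat_lit 249)) (XT.lf (nat_lit 0) (nat_lit 22297860850) (nat_lit 152) (nat_lit 1760743113) (nat_lit 0) (nat_lit 10747349307) (nat_lit 22) (nat_lit 5) (nat_lit 24) (nat_lit 4) (nat_lit 22) (nat_lit 4) (nat_lit 461) (nat_lit 311) (nat_lit 248))))))))
noncomputable def xc40 : XT := (XT.nd (nat_lit 2184) (nat_lit 76) (nat_lit 0) (XT.nd (nat_lit 1092) (nat_lit 380) (nat_lit 0) (XT.nd (nat_lit 546) (nat_lit 228) (nat_lit 0) (XT.nd (nat_lit 234) (nat_lit 76) (nat_lit 0) (XT.nd (nat_lit 78) (nat_lit 152) (nat_lit 0) (XT.lf (nat_lit 0) (nat_lit 11242011485) (nat_lit 76) (nat_lit 18009706705) (nat_lit 76) (nat_lit 6397329035) (nat_lit 21) (nat_lit 4) (nat_lit 22) (nat_lit 5) (nat_lit 22) (nat_lit 4) (nat_lit 462) (nat_lit 311) (nat_lit 247)) (XT.nd (nat_lit 78) (nat_lit 152) (nat_lit 0) (XT.lf (nat_lit 0) (nat_lit 24581569603)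 (nat_lit 76) (nat_lit 11804574624) (nat_lit 76) (nat_lit 132132752) (nat_lit 21) (nat_lit 4) (nat_lit 22) (nat_lit 5) (nat_lit 22) (nat_lit 4) (nat_lit 463) (nat_lit 311) (nat_lit 246)) (XT.lf (nat_lit 0) (nat_lit 774415670) (nat_lit 76) (nat_lit 5385767728) (nat_lit 152) (nat_lit 31252703566) (nat_lit 19) (nat_lit 5) (nat_lit 20) (nat_lit 5) (nat_lit 21) (nat_lit 4) (nat_lit 464) (nat_lit 311) (nat_lit 245)))) (XT.nd (nat_lit 156) (nat_lit 76) (nat_lit 0) (XT.nd (nat_lit 78) (nat_lit 0) (nat_lit 0) (XT.lf (nat_lit 0) (nat_lit 12727258287) (nat_lit 152) (nat_lit 24321172874) (nat_lit 0) (nat_lit 1283206927) (nat_lit 19) (nat_lit 5) (nat_lit 21) (nat_lit 4) (nat_lit 19) (nat_lit 4) (nat_lit 465) (nat_lit 311) (nat_lit 244)) (XT.lf (nat_lit 0) (nat_lit 19501109623) (nat_lit 152) (nat_lit 11772858593) (nat_lit 0) (nat_lit 8003691998) (nat_lit 19) (nat_lit 5) (nat_lit 21) (nat_lit 4) (nat_lit 19) (nat_lit 4) (nat_lit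 466) (nat_lit 311) (nat_lit 243))) (XT.nd (nat_lit 78) (nat_lit 0) (nat_lit 0) (XT.lf (nat_lit 0) (nat_lit 1090486712) (nat_lit 76) (nat_lit 25355880724) (nat_lit 76) (nat_lit 13806651192) (nat_lit 18) (nat_lit 4) (nat_lit 19) (nat_lit 5) (nat_lit 19) (nat_lit 4) (nat_lit 467) (nat_lit 311) (nat_lit 242)) (XT.lf (nat_lit 0) (nat_lit 14499177471) (nat_lit 76) (nat_lit 19177841458) (nat_lit 76) (nat_lit 7578309103) (nat_lit 18) (nat_lit 4) (nat_lit 19) (nat_lit 5) (nat_lit 19) (nat_lit 4) (nat_lit 468) (nat_lit 311) (nat_lit 241))))) (XT.nd (nat_lit 234) (nat_lit 76) (nat_lit 0) (XT.nd (nat_lit 78) (nat_lit 152) (nat_lit 0) (XT.lf (nat_lit 0) (nat_lit 28230627045) (nat_lit 76) (nat_lit 12853334918) (nat_lit 76) (nat_lit 1204964871) (nat_lit 18) (nat_lit 4) (nat_lit 19) (nat_lit 5) (nat_lit 19) (nat_lit 4) (nat_lit 469) (nat_lit 311) (nat_lit 240)) (XT.nd (nat_lit 78) (nat_lit 76) (nat_lit 0) (XT.lf (nat_lit 0) (nat_lit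 5215158564) (nat_lit 152) (nat_lit 1109013397) (nat_lit 76) (nat_lit 37029012347) (nat_lit 17) (nat_lit 5) (nat_lit 19) (nat_lit 5) (nat_lit 18) (nat_lit 4) (nat_lit 470) (nat_lit 311) (nat_lit 239)) (XT.lf (nat_lit 0) (nat_lit 11888815504) (nat_lit 152) (nat_lit 32068652051) (nat_lit 0) (nat_lit 488990755) (nat_lit 16) (nat_lit 5) (nat_lit 18) (nat_lit 4) (nat_lit 16) (nat_lit 4) (nat_lit 471) (nat_lit 311) (nat_lit 238)))) (XT.nd (nat_lit 156) (nat_lit 76) (nat_lit 0) (XT.nd (nat_lit 78) (nat_lit 0) (nat_lit 0) (XT.lf (nat_lit 0) (nat_lit 18797984434) (nat_lit 152) (nat_lit 19418720137) (nat_lit 0) (nat_lit 7354768029) (nat_lit 16) (nat_lit 5) (nat_lit 18) (nat_lit 4) (nat_lit 16) (nat_lit 4) (nat_lit 472) (nat_lit 311) (nat_lit 237)) (XT.lf (nat_lit 0) (nat_lit 25876930352) (nat_lit 152) (nat_lit 6462846884) (nat_lit 0) (nat_lit 14391586124) (nat_lit 16) (nat_lit 5) (nat_lit 18) (nat_lit 4) (nat_lit 16) (nat_lit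 4) (nat_lit 473) (nat_lit 311) (nat_lit 236))) (XT.nd (nat_lit 78) (nat_lit 0) (nat_lit 0) (XT.lf (nat_lit 0) (nat_lit 6945826463) (nat_lit 76) (nat_lit 26252779813) (nat_lit 76) (nat_lit 14726534787) (nat_lit 15) (nat_lit 4) (nat_lit 16) (nat_lit 5) (nat_lit 16) (nat_lit 4) (nat_lit 474) (nat_lit 311) (nat_lit 235)) (XT.lf (nat_lit 0) (nat_lit 20818527982) (nat_lit 76) (nat_lit 19950641294) (nat_lit 76) (nat_lit 8384686755) (nat_lit 15) (nat_lit 4) (nat_lit 16) (nat_lit 5) (nat_lit 16) (nat_lit 4) (nat_lit 475) (nat_lit 311) (nat_lit 234)))))) (XT.nd (nat_lit 546) (nat_lit 152) (nat_lit 0) (XT.nd (nat_lit 234) (nat_lit 76) (nat_lit 0) (XT.nd (nat_lit 78) (nat_lit 152) (nat_lit 0) (XT.lf (nat_lit 0) (nat_lit 35038756124) (nat_lit 76) (nat_lit 13493117038) (nat_lit 76) (nat_lit 1888609574) (nat_lit 15) (nat_lit 4) (nat_lit 16) (nat_lit 5) (nat_lit 16) (nat_lit 4) (nat_lit 476) (nat_lit 311) (nat_lit 233)) (XT.nd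 (nat_lit 78) (nat_lit 76) (nat_lit 0) (XT.lf (nat_lit 0) (nat_lit 4674344323) (nat_lit 152) (nat_lit 2153018511) (nat_lit 76) (nat_lit 44897390296) (nat_lit 14) (nat_lit 5) (nat_lit 16) (nat_lit 5) (nat_lit 15) (nat_lit 4) (nat_lit 477) (nat_lit 311) (nat_lit 232)) (XT.lf (nat_lit 0) (nat_lit 11475934776) (nat_lit 152) (nat_lit 41451464137) (nat_lit 0) (nat_lit 137801458) (nat_lit 13) (nat_lit 5) (nat_lit 15) (nat_lit 4) (nat_lit 13) (nat_lit 4) (nat_lit 478) (nat_lit 311) (nat_lit 231)))) (XT.nd (nat_lit 156) (nat_lit 76) (nat_lit 0) (XT.nd (nat_lit 78) (nat_lit 0) (nat_lit 0) (XT.lf (nat_lit 0) (nat_lit 18537873461) (nat_lit 152) (nat_lit 28740813081) (nat_lit 0) (nat_lit 7165486368) (nat_lit 13) (nat_lit 5) (nat_lit 15) (nat_lit 4) (nat_lit 13) (nat_lit 4) (nat_lit 479) (nat_lit 311) (nat_lit 230)) (XT.lf (nat_lit 0) (nat_lit 25779385199) (nat_lit 152) (nat_lit 15712356833) (nat_lit 0) (nat_lit 14373742014)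 (nat_lit 13) (nat_lit 5) (nat_lit 15) (nat_lit 4) (nat_lit 13) (nat_lit 4) (nat_lit 480) (nat_lit 311) (nat_lit 229))) (XT.nd (nat_lit 78) (nat_lit 76) (nat_lit 0) (XT.lf (nat_lit 0) (nat_lit 33206797526) (nat_lit 152) (nat_lit 2354711304) (nat_lit 0) (nat_lit 21768866873) (nat_lit 13) (nat_lit 5) (nat_lit 15) (nat_lit 4) (nat_lit 13) (nat_lit 4) (nat_lit 481) (nat_lit 311) (nat_lit 228)) (XT.lf (nat_lit 0) (nat_lit 11569559002) (nat_lit 76) (nat_lit 29368255090) (nat_lit 76) (nat_lit 17898977381) (nat_lit 12) (nat_lit 4) (nat_lit 13) (nat_lit 5) (nat_lit 13) (nat_lit 4) (nat_lit 482) (nat_lit 311) (nat_lit 227))))) (XT.nd (nat_lit 234) (nat_lit 76) (nat_lit 0) (XT.nd (nat_lit 78) (nat_lit 76) (nat_lit 0) (XT.lf (nat_lit 0) (nat_lit 25900545279) (nat_lit 76) (nat_lit 22993878548) (nat_lit 76) (nat_lit 11494166803) (nat_lit 12) (nat_lit 4) (nat_lit 13) (nat_lit 5) (nat_lit 13) (nat_lit 4) (nat_lit 483) (nat_lit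 311) (nat_lit 226)) (XT.nd (nat_lit 78) (nat_lit 76) (nat_lit 0) (XT.lf (nat_lit 0) (nat_lit 40603906376) (nat_lit 76) (nat_lit 16456587327) (nat_lit 76) (nat_lit 4927327976) (nat_lit 12) (nat_lit 4) (nat_lit 13) (nat_lit 5) (nat_lit 13) (nat_lit 4) (nat_lit 484) (nat_lit 311) (nat_lit 225)) (XT.lf (nat_lit 0) (nat_lit 1772010630) (nat_lit 152) (nat_lit 7960764768) (nat_lit 76) (nat_lit 53902585428) (nat_lit 11) (nat_lit 5) (nat_lit 13) (nat_lit 5) (nat_lit 12) (nat_lit 4) (nat_lit 485) (nat_lit 311) (nat_lit 224)))) (XT.nd (nat_lit 156) (nat_lit 0) (nat_lit 0) (XT.nd (nat_lit 78) (nat_lit 0) (nat_lit 0) (XT.lf (nat_lit 0) (nat_lit 5876154256) (nat_lit 76) (nat_lit 2725792569) (nat_lit 152) (nat_lit 56728056910) (nat_lit 10) (nat_lit 5) (nat_lit 11) (nat_lit 5) (nat_lit 12) (nat_lit 4) (nat_lit 486) (nat_lit 311) (nat_lit 223)) (XT.lf (nat_lit 0) (nat_lit 15733338018) (nat_lit 152) (nat_lit 46880513921) (nat_lit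 0) (nat_lit 4458737972) (nat_lit 10) (nat_lit 5) (nat_lit 12) (nat_lit 4) (nat_lit 10) (nat_lit 4) (nat_lit 487) (nat_lit 311) (nat_lit 222))) (XT.nd (nat_lit 78) (nat_lit 0) (nat_lit 0) (XT.lf (nat_lit 0) (nat_lit 23078667525) (nat_lit 152) (nat_lit 34010207461) (nat_lit 0) (nat_lit 11778579454) (nat_lit 10) (nat_lit 5) (nat_lit 12) (nat_lit 4) (nat_lit 10) (nat_lit 4) (nat_lit 488) (nat_lit 311) (nat_lit 221)) (XT.lf (nat_lit 0) (nat_lit 30618151612) (nat_lit 152) (nat_lit 20805482215) (nat_lit 0) (nat_lit 19293317884) (nat_lit 10) (nat_lit 5) (nat_lit 12) (nat_lit 4) (nat_lit 10) (nat_lit 4) (nat_lit 489) (nat_lit 311) (nat_lit 220))))))) (XT.nd (nat_lit 46644) (nat_lit 0) (nat_lit 3724) (XT.nd (nat_lit 46098) (nat_lit 0) (nat_lit 5928) (XT.nd (nat_lit 45786) (nat_lit 0) (nat_lit 7372) (XT.nd (nat_lit 78) (nat_lit 76) (nat_lit 0) (XT.lf (nat_lit 0) (nat_lit 38358378175) (nat_lit 152) (nat_lit 7254800074) (nat_lit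 0) (nat_lit 27009519540) (nat_lit 10) (nat_lit 5) (nat_lit 12) (nat_lit 4) (nat_lit 10) (nat_lit 4) (nat_lit 490) (nat_lit 311) (nat_lit 219)) (XT.nd (nat_lit 78) (nat_lit 0) (nat_lit 0) (XT.lf (nat_lit 0) (nat_lit 6786100629) (nat_lit 76) (nat_lit 39585242043) (nat_lit 76) (nat_lit 28213058253) (nat_lit 9) (nat_lit 4) (nat_lit 10) (nat_lit 5) (nat_lit 10) (nat_lit 4) (nat_lit 491) (nat_lit 311) (nat_lit 218)) (XT.lf (nat_lit 0) (nat_lit 21348699154) (nat_lit 76) (nat_lit 33324810872) (nat_lit 76) (nat_lit 21929981302) (nat_lit 9) (nat_lit 4) (nat_lit 10) (nat_lit 5) (nat_lit 10) (nat_lit 4) (nat_lit 492) (nat_lit 311) (nat_lit 217)))) (XT.nd (nat_lit 156) (nat_lit 304) (nat_lit 0) (XT.nd (nat_lit 78) (nat_lit 228) (nat_lit 0) (XT.lf (nat_lit 0) (nat_lit 931939188) (nat_lit 304) (nat_lit 3135986122) (nat_lit 0) (nat_lit 931939188) (nat_lit 113) (nat_lit 5) (nat_lit 117) (nat_lit 4) (nat_lit 113) (nat_lit 4) (nat_lit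 396) (nat_lit 312) (nat_lit 312)) (XT.lf (nat_lit 0) (nat_lit 2161960533) (nat_lit 228) (nat_lit 4358405069) (nat_lit 228) (nat_lit 3617470588) (nat_lit 110) (nat_lit 4) (nat_lit 113) (nat_lit 5) (nat_lit 113) (nat_lit 4) (nat_lit 397) (nat_lit 312) (nat_lit 311))) (XT.nd (nat_lit 78) (nat_lit 0) (nat_lit 0) (XT.lf (nat_lit 0) (nat_lit 527793909) (nat_lit 228) (nat_lit 451556954) (nat_lit 304) (nat_lit 9301561636) (nat_lit 106) (nat_lit 5) (nat_lit 109) (nat_lit 5) (nat_lit 110) (nat_lit 4) (nat_lit 398) (nat_lit 312) (nat_lit 310)) (XT.lf (nat_lit 0) (nat_lit 5651958438) (nat_lit 304) (nat_lit 1218805456) (nat_lit 0) (nat_lit 3556142753) (nat_lit 106) (nat_lit 5) (nat_lit 110) (nat_lit 4) (nat_lit 106) (nat_lit 4) (nat_lit 399) (nat_lit 312) (nat_lit 309))))) (XT.nd (nat_lit 234) (nat_lit 684) (nat_lit 0) (XT.nd (nat_lit 78) (nat_lit 532) (nat_lit 0) (XT.lf (nat_lit 0) (nat_lit 7547295721) (nat_lit 228) (nat_lit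 2892439372) (nat_lit 228) (nat_lit 138312998) (nat_lit 103) (nat_lit 4) (nat_lit 106) (nat_lit 5) (nat_lit 106) (nat_lit 4) (nat_lit 400) (nat_lit 312) (nat_lit 308)) (XT.nd (nat_lit 78) (nat_lit 228) (nat_lit 0) (XT.lf (nat_lit 0) (nat_lit 4525213634) (nat_lit 304) (nat_lit 4977056902) (nat_lit 0) (nat_lit 1230783570) (nat_lit 99) (nat_lit 5) (nat_lit 103) (nat_lit 4) (nat_lit 99) (nat_lit 4) (nat_lit 401) (nat_lit 312) (nat_lit 307)) (XT.lf (nat_lit 0) (nat_lit 3853366838) (nat_lit 228) (nat_lit 5468162905) (nat_lit 228) (nat_lit 1571285304) (nat_lit 96) (nat_lit 4) (nat_lit 99) (nat_lit 5) (nat_lit 99) (nat_lit 4) (nat_lit 402) (nat_lit 312) (nat_lit 306)))) (XT.nd (nat_lit 156) (nat_lit 456) (nat_lit 0) (XT.nd (nat_lit 78) (nat_lit 0) (nat_lit 0) (XT.lf (nat_lit 0) (nat_lit 1830723093) (nat_lit 152) (nat_lit 1278883416) (nat_lit 228) (nat_lit 7947820013) (nat_lit 93) (nat_lit 5) (nat_lit 95) (nat_lit 5) (nat_lit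 96) (nat_lit 4) (nat_lit 403) (nat_lit 312) (nat_lit 305)) (XT.lf (nat_lit 0) (nat_lit 7900406245) (nat_lit 228) (nat_lit 328245398) (nat_lit 0) (nat_lit 2997840512) (nat_lit 93) (nat_lit 5) (nat_lit 96) (nat_lit 4) (nat_lit 93) (nat_lit 4) (nat_lit 404) (nat_lit 312) (nat_lit 304))) (XT.nd (nat_lit 78) (nat_lit 152) (nat_lit 0) (XT.lf (nat_lit 0) (nat_lit 1406869069) (nat_lit 304) (nat_lit 2581888356) (nat_lit 76) (nat_lit 7411455570) (nat_lit 89) (nat_lit 5) (nat_lit 93) (nat_lit 5) (nat_lit 90) (nat_lit 4) (nat_lit 405) (nat_lit 312) (nat_lit 303)) (XT.lf (nat_lit 0) (nat_lit 6189004237) (nat_lit 228) (nat_lit 4984930367) (nat_lit 0) (nat_lit 405014816) (nat_lit 87) (nat_lit 5) (nat_lit 90) (nat_lit 4) (nat_lit 87) (nat_lit 4) (nat_lit 406) (nat_lit 312) (nat_lit 302)))))) (XT.nd (nat_lit 546) (nat_lit 1140) (nat_lit 0) (XT.nd (nat_lit 234) (nat_lit 608) (nat_lit 0) (XT.nd (nat_lit 78) (nat_lit 228) (nat_lit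 0) (XT.lf (nat_lit 0) (nat_lit 4213058807) (nat_lit 228) (nat_lit 6911764860) (nat_lit 228) (nat_lit 637930461) (nat_lit 84) (nat_lit 4) (nat_lit 87) (nat_lit 5) (nat_lit 87) (nat_lit 4) (nat_lit 407) (nat_lit 312) (nat_lit 301)) (XT.nd (nat_lit 78) (nat_lit 0) (nat_lit 0) (XT.lf (nat_lit 0) (nat_lit 1664102377) (nat_lit 152) (nat_lit 2480486009) (nat_lit 228) (nat_lit 7807138947) (nat_lit 81) (nat_lit 5) (nat_lit 83) (nat_lit 5) (nat_lit 84) (nat_lit 4) (nat_lit 408) (nat_lit 312) (nat_lit 300)) (XT.lf (nat_lit 0) (nat_lit 9059505141) (nat_lit 228) (nat_lit 1028234132) (nat_lit 0) (nat_lit 2058400364) (nat_lit 81) (nat_lit 5) (nat_lit 84) (nat_lit 4) (nat_lit 81) (nat_lit 4) (nat_lit 409) (nat_lit 312) (nat_lit 299)))) (XT.nd (nat_lit 156) (nat_lit 228) (nat_lit 0) (XT.nd (nat_lit 78) (nat_lit 152) (nat_lit 0) (XT.lf (nat_lit 0) (nat_lit 1754618393) (nat_lit 228) (nat_lit 3874450356) (nat_lit 76) (nat_lit 6716401208)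 (nat_lit 78) (nat_lit 5) (nat_lit 81) (nat_lit 5) (nat_lit 79) (nat_lit 4) (nat_lit 410) (nat_lit 312) (nat_lit 298)) (XT.lf (nat_lit 0) (nat_lit 5643774070) (nat_lit 152) (nat_lit 1007774868) (nat_lit 228) (nat_lit 5899150793) (nat_lit 76) (nat_lit 5) (nat_lit 78) (nat_lit 5) (nat_lit 79) (nat_lit 4) (nat_lit 411) (nat_lit 312) (nat_lit 297))) (XT.nd (nat_lit 78) (nat_lit 76) (nat_lit 0) (XT.lf (nat_lit 0) (nat_lit 2618648124) (nat_lit 152) (nat_lit 9085719604) (nat_lit 152) (nat_lit 1057459668) (nat_lit 74) (nat_lit 4) (nat_lit 76) (nat_lit 5) (nat_lit 76) (nat_lit 4) (nat_lit 412) (nat_lit 312) (nat_lit 296)) (XT.lf (nat_lit 0) (nat_lit 3841670451) (nat_lit 228) (nat_lit 616357069) (nat_lit 76) (nat_lit 8520472003) (nat_lit 73) (nat_lit 5) (nat_lit 76) (nat_lit 5) (nat_lit 74) (nat_lit 4) (nat_lit 413) (nat_lit 312) (nat_lit 295))))) (XT.nd (nat_lit 312) (nat_lit 608) (nat_lit 0) (XT.nd (nat_lit 156) (nat_lit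 152) (nat_lit 0) (XT.nd (nat_lit 78) (nat_lit 228) (nat_lit 0) (XT.lf (nat_lit 0) (nat_lit 8869436028) (nat_lit 228) (nat_lit 3996750897) (nat_lit 0) (nat_lit 335092851) (nat_lit 71) (nat_lit 5) (nat_lit 74) (nat_lit 4) (nat_lit 71) (nat_lit 4) (nat_lit 414) (nat_lit 312) (nat_lit 294)) (XT.lf (nat_lit 0) (nat_lit 623270563) (nat_lit 228) (nat_lit 7622978368) (nat_lit 76) (nat_lit 5183784718) (nat_lit 68) (nat_lit 5) (nat_lit 71) (nat_lit 5) (nat_lit 69) (nat_lit 4) (nat_lit 415) (nat_lit 312) (nat_lit 293))) (XT.nd (nat_lit 78) (nat_lit 0) (nat_lit 0) (XT.lf (nat_lit 0) (nat_lit 2163162573) (nat_lit 152) (nat_lit 3450112105) (nat_lit 228) (nat_lit 8051898426) (nat_lit 66) (nat_lit 5) (nat_lit 68) (nat_lit 5) (nat_lit 69) (nat_lit 4) (nat_lit 416) (nat_lit 312) (nat_lit 292)) (XT.lf (nat_lit 0) (nat_lit 10757186069) (nat_lit 228) (nat_lit 1679620167) (nat_lit 0) (nat_lit 1470442750) (nat_lit 66) (nat_lit 5) (nat_lit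 69) (nat_lit 4) (nat_lit 66) (nat_lit 4) (nat_lit 417) (nat_lit 312) (nat_lit 291)))) (XT.nd (nat_lit 156) (nat_lit 228) (nat_lit 0) (XT.nd (nat_lit 78) (nat_lit 152) (nat_lit 0) (XT.lf (nat_lit 0) (nat_lit 1891800640) (nat_lit 228) (nat_lit 5760800869) (nat_lit 76) (nat_lit 6502545254) (nat_lit 63) (nat_lit 5) (nat_lit 66) (nat_lit 5) (nat_lit 64) (nat_lit 4) (nat_lit 418) (nat_lit 312) (nat_lit 290)) (XT.lf (nat_lit 0) (nat_lit 4293206521) (nat_lit 152) (nat_lit 2701679137) (nat_lit 228) (nat_lit 7415469535) (nat_lit 61) (nat_lit 5) (nat_lit 63) (nat_lit 5) (nat_lit 64) (nat_lit 4) (nat_lit 419) (nat_lit 312) (nat_lit 289))) (XT.nd (nat_lit 78) (nat_lit 228) (nat_lit 0) (XT.lf (nat_lit 0) (nat_lit 12248093992) (nat_lit 228) (nat_lit 82735896) (nat_lit 0) (nat_lit 2342486581) (nat_lit 61) (nat_lit 5) (nat_lit 64) (nat_lit 4) (nat_lit 61) (nat_lit 4) (nat_lit 420) (nat_lit 312) (nat_lit 288)) (XT.lf (nat_lit 0)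 (nat_lit 2705413438) (nat_lit 228) (nat_lit 4692969878) (nat_lit 76) (nat_lit 7543697815) (nat_lit 58) (nat_lit 5) (nat_lit 61) (nat_lit 5) (nat_lit 59) (nat_lit 4) (nat_lit 421) (nat_lit 312) (nat_lit 287))))))))
noncomputable def xc41 : XT := (XT.nd (nat_lit 2262) (nat_lit 1140) (nat_lit 0) (XT.nd (nat_lit 1092) (nat_lit 988) (nat_lit 0) (XT.nd (nat_lit 546) (nat_lit 608) (nat_lit 0) (XT.nd (nat_lit 234) (nat_lit 380) (nat_lit 0) (XT.nd (nat_lit 78) (nat_lit 228) (nat_lit 0) (XT.lf (nat_lit 0) (nat_lit 5608926133) (nat_lit 76) (nat_lit 2304916515) (nat_lit 152) (nat_lit 7305174036) (nat_lit 57) (nat_lit 5) (nat_lit 58) (nat_lit 5) (nat_lit 59) (nat_lit 4) (nat_lit 422) (nat_lit 312) (nat_lit 286)) (XT.nd (nat_lit 78) (nat_lit 76) (nat_lit 0) (XT.lf (nat_lit 0) (nat_lit 646565621) (nat_lit 152) (nat_lit 12632478933) (nat_lit 152) (nat_lit 2225206837) (nat_lit 55) (nat_lit 4) (nat_lit 57) (nat_lit 5) (nat_lit 57)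 (nat_lit 4) (nat_lit 423) (nat_lit 312) (nat_lit 285)) (XT.lf (nat_lit 0) (nat_lit 2987618486) (nat_lit 228) (nat_lit 4590606975) (nat_lit 76) (nat_lit 8217782583) (nat_lit 54) (nat_lit 5) (nat_lit 57) (nat_lit 5) (nat_lit 55) (nat_lit 4) (nat_lit 424) (nat_lit 312) (nat_lit 284)))) (XT.nd (nat_lit 156) (nat_lit 152) (nat_lit 0) (XT.nd (nat_lit 78) (nat_lit 152) (nat_lit 0) (XT.lf (nat_lit 0) (nat_lit 5931888823) (nat_lit 76) (nat_lit 2357930190) (nat_lit 152) (nat_lit 7806712099) (nat_lit 53) (nat_lit 5) (nat_lit 54) (nat_lit 5) (nat_lit 55) (nat_lit 4) (nat_lit 425) (nat_lit 312) (nat_lit 283)) (XT.lf (nat_lit 0) (nat_lit 289044263) (nat_lit 152) (nat_lit 13461627064) (nat_lit 152) (nat_lit 2655416905) (nat_lit 51) (nat_lit 4) (nat_lit 53) (nat_lit 5) (nat_lit 53) (nat_lit 4) (nat_lit 426) (nat_lit 312) (nat_lit 282))) (XT.nd (nat_lit 78) (nat_lit 76) (nat_lit 0) (XT.lf (nat_lit 0) (nat_lit 2646802266) (nat_lit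 228) (nat_lit 5653724406) (nat_lit 76) (nat_lit 8422203535) (nat_lit 50) (nat_lit 5) (nat_lit 53) (nat_lit 5) (nat_lit 51) (nat_lit 4) (nat_lit 427) (nat_lit 312) (nat_lit 281)) (XT.lf (nat_lit 0) (nat_lit 5053347742) (nat_lit 76) (nat_lit 2973342209) (nat_lit 152) (nat_lit 9022238988) (nat_lit 49) (nat_lit 5) (nat_lit 50) (nat_lit 5) (nat_lit 51) (nat_lit 4) (nat_lit 428) (nat_lit 312) (nat_lit 280))))) (XT.nd (nat_lit 234) (nat_lit 304) (nat_lit 0) (XT.nd (nat_lit 78) (nat_lit 304) (nat_lit 0) (XT.lf (nat_lit 0) (nat_lit 13573438218) (nat_lit 152) (nat_lit 1353118157) (nat_lit 0) (nat_lit 2458198612) (nat_lit 49) (nat_lit 5) (nat_lit 51) (nat_lit 4) (nat_lit 49) (nat_lit 4) (nat_lit 429) (nat_lit 312) (nat_lit 279)) (XT.nd (nat_lit 78) (nat_lit 76) (nat_lit 0) (XT.lf (nat_lit 0) (nat_lit 1573902539) (nat_lit 228) (nat_lit 8116149146) (nat_lit 76) (nat_lit 8038710466) (nat_lit 46) (nat_lit 5) (nat_lit 49) (nat_lit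 5) (nat_lit 47) (nat_lit 4) (nat_lit 430) (nat_lit 312) (nat_lit 278)) (XT.lf (nat_lit 0) (nat_lit 2729077297) (nat_lit 76) (nat_lit 4281008192) (nat_lit 152) (nat_lit 11072896469) (nat_lit 45) (nat_lit 5) (nat_lit 46) (nat_lit 5) (nat_lit 47) (nat_lit 4) (nat_lit 431) (nat_lit 312) (nat_lit 277)))) (XT.nd (nat_lit 156) (nat_lit 152) (nat_lit 0) (XT.nd (nat_lit 78) (nat_lit 152) (nat_lit 0) (XT.lf (nat_lit 0) (nat_lit 12630723340) (nat_lit 152) (nat_lit 4531454660) (nat_lit 0) (nat_lit 1285013961) (nat_lit 45) (nat_lit 5) (nat_lit 47) (nat_lit 4) (nat_lit 45) (nat_lit 4) (nat_lit 432) (nat_lit 312) (nat_lit 276)) (XT.lf (nat_lit 0) (nat_lit 6566561657) (nat_lit 152) (nat_lit 11887273826) (nat_lit 152) (nat_lit 367481674) (nat_lit 43) (nat_lit 4) (nat_lit 45) (nat_lit 5) (nat_lit 45) (nat_lit 4) (nat_lit 433) (nat_lit 312) (nat_lit 275))) (XT.nd (nat_lit 78) (nat_lit 76) (nat_lit 0) (XT.lf (nat_lit 0) (nat_lit 5117283060)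 (nat_lit 228) (nat_lit 1300719938) (nat_lit 76) (nat_lit 12787915165) (nat_lit 42) (nat_lit 5) (nat_lit 45) (nat_lit 5) (nat_lit 43) (nat_lit 4) (nat_lit 434) (nat_lit 312) (nat_lit 274)) (XT.lf (nat_lit 0) (nat_lit 10043244669) (nat_lit 76) (nat_lit 743030666) (nat_lit 152) (nat_lit 8814864757) (nat_lit 41) (nat_lit 5) (nat_lit 42) (nat_lit 5) (nat_lit 43) (nat_lit 4) (nat_lit 435) (nat_lit 312) (nat_lit 273)))))) (XT.nd (nat_lit 546) (nat_lit 456) (nat_lit 0) (XT.nd (nat_lit 234) (nat_lit 228) (nat_lit 0) (XT.nd (nat_lit 78) (nat_lit 152) (nat_lit 0) (XT.lf (nat_lit 0) (nat_lit 1597130576) (nat_lit 152) (nat_lit 15036587668) (nat_lit 152) (nat_lit 3374253048) (nat_lit 39) (nat_lit 4) (nat_lit 41) (nat_lit 5) (nat_lit 41) (nat_lit 4) (nat_lit 436) (nat_lit 312) (nat_lit 272)) (XT.nd (nat_lit 78) (nat_lit 76) (nat_lit 0) (XT.lf (nat_lit 0) (nat_lit 2221703064) (nat_lit 228) (nat_lit 7302442729) (nat_lit 76) (nat_lit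 10901153489) (nat_lit 38) (nat_lit 5) (nat_lit 41) (nat_lit 5) (nat_lit 39) (nat_lit 4) (nat_lit 437) (nat_lit 312) (nat_lit 271)) (XT.lf (nat_lit 0) (nat_lit 4057478439) (nat_lit 76) (nat_lit 3832063417) (nat_lit 152) (nat_lit 12965452005) (nat_lit 37) (nat_lit 5) (nat_lit 38) (nat_lit 5) (nat_lit 39) (nat_lit 4) (nat_lit 438) (nat_lit 312) (nat_lit 270)))) (XT.nd (nat_lit 156) (nat_lit 152) (nat_lit 0) (XT.nd (nat_lit 78) (nat_lit 76) (nat_lit 0) (XT.lf (nat_lit 0) (nat_lit 13754395771) (nat_lit 152) (nat_lit 5535396255) (nat_lit 0) (nat_lit 2006981445) (nat_lit 37) (nat_lit 5) (nat_lit 39) (nat_lit 4) (nat_lit 37) (nat_lit 4) (nat_lit 439) (nat_lit 312) (nat_lit 269)) (XT.lf (nat_lit 0) (nat_lit 6020170840) (nat_lit 76) (nat_lit 13805775431) (nat_lit 76) (nat_lit 1924941155) (nat_lit 36) (nat_lit 4) (nat_lit 37) (nat_lit 5) (nat_lit 37) (nat_lit 4) (nat_lit 440) (nat_lit 312) (nat_lit 268))) (XT.nd (nat_lit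 78) (nat_lit 76) (nat_lit 0) (XT.lf (nat_lit 0) (nat_lit 3777141125) (nat_lit 152) (nat_lit 4342771722) (nat_lit 76) (nat_lit 14097857852) (nat_lit 35) (nat_lit 5) (nat_lit 37) (nat_lit 5) (nat_lit 36) (nat_lit 4) (nat_lit 441) (nat_lit 312) (nat_lit 267)) (XT.lf (nat_lit 0) (nat_lit 7391570314) (nat_lit 76) (nat_lit 2227986149) (nat_lit 152) (nat_lit 13078296634) (nat_lit 34) (nat_lit 5) (nat_lit 35) (nat_lit 5) (nat_lit 36) (nat_lit 4) (nat_lit 442) (nat_lit 312) (nat_lit 266))))) (XT.nd (nat_lit 312) (nat_lit 228) (nat_lit 0) (XT.nd (nat_lit 156) (nat_lit 152) (nat_lit 0) (XT.nd (nat_lit 78) (nat_lit 76) (nat_lit 0) (XT.lf (nat_lit 0) (nat_lit 15655503878) (nat_lit 152) (nat_lit 3781977227) (nat_lit 0) (nat_lit 3754312169) (nat_lit 34) (nat_lit 5) (nat_lit 36) (nat_lit 4) (nat_lit 34) (nat_lit 4) (nat_lit 443) (nat_lit 312) (nat_lit 265)) (XT.lf (nat_lit 0) (nat_lit 8107142727) (nat_lit 76) (nat_lit 13804263289)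 (nat_lit 76) (nat_lit 1787982359) (nat_lit 33) (nat_lit 4) (nat_lit 34) (nat_lit 5) (nat_lit 34) (nat_lit 4) (nat_lit 444) (nat_lit 312) (nat_lit 264))) (XT.nd (nat_lit 78) (nat_lit 76) (nat_lit 0) (XT.lf (nat_lit 0) (nat_lit 4029647963) (nat_lit 152) (nat_lit 3947832672) (nat_lit 76) (nat_lit 16244216145) (nat_lit 32) (nat_lit 5) (nat_lit 34) (nat_lit 5) (nat_lit 33) (nat_lit 4) (nat_lit 445) (nat_lit 312) (nat_lit 263)) (XT.lf (nat_lit 0) (nat_lit 8072010012) (nat_lit 76) (nat_lit 1932182440) (nat_lit 152) (nat_lit 14754403995) (nat_lit 31) (nat_lit 5) (nat_lit 32) (nat_lit 5) (nat_lit 33) (nat_lit 4) (nat_lit 446) (nat_lit 312) (nat_lit 262)))) (XT.nd (nat_lit 156) (nat_lit 152) (nat_lit 0) (XT.nd (nat_lit 78) (nat_lit 76) (nat_lit 0) (XT.lf (nat_lit 0) (nat_lit 16180368468) (nat_lit 152) (nat_lit 4932549999) (nat_lit 0) (nat_lit 4198015452) (nat_lit 31) (nat_lit 5) (nat_lit 33) (nat_lit 4) (nat_lit 31) (nat_lit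 4) (nat_lit 447) (nat_lit 312) (nat_lit 261)) (XT.lf (nat_lit 0) (nat_lit 7184649469) (nat_lit 76) (nat_lit 15387950758) (nat_lit 76) (nat_lit 3306320769) (nat_lit 30) (nat_lit 4) (nat_lit 31) (nat_lit 5) (nat_lit 31) (nat_lit 4) (nat_lit 448) (nat_lit 312) (nat_lit 260))) (XT.nd (nat_lit 78) (nat_lit 76) (nat_lit 0) (XT.lf (nat_lit 0) (nat_lit 2633042492) (nat_lit 152) (nat_lit 6832939140) (nat_lit 76) (nat_lit 16997403958) (nat_lit 29) (nat_lit 5) (nat_lit 31) (nat_lit 5) (nat_lit 30) (nat_lit 4) (nat_lit 449) (nat_lit 312) (nat_lit 259)) (XT.lf (nat_lit 0) (nat_lit 5348500323) (nat_lit 76) (nat_lit 3331348835) (nat_lit 152) (nat_lit 18384683774) (nat_lit 28) (nat_lit 5) (nat_lit 29) (nat_lit 5) (nat_lit 30) (nat_lit 4) (nat_lit 450) (nat_lit 312) (nat_lit 258))))))) (XT.nd (nat_lit 1092) (nat_lit 532) (nat_lit 0) (XT.nd (nat_lit 546) (nat_lit 304) (nat_lit 0) (XT.nd (nat_lit 234) (nat_lit 228) (nat_lit 0) (XT.nd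 (nat_lit 78) (nat_lit 76) (nat_lit 0) (XT.lf (nat_lit 0) (nat_lit 14950869639) (nat_lit 152) (nat_lit 9783068152) (nat_lit 0) (nat_lit 2948494919) (nat_lit 28) (nat_lit 5) (nat_lit 30) (nat_lit 4) (nat_lit 28) (nat_lit 4) (nat_lit 451) (nat_lit 312) (nat_lit 257)) (XT.nd (nat_lit 78) (nat_lit 0) (nat_lit 0) (XT.lf (nat_lit 0) (nat_lit 2417734843) (nat_lit 76) (nat_lit 18994540572) (nat_lit 76) (nat_lit 6906528663) (nat_lit 27) (nat_lit 4) (nat_lit 28) (nat_lit 5) (nat_lit 28) (nat_lit 4) (nat_lit 452) (nat_lit 312) (nat_lit 256)) (XT.lf (nat_lit 0) (nat_lit 15081782770) (nat_lit 76) (nat_lit 13031139419) (nat_lit 76) (nat_lit 859984608) (nat_lit 27) (nat_lit 4) (nat_lit 28) (nat_lit 5) (nat_lit 28) (nat_lit 4) (nat_lit 453) (nat_lit 312) (nat_lit 255)))) (XT.nd (nat_lit 156) (nat_lit 76) (nat_lit 0) (XT.nd (nat_lit 78) (nat_lit 76) (nat_lit 0) (XT.lf (nat_lit 0) (nat_lit 5210856417) (nat_lit 152) (nat_lit 1673837547)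 (nat_lit 76) (nat_lit 22761963212) (nat_lit 26) (nat_lit 5) (nat_lit 28) (nat_lit 5) (nat_lit 27) (nat_lit 4) (nat_lit 454) (nat_lit 312) (nat_lit 254)) (XT.lf (nat_lit 0) (nat_lit 11018049799) (nat_lit 76) (nat_lit 483573862) (nat_lit 152) (nat_lit 18837090379) (nat_lit 25) (nat_lit 5) (nat_lit 26) (nat_lit 5) (nat_lit 27) (nat_lit 4) (nat_lit 455) (nat_lit 312) (nat_lit 253))) (XT.nd (nat_lit 78) (nat_lit 76) (nat_lit 0) (XT.lf (nat_lit 0) (nat_lit 18006176783) (nat_lit 152) (nat_lit 7083413328) (nat_lit 0) (nat_lit 5961192543) (nat_lit 25) (nat_lit 5) (nat_lit 27) (nat_lit 4) (nat_lit 25) (nat_lit 4) (nat_lit 456) (nat_lit 312) (nat_lit 252)) (XT.lf (nat_lit 0) (nat_lit 5528418240) (nat_lit 76) (nat_lit 19186120416) (nat_lit 76) (nat_lit 7069416379) (nat_lit 24) (nat_lit 4) (nat_lit 25) (nat_lit 5) (nat_lit 25) (nat_lit 4) (nat_lit 457) (nat_lit 312) (nat_lit 251))))) (XT.nd (nat_lit 234) (nat_lit 152) (nat_lit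 0) (XT.nd (nat_lit 78) (nat_lit 152) (nat_lit 0) (XT.lf (nat_lit 0) (nat_lit 18569116952) (nat_lit 76) (nat_lit 13077829259) (nat_lit 76) (nat_lit 891494351) (nat_lit 24) (nat_lit 4) (nat_lit 25) (nat_lit 5) (nat_lit 25) (nat_lit 4) (nat_lit 458) (nat_lit 312) (nat_lit 250)) (XT.nd (nat_lit 78) (nat_lit 76) (nat_lit 0) (XT.lf (nat_lit 0) (nat_lit 5317206966) (nat_lit 152) (nat_lit 1460007553) (nat_lit 76) (nat_lit 26538203447) (nat_lit 23) (nat_lit 5) (nat_lit 25) (nat_lit 5) (nat_lit 24) (nat_lit 4) (nat_lit 459) (nat_lit 312) (nat_lit 249)) (XT.lf (nat_lit 0) (nat_lit 11550982417) (nat_lit 76) (nat_lit 207911123) (nat_lit 152) (nat_lit 22354608747) (nat_lit 22) (nat_lit 5) (nat_lit 23) (nat_lit 5) (nat_lit 24) (nat_lit 4) (nat_lit 460) (nat_lit 312) (nat_lit 248)))) (XT.nd (nat_lit 156) (nat_lit 76) (nat_lit 0) (XT.nd (nat_lit 78) (nat_lit 76) (nat_lit 0) (XT.lf (nat_lit 0) (nat_lit 18425446924) (nat_lit 152)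 (nat_lit 10106303545) (nat_lit 0) (nat_lit 6402831797) (nat_lit 22) (nat_lit 5) (nat_lit 24) (nat_lit 4) (nat_lit 22) (nat_lit 4) (nat_lit 461) (nat_lit 312) (nat_lit 247)) (XT.lf (nat_lit 0) (nat_lit 2686332112) (nat_lit 76) (nat_lit 22588578018) (nat_lit 76) (nat_lit 10505898689) (nat_lit 21) (nat_lit 4) (nat_lit 22) (nat_lit 5) (nat_lit 22) (nat_lit 4) (nat_lit 462) (nat_lit 312) (nat_lit 246))) (XT.nd (nat_lit 78) (nat_lit 76) (nat_lit 0) (XT.lf (nat_lit 0) (nat_lit 15983146614) (nat_lit 76) (nat_lit 16404272159) (nat_lit 76) (nat_lit 4263278072) (nat_lit 21) (nat_lit 4) (nat_lit 22) (nat_lit 5) (nat_lit 22) (nat_lit 4) (nat_lit 463) (nat_lit 312) (nat_lit 245)) (XT.lf (nat_lit 0) (nat_lit 2080717026) (nat_lit 152) (nat_lit 7973754792) (nat_lit 76) (nat_lit 27492895088) (nat_lit 20) (nat_lit 5) (nat_lit 22) (nat_lit 5) (nat_lit 21) (nat_lit 4) (nat_lit 464) (nat_lit 312) (nat_lit 244)))))) (XT.nd (nat_lit 546)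 (nat_lit 228) (nat_lit 0) (XT.nd (nat_lit 234) (nat_lit 228) (nat_lit 0) (XT.nd (nat_lit 78) (nat_lit 0) (nat_lit 0) (XT.lf (nat_lit 0) (nat_lit 5075043254) (nat_lit 76) (nat_lit 3460730570) (nat_lit 152) (nat_lit 29933705436) (nat_lit 19) (nat_lit 5) (nat_lit 20) (nat_lit 5) (nat_lit 21) (nat_lit 4) (nat_lit 465) (nat_lit 312) (nat_lit 243)) (XT.nd (nat_lit 78) (nat_lit 0) (nat_lit 0) (XT.lf (nat_lit 0) (nat_lit 15255525256) (nat_lit 152) (nat_lit 20853592863) (nat_lit 0) (nat_lit 3308006931) (nat_lit 19) (nat_lit 5) (nat_lit 21) (nat_lit 4) (nat_lit 19) (nat_lit 4) (nat_lit 466) (nat_lit 312) (nat_lit 242)) (XT.lf (nat_lit 0) (nat_lit 22170074194) (nat_lit 152) (nat_lit 8051078140) (nat_lit 0) (nat_lit 10172253045) (nat_lit 19) (nat_lit 5) (nat_lit 21) (nat_lit 4) (nat_lit 19) (nat_lit 4) (nat_lit 467) (nat_lit 312) (nat_lit 241)))) (XT.nd (nat_lit 156) (nat_lit 152) (nat_lit 0) (XT.nd (nat_lit 78) (nat_lit 0)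 (nat_lit 0) (XT.lf (nat_lit 0) (nat_lit 5158216875) (nat_lit 76) (nat_lit 24143562877) (nat_lit 76) (nat_lit 12096904036) (nat_lit 18) (nat_lit 4) (nat_lit 19) (nat_lit 5) (nat_lit 19) (nat_lit 4) (nat_lit 468) (nat_lit 312) (nat_lit 240)) (XT.lf (nat_lit 0) (nat_lit 18851643632) (nat_lit 76) (nat_lit 17837648285) (nat_lit 76) (nat_lit 5743574209) (nat_lit 18) (nat_lit 4) (nat_lit 19) (nat_lit 5) (nat_lit 19) (nat_lit 4) (nat_lit 469) (nat_lit 312) (nat_lit 239))) (XT.nd (nat_lit 78) (nat_lit 76) (nat_lit 0) (XT.lf (nat_lit 0) (nat_lit 746061557) (nat_lit 152) (nat_lit 10625603323) (nat_lit 76) (nat_lit 32127339701) (nat_lit 17) (nat_lit 5) (nat_lit 19) (nat_lit 5) (nat_lit 18) (nat_lit 4) (nat_lit 470) (nat_lit 312) (nat_lit 238)) (XT.lf (nat_lit 0) (nat_lit 2639825911) (nat_lit 76) (nat_lit 4662946306) (nat_lit 152) (nat_lit 37293015314) (nat_lit 16) (nat_lit 5) (nat_lit 17) (nat_lit 5) (nat_lit 18) (nat_lit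 4) (nat_lit 471) (nat_lit 312) (nat_lit 237))))) (XT.nd (nat_lit 312) (nat_lit 152) (nat_lit 0) (XT.nd (nat_lit 156) (nat_lit 76) (nat_lit 0) (XT.nd (nat_lit 78) (nat_lit 0) (nat_lit 0) (XT.lf (nat_lit 0) (nat_lit 14148646095) (nat_lit 152) (nat_lit 29297441401) (nat_lit 0) (nat_lit 2276613718) (nat_lit 16) (nat_lit 5) (nat_lit 18) (nat_lit 4) (nat_lit 16) (nat_lit 4) (nat_lit 472) (nat_lit 312) (nat_lit 236)) (XT.lf (nat_lit 0) (nat_lit 21209658070) (nat_lit 152) (nat_lit 16376747555) (nat_lit 0) (nat_lit 9296724895) (nat_lit 16) (nat_lit 5) (nat_lit 18) (nat_lit 4) (nat_lit 16) (nat_lit 4) (nat_lit 473) (nat_lit 312) (nat_lit 235))) (XT.nd (nat_lit 78) (nat_lit 76) (nat_lit 0) (XT.lf (nat_lit 0) (nat_lit 28447154867) (nat_lit 152) (nat_lit 3137767062) (nat_lit 0) (nat_lit 16494512179) (nat_lit 16) (nat_lit 5) (nat_lit 18) (nat_lit 4) (nat_lit 16) (nat_lit 4) (nat_lit 474) (nat_lit 312) (nat_lit 234)) (XT.lf (nat_lit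 0) (nat_lit 10638666827) (nat_lit 76) (nat_lit 25331059058) (nat_lit 76) (nat_lit 13339863445) (nat_lit 15) (nat_lit 4) (nat_lit 16) (nat_lit 5) (nat_lit 16) (nat_lit 4) (nat_lit 475) (nat_lit 312) (nat_lit 233)))) (XT.nd (nat_lit 156) (nat_lit 152) (nat_lit 0) (XT.nd (nat_lit 78) (nat_lit 0) (nat_lit 0) (XT.lf (nat_lit 0) (nat_lit 24826060103) (nat_lit 76) (nat_lit 18889641942) (nat_lit 76) (nat_lit 6861016304) (nat_lit 15) (nat_lit 4) (nat_lit 16) (nat_lit 5) (nat_lit 16) (nat_lit 4) (nat_lit 476) (nat_lit 312) (nat_lit 232)) (XT.lf (nat_lit 0) (nat_lit 39374361800) (nat_lit 76) (nat_lit 12286727450) (nat_lit 76) (nat_lit 221761983) (nat_lit 15) (nat_lit 4) (nat_lit 16) (nat_lit 5) (nat_lit 16) (nat_lit 4) (nat_lit 477) (nat_lit 312) (nat_lit 231))) (XT.nd (nat_lit 78) (nat_lit 0) (nat_lit 0) (XT.lf (nat_lit 0) (nat_lit 1023847144) (nat_lit 76) (nat_lit 5441223791) (nat_lit 152) (nat_lit 46761864480) (nat_lit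 13) (nat_lit 5) (nat_lit 14) (nat_lit 5) (nat_lit 15) (nat_lit 4) (nat_lit 478) (nat_lit 312) (nat_lit 230)) (XT.lf (nat_lit 0) (nat_lit 13458801254) (nat_lit 152) (nat_lit 39471420695) (nat_lit 0) (nat_lit 1677732682) (nat_lit 13) (nat_lit 5) (nat_lit 15) (nat_lit 4) (nat_lit 13) (nat_lit 4) (nat_lit 479) (nat_lit 312) (nat_lit 229))))))))
noncomputable def xc42 : XT := (XT.nd (nat_lit 47658) (nat_lit 0) (nat_lit 2204) (XT.nd (nat_lit 46488) (nat_lit 0) (nat_lit 5472) (XT.nd (nat_lit 546) (nat_lit 152) (nat_lit 0) (XT.nd (nat_lit 234) (nat_lit 76) (nat_lit 0) (XT.nd (nat_lit 78) (nat_lit 76) (nat_lit 0) (XT.lf (nat_lit 0) (nat_lit 20684872222) (nat_lit 152) (nat_lit 26473341002) (nat_lit 0) (nat_lit 8871516182) (nat_lit 13) (nat_lit 5) (nat_lit 15) (nat_lit 4) (nat_lit 13) (nat_lit 4) (nat_lit 480) (nat_lit 312) (nat_lit 228)) (XT.nd (nat_lit 78) (nat_lit 76) (nat_lit 0) (XT.lf (nat_lit 0) (nat_lit 28097293510)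 (nat_lit 152) (nat_lit 13145187274) (nat_lit 0) (nat_lit 16252590414) (nat_lit 13) (nat_lit 5) (nat_lit 15) (nat_lit 4) (nat_lit 13) (nat_lit 4) (nat_lit 481) (nat_lit 312) (nat_lit 227)) (XT.lf (nat_lit 0) (nat_lit 535128736) (nat_lit 76) (nat_lit 35172557239) (nat_lit 76) (nat_lit 23297420107) (nat_lit 12) (nat_lit 4) (nat_lit 13) (nat_lit 5) (nat_lit 13) (nat_lit 4) (nat_lit 482) (nat_lit 312) (nat_lit 226)))) (XT.nd (nat_lit 156) (nat_lit 76) (nat_lit 0) (XT.nd (nat_lit 78) (nat_lit 0) (nat_lit 0) (XT.lf (nat_lit 0) (nat_lit 14837762911) (nat_lit 76) (nat_lit 28812129769) (nat_lit 76) (nat_lit 16907445031) (nat_lit 12) (nat_lit 4) (nat_lit 13) (nat_lit 5) (nat_lit 13) (nat_lit 4) (nat_lit 483) (nat_lit 312) (nat_lit 225)) (XT.lf (nat_lit 0) (nat_lit 29513597695) (nat_lit 76) (nat_lit 22288381338) (nat_lit 76) (nat_lit 10355009602) (nat_lit 12) (nat_lit 4) (nat_lit 13) (nat_lit 5) (nat_lit 13) (nat_lit 4) (nat_lit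 484) (nat_lit 312) (nat_lit 224))) (XT.nd (nat_lit 78) (nat_lit 76) (nat_lit 0) (XT.lf (nat_lit 0) (nat_lit 44575456634) (nat_lit 76) (nat_lit 15595611581) (nat_lit 76) (nat_lit 3634388392) (nat_lit 12) (nat_lit 4) (nat_lit 13) (nat_lit 5) (nat_lit 13) (nat_lit 4) (nat_lit 485) (nat_lit 312) (nat_lit 223)) (XT.lf (nat_lit 0) (nat_lit 3196670965) (nat_lit 152) (nat_lit 5499021374) (nat_lit 76) (nat_lit 56807549499) (nat_lit 11) (nat_lit 5) (nat_lit 13) (nat_lit 5) (nat_lit 12) (nat_lit 4) (nat_lit 486) (nat_lit 312) (nat_lit 222))))) (XT.nd (nat_lit 234) (nat_lit 76) (nat_lit 0) (XT.nd (nat_lit 78) (nat_lit 0) (nat_lit 0) (XT.lf (nat_lit 0) (nat_lit 8726529081) (nat_lit 76) (nat_lit 1490734555) (nat_lit 152) (nat_lit 57031888662) (nat_lit 10) (nat_lit 5) (nat_lit 11) (nat_lit 5) (nat_lit 12) (nat_lit 4) (nat_lit 487) (nat_lit 312) (nat_lit 221)) (XT.nd (nat_lit 78) (nat_lit 0) (nat_lit 0) (XT.lf (nat_lit 0) (nat_lit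 17535354273) (nat_lit 152) (nat_lit 45663450160) (nat_lit 0) (nat_lit 5846029878) (nat_lit 10) (nat_lit 5) (nat_lit 12) (nat_lit 4) (nat_lit 10) (nat_lit 4) (nat_lit 488) (nat_lit 312) (nat_lit 220)) (XT.lf (nat_lit 0) (nat_lit 25062305332) (nat_lit 152) (nat_lit 32483446521) (nat_lit 0) (nat_lit 13348956029) (nat_lit 10) (nat_lit 5) (nat_lit 12) (nat_lit 4) (nat_lit 10) (nat_lit 4) (nat_lit 489) (nat_lit 312) (nat_lit 219)))) (XT.nd (nat_lit 156) (nat_lit 76) (nat_lit 0) (XT.nd (nat_lit 78) (nat_lit 0) (nat_lit 0) (XT.lf (nat_lit 0) (nat_lit 32790363908) (nat_lit 152) (nat_lit 18956765940) (nat_lit 0) (nat_lit 21053689452) (nat_lit 10) (nat_lit 5) (nat_lit 12) (nat_lit 4) (nat_lit 10) (nat_lit 4) (nat_lit 490) (nat_lit 312) (nat_lit 218)) (XT.lf (nat_lit 0) (nat_lit 40726282674) (nat_lit 152) (nat_lit 5071588988) (nat_lit 0) (nat_lit 28966962437) (nat_lit 10) (nat_lit 5) (nat_lit 12) (nat_lit 4) (nat_lit 10) (nat_lit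 4) (nat_lit 491) (nat_lit 312) (nat_lit 217))) (XT.nd (nat_lit 45474) (nat_lit 0) (nat_lit 8512) (XT.lf (nat_lit 0) (nat_lit 9367000941) (nat_lit 76) (nat_lit 39600036330) (nat_lit 76) (nat_lit 27818729898) (nat_lit 9) (nat_lit 4) (nat_lit 10) (nat_lit 5) (nat_lit 10) (nat_lit 4) (nat_lit 492) (nat_lit 312) (nat_lit 216)) (XT.lf (nat_lit 0) (nat_lit 1664616301) (nat_lit 304) (nat_lit 1537544958) (nat_lit 0) (nat_lit 1664616301) (nat_lit 121) (nat_lit 5) (nat_lit 125) (nat_lit 4) (nat_lit 121) (nat_lit 4) (nat_lit 394) (nat_lit 313) (nat_lit 313)))))) (XT.nd (nat_lit 546) (nat_lit 1368) (nat_lit 0) (XT.nd (nat_lit 234) (nat_lit 836) (nat_lit 0) (XT.nd (nat_lit 78) (nat_lit 532) (nat_lit 0) (XT.lf (nat_lit 0) (nat_lit 5194739031) (nat_lit 304) (nat_lit 2728369541) (nat_lit 304) (nat_lit 1942312150) (nat_lit 117) (nat_lit 4) (nat_lit 121) (nat_lit 5) (nat_lit 121) (nat_lit 4) (nat_lit 395) (nat_lit 313) (nat_lit 312))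 (XT.nd (nat_lit 78) (nat_lit 228) (nat_lit 0) (XT.lf (nat_lit 0) (nat_lit 2574659016) (nat_lit 304) (nat_lit 6356088954) (nat_lit 0) (nat_lit 1070562020) (nat_lit 113) (nat_lit 5) (nat_lit 117) (nat_lit 4) (nat_lit 113) (nat_lit 4) (nat_lit 396) (nat_lit 313) (nat_lit 311)) (XT.lf (nat_lit 0) (nat_lit 1992877701) (nat_lit 228) (nat_lit 5185787023) (nat_lit 228) (nat_lit 2962336162) (nat_lit 110) (nat_lit 4) (nat_lit 113) (nat_lit 5) (nat_lit 113) (nat_lit 4) (nat_lit 397) (nat_lit 313) (nat_lit 310)))) (XT.nd (nat_lit 156) (nat_lit 532) (nat_lit 0) (XT.nd (nat_lit 78) (nat_lit 0) (nat_lit 0) (XT.lf (nat_lit 0) (nat_lit 262182833) (nat_lit 228) (nat_lit 1306307562) (nat_lit 304) (nat_lit 8717002927) (nat_lit 106) (nat_lit 5) (nat_lit 109) (nat_lit 5) (nat_lit 110) (nat_lit 4) (nat_lit 398) (nat_lit 313) (nat_lit 309)) (XT.lf (nat_lit 0) (nat_lit 6182620880) (nat_lit 304) (nat_lit 1563069350) (nat_lit 0) (nat_lit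 2687560024) (nat_lit 106) (nat_lit 5) (nat_lit 110) (nat_lit 4) (nat_lit 106) (nat_lit 4) (nat_lit 399) (nat_lit 313) (nat_lit 308))) (XT.nd (nat_lit 78) (nat_lit 228) (nat_lit 0) (XT.lf (nat_lit 0) (nat_lit 324985909) (nat_lit 304) (nat_lit 3474476050) (nat_lit 76) (nat_lit 6786431038) (nat_lit 102) (nat_lit 5) (nat_lit 106) (nat_lit 5) (nat_lit 103) (nat_lit 4) (nat_lit 400) (nat_lit 313) (nat_lit 307)) (XT.lf (nat_lit 0) (nat_lit 4922985647) (nat_lit 304) (nat_lit 5513011886) (nat_lit 0) (nat_lit 306754181) (nat_lit 99) (nat_lit 5) (nat_lit 103) (nat_lit 4) (nat_lit 99) (nat_lit 4) (nat_lit 401) (nat_lit 313) (nat_lit 306))))) (XT.nd (nat_lit 312) (nat_lit 608) (nat_lit 0) (XT.nd (nat_lit 156) (nat_lit 304) (nat_lit 0) (XT.nd (nat_lit 78) (nat_lit 228) (nat_lit 0) (XT.lf (nat_lit 0) (nat_lit 3224700324) (nat_lit 228) (nat_lit 6440290587) (nat_lit 228) (nat_lit 1239158600) (nat_lit 96) (nat_lit 4) (nat_lit 99)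 (nat_lit 5) (nat_lit 99) (nat_lit 4) (nat_lit 402) (nat_lit 313) (nat_lit 305)) (XT.lf (nat_lit 0) (nat_lit 1092504385) (nat_lit 152) (nat_lit 2287545346) (nat_lit 228) (nat_lit 7690278647) (nat_lit 93) (nat_lit 5) (nat_lit 95) (nat_lit 5) (nat_lit 96) (nat_lit 4) (nat_lit 403) (nat_lit 313) (nat_lit 304))) (XT.nd (nat_lit 78) (nat_lit 304) (nat_lit 0) (XT.lf (nat_lit 0) (nat_lit 8113370057) (nat_lit 228) (nat_lit 1150619544) (nat_lit 0) (nat_lit 1977135680) (nat_lit 93) (nat_lit 5) (nat_lit 96) (nat_lit 4) (nat_lit 93) (nat_lit 4) (nat_lit 404) (nat_lit 313) (nat_lit 303)) (XT.lf (nat_lit 0) (nat_lit 1545551491) (nat_lit 304) (nat_lit 3518441387) (nat_lit 76) (nat_lit 6352475886) (nat_lit 89) (nat_lit 5) (nat_lit 93) (nat_lit 5) (nat_lit 90) (nat_lit 4) (nat_lit 405) (nat_lit 313) (nat_lit 302)))) (XT.nd (nat_lit 156) (nat_lit 228) (nat_lit 0) (XT.nd (nat_lit 78) (nat_lit 228) (nat_lit 0) (XT.lf (nat_lit 0) (nat_lit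 5562601459) (nat_lit 152) (nat_lit 704912186) (nat_lit 228) (nat_lit 5329503038) (nat_lit 87) (nat_lit 5) (nat_lit 89) (nat_lit 5) (nat_lit 90) (nat_lit 4) (nat_lit 406) (nat_lit 313) (nat_lit 301)) (XT.lf (nat_lit 0) (nat_lit 3068984161) (nat_lit 228) (nat_lit 8070613733) (nat_lit 228) (nat_lit 643141675) (nat_lit 84) (nat_lit 4) (nat_lit 87) (nat_lit 5) (nat_lit 87) (nat_lit 4) (nat_lit 407) (nat_lit 313) (nat_lit 300))) (XT.nd (nat_lit 78) (nat_lit 0) (nat_lit 0) (XT.lf (nat_lit 0) (nat_lit 396166598) (nat_lit 152) (nat_lit 3685293760) (nat_lit 228) (nat_lit 7892000242) (nat_lit 81) (nat_lit 5) (nat_lit 83) (nat_lit 5) (nat_lit 84) (nat_lit 4) (nat_lit 408) (nat_lit 313) (nat_lit 299)) (XT.lf (nat_lit 0) (nat_lit 8939227861) (nat_lit 228) (nat_lit 2385773647) (nat_lit 0) (nat_lit 844591476) (nat_lit 81) (nat_lit 5) (nat_lit 84) (nat_lit 4) (nat_lit 81) (nat_lit 4) (nat_lit 409) (nat_lit 313) (nat_lit 298)))))))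 (XT.nd (nat_lit 1092) (nat_lit 1444) (nat_lit 0) (XT.nd (nat_lit 546) (nat_lit 836) (nat_lit 0) (XT.nd (nat_lit 234) (nat_lit 456) (nat_lit 0) (XT.nd (nat_lit 78) (nat_lit 304) (nat_lit 0) (XT.lf (nat_lit 0) (nat_lit 1554803703) (nat_lit 228) (nat_lit 5360929449) (nat_lit 76) (nat_lit 5455003545) (nat_lit 78) (nat_lit 5) (nat_lit 81) (nat_lit 5) (nat_lit 79) (nat_lit 4) (nat_lit 410) (nat_lit 313) (nat_lit 297)) (XT.nd (nat_lit 78) (nat_lit 152) (nat_lit 0) (XT.lf (nat_lit 0) (nat_lit 4048908693) (nat_lit 152) (nat_lit 2343370674) (nat_lit 228) (nat_lit 6185475876) (nat_lit 76) (nat_lit 5) (nat_lit 78) (nat_lit 5) (nat_lit 79) (nat_lit 4) (nat_lit 411) (nat_lit 313) (nat_lit 296)) (XT.lf (nat_lit 0) (nat_lit 898496593) (nat_lit 152) (nat_lit 10473336953) (nat_lit 152) (nat_lit 1419252276) (nat_lit 74) (nat_lit 4) (nat_lit 76) (nat_lit 5) (nat_lit 76) (nat_lit 4) (nat_lit 412) (nat_lit 313) (nat_lit 295)))) (XT.nd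 (nat_lit 156) (nat_lit 228) (nat_lit 0) (XT.nd (nat_lit 78) (nat_lit 152) (nat_lit 0) (XT.lf (nat_lit 0) (nat_lit 3443153548) (nat_lit 228) (nat_lit 2439908360) (nat_lit 76) (nat_lit 7126118590) (nat_lit 73) (nat_lit 5) (nat_lit 76) (nat_lit 5) (nat_lit 74) (nat_lit 4) (nat_lit 413) (nat_lit 313) (nat_lit 294)) (XT.lf (nat_lit 0) (nat_lit 7271210989) (nat_lit 152) (nat_lit 1135297247) (nat_lit 228) (nat_lit 4827389396) (nat_lit 71) (nat_lit 5) (nat_lit 73) (nat_lit 5) (nat_lit 74) (nat_lit 4) (nat_lit 414) (nat_lit 313) (nat_lit 293))) (XT.nd (nat_lit 78) (nat_lit 0) (nat_lit 0) (XT.lf (nat_lit 0) (nat_lit 63543789) (nat_lit 228) (nat_lit 9723312093) (nat_lit 76) (nat_lit 3678158351) (nat_lit 68) (nat_lit 5) (nat_lit 71) (nat_lit 5) (nat_lit 69) (nat_lit 4) (nat_lit 415) (nat_lit 313) (nat_lit 292)) (XT.lf (nat_lit 0) (nat_lit 4990547345) (nat_lit 228) (nat_lit 55055469) (nat_lit 76) (nat_lit 8656445058) (nat_lit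 68) (nat_lit 5) (nat_lit 71) (nat_lit 5) (nat_lit 69) (nat_lit 4) (nat_lit 416) (nat_lit 313) (nat_lit 291))))) (XT.nd (nat_lit 234) (nat_lit 304) (nat_lit 0) (XT.nd (nat_lit 78) (nat_lit 380) (nat_lit 0) (XT.lf (nat_lit 0) (nat_lit 9948232324) (nat_lit 152) (nat_lit 129572671) (nat_lit 228) (nat_lit 3868022419) (nat_lit 66) (nat_lit 5) (nat_lit 68) (nat_lit 5) (nat_lit 69) (nat_lit 4) (nat_lit 417) (nat_lit 313) (nat_lit 290)) (XT.nd (nat_lit 78) (nat_lit 152) (nat_lit 0) (XT.lf (nat_lit 0) (nat_lit 1121724780) (nat_lit 228) (nat_lit 8231757597) (nat_lit 76) (nat_lit 4842437462) (nat_lit 63) (nat_lit 5) (nat_lit 66) (nat_lit 5) (nat_lit 64) (nat_lit 4) (nat_lit 418) (nat_lit 313) (nat_lit 289)) (XT.lf (nat_lit 0) (nat_lit 1697856254) (nat_lit 152) (nat_lit 4461296171) (nat_lit 228) (nat_lit 8293949268) (nat_lit 61) (nat_lit 5) (nat_lit 63) (nat_lit 5) (nat_lit 64) (nat_lit 4) (nat_lit 419) (nat_lit 313) (nat_lit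 288)))) (XT.nd (nat_lit 156) (nat_lit 76) (nat_lit 0) (XT.nd (nat_lit 78) (nat_lit 228) (nat_lit 0) (XT.lf (nat_lit 0) (nat_lit 11354905407) (nat_lit 228) (nat_lit 2777839091) (nat_lit 0) (nat_lit 585045728) (nat_lit 61) (nat_lit 5) (nat_lit 64) (nat_lit 4) (nat_lit 61) (nat_lit 4) (nat_lit 420) (nat_lit 313) (nat_lit 287)) (XT.lf (nat_lit 0) (nat_lit 1718900340) (nat_lit 228) (nat_lit 7551707275) (nat_lit 76) (nat_lit 5718235501) (nat_lit 58) (nat_lit 5) (nat_lit 61) (nat_lit 5) (nat_lit 59) (nat_lit 4) (nat_lit 421) (nat_lit 313) (nat_lit 286))) (XT.nd (nat_lit 78) (nat_lit 0) (nat_lit 0) (XT.lf (nat_lit 0) (nat_lit 2620014871) (nat_lit 76) (nat_lit 4239298257) (nat_lit 152) (nat_lit 8408509325) (nat_lit 57) (nat_lit 5) (nat_lit 58) (nat_lit 5) (nat_lit 59) (nat_lit 4) (nat_lit 422) (nat_lit 313) (nat_lit 285)) (XT.lf (nat_lit 0) (nat_lit 12160569865) (nat_lit 152) (nat_lit 2457176065) (nat_lit 0) (nat_lit 937232778)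 (nat_lit 57) (nat_lit 5) (nat_lit 59) (nat_lit 4) (nat_lit 57) (nat_lit 4) (nat_lit 423) (nat_lit 313) (nat_lit 284)))))) (XT.nd (nat_lit 546) (nat_lit 684) (nat_lit 0) (XT.nd (nat_lit 234) (nat_lit 456) (nat_lit 0) (XT.nd (nat_lit 78) (nat_lit 76) (nat_lit 0) (XT.lf (nat_lit 0) (nat_lit 1777836329) (nat_lit 228) (nat_lit 7855300609) (nat_lit 76) (nat_lit 6215840473) (nat_lit 54) (nat_lit 5) (nat_lit 57) (nat_lit 5) (nat_lit 55) (nat_lit 4) (nat_lit 424) (nat_lit 313) (nat_lit 283)) (XT.nd (nat_lit 78) (nat_lit 0) (nat_lit 0) (XT.lf (nat_lit 0) (nat_lit 2530851111) (nat_lit 76) (nat_lit 4478563745) (nat_lit 152) (nat_lit 9142207205) (nat_lit 53) (nat_lit 5) (nat_lit 54) (nat_lit 5) (nat_lit 55) (nat_lit 4) (nat_lit 425) (nat_lit 313) (nat_lit 282)) (XT.lf (nat_lit 0) (nat_lit 12409307698) (nat_lit 152) (nat_lit 3222453253) (nat_lit 0) (nat_lit 831249852) (nat_lit 53) (nat_lit 5) (nat_lit 55) (nat_lit 4) (nat_lit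 53) (nat_lit 4) (nat_lit 426) (nat_lit 313) (nat_lit 281)))) (XT.nd (nat_lit 156) (nat_lit 152) (nat_lit 0) (XT.nd (nat_lit 78) (nat_lit 76) (nat_lit 0) (XT.lf (nat_lit 0) (nat_lit 1206160877) (nat_lit 228) (nat_lit 9343651117) (nat_lit 76) (nat_lit 6232335919) (nat_lit 50) (nat_lit 5) (nat_lit 53) (nat_lit 5) (nat_lit 51) (nat_lit 4) (nat_lit 427) (nat_lit 313) (nat_lit 280)) (XT.lf (nat_lit 0) (nat_lit 1220492606) (nat_lit 76) (nat_lit 5292075984) (nat_lit 152) (nat_lit 10597985051) (nat_lit 49) (nat_lit 5) (nat_lit 50) (nat_lit 5) (nat_lit 51) (nat_lit 4) (nat_lit 428) (nat_lit 313) (nat_lit 279))) (XT.nd (nat_lit 78) (nat_lit 152) (nat_lit 0) (XT.lf (nat_lit 0) (nat_lit 12000509687) (nat_lit 152) (nat_lit 5293565186) (nat_lit 0) (nat_lit 154071553) (nat_lit 49) (nat_lit 5) (nat_lit 51) (nat_lit 4) (nat_lit 49) (nat_lit 4) (nat_lit 429) (nat_lit 313) (nat_lit 278)) (XT.lf (nat_lit 0) (nat_lit 5542049584) (nat_lit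 152) (nat_lit 12144737263) (nat_lit 152) (nat_lit 108074183) (nat_lit 47) (nat_lit 4) (nat_lit 49) (nat_lit 5) (nat_lit 49) (nat_lit 4) (nat_lit 430) (nat_lit 313) (nat_lit 277))))) (XT.nd (nat_lit 312) (nat_lit 304) (nat_lit 0) (XT.nd (nat_lit 156) (nat_lit 228) (nat_lit 0) (XT.nd (nat_lit 78) (nat_lit 76) (nat_lit 0) (XT.lf (nat_lit 0) (nat_lit 5268582176) (nat_lit 228) (nat_lit 1526125674) (nat_lit 76) (nat_lit 11356255525) (nat_lit 46) (nat_lit 5) (nat_lit 49) (nat_lit 5) (nat_lit 47) (nat_lit 4) (nat_lit 431) (nat_lit 313) (nat_lit 276)) (XT.lf (nat_lit 0) (nat_lit 9577462387) (nat_lit 76) (nat_lit 1249195315) (nat_lit 152) (nat_lit 7690394787) (nat_lit 45) (nat_lit 5) (nat_lit 46) (nat_lit 5) (nat_lit 47) (nat_lit 4) (nat_lit 432) (nat_lit 313) (nat_lit 275))) (XT.nd (nat_lit 78) (nat_lit 76) (nat_lit 0) (XT.lf (nat_lit 0) (nat_lit 2017161363) (nat_lit 152) (nat_lit 14542599922) (nat_lit 152) (nat_lit 2334118833)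 (nat_lit 43) (nat_lit 4) (nat_lit 45) (nat_lit 5) (nat_lit 45) (nat_lit 4) (nat_lit 433) (nat_lit 313) (nat_lit 274)) (XT.lf (nat_lit 0) (nat_lit 3154799812) (nat_lit 228) (nat_lit 5968327179) (nat_lit 76) (nat_lit 10156949987) (nat_lit 42) (nat_lit 5) (nat_lit 45) (nat_lit 5) (nat_lit 43) (nat_lit 4) (nat_lit 434) (nat_lit 313) (nat_lit 273)))) (XT.nd (nat_lit 156) (nat_lit 228) (nat_lit 0) (XT.nd (nat_lit 78) (nat_lit 0) (nat_lit 0) (XT.lf (nat_lit 0) (nat_lit 5218827214) (nat_lit 76) (nat_lit 3525364121) (nat_lit 152) (nat_lit 10933497585) (nat_lit 41) (nat_lit 5) (nat_lit 42) (nat_lit 5) (nat_lit 43) (nat_lit 4) (nat_lit 435) (nat_lit 313) (nat_lit 272)) (XT.lf (nat_lit 0) (nat_lit 14516401203) (nat_lit 152) (nat_lit 3371016914) (nat_lit 0) (nat_lit 2199360926) (nat_lit 41) (nat_lit 5) (nat_lit 43) (nat_lit 4) (nat_lit 41) (nat_lit 4) (nat_lit 436) (nat_lit 313) (nat_lit 271))) (XT.nd (nat_lit 78) (nat_lit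 0) (nat_lit 0) (XT.lf (nat_lit 0) (nat_lit 1962662) (nat_lit 228) (nat_lit 12458847653) (nat_lit 76) (nat_lit 8045925952) (nat_lit 38) (nat_lit 5) (nat_lit 41) (nat_lit 5) (nat_lit 39) (nat_lit 4) (nat_lit 437) (nat_lit 313) (nat_lit 270)) (XT.lf (nat_lit 0) (nat_lit 5598668871) (nat_lit 228) (nat_lit 1239079274) (nat_lit 76) (nat_lit 14100818449) (nat_lit 38) (nat_lit 5) (nat_lit 41) (nat_lit 5) (nat_lit 39) (nat_lit 4) (nat_lit 438) (nat_lit 313) (nat_lit 269))))))))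
noncomputable def xc43 : XT := (XT.nd (nat_lit 2262) (nat_lit 684) (nat_lit 0) (XT.nd (nat_lit 1092) (nat_lit 684) (nat_lit 0) (XT.nd (nat_lit 546) (nat_lit 304) (nat_lit 0) (XT.nd (nat_lit 234) (nat_lit 228) (nat_lit 0) (XT.nd (nat_lit 78) (nat_lit 152) (nat_lit 0) (XT.lf (nat_lit 0) (nat_lit 10400047013) (nat_lit 76) (nat_lit 999877442) (nat_lit 152) (nat_lit 9982331415) (nat_lit 37) (nat_lit 5) (nat_lit 38) (nat_lit 5) (nat_lit 39) (nat_lit 4) (nat_lit 439) (nat_lit 313) (nat_lit 268)) (XT.nd (nat_lit 78) (nat_lit 76) (nat_lit 0) (XT.lf (nat_lit 0) (nat_lit 414298388) (nat_lit 76) (nat_lit 16962562358) (nat_lit 76) (nat_lit 4462349172) (nat_lit 36) (nat_lit 4) (nat_lit 37) (nat_lit 5) (nat_lit 37) (nat_lit 4) (nat_lit 440) (nat_lit 313) (nat_lit 267)) (XT.lf (nat_lit 0) (nat_lit 1258167129) (nat_lit 152) (nat_lit 10071895011) (nat_lit 76) (nat_lit 10977696754) (nat_lit 35) (nat_lit 5) (nat_lit 37) (nat_lit 5)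 (nat_lit 36) (nat_lit 4) (nat_lit 441) (nat_lit 313) (nat_lit 266)))) (XT.nd (nat_lit 156) (nat_lit 152) (nat_lit 0) (XT.nd (nat_lit 78) (nat_lit 0) (nat_lit 0) (XT.lf (nat_lit 0) (nat_lit 1489688339) (nat_lit 76) (nat_lit 5523986920) (nat_lit 152) (nat_lit 15776774774) (nat_lit 34) (nat_lit 5) (nat_lit 35) (nat_lit 5) (nat_lit 36) (nat_lit 4) (nat_lit 442) (nat_lit 313) (nat_lit 265)) (XT.lf (nat_lit 0) (nat_lit 12987834187) (nat_lit 152) (nat_lit 9802435552) (nat_lit 0) (nat_lit 495975608) (nat_lit 34) (nat_lit 5) (nat_lit 36) (nat_lit 4) (nat_lit 34) (nat_lit 4) (nat_lit 443) (nat_lit 313) (nat_lit 264))) (XT.nd (nat_lit 78) (nat_lit 76) (nat_lit 0) (XT.lf (nat_lit 0) (nat_lit 1909768208) (nat_lit 76) (nat_lit 17245166704) (nat_lit 76) (nat_lit 4641571017) (nat_lit 33) (nat_lit 4) (nat_lit 34) (nat_lit 5) (nat_lit 34) (nat_lit 4) (nat_lit 444) (nat_lit 313) (nat_lit 263)) (XT.lf (nat_lit 0) (nat_lit 1202545479)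 (nat_lit 152) (nat_lit 10270910992) (nat_lit 76) (nat_lit 12847058060) (nat_lit 32) (nat_lit 5) (nat_lit 34) (nat_lit 5) (nat_lit 33) (nat_lit 4) (nat_lit 445) (nat_lit 313) (nat_lit 262))))) (XT.nd (nat_lit 234) (nat_lit 152) (nat_lit 0) (XT.nd (nat_lit 78) (nat_lit 76) (nat_lit 0) (XT.lf (nat_lit 0) (nat_lit 1567622533) (nat_lit 76) (nat_lit 5518596082) (nat_lit 152) (nat_lit 17773923040) (nat_lit 31) (nat_lit 5) (nat_lit 32) (nat_lit 5) (nat_lit 33) (nat_lit 4) (nat_lit 446) (nat_lit 313) (nat_lit 261)) (XT.nd (nat_lit 78) (nat_lit 76) (nat_lit 0) (XT.lf (nat_lit 0) (nat_lit 13199632487) (nat_lit 152) (nat_lit 11558454155) (nat_lit 0) (nat_lit 656276626) (nat_lit 31) (nat_lit 5) (nat_lit 33) (nat_lit 4) (nat_lit 31) (nat_lit 4) (nat_lit 447) (nat_lit 313) (nat_lit 260)) (XT.lf (nat_lit 0) (nat_lit 372964343) (nat_lit 76) (nat_lit 19125958380) (nat_lit 76) (nat_lit 6486217108) (nat_lit 30) (nat_lit 4) (nat_lit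 31) (nat_lit 5) (nat_lit 31) (nat_lit 4) (nat_lit 448) (nat_lit 313) (nat_lit 259)))) (XT.nd (nat_lit 156) (nat_lit 76) (nat_lit 0) (XT.nd (nat_lit 78) (nat_lit 76) (nat_lit 0) (XT.lf (nat_lit 0) (nat_lit 12793007672) (nat_lit 76) (nat_lit 13255753361) (nat_lit 76) (nat_lit 522434021) (nat_lit 30) (nat_lit 4) (nat_lit 31) (nat_lit 5) (nat_lit 31) (nat_lit 4) (nat_lit 449) (nat_lit 313) (nat_lit 258)) (XT.lf (nat_lit 0) (nat_lit 5456516453) (nat_lit 152) (nat_lit 1747443434) (nat_lit 76) (nat_lit 19970875826) (nat_lit 29) (nat_lit 5) (nat_lit 31) (nat_lit 5) (nat_lit 30) (nat_lit 4) (nat_lit 450) (nat_lit 313) (nat_lit 257))) (XT.nd (nat_lit 78) (nat_lit 0) (nat_lit 0) (XT.lf (nat_lit 0) (nat_lit 10747571724) (nat_lit 76) (nat_lit 907575991) (nat_lit 152) (nat_lit 16139760555) (nat_lit 28) (nat_lit 5) (nat_lit 29) (nat_lit 5) (nat_lit 30) (nat_lit 4) (nat_lit 451) (nat_lit 313) (nat_lit 256)) (XT.lf (nat_lit 0)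 (nat_lit 18058776854) (nat_lit 152) (nat_lit 4934892658) (nat_lit 0) (nat_lit 5439344497) (nat_lit 28) (nat_lit 5) (nat_lit 30) (nat_lit 4) (nat_lit 28) (nat_lit 4) (nat_lit 452) (nat_lit 313) (nat_lit 255)))))) (XT.nd (nat_lit 546) (nat_lit 304) (nat_lit 0) (XT.nd (nat_lit 234) (nat_lit 152) (nat_lit 0) (XT.nd (nat_lit 78) (nat_lit 152) (nat_lit 0) (XT.lf (nat_lit 0) (nat_lit 7581525921) (nat_lit 76) (nat_lit 17103981475) (nat_lit 76) (nat_lit 4403827855) (nat_lit 27) (nat_lit 4) (nat_lit 28) (nat_lit 5) (nat_lit 28) (nat_lit 4) (nat_lit 453) (nat_lit 313) (nat_lit 254)) (XT.nd (nat_lit 78) (nat_lit 76) (nat_lit 0) (XT.lf (nat_lit 0) (nat_lit 1711128677) (nat_lit 152) (nat_lit 9304932564) (nat_lit 76) (nat_lit 18748798466) (nat_lit 26) (nat_lit 5) (nat_lit 28) (nat_lit 5) (nat_lit 27) (nat_lit 4) (nat_lit 454) (nat_lit 313) (nat_lit 253)) (XT.lf (nat_lit 0) (nat_lit 3187080972) (nat_lit 76) (nat_lit 4715230497)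 (nat_lit 152) (nat_lit 22557593586) (nat_lit 25) (nat_lit 5) (nat_lit 26) (nat_lit 5) (nat_lit 27) (nat_lit 4) (nat_lit 455) (nat_lit 313) (nat_lit 252)))) (XT.nd (nat_lit 156) (nat_lit 152) (nat_lit 0) (XT.nd (nat_lit 78) (nat_lit 0) (nat_lit 0) (XT.lf (nat_lit 0) (nat_lit 14341922177) (nat_lit 152) (nat_lit 15042003466) (nat_lit 0) (nat_lit 1789997221) (nat_lit 25) (nat_lit 5) (nat_lit 27) (nat_lit 4) (nat_lit 25) (nat_lit 4) (nat_lit 456) (nat_lit 313) (nat_lit 251)) (XT.lf (nat_lit 0) (nat_lit 20973583121) (nat_lit 152) (nat_lit 2583786754) (nat_lit 0) (nat_lit 8352027294) (nat_lit 25) (nat_lit 5) (nat_lit 27) (nat_lit 4) (nat_lit 25) (nat_lit 4) (nat_lit 457) (nat_lit 313) (nat_lit 250))) (XT.nd (nat_lit 78) (nat_lit 76) (nat_lit 0) (XT.lf (nat_lit 0) (nat_lit 10360202417) (nat_lit 76) (nat_lit 17497149464) (nat_lit 76) (nat_lit 4807990850) (nat_lit 24) (nat_lit 4) (nat_lit 25) (nat_lit 5) (nat_lit 25) (nat_lit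 4) (nat_lit 458) (nat_lit 313) (nat_lit 249)) (XT.lf (nat_lit 0) (nat_lit 1454281855) (nat_lit 152) (nat_lit 9802600222) (nat_lit 76) (nat_lit 22187253919) (nat_lit 23) (nat_lit 5) (nat_lit 25) (nat_lit 5) (nat_lit 24) (nat_lit 4) (nat_lit 459) (nat_lit 313) (nat_lit 248))))) (XT.nd (nat_lit 312) (nat_lit 152) (nat_lit 0) (XT.nd (nat_lit 156) (nat_lit 76) (nat_lit 0) (XT.nd (nat_lit 78) (nat_lit 0) (nat_lit 0) (XT.lf (nat_lit 0) (nat_lit 2998367598) (nat_lit 76) (nat_lit 4793199937) (nat_lit 152) (nat_lit 26453785604) (nat_lit 22) (nat_lit 5) (nat_lit 23) (nat_lit 5) (nat_lit 24) (nat_lit 4) (nat_lit 460) (nat_lit 313) (nat_lit 247)) (XT.lf (nat_lit 0) (nat_lit 14391892608) (nat_lit 152) (nat_lit 18789859436) (nat_lit 0) (nat_lit 1886668698) (nat_lit 22) (nat_lit 5) (nat_lit 24) (nat_lit 4) (nat_lit 22) (nat_lit 4) (nat_lit 461) (nat_lit 313) (nat_lit 246))) (XT.nd (nat_lit 78) (nat_lit 76) (nat_lit 0) (XT.lf (nat_lit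 0) (nat_lit 21194026630) (nat_lit 152) (nat_lit 6091553327) (nat_lit 0) (nat_lit 8630487962) (nat_lit 22) (nat_lit 5) (nat_lit 24) (nat_lit 4) (nat_lit 22) (nat_lit 4) (nat_lit 462) (nat_lit 313) (nat_lit 245)) (XT.lf (nat_lit 0) (nat_lit 7042528662) (nat_lit 76) (nat_lit 21183006477) (nat_lit 76) (nat_lit 8562851539) (nat_lit 21) (nat_lit 4) (nat_lit 22) (nat_lit 5) (nat_lit 22) (nat_lit 4) (nat_lit 463) (nat_lit 313) (nat_lit 244)))) (XT.nd (nat_lit 156) (nat_lit 76) (nat_lit 0) (XT.nd (nat_lit 78) (nat_lit 76) (nat_lit 0) (XT.lf (nat_lit 0) (nat_lit 20613715368) (nat_lit 76) (nat_lit 14873848012) (nat_lit 76) (nat_lit 2198725821) (nat_lit 21) (nat_lit 4) (nat_lit 22) (nat_lit 5) (nat_lit 22) (nat_lit 4) (nat_lit 464) (nat_lit 313) (nat_lit 243)) (XT.lf (nat_lit 0) (nat_lit 4230194834) (nat_lit 152) (nat_lit 4141192942) (nat_lit 76) (nat_lit 30239719746) (nat_lit 20) (nat_lit 5) (nat_lit 22) (nat_lit 5) (nat_lit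 21) (nat_lit 4) (nat_lit 465) (nat_lit 313) (nat_lit 242))) (XT.nd (nat_lit 78) (nat_lit 0) (nat_lit 0) (XT.lf (nat_lit 0) (nat_lit 9259149688) (nat_lit 76) (nat_lit 1597722258) (nat_lit 152) (nat_lit 28704674243) (nat_lit 19) (nat_lit 5) (nat_lit 20) (nat_lit 5) (nat_lit 21) (nat_lit 4) (nat_lit 466) (nat_lit 313) (nat_lit 241)) (XT.lf (nat_lit 0) (nat_lit 17736425269) (nat_lit 152) (nat_lit 17522922775) (nat_lit 0) (nat_lit 5279528971) (nat_lit 19) (nat_lit 5) (nat_lit 21) (nat_lit 4) (nat_lit 19) (nat_lit 4) (nat_lit 467) (nat_lit 313) (nat_lit 240))))))) (XT.nd (nat_lit 1092) (nat_lit 228) (nat_lit 0) (XT.nd (nat_lit 546) (nat_lit 228) (nat_lit 0) (XT.nd (nat_lit 234) (nat_lit 152) (nat_lit 0) (XT.nd (nat_lit 78) (nat_lit 76) (nat_lit 0) (XT.lf (nat_lit 0) (nat_lit 24799481521) (nat_lit 152) (nat_lit 4451564004) (nat_lit 0) (nat_lit 12295169988) (nat_lit 19) (nat_lit 5) (nat_lit 21) (nat_lit 4) (nat_lit 19)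 (nat_lit 4) (nat_lit 468) (nat_lit 313) (nat_lit 239)) (XT.nd (nat_lit 78) (nat_lit 0) (nat_lit 0) (XT.lf (nat_lit 0) (nat_lit 9116352543) (nat_lit 76) (nat_lit 23008133437) (nat_lit 76) (nat_lit 10457787695) (nat_lit 18) (nat_lit 4) (nat_lit 19) (nat_lit 5) (nat_lit 19) (nat_lit 4) (nat_lit 469) (nat_lit 313) (nat_lit 238)) (XT.lf (nat_lit 0) (nat_lit 23109803777) (nat_lit 76) (nat_lit 16567208485) (nat_lit 76) (nat_lit 3972169336) (nat_lit 18) (nat_lit 4) (nat_lit 19) (nat_lit 5) (nat_lit 19) (nat_lit 4) (nat_lit 470) (nat_lit 313) (nat_lit 237)))) (XT.nd (nat_lit 156) (nat_lit 0) (nat_lit 0) (XT.nd (nat_lit 78) (nat_lit 76) (nat_lit 0) (XT.lf (nat_lit 0) (nat_lit 2618718428) (nat_lit 152) (nat_lit 7322432394) (nat_lit 76) (nat_lit 34807259782) (nat_lit 17) (nat_lit 5) (nat_lit 19) (nat_lit 5) (nat_lit 18) (nat_lit 4) (nat_lit 471) (nat_lit 313) (nat_lit 236)) (XT.lf (nat_lit 0) (nat_lit 6305450511) (nat_lit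 76) (nat_lit 3047263350) (nat_lit 152) (nat_lit 36525967307) (nat_lit 16) (nat_lit 5) (nat_lit 17) (nat_lit 5) (nat_lit 18) (nat_lit 4) (nat_lit 472) (nat_lit 313) (nat_lit 235))) (XT.nd (nat_lit 78) (nat_lit 0) (nat_lit 0) (XT.lf (nat_lit 0) (nat_lit 16367022082) (nat_lit 152) (nat_lit 26657399414) (nat_lit 0) (nat_lit 4016090600) (nat_lit 16) (nat_lit 5) (nat_lit 18) (nat_lit 4) (nat_lit 16) (nat_lit 4) (nat_lit 473) (nat_lit 313) (nat_lit 234)) (XT.lf (nat_lit 0) (nat_lit 23587614418) (nat_lit 152) (nat_lit 13451578885) (nat_lit 0) (nat_lit 11198130011) (nat_lit 16) (nat_lit 5) (nat_lit 18) (nat_lit 4) (nat_lit 16) (nat_lit 4) (nat_lit 474) (nat_lit 313) (nat_lit 233))))) (XT.nd (nat_lit 234) (nat_lit 152) (nat_lit 0) (XT.nd (nat_lit 78) (nat_lit 0) (nat_lit 0) (XT.lf (nat_lit 0) (nat_lit 86755058) (nat_lit 76) (nat_lit 30905586849) (nat_lit 76) (nat_lit 18478672418) (nat_lit 15) (nat_lit 4) (nat_lit 16) (nat_lit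 5) (nat_lit 16) (nat_lit 4) (nat_lit 475) (nat_lit 313) (nat_lit 232)) (XT.nd (nat_lit 78) (nat_lit 0) (nat_lit 0) (XT.lf (nat_lit 0) (nat_lit 14242269823) (nat_lit 76) (nat_lit 24479807732) (nat_lit 76) (nat_lit 12016553471) (nat_lit 15) (nat_lit 4) (nat_lit 16) (nat_lit 5) (nat_lit 16) (nat_lit 4) (nat_lit 476) (nat_lit 313) (nat_lit 231)) (XT.lf (nat_lit 0) (nat_lit 28759621510) (nat_lit 76) (nat_lit 17892075764) (nat_lit 76) (nat_lit 5393540116) (nat_lit 15) (nat_lit 4) (nat_lit 16) (nat_lit 5) (nat_lit 16) (nat_lit 4) (nat_lit 477) (nat_lit 313) (nat_lit 230)))) (XT.nd (nat_lit 156) (nat_lit 0) (nat_lit 0) (XT.nd (nat_lit 78) (nat_lit 76) (nat_lit 0) (XT.lf (nat_lit 0) (nat_lit 1368910738) (nat_lit 152) (nat_lit 9753900623) (nat_lit 76) (nat_lit 42268761129) (nat_lit 14) (nat_lit 5) (nat_lit 16) (nat_lit 5) (nat_lit 15) (nat_lit 4) (nat_lit 478) (nat_lit 313) (nat_lit 229)) (XT.lf (nat_lit 0) (nat_lit 4151547174)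 (nat_lit 76) (nat_lit 4083720160) (nat_lit 152) (nat_lit 46541146000) (nat_lit 13) (nat_lit 5) (nat_lit 14) (nat_lit 5) (nat_lit 15) (nat_lit 4) (nat_lit 479) (nat_lit 313) (nat_lit 228))) (XT.nd (nat_lit 78) (nat_lit 0) (nat_lit 0) (XT.lf (nat_lit 0) (nat_lit 15407092047) (nat_lit 152) (nat_lit 37617023052) (nat_lit 0) (nat_lit 3175700801) (nat_lit 13) (nat_lit 5) (nat_lit 15) (nat_lit 4) (nat_lit 13) (nat_lit 4) (nat_lit 480) (nat_lit 313) (nat_lit 227)) (XT.lf (nat_lit 0) (nat_lit 22804958928) (nat_lit 152) (nat_lit 24317502141) (nat_lit 0) (nat_lit 10543133647) (nat_lit 13) (nat_lit 5) (nat_lit 15) (nat_lit 4) (nat_lit 13) (nat_lit 4) (nat_lit 481) (nat_lit 313) (nat_lit 226)))))) (XT.nd (nat_lit 546) (nat_lit 0) (nat_lit 0) (XT.nd (nat_lit 234) (nat_lit 152) (nat_lit 0) (XT.nd (nat_lit 78) (nat_lit 76) (nat_lit 0) (XT.lf (nat_lit 0) (nat_lit 30396076917) (nat_lit 152) (nat_lit 10675427270) (nat_lit 0) (nat_lit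 18104704029) (nat_lit 13) (nat_lit 5) (nat_lit 15) (nat_lit 4) (nat_lit 13) (nat_lit 4) (nat_lit 482) (nat_lit 313) (nat_lit 225)) (XT.nd (nat_lit 78) (nat_lit 0) (nat_lit 0) (XT.lf (nat_lit 0) (nat_lit 3387218656) (nat_lit 76) (nat_lit 34832420390) (nat_lit 76) (nat_lit 22512360505) (nat_lit 12) (nat_lit 4) (nat_lit 13) (nat_lit 5) (nat_lit 13) (nat_lit 4) (nat_lit 483) (nat_lit 313) (nat_lit 224)) (XT.lf (nat_lit 0) (nat_lit 18036328864) (nat_lit 76) (nat_lit 28321820297) (nat_lit 76) (nat_lit 15973908959) (nat_lit 12) (nat_lit 4) (nat_lit 13) (nat_lit 5) (nat_lit 13) (nat_lit 4) (nat_lit 484) (nat_lit 313) (nat_lit 223)))) (XT.nd (nat_lit 156) (nat_lit 152) (nat_lit 0) (XT.nd (nat_lit 78) (nat_lit 0) (nat_lit 0) (XT.lf (nat_lit 0) (nat_lit 33072241612) (nat_lit 76) (nat_lit 21641815918) (nat_lit 76) (nat_lit 9266864334) (nat_lit 12) (nat_lit 4) (nat_lit 13) (nat_lit 5) (nat_lit 13) (nat_lit 4) (nat_lit 485)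 (nat_lit 313) (nat_lit 222)) (XT.lf (nat_lit 0) (nat_lit 48508095076) (nat_lit 76) (nat_lit 14786570356) (nat_lit 76) (nat_lit 2385366106) (nat_lit 12) (nat_lit 4) (nat_lit 13) (nat_lit 5) (nat_lit 13) (nat_lit 4) (nat_lit 486) (nat_lit 313) (nat_lit 221))) (XT.nd (nat_lit 78) (nat_lit 76) (nat_lit 0) (XT.lf (nat_lit 0) (nat_lit 4585341399) (nat_lit 152) (nat_lit 3118449234) (nat_lit 76) (nat_lit 59725732538) (nat_lit 11) (nat_lit 5) (nat_lit 13) (nat_lit 5) (nat_lit 12) (nat_lit 4) (nat_lit 487) (nat_lit 313) (nat_lit 220)) (XT.lf (nat_lit 0) (nat_lit 11508911433) (nat_lit 76) (nat_lit 294216332) (nat_lit 152) (nat_lit 57425086857) (nat_lit 10) (nat_lit 5) (nat_lit 11) (nat_lit 5) (nat_lit 12) (nat_lit 4) (nat_lit 488) (nat_lit 313) (nat_lit 219))))) (XT.nd (nat_lit 45552) (nat_lit 0) (nat_lit 8132) (XT.nd (nat_lit 156) (nat_lit 0) (nat_lit 0) (XT.nd (nat_lit 78) (nat_lit 0) (nat_lit 0) (XT.lf (nat_lit 0) (nat_lit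 19315082650) (nat_lit 152) (nat_lit 44560472923) (nat_lit 0) (nat_lit 7202982806) (nat_lit 10) (nat_lit 5) (nat_lit 12) (nat_lit 4) (nat_lit 10) (nat_lit 4) (nat_lit 489) (nat_lit 313) (nat_lit 218)) (XT.lf (nat_lit 0) (nat_lit 27031327646) (nat_lit 152) (nat_lit 31057094828) (nat_lit 0) (nat_lit 14896582021) (nat_lit 10) (nat_lit 5) (nat_lit 12) (nat_lit 4) (nat_lit 10) (nat_lit 4) (nat_lit 490) (nat_lit 313) (nat_lit 217))) (XT.nd (nat_lit 78) (nat_lit 0) (nat_lit 0) (XT.lf (nat_lit 0) (nat_lit 34955776917) (nat_lit 152) (nat_lit 17194541648) (nat_lit 0) (nat_lit 22799045098) (nat_lit 10) (nat_lit 5) (nat_lit 12) (nat_lit 4) (nat_lit 10) (nat_lit 4) (nat_lit 491) (nat_lit 313) (nat_lit 216)) (XT.lf (nat_lit 0) (nat_lit 43095354738) (nat_lit 152) (nat_lit 2960700472) (nat_lit 0) (nat_lit 30917277099) (nat_lit 10) (nat_lit 5) (nat_lit 12) (nat_lit 4) (nat_lit 10) (nat_lit 4) (nat_lit 492) (nat_lit 313) (nat_lit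 215)))) (XT.nd (nat_lit 156) (nat_lit 608) (nat_lit 0) (XT.nd (nat_lit 78) (nat_lit 304) (nat_lit 0) (XT.lf (nat_lit 0) (nat_lit 2360254721) (nat_lit 380) (nat_lit 19680347) (nat_lit 0) (nat_lit 2360254721) (nat_lit 129) (nat_lit 5) (nat_lit 134) (nat_lit 4) (nat_lit 129) (nat_lit 4) (nat_lit 392) (nat_lit 314) (nat_lit 314)) (XT.lf (nat_lit 0) (nat_lit 8063404410) (nat_lit 304) (nat_lit 1188380943) (nat_lit 304) (nat_lit 354452657) (nat_lit 125) (nat_lit 4) (nat_lit 129) (nat_lit 5) (nat_lit 129) (nat_lit 4) (nat_lit 393) (nat_lit 314) (nat_lit 313))) (XT.nd (nat_lit 78) (nat_lit 304) (nat_lit 0) (XT.lf (nat_lit 0) (nat_lit 4087364822) (nat_lit 304) (nat_lit 3156077304) (nat_lit 0) (nat_lit 2491668319) (nat_lit 121) (nat_lit 5) (nat_lit 125) (nat_lit 4) (nat_lit 121) (nat_lit 4) (nat_lit 394) (nat_lit 314) (nat_lit 312)) (XT.lf (nat_lit 0) (nat_lit 5031946441) (nat_lit 304) (nat_lit 3597722795) (nat_lit 304) (nat_lit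 1238863778) (nat_lit 117) (nat_lit 4) (nat_lit 121) (nat_lit 5) (nat_lit 121) (nat_lit 4) (nat_lit 395) (nat_lit 314) (nat_lit 311))))))))
noncomputable def xc44 : XT := (XT.nd (nat_lit 2184) (nat_lit 2204) (nat_lit 0) (XT.nd (nat_lit 1092) (nat_lit 1824) (nat_lit 0) (XT.nd (nat_lit 546) (nat_lit 1140) (nat_lit 0) (XT.nd (nat_lit 234) (nat_lit 988) (nat_lit 0) (XT.nd (nat_lit 78) (nat_lit 304) (nat_lit 0) (XT.lf (nat_lit 0) (nat_lit 3203525009) (nat_lit 304) (nat_lit 6608512581) (nat_lit 0) (nat_lit 194016758) (nat_lit 113) (nat_lit 5) (nat_lit 117) (nat_lit 4) (nat_lit 113) (nat_lit 4) (nat_lit 396) (nat_lit 314) (nat_lit 310)) (XT.nd (nat_lit 78) (nat_lit 76) (nat_lit 0) (XT.lf (nat_lit 0) (nat_lit 1654564296) (nat_lit 228) (nat_lit 6100339405) (nat_lit 228) (nat_lit 2392429343) (nat_lit 110) (nat_lit 4) (nat_lit 113) (nat_lit 5) (nat_lit 113) (nat_lit 4) (nat_lit 397) (nat_lit 314) (nat_lit 309)) (XT.lf (nat_lit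 0) (nat_lit 2075573837) (nat_lit 304) (nat_lit 172555180) (nat_lit 76) (nat_lit 8045091659) (nat_lit 109) (nat_lit 5) (nat_lit 113) (nat_lit 5) (nat_lit 110) (nat_lit 4) (nat_lit 398) (nat_lit 314) (nat_lit 308)))) (XT.nd (nat_lit 156) (nat_lit 456) (nat_lit 0) (XT.nd (nat_lit 78) (nat_lit 304) (nat_lit 0) (XT.lf (nat_lit 0) (nat_lit 6630145690) (nat_lit 304) (nat_lit 2079841175) (nat_lit 0) (nat_lit 1732785728) (nat_lit 106) (nat_lit 5) (nat_lit 110) (nat_lit 4) (nat_lit 106) (nat_lit 4) (nat_lit 399) (nat_lit 314) (nat_lit 307)) (XT.lf (nat_lit 0) (nat_lit 700704425) (nat_lit 304) (nat_lit 4095450940) (nat_lit 76) (nat_lit 5800753523) (nat_lit 102) (nat_lit 5) (nat_lit 106) (nat_lit 5) (nat_lit 103) (nat_lit 4) (nat_lit 400) (nat_lit 314) (nat_lit 306))) (XT.nd (nat_lit 78) (nat_lit 228) (nat_lit 0) (XT.lf (nat_lit 0) (nat_lit 4520205296) (nat_lit 228) (nat_lit 721436948) (nat_lit 304) (nat_lit 5513844747) (nat_lit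 99) (nat_lit 5) (nat_lit 102) (nat_lit 5) (nat_lit 103) (nat_lit 4) (nat_lit 401) (nat_lit 314) (nat_lit 305)) (XT.lf (nat_lit 0) (nat_lit 2415473525) (nat_lit 228) (nat_lit 7506598444) (nat_lit 228) (nat_lit 996667393) (nat_lit 96) (nat_lit 4) (nat_lit 99) (nat_lit 5) (nat_lit 99) (nat_lit 4) (nat_lit 402) (nat_lit 314) (nat_lit 304))))) (XT.nd (nat_lit 234) (nat_lit 608) (nat_lit 0) (XT.nd (nat_lit 78) (nat_lit 304) (nat_lit 0) (XT.lf (nat_lit 0) (nat_lit 170085374) (nat_lit 152) (nat_lit 3392151701) (nat_lit 228) (nat_lit 7524285274) (nat_lit 93) (nat_lit 5) (nat_lit 95) (nat_lit 5) (nat_lit 96) (nat_lit 4) (nat_lit 403) (nat_lit 314) (nat_lit 303)) (XT.nd (nat_lit 78) (nat_lit 304) (nat_lit 0) (XT.lf (nat_lit 0) (nat_lit 8238547467) (nat_lit 228) (nat_lit 2157206082) (nat_lit 0) (nat_lit 863282688) (nat_lit 93) (nat_lit 5) (nat_lit 96) (nat_lit 4) (nat_lit 93) (nat_lit 4) (nat_lit 404) (nat_lit 314) (nat_lit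 302)) (XT.lf (nat_lit 0) (nat_lit 1594510237) (nat_lit 304) (nat_lit 4642949324) (nat_lit 76) (nat_lit 5198581968) (nat_lit 89) (nat_lit 5) (nat_lit 93) (nat_lit 5) (nat_lit 90) (nat_lit 4) (nat_lit 405) (nat_lit 314) (nat_lit 301)))) (XT.nd (nat_lit 156) (nat_lit 228) (nat_lit 0) (XT.nd (nat_lit 78) (nat_lit 228) (nat_lit 0) (XT.lf (nat_lit 0) (nat_lit 4337737710) (nat_lit 152) (nat_lit 1922059233) (nat_lit 228) (nat_lit 5358498890) (nat_lit 87) (nat_lit 5) (nat_lit 89) (nat_lit 5) (nat_lit 90) (nat_lit 4) (nat_lit 406) (nat_lit 314) (nat_lit 300)) (XT.lf (nat_lit 0) (nat_lit 1731707481) (nat_lit 228) (nat_lit 9330996124) (nat_lit 228) (nat_lit 743396383) (nat_lit 84) (nat_lit 4) (nat_lit 87) (nat_lit 5) (nat_lit 87) (nat_lit 4) (nat_lit 407) (nat_lit 314) (nat_lit 299))) (XT.nd (nat_lit 78) (nat_lit 152) (nat_lit 0) (XT.lf (nat_lit 0) (nat_lit 3934858321) (nat_lit 304) (nat_lit 1048114894) (nat_lit 76) (nat_lit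 7015331427) (nat_lit 83) (nat_lit 5) (nat_lit 87) (nat_lit 5) (nat_lit 84) (nat_lit 4) (nat_lit 408) (nat_lit 314) (nat_lit 298)) (XT.lf (nat_lit 0) (nat_lit 8251083254) (nat_lit 152) (nat_lit 479055395) (nat_lit 228) (nat_lit 3466178430) (nat_lit 81) (nat_lit 5) (nat_lit 83) (nat_lit 5) (nat_lit 84) (nat_lit 4) (nat_lit 409) (nat_lit 314) (nat_lit 297)))))) (XT.nd (nat_lit 546) (nat_lit 836) (nat_lit 0) (XT.nd (nat_lit 234) (nat_lit 608) (nat_lit 0) (XT.nd (nat_lit 78) (nat_lit 152) (nat_lit 0) (XT.lf (nat_lit 0) (nat_lit 1259422730) (nat_lit 228) (nat_lit 7048850290) (nat_lit 76) (nat_lit 4091185978) (nat_lit 78) (nat_lit 5) (nat_lit 81) (nat_lit 5) (nat_lit 79) (nat_lit 4) (nat_lit 410) (nat_lit 314) (nat_lit 296)) (XT.nd (nat_lit 78) (nat_lit 0) (nat_lit 0) (XT.lf (nat_lit 0) (nat_lit 2250887698) (nat_lit 152) (nat_lit 3785888127) (nat_lit 228) (nat_lit 6571510374) (nat_lit 76) (nat_lit 5) (nat_lit 78) (nat_lit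 5) (nat_lit 79) (nat_lit 4) (nat_lit 411) (nat_lit 314) (nat_lit 295)) (XT.lf (nat_lit 0) (nat_lit 10951214223) (nat_lit 228) (nat_lit 1008967392) (nat_lit 0) (nat_lit 863393469) (nat_lit 76) (nat_lit 5) (nat_lit 79) (nat_lit 4) (nat_lit 76) (nat_lit 4) (nat_lit 412) (nat_lit 314) (nat_lit 294)))) (XT.nd (nat_lit 156) (nat_lit 228) (nat_lit 0) (XT.nd (nat_lit 78) (nat_lit 152) (nat_lit 0) (XT.lf (nat_lit 0) (nat_lit 2946388064) (nat_lit 228) (nat_lit 4471143649) (nat_lit 76) (nat_lit 5625848227) (nat_lit 73) (nat_lit 5) (nat_lit 76) (nat_lit 5) (nat_lit 74) (nat_lit 4) (nat_lit 413) (nat_lit 314) (nat_lit 293)) (XT.lf (nat_lit 0) (nat_lit 5124930588) (nat_lit 152) (nat_lit 2722910024) (nat_lit 228) (nat_lit 5422117948) (nat_lit 71) (nat_lit 5) (nat_lit 73) (nat_lit 5) (nat_lit 74) (nat_lit 4) (nat_lit 414) (nat_lit 314) (nat_lit 292))) (XT.nd (nat_lit 78) (nat_lit 76) (nat_lit 0) (XT.lf (nat_lit 0) (nat_lit 1457305383)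 (nat_lit 152) (nat_lit 11435572406) (nat_lit 152) (nat_lit 610569233) (nat_lit 69) (nat_lit 4) (nat_lit 71) (nat_lit 5) (nat_lit 71) (nat_lit 4) (nat_lit 415) (nat_lit 314) (nat_lit 291)) (XT.lf (nat_lit 0) (nat_lit 4287371137) (nat_lit 228) (nat_lit 2445485000) (nat_lit 76) (nat_lit 7009033973) (nat_lit 68) (nat_lit 5) (nat_lit 71) (nat_lit 5) (nat_lit 69) (nat_lit 4) (nat_lit 416) (nat_lit 314) (nat_lit 290))))) (XT.nd (nat_lit 234) (nat_lit 456) (nat_lit 0) (XT.nd (nat_lit 78) (nat_lit 228) (nat_lit 0) (XT.lf (nat_lit 0) (nat_lit 7437479695) (nat_lit 152) (nat_lit 1873230135) (nat_lit 228) (nat_lit 4676881320) (nat_lit 66) (nat_lit 5) (nat_lit 68) (nat_lit 5) (nat_lit 69) (nat_lit 4) (nat_lit 417) (nat_lit 314) (nat_lit 289)) (XT.nd (nat_lit 78) (nat_lit 0) (nat_lit 0) (XT.lf (nat_lit 0) (nat_lit 245906810) (nat_lit 228) (nat_lit 10926553308) (nat_lit 76) (nat_lit 3067942703) (nat_lit 63) (nat_lit 5) (nat_lit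 66) (nat_lit 5) (nat_lit 64) (nat_lit 4) (nat_lit 418) (nat_lit 314) (nat_lit 288)) (XT.lf (nat_lit 0) (nat_lit 5227490051) (nat_lit 228) (nat_lit 1101671627) (nat_lit 76) (nat_lit 8170101924) (nat_lit 63) (nat_lit 5) (nat_lit 66) (nat_lit 5) (nat_lit 64) (nat_lit 4) (nat_lit 419) (nat_lit 314) (nat_lit 287)))) (XT.nd (nat_lit 156) (nat_lit 76) (nat_lit 0) (XT.nd (nat_lit 78) (nat_lit 228) (nat_lit 0) (XT.lf (nat_lit 0) (nat_lit 9053506731) (nat_lit 152) (nat_lit 1314145933) (nat_lit 228) (nat_lit 4397970672) (nat_lit 61) (nat_lit 5) (nat_lit 63) (nat_lit 5) (nat_lit 64) (nat_lit 4) (nat_lit 420) (nat_lit 314) (nat_lit 286)) (XT.lf (nat_lit 0) (nat_lit 623042934) (nat_lit 228) (nat_lit 10642061159) (nat_lit 76) (nat_lit 3774303013) (nat_lit 58) (nat_lit 5) (nat_lit 61) (nat_lit 5) (nat_lit 59) (nat_lit 4) (nat_lit 421) (nat_lit 314) (nat_lit 285))) (XT.nd (nat_lit 78) (nat_lit 76) (nat_lit 0) (XT.lf (nat_lit 0)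 (nat_lit 5700129585) (nat_lit 228) (nat_lit 591221679) (nat_lit 76) (nat_lit 9028938159) (nat_lit 58) (nat_lit 5) (nat_lit 61) (nat_lit 5) (nat_lit 59) (nat_lit 4) (nat_lit 422) (nat_lit 314) (nat_lit 284)) (XT.lf (nat_lit 0) (nat_lit 9815190986) (nat_lit 76) (nat_lit 1133516467) (nat_lit 152) (nat_lit 4660321691) (nat_lit 57) (nat_lit 5) (nat_lit 58) (nat_lit 5) (nat_lit 59) (nat_lit 4) (nat_lit 423) (nat_lit 314) (nat_lit 283))))))) (XT.nd (nat_lit 1092) (nat_lit 836) (nat_lit 0) (XT.nd (nat_lit 546) (nat_lit 608) (nat_lit 0) (XT.nd (nat_lit 234) (nat_lit 456) (nat_lit 0) (XT.nd (nat_lit 78) (nat_lit 76) (nat_lit 0) (XT.lf (nat_lit 0) (nat_lit 454764543) (nat_lit 228) (nat_lit 11359989544) (nat_lit 76) (nat_lit 4091097589) (nat_lit 54) (nat_lit 5) (nat_lit 57) (nat_lit 5) (nat_lit 55) (nat_lit 4) (nat_lit 424) (nat_lit 314) (nat_lit 282)) (XT.nd (nat_lit 78) (nat_lit 76) (nat_lit 0) (XT.lf (nat_lit 0) (nat_lit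 5625190570) (nat_lit 228) (nat_lit 1091163244) (nat_lit 76) (nat_lit 9493979926) (nat_lit 54) (nat_lit 5) (nat_lit 57) (nat_lit 5) (nat_lit 55) (nat_lit 4) (nat_lit 425) (nat_lit 314) (nat_lit 281)) (XT.lf (nat_lit 0) (nat_lit 9537947573) (nat_lit 76) (nat_lit 1431890123) (nat_lit 152) (nat_lit 5553544914) (nat_lit 53) (nat_lit 5) (nat_lit 54) (nat_lit 5) (nat_lit 55) (nat_lit 4) (nat_lit 426) (nat_lit 314) (nat_lit 280)))) (XT.nd (nat_lit 156) (nat_lit 228) (nat_lit 0) (XT.nd (nat_lit 78) (nat_lit 76) (nat_lit 0) (XT.lf (nat_lit 0) (nat_lit 3559438409) (nat_lit 152) (nat_lit 12926964413) (nat_lit 152) (nat_lit 359078196) (nat_lit 51) (nat_lit 4) (nat_lit 53) (nat_lit 5) (nat_lit 53) (nat_lit 4) (nat_lit 427) (nat_lit 314) (nat_lit 279)) (XT.lf (nat_lit 0) (nat_lit 4907035155) (nat_lit 228) (nat_lit 2808414496) (nat_lit 76) (nat_lit 9459962206) (nat_lit 50) (nat_lit 5) (nat_lit 53) (nat_lit 5) (nat_lit 51) (nat_lit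 4) (nat_lit 428) (nat_lit 314) (nat_lit 278))) (XT.nd (nat_lit 78) (nat_lit 152) (nat_lit 0) (XT.lf (nat_lit 0) (nat_lit 8005834459) (nat_lit 76) (nat_lit 2324935006) (nat_lit 152) (nat_lit 7184163829) (nat_lit 49) (nat_lit 5) (nat_lit 50) (nat_lit 5) (nat_lit 51) (nat_lit 4) (nat_lit 429) (nat_lit 314) (nat_lit 277)) (XT.lf (nat_lit 0) (nat_lit 1199793487) (nat_lit 152) (nat_lit 14718742223) (nat_lit 152) (nat_lit 1946069891) (nat_lit 47) (nat_lit 4) (nat_lit 49) (nat_lit 5) (nat_lit 49) (nat_lit 4) (nat_lit 430) (nat_lit 314) (nat_lit 276))))) (XT.nd (nat_lit 234) (nat_lit 456) (nat_lit 0) (XT.nd (nat_lit 78) (nat_lit 76) (nat_lit 0) (XT.lf (nat_lit 0) (nat_lit 3432081563) (nat_lit 228) (nat_lit 5984852014) (nat_lit 76) (nat_lit 8805337773) (nat_lit 46) (nat_lit 5) (nat_lit 49) (nat_lit 5) (nat_lit 47) (nat_lit 4) (nat_lit 431) (nat_lit 314) (nat_lit 275)) (XT.nd (nat_lit 78) (nat_lit 0) (nat_lit 0) (XT.lf (nat_lit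 0) (nat_lit 4966236348) (nat_lit 76) (nat_lit 3946225084) (nat_lit 152) (nat_lit 9678232076) (nat_lit 45) (nat_lit 5) (nat_lit 46) (nat_lit 5) (nat_lit 47) (nat_lit 4) (nat_lit 432) (nat_lit 314) (nat_lit 274)) (XT.lf (nat_lit 0) (nat_lit 14566978538) (nat_lit 152) (nat_lit 2743761400) (nat_lit 0) (nat_lit 1659140906) (nat_lit 45) (nat_lit 5) (nat_lit 47) (nat_lit 4) (nat_lit 45) (nat_lit 4) (nat_lit 433) (nat_lit 314) (nat_lit 273)))) (XT.nd (nat_lit 156) (nat_lit 152) (nat_lit 0) (XT.nd (nat_lit 78) (nat_lit 76) (nat_lit 0) (XT.lf (nat_lit 0) (nat_lit 1065994302) (nat_lit 228) (nat_lit 10903179596) (nat_lit 76) (nat_lit 7389314133) (nat_lit 42) (nat_lit 5) (nat_lit 45) (nat_lit 5) (nat_lit 43) (nat_lit 4) (nat_lit 434) (nat_lit 314) (nat_lit 272)) (XT.lf (nat_lit 0) (nat_lit 123707502) (nat_lit 76) (nat_lit 6450443148) (nat_lit 152) (nat_lit 13184388309) (nat_lit 41) (nat_lit 5) (nat_lit 42) (nat_lit 5) (nat_lit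 43) (nat_lit 4) (nat_lit 435) (nat_lit 314) (nat_lit 271))) (XT.nd (nat_lit 78) (nat_lit 152) (nat_lit 0) (XT.lf (nat_lit 0) (nat_lit 11582604995) (nat_lit 76) (nat_lit 710295813) (nat_lit 152) (nat_lit 7876333943) (nat_lit 41) (nat_lit 5) (nat_lit 42) (nat_lit 5) (nat_lit 43) (nat_lit 4) (nat_lit 436) (nat_lit 314) (nat_lit 270)) (XT.lf (nat_lit 0) (nat_lit 2675122793) (nat_lit 152) (nat_lit 15520408208) (nat_lit 152) (nat_lit 2396354588) (nat_lit 39) (nat_lit 4) (nat_lit 41) (nat_lit 5) (nat_lit 41) (nat_lit 4) (nat_lit 437) (nat_lit 314) (nat_lit 269)))))) (XT.nd (nat_lit 546) (nat_lit 456) (nat_lit 0) (XT.nd (nat_lit 234) (nat_lit 228) (nat_lit 0) (XT.nd (nat_lit 78) (nat_lit 76) (nat_lit 0) (XT.lf (nat_lit 0) (nat_lit 3215919324) (nat_lit 228) (nat_lit 6733159940) (nat_lit 76) (nat_lit 11076265240) (nat_lit 38) (nat_lit 5) (nat_lit 41) (nat_lit 5) (nat_lit 39) (nat_lit 4) (nat_lit 438) (nat_lit 314) (nat_lit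 268)) (XT.nd (nat_lit 78) (nat_lit 0) (nat_lit 0) (XT.lf (nat_lit 0) (nat_lit 4738003019) (nat_lit 76) (nat_lit 4194459610) (nat_lit 152) (nat_lit 12539114186) (nat_lit 37) (nat_lit 5) (nat_lit 38) (nat_lit 5) (nat_lit 39) (nat_lit 4) (nat_lit 439) (nat_lit 314) (nat_lit 267)) (XT.lf (nat_lit 0) (nat_lit 14844498734) (nat_lit 152) (nat_lit 5371996630) (nat_lit 0) (nat_lit 1713984122) (nat_lit 37) (nat_lit 5) (nat_lit 39) (nat_lit 4) (nat_lit 37) (nat_lit 4) (nat_lit 440) (nat_lit 314) (nat_lit 266)))) (XT.nd (nat_lit 156) (nat_lit 76) (nat_lit 0) (XT.nd (nat_lit 78) (nat_lit 76) (nat_lit 0) (XT.lf (nat_lit 0) (nat_lit 6298370970) (nat_lit 76) (nat_lit 14678059100) (nat_lit 76) (nat_lit 1425446334) (nat_lit 36) (nat_lit 4) (nat_lit 37) (nat_lit 5) (nat_lit 37) (nat_lit 4) (nat_lit 441) (nat_lit 314) (nat_lit 265)) (XT.lf (nat_lit 0) (nat_lit 4314261760) (nat_lit 152) (nat_lit 4613203290) (nat_lit 76) (nat_lit 13958823512)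 (nat_lit 35) (nat_lit 5) (nat_lit 37) (nat_lit 5) (nat_lit 36) (nat_lit 4) (nat_lit 442) (nat_lit 314) (nat_lit 264))) (XT.nd (nat_lit 78) (nat_lit 0) (nat_lit 0) (XT.lf (nat_lit 0) (nat_lit 7238748652) (nat_lit 76) (nat_lit 2970607276) (nat_lit 152) (nat_lit 13175101327) (nat_lit 34) (nat_lit 5) (nat_lit 35) (nat_lit 5) (nat_lit 36) (nat_lit 4) (nat_lit 443) (nat_lit 314) (nat_lit 263)) (XT.lf (nat_lit 0) (nat_lit 16301166356) (nat_lit 152) (nat_lit 4496568525) (nat_lit 0) (nat_lit 3099243062) (nat_lit 34) (nat_lit 5) (nat_lit 36) (nat_lit 4) (nat_lit 34) (nat_lit 4) (nat_lit 444) (nat_lit 314) (nat_lit 262))))) (XT.nd (nat_lit 312) (nat_lit 228) (nat_lit 0) (XT.nd (nat_lit 156) (nat_lit 76) (nat_lit 0) (XT.nd (nat_lit 78) (nat_lit 76) (nat_lit 0) (XT.lf (nat_lit 0) (nat_lit 7512099975) (nat_lit 76) (nat_lit 15109326204) (nat_lit 76) (nat_lit 1802079970) (nat_lit 33) (nat_lit 4) (nat_lit 34) (nat_lit 5) (nat_lit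 34) (nat_lit 4) (nat_lit 445) (nat_lit 314) (nat_lit 261)) (XT.lf (nat_lit 0) (nat_lit 4074167733) (nat_lit 152) (nat_lit 5138941016) (nat_lit 76) (nat_lit 15751823197) (nat_lit 32) (nat_lit 5) (nat_lit 34) (nat_lit 5) (nat_lit 33) (nat_lit 4) (nat_lit 446) (nat_lit 314) (nat_lit 260))) (XT.nd (nat_lit 78) (nat_lit 0) (nat_lit 0) (XT.lf (nat_lit 0) (nat_lit 7001414226) (nat_lit 76) (nat_lit 3102128982) (nat_lit 152) (nat_lit 15418132744) (nat_lit 31) (nat_lit 5) (nat_lit 32) (nat_lit 5) (nat_lit 33) (nat_lit 4) (nat_lit 447) (nat_lit 314) (nat_lit 259)) (XT.lf (nat_lit 0) (nat_lit 16342765190) (nat_lit 152) (nat_lit 6617622377) (nat_lit 0) (nat_lit 3133868201) (nat_lit 31) (nat_lit 5) (nat_lit 33) (nat_lit 4) (nat_lit 31) (nat_lit 4) (nat_lit 448) (nat_lit 314) (nat_lit 258)))) (XT.nd (nat_lit 156) (nat_lit 76) (nat_lit 0) (XT.nd (nat_lit 78) (nat_lit 76) (nat_lit 0) (XT.lf (nat_lit 0) (nat_lit 5619899603) (nat_lit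 76) (nat_lit 17181449831) (nat_lit 76) (nat_lit 3881700348) (nat_lit 30) (nat_lit 4) (nat_lit 31) (nat_lit 5) (nat_lit 31) (nat_lit 4) (nat_lit 449) (nat_lit 314) (nat_lit 257)) (XT.lf (nat_lit 0) (nat_lit 2136939662) (nat_lit 152) (nat_lit 9049968273) (nat_lit 76) (nat_lit 16101528204) (nat_lit 29) (nat_lit 5) (nat_lit 31) (nat_lit 5) (nat_lit 30) (nat_lit 4) (nat_lit 450) (nat_lit 314) (nat_lit 256))) (XT.nd (nat_lit 78) (nat_lit 0) (nat_lit 0) (XT.lf (nat_lit 0) (nat_lit 3250347716) (nat_lit 76) (nat_lit 4988046713) (nat_lit 152) (nat_lit 19673030631) (nat_lit 28) (nat_lit 5) (nat_lit 29) (nat_lit 5) (nat_lit 30) (nat_lit 4) (nat_lit 451) (nat_lit 314) (nat_lit 255)) (XT.lf (nat_lit 0) (nat_lit 14577739668) (nat_lit 152) (nat_lit 12557860511) (nat_lit 0) (nat_lit 1415860175) (nat_lit 28) (nat_lit 5) (nat_lit 30) (nat_lit 4) (nat_lit 28) (nat_lit 4) (nat_lit 452) (nat_lit 314) (nat_lit 254))))))))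
noncomputable def xc45 : XT := (XT.nd (nat_lit 2262) (nat_lit 228) (nat_lit 0) (XT.nd (nat_lit 1092) (nat_lit 532) (nat_lit 0) (XT.nd (nat_lit 546) (nat_lit 304) (nat_lit 0) (XT.nd (nat_lit 234) (nat_lit 152) (nat_lit 0) (XT.nd (nat_lit 78) (nat_lit 152) (nat_lit 0) (XT.lf (nat_lit 0) (nat_lit 21107261929) (nat_lit 152) (nat_lit 236424650) (nat_lit 0) (nat_lit 7867012276) (nat_lit 28) (nat_lit 5) (nat_lit 30) (nat_lit 4) (nat_lit 28) (nat_lit 4) (nat_lit 453) (nat_lit 314) (nat_lit 253)) (XT.nd (nat_lit 78) (nat_lit 76) (nat_lit 0) (XT.lf (nat_lit 0) (nat_lit 12607971636) (nat_lit 76) (nat_lit 15297942361) (nat_lit 76) (nat_lit 1981605176) (nat_lit 27) (nat_lit 4) (nat_lit 28) (nat_lit 5) (nat_lit 28) (nat_lit 4) (nat_lit 454) (nat_lit 314) (nat_lit 252)) (XT.lf (nat_lit 0) (nat_lit 4194009322) (nat_lit 152) (nat_lit 4876369651) (nat_lit 76) (nat_lit 21514385020) (nat_lit 26) (nat_lit 5) (nat_lit 28) (nat_lit 5)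 (nat_lit 27) (nat_lit 4) (nat_lit 455) (nat_lit 314) (nat_lit 251)))) (XT.nd (nat_lit 156) (nat_lit 76) (nat_lit 0) (XT.nd (nat_lit 78) (nat_lit 0) (nat_lit 0) (XT.lf (nat_lit 0) (nat_lit 7944250264) (nat_lit 76) (nat_lit 2600665321) (nat_lit 152) (nat_lit 20756528247) (nat_lit 25) (nat_lit 5) (nat_lit 26) (nat_lit 5) (nat_lit 27) (nat_lit 4) (nat_lit 456) (nat_lit 314) (nat_lit 250)) (XT.lf (nat_lit 0) (nat_lit 17128705119) (nat_lit 152) (nat_lit 10918381072) (nat_lit 0) (nat_lit 3991268958) (nat_lit 25) (nat_lit 5) (nat_lit 27) (nat_lit 4) (nat_lit 25) (nat_lit 4) (nat_lit 457) (nat_lit 314) (nat_lit 249))) (XT.nd (nat_lit 78) (nat_lit 0) (nat_lit 0) (XT.lf (nat_lit 0) (nat_lit 1815765256) (nat_lit 76) (nat_lit 22092368223) (nat_lit 76) (nat_lit 8889298288) (nat_lit 24) (nat_lit 4) (nat_lit 25) (nat_lit 5) (nat_lit 25) (nat_lit 4) (nat_lit 458) (nat_lit 314) (nat_lit 248)) (XT.lf (nat_lit 0) (nat_lit 15069096557)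 (nat_lit 76) (nat_lit 15887504079) (nat_lit 76) (nat_lit 2620712033) (nat_lit 24) (nat_lit 4) (nat_lit 25) (nat_lit 5) (nat_lit 25) (nat_lit 4) (nat_lit 459) (nat_lit 314) (nat_lit 247))))) (XT.nd (nat_lit 234) (nat_lit 152) (nat_lit 0) (XT.nd (nat_lit 78) (nat_lit 76) (nat_lit 0) (XT.lf (nat_lit 0) (nat_lit 3717349356) (nat_lit 152) (nat_lit 5782438978) (nat_lit 76) (nat_lit 24881008923) (nat_lit 23) (nat_lit 5) (nat_lit 25) (nat_lit 5) (nat_lit 24) (nat_lit 4) (nat_lit 460) (nat_lit 314) (nat_lit 246)) (XT.nd (nat_lit 78) (nat_lit 0) (nat_lit 0) (XT.lf (nat_lit 0) (nat_lit 7360261413) (nat_lit 76) (nat_lit 2860912866) (nat_lit 152) (nat_lit 24985586336) (nat_lit 22) (nat_lit 5) (nat_lit 23) (nat_lit 5) (nat_lit 24) (nat_lit 4) (nat_lit 461) (nat_lit 314) (nat_lit 245)) (XT.lf (nat_lit 0) (nat_lit 16974927345) (nat_lit 152) (nat_lit 15161381117) (nat_lit 0) (nat_lit 3919551488) (nat_lit 22) (nat_lit 5) (nat_lit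 24) (nat_lit 4) (nat_lit 22) (nat_lit 4) (nat_lit 462) (nat_lit 314) (nat_lit 244)))) (XT.nd (nat_lit 156) (nat_lit 76) (nat_lit 0) (XT.nd (nat_lit 78) (nat_lit 76) (nat_lit 0) (XT.lf (nat_lit 0) (nat_lit 23918466807) (nat_lit 152) (nat_lit 2204227983) (nat_lit 0) (nat_lit 10808123697) (nat_lit 22) (nat_lit 5) (nat_lit 24) (nat_lit 4) (nat_lit 22) (nat_lit 4) (nat_lit 463) (nat_lit 314) (nat_lit 243)) (XT.lf (nat_lit 0) (nat_lit 11283973799) (nat_lit 76) (nat_lit 19854853651) (nat_lit 76) (nat_lit 6691144276) (nat_lit 21) (nat_lit 4) (nat_lit 22) (nat_lit 5) (nat_lit 22) (nat_lit 4) (nat_lit 464) (nat_lit 314) (nat_lit 242))) (XT.nd (nat_lit 78) (nat_lit 76) (nat_lit 0) (XT.lf (nat_lit 0) (nat_lit 25144912535) (nat_lit 76) (nat_lit 13413613918) (nat_lit 76) (nat_lit 198092635) (nat_lit 21) (nat_lit 4) (nat_lit 22) (nat_lit 5) (nat_lit 22) (nat_lit 4) (nat_lit 465) (nat_lit 314) (nat_lit 241)) (XT.lf (nat_lit 0)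 (nat_lit 6324351406) (nat_lit 152) (nat_lit 427390750) (nat_lit 76) (nat_lit 32958616310) (nat_lit 20) (nat_lit 5) (nat_lit 22) (nat_lit 5) (nat_lit 21) (nat_lit 4) (nat_lit 466) (nat_lit 314) (nat_lit 240)))))) (XT.nd (nat_lit 546) (nat_lit 228) (nat_lit 0) (XT.nd (nat_lit 234) (nat_lit 228) (nat_lit 0) (XT.nd (nat_lit 78) (nat_lit 0) (nat_lit 0) (XT.lf (nat_lit 0) (nat_lit 13131064174) (nat_lit 152) (nat_lit 27354602884) (nat_lit 0) (nat_lit 204208060) (nat_lit 19) (nat_lit 5) (nat_lit 21) (nat_lit 4) (nat_lit 19) (nat_lit 4) (nat_lit 467) (nat_lit 314) (nat_lit 239)) (XT.nd (nat_lit 78) (nat_lit 0) (nat_lit 0) (XT.lf (nat_lit 0) (nat_lit 20175610358) (nat_lit 152) (nat_lit 14319439118) (nat_lit 0) (nat_lit 7202720035) (nat_lit 19) (nat_lit 5) (nat_lit 21) (nat_lit 4) (nat_lit 19) (nat_lit 4) (nat_lit 468) (nat_lit 314) (nat_lit 238)) (XT.lf (nat_lit 0) (nat_lit 27395011920) (nat_lit 152) (nat_lit 964556225)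 (nat_lit 0) (nat_lit 14377428190) (nat_lit 19) (nat_lit 5) (nat_lit 21) (nat_lit 4) (nat_lit 19) (nat_lit 4) (nat_lit 469) (nat_lit 314) (nat_lit 237)))) (XT.nd (nat_lit 156) (nat_lit 152) (nat_lit 0) (XT.nd (nat_lit 78) (nat_lit 0) (nat_lit 0) (XT.lf (nat_lit 0) (nat_lit 12974902184) (nat_lit 76) (nat_lit 21945397586) (nat_lit 76) (nat_lit 8884422200) (nat_lit 18) (nat_lit 4) (nat_lit 19) (nat_lit 5) (nat_lit 19) (nat_lit 4) (nat_lit 470) (nat_lit 314) (nat_lit 236)) (XT.lf (nat_lit 0) (nat_lit 27283737759) (nat_lit 76) (nat_lit 15362302551) (nat_lit 76) (nat_lit 2259199343) (nat_lit 18) (nat_lit 4) (nat_lit 19) (nat_lit 5) (nat_lit 19) (nat_lit 4) (nat_lit 471) (nat_lit 314) (nat_lit 235))) (XT.nd (nat_lit 78) (nat_lit 76) (nat_lit 0) (XT.lf (nat_lit 0) (nat_lit 4441341651) (nat_lit 152) (nat_lit 4128080455) (nat_lit 76) (nat_lit 37469066312) (nat_lit 17) (nat_lit 5) (nat_lit 19) (nat_lit 5) (nat_lit 18) (nat_lit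 4) (nat_lit 472) (nat_lit 314) (nat_lit 234)) (XT.lf (nat_lit 0) (nat_lit 9875168104) (nat_lit 76) (nat_lit 1483886882) (nat_lit 152) (nat_lit 35844162702) (nat_lit 16) (nat_lit 5) (nat_lit 17) (nat_lit 5) (nat_lit 18) (nat_lit 4) (nat_lit 473) (nat_lit 314) (nat_lit 233))))) (XT.nd (nat_lit 312) (nat_lit 152) (nat_lit 0) (XT.nd (nat_lit 156) (nat_lit 76) (nat_lit 0) (XT.nd (nat_lit 78) (nat_lit 0) (nat_lit 0) (XT.lf (nat_lit 0) (nat_lit 18548971197) (nat_lit 152) (nat_lit 24140159167) (nat_lit 0) (nat_lit 5711819308) (nat_lit 16) (nat_lit 5) (nat_lit 18) (nat_lit 4) (nat_lit 16) (nat_lit 4) (nat_lit 474) (nat_lit 314) (nat_lit 232)) (XT.lf (nat_lit 0) (nat_lit 25936930669) (nat_lit 152) (nat_lit 10634774573) (nat_lit 0) (nat_lit 13063438950) (nat_lit 16) (nat_lit 5) (nat_lit 18) (nat_lit 4) (nat_lit 16) (nat_lit 4) (nat_lit 475) (nat_lit 314) (nat_lit 231))) (XT.nd (nat_lit 78) (nat_lit 0) (nat_lit 0) (XT.lf (nat_lit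 0) (nat_lit 3278137314) (nat_lit 76) (nat_lit 30268499019) (nat_lit 76) (nat_lit 17359725913) (nat_lit 15) (nat_lit 4) (nat_lit 16) (nat_lit 5) (nat_lit 16) (nat_lit 4) (nat_lit 476) (nat_lit 314) (nat_lit 230)) (XT.lf (nat_lit 0) (nat_lit 17765440446) (nat_lit 76) (nat_lit 23695507366) (nat_lit 76) (nat_lit 10752480486) (nat_lit 15) (nat_lit 4) (nat_lit 16) (nat_lit 5) (nat_lit 16) (nat_lit 4) (nat_lit 477) (nat_lit 314) (nat_lit 229)))) (XT.nd (nat_lit 156) (nat_lit 76) (nat_lit 0) (XT.nd (nat_lit 78) (nat_lit 76) (nat_lit 0) (XT.lf (nat_lit 0) (nat_lit 32628140764) (nat_lit 76) (nat_lit 16954377263) (nat_lit 76) (nat_lit 3978094291) (nat_lit 15) (nat_lit 4) (nat_lit 16) (nat_lit 5) (nat_lit 16) (nat_lit 4) (nat_lit 478) (nat_lit 314) (nat_lit 228)) (XT.lf (nat_lit 0) (nat_lit 2911409284) (nat_lit 152) (nat_lit 7098409592) (nat_lit 76) (nat_lit 44938416285) (nat_lit 14) (nat_lit 5) (nat_lit 16) (nat_lit 5) (nat_lit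 15) (nat_lit 4) (nat_lit 479) (nat_lit 314) (nat_lit 227))) (XT.nd (nat_lit 78) (nat_lit 0) (nat_lit 0) (XT.lf (nat_lit 0) (nat_lit 7195298620) (nat_lit 76) (nat_lit 2772788136) (nat_lit 152) (nat_lit 46407005780) (nat_lit 13) (nat_lit 5) (nat_lit 14) (nat_lit 5) (nat_lit 15) (nat_lit 4) (nat_lit 480) (nat_lit 314) (nat_lit 226)) (XT.lf (nat_lit 0) (nat_lit 17325169410) (nat_lit 152) (nat_lit 35881418121) (nat_lit 0) (nat_lit 4635507728) (nat_lit 13) (nat_lit 5) (nat_lit 15) (nat_lit 4) (nat_lit 13) (nat_lit 4) (nat_lit 481) (nat_lit 314) (nat_lit 225))))))) (XT.nd (nat_lit 46176) (nat_lit 0) (nat_lit 5624) (XT.nd (nat_lit 546) (nat_lit 76) (nat_lit 0) (XT.nd (nat_lit 234) (nat_lit 76) (nat_lit 0) (XT.nd (nat_lit 78) (nat_lit 76) (nat_lit 0) (XT.lf (nat_lit 0) (nat_lit 24902568474) (nat_lit 152) (nat_lit 22266332426) (nat_lit 0) (nat_lit 12184219795) (nat_lit 13) (nat_lit 5) (nat_lit 15) (nat_lit 4) (nat_lit 13)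 (nat_lit 4) (nat_lit 482) (nat_lit 314) (nat_lit 224)) (XT.nd (nat_lit 78) (nat_lit 76) (nat_lit 0) (XT.lf (nat_lit 0) (nat_lit 32680251241) (nat_lit 152) (nat_lit 8295986419) (nat_lit 0) (nat_lit 19934051109) (nat_lit 13) (nat_lit 5) (nat_lit 15) (nat_lit 4) (nat_lit 13) (nat_lit 4) (nat_lit 483) (nat_lit 314) (nat_lit 223)) (XT.lf (nat_lit 0) (nat_lit 6162071202) (nat_lit 76) (nat_lit 34562176142) (nat_lit 76) (nat_lit 21788935764) (nat_lit 12) (nat_lit 4) (nat_lit 13) (nat_lit 5) (nat_lit 13) (nat_lit 4) (nat_lit 484) (nat_lit 314) (nat_lit 222)))) (XT.nd (nat_lit 156) (nat_lit 76) (nat_lit 0) (XT.nd (nat_lit 78) (nat_lit 0) (nat_lit 0) (XT.lf (nat_lit 0) (nat_lit 21172793474) (nat_lit 76) (nat_lit 27894565333) (nat_lit 76) (nat_lit 15095072289) (nat_lit 12) (nat_lit 4) (nat_lit 13) (nat_lit 5) (nat_lit 13) (nat_lit 4) (nat_lit 485) (nat_lit 314) (nat_lit 221)) (XT.lf (nat_lit 0) (nat_lit 36584190165) (nat_lit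 76) (nat_lit 21051352364) (nat_lit 76) (nat_lit 8226371295) (nat_lit 12) (nat_lit 4) (nat_lit 13) (nat_lit 5) (nat_lit 13) (nat_lit 4) (nat_lit 486) (nat_lit 314) (nat_lit 220))) (XT.nd (nat_lit 78) (nat_lit 76) (nat_lit 0) (XT.lf (nat_lit 0) (nat_lit 52409727545) (nat_lit 76) (nat_lit 14026557727) (nat_lit 76) (nat_lit 1176831003) (nat_lit 12) (nat_lit 4) (nat_lit 13) (nat_lit 5) (nat_lit 13) (nat_lit 4) (nat_lit 487) (nat_lit 314) (nat_lit 219)) (XT.lf (nat_lit 0) (nat_lit 5941461642) (nat_lit 152) (nat_lit 812584498) (nat_lit 76) (nat_lit 62661774997) (nat_lit 11) (nat_lit 5) (nat_lit 13) (nat_lit 5) (nat_lit 12) (nat_lit 4) (nat_lit 488) (nat_lit 314) (nat_lit 218))))) (XT.nd (nat_lit 234) (nat_lit 0) (nat_lit 0) (XT.nd (nat_lit 78) (nat_lit 0) (nat_lit 0) (XT.lf (nat_lit 0) (nat_lit 13371461720) (nat_lit 152) (nat_lit 57047114163) (nat_lit 0) (nat_lit 850027946) (nat_lit 10) (nat_lit 5) (nat_lit 12) (nat_lit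 4) (nat_lit 10) (nat_lit 4) (nat_lit 489) (nat_lit 314) (nat_lit 217)) (XT.nd (nat_lit 78) (nat_lit 0) (nat_lit 0) (XT.lf (nat_lit 0) (nat_lit 21076237221) (nat_lit 152) (nat_lit 43566359841) (nat_lit 0) (nat_lit 8532817252) (nat_lit 10) (nat_lit 5) (nat_lit 12) (nat_lit 4) (nat_lit 10) (nat_lit 4) (nat_lit 490) (nat_lit 314) (nat_lit 216)) (XT.lf (nat_lit 0) (nat_lit 28989551059) (nat_lit 152) (nat_lit 29725771488) (nat_lit 0) (nat_lit 16424785271) (nat_lit 10) (nat_lit 5) (nat_lit 12) (nat_lit 4) (nat_lit 10) (nat_lit 4) (nat_lit 491) (nat_lit 314) (nat_lit 215)))) (XT.nd (nat_lit 45240) (nat_lit 0) (nat_lit 9044) (XT.nd (nat_lit 45162) (nat_lit 0) (nat_lit 9424) (XT.lf (nat_lit 0) (nat_lit 37118317781) (nat_lit 152) (nat_lit 15513255388) (nat_lit 0) (nat_lit 24532827896) (nat_lit 10) (nat_lit 5) (nat_lit 12) (nat_lit 4) (nat_lit 10) (nat_lit 4) (nat_lit 492) (nat_lit 314) (nat_lit 214)) (XT.lf (nat_lit 0) (nat_lit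 1460409233) (nat_lit 304) (nat_lit 1579516958) (nat_lit 304) (nat_lit 1579516958) (nat_lit 134) (nat_lit 4) (nat_lit 138) (nat_lit 5) (nat_lit 138) (nat_lit 4) (nat_lit 390) (nat_lit 315) (nat_lit 315))) (XT.nd (nat_lit 78) (nat_lit 0) (nat_lit 0) (XT.lf (nat_lit 0) (nat_lit 1155493933) (nat_lit 380) (nat_lit 7906906289) (nat_lit 0) (nat_lit 296547799) (nat_lit 129) (nat_lit 5) (nat_lit 134) (nat_lit 4) (nat_lit 129) (nat_lit 4) (nat_lit 391) (nat_lit 315) (nat_lit 314)) (XT.lf (nat_lit 0) (nat_lit 5528758553) (nat_lit 380) (nat_lit 117268537) (nat_lit 0) (nat_lit 3835884133) (nat_lit 129) (nat_lit 5) (nat_lit 134) (nat_lit 4) (nat_lit 129) (nat_lit 4) (nat_lit 392) (nat_lit 315) (nat_lit 313)))))) (XT.nd (nat_lit 546) (nat_lit 1672) (nat_lit 0) (XT.nd (nat_lit 234) (nat_lit 836) (nat_lit 0) (XT.nd (nat_lit 78) (nat_lit 532) (nat_lit 0) (XT.lf (nat_lit 0) (nat_lit 392201272) (nat_lit 380) (nat_lit 1706344948) (nat_lit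 76) (nat_lit 7510640273) (nat_lit 124) (nat_lit 5) (nat_lit 129) (nat_lit 5) (nat_lit 125) (nat_lit 4) (nat_lit 393) (nat_lit 315) (nat_lit 312)) (XT.nd (nat_lit 78) (nat_lit 304) (nat_lit 0) (XT.lf (nat_lit 0) (nat_lit 4766727422) (nat_lit 304) (nat_lit 3399110234) (nat_lit 0) (nat_lit 1573940119) (nat_lit 121) (nat_lit 5) (nat_lit 125) (nat_lit 4) (nat_lit 121) (nat_lit 4) (nat_lit 394) (nat_lit 315) (nat_lit 311)) (XT.lf (nat_lit 0) (nat_lit 4706219016) (nat_lit 304) (nat_lit 4551131543) (nat_lit 304) (nat_lit 617409759) (nat_lit 117) (nat_lit 4) (nat_lit 121) (nat_lit 5) (nat_lit 121) (nat_lit 4) (nat_lit 395) (nat_lit 315) (nat_lit 310)))) (XT.nd (nat_lit 156) (nat_lit 304) (nat_lit 0) (XT.nd (nat_lit 78) (nat_lit 228) (nat_lit 0) (XT.lf (nat_lit 0) (nat_lit 2976762146) (nat_lit 228) (nat_lit 781778639) (nat_lit 304) (nat_lit 6255199985) (nat_lit 113) (nat_lit 5) (nat_lit 116) (nat_lit 5) (nat_lit 117) (nat_lit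 4) (nat_lit 396) (nat_lit 315) (nat_lit 309)) (XT.lf (nat_lit 0) (nat_lit 1146724703) (nat_lit 228) (nat_lit 7102861338) (nat_lit 228) (nat_lit 1907252155) (nat_lit 110) (nat_lit 4) (nat_lit 113) (nat_lit 5) (nat_lit 113) (nat_lit 4) (nat_lit 397) (nat_lit 315) (nat_lit 308))) (XT.nd (nat_lit 78) (nat_lit 228) (nat_lit 0) (XT.lf (nat_lit 0) (nat_lit 2503533782) (nat_lit 304) (nat_lit 771746295) (nat_lit 76) (nat_lit 7028746554) (nat_lit 109) (nat_lit 5) (nat_lit 113) (nat_lit 5) (nat_lit 110) (nat_lit 4) (nat_lit 398) (nat_lit 315) (nat_lit 307)) (XT.lf (nat_lit 0) (nat_lit 6994923911) (nat_lit 304) (nat_lit 2769572479) (nat_lit 0) (nat_lit 690985596) (nat_lit 106) (nat_lit 5) (nat_lit 110) (nat_lit 4) (nat_lit 106) (nat_lit 4) (nat_lit 399) (nat_lit 315) (nat_lit 306))))) (XT.nd (nat_lit 312) (nat_lit 836) (nat_lit 0) (XT.nd (nat_lit 156) (nat_lit 304) (nat_lit 0) (XT.nd (nat_lit 78) (nat_lit 228) (nat_lit 0)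 (XT.lf (nat_lit 0) (nat_lit 991869832) (nat_lit 304) (nat_lit 4892890092) (nat_lit 76) (nat_lit 4726385353) (nat_lit 102) (nat_lit 5) (nat_lit 106) (nat_lit 5) (nat_lit 103) (nat_lit 4) (nat_lit 400) (nat_lit 315) (nat_lit 305)) (XT.lf (nat_lit 0) (nat_lit 3629906569) (nat_lit 228) (nat_lit 1848513599) (nat_lit 304) (nat_lit 5292942146) (nat_lit 99) (nat_lit 5) (nat_lit 102) (nat_lit 5) (nat_lit 103) (nat_lit 4) (nat_lit 401) (nat_lit 315) (nat_lit 304))) (XT.nd (nat_lit 78) (nat_lit 76) (nat_lit 0) (XT.lf (nat_lit 0) (nat_lit 1424979349) (nat_lit 228) (nat_lit 8668018202) (nat_lit 228) (nat_lit 843599798) (nat_lit 96) (nat_lit 4) (nat_lit 99) (nat_lit 5) (nat_lit 99) (nat_lit 4) (nat_lit 402) (nat_lit 315) (nat_lit 303)) (XT.lf (nat_lit 0) (nat_lit 3665338018) (nat_lit 304) (nat_lit 919049059) (nat_lit 76) (nat_lit 6521365199) (nat_lit 95) (nat_lit 5) (nat_lit 99) (nat_lit 5) (nat_lit 96) (nat_lit 4) (nat_lit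 403) (nat_lit 315) (nat_lit 302)))) (XT.nd (nat_lit 156) (nat_lit 380) (nat_lit 0) (XT.nd (nat_lit 78) (nat_lit 304) (nat_lit 0) (XT.lf (nat_lit 0) (nat_lit 7927875412) (nat_lit 152) (nat_lit 351551773) (nat_lit 228) (nat_lit 3000712111) (nat_lit 93) (nat_lit 5) (nat_lit 95) (nat_lit 5) (nat_lit 96) (nat_lit 4) (nat_lit 404) (nat_lit 315) (nat_lit 301)) (XT.lf (nat_lit 0) (nat_lit 1553788088) (nat_lit 304) (nat_lit 5956394746) (nat_lit 76) (nat_lit 3948765558) (nat_lit 89) (nat_lit 5) (nat_lit 93) (nat_lit 5) (nat_lit 90) (nat_lit 4) (nat_lit 405) (nat_lit 315) (nat_lit 300))) (XT.nd (nat_lit 78) (nat_lit 228) (nat_lit 0) (XT.lf (nat_lit 0) (nat_lit 2922447391) (nat_lit 152) (nat_lit 3239429261) (nat_lit 228) (nat_lit 5481047930) (nat_lit 87) (nat_lit 5) (nat_lit 89) (nat_lit 5) (nat_lit 90) (nat_lit 4) (nat_lit 406) (nat_lit 315) (nat_lit 299)) (XT.lf (nat_lit 0) (nat_lit 200060274) (nat_lit 228) (nat_lit 10694013338)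 (nat_lit 228) (nat_lit 938782186) (nat_lit 84) (nat_lit 4) (nat_lit 87) (nat_lit 5) (nat_lit 87) (nat_lit 4) (nat_lit 407) (nat_lit 315) (nat_lit 298))))))))
noncomputable def xc46 : XT := (XT.nd (nat_lit 2262) (nat_lit 1520) (nat_lit 0) (XT.nd (nat_lit 1092) (nat_lit 1368) (nat_lit 0) (XT.nd (nat_lit 546) (nat_lit 912) (nat_lit 0) (XT.nd (nat_lit 234) (nat_lit 532) (nat_lit 0) (XT.nd (nat_lit 78) (nat_lit 380) (nat_lit 0) (XT.lf (nat_lit 0) (nat_lit 3700085718) (nat_lit 304) (nat_lit 2679278061) (nat_lit 76) (nat_lit 5647054441) (nat_lit 83) (nat_lit 5) (nat_lit 87) (nat_lit 5) (nat_lit 84) (nat_lit 4) (nat_lit 408) (nat_lit 315) (nat_lit 297)) (XT.nd (nat_lit 78) (nat_lit 228) (nat_lit 0) (XT.lf (nat_lit 0) (nat_lit 6513550173) (nat_lit 152) (nat_lit 1923172400) (nat_lit 228) (nat_lit 3789472668) (nat_lit 81) (nat_lit 5) (nat_lit 83) (nat_lit 5) (nat_lit 84) (nat_lit 4) (nat_lit 409) (nat_lit 315) (nat_lit 296))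 (XT.lf (nat_lit 0) (nat_lit 868217377) (nat_lit 228) (nat_lit 8939687761) (nat_lit 76) (nat_lit 2623756822) (nat_lit 78) (nat_lit 5) (nat_lit 81) (nat_lit 5) (nat_lit 79) (nat_lit 4) (nat_lit 410) (nat_lit 315) (nat_lit 295)))) (XT.nd (nat_lit 156) (nat_lit 380) (nat_lit 0) (XT.nd (nat_lit 78) (nat_lit 0) (nat_lit 0) (XT.lf (nat_lit 0) (nat_lit 248140000) (nat_lit 152) (nat_lit 5336587678) (nat_lit 228) (nat_lit 7057591599) (nat_lit 76) (nat_lit 5) (nat_lit 78) (nat_lit 5) (nat_lit 79) (nat_lit 4) (nat_lit 411) (nat_lit 315) (nat_lit 294)) (XT.lf (nat_lit 0) (nat_lit 9748463183) (nat_lit 152) (nat_lit 701165268) (nat_lit 228) (nat_lit 2409470529) (nat_lit 76) (nat_lit 5) (nat_lit 78) (nat_lit 5) (nat_lit 79) (nat_lit 4) (nat_lit 412) (nat_lit 315) (nat_lit 293))) (XT.nd (nat_lit 78) (nat_lit 152) (nat_lit 0) (XT.lf (nat_lit 0) (nat_lit 2350939932) (nat_lit 228) (nat_lit 6711837802) (nat_lit 76) (nat_lit 4018349999)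 (nat_lit 73) (nat_lit 5) (nat_lit 76) (nat_lit 5) (nat_lit 74) (nat_lit 4) (nat_lit 413) (nat_lit 315) (nat_lit 292)) (XT.lf (nat_lit 0) (nat_lit 2767196066) (nat_lit 152) (nat_lit 4422463709) (nat_lit 228) (nat_lit 6119932853) (nat_lit 71) (nat_lit 5) (nat_lit 73) (nat_lit 5) (nat_lit 74) (nat_lit 4) (nat_lit 414) (nat_lit 315) (nat_lit 291))))) (XT.nd (nat_lit 234) (nat_lit 532) (nat_lit 0) (XT.nd (nat_lit 78) (nat_lit 380) (nat_lit 0) (XT.lf (nat_lit 0) (nat_lit 12164477842) (nat_lit 228) (nat_lit 1023395246) (nat_lit 0) (nat_lit 357318743) (nat_lit 71) (nat_lit 5) (nat_lit 74) (nat_lit 4) (nat_lit 71) (nat_lit 4) (nat_lit 415) (nat_lit 315) (nat_lit 290)) (XT.nd (nat_lit 78) (nat_lit 152) (nat_lit 0) (XT.lf (nat_lit 0) (nat_lit 3482337986) (nat_lit 228) (nat_lit 5052425838) (nat_lit 76) (nat_lit 5250594617) (nat_lit 68) (nat_lit 5) (nat_lit 71) (nat_lit 5) (nat_lit 69) (nat_lit 4) (nat_lit 416) (nat_lit 315)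 (nat_lit 289)) (XT.lf (nat_lit 0) (nat_lit 4708025658) (nat_lit 152) (nat_lit 3732788530) (nat_lit 228) (nat_lit 5592194981) (nat_lit 66) (nat_lit 5) (nat_lit 68) (nat_lit 5) (nat_lit 69) (nat_lit 4) (nat_lit 417) (nat_lit 315) (nat_lit 288)))) (XT.nd (nat_lit 156) (nat_lit 304) (nat_lit 0) (XT.nd (nat_lit 78) (nat_lit 76) (nat_lit 0) (XT.lf (nat_lit 0) (nat_lit 433655515) (nat_lit 152) (nat_lit 13103687745) (nat_lit 152) (nat_lit 751074721) (nat_lit 64) (nat_lit 4) (nat_lit 66) (nat_lit 5) (nat_lit 66) (nat_lit 4) (nat_lit 418) (nat_lit 315) (nat_lit 287)) (XT.lf (nat_lit 0) (nat_lit 4206792293) (nat_lit 228) (nat_lit 4092176413) (nat_lit 76) (nat_lit 6249681312) (nat_lit 63) (nat_lit 5) (nat_lit 66) (nat_lit 5) (nat_lit 64) (nat_lit 4) (nat_lit 419) (nat_lit 315) (nat_lit 286))) (XT.nd (nat_lit 78) (nat_lit 152) (nat_lit 0) (XT.lf (nat_lit 0) (nat_lit 5934651142) (nat_lit 152) (nat_lit 3345068660) (nat_lit 228)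 (nat_lit 5537310393) (nat_lit 61) (nat_lit 5) (nat_lit 63) (nat_lit 5) (nat_lit 64) (nat_lit 4) (nat_lit 420) (nat_lit 315) (nat_lit 285)) (XT.lf (nat_lit 0) (nat_lit 1121197114) (nat_lit 152) (nat_lit 13377727183) (nat_lit 152) (nat_lit 594721483) (nat_lit 59) (nat_lit 4) (nat_lit 61) (nat_lit 5) (nat_lit 61) (nat_lit 4) (nat_lit 421) (nat_lit 315) (nat_lit 284)))))) (XT.nd (nat_lit 546) (nat_lit 684) (nat_lit 0) (XT.nd (nat_lit 234) (nat_lit 380) (nat_lit 0) (XT.nd (nat_lit 78) (nat_lit 228) (nat_lit 0) (XT.lf (nat_lit 0) (nat_lit 4456940275) (nat_lit 228) (nat_lit 3983617349) (nat_lit 76) (nat_lit 6935255980) (nat_lit 58) (nat_lit 5) (nat_lit 61) (nat_lit 5) (nat_lit 59) (nat_lit 4) (nat_lit 422) (nat_lit 315) (nat_lit 283)) (XT.nd (nat_lit 78) (nat_lit 152) (nat_lit 0) (XT.lf (nat_lit 0) (nat_lit 6288218971) (nat_lit 76) (nat_lit 3347444254) (nat_lit 152) (nat_lit 6030988759) (nat_lit 57) (nat_lit 5) (nat_lit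 58) (nat_lit 5) (nat_lit 59) (nat_lit 4) (nat_lit 423) (nat_lit 315) (nat_lit 282)) (XT.lf (nat_lit 0) (nat_lit 849020532) (nat_lit 152) (nat_lit 14115059300) (nat_lit 152) (nat_lit 1002311661) (nat_lit 55) (nat_lit 4) (nat_lit 57) (nat_lit 5) (nat_lit 57) (nat_lit 4) (nat_lit 424) (nat_lit 315) (nat_lit 281)))) (XT.nd (nat_lit 156) (nat_lit 228) (nat_lit 0) (XT.nd (nat_lit 78) (nat_lit 76) (nat_lit 0) (XT.lf (nat_lit 0) (nat_lit 4151921219) (nat_lit 228) (nat_lit 4904870412) (nat_lit 76) (nat_lit 7215446282) (nat_lit 54) (nat_lit 5) (nat_lit 57) (nat_lit 5) (nat_lit 55) (nat_lit 4) (nat_lit 425) (nat_lit 315) (nat_lit 280)) (XT.lf (nat_lit 0) (nat_lit 5583026245) (nat_lit 76) (nat_lit 3840814436) (nat_lit 152) (nat_lit 7163630606) (nat_lit 53) (nat_lit 5) (nat_lit 54) (nat_lit 5) (nat_lit 55) (nat_lit 4) (nat_lit 426) (nat_lit 315) (nat_lit 279))) (XT.nd (nat_lit 78) (nat_lit 228) (nat_lit 0) (XT.lf (nat_lit 0)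 (nat_lit 14848445400) (nat_lit 152) (nat_lit 570036689) (nat_lit 0) (nat_lit 1493849017) (nat_lit 53) (nat_lit 5) (nat_lit 55) (nat_lit 4) (nat_lit 53) (nat_lit 4) (nat_lit 427) (nat_lit 315) (nat_lit 278)) (XT.lf (nat_lit 0) (nat_lit 3195317497) (nat_lit 228) (nat_lit 7064033557) (nat_lit 76) (nat_lit 6984610281) (nat_lit 50) (nat_lit 5) (nat_lit 53) (nat_lit 5) (nat_lit 51) (nat_lit 4) (nat_lit 428) (nat_lit 315) (nat_lit 277))))) (XT.nd (nat_lit 312) (nat_lit 304) (nat_lit 0) (XT.nd (nat_lit 156) (nat_lit 304) (nat_lit 0) (XT.nd (nat_lit 78) (nat_lit 0) (nat_lit 0) (XT.lf (nat_lit 0) (nat_lit 3601925532) (nat_lit 76) (nat_lit 4941265874) (nat_lit 152) (nat_lit 9042569555) (nat_lit 49) (nat_lit 5) (nat_lit 50) (nat_lit 5) (nat_lit 51) (nat_lit 4) (nat_lit 429) (nat_lit 315) (nat_lit 276)) (XT.lf (nat_lit 0) (nat_lit 14060855511) (nat_lit 152) (nat_lit 3335669790) (nat_lit 0) (nat_lit 541013339) (nat_lit 49) (nat_lit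 5) (nat_lit 51) (nat_lit 4) (nat_lit 49) (nat_lit 4) (nat_lit 430) (nat_lit 315) (nat_lit 275))) (XT.nd (nat_lit 78) (nat_lit 76) (nat_lit 0) (XT.lf (nat_lit 0) (nat_lit 1472745378) (nat_lit 228) (nat_lit 10704251825) (nat_lit 76) (nat_lit 6120757993) (nat_lit 46) (nat_lit 5) (nat_lit 49) (nat_lit 5) (nat_lit 47) (nat_lit 4) (nat_lit 431) (nat_lit 315) (nat_lit 274)) (XT.lf (nat_lit 0) (nat_lit 91006082) (nat_lit 76) (nat_lit 6782857675) (nat_lit 152) (nat_lit 11794693555) (nat_lit 45) (nat_lit 5) (nat_lit 46) (nat_lit 5) (nat_lit 47) (nat_lit 4) (nat_lit 432) (nat_lit 315) (nat_lit 273)))) (XT.nd (nat_lit 156) (nat_lit 152) (nat_lit 0) (XT.nd (nat_lit 78) (nat_lit 152) (nat_lit 0) (XT.lf (nat_lit 0) (nat_lit 11307541164) (nat_lit 76) (nat_lit 1172541702) (nat_lit 152) (nat_lit 6569112771) (nat_lit 45) (nat_lit 5) (nat_lit 46) (nat_lit 5) (nat_lit 47) (nat_lit 4) (nat_lit 433) (nat_lit 315) (nat_lit 272)) (XT.lf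 (nat_lit 0) (nat_lit 3320008216) (nat_lit 152) (nat_lit 14947008130) (nat_lit 152) (nat_lit 1173864973) (nat_lit 43) (nat_lit 4) (nat_lit 45) (nat_lit 5) (nat_lit 45) (nat_lit 4) (nat_lit 434) (nat_lit 315) (nat_lit 271))) (XT.nd (nat_lit 78) (nat_lit 76) (nat_lit 0) (XT.lf (nat_lit 0) (nat_lit 4324690337) (nat_lit 228) (nat_lit 5144187101) (nat_lit 76) (nat_lit 10373370424) (nat_lit 42) (nat_lit 5) (nat_lit 45) (nat_lit 5) (nat_lit 43) (nat_lit 4) (nat_lit 435) (nat_lit 315) (nat_lit 270)) (XT.lf (nat_lit 0) (nat_lit 6153839082) (nat_lit 76) (nat_lit 3808199907) (nat_lit 152) (nat_lit 10293348532) (nat_lit 41) (nat_lit 5) (nat_lit 42) (nat_lit 5) (nat_lit 43) (nat_lit 4) (nat_lit 436) (nat_lit 315) (nat_lit 269))))))) (XT.nd (nat_lit 1092) (nat_lit 684) (nat_lit 0) (XT.nd (nat_lit 546) (nat_lit 304) (nat_lit 0) (XT.nd (nat_lit 234) (nat_lit 304) (nat_lit 0) (XT.nd (nat_lit 78) (nat_lit 228) (nat_lit 0) (XT.lf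 (nat_lit 0) (nat_lit 15778852139) (nat_lit 152) (nat_lit 2919653363) (nat_lit 0) (nat_lit 1982109137) (nat_lit 41) (nat_lit 5) (nat_lit 43) (nat_lit 4) (nat_lit 41) (nat_lit 4) (nat_lit 437) (nat_lit 315) (nat_lit 268)) (XT.nd (nat_lit 78) (nat_lit 0) (nat_lit 0) (XT.lf (nat_lit 0) (nat_lit 700208237) (nat_lit 228) (nat_lit 12508740230) (nat_lit 76) (nat_lit 7907625041) (nat_lit 38) (nat_lit 5) (nat_lit 41) (nat_lit 5) (nat_lit 39) (nat_lit 4) (nat_lit 438) (nat_lit 315) (nat_lit 267)) (XT.lf (nat_lit 0) (nat_lit 6341803805) (nat_lit 228) (nat_lit 1185835158) (nat_lit 76) (nat_lit 14037416906) (nat_lit 38) (nat_lit 5) (nat_lit 41) (nat_lit 5) (nat_lit 39) (nat_lit 4) (nat_lit 439) (nat_lit 315) (nat_lit 266)))) (XT.nd (nat_lit 156) (nat_lit 152) (nat_lit 0) (XT.nd (nat_lit 78) (nat_lit 76) (nat_lit 0) (XT.lf (nat_lit 0) (nat_lit 10573096812) (nat_lit 76) (nat_lit 1623235599) (nat_lit 152) (nat_lit 9829352927) (nat_lit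 37) (nat_lit 5) (nat_lit 38) (nat_lit 5) (nat_lit 39) (nat_lit 4) (nat_lit 440) (nat_lit 315) (nat_lit 265)) (XT.lf (nat_lit 0) (nat_lit 57347690) (nat_lit 76) (nat_lit 18166844716) (nat_lit 76) (nat_lit 4276013515) (nat_lit 36) (nat_lit 4) (nat_lit 37) (nat_lit 5) (nat_lit 37) (nat_lit 4) (nat_lit 441) (nat_lit 315) (nat_lit 264))) (XT.nd (nat_lit 78) (nat_lit 76) (nat_lit 0) (XT.lf (nat_lit 0) (nat_lit 1490876856) (nat_lit 152) (nat_lit 10979440403) (nat_lit 76) (nat_lit 10515977576) (nat_lit 35) (nat_lit 5) (nat_lit 37) (nat_lit 5) (nat_lit 36) (nat_lit 4) (nat_lit 442) (nat_lit 315) (nat_lit 263)) (XT.lf (nat_lit 0) (nat_lit 692057440) (nat_lit 76) (nat_lit 6603368653) (nat_lit 152) (nat_lit 16191755181) (nat_lit 34) (nat_lit 5) (nat_lit 35) (nat_lit 5) (nat_lit 36) (nat_lit 4) (nat_lit 443) (nat_lit 315) (nat_lit 262))))) (XT.nd (nat_lit 234) (nat_lit 152) (nat_lit 0) (XT.nd (nat_lit 78) (nat_lit 152) (nat_lit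 0) (XT.lf (nat_lit 0) (nat_lit 12832826621) (nat_lit 76) (nat_lit 496713663) (nat_lit 152) (nat_lit 10671893918) (nat_lit 34) (nat_lit 5) (nat_lit 35) (nat_lit 5) (nat_lit 36) (nat_lit 4) (nat_lit 444) (nat_lit 315) (nat_lit 261)) (XT.nd (nat_lit 78) (nat_lit 76) (nat_lit 0) (XT.lf (nat_lit 0) (nat_lit 659891911) (nat_lit 76) (nat_lit 18892517687) (nat_lit 76) (nat_lit 4978475843) (nat_lit 33) (nat_lit 4) (nat_lit 34) (nat_lit 5) (nat_lit 34) (nat_lit 4) (nat_lit 445) (nat_lit 315) (nat_lit 260)) (XT.lf (nat_lit 0) (nat_lit 933034827) (nat_lit 152) (nat_lit 12119258115) (nat_lit 76) (nat_lit 12021737138) (nat_lit 32) (nat_lit 5) (nat_lit 34) (nat_lit 5) (nat_lit 33) (nat_lit 4) (nat_lit 446) (nat_lit 315) (nat_lit 259)))) (XT.nd (nat_lit 156) (nat_lit 76) (nat_lit 0) (XT.nd (nat_lit 78) (nat_lit 76) (nat_lit 0) (XT.lf (nat_lit 0) (nat_lit 6869166721) (nat_lit 152) (nat_lit 165295782) (nat_lit 76) (nat_lit 18599110097)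 (nat_lit 32) (nat_lit 5) (nat_lit 34) (nat_lit 5) (nat_lit 33) (nat_lit 4) (nat_lit 447) (nat_lit 315) (nat_lit 258)) (XT.lf (nat_lit 0) (nat_lit 12288997437) (nat_lit 76) (nat_lit 761386667) (nat_lit 152) (nat_lit 13157509617) (nat_lit 31) (nat_lit 5) (nat_lit 32) (nat_lit 5) (nat_lit 33) (nat_lit 4) (nat_lit 448) (nat_lit 315) (nat_lit 257))) (XT.nd (nat_lit 78) (nat_lit 76) (nat_lit 0) (XT.lf (nat_lit 0) (nat_lit 19422494585) (nat_lit 152) (nat_lit 1832094679) (nat_lit 0) (nat_lit 5544693820) (nat_lit 31) (nat_lit 5) (nat_lit 33) (nat_lit 4) (nat_lit 31) (nat_lit 4) (nat_lit 449) (nat_lit 315) (nat_lit 256)) (XT.lf (nat_lit 0) (nat_lit 10723689663) (nat_lit 76) (nat_lit 15323166019) (nat_lit 76) (nat_lit 1359728064) (nat_lit 30) (nat_lit 4) (nat_lit 31) (nat_lit 5) (nat_lit 31) (nat_lit 4) (nat_lit 450) (nat_lit 315) (nat_lit 255)))))) (XT.nd (nat_lit 546) (nat_lit 304) (nat_lit 0) (XT.nd (nat_lit 234) (nat_lit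 228) (nat_lit 0) (XT.nd (nat_lit 78) (nat_lit 76) (nat_lit 0) (XT.lf (nat_lit 0) (nat_lit 4712638291) (nat_lit 152) (nat_lit 4479925124) (nat_lit 76) (nat_lit 18839071056) (nat_lit 29) (nat_lit 5) (nat_lit 31) (nat_lit 5) (nat_lit 30) (nat_lit 4) (nat_lit 451) (nat_lit 315) (nat_lit 254)) (XT.nd (nat_lit 78) (nat_lit 0) (nat_lit 0) (XT.lf (nat_lit 0) (nat_lit 8141934245) (nat_lit 76) (nat_lit 2828132929) (nat_lit 152) (nat_lit 17704061090) (nat_lit 28) (nat_lit 5) (nat_lit 29) (nat_lit 5) (nat_lit 30) (nat_lit 4) (nat_lit 452) (nat_lit 315) (nat_lit 253)) (XT.lf (nat_lit 0) (nat_lit 17448782314) (nat_lit 152) (nat_lit 8229242163) (nat_lit 0) (nat_lit 3656867480) (nat_lit 28) (nat_lit 5) (nat_lit 30) (nat_lit 4) (nat_lit 28) (nat_lit 4) (nat_lit 453) (nat_lit 315) (nat_lit 252)))) (XT.nd (nat_lit 156) (nat_lit 76) (nat_lit 0) (XT.nd (nat_lit 78) (nat_lit 76) (nat_lit 0) (XT.lf (nat_lit 0) (nat_lit 4410859376) (nat_lit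 76) (nat_lit 19734845973) (nat_lit 76) (nat_lit 5869059748) (nat_lit 27) (nat_lit 4) (nat_lit 28) (nat_lit 5) (nat_lit 28) (nat_lit 4) (nat_lit 454) (nat_lit 315) (nat_lit 251)) (XT.lf (nat_lit 0) (nat_lit 359500004) (nat_lit 152) (nat_lit 13207721013) (nat_lit 76) (nat_lit 17146598244) (nat_lit 26) (nat_lit 5) (nat_lit 28) (nat_lit 5) (nat_lit 27) (nat_lit 4) (nat_lit 455) (nat_lit 315) (nat_lit 250))) (XT.nd (nat_lit 78) (nat_lit 76) (nat_lit 0) (XT.lf (nat_lit 0) (nat_lit 6611795655) (nat_lit 152) (nat_lit 585191713) (nat_lit 76) (nat_lit 24236470920) (nat_lit 26) (nat_lit 5) (nat_lit 28) (nat_lit 5) (nat_lit 27) (nat_lit 4) (nat_lit 456) (nat_lit 315) (nat_lit 249)) (XT.lf (nat_lit 0) (nat_lit 12576542201) (nat_lit 76) (nat_lit 552168085) (nat_lit 152) (nat_lit 19043666412) (nat_lit 25) (nat_lit 5) (nat_lit 26) (nat_lit 5) (nat_lit 27) (nat_lit 4) (nat_lit 457) (nat_lit 315) (nat_lit 248))))) (XT.nd (nat_lit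 312) (nat_lit 152) (nat_lit 0) (XT.nd (nat_lit 156) (nat_lit 76) (nat_lit 0) (XT.nd (nat_lit 78) (nat_lit 76) (nat_lit 0) (XT.lf (nat_lit 0) (nat_lit 19863817358) (nat_lit 152) (nat_lit 6933666976) (nat_lit 0) (nat_lit 6135299440) (nat_lit 25) (nat_lit 5) (nat_lit 27) (nat_lit 4) (nat_lit 25) (nat_lit 4) (nat_lit 458) (nat_lit 315) (nat_lit 247)) (XT.lf (nat_lit 0) (nat_lit 6140226629) (nat_lit 76) (nat_lit 20682751048) (nat_lit 76) (nat_lit 6892367002) (nat_lit 24) (nat_lit 4) (nat_lit 25) (nat_lit 5) (nat_lit 25) (nat_lit 4) (nat_lit 459) (nat_lit 315) (nat_lit 246))) (XT.nd (nat_lit 78) (nat_lit 76) (nat_lit 0) (XT.lf (nat_lit 0) (nat_lit 19666789274) (nat_lit 76) (nat_lit 14352101802) (nat_lit 76) (nat_lit 501653555) (nat_lit 24) (nat_lit 4) (nat_lit 25) (nat_lit 5) (nat_lit 25) (nat_lit 4) (nat_lit 460) (nat_lit 315) (nat_lit 245)) (XT.lf (nat_lit 0) (nat_lit 5920904002) (nat_lit 152) (nat_lit 1889327879)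 (nat_lit 76) (nat_lit 27539153194) (nat_lit 23) (nat_lit 5) (nat_lit 25) (nat_lit 5) (nat_lit 24) (nat_lit 4) (nat_lit 461) (nat_lit 315) (nat_lit 244)))) (XT.nd (nat_lit 156) (nat_lit 76) (nat_lit 0) (XT.nd (nat_lit 78) (nat_lit 0) (nat_lit 0) (XT.lf (nat_lit 0) (nat_lit 11607785051) (nat_lit 76) (nat_lit 989832843) (nat_lit 152) (nat_lit 23603178400) (nat_lit 22) (nat_lit 5) (nat_lit 23) (nat_lit 5) (nat_lit 24) (nat_lit 4) (nat_lit 462) (nat_lit 315) (nat_lit 243)) (XT.lf (nat_lit 0) (nat_lit 19511960969) (nat_lit 152) (nat_lit 11664696392) (nat_lit 0) (nat_lit 5899974048) (nat_lit 22) (nat_lit 5) (nat_lit 24) (nat_lit 4) (nat_lit 22) (nat_lit 4) (nat_lit 463) (nat_lit 315) (nat_lit 242))) (XT.nd (nat_lit 78) (nat_lit 0) (nat_lit 0) (XT.lf (nat_lit 0) (nat_lit 1597246370) (nat_lit 76) (nat_lit 25022852232) (nat_lit 76) (nat_lit 11359053403) (nat_lit 21) (nat_lit 4) (nat_lit 22) (nat_lit 5) (nat_lit 22) (nat_lit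 4) (nat_lit 464) (nat_lit 315) (nat_lit 241)) (XT.lf (nat_lit 0) (nat_lit 15421314087) (nat_lit 76) (nat_lit 18599577382) (nat_lit 76) (nat_lit 4885475730) (nat_lit 21) (nat_lit 4) (nat_lit 22) (nat_lit 5) (nat_lit 22) (nat_lit 4) (nat_lit 465) (nat_lit 315) (nat_lit 240))))))))
noncomputable def xc47 : XT := (XT.nd (nat_lit 47190) (nat_lit 0) (nat_lit 4256) (XT.nd (nat_lit 1092) (nat_lit 380) (nat_lit 0) (XT.nd (nat_lit 546) (nat_lit 228) (nat_lit 0) (XT.nd (nat_lit 234) (nat_lit 76) (nat_lit 0) (XT.nd (nat_lit 78) (nat_lit 76) (nat_lit 0) (XT.lf (nat_lit 0) (nat_lit 1709898213) (nat_lit 152) (nat_lit 10291845970) (nat_lit 76) (nat_lit 27860270878) (nat_lit 20) (nat_lit 5) (nat_lit 22) (nat_lit 5) (nat_lit 21) (nat_lit 4) (nat_lit 466) (nat_lit 315) (nat_lit 239)) (XT.nd (nat_lit 78) (nat_lit 0) (nat_lit 0) (XT.lf (nat_lit 0) (nat_lit 3240745035) (nat_lit 76) (nat_lit 5158811424) (nat_lit 152) (nat_lit 32445487483)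 (nat_lit 19) (nat_lit 5) (nat_lit 20) (nat_lit 5) (nat_lit 21) (nat_lit 4) (nat_lit 467) (nat_lit 315) (nat_lit 238)) (XT.lf (nat_lit 0) (nat_lit 15376542053) (nat_lit 152) (nat_lit 24554686272) (nat_lit 0) (nat_lit 1923737404) (nat_lit 19) (nat_lit 5) (nat_lit 21) (nat_lit 4) (nat_lit 19) (nat_lit 4) (nat_lit 468) (nat_lit 315) (nat_lit 237)))) (XT.nd (nat_lit 156) (nat_lit 0) (nat_lit 0) (XT.nd (nat_lit 78) (nat_lit 76) (nat_lit 0) (XT.lf (nat_lit 0) (nat_lit 22578496099) (nat_lit 152) (nat_lit 11233920642) (nat_lit 0) (nat_lit 9082299794) (nat_lit 19) (nat_lit 5) (nat_lit 21) (nat_lit 4) (nat_lit 19) (nat_lit 4) (nat_lit 469) (nat_lit 315) (nat_lit 236)) (XT.lf (nat_lit 0) (nat_lit 2467374498) (nat_lit 76) (nat_lit 27518465333) (nat_lit 76) (nat_lit 13980141205) (nat_lit 18) (nat_lit 4) (nat_lit 19) (nat_lit 5) (nat_lit 19) (nat_lit 4) (nat_lit 470) (nat_lit 315) (nat_lit 235))) (XT.nd (nat_lit 78) (nat_lit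 0) (nat_lit 0) (XT.lf (nat_lit 0) (nat_lit 16743411258) (nat_lit 76) (nat_lit 20951407875) (nat_lit 76) (nat_lit 7372182950) (nat_lit 18) (nat_lit 4) (nat_lit 19) (nat_lit 5) (nat_lit 19) (nat_lit 4) (nat_lit 471) (nat_lit 315) (nat_lit 234)) (XT.lf (nat_lit 0) (nat_lit 31383086793) (nat_lit 76) (nat_lit 14218946736) (nat_lit 76) (nat_lit 600012298) (nat_lit 18) (nat_lit 4) (nat_lit 19) (nat_lit 5) (nat_lit 19) (nat_lit 4) (nat_lit 472) (nat_lit 315) (nat_lit 233))))) (XT.nd (nat_lit 234) (nat_lit 76) (nat_lit 0) (XT.nd (nat_lit 78) (nat_lit 76) (nat_lit 0) (XT.lf (nat_lit 0) (nat_lit 6218527295) (nat_lit 152) (nat_lit 1033876954) (nat_lit 76) (nat_lit 40117870826) (nat_lit 17) (nat_lit 5) (nat_lit 19) (nat_lit 5) (nat_lit 18) (nat_lit 4) (nat_lit 473) (nat_lit 315) (nat_lit 232)) (XT.nd (nat_lit 78) (nat_lit 0) (nat_lit 0) (XT.lf (nat_lit 0) (nat_lit 13326822505) (nat_lit 152) (nat_lit 35212847444) (nat_lit 0)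 (nat_lit 30786206) (nat_lit 16) (nat_lit 5) (nat_lit 18) (nat_lit 4) (nat_lit 16) (nat_lit 4) (nat_lit 474) (nat_lit 315) (nat_lit 231)) (XT.lf (nat_lit 0) (nat_lit 20699312001) (nat_lit 152) (nat_lit 21737808914) (nat_lit 0) (nat_lit 7367994314) (nat_lit 16) (nat_lit 5) (nat_lit 18) (nat_lit 4) (nat_lit 16) (nat_lit 4) (nat_lit 475) (nat_lit 315) (nat_lit 230)))) (XT.nd (nat_lit 156) (nat_lit 0) (nat_lit 0) (XT.nd (nat_lit 78) (nat_lit 76) (nat_lit 0) (XT.lf (nat_lit 0) (nat_lit 28262486810) (nat_lit 152) (nat_lit 7918327492) (nat_lit 0) (nat_lit 14896915348) (nat_lit 16) (nat_lit 5) (nat_lit 18) (nat_lit 4) (nat_lit 16) (nat_lit 4) (nat_lit 476) (nat_lit 315) (nat_lit 229)) (XT.lf (nat_lit 0) (nat_lit 6382212043) (nat_lit 76) (nat_lit 29702093216) (nat_lit 76) (nat_lit 16303265662) (nat_lit 15) (nat_lit 4) (nat_lit 16) (nat_lit 5) (nat_lit 16) (nat_lit 4) (nat_lit 477) (nat_lit 315) (nat_lit 228))) (XT.nd (nat_lit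 78) (nat_lit 0) (nat_lit 0) (XT.lf (nat_lit 0) (nat_lit 21216588717) (nat_lit 76) (nat_lit 22974857273) (nat_lit 76) (nat_lit 9543742251) (nat_lit 15) (nat_lit 4) (nat_lit 16) (nat_lit 5) (nat_lit 16) (nat_lit 4) (nat_lit 478) (nat_lit 315) (nat_lit 227)) (XT.lf (nat_lit 0) (nat_lit 36440174364) (nat_lit 76) (nat_lit 16073187887) (nat_lit 76) (nat_lit 2610725809) (nat_lit 15) (nat_lit 4) (nat_lit 16) (nat_lit 5) (nat_lit 16) (nat_lit 4) (nat_lit 479) (nat_lit 315) (nat_lit 226)))))) (XT.nd (nat_lit 546) (nat_lit 152) (nat_lit 0) (XT.nd (nat_lit 234) (nat_lit 76) (nat_lit 0) (XT.nd (nat_lit 78) (nat_lit 76) (nat_lit 0) (XT.lf (nat_lit 0) (nat_lit 4413994492) (nat_lit 152) (nat_lit 4532487292) (nat_lit 76) (nat_lit 47607703963) (nat_lit 14) (nat_lit 5) (nat_lit 16) (nat_lit 5) (nat_lit 15) (nat_lit 4) (nat_lit 480) (nat_lit 315) (nat_lit 225)) (XT.nd (nat_lit 78) (nat_lit 0) (nat_lit 0) (XT.lf (nat_lit 0) (nat_lit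 10162788297) (nat_lit 76) (nat_lit 1504813681) (nat_lit 152) (nat_lit 46356691116) (nat_lit 13) (nat_lit 5) (nat_lit 14) (nat_lit 5) (nat_lit 15) (nat_lit 4) (nat_lit 481) (nat_lit 315) (nat_lit 224)) (XT.lf (nat_lit 0) (nat_lit 19217216509) (nat_lit 152) (nat_lit 34258156996) (nat_lit 0) (nat_lit 6060778920) (nat_lit 13) (nat_lit 5) (nat_lit 15) (nat_lit 4) (nat_lit 13) (nat_lit 4) (nat_lit 482) (nat_lit 315) (nat_lit 223)))) (XT.nd (nat_lit 156) (nat_lit 76) (nat_lit 0) (XT.nd (nat_lit 78) (nat_lit 0) (nat_lit 0) (XT.lf (nat_lit 0) (nat_lit 26981967875) (nat_lit 152) (nat_lit 20313250875) (nat_lit 0) (nat_lit 13798490039) (nat_lit 13) (nat_lit 5) (nat_lit 15) (nat_lit 4) (nat_lit 13) (nat_lit 4) (nat_lit 483) (nat_lit 315) (nat_lit 222)) (XT.lf (nat_lit 0) (nat_lit 34954175620) (nat_lit 152) (nat_lit 6000136377) (nat_lit 0) (nat_lit 21744445119) (nat_lit 13) (nat_lit 5) (nat_lit 15) (nat_lit 4) (nat_lit 13) (nat_lit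 4) (nat_lit 484) (nat_lit 315) (nat_lit 221))) (XT.nd (nat_lit 78) (nat_lit 0) (nat_lit 0) (XT.lf (nat_lit 0) (nat_lit 8866714643) (nat_lit 76) (nat_lit 34359323394) (nat_lit 76) (nat_lit 21124104868) (nat_lit 12) (nat_lit 4) (nat_lit 13) (nat_lit 5) (nat_lit 13) (nat_lit 4) (nat_lit 485) (nat_lit 315) (nat_lit 220)) (XT.lf (nat_lit 0) (nat_lit 24254366894) (nat_lit 76) (nat_lit 27527792554) (nat_lit 76) (nat_lit 14267828372) (nat_lit 12) (nat_lit 4) (nat_lit 13) (nat_lit 5) (nat_lit 13) (nat_lit 4) (nat_lit 486) (nat_lit 315) (nat_lit 219))))) (XT.nd (nat_lit 312) (nat_lit 0) (nat_lit 0) (XT.nd (nat_lit 156) (nat_lit 152) (nat_lit 0) (XT.nd (nat_lit 78) (nat_lit 0) (nat_lit 0) (XT.lf (nat_lit 0) (nat_lit 40056851420) (nat_lit 76) (nat_lit 20514339790) (nat_lit 76) (nat_lit 7230350699) (nat_lit 12) (nat_lit 4) (nat_lit 13) (nat_lit 5) (nat_lit 13) (nat_lit 4) (nat_lit 487) (nat_lit 315) (nat_lit 218)) (XT.lf (nat_lit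 0) (nat_lit 56287976216) (nat_lit 76) (nat_lit 13312836843) (nat_lit 76) (nat_lit 5522598) (nat_lit 12) (nat_lit 4) (nat_lit 13) (nat_lit 5) (nat_lit 13) (nat_lit 4) (nat_lit 488) (nat_lit 315) (nat_lit 217))) (XT.nd (nat_lit 78) (nat_lit 0) (nat_lit 0) (XT.lf (nat_lit 0) (nat_lit 1453074475) (nat_lit 76) (nat_lit 5829208529) (nat_lit 152) (nat_lit 64181106287) (nat_lit 10) (nat_lit 5) (nat_lit 11) (nat_lit 5) (nat_lit 12) (nat_lit 4) (nat_lit 489) (nat_lit 315) (nat_lit 216)) (XT.lf (nat_lit 0) (nat_lit 14919889155) (nat_lit 152) (nat_lit 56495491403) (nat_lit 0) (nat_lit 1956834573) (nat_lit 10) (nat_lit 5) (nat_lit 12) (nat_lit 4) (nat_lit 10) (nat_lit 4) (nat_lit 490) (nat_lit 315) (nat_lit 215)))) (XT.nd (nat_lit 45084) (nat_lit 0) (nat_lit 9728) (XT.nd (nat_lit 78) (nat_lit 0) (nat_lit 0) (XT.lf (nat_lit 0) (nat_lit 22822391894) (nat_lit 152) (nat_lit 42676228126) (nat_lit 0) (nat_lit 9838613215) (nat_lit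 10) (nat_lit 5) (nat_lit 12) (nat_lit 4) (nat_lit 10) (nat_lit 4) (nat_lit 491) (nat_lit 315) (nat_lit 214)) (XT.lf (nat_lit 0) (nat_lit 30940662403) (nat_lit 152) (nat_lit 28484415982) (nat_lit 0) (nat_lit 17936763242) (nat_lit 10) (nat_lit 5) (nat_lit 12) (nat_lit 4) (nat_lit 10) (nat_lit 4) (nat_lit 492) (nat_lit 315) (nat_lit 213))) (XT.nd (nat_lit 78) (nat_lit 380) (nat_lit 0) (XT.lf (nat_lit 0) (nat_lit 2886609262) (nat_lit 380) (nat_lit 809074816) (nat_lit 380) (nat_lit 809074816) (nat_lit 143) (nat_lit 4) (nat_lit 148) (nat_lit 5) (nat_lit 148) (nat_lit 4) (nat_lit 388) (nat_lit 316) (nat_lit 316)) (XT.lf (nat_lit 0) (nat_lit 2626249738) (nat_lit 380) (nat_lit 4781873743) (nat_lit 0) (nat_lit 1714993784) (nat_lit 138) (nat_lit 5) (nat_lit 143) (nat_lit 4) (nat_lit 138) (nat_lit 4) (nat_lit 389) (nat_lit 316) (nat_lit 315))))))) (XT.nd (nat_lit 1092) (nat_lit 2204) (nat_lit 0) (XT.nd (nat_lit 546) (nat_lit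 1368) (nat_lit 0) (XT.nd (nat_lit 234) (nat_lit 1216) (nat_lit 0) (XT.nd (nat_lit 78) (nat_lit 380) (nat_lit 0) (XT.lf (nat_lit 0) (nat_lit 2844454225) (nat_lit 304) (nat_lit 4095967270) (nat_lit 304) (nat_lit 2299996798) (nat_lit 134) (nat_lit 4) (nat_lit 138) (nat_lit 5) (nat_lit 138) (nat_lit 4) (nat_lit 390) (nat_lit 316) (nat_lit 314)) (XT.nd (nat_lit 78) (nat_lit 0) (nat_lit 0) (XT.lf (nat_lit 0) (nat_lit 1290532322) (nat_lit 304) (nat_lit 653038578) (nat_lit 380) (nat_lit 7418298036) (nat_lit 129) (nat_lit 5) (nat_lit 133) (nat_lit 5) (nat_lit 134) (nat_lit 4) (nat_lit 391) (nat_lit 316) (nat_lit 313)) (XT.lf (nat_lit 0) (nat_lit 6261337703) (nat_lit 380) (nat_lit 351060137) (nat_lit 0) (nat_lit 2874109652) (nat_lit 129) (nat_lit 5) (nat_lit 134) (nat_lit 4) (nat_lit 129) (nat_lit 4) (nat_lit 392) (nat_lit 316) (nat_lit 312)))) (XT.nd (nat_lit 156) (nat_lit 608) (nat_lit 0) (XT.nd (nat_lit 78) (nat_lit 228)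 (nat_lit 0) (XT.lf (nat_lit 0) (nat_lit 1054666868) (nat_lit 380) (nat_lit 2032311697) (nat_lit 76) (nat_lit 6528143436) (nat_lit 124) (nat_lit 5) (nat_lit 129) (nat_lit 5) (nat_lit 125) (nat_lit 4) (nat_lit 393) (nat_lit 316) (nat_lit 311)) (XT.lf (nat_lit 0) (nat_lit 5367914022) (nat_lit 304) (nat_lit 3804401064) (nat_lit 0) (nat_lit 575246104) (nat_lit 121) (nat_lit 5) (nat_lit 125) (nat_lit 4) (nat_lit 121) (nat_lit 4) (nat_lit 394) (nat_lit 316) (nat_lit 310))) (XT.nd (nat_lit 78) (nat_lit 304) (nat_lit 0) (XT.lf (nat_lit 0) (nat_lit 4217272138) (nat_lit 304) (nat_lit 5589428860) (nat_lit 304) (nat_lit 77407077) (nat_lit 117) (nat_lit 4) (nat_lit 121) (nat_lit 5) (nat_lit 121) (nat_lit 4) (nat_lit 395) (nat_lit 316) (nat_lit 309)) (XT.lf (nat_lit 0) (nat_lit 2387445798) (nat_lit 228) (nat_lit 1847957842) (nat_lit 304) (nat_lit 5789115961) (nat_lit 113) (nat_lit 5) (nat_lit 116) (nat_lit 5) (nat_lit 117) (nat_lit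 4) (nat_lit 396) (nat_lit 316) (nat_lit 308))))) (XT.nd (nat_lit 234) (nat_lit 836) (nat_lit 0) (XT.nd (nat_lit 78) (nat_lit 304) (nat_lit 0) (XT.lf (nat_lit 0) (nat_lit 468915179) (nat_lit 228) (nat_lit 8194228814) (nat_lit 228) (nat_lit 1506380655) (nat_lit 110) (nat_lit 4) (nat_lit 113) (nat_lit 5) (nat_lit 113) (nat_lit 4) (nat_lit 397) (nat_lit 316) (nat_lit 307)) (XT.nd (nat_lit 78) (nat_lit 228) (nat_lit 0) (XT.lf (nat_lit 0) (nat_lit 2850223912) (nat_lit 304) (nat_lit 1541030207) (nat_lit 76) (nat_lit 5926742114) (nat_lit 109) (nat_lit 5) (nat_lit 113) (nat_lit 5) (nat_lit 110) (nat_lit 4) (nat_lit 398) (nat_lit 316) (nat_lit 306)) (XT.lf (nat_lit 0) (nat_lit 6834093074) (nat_lit 228) (nat_lit 447482682) (nat_lit 304) (nat_lit 3189684734) (nat_lit 106) (nat_lit 5) (nat_lit 109) (nat_lit 5) (nat_lit 110) (nat_lit 4) (nat_lit 399) (nat_lit 316) (nat_lit 305)))) (XT.nd (nat_lit 156) (nat_lit 304) (nat_lit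 0) (XT.nd (nat_lit 78) (nat_lit 228) (nat_lit 0) (XT.lf (nat_lit 0) (nat_lit 1198736545) (nat_lit 304) (nat_lit 5867490297) (nat_lit 76) (nat_lit 3562387762) (nat_lit 102) (nat_lit 5) (nat_lit 106) (nat_lit 5) (nat_lit 103) (nat_lit 4) (nat_lit 400) (nat_lit 316) (nat_lit 304)) (XT.lf (nat_lit 0) (nat_lit 2561163335) (nat_lit 228) (nat_lit 3069355582) (nat_lit 304) (nat_lit 5159962858) (nat_lit 99) (nat_lit 5) (nat_lit 102) (nat_lit 5) (nat_lit 103) (nat_lit 4) (nat_lit 401) (nat_lit 316) (nat_lit 303))) (XT.nd (nat_lit 78) (nat_lit 76) (nat_lit 0) (XT.lf (nat_lit 0) (nat_lit 252352317) (nat_lit 228) (nat_lit 9925564695) (nat_lit 228) (nat_lit 779822067) (nat_lit 96) (nat_lit 4) (nat_lit 99) (nat_lit 5) (nat_lit 99) (nat_lit 4) (nat_lit 402) (nat_lit 316) (nat_lit 302)) (XT.lf (nat_lit 0) (nat_lit 3683847151) (nat_lit 304) (nat_lit 2187209447) (nat_lit 76) (nat_lit 5257146231) (nat_lit 95) (nat_lit 5) (nat_lit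 99) (nat_lit 5) (nat_lit 96) (nat_lit 4) (nat_lit 403) (nat_lit 316) (nat_lit 301)))))) (XT.nd (nat_lit 546) (nat_lit 912) (nat_lit 0) (XT.nd (nat_lit 234) (nat_lit 684) (nat_lit 0) (XT.nd (nat_lit 78) (nat_lit 456) (nat_lit 0) (XT.lf (nat_lit 0) (nat_lit 6561420909) (nat_lit 152) (nat_lit 1680638401) (nat_lit 228) (nat_lit 3062213153) (nat_lit 93) (nat_lit 5) (nat_lit 95) (nat_lit 5) (nat_lit 96) (nat_lit 4) (nat_lit 404) (nat_lit 316) (nat_lit 300)) (XT.nd (nat_lit 78) (nat_lit 152) (nat_lit 0) (XT.lf (nat_lit 0) (nat_lit 1423349460) (nat_lit 304) (nat_lit 7459925324) (nat_lit 76) (nat_lit 2601934584) (nat_lit 89) (nat_lit 5) (nat_lit 93) (nat_lit 5) (nat_lit 90) (nat_lit 4) (nat_lit 405) (nat_lit 316) (nat_lit 299)) (XT.lf (nat_lit 0) (nat_lit 1315493843) (nat_lit 152) (nat_lit 4658173371) (nat_lit 228) (nat_lit 5697257239) (nat_lit 87) (nat_lit 5) (nat_lit 89) (nat_lit 5) (nat_lit 90) (nat_lit 4) (nat_lit 406)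 (nat_lit 316) (nat_lit 298)))) (XT.nd (nat_lit 156) (nat_lit 380) (nat_lit 0) (XT.nd (nat_lit 78) (nat_lit 304) (nat_lit 0) (XT.lf (nat_lit 0) (nat_lit 10362237983) (nat_lit 152) (nat_lit 288779815) (nat_lit 228) (nat_lit 1211488863) (nat_lit 87) (nat_lit 5) (nat_lit 89) (nat_lit 5) (nat_lit 90) (nat_lit 4) (nat_lit 407) (nat_lit 316) (nat_lit 297)) (XT.lf (nat_lit 0) (nat_lit 3373129214) (nat_lit 304) (nat_lit 4506478826) (nat_lit 76) (nat_lit 4178332104) (nat_lit 83) (nat_lit 5) (nat_lit 87) (nat_lit 5) (nat_lit 84) (nat_lit 4) (nat_lit 408) (nat_lit 316) (nat_lit 296))) (XT.nd (nat_lit 78) (nat_lit 228) (nat_lit 0) (XT.lf (nat_lit 0) (nat_lit 4578230579) (nat_lit 152) (nat_lit 3472212360) (nat_lit 228) (nat_lit 4209059047) (nat_lit 81) (nat_lit 5) (nat_lit 83) (nat_lit 5) (nat_lit 84) (nat_lit 4) (nat_lit 409) (nat_lit 316) (nat_lit 295)) (XT.lf (nat_lit 0) (nat_lit 380845813) (nat_lit 228) (nat_lit 11035094050)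 (nat_lit 76) (nat_lit 1051433858) (nat_lit 78) (nat_lit 5) (nat_lit 81) (nat_lit 5) (nat_lit 79) (nat_lit 4) (nat_lit 410) (nat_lit 316) (nat_lit 294))))) (XT.nd (nat_lit 312) (nat_lit 380) (nat_lit 0) (XT.nd (nat_lit 156) (nat_lit 380) (nat_lit 0) (XT.nd (nat_lit 78) (nat_lit 152) (nat_lit 0) (XT.lf (nat_lit 0) (nat_lit 5054591075) (nat_lit 228) (nat_lit 1922816555) (nat_lit 76) (nat_lit 5701911050) (nat_lit 78) (nat_lit 5) (nat_lit 81) (nat_lit 5) (nat_lit 79) (nat_lit 4) (nat_lit 411) (nat_lit 316) (nat_lit 293)) (XT.lf (nat_lit 0) (nat_lit 7469223864) (nat_lit 152) (nat_lit 2391540160) (nat_lit 228) (nat_lit 3037100749) (nat_lit 76) (nat_lit 5) (nat_lit 78) (nat_lit 5) (nat_lit 79) (nat_lit 4) (nat_lit 412) (nat_lit 316) (nat_lit 292))) (XT.nd (nat_lit 78) (nat_lit 152) (nat_lit 0) (XT.lf (nat_lit 0) (nat_lit 1656288857) (nat_lit 228) (nat_lit 9163948707) (nat_lit 76) (nat_lit 2302219295) (nat_lit 73) (nat_lit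 5) (nat_lit 76) (nat_lit 5) (nat_lit 74) (nat_lit 4) (nat_lit 413) (nat_lit 316) (nat_lit 291)) (XT.lf (nat_lit 0) (nat_lit 195947266) (nat_lit 152) (nat_lit 6235443348) (nat_lit 228) (nat_lit 6921443849) (nat_lit 71) (nat_lit 5) (nat_lit 73) (nat_lit 5) (nat_lit 74) (nat_lit 4) (nat_lit 414) (nat_lit 316) (nat_lit 290)))) (XT.nd (nat_lit 156) (nat_lit 152) (nat_lit 0) (XT.nd (nat_lit 78) (nat_lit 228) (nat_lit 0) (XT.lf (nat_lit 0) (nat_lit 9885868548) (nat_lit 152) (nat_lit 1478411977) (nat_lit 228) (nat_lit 2225415033) (nat_lit 71) (nat_lit 5) (nat_lit 73) (nat_lit 5) (nat_lit 74) (nat_lit 4) (nat_lit 415) (nat_lit 316) (nat_lit 289)) (XT.lf (nat_lit 0) (nat_lit 2574744465) (nat_lit 228) (nat_lit 7878155891) (nat_lit 76) (nat_lit 3379590489) (nat_lit 68) (nat_lit 5) (nat_lit 71) (nat_lit 5) (nat_lit 69) (nat_lit 4) (nat_lit 416) (nat_lit 316) (nat_lit 288))) (XT.nd (nat_lit 78) (nat_lit 0) (nat_lit 0) (XT.lf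 (nat_lit 0) (nat_lit 1757485255) (nat_lit 152) (nat_lit 5709872714) (nat_lit 228) (nat_lit 6614763189) (nat_lit 66) (nat_lit 5) (nat_lit 68) (nat_lit 5) (nat_lit 69) (nat_lit 4) (nat_lit 417) (nat_lit 316) (nat_lit 287)) (XT.lf (nat_lit 0) (nat_lit 11708541812) (nat_lit 152) (nat_lit 802554510) (nat_lit 228) (nat_lit 1828020965) (nat_lit 66) (nat_lit 5) (nat_lit 68) (nat_lit 5) (nat_lit 69) (nat_lit 4) (nat_lit 418) (nat_lit 316) (nat_lit 286))))))))
noncomputable def xc48 : XT := (XT.nd (nat_lit 2184) (nat_lit 1292) (nat_lit 0) (XT.nd (nat_lit 1092) (nat_lit 988) (nat_lit 0) (XT.nd (nat_lit 546) (nat_lit 608) (nat_lit 0) (XT.nd (nat_lit 234) (nat_lit 532) (nat_lit 0) (XT.nd (nat_lit 78) (nat_lit 152) (nat_lit 0) (XT.lf (nat_lit 0) (nat_lit 3079846447) (nat_lit 228) (nat_lit 7309402458) (nat_lit 76) (nat_lit 4212544817) (nat_lit 63) (nat_lit 5) (nat_lit 66) (nat_lit 5) (nat_lit 64) (nat_lit 4) (nat_lit 419) (nat_lit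 316) (nat_lit 285)) (XT.nd (nat_lit 78) (nat_lit 0) (nat_lit 0) (XT.lf (nat_lit 0) (nat_lit 2586566967) (nat_lit 152) (nat_lit 5497853489) (nat_lit 228) (nat_lit 6787807338) (nat_lit 61) (nat_lit 5) (nat_lit 63) (nat_lit 5) (nat_lit 64) (nat_lit 4) (nat_lit 420) (nat_lit 316) (nat_lit 284)) (XT.lf (nat_lit 0) (nat_lit 12797539489) (nat_lit 152) (nat_lit 442850889) (nat_lit 228) (nat_lit 1910353232) (nat_lit 61) (nat_lit 5) (nat_lit 63) (nat_lit 5) (nat_lit 64) (nat_lit 4) (nat_lit 421) (nat_lit 316) (nat_lit 283)))) (XT.nd (nat_lit 156) (nat_lit 228) (nat_lit 0) (XT.nd (nat_lit 78) (nat_lit 76) (nat_lit 0) (XT.lf (nat_lit 0) (nat_lit 3103473731) (nat_lit 228) (nat_lit 7611262296) (nat_lit 76) (nat_lit 4720463045) (nat_lit 58) (nat_lit 5) (nat_lit 61) (nat_lit 5) (nat_lit 59) (nat_lit 4) (nat_lit 422) (nat_lit 316) (nat_lit 282)) (XT.lf (nat_lit 0) (nat_lit 2523268992) (nat_lit 76) (nat_lit 5687832313) (nat_lit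 152) (nat_lit 7517071931) (nat_lit 57) (nat_lit 5) (nat_lit 58) (nat_lit 5) (nat_lit 59) (nat_lit 4) (nat_lit 423) (nat_lit 316) (nat_lit 281))) (XT.nd (nat_lit 78) (nat_lit 228) (nat_lit 0) (XT.lf (nat_lit 0) (nat_lit 12989540407) (nat_lit 76) (nat_lit 489250528) (nat_lit 152) (nat_lit 2550946456) (nat_lit 57) (nat_lit 5) (nat_lit 58) (nat_lit 5) (nat_lit 59) (nat_lit 4) (nat_lit 424) (nat_lit 316) (nat_lit 280)) (XT.lf (nat_lit 0) (nat_lit 2563991391) (nat_lit 228) (nat_lit 8962988777) (nat_lit 76) (nat_lit 4811138346) (nat_lit 54) (nat_lit 5) (nat_lit 57) (nat_lit 5) (nat_lit 55) (nat_lit 4) (nat_lit 425) (nat_lit 316) (nat_lit 279))))) (XT.nd (nat_lit 234) (nat_lit 304) (nat_lit 0) (XT.nd (nat_lit 78) (nat_lit 228) (nat_lit 0) (XT.lf (nat_lit 0) (nat_lit 1380731803) (nat_lit 76) (nat_lit 6381084472) (nat_lit 152) (nat_lit 8893761048) (nat_lit 53) (nat_lit 5) (nat_lit 54) (nat_lit 5) (nat_lit 55) (nat_lit 4)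 (nat_lit 426) (nat_lit 316) (nat_lit 278)) (XT.nd (nat_lit 78) (nat_lit 228) (nat_lit 0) (XT.lf (nat_lit 0) (nat_lit 12093520297) (nat_lit 76) (nat_lit 1044945308) (nat_lit 152) (nat_lit 3843412720) (nat_lit 53) (nat_lit 5) (nat_lit 54) (nat_lit 5) (nat_lit 55) (nat_lit 4) (nat_lit 427) (nat_lit 316) (nat_lit 277)) (XT.lf (nat_lit 0) (nat_lit 1364187820) (nat_lit 228) (nat_lit 11573899283) (nat_lit 76) (nat_lit 4378526834) (nat_lit 50) (nat_lit 5) (nat_lit 53) (nat_lit 5) (nat_lit 51) (nat_lit 4) (nat_lit 428) (nat_lit 316) (nat_lit 276)))) (XT.nd (nat_lit 156) (nat_lit 228) (nat_lit 0) (XT.nd (nat_lit 78) (nat_lit 76) (nat_lit 0) (XT.lf (nat_lit 0) (nat_lit 6644887008) (nat_lit 228) (nat_lit 1038764347) (nat_lit 76) (nat_lit 9976779758) (nat_lit 50) (nat_lit 5) (nat_lit 53) (nat_lit 5) (nat_lit 51) (nat_lit 4) (nat_lit 429) (nat_lit 316) (nat_lit 275)) (XT.lf (nat_lit 0) (nat_lit 9886024591) (nat_lit 76) (nat_lit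 2228859556) (nat_lit 152) (nat_lit 5898756894) (nat_lit 49) (nat_lit 5) (nat_lit 50) (nat_lit 5) (nat_lit 51) (nat_lit 4) (nat_lit 430) (nat_lit 316) (nat_lit 274))) (XT.nd (nat_lit 78) (nat_lit 76) (nat_lit 0) (XT.lf (nat_lit 0) (nat_lit 2682860720) (nat_lit 152) (nat_lit 15071139135) (nat_lit 152) (nat_lit 623301269) (nat_lit 47) (nat_lit 4) (nat_lit 49) (nat_lit 5) (nat_lit 49) (nat_lit 4) (nat_lit 431) (nat_lit 316) (nat_lit 273)) (XT.lf (nat_lit 0) (nat_lit 4757650983) (nat_lit 228) (nat_lit 4953896077) (nat_lit 76) (nat_lit 9037707845) (nat_lit 46) (nat_lit 5) (nat_lit 49) (nat_lit 5) (nat_lit 47) (nat_lit 4) (nat_lit 432) (nat_lit 316) (nat_lit 272)))))) (XT.nd (nat_lit 546) (nat_lit 380) (nat_lit 0) (XT.nd (nat_lit 234) (nat_lit 304) (nat_lit 0) (XT.nd (nat_lit 78) (nat_lit 228) (nat_lit 0) (XT.lf (nat_lit 0) (nat_lit 6105695220) (nat_lit 76) (nat_lit 4178508322) (nat_lit 152) (nat_lit 8848081675) (nat_lit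 45) (nat_lit 5) (nat_lit 46) (nat_lit 5) (nat_lit 47) (nat_lit 4) (nat_lit 433) (nat_lit 316) (nat_lit 271)) (XT.nd (nat_lit 78) (nat_lit 228) (nat_lit 0) (XT.lf (nat_lit 0) (nat_lit 15979880399) (nat_lit 152) (nat_lit 2058122803) (nat_lit 0) (nat_lit 1488707329) (nat_lit 45) (nat_lit 5) (nat_lit 47) (nat_lit 4) (nat_lit 45) (nat_lit 4) (nat_lit 434) (nat_lit 316) (nat_lit 270)) (XT.lf (nat_lit 0) (nat_lit 1947246781) (nat_lit 228) (nat_lit 10684053684) (nat_lit 76) (nat_lit 7298986248) (nat_lit 42) (nat_lit 5) (nat_lit 45) (nat_lit 5) (nat_lit 43) (nat_lit 4) (nat_lit 435) (nat_lit 316) (nat_lit 269)))) (XT.nd (nat_lit 156) (nat_lit 228) (nat_lit 0) (XT.nd (nat_lit 78) (nat_lit 0) (nat_lit 0) (XT.lf (nat_lit 0) (nat_lit 446930040) (nat_lit 76) (nat_lit 7053286666) (nat_lit 152) (nat_lit 12845742796) (nat_lit 41) (nat_lit 5) (nat_lit 42) (nat_lit 5) (nat_lit 43) (nat_lit 4) (nat_lit 436) (nat_lit 316) (nat_lit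 268)) (XT.lf (nat_lit 0) (nat_lit 12018933427) (nat_lit 76) (nat_lit 1249473396) (nat_lit 152) (nat_lit 7504240206) (nat_lit 41) (nat_lit 5) (nat_lit 42) (nat_lit 5) (nat_lit 43) (nat_lit 4) (nat_lit 437) (nat_lit 316) (nat_lit 267))) (XT.nd (nat_lit 78) (nat_lit 76) (nat_lit 0) (XT.lf (nat_lit 0) (nat_lit 2621768685) (nat_lit 152) (nat_lit 16600506316) (nat_lit 152) (nat_lit 1989484594) (nat_lit 39) (nat_lit 4) (nat_lit 41) (nat_lit 5) (nat_lit 41) (nat_lit 4) (nat_lit 438) (nat_lit 316) (nat_lit 266)) (XT.lf (nat_lit 0) (nat_lit 3662386233) (nat_lit 228) (nat_lit 7302138766) (nat_lit 76) (nat_lit 10697148655) (nat_lit 38) (nat_lit 5) (nat_lit 41) (nat_lit 5) (nat_lit 39) (nat_lit 4) (nat_lit 439) (nat_lit 316) (nat_lit 265))))) (XT.nd (nat_lit 234) (nat_lit 228) (nat_lit 0) (XT.nd (nat_lit 78) (nat_lit 76) (nat_lit 0) (XT.lf (nat_lit 0) (nat_lit 4281420845) (nat_lit 76) (nat_lit 5147299263) (nat_lit 152) (nat_lit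 12696230383) (nat_lit 37) (nat_lit 5) (nat_lit 38) (nat_lit 5) (nat_lit 39) (nat_lit 4) (nat_lit 440) (nat_lit 316) (nat_lit 264)) (XT.nd (nat_lit 78) (nat_lit 76) (nat_lit 0) (XT.lf (nat_lit 0) (nat_lit 15394507490) (nat_lit 152) (nat_lit 6353507008) (nat_lit 0) (nat_lit 853320235) (nat_lit 37) (nat_lit 5) (nat_lit 39) (nat_lit 4) (nat_lit 37) (nat_lit 4) (nat_lit 441) (nat_lit 316) (nat_lit 263)) (XT.lf (nat_lit 0) (nat_lit 5432453816) (nat_lit 76) (nat_lit 16155511532) (nat_lit 76) (nat_lit 1502587169) (nat_lit 36) (nat_lit 4) (nat_lit 37) (nat_lit 5) (nat_lit 37) (nat_lit 4) (nat_lit 442) (nat_lit 316) (nat_lit 262)))) (XT.nd (nat_lit 156) (nat_lit 76) (nat_lit 0) (XT.nd (nat_lit 78) (nat_lit 76) (nat_lit 0) (XT.lf (nat_lit 0) (nat_lit 4297820638) (nat_lit 152) (nat_lit 6036831094) (nat_lit 76) (nat_lit 13258225762) (nat_lit 35) (nat_lit 5) (nat_lit 37) (nat_lit 5) (nat_lit 36) (nat_lit 4) (nat_lit 443) (nat_lit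 316) (nat_lit 261)) (XT.lf (nat_lit 0) (nat_lit 5933125482) (nat_lit 76) (nat_lit 4313108711) (nat_lit 152) (nat_lit 13863468566) (nat_lit 34) (nat_lit 5) (nat_lit 35) (nat_lit 5) (nat_lit 36) (nat_lit 4) (nat_lit 444) (nat_lit 316) (nat_lit 260))) (XT.nd (nat_lit 78) (nat_lit 76) (nat_lit 0) (XT.lf (nat_lit 0) (nat_lit 16400105591) (nat_lit 152) (nat_lit 6374009383) (nat_lit 0) (nat_lit 1867110238) (nat_lit 34) (nat_lit 5) (nat_lit 36) (nat_lit 4) (nat_lit 34) (nat_lit 4) (nat_lit 445) (nat_lit 316) (nat_lit 259)) (XT.lf (nat_lit 0) (nat_lit 5754184604) (nat_lit 76) (nat_lit 17031243484) (nat_lit 76) (nat_lit 2401862721) (nat_lit 33) (nat_lit 4) (nat_lit 34) (nat_lit 5) (nat_lit 34) (nat_lit 4) (nat_lit 446) (nat_lit 316) (nat_lit 258))))))) (XT.nd (nat_lit 1092) (nat_lit 608) (nat_lit 0) (XT.nd (nat_lit 546) (nat_lit 304) (nat_lit 0) (XT.nd (nat_lit 234) (nat_lit 228) (nat_lit 0) (XT.nd (nat_lit 78) (nat_lit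 76) (nat_lit 0) (XT.lf (nat_lit 0) (nat_lit 3555952043) (nat_lit 152) (nat_lit 7504376184) (nat_lit 76) (nat_lit 14687954499) (nat_lit 32) (nat_lit 5) (nat_lit 34) (nat_lit 5) (nat_lit 33) (nat_lit 4) (nat_lit 447) (nat_lit 316) (nat_lit 257)) (XT.nd (nat_lit 78) (nat_lit 0) (nat_lit 0) (XT.lf (nat_lit 0) (nat_lit 4756008189) (nat_lit 76) (nat_lit 4884296990) (nat_lit 152) (nat_lit 16685205731) (nat_lit 31) (nat_lit 5) (nat_lit 32) (nat_lit 5) (nat_lit 33) (nat_lit 4) (nat_lit 448) (nat_lit 316) (nat_lit 256)) (XT.lf (nat_lit 0) (nat_lit 15948382815) (nat_lit 152) (nat_lit 9490035012) (nat_lit 0) (nat_lit 1480404533) (nat_lit 31) (nat_lit 5) (nat_lit 33) (nat_lit 4) (nat_lit 31) (nat_lit 4) (nat_lit 449) (nat_lit 316) (nat_lit 255)))) (XT.nd (nat_lit 156) (nat_lit 76) (nat_lit 0) (XT.nd (nat_lit 78) (nat_lit 76) (nat_lit 0) (XT.lf (nat_lit 0) (nat_lit 2866835919) (nat_lit 76) (nat_lit 19606692905) (nat_lit 76)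 (nat_lit 5055571721) (nat_lit 30) (nat_lit 4) (nat_lit 31) (nat_lit 5) (nat_lit 31) (nat_lit 4) (nat_lit 450) (nat_lit 316) (nat_lit 254)) (XT.lf (nat_lit 0) (nat_lit 1065246600) (nat_lit 152) (nat_lit 12469391847) (nat_lit 76) (nat_lit 14621289650) (nat_lit 29) (nat_lit 5) (nat_lit 31) (nat_lit 5) (nat_lit 30) (nat_lit 4) (nat_lit 451) (nat_lit 316) (nat_lit 253))) (XT.nd (nat_lit 78) (nat_lit 76) (nat_lit 0) (XT.lf (nat_lit 0) (nat_lit 7221432313) (nat_lit 152) (nat_lit 50705009) (nat_lit 76) (nat_lit 21529322843) (nat_lit 29) (nat_lit 5) (nat_lit 31) (nat_lit 5) (nat_lit 30) (nat_lit 4) (nat_lit 452) (nat_lit 316) (nat_lit 252)) (XT.lf (nat_lit 0) (nat_lit 12905068789) (nat_lit 76) (nat_lit 735999648) (nat_lit 152) (nat_lit 15822928742) (nat_lit 28) (nat_lit 5) (nat_lit 29) (nat_lit 5) (nat_lit 30) (nat_lit 4) (nat_lit 453) (nat_lit 316) (nat_lit 251))))) (XT.nd (nat_lit 234) (nat_lit 152) (nat_lit 0) (XT.nd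 (nat_lit 78) (nat_lit 152) (nat_lit 0) (XT.lf (nat_lit 0) (nat_lit 20266251303) (nat_lit 152) (nat_lit 4040871843) (nat_lit 0) (nat_lit 5838900302) (nat_lit 28) (nat_lit 5) (nat_lit 30) (nat_lit 4) (nat_lit 28) (nat_lit 4) (nat_lit 454) (nat_lit 316) (nat_lit 250)) (XT.nd (nat_lit 78) (nat_lit 76) (nat_lit 0) (XT.lf (nat_lit 0) (nat_lit 8934949923) (nat_lit 76) (nat_lit 18204532741) (nat_lit 76) (nat_lit 3707550869) (nat_lit 27) (nat_lit 4) (nat_lit 28) (nat_lit 5) (nat_lit 28) (nat_lit 4) (nat_lit 455) (nat_lit 316) (nat_lit 249)) (XT.lf (nat_lit 0) (nat_lit 2595494764) (nat_lit 152) (nat_lit 9295730287) (nat_lit 76) (nat_lit 19677165463) (nat_lit 26) (nat_lit 5) (nat_lit 28) (nat_lit 5) (nat_lit 27) (nat_lit 4) (nat_lit 456) (nat_lit 316) (nat_lit 248)))) (XT.nd (nat_lit 156) (nat_lit 76) (nat_lit 0) (XT.nd (nat_lit 78) (nat_lit 0) (nat_lit 0) (XT.lf (nat_lit 0) (nat_lit 3651241561) (nat_lit 76) (nat_lit 5354403756)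 (nat_lit 152) (nat_lit 23304867349) (nat_lit 25) (nat_lit 5) (nat_lit 26) (nat_lit 5) (nat_lit 27) (nat_lit 4) (nat_lit 457) (nat_lit 316) (nat_lit 247)) (XT.lf (nat_lit 0) (nat_lit 15673659037) (nat_lit 152) (nat_lit 15991576961) (nat_lit 0) (nat_lit 1407697342) (nat_lit 25) (nat_lit 5) (nat_lit 27) (nat_lit 4) (nat_lit 25) (nat_lit 4) (nat_lit 458) (nat_lit 316) (nat_lit 246))) (XT.nd (nat_lit 78) (nat_lit 76) (nat_lit 0) (XT.lf (nat_lit 0) (nat_lit 22553474065) (nat_lit 152) (nat_lit 3076953140) (nat_lit 0) (nat_lit 8227448170) (nat_lit 25) (nat_lit 5) (nat_lit 27) (nat_lit 4) (nat_lit 25) (nat_lit 4) (nat_lit 459) (nat_lit 316) (nat_lit 245)) (XT.lf (nat_lit 0) (nat_lit 10349307039) (nat_lit 76) (nat_lit 19349808919) (nat_lit 76) (nat_lit 4965468265) (nat_lit 24) (nat_lit 4) (nat_lit 25) (nat_lit 5) (nat_lit 25) (nat_lit 4) (nat_lit 460) (nat_lit 316) (nat_lit 244)))))) (XT.nd (nat_lit 546) (nat_lit 304) (nat_lit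 0) (XT.nd (nat_lit 234) (nat_lit 152) (nat_lit 0) (XT.nd (nat_lit 78) (nat_lit 76) (nat_lit 0) (XT.lf (nat_lit 0) (nat_lit 1524480709) (nat_lit 152) (nat_lit 11346261085) (nat_lit 76) (nat_lit 22624562261) (nat_lit 23) (nat_lit 5) (nat_lit 25) (nat_lit 5) (nat_lit 24) (nat_lit 4) (nat_lit 461) (nat_lit 316) (nat_lit 243)) (XT.nd (nat_lit 78) (nat_lit 0) (nat_lit 0) (XT.lf (nat_lit 0) (nat_lit 1924695725) (nat_lit 76) (nat_lit 6164279596) (nat_lit 152) (nat_lit 28261107217) (nat_lit 22) (nat_lit 5) (nat_lit 23) (nat_lit 5) (nat_lit 24) (nat_lit 4) (nat_lit 462) (nat_lit 316) (nat_lit 242)) (XT.lf (nat_lit 0) (nat_lit 14934470188) (nat_lit 152) (nat_lit 21484568092) (nat_lit 0) (nat_lit 808945487) (nat_lit 22) (nat_lit 5) (nat_lit 24) (nat_lit 4) (nat_lit 22) (nat_lit 4) (nat_lit 463) (nat_lit 316) (nat_lit 241)))) (XT.nd (nat_lit 156) (nat_lit 76) (nat_lit 0) (XT.nd (nat_lit 78) (nat_lit 76) (nat_lit 0) (XT.lf (nat_lit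 0) (nat_lit 22008702402) (nat_lit 152) (nat_lit 8289944891) (nat_lit 0) (nat_lit 7832874878) (nat_lit 22) (nat_lit 5) (nat_lit 24) (nat_lit 4) (nat_lit 22) (nat_lit 4) (nat_lit 464) (nat_lit 316) (nat_lit 240)) (XT.lf (nat_lit 0) (nat_lit 5333339561) (nat_lit 76) (nat_lit 23976526266) (nat_lit 76) (nat_lit 9751861050) (nat_lit 21) (nat_lit 4) (nat_lit 22) (nat_lit 5) (nat_lit 22) (nat_lit 4) (nat_lit 465) (nat_lit 316) (nat_lit 239))) (XT.nd (nat_lit 78) (nat_lit 76) (nat_lit 0) (XT.lf (nat_lit 0) (nat_lit 19464706713) (nat_lit 76) (nat_lit 17412893312) (nat_lit 76) (nat_lit 3140812861) (nat_lit 21) (nat_lit 4) (nat_lit 22) (nat_lit 5) (nat_lit 22) (nat_lit 4) (nat_lit 466) (nat_lit 316) (nat_lit 238)) (XT.lf (nat_lit 0) (nat_lit 3561508254) (nat_lit 152) (nat_lit 7088252903) (nat_lit 76) (nat_lit 30354045699) (nat_lit 20) (nat_lit 5) (nat_lit 22) (nat_lit 5) (nat_lit 21) (nat_lit 4) (nat_lit 467) (nat_lit 316)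 (nat_lit 237))))) (XT.nd (nat_lit 312) (nat_lit 152) (nat_lit 0) (XT.nd (nat_lit 156) (nat_lit 76) (nat_lit 0) (XT.nd (nat_lit 78) (nat_lit 0) (nat_lit 0) (XT.lf (nat_lit 0) (nat_lit 6815881043) (nat_lit 76) (nat_lit 3616970734) (nat_lit 152) (nat_lit 31584046685) (nat_lit 19) (nat_lit 5) (nat_lit 20) (nat_lit 5) (nat_lit 21) (nat_lit 4) (nat_lit 468) (nat_lit 316) (nat_lit 236)) (XT.lf (nat_lit 0) (nat_lit 17583097955) (nat_lit 152) (nat_lit 21878606812) (nat_lit 0) (nat_lit 3596496282) (nat_lit 19) (nat_lit 5) (nat_lit 21) (nat_lit 4) (nat_lit 19) (nat_lit 4) (nat_lit 469) (nat_lit 316) (nat_lit 235))) (XT.nd (nat_lit 78) (nat_lit 76) (nat_lit 0) (XT.lf (nat_lit 0) (nat_lit 24950277818) (nat_lit 152) (nat_lit 8257617827) (nat_lit 0) (nat_lit 10922775347) (nat_lit 19) (nat_lit 5) (nat_lit 21) (nat_lit 4) (nat_lit 19) (nat_lit 4) (nat_lit 470) (nat_lit 316) (nat_lit 234)) (XT.lf (nat_lit 0) (nat_lit 5822232635)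 (nat_lit 76) (nat_lit 26739794401) (nat_lit 76) (nat_lit 12672582416) (nat_lit 18) (nat_lit 4) (nat_lit 19) (nat_lit 5) (nat_lit 19) (nat_lit 4) (nat_lit 471) (nat_lit 316) (nat_lit 233)))) (XT.nd (nat_lit 156) (nat_lit 76) (nat_lit 0) (XT.nd (nat_lit 78) (nat_lit 76) (nat_lit 0) (XT.lf (nat_lit 0) (nat_lit 20430992140) (nat_lit 76) (nat_lit 20022450217) (nat_lit 76) (nat_lit 5916685307) (nat_lit 18) (nat_lit 4) (nat_lit 19) (nat_lit 5) (nat_lit 19) (nat_lit 4) (nat_lit 472) (nat_lit 316) (nat_lit 232)) (XT.lf (nat_lit 0) (nat_lit 990110476) (nat_lit 152) (nat_lit 12133270667) (nat_lit 76) (nat_lit 34416974188) (nat_lit 17) (nat_lit 5) (nat_lit 19) (nat_lit 5) (nat_lit 18) (nat_lit 4) (nat_lit 473) (nat_lit 316) (nat_lit 231))) (XT.nd (nat_lit 78) (nat_lit 0) (nat_lit 0) (XT.lf (nat_lit 0) (nat_lit 2007599141) (nat_lit 76) (nat_lit 5966358447) (nat_lit 152) (nat_lit 40770312721) (nat_lit 16) (nat_lit 5) (nat_lit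 17) (nat_lit 5) (nat_lit 18) (nat_lit 4) (nat_lit 474) (nat_lit 316) (nat_lit 230)) (XT.lf (nat_lit 0) (nat_lit 15274075402) (nat_lit 152) (nat_lit 33233742549) (nat_lit 0) (nat_lit 1473283022) (nat_lit 16) (nat_lit 5) (nat_lit 18) (nat_lit 4) (nat_lit 16) (nat_lit 4) (nat_lit 475) (nat_lit 316) (nat_lit 229))))))))
noncomputable def xc49 : XT := (XT.nd (nat_lit 47034) (nat_lit 0) (nat_lit 3344) (XT.nd (nat_lit 1092) (nat_lit 76) (nat_lit 0) (XT.nd (nat_lit 546) (nat_lit 152) (nat_lit 0) (XT.nd (nat_lit 234) (nat_lit 152) (nat_lit 0) (XT.nd (nat_lit 78) (nat_lit 76) (nat_lit 0) (XT.lf (nat_lit 0) (nat_lit 22822668275) (nat_lit 152) (nat_lit 19442865203) (nat_lit 0) (nat_lit 8988619802) (nat_lit 16) (nat_lit 5) (nat_lit 18) (nat_lit 4) (nat_lit 16) (nat_lit 4) (nat_lit 476) (nat_lit 316) (nat_lit 228)) (XT.nd (nat_lit 78) (nat_lit 76) (nat_lit 0) (XT.lf (nat_lit 0) (nat_lit 30568979777) (nat_lit 152) (nat_lit 5294636560)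 (nat_lit 0) (nat_lit 16702643837) (nat_lit 16) (nat_lit 5) (nat_lit 18) (nat_lit 4) (nat_lit 16) (nat_lit 4) (nat_lit 477) (nat_lit 316) (nat_lit 227)) (XT.lf (nat_lit 0) (nat_lit 9406867781) (nat_lit 76) (nat_lit 29203335318) (nat_lit 76) (nat_lit 15305652322) (nat_lit 15) (nat_lit 4) (nat_lit 16) (nat_lit 5) (nat_lit 16) (nat_lit 4) (nat_lit 478) (nat_lit 316) (nat_lit 226)))) (XT.nd (nat_lit 156) (nat_lit 152) (nat_lit 0) (XT.nd (nat_lit 78) (nat_lit 0) (nat_lit 0) (XT.lf (nat_lit 0) (nat_lit 24603755676) (nat_lit 76) (nat_lit 22314762511) (nat_lit 76) (nat_lit 8386645480) (nat_lit 15) (nat_lit 4) (nat_lit 16) (nat_lit 5) (nat_lit 16) (nat_lit 4) (nat_lit 479) (nat_lit 316) (nat_lit 225)) (XT.lf (nat_lit 0) (nat_lit 40203932311) (nat_lit 76) (nat_lit 15245344223) (nat_lit 76) (nat_lit 1287679585) (nat_lit 15) (nat_lit 4) (nat_lit 16) (nat_lit 5) (nat_lit 16) (nat_lit 4) (nat_lit 480) (nat_lit 316) (nat_lit 224)))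 (XT.nd (nat_lit 78) (nat_lit 76) (nat_lit 0) (XT.lf (nat_lit 0) (nat_lit 5880416523) (nat_lit 152) (nat_lit 2049106093) (nat_lit 76) (nat_lit 50281231707) (nat_lit 14) (nat_lit 5) (nat_lit 16) (nat_lit 5) (nat_lit 15) (nat_lit 4) (nat_lit 481) (nat_lit 316) (nat_lit 223)) (XT.lf (nat_lit 0) (nat_lit 13061347806) (nat_lit 76) (nat_lit 276361994) (nat_lit 152) (nat_lit 46387673839) (nat_lit 13) (nat_lit 5) (nat_lit 14) (nat_lit 5) (nat_lit 15) (nat_lit 4) (nat_lit 482) (nat_lit 316) (nat_lit 222))))) (XT.nd (nat_lit 234) (nat_lit 152) (nat_lit 0) (XT.nd (nat_lit 78) (nat_lit 0) (nat_lit 0) (XT.lf (nat_lit 0) (nat_lit 21087249846) (nat_lit 152) (nat_lit 32741172071) (nat_lit 0) (nat_lit 7454974763) (nat_lit 13) (nat_lit 5) (nat_lit 15) (nat_lit 4) (nat_lit 13) (nat_lit 4) (nat_lit 483) (nat_lit 316) (nat_lit 221)) (XT.nd (nat_lit 78) (nat_lit 0) (nat_lit 0) (XT.lf (nat_lit 0) (nat_lit 29047268505) (nat_lit 152) (nat_lit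 18452037106) (nat_lit 0) (nat_lit 15389505397) (nat_lit 13) (nat_lit 5) (nat_lit 15) (nat_lit 4) (nat_lit 13) (nat_lit 4) (nat_lit 484) (nat_lit 316) (nat_lit 220)) (XT.lf (nat_lit 0) (nat_lit 37222064572) (nat_lit 152) (nat_lit 3781488725) (nat_lit 0) (nat_lit 23539555809) (nat_lit 13) (nat_lit 5) (nat_lit 15) (nat_lit 4) (nat_lit 13) (nat_lit 4) (nat_lit 485) (nat_lit 316) (nat_lit 219)))) (XT.nd (nat_lit 156) (nat_lit 76) (nat_lit 0) (XT.nd (nat_lit 78) (nat_lit 0) (nat_lit 0) (XT.lf (nat_lit 0) (nat_lit 11507851632) (nat_lit 76) (nat_lit 34221549951) (nat_lit 76) (nat_lit 20515016279) (nat_lit 12) (nat_lit 4) (nat_lit 13) (nat_lit 5) (nat_lit 13) (nat_lit 4) (nat_lit 486) (nat_lit 316) (nat_lit 218)) (XT.lf (nat_lit 0) (nat_lit 27287954745) (nat_lit 76) (nat_lit 27219108714) (nat_lit 76) (nat_lit 13489249888) (nat_lit 12) (nat_lit 4) (nat_lit 13) (nat_lit 5) (nat_lit 13) (nat_lit 4) (nat_lit 487) (nat_lit 316)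 (nat_lit 217))) (XT.nd (nat_lit 78) (nat_lit 76) (nat_lit 0) (XT.lf (nat_lit 0) (nat_lit 43497350015) (nat_lit 76) (nat_lit 20028296570) (nat_lit 76) (nat_lit 6275791964) (nat_lit 12) (nat_lit 4) (nat_lit 13) (nat_lit 5) (nat_lit 13) (nat_lit 4) (nat_lit 488) (nat_lit 316) (nat_lit 216)) (XT.lf (nat_lit 0) (nat_lit 1109577743) (nat_lit 152) (nat_lit 11522047981) (nat_lit 76) (nat_lit 59029418687) (nat_lit 11) (nat_lit 5) (nat_lit 13) (nat_lit 5) (nat_lit 12) (nat_lit 4) (nat_lit 489) (nat_lit 316) (nat_lit 215)))))) (XT.nd (nat_lit 45318) (nat_lit 0) (nat_lit 7828) (XT.nd (nat_lit 45006) (nat_lit 0) (nat_lit 9728) (XT.nd (nat_lit 78) (nat_lit 0) (nat_lit 0) (XT.lf (nat_lit 0) (nat_lit 3670946749) (nat_lit 76) (nat_lit 4933380033) (nat_lit 152) (nat_lit 64969829449) (nat_lit 10) (nat_lit 5) (nat_lit 11) (nat_lit 5) (nat_lit 12) (nat_lit 4) (nat_lit 490) (nat_lit 316) (nat_lit 214)) (XT.nd (nat_lit 78) (nat_lit 0)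 (nat_lit 0) (XT.lf (nat_lit 0) (nat_lit 16448910642) (nat_lit 152) (nat_lit 56057227495) (nat_lit 0) (nat_lit 3034774023) (nat_lit 10) (nat_lit 5) (nat_lit 12) (nat_lit 4) (nat_lit 10) (nat_lit 4) (nat_lit 491) (nat_lit 316) (nat_lit 213)) (XT.lf (nat_lit 0) (nat_lit 24556990653) (nat_lit 152) (nat_lit 41885516280) (nat_lit 0) (nat_lit 11123319586) (nat_lit 10) (nat_lit 5) (nat_lit 12) (nat_lit 4) (nat_lit 10) (nat_lit 4) (nat_lit 492) (nat_lit 316) (nat_lit 212)))) (XT.nd (nat_lit 156) (nat_lit 760) (nat_lit 0) (XT.nd (nat_lit 78) (nat_lit 380) (nat_lit 0) (XT.lf (nat_lit 0) (nat_lit 4270724113) (nat_lit 380) (nat_lit 62615200) (nat_lit 380) (nat_lit 62615200) (nat_lit 153) (nat_lit 4) (nat_lit 158) (nat_lit 5) (nat_lit 158) (nat_lit 4) (nat_lit 386) (nat_lit 317) (nat_lit 317)) (XT.lf (nat_lit 0) (nat_lit 4050794356) (nat_lit 380) (nat_lit 1764406544) (nat_lit 0) (nat_lit 3084042914) (nat_lit 148) (nat_lit 5)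 (nat_lit 153) (nat_lit 4) (nat_lit 148) (nat_lit 4) (nat_lit 387) (nat_lit 317) (nat_lit 316))) (XT.nd (nat_lit 78) (nat_lit 380) (nat_lit 0) (XT.lf (nat_lit 0) (nat_lit 5699905771) (nat_lit 380) (nat_lit 2608234279) (nat_lit 380) (nat_lit 702889205) (nat_lit 143) (nat_lit 4) (nat_lit 148) (nat_lit 5) (nat_lit 148) (nat_lit 4) (nat_lit 388) (nat_lit 317) (nat_lit 315)) (XT.lf (nat_lit 0) (nat_lit 3463439220) (nat_lit 380) (nat_lit 4933868168) (nat_lit 0) (nat_lit 728875116) (nat_lit 138) (nat_lit 5) (nat_lit 143) (nat_lit 4) (nat_lit 138) (nat_lit 4) (nat_lit 389) (nat_lit 317) (nat_lit 314))))) (XT.nd (nat_lit 312) (nat_lit 836) (nat_lit 0) (XT.nd (nat_lit 156) (nat_lit 380) (nat_lit 0) (XT.nd (nat_lit 78) (nat_lit 380) (nat_lit 0) (XT.lf (nat_lit 0) (nat_lit 2615294771) (nat_lit 304) (nat_lit 5111615537) (nat_lit 304) (nat_lit 1518105298) (nat_lit 134) (nat_lit 4) (nat_lit 138) (nat_lit 5) (nat_lit 138) (nat_lit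 4) (nat_lit 390) (nat_lit 317) (nat_lit 313)) (XT.lf (nat_lit 0) (nat_lit 970054328) (nat_lit 304) (nat_lit 1688809145) (nat_lit 380) (nat_lit 6708927958) (nat_lit 129) (nat_lit 5) (nat_lit 133) (nat_lit 5) (nat_lit 134) (nat_lit 4) (nat_lit 391) (nat_lit 317) (nat_lit 312))) (XT.nd (nat_lit 78) (nat_lit 380) (nat_lit 0) (XT.lf (nat_lit 0) (nat_lit 6918887009) (nat_lit 380) (nat_lit 740939780) (nat_lit 0) (nat_lit 1834345614) (nat_lit 129) (nat_lit 5) (nat_lit 134) (nat_lit 4) (nat_lit 129) (nat_lit 4) (nat_lit 392) (nat_lit 317) (nat_lit 311)) (XT.lf (nat_lit 0) (nat_lit 1640439631) (nat_lit 380) (nat_lit 2517611457) (nat_lit 76) (nat_lit 5466100849) (nat_lit 124) (nat_lit 5) (nat_lit 129) (nat_lit 5) (nat_lit 125) (nat_lit 4) (nat_lit 393) (nat_lit 317) (nat_lit 310)))) (XT.nd (nat_lit 156) (nat_lit 228) (nat_lit 0) (XT.nd (nat_lit 78) (nat_lit 380) (nat_lit 0) (XT.lf (nat_lit 0) (nat_lit 5381061155) (nat_lit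 228) (nat_lit 515342561) (nat_lit 304) (nat_lit 3861915159) (nat_lit 121) (nat_lit 5) (nat_lit 124) (nat_lit 5) (nat_lit 125) (nat_lit 4) (nat_lit 394) (nat_lit 317) (nat_lit 309)) (XT.lf (nat_lit 0) (nat_lit 374169410) (nat_lit 380) (nat_lit 6335574208) (nat_lit 76) (nat_lit 3186730786) (nat_lit 116) (nat_lit 5) (nat_lit 121) (nat_lit 5) (nat_lit 117) (nat_lit 4) (nat_lit 395) (nat_lit 317) (nat_lit 308))) (XT.nd (nat_lit 78) (nat_lit 0) (nat_lit 0) (XT.lf (nat_lit 0) (nat_lit 1631036977) (nat_lit 228) (nat_lit 3001591149) (nat_lit 304) (nat_lit 5405829199) (nat_lit 113) (nat_lit 5) (nat_lit 116) (nat_lit 5) (nat_lit 117) (nat_lit 4) (nat_lit 396) (nat_lit 317) (nat_lit 307)) (XT.lf (nat_lit 0) (nat_lit 8999586484) (nat_lit 304) (nat_lit 372051972) (nat_lit 0) (nat_lit 813655600) (nat_lit 113) (nat_lit 5) (nat_lit 117) (nat_lit 4) (nat_lit 113) (nat_lit 4) (nat_lit 397) (nat_lit 317) (nat_lit 306))))))) (XT.nd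 (nat_lit 1092) (nat_lit 1824) (nat_lit 0) (XT.nd (nat_lit 546) (nat_lit 1140) (nat_lit 0) (XT.nd (nat_lit 234) (nat_lit 684) (nat_lit 0) (XT.nd (nat_lit 78) (nat_lit 532) (nat_lit 0) (XT.lf (nat_lit 0) (nat_lit 3115947162) (nat_lit 304) (nat_lit 2481079106) (nat_lit 76) (nat_lit 4738115423) (nat_lit 109) (nat_lit 5) (nat_lit 113) (nat_lit 5) (nat_lit 110) (nat_lit 4) (nat_lit 398) (nat_lit 317) (nat_lit 305)) (XT.nd (nat_lit 78) (nat_lit 304) (nat_lit 0) (XT.lf (nat_lit 0) (nat_lit 5803296657) (nat_lit 228) (nat_lit 1690395973) (nat_lit 304) (nat_lit 2996329038) (nat_lit 106) (nat_lit 5) (nat_lit 109) (nat_lit 5) (nat_lit 110) (nat_lit 4) (nat_lit 399) (nat_lit 317) (nat_lit 304)) (XT.lf (nat_lit 0) (nat_lit 1321485323) (nat_lit 304) (nat_lit 7020103147) (nat_lit 76) (nat_lit 2307743663) (nat_lit 102) (nat_lit 5) (nat_lit 106) (nat_lit 5) (nat_lit 103) (nat_lit 4) (nat_lit 400) (nat_lit 317) (nat_lit 303)))) (XT.nd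 (nat_lit 156) (nat_lit 456) (nat_lit 0) (XT.nd (nat_lit 78) (nat_lit 0) (nat_lit 0) (XT.lf (nat_lit 0) (nat_lit 1313041739) (nat_lit 228) (nat_lit 4385029655) (nat_lit 304) (nat_lit 5114790689) (nat_lit 99) (nat_lit 5) (nat_lit 102) (nat_lit 5) (nat_lit 103) (nat_lit 4) (nat_lit 401) (nat_lit 317) (nat_lit 302)) (XT.lf (nat_lit 0) (nat_lit 9897060899) (nat_lit 228) (nat_lit 293269605) (nat_lit 304) (nat_lit 791449740) (nat_lit 99) (nat_lit 5) (nat_lit 102) (nat_lit 5) (nat_lit 103) (nat_lit 4) (nat_lit 402) (nat_lit 317) (nat_lit 301))) (XT.nd (nat_lit 78) (nat_lit 152) (nat_lit 0) (XT.lf (nat_lit 0) (nat_lit 3616145682) (nat_lit 304) (nat_lit 3638822868) (nat_lit 76) (nat_lit 3898974122) (nat_lit 95) (nat_lit 5) (nat_lit 99) (nat_lit 5) (nat_lit 96) (nat_lit 4) (nat_lit 403) (nat_lit 317) (nat_lit 300)) (XT.lf (nat_lit 0) (nat_lit 5009990120) (nat_lit 152) (nat_lit 3107957516) (nat_lit 228) (nat_lit 3213763098)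 (nat_lit 93) (nat_lit 5) (nat_lit 95) (nat_lit 5) (nat_lit 96) (nat_lit 4) (nat_lit 404) (nat_lit 317) (nat_lit 299))))) (XT.nd (nat_lit 234) (nat_lit 684) (nat_lit 0) (XT.nd (nat_lit 78) (nat_lit 152) (nat_lit 0) (XT.lf (nat_lit 0) (nat_lit 1203080378) (nat_lit 304) (nat_lit 9154854823) (nat_lit 76) (nat_lit 1156912203) (nat_lit 89) (nat_lit 5) (nat_lit 93) (nat_lit 5) (nat_lit 90) (nat_lit 4) (nat_lit 405) (nat_lit 317) (nat_lit 298)) (XT.nd (nat_lit 78) (nat_lit 152) (nat_lit 0) (XT.lf (nat_lit 0) (nat_lit 5699661742) (nat_lit 304) (nat_lit 475072201) (nat_lit 76) (nat_lit 5527446238) (nat_lit 89) (nat_lit 5) (nat_lit 93) (nat_lit 5) (nat_lit 90) (nat_lit 4) (nat_lit 406) (nat_lit 317) (nat_lit 297)) (XT.lf (nat_lit 0) (nat_lit 8492936493) (nat_lit 152) (nat_lit 1838858063) (nat_lit 228) (nat_lit 1563329805) (nat_lit 87) (nat_lit 5) (nat_lit 89) (nat_lit 5) (nat_lit 90) (nat_lit 4) (nat_lit 407) (nat_lit 317)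 (nat_lit 296)))) (XT.nd (nat_lit 156) (nat_lit 228) (nat_lit 0) (XT.nd (nat_lit 78) (nat_lit 152) (nat_lit 0) (XT.lf (nat_lit 0) (nat_lit 2953703118) (nat_lit 304) (nat_lit 6531313773) (nat_lit 76) (nat_lit 2607881069) (nat_lit 83) (nat_lit 5) (nat_lit 87) (nat_lit 5) (nat_lit 84) (nat_lit 4) (nat_lit 408) (nat_lit 317) (nat_lit 295)) (XT.lf (nat_lit 0) (nat_lit 2443433417) (nat_lit 152) (nat_lit 5127528807) (nat_lit 228) (nat_lit 4725304194) (nat_lit 81) (nat_lit 5) (nat_lit 83) (nat_lit 5) (nat_lit 84) (nat_lit 4) (nat_lit 409) (nat_lit 317) (nat_lit 294))) (XT.nd (nat_lit 78) (nat_lit 228) (nat_lit 0) (XT.lf (nat_lit 0) (nat_lit 11684009541) (nat_lit 152) (nat_lit 629447398) (nat_lit 228) (nat_lit 192687262) (nat_lit 81) (nat_lit 5) (nat_lit 83) (nat_lit 5) (nat_lit 84) (nat_lit 4) (nat_lit 410) (nat_lit 317) (nat_lit 293)) (XT.lf (nat_lit 0) (nat_lit 4431423786) (nat_lit 228) (nat_lit 4293271300) (nat_lit 76)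 (nat_lit 3995056023) (nat_lit 78) (nat_lit 5) (nat_lit 81) (nat_lit 5) (nat_lit 79) (nat_lit 4) (nat_lit 411) (nat_lit 317) (nat_lit 292)))))) (XT.nd (nat_lit 546) (nat_lit 912) (nat_lit 0) (XT.nd (nat_lit 234) (nat_lit 532) (nat_lit 0) (XT.nd (nat_lit 78) (nat_lit 228) (nat_lit 0) (XT.lf (nat_lit 0) (nat_lit 4983616748) (nat_lit 152) (nat_lit 4192025010) (nat_lit 228) (nat_lit 3764518515) (nat_lit 76) (nat_lit 5) (nat_lit 78) (nat_lit 5) (nat_lit 79) (nat_lit 4) (nat_lit 412) (nat_lit 317) (nat_lit 291)) (XT.nd (nat_lit 78) (nat_lit 0) (nat_lit 0) (XT.lf (nat_lit 0) (nat_lit 861827862) (nat_lit 228) (nat_lit 11829618985) (nat_lit 76) (nat_lit 475956584) (nat_lit 73) (nat_lit 5) (nat_lit 76) (nat_lit 5) (nat_lit 74) (nat_lit 4) (nat_lit 413) (nat_lit 317) (nat_lit 290)) (XT.lf (nat_lit 0) (nat_lit 5597277445) (nat_lit 228) (nat_lit 2540501570) (nat_lit 76) (nat_lit 5261195633) (nat_lit 73) (nat_lit 5) (nat_lit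 76) (nat_lit 5) (nat_lit 74) (nat_lit 4) (nat_lit 414) (nat_lit 317) (nat_lit 289)))) (XT.nd (nat_lit 156) (nat_lit 152) (nat_lit 0) (XT.nd (nat_lit 78) (nat_lit 228) (nat_lit 0) (XT.lf (nat_lit 0) (nat_lit 7032560247) (nat_lit 152) (nat_lit 3435394375) (nat_lit 228) (nat_lit 3169751432) (nat_lit 71) (nat_lit 5) (nat_lit 73) (nat_lit 5) (nat_lit 74) (nat_lit 4) (nat_lit 415) (nat_lit 317) (nat_lit 288)) (XT.lf (nat_lit 0) (nat_lit 1563797531) (nat_lit 228) (nat_lit 10925144245) (nat_lit 76) (nat_lit 1394386732) (nat_lit 68) (nat_lit 5) (nat_lit 71) (nat_lit 5) (nat_lit 69) (nat_lit 4) (nat_lit 416) (nat_lit 317) (nat_lit 287))) (XT.nd (nat_lit 78) (nat_lit 152) (nat_lit 0) (XT.lf (nat_lit 0) (nat_lit 6403108955) (nat_lit 228) (nat_lit 1389074353) (nat_lit 76) (nat_lit 6342378171) (nat_lit 68) (nat_lit 5) (nat_lit 71) (nat_lit 5) (nat_lit 69) (nat_lit 4) (nat_lit 417) (nat_lit 317) (nat_lit 286)) (XT.lf (nat_lit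 0) (nat_lit 8469700477) (nat_lit 152) (nat_lit 2927559501) (nat_lit 228) (nat_lit 2995788740) (nat_lit 66) (nat_lit 5) (nat_lit 68) (nat_lit 5) (nat_lit 69) (nat_lit 4) (nat_lit 418) (nat_lit 317) (nat_lit 285))))) (XT.nd (nat_lit 312) (nat_lit 304) (nat_lit 0) (XT.nd (nat_lit 156) (nat_lit 380) (nat_lit 0) (XT.nd (nat_lit 78) (nat_lit 0) (nat_lit 0) (XT.lf (nat_lit 0) (nat_lit 1845667802) (nat_lit 228) (nat_lit 10756160930) (nat_lit 76) (nat_lit 2056912416) (nat_lit 63) (nat_lit 5) (nat_lit 66) (nat_lit 5) (nat_lit 64) (nat_lit 4) (nat_lit 419) (nat_lit 317) (nat_lit 284)) (XT.lf (nat_lit 0) (nat_lit 6790261967) (nat_lit 228) (nat_lit 974281197) (nat_lit 76) (nat_lit 7166434646) (nat_lit 63) (nat_lit 5) (nat_lit 66) (nat_lit 5) (nat_lit 64) (nat_lit 4) (nat_lit 420) (nat_lit 317) (nat_lit 283))) (XT.nd (nat_lit 78) (nat_lit 228) (nat_lit 0) (XT.lf (nat_lit 0) (nat_lit 9154308455) (nat_lit 152) (nat_lit 2747672753)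 (nat_lit 228) (nat_lit 3308843041) (nat_lit 61) (nat_lit 5) (nat_lit 63) (nat_lit 5) (nat_lit 64) (nat_lit 4) (nat_lit 421) (nat_lit 317) (nat_lit 282)) (XT.lf (nat_lit 0) (nat_lit 1638547312) (nat_lit 228) (nat_lit 11477326305) (nat_lit 76) (nat_lit 2382624095) (nat_lit 58) (nat_lit 5) (nat_lit 61) (nat_lit 5) (nat_lit 59) (nat_lit 4) (nat_lit 422) (nat_lit 317) (nat_lit 281)))) (XT.nd (nat_lit 156) (nat_lit 228) (nat_lit 0) (XT.nd (nat_lit 78) (nat_lit 76) (nat_lit 0) (XT.lf (nat_lit 0) (nat_lit 6688031940) (nat_lit 228) (nat_lit 1454011042) (nat_lit 76) (nat_lit 7651176022) (nat_lit 58) (nat_lit 5) (nat_lit 61) (nat_lit 5) (nat_lit 59) (nat_lit 4) (nat_lit 423) (nat_lit 317) (nat_lit 280)) (XT.lf (nat_lit 0) (nat_lit 8921952369) (nat_lit 76) (nat_lit 2986023541) (nat_lit 152) (nat_lit 4188242374) (nat_lit 57) (nat_lit 5) (nat_lit 58) (nat_lit 5) (nat_lit 59) (nat_lit 4) (nat_lit 424) (nat_lit 317) (nat_lit 279)))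 (XT.nd (nat_lit 78) (nat_lit 0) (nat_lit 0) (XT.lf (nat_lit 0) (nat_lit 860013575) (nat_lit 228) (nat_lit 13269064269) (nat_lit 76) (nat_lit 2278955263) (nat_lit 54) (nat_lit 5) (nat_lit 57) (nat_lit 5) (nat_lit 55) (nat_lit 4) (nat_lit 425) (nat_lit 317) (nat_lit 278)) (XT.lf (nat_lit 0) (nat_lit 6011848008) (nat_lit 228) (nat_lit 3012650015) (nat_lit 76) (nat_lit 7702376129) (nat_lit 54) (nat_lit 5) (nat_lit 57) (nat_lit 5) (nat_lit 55) (nat_lit 4) (nat_lit 426) (nat_lit 317) (nat_lit 277))))))))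
noncomputable def xc50 : XT := (XT.nd (nat_lit 2262) (nat_lit 1064) (nat_lit 0) (XT.nd (nat_lit 1092) (nat_lit 836) (nat_lit 0) (XT.nd (nat_lit 546) (nat_lit 532) (nat_lit 0) (XT.nd (nat_lit 234) (nat_lit 380) (nat_lit 0) (XT.nd (nat_lit 78) (nat_lit 228) (nat_lit 0) (XT.lf (nat_lit 0) (nat_lit 7580409355) (nat_lit 76) (nat_lit 3746212577) (nat_lit 152) (nat_lit 5728411933) (nat_lit 53) (nat_lit 5) (nat_lit 54) (nat_lit 5) (nat_lit 55) (nat_lit 4) (nat_lit 427) (nat_lit 317) (nat_lit 276)) (XT.nd (nat_lit 78) (nat_lit 76) (nat_lit 0) (XT.lf (nat_lit 0) (nat_lit 1045543631) (nat_lit 152) (nat_lit 15748061262) (nat_lit 152) (nat_lit 599655326) (nat_lit 51) (nat_lit 4) (nat_lit 53) (nat_lit 5) (nat_lit 53) (nat_lit 4) (nat_lit 428) (nat_lit 317) (nat_lit 275)) (XT.lf (nat_lit 0) (nat_lit 4661142567) (nat_lit 228) (nat_lit 5865591779) (nat_lit 76) (nat_lit 7211466298) (nat_lit 50) (nat_lit 5) (nat_lit 53) (nat_lit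 5) (nat_lit 51) (nat_lit 4) (nat_lit 429) (nat_lit 317) (nat_lit 274)))) (XT.nd (nat_lit 156) (nat_lit 304) (nat_lit 0) (XT.nd (nat_lit 78) (nat_lit 0) (nat_lit 0) (XT.lf (nat_lit 0) (nat_lit 4904935667) (nat_lit 76) (nat_lit 5147640506) (nat_lit 152) (nat_lit 8041193482) (nat_lit 49) (nat_lit 5) (nat_lit 50) (nat_lit 5) (nat_lit 51) (nat_lit 4) (nat_lit 430) (nat_lit 317) (nat_lit 273)) (XT.lf (nat_lit 0) (nat_lit 15607262155) (nat_lit 152) (nat_lit 2459815544) (nat_lit 0) (nat_lit 392887043) (nat_lit 49) (nat_lit 5) (nat_lit 51) (nat_lit 4) (nat_lit 49) (nat_lit 4) (nat_lit 431) (nat_lit 317) (nat_lit 272))) (XT.nd (nat_lit 78) (nat_lit 76) (nat_lit 0) (XT.lf (nat_lit 0) (nat_lit 2516860676) (nat_lit 228) (nat_lit 10264458335) (nat_lit 76) (nat_lit 6052891192) (nat_lit 46) (nat_lit 5) (nat_lit 49) (nat_lit 5) (nat_lit 47) (nat_lit 4) (nat_lit 432) (nat_lit 317) (nat_lit 271)) (XT.lf (nat_lit 0) (nat_lit 632790382)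 (nat_lit 76) (nat_lit 7328365371) (nat_lit 152) (nat_lit 11258554420) (nat_lit 45) (nat_lit 5) (nat_lit 46) (nat_lit 5) (nat_lit 47) (nat_lit 4) (nat_lit 433) (nat_lit 317) (nat_lit 270))))) (XT.nd (nat_lit 234) (nat_lit 304) (nat_lit 0) (XT.nd (nat_lit 78) (nat_lit 228) (nat_lit 0) (XT.lf (nat_lit 0) (nat_lit 11955713994) (nat_lit 76) (nat_lit 1657209710) (nat_lit 152) (nat_lit 6002530925) (nat_lit 45) (nat_lit 5) (nat_lit 46) (nat_lit 5) (nat_lit 47) (nat_lit 4) (nat_lit 434) (nat_lit 317) (nat_lit 269)) (XT.nd (nat_lit 78) (nat_lit 76) (nat_lit 0) (XT.lf (nat_lit 0) (nat_lit 3513951722) (nat_lit 152) (nat_lit 15936030829) (nat_lit 152) (nat_lit 572620432) (nat_lit 43) (nat_lit 4) (nat_lit 45) (nat_lit 5) (nat_lit 45) (nat_lit 4) (nat_lit 435) (nat_lit 317) (nat_lit 268)) (XT.lf (nat_lit 0) (nat_lit 4958566608) (nat_lit 228) (nat_lit 5434942730) (nat_lit 76) (nat_lit 10045921986) (nat_lit 42) (nat_lit 5) (nat_lit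 45) (nat_lit 5) (nat_lit 43) (nat_lit 4) (nat_lit 436) (nat_lit 317) (nat_lit 267)))) (XT.nd (nat_lit 156) (nat_lit 228) (nat_lit 0) (XT.nd (nat_lit 78) (nat_lit 0) (nat_lit 0) (XT.lf (nat_lit 0) (nat_lit 5975366265) (nat_lit 76) (nat_lit 4669766326) (nat_lit 152) (nat_lit 10223436651) (nat_lit 41) (nat_lit 5) (nat_lit 42) (nat_lit 5) (nat_lit 43) (nat_lit 4) (nat_lit 437) (nat_lit 317) (nat_lit 266)) (XT.lf (nat_lit 0) (nat_lit 16513170774) (nat_lit 152) (nat_lit 3588564182) (nat_lit 0) (nat_lit 1208523369) (nat_lit 41) (nat_lit 5) (nat_lit 43) (nat_lit 4) (nat_lit 41) (nat_lit 4) (nat_lit 438) (nat_lit 317) (nat_lit 265))) (XT.nd (nat_lit 78) (nat_lit 0) (nat_lit 0) (XT.lf (nat_lit 0) (nat_lit 846324091) (nat_lit 228) (nat_lit 13708707653) (nat_lit 76) (nat_lit 7207849188) (nat_lit 38) (nat_lit 5) (nat_lit 41) (nat_lit 5) (nat_lit 39) (nat_lit 4) (nat_lit 439) (nat_lit 317) (nat_lit 264)) (XT.lf (nat_lit 0) (nat_lit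 6544594279) (nat_lit 228) (nat_lit 2259761069) (nat_lit 76) (nat_lit 13423845812) (nat_lit 38) (nat_lit 5) (nat_lit 41) (nat_lit 5) (nat_lit 39) (nat_lit 4) (nat_lit 440) (nat_lit 317) (nat_lit 263)))))) (XT.nd (nat_lit 546) (nat_lit 380) (nat_lit 0) (XT.nd (nat_lit 234) (nat_lit 228) (nat_lit 0) (XT.nd (nat_lit 78) (nat_lit 152) (nat_lit 0) (XT.lf (nat_lit 0) (nat_lit 9619722568) (nat_lit 76) (nat_lit 2833528291) (nat_lit 152) (nat_lit 10253049906) (nat_lit 37) (nat_lit 5) (nat_lit 38) (nat_lit 5) (nat_lit 39) (nat_lit 4) (nat_lit 441) (nat_lit 317) (nat_lit 262)) (XT.nd (nat_lit 78) (nat_lit 152) (nat_lit 0) (XT.lf (nat_lit 0) (nat_lit 18541192132) (nat_lit 152) (nat_lit 1429033008) (nat_lit 0) (nat_lit 3228460302) (nat_lit 37) (nat_lit 5) (nat_lit 39) (nat_lit 4) (nat_lit 37) (nat_lit 4) (nat_lit 442) (nat_lit 317) (nat_lit 261)) (XT.lf (nat_lit 0) (nat_lit 1164300269) (nat_lit 152) (nat_lit 13054525222) (nat_lit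 76) (nat_lit 9484301386) (nat_lit 35) (nat_lit 5) (nat_lit 37) (nat_lit 5) (nat_lit 36) (nat_lit 4) (nat_lit 443) (nat_lit 317) (nat_lit 260)))) (XT.nd (nat_lit 156) (nat_lit 152) (nat_lit 0) (XT.nd (nat_lit 78) (nat_lit 76) (nat_lit 0) (XT.lf (nat_lit 0) (nat_lit 7030410151) (nat_lit 152) (nat_lit 1248577444) (nat_lit 76) (nat_lit 15943434934) (nat_lit 35) (nat_lit 5) (nat_lit 37) (nat_lit 5) (nat_lit 36) (nat_lit 4) (nat_lit 444) (nat_lit 317) (nat_lit 259)) (XT.lf (nat_lit 0) (nat_lit 11031758628) (nat_lit 76) (nat_lit 2096983072) (nat_lit 152) (nat_lit 11626870718) (nat_lit 34) (nat_lit 5) (nat_lit 35) (nat_lit 5) (nat_lit 36) (nat_lit 4) (nat_lit 445) (nat_lit 317) (nat_lit 258))) (XT.nd (nat_lit 78) (nat_lit 152) (nat_lit 0) (XT.lf (nat_lit 0) (nat_lit 19414115597) (nat_lit 152) (nat_lit 1734672147) (nat_lit 0) (nat_lit 4155889932) (nat_lit 34) (nat_lit 5) (nat_lit 36) (nat_lit 4) (nat_lit 34) (nat_lit 4)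 (nat_lit 446) (nat_lit 317) (nat_lit 257)) (XT.lf (nat_lit 0) (nat_lit 93702256) (nat_lit 152) (nat_lit 15158862577) (nat_lit 76) (nat_lit 10615360786) (nat_lit 32) (nat_lit 5) (nat_lit 34) (nat_lit 5) (nat_lit 33) (nat_lit 4) (nat_lit 447) (nat_lit 317) (nat_lit 256))))) (XT.nd (nat_lit 312) (nat_lit 228) (nat_lit 0) (XT.nd (nat_lit 156) (nat_lit 76) (nat_lit 0) (XT.nd (nat_lit 78) (nat_lit 76) (nat_lit 0) (XT.lf (nat_lit 0) (nat_lit 6108597397) (nat_lit 152) (nat_lit 3036831746) (nat_lit 76) (nat_lit 17301809503) (nat_lit 32) (nat_lit 5) (nat_lit 34) (nat_lit 5) (nat_lit 33) (nat_lit 4) (nat_lit 448) (nat_lit 317) (nat_lit 255)) (XT.lf (nat_lit 0) (nat_lit 9545357533) (nat_lit 76) (nat_lit 2803548469) (nat_lit 152) (nat_lit 14693678236) (nat_lit 31) (nat_lit 5) (nat_lit 32) (nat_lit 5) (nat_lit 33) (nat_lit 4) (nat_lit 449) (nat_lit 317) (nat_lit 254))) (XT.nd (nat_lit 78) (nat_lit 76) (nat_lit 0) (XT.lf (nat_lit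 0) (nat_lit 18796544611) (nat_lit 152) (nat_lit 5213618446) (nat_lit 0) (nat_lit 3645025626) (nat_lit 31) (nat_lit 5) (nat_lit 33) (nat_lit 4) (nat_lit 31) (nat_lit 4) (nat_lit 450) (nat_lit 317) (nat_lit 253)) (XT.lf (nat_lit 0) (nat_lit 7469241774) (nat_lit 76) (nat_lit 18022596945) (nat_lit 76) (nat_lit 2792707801) (nat_lit 30) (nat_lit 4) (nat_lit 31) (nat_lit 5) (nat_lit 31) (nat_lit 4) (nat_lit 451) (nat_lit 317) (nat_lit 252)))) (XT.nd (nat_lit 156) (nat_lit 76) (nat_lit 0) (XT.nd (nat_lit 78) (nat_lit 76) (nat_lit 0) (XT.lf (nat_lit 0) (nat_lit 3395665041) (nat_lit 152) (nat_lit 8412776642) (nat_lit 76) (nat_lit 17123112471) (nat_lit 29) (nat_lit 5) (nat_lit 31) (nat_lit 5) (nat_lit 30) (nat_lit 4) (nat_lit 452) (nat_lit 317) (nat_lit 251)) (XT.lf (nat_lit 0) (nat_lit 4333993192) (nat_lit 76) (nat_lit 5377258660) (nat_lit 152) (nat_lit 19885961719) (nat_lit 28) (nat_lit 5) (nat_lit 29) (nat_lit 5) (nat_lit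 30) (nat_lit 4) (nat_lit 453) (nat_lit 317) (nat_lit 250))) (XT.nd (nat_lit 78) (nat_lit 76) (nat_lit 0) (XT.lf (nat_lit 0) (nat_lit 16270203190) (nat_lit 152) (nat_lit 12742343500) (nat_lit 0) (nat_lit 1268680991) (nat_lit 28) (nat_lit 5) (nat_lit 30) (nat_lit 4) (nat_lit 28) (nat_lit 4) (nat_lit 454) (nat_lit 317) (nat_lit 249)) (XT.lf (nat_lit 0) (nat_lit 18917377) (nat_lit 76) (nat_lit 23017823529) (nat_lit 76) (nat_lit 7948698541) (nat_lit 27) (nat_lit 4) (nat_lit 28) (nat_lit 5) (nat_lit 28) (nat_lit 4) (nat_lit 455) (nat_lit 317) (nat_lit 248))))))) (XT.nd (nat_lit 1092) (nat_lit 456) (nat_lit 0) (XT.nd (nat_lit 546) (nat_lit 304) (nat_lit 0) (XT.nd (nat_lit 234) (nat_lit 152) (nat_lit 0) (XT.nd (nat_lit 78) (nat_lit 152) (nat_lit 0) (XT.lf (nat_lit 0) (nat_lit 13342657923) (nat_lit 76) (nat_lit 16750142179) (nat_lit 76) (nat_lit 1615383417) (nat_lit 27) (nat_lit 4) (nat_lit 28) (nat_lit 5) (nat_lit 28)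 (nat_lit 4) (nat_lit 456) (nat_lit 317) (nat_lit 247)) (XT.nd (nat_lit 78) (nat_lit 76) (nat_lit 0) (XT.lf (nat_lit 0) (nat_lit 4770833224) (nat_lit 152) (nat_lit 5513689427) (nat_lit 76) (nat_lit 22167913334) (nat_lit 26) (nat_lit 5) (nat_lit 28) (nat_lit 5) (nat_lit 27) (nat_lit 4) (nat_lit 457) (nat_lit 317) (nat_lit 246)) (XT.lf (nat_lit 0) (nat_lit 7781878706) (nat_lit 76) (nat_lit 3568971395) (nat_lit 152) (nat_lit 21866647236) (nat_lit 25) (nat_lit 5) (nat_lit 26) (nat_lit 5) (nat_lit 27) (nat_lit 4) (nat_lit 458) (nat_lit 317) (nat_lit 245)))) (XT.nd (nat_lit 156) (nat_lit 76) (nat_lit 0) (XT.nd (nat_lit 78) (nat_lit 76) (nat_lit 0) (XT.lf (nat_lit 0) (nat_lit 18176628212) (nat_lit 152) (nat_lit 12524990439) (nat_lit 0) (nat_lit 3302442580) (nat_lit 25) (nat_lit 5) (nat_lit 27) (nat_lit 4) (nat_lit 25) (nat_lit 4) (nat_lit 459) (nat_lit 317) (nat_lit 244)) (XT.lf (nat_lit 0) (nat_lit 675308025) (nat_lit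 76) (nat_lit 24534814555) (nat_lit 76) (nat_lit 9604012653) (nat_lit 24) (nat_lit 4) (nat_lit 25) (nat_lit 5) (nat_lit 25) (nat_lit 4) (nat_lit 460) (nat_lit 317) (nat_lit 243))) (XT.nd (nat_lit 78) (nat_lit 76) (nat_lit 0) (XT.lf (nat_lit 0) (nat_lit 14453615652) (nat_lit 76) (nat_lit 18089013093) (nat_lit 76) (nat_lit 3103243938) (nat_lit 24) (nat_lit 4) (nat_lit 25) (nat_lit 5) (nat_lit 25) (nat_lit 4) (nat_lit 461) (nat_lit 317) (nat_lit 242)) (XT.lf (nat_lit 0) (nat_lit 3484722747) (nat_lit 152) (nat_lit 7965148242) (nat_lit 76) (nat_lit 25052788254) (nat_lit 23) (nat_lit 5) (nat_lit 25) (nat_lit 5) (nat_lit 24) (nat_lit 4) (nat_lit 462) (nat_lit 317) (nat_lit 241))))) (XT.nd (nat_lit 234) (nat_lit 228) (nat_lit 0) (XT.nd (nat_lit 78) (nat_lit 0) (nat_lit 0) (XT.lf (nat_lit 0) (nat_lit 5667451971) (nat_lit 76) (nat_lit 4558360491) (nat_lit 152) (nat_lit 27157880812) (nat_lit 22) (nat_lit 5) (nat_lit 23) (nat_lit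 5) (nat_lit 24) (nat_lit 4) (nat_lit 463) (nat_lit 317) (nat_lit 240)) (XT.nd (nat_lit 78) (nat_lit 0) (nat_lit 0) (XT.lf (nat_lit 0) (nat_lit 17238215559) (nat_lit 152) (nat_lit 18512898929) (nat_lit 0) (nat_lit 2537972694) (nat_lit 22) (nat_lit 5) (nat_lit 24) (nat_lit 4) (nat_lit 22) (nat_lit 4) (nat_lit 464) (nat_lit 317) (nat_lit 239)) (XT.lf (nat_lit 0) (nat_lit 24470624896) (nat_lit 152) (nat_lit 5027763427) (nat_lit 0) (nat_lit 9722966797) (nat_lit 22) (nat_lit 5) (nat_lit 24) (nat_lit 4) (nat_lit 22) (nat_lit 4) (nat_lit 465) (nat_lit 317) (nat_lit 238)))) (XT.nd (nat_lit 156) (nat_lit 152) (nat_lit 0) (XT.nd (nat_lit 78) (nat_lit 0) (nat_lit 0) (XT.lf (nat_lit 0) (nat_lit 8969799169) (nat_lit 76) (nat_lit 23001966335) (nat_lit 76) (nat_lit 8208274026) (nat_lit 21) (nat_lit 4) (nat_lit 22) (nat_lit 5) (nat_lit 22) (nat_lit 4) (nat_lit 466) (nat_lit 317) (nat_lit 237)) (XT.lf (nat_lit 0) (nat_lit 23423851236)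 (nat_lit 76) (nat_lit 16290759996) (nat_lit 76) (nat_lit 1452374280) (nat_lit 21) (nat_lit 4) (nat_lit 22) (nat_lit 5) (nat_lit 22) (nat_lit 4) (nat_lit 467) (nat_lit 317) (nat_lit 236))) (XT.nd (nat_lit 78) (nat_lit 76) (nat_lit 0) (XT.lf (nat_lit 0) (nat_lit 5365321260) (nat_lit 152) (nat_lit 3990175213) (nat_lit 76) (nat_lit 32827459693) (nat_lit 20) (nat_lit 5) (nat_lit 22) (nat_lit 5) (nat_lit 21) (nat_lit 4) (nat_lit 468) (nat_lit 317) (nat_lit 235)) (XT.lf (nat_lit 0) (nat_lit 10298624661) (nat_lit 76) (nat_lit 2126266893) (nat_lit 152) (nat_lit 30802088001) (nat_lit 19) (nat_lit 5) (nat_lit 20) (nat_lit 5) (nat_lit 21) (nat_lit 4) (nat_lit 469) (nat_lit 317) (nat_lit 234)))))) (XT.nd (nat_lit 546) (nat_lit 228) (nat_lit 0) (XT.nd (nat_lit 234) (nat_lit 152) (nat_lit 0) (XT.nd (nat_lit 78) (nat_lit 76) (nat_lit 0) (XT.lf (nat_lit 0) (nat_lit 19755665492) (nat_lit 152) (nat_lit 19318149060) (nat_lit 0) (nat_lit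 5226727635) (nat_lit 19) (nat_lit 5) (nat_lit 21) (nat_lit 4) (nat_lit 19) (nat_lit 4) (nat_lit 470) (nat_lit 317) (nat_lit 233)) (XT.nd (nat_lit 78) (nat_lit 76) (nat_lit 0) (XT.lf (nat_lit 0) (nat_lit 27295945957) (nat_lit 152) (nat_lit 5382224074) (nat_lit 0) (nat_lit 12728455174) (nat_lit 19) (nat_lit 5) (nat_lit 21) (nat_lit 4) (nat_lit 19) (nat_lit 4) (nat_lit 471) (nat_lit 317) (nat_lit 232)) (XT.lf (nat_lit 0) (nat_lit 9089403055) (nat_lit 76) (nat_lit 26029852412) (nat_lit 76) (nat_lit 11424931606) (nat_lit 18) (nat_lit 4) (nat_lit 19) (nat_lit 5) (nat_lit 19) (nat_lit 4) (nat_lit 472) (nat_lit 317) (nat_lit 231)))) (XT.nd (nat_lit 156) (nat_lit 76) (nat_lit 0) (XT.nd (nat_lit 78) (nat_lit 76) (nat_lit 0) (XT.lf (nat_lit 0) (nat_lit 24046352430) (nat_lit 76) (nat_lit 19155030694) (nat_lit 76) (nat_lit 4513770057) (nat_lit 18) (nat_lit 4) (nat_lit 19) (nat_lit 5) (nat_lit 19) (nat_lit 4) (nat_lit 473) (nat_lit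 317) (nat_lit 230)) (XT.lf (nat_lit 0) (nat_lit 2524256706) (nat_lit 152) (nat_lit 9552300909) (nat_lit 76) (nat_lit 36844829667) (nat_lit 17) (nat_lit 5) (nat_lit 19) (nat_lit 5) (nat_lit 18) (nat_lit 4) (nat_lit 474) (nat_lit 317) (nat_lit 229))) (XT.nd (nat_lit 78) (nat_lit 0) (nat_lit 0) (XT.lf (nat_lit 0) (nat_lit 4983922760) (nat_lit 76) (nat_lit 4717909042) (nat_lit 152) (nat_lit 40460062854) (nat_lit 16) (nat_lit 5) (nat_lit 17) (nat_lit 5) (nat_lit 18) (nat_lit 4) (nat_lit 475) (nat_lit 317) (nat_lit 228)) (XT.lf (nat_lit 0) (nat_lit 17190916027) (nat_lit 152) (nat_lit 31369514069) (nat_lit 0) (nat_lit 2876302541) (nat_lit 16) (nat_lit 5) (nat_lit 18) (nat_lit 4) (nat_lit 16) (nat_lit 4) (nat_lit 476) (nat_lit 317) (nat_lit 227))))) (XT.nd (nat_lit 312) (nat_lit 152) (nat_lit 0) (XT.nd (nat_lit 156) (nat_lit 76) (nat_lit 0) (XT.nd (nat_lit 78) (nat_lit 0) (nat_lit 0) (XT.lf (nat_lit 0) (nat_lit 24923482656)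 (nat_lit 152) (nat_lit 17248247512) (nat_lit 0) (nat_lit 10577522114) (nat_lit 16) (nat_lit 5) (nat_lit 18) (nat_lit 4) (nat_lit 16) (nat_lit 4) (nat_lit 477) (nat_lit 317) (nat_lit 226)) (XT.lf (nat_lit 0) (nat_lit 32860936873) (nat_lit 152) (nat_lit 2756481825) (nat_lit 0) (nat_lit 18484542295) (nat_lit 16) (nat_lit 5) (nat_lit 18) (nat_lit 4) (nat_lit 16) (nat_lit 4) (nat_lit 478) (nat_lit 317) (nat_lit 225))) (XT.nd (nat_lit 78) (nat_lit 0) (nat_lit 0) (XT.lf (nat_lit 0) (nat_lit 12359626530) (nat_lit 76) (nat_lit 28769396077) (nat_lit 76) (nat_lit 14363453893) (nat_lit 15) (nat_lit 4) (nat_lit 16) (nat_lit 5) (nat_lit 16) (nat_lit 4) (nat_lit 479) (nat_lit 317) (nat_lit 224)) (XT.lf (nat_lit 0) (nat_lit 27934637974) (nat_lit 76) (nat_lit 21712322570) (nat_lit 76) (nat_lit 7277693389) (nat_lit 15) (nat_lit 4) (nat_lit 16) (nat_lit 5) (nat_lit 16) (nat_lit 4) (nat_lit 480) (nat_lit 317) (nat_lit 223)))) (XT.nd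 (nat_lit 156) (nat_lit 0) (nat_lit 0) (XT.nd (nat_lit 78) (nat_lit 152) (nat_lit 0) (XT.lf (nat_lit 0) (nat_lit 43927302345) (nat_lit 76) (nat_lit 14467866864) (nat_lit 76) (nat_lit 5386229) (nat_lit 15) (nat_lit 4) (nat_lit 16) (nat_lit 5) (nat_lit 16) (nat_lit 4) (nat_lit 481) (nat_lit 317) (nat_lit 222)) (XT.lf (nat_lit 0) (nat_lit 365547960) (nat_lit 76) (nat_lit 6952219941) (nat_lit 152) (nat_lit 52601446073) (nat_lit 13) (nat_lit 5) (nat_lit 14) (nat_lit 5) (nat_lit 15) (nat_lit 4) (nat_lit 482) (nat_lit 317) (nat_lit 221))) (XT.nd (nat_lit 78) (nat_lit 0) (nat_lit 0) (XT.lf (nat_lit 0) (nat_lit 14990946430) (nat_lit 152) (nat_lit 45590609355) (nat_lit 0) (nat_lit 897962404) (nat_lit 13) (nat_lit 5) (nat_lit 15) (nat_lit 4) (nat_lit 13) (nat_lit 4) (nat_lit 483) (nat_lit 317) (nat_lit 220)) (XT.lf (nat_lit 0) (nat_lit 22939131024) (nat_lit 152) (nat_lit 31324755490) (nat_lit 0) (nat_lit 8821401343) (nat_lit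 13) (nat_lit 5) (nat_lit 15) (nat_lit 4) (nat_lit 13) (nat_lit 4) (nat_lit 484) (nat_lit 317) (nat_lit 219))))))))
noncomputable def xc51 : XT := (XT.nd (nat_lit 46878) (nat_lit 0) (nat_lit 2736) (XT.nd (nat_lit 45708) (nat_lit 0) (nat_lit 6308) (XT.nd (nat_lit 546) (nat_lit 0) (nat_lit 0) (XT.nd (nat_lit 234) (nat_lit 152) (nat_lit 0) (XT.nd (nat_lit 78) (nat_lit 76) (nat_lit 0) (XT.lf (nat_lit 0) (nat_lit 31102437709) (nat_lit 152) (nat_lit 16676810119) (nat_lit 0) (nat_lit 16960683118) (nat_lit 13) (nat_lit 5) (nat_lit 15) (nat_lit 4) (nat_lit 13) (nat_lit 4) (nat_lit 485) (nat_lit 317) (nat_lit 218)) (XT.nd (nat_lit 78) (nat_lit 76) (nat_lit 0) (XT.lf (nat_lit 0) (nat_lit 39487999469) (nat_lit 152) (nat_lit 1633974066) (nat_lit 0) (nat_lit 25322919725) (nat_lit 13) (nat_lit 5) (nat_lit 15) (nat_lit 4) (nat_lit 13) (nat_lit 4) (nat_lit 486) (nat_lit 317) (nat_lit 217)) (XT.lf (nat_lit 0) (nat_lit 14091880233)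 (nat_lit 76) (nat_lit 34146723035) (nat_lit 76) (nat_lit 19958997511) (nat_lit 12) (nat_lit 4) (nat_lit 13) (nat_lit 5) (nat_lit 13) (nat_lit 4) (nat_lit 487) (nat_lit 317) (nat_lit 216)))) (XT.nd (nat_lit 156) (nat_lit 152) (nat_lit 0) (XT.nd (nat_lit 78) (nat_lit 0) (nat_lit 0) (XT.lf (nat_lit 0) (nat_lit 30280178876) (nat_lit 76) (nat_lit 26966290311) (nat_lit 76) (nat_lit 12756578592) (nat_lit 12) (nat_lit 4) (nat_lit 13) (nat_lit 5) (nat_lit 13) (nat_lit 4) (nat_lit 488) (nat_lit 317) (nat_lit 215)) (XT.lf (nat_lit 0) (nat_lit 46912547689) (nat_lit 76) (nat_lit 19590901132) (nat_lit 76) (nat_lit 5359843594) (nat_lit 12) (nat_lit 4) (nat_lit 13) (nat_lit 5) (nat_lit 13) (nat_lit 4) (nat_lit 489) (nat_lit 317) (nat_lit 214))) (XT.nd (nat_lit 78) (nat_lit 76) (nat_lit 0) (XT.lf (nat_lit 0) (nat_lit 2194005636) (nat_lit 152) (nat_lit 9797950193) (nat_lit 76) (nat_lit 61787359017) (nat_lit 11) (nat_lit 5) (nat_lit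 13) (nat_lit 5) (nat_lit 12) (nat_lit 4) (nat_lit 490) (nat_lit 317) (nat_lit 213)) (XT.lf (nat_lit 0) (nat_lit 5830542622) (nat_lit 76) (nat_lit 4072139516) (nat_lit 152) (nat_lit 65847466111) (nat_lit 10) (nat_lit 5) (nat_lit 11) (nat_lit 5) (nat_lit 12) (nat_lit 4) (nat_lit 491) (nat_lit 317) (nat_lit 212))))) (XT.nd (nat_lit 44850) (nat_lit 0) (nat_lit 9728) (XT.nd (nat_lit 44694) (nat_lit 0) (nat_lit 10868) (XT.lf (nat_lit 0) (nat_lit 17961724566) (nat_lit 152) (nat_lit 55728265981) (nat_lit 0) (nat_lit 4086543432) (nat_lit 10) (nat_lit 5) (nat_lit 12) (nat_lit 4) (nat_lit 10) (nat_lit 4) (nat_lit 492) (nat_lit 317) (nat_lit 211)) (XT.nd (nat_lit 78) (nat_lit 380) (nat_lit 0) (XT.lf (nat_lit 0) (nat_lit 672147914) (nat_lit 456) (nat_lit 2947790028) (nat_lit 0) (nat_lit 672147914) (nat_lit 158) (nat_lit 5) (nat_lit 164) (nat_lit 4) (nat_lit 158) (nat_lit 4) (nat_lit 384) (nat_lit 318) (nat_lit 318)) (XT.lf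 (nat_lit 0) (nat_lit 1192392075) (nat_lit 380) (nat_lit 4259931085) (nat_lit 380) (nat_lit 3234304481) (nat_lit 153) (nat_lit 4) (nat_lit 158) (nat_lit 5) (nat_lit 158) (nat_lit 4) (nat_lit 385) (nat_lit 318) (nat_lit 317)))) (XT.nd (nat_lit 156) (nat_lit 760) (nat_lit 0) (XT.nd (nat_lit 78) (nat_lit 304) (nat_lit 0) (XT.lf (nat_lit 0) (nat_lit 832985465) (nat_lit 456) (nat_lit 330420094) (nat_lit 76) (nat_lit 7629751478) (nat_lit 152) (nat_lit 5) (nat_lit 158) (nat_lit 5) (nat_lit 153) (nat_lit 4) (nat_lit 386) (nat_lit 318) (nat_lit 316)) (XT.lf (nat_lit 0) (nat_lit 4946520452) (nat_lit 380) (nat_lit 1910327326) (nat_lit 0) (nat_lit 2045421394) (nat_lit 148) (nat_lit 5) (nat_lit 153) (nat_lit 4) (nat_lit 148) (nat_lit 4) (nat_lit 387) (nat_lit 318) (nat_lit 315))) (XT.nd (nat_lit 78) (nat_lit 304) (nat_lit 0) (XT.lf (nat_lit 0) (nat_lit 135647098) (nat_lit 456) (nat_lit 3536991402) (nat_lit 76) (nat_lit 5342886579)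 (nat_lit 142) (nat_lit 5) (nat_lit 148) (nat_lit 5) (nat_lit 143) (nat_lit 4) (nat_lit 388) (nat_lit 318) (nat_lit 314)) (XT.lf (nat_lit 0) (nat_lit 3890963508) (nat_lit 304) (nat_lit 339594638) (nat_lit 380) (nat_lit 4901659582) (nat_lit 138) (nat_lit 5) (nat_lit 142) (nat_lit 5) (nat_lit 143) (nat_lit 4) (nat_lit 389) (nat_lit 318) (nat_lit 313)))))) (XT.nd (nat_lit 546) (nat_lit 1520) (nat_lit 0) (XT.nd (nat_lit 234) (nat_lit 1216) (nat_lit 0) (XT.nd (nat_lit 78) (nat_lit 380) (nat_lit 0) (XT.lf (nat_lit 0) (nat_lit 2233139870) (nat_lit 304) (nat_lit 6206866178) (nat_lit 304) (nat_lit 812676212) (nat_lit 134) (nat_lit 4) (nat_lit 138) (nat_lit 5) (nat_lit 138) (nat_lit 4) (nat_lit 390) (nat_lit 318) (nat_lit 312)) (XT.nd (nat_lit 78) (nat_lit 0) (nat_lit 0) (XT.lf (nat_lit 0) (nat_lit 493322273) (nat_lit 304) (nat_lit 2805767061) (nat_lit 380) (nat_lit 6077718570) (nat_lit 129) (nat_lit 5) (nat_lit 133) (nat_lit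 5) (nat_lit 134) (nat_lit 4) (nat_lit 391) (nat_lit 318) (nat_lit 311)) (XT.lf (nat_lit 0) (nat_lit 7501981029) (nat_lit 380) (nat_lit 1287248136) (nat_lit 0) (nat_lit 715683487) (nat_lit 129) (nat_lit 5) (nat_lit 134) (nat_lit 4) (nat_lit 129) (nat_lit 4) (nat_lit 392) (nat_lit 318) (nat_lit 310)))) (XT.nd (nat_lit 156) (nat_lit 608) (nat_lit 0) (XT.nd (nat_lit 78) (nat_lit 228) (nat_lit 0) (XT.lf (nat_lit 0) (nat_lit 2150031401) (nat_lit 380) (nat_lit 3162668276) (nat_lit 76) (nat_lit 4323584513) (nat_lit 124) (nat_lit 5) (nat_lit 129) (nat_lit 5) (nat_lit 125) (nat_lit 4) (nat_lit 393) (nat_lit 318) (nat_lit 309)) (XT.lf (nat_lit 0) (nat_lit 4652341536) (nat_lit 228) (nat_lit 1701809903) (nat_lit 304) (nat_lit 3417863999) (nat_lit 121) (nat_lit 5) (nat_lit 124) (nat_lit 5) (nat_lit 125) (nat_lit 4) (nat_lit 394) (nat_lit 318) (nat_lit 308))) (XT.nd (nat_lit 78) (nat_lit 228) (nat_lit 0) (XT.lf (nat_lit 0) (nat_lit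 745229380) (nat_lit 380) (nat_lit 7171638432) (nat_lit 76) (nat_lit 1995113358) (nat_lit 116) (nat_lit 5) (nat_lit 121) (nat_lit 5) (nat_lit 117) (nat_lit 4) (nat_lit 395) (nat_lit 318) (nat_lit 307)) (XT.lf (nat_lit 0) (nat_lit 706874743) (nat_lit 228) (nat_lit 4243686590) (nat_lit 304) (nat_lit 5105004787) (nat_lit 113) (nat_lit 5) (nat_lit 116) (nat_lit 5) (nat_lit 117) (nat_lit 4) (nat_lit 396) (nat_lit 318) (nat_lit 306))))) (XT.nd (nat_lit 312) (nat_lit 684) (nat_lit 0) (XT.nd (nat_lit 156) (nat_lit 532) (nat_lit 0) (XT.nd (nat_lit 78) (nat_lit 304) (nat_lit 0) (XT.lf (nat_lit 0) (nat_lit 8827918804) (nat_lit 228) (nat_lit 438002457) (nat_lit 304) (nat_lit 938037530) (nat_lit 113) (nat_lit 5) (nat_lit 116) (nat_lit 5) (nat_lit 117) (nat_lit 4) (nat_lit 397) (nat_lit 318) (nat_lit 305)) (XT.lf (nat_lit 0) (nat_lit 3300935717) (nat_lit 304) (nat_lit 3592714395) (nat_lit 76) (nat_lit 3461827875) (nat_lit 109)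 (nat_lit 5) (nat_lit 113) (nat_lit 5) (nat_lit 110) (nat_lit 4) (nat_lit 398) (nat_lit 318) (nat_lit 304))) (XT.nd (nat_lit 78) (nat_lit 304) (nat_lit 0) (XT.lf (nat_lit 0) (nat_lit 4599597160) (nat_lit 228) (nat_lit 3025088348) (nat_lit 304) (nat_lit 2887299634) (nat_lit 106) (nat_lit 5) (nat_lit 109) (nat_lit 5) (nat_lit 110) (nat_lit 4) (nat_lit 399) (nat_lit 318) (nat_lit 303)) (XT.lf (nat_lit 0) (nat_lit 1360223421) (nat_lit 304) (nat_lit 8351735780) (nat_lit 76) (nat_lit 961356766) (nat_lit 102) (nat_lit 5) (nat_lit 106) (nat_lit 5) (nat_lit 103) (nat_lit 4) (nat_lit 400) (nat_lit 318) (nat_lit 302)))) (XT.nd (nat_lit 156) (nat_lit 456) (nat_lit 0) (XT.nd (nat_lit 78) (nat_lit 228) (nat_lit 0) (XT.lf (nat_lit 0) (nat_lit 5682247351) (nat_lit 304) (nat_lit 113294036) (nat_lit 76) (nat_lit 5042948082) (nat_lit 102) (nat_lit 5) (nat_lit 106) (nat_lit 5) (nat_lit 103) (nat_lit 4) (nat_lit 401) (nat_lit 318) (nat_lit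 301)) (XT.lf (nat_lit 0) (nat_lit 8400066645) (nat_lit 228) (nat_lit 1731952735) (nat_lit 304) (nat_lit 876669357) (nat_lit 99) (nat_lit 5) (nat_lit 102) (nat_lit 5) (nat_lit 103) (nat_lit 4) (nat_lit 402) (nat_lit 318) (nat_lit 300))) (XT.nd (nat_lit 78) (nat_lit 152) (nat_lit 0) (XT.lf (nat_lit 0) (nat_lit 3462174455) (nat_lit 304) (nat_lit 5275157723) (nat_lit 76) (nat_lit 2445662120) (nat_lit 95) (nat_lit 5) (nat_lit 99) (nat_lit 5) (nat_lit 96) (nat_lit 4) (nat_lit 403) (nat_lit 318) (nat_lit 299)) (XT.lf (nat_lit 0) (nat_lit 3272227426) (nat_lit 152) (nat_lit 4634756289) (nat_lit 228) (nat_lit 3455494368) (nat_lit 93) (nat_lit 5) (nat_lit 95) (nat_lit 5) (nat_lit 96) (nat_lit 4) (nat_lit 404) (nat_lit 318) (nat_lit 298))))))) (XT.nd (nat_lit 1092) (nat_lit 1520) (nat_lit 0) (XT.nd (nat_lit 546) (nat_lit 912) (nat_lit 0) (XT.nd (nat_lit 234) (nat_lit 684) (nat_lit 0) (XT.nd (nat_lit 78) (nat_lit 152) (nat_lit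 0) (XT.lf (nat_lit 0) (nat_lit 501310511) (nat_lit 228) (nat_lit 395277512) (nat_lit 304) (nat_lit 10651186386) (nat_lit 89) (nat_lit 5) (nat_lit 92) (nat_lit 5) (nat_lit 93) (nat_lit 5) (nat_lit 405) (nat_lit 318) (nat_lit 297)) (XT.nd (nat_lit 78) (nat_lit 152) (nat_lit 0) (XT.lf (nat_lit 0) (nat_lit 5349475506) (nat_lit 304) (nat_lit 2430810291) (nat_lit 76) (nat_lit 3956137644) (nat_lit 89) (nat_lit 5) (nat_lit 93) (nat_lit 5) (nat_lit 90) (nat_lit 4) (nat_lit 406) (nat_lit 318) (nat_lit 296)) (XT.lf (nat_lit 0) (nat_lit 6431012685) (nat_lit 152) (nat_lit 3492042898) (nat_lit 228) (nat_lit 2008073899) (nat_lit 87) (nat_lit 5) (nat_lit 89) (nat_lit 5) (nat_lit 90) (nat_lit 4) (nat_lit 407) (nat_lit 318) (nat_lit 295)))) (XT.nd (nat_lit 156) (nat_lit 228) (nat_lit 0) (XT.nd (nat_lit 78) (nat_lit 152) (nat_lit 0) (XT.lf (nat_lit 0) (nat_lit 2441440942) (nat_lit 304) (nat_lit 8755552175) (nat_lit 76) (nat_lit 934329095)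 (nat_lit 83) (nat_lit 5) (nat_lit 87) (nat_lit 5) (nat_lit 84) (nat_lit 4) (nat_lit 408) (nat_lit 318) (nat_lit 294)) (XT.lf (nat_lit 0) (nat_lit 107293329) (nat_lit 152) (nat_lit 6890568132) (nat_lit 228) (nat_lit 5338659198) (nat_lit 81) (nat_lit 5) (nat_lit 83) (nat_lit 5) (nat_lit 84) (nat_lit 4) (nat_lit 409) (nat_lit 318) (nat_lit 293))) (XT.nd (nat_lit 78) (nat_lit 228) (nat_lit 0) (XT.lf (nat_lit 0) (nat_lit 9282204423) (nat_lit 152) (nat_lit 2420256289) (nat_lit 228) (nat_lit 845079284) (nat_lit 81) (nat_lit 5) (nat_lit 83) (nat_lit 5) (nat_lit 84) (nat_lit 4) (nat_lit 410) (nat_lit 318) (nat_lit 292)) (XT.lf (nat_lit 0) (nat_lit 3712296022) (nat_lit 228) (nat_lit 6870137610) (nat_lit 76) (nat_lit 2181289817) (nat_lit 78) (nat_lit 5) (nat_lit 81) (nat_lit 5) (nat_lit 79) (nat_lit 4) (nat_lit 411) (nat_lit 318) (nat_lit 291))))) (XT.nd (nat_lit 234) (nat_lit 532) (nat_lit 0) (XT.nd (nat_lit 78) (nat_lit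 228) (nat_lit 0) (XT.lf (nat_lit 0) (nat_lit 2289469945) (nat_lit 152) (nat_lit 6104193056) (nat_lit 228) (nat_lit 4592359436) (nat_lit 76) (nat_lit 5) (nat_lit 78) (nat_lit 5) (nat_lit 79) (nat_lit 4) (nat_lit 412) (nat_lit 318) (nat_lit 290)) (XT.nd (nat_lit 78) (nat_lit 228) (nat_lit 0) (XT.lf (nat_lit 0) (nat_lit 11734627422) (nat_lit 152) (nat_lit 1476138077) (nat_lit 228) (nat_lit 4374520) (nat_lit 76) (nat_lit 5) (nat_lit 78) (nat_lit 5) (nat_lit 79) (nat_lit 4) (nat_lit 413) (nat_lit 318) (nat_lit 289)) (XT.lf (nat_lit 0) (nat_lit 4665643787) (nat_lit 228) (nat_lit 5487065227) (nat_lit 76) (nat_lit 3295972912) (nat_lit 73) (nat_lit 5) (nat_lit 76) (nat_lit 5) (nat_lit 74) (nat_lit 4) (nat_lit 414) (nat_lit 318) (nat_lit 288)))) (XT.nd (nat_lit 156) (nat_lit 304) (nat_lit 0) (XT.nd (nat_lit 78) (nat_lit 76) (nat_lit 0) (XT.lf (nat_lit 0) (nat_lit 3962986719) (nat_lit 152) (nat_lit 5508227089) (nat_lit 228)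 (nat_lit 4218156552) (nat_lit 71) (nat_lit 5) (nat_lit 73) (nat_lit 5) (nat_lit 74) (nat_lit 4) (nat_lit 415) (nat_lit 318) (nat_lit 287)) (XT.lf (nat_lit 0) (nat_lit 458092745) (nat_lit 228) (nat_lit 260097812) (nat_lit 76) (nat_lit 13219440925) (nat_lit 70) (nat_lit 5) (nat_lit 73) (nat_lit 5) (nat_lit 71) (nat_lit 5) (nat_lit 416) (nat_lit 318) (nat_lit 286))) (XT.nd (nat_lit 78) (nat_lit 152) (nat_lit 0) (XT.lf (nat_lit 0) (nat_lit 5252577628) (nat_lit 228) (nat_lit 4723358558) (nat_lit 76) (nat_lit 4214276554) (nat_lit 68) (nat_lit 5) (nat_lit 71) (nat_lit 5) (nat_lit 69) (nat_lit 4) (nat_lit 417) (nat_lit 318) (nat_lit 285)) (XT.lf (nat_lit 0) (nat_lit 5006303669) (nat_lit 152) (nat_lit 5172814606) (nat_lit 228) (nat_lit 4271613403) (nat_lit 66) (nat_lit 5) (nat_lit 68) (nat_lit 5) (nat_lit 69) (nat_lit 4) (nat_lit 418) (nat_lit 318) (nat_lit 284)))))) (XT.nd (nat_lit 546) (nat_lit 836) (nat_lit 0) (XT.nd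 (nat_lit 234) (nat_lit 304) (nat_lit 0) (XT.nd (nat_lit 78) (nat_lit 152) (nat_lit 0) (XT.lf (nat_lit 0) (nat_lit 281866025) (nat_lit 152) (nat_lit 223459960) (nat_lit 228) (nat_lit 14214151633) (nat_lit 63) (nat_lit 5) (nat_lit 65) (nat_lit 5) (nat_lit 66) (nat_lit 5) (nat_lit 419) (nat_lit 318) (nat_lit 283)) (XT.nd (nat_lit 78) (nat_lit 152) (nat_lit 0) (XT.lf (nat_lit 0) (nat_lit 5413678736) (nat_lit 228) (nat_lit 4715347374) (nat_lit 76) (nat_lit 4863778512) (nat_lit 63) (nat_lit 5) (nat_lit 66) (nat_lit 5) (nat_lit 64) (nat_lit 4) (nat_lit 420) (nat_lit 318) (nat_lit 282)) (XT.lf (nat_lit 0) (nat_lit 5277629702) (nat_lit 152) (nat_lit 5177402899) (nat_lit 228) (nat_lit 4819732433) (nat_lit 61) (nat_lit 5) (nat_lit 63) (nat_lit 5) (nat_lit 64) (nat_lit 4) (nat_lit 421) (nat_lit 318) (nat_lit 281)))) (XT.nd (nat_lit 156) (nat_lit 76) (nat_lit 0) (XT.nd (nat_lit 78) (nat_lit 152) (nat_lit 0) (XT.lf (nat_lit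 0) (nat_lit 61862773) (nat_lit 228) (nat_lit 19838733) (nat_lit 76) (nat_lit 15484033878) (nat_lit 60) (nat_lit 5) (nat_lit 63) (nat_lit 5) (nat_lit 61) (nat_lit 5) (nat_lit 422) (nat_lit 318) (nat_lit 280)) (XT.lf (nat_lit 0) (nat_lit 5077464894) (nat_lit 228) (nat_lit 5622045005) (nat_lit 76) (nat_lit 5161966008) (nat_lit 58) (nat_lit 5) (nat_lit 61) (nat_lit 5) (nat_lit 59) (nat_lit 4) (nat_lit 423) (nat_lit 318) (nat_lit 279))) (XT.nd (nat_lit 78) (nat_lit 0) (nat_lit 0) (XT.lf (nat_lit 0) (nat_lit 4611383512) (nat_lit 76) (nat_lit 5612647081) (nat_lit 152) (nat_lit 5942648618) (nat_lit 57) (nat_lit 5) (nat_lit 58) (nat_lit 5) (nat_lit 59) (nat_lit 4) (nat_lit 424) (nat_lit 318) (nat_lit 278)) (XT.lf (nat_lit 0) (nat_lit 15149631025) (nat_lit 76) (nat_lit 368050528) (nat_lit 152) (nat_lit 963581685) (nat_lit 57) (nat_lit 5) (nat_lit 58) (nat_lit 5) (nat_lit 59) (nat_lit 4) (nat_lit 425) (nat_lit 318) (nat_lit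 277))))) (XT.nd (nat_lit 312) (nat_lit 304) (nat_lit 0) (XT.nd (nat_lit 156) (nat_lit 228) (nat_lit 0) (XT.nd (nat_lit 78) (nat_lit 76) (nat_lit 0) (XT.lf (nat_lit 0) (nat_lit 4158568231) (nat_lit 228) (nat_lit 7629050348) (nat_lit 76) (nat_lit 5014220652) (nat_lit 54) (nat_lit 5) (nat_lit 57) (nat_lit 5) (nat_lit 55) (nat_lit 4) (nat_lit 426) (nat_lit 318) (nat_lit 276)) (XT.lf (nat_lit 0) (nat_lit 2814103041) (nat_lit 76) (nat_lit 6582582596) (nat_lit 152) (nat_lit 7735615379) (nat_lit 53) (nat_lit 5) (nat_lit 54) (nat_lit 5) (nat_lit 55) (nat_lit 4) (nat_lit 427) (nat_lit 318) (nat_lit 275))) (XT.nd (nat_lit 78) (nat_lit 228) (nat_lit 0) (XT.lf (nat_lit 0) (nat_lit 13612568169) (nat_lit 76) (nat_lit 1194535961) (nat_lit 152) (nat_lit 2665122481) (nat_lit 53) (nat_lit 5) (nat_lit 54) (nat_lit 5) (nat_lit 55) (nat_lit 4) (nat_lit 428) (nat_lit 318) (nat_lit 274)) (XT.lf (nat_lit 0) (nat_lit 2555600805) (nat_lit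 228) (nat_lit 10953060922) (nat_lit 76) (nat_lit 4311514501) (nat_lit 50) (nat_lit 5) (nat_lit 53) (nat_lit 5) (nat_lit 51) (nat_lit 4) (nat_lit 429) (nat_lit 318) (nat_lit 273)))) (XT.nd (nat_lit 156) (nat_lit 228) (nat_lit 0) (XT.nd (nat_lit 78) (nat_lit 76) (nat_lit 0) (XT.lf (nat_lit 0) (nat_lit 7870096565) (nat_lit 228) (nat_lit 333646928) (nat_lit 76) (nat_lit 9974311991) (nat_lit 50) (nat_lit 5) (nat_lit 53) (nat_lit 5) (nat_lit 51) (nat_lit 4) (nat_lit 430) (nat_lit 318) (nat_lit 272)) (XT.lf (nat_lit 0) (nat_lit 10704036414) (nat_lit 76) (nat_lit 2684174955) (nat_lit 152) (nat_lit 5157138388) (nat_lit 49) (nat_lit 5) (nat_lit 50) (nat_lit 5) (nat_lit 51) (nat_lit 4) (nat_lit 431) (nat_lit 318) (nat_lit 271))) (XT.nd (nat_lit 78) (nat_lit 0) (nat_lit 0) (XT.lf (nat_lit 0) (nat_lit 148660057) (nat_lit 228) (nat_lit 15847096845) (nat_lit 76) (nat_lit 2927766780) (nat_lit 46) (nat_lit 5) (nat_lit 49) (nat_lit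 5) (nat_lit 47) (nat_lit 4) (nat_lit 432) (nat_lit 318) (nat_lit 270)) (XT.lf (nat_lit 0) (nat_lit 5558087343) (nat_lit 228) (nat_lit 5016124782) (nat_lit 76) (nat_lit 8735859436) (nat_lit 46) (nat_lit 5) (nat_lit 49) (nat_lit 5) (nat_lit 47) (nat_lit 4) (nat_lit 433) (nat_lit 318) (nat_lit 269))))))))
noncomputable def xc52 : XT := (XT.nd (nat_lit 2184) (nat_lit 912) (nat_lit 0) (XT.nd (nat_lit 1092) (nat_lit 684) (nat_lit 0) (XT.nd (nat_lit 546) (nat_lit 380) (nat_lit 0) (XT.nd (nat_lit 234) (nat_lit 304) (nat_lit 0) (XT.nd (nat_lit 78) (nat_lit 228) (nat_lit 0) (XT.lf (nat_lit 0) (nat_lit 6153568188) (nat_lit 76) (nat_lit 4978649476) (nat_lit 152) (nat_lit 8575929304) (nat_lit 45) (nat_lit 5) (nat_lit 46) (nat_lit 5) (nat_lit 47) (nat_lit 4) (nat_lit 434) (nat_lit 318) (nat_lit 268)) (XT.nd (nat_lit 78) (nat_lit 228) (nat_lit 0) (XT.lf (nat_lit 0) (nat_lit 16875706785) (nat_lit 152) (nat_lit 2469971094) (nat_lit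 0) (nat_lit 772426303) (nat_lit 45) (nat_lit 5) (nat_lit 47) (nat_lit 4) (nat_lit 45) (nat_lit 4) (nat_lit 435) (nat_lit 318) (nat_lit 267)) (XT.lf (nat_lit 0) (nat_lit 2288605614) (nat_lit 228) (nat_lit 11590831033) (nat_lit 76) (nat_lit 6657835878) (nat_lit 42) (nat_lit 5) (nat_lit 45) (nat_lit 5) (nat_lit 43) (nat_lit 4) (nat_lit 436) (nat_lit 318) (nat_lit 266)))) (XT.nd (nat_lit 156) (nat_lit 228) (nat_lit 0) (XT.nd (nat_lit 78) (nat_lit 76) (nat_lit 0) (XT.lf (nat_lit 0) (nat_lit 7890717350) (nat_lit 228) (nat_lit 348078142) (nat_lit 76) (nat_lit 12730150197) (nat_lit 42) (nat_lit 5) (nat_lit 45) (nat_lit 5) (nat_lit 43) (nat_lit 4) (nat_lit 437) (nat_lit 318) (nat_lit 265)) (XT.lf (nat_lit 0) (nat_lit 11353070389) (nat_lit 76) (nat_lit 2363710818) (nat_lit 152) (nat_lit 7695114367) (nat_lit 41) (nat_lit 5) (nat_lit 42) (nat_lit 5) (nat_lit 43) (nat_lit 4) (nat_lit 438) (nat_lit 318) (nat_lit 264))) (XT.nd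 (nat_lit 78) (nat_lit 76) (nat_lit 0) (XT.lf (nat_lit 0) (nat_lit 1436331162) (nat_lit 152) (nat_lit 18281001351) (nat_lit 152) (nat_lit 2150813374) (nat_lit 39) (nat_lit 4) (nat_lit 41) (nat_lit 5) (nat_lit 41) (nat_lit 4) (nat_lit 439) (nat_lit 318) (nat_lit 263)) (XT.lf (nat_lit 0) (nat_lit 3563302608) (nat_lit 228) (nat_lit 9011772902) (nat_lit 76) (nat_lit 9759796020) (nat_lit 38) (nat_lit 5) (nat_lit 41) (nat_lit 5) (nat_lit 39) (nat_lit 4) (nat_lit 440) (nat_lit 318) (nat_lit 262))))) (XT.nd (nat_lit 234) (nat_lit 228) (nat_lit 0) (XT.nd (nat_lit 78) (nat_lit 76) (nat_lit 0) (XT.lf (nat_lit 0) (nat_lit 2684238841) (nat_lit 76) (nat_lit 6695688817) (nat_lit 152) (nat_lit 13435805820) (nat_lit 37) (nat_lit 5) (nat_lit 38) (nat_lit 5) (nat_lit 39) (nat_lit 4) (nat_lit 441) (nat_lit 318) (nat_lit 261)) (XT.nd (nat_lit 78) (nat_lit 76) (nat_lit 0) (XT.lf (nat_lit 0) (nat_lit 14819106117) (nat_lit 76) (nat_lit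 592028390) (nat_lit 152) (nat_lit 7898687036) (nat_lit 37) (nat_lit 5) (nat_lit 38) (nat_lit 5) (nat_lit 39) (nat_lit 4) (nat_lit 442) (nat_lit 318) (nat_lit 260)) (XT.lf (nat_lit 0) (nat_lit 3416211326) (nat_lit 76) (nat_lit 18244783359) (nat_lit 76) (nat_lit 2156608723) (nat_lit 36) (nat_lit 4) (nat_lit 37) (nat_lit 5) (nat_lit 37) (nat_lit 4) (nat_lit 443) (nat_lit 318) (nat_lit 259)))) (XT.nd (nat_lit 156) (nat_lit 76) (nat_lit 0) (XT.nd (nat_lit 78) (nat_lit 76) (nat_lit 0) (XT.lf (nat_lit 0) (nat_lit 3727049563) (nat_lit 152) (nat_lit 8621540995) (nat_lit 76) (nat_lit 11989667708) (nat_lit 35) (nat_lit 5) (nat_lit 37) (nat_lit 5) (nat_lit 36) (nat_lit 4) (nat_lit 444) (nat_lit 318) (nat_lit 258)) (XT.lf (nat_lit 0) (nat_lit 3465690406) (nat_lit 76) (nat_lit 6263140837) (nat_lit 152) (nat_lit 15145514612) (nat_lit 34) (nat_lit 5) (nat_lit 35) (nat_lit 5) (nat_lit 36) (nat_lit 4) (nat_lit 445) (nat_lit 318)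 (nat_lit 257))) (XT.nd (nat_lit 78) (nat_lit 76) (nat_lit 0) (XT.lf (nat_lit 0) (nat_lit 15950392072) (nat_lit 152) (nat_lit 9424945528) (nat_lit 0) (nat_lit 49989074) (nat_lit 34) (nat_lit 5) (nat_lit 36) (nat_lit 4) (nat_lit 34) (nat_lit 4) (nat_lit 446) (nat_lit 318) (nat_lit 256)) (XT.lf (nat_lit 0) (nat_lit 2821611240) (nat_lit 76) (nat_lit 19579284207) (nat_lit 76) (nat_lit 3590674905) (nat_lit 33) (nat_lit 4) (nat_lit 34) (nat_lit 5) (nat_lit 34) (nat_lit 4) (nat_lit 447) (nat_lit 318) (nat_lit 255)))))) (XT.nd (nat_lit 546) (nat_lit 304) (nat_lit 0) (XT.nd (nat_lit 234) (nat_lit 228) (nat_lit 0) (XT.nd (nat_lit 78) (nat_lit 76) (nat_lit 0) (XT.lf (nat_lit 0) (nat_lit 2471238366) (nat_lit 152) (nat_lit 11057632607) (nat_lit 76) (nat_lit 13043740415) (nat_lit 32) (nat_lit 5) (nat_lit 34) (nat_lit 5) (nat_lit 33) (nat_lit 4) (nat_lit 448) (nat_lit 318) (nat_lit 254)) (XT.nd (nat_lit 78) (nat_lit 0) (nat_lit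 0) (XT.lf (nat_lit 0) (nat_lit 1321140449) (nat_lit 76) (nat_lit 7288972773) (nat_lit 152) (nat_lit 18560887809) (nat_lit 31) (nat_lit 5) (nat_lit 32) (nat_lit 5) (nat_lit 33) (nat_lit 4) (nat_lit 449) (nat_lit 318) (nat_lit 253)) (XT.lf (nat_lit 0) (nat_lit 14211649542) (nat_lit 76) (nat_lit 788232328) (nat_lit 152) (nat_lit 12785460713) (nat_lit 31) (nat_lit 5) (nat_lit 32) (nat_lit 5) (nat_lit 33) (nat_lit 4) (nat_lit 450) (nat_lit 318) (nat_lit 252)))) (XT.nd (nat_lit 156) (nat_lit 152) (nat_lit 0) (XT.nd (nat_lit 78) (nat_lit 76) (nat_lit 0) (XT.lf (nat_lit 0) (nat_lit 21594120195) (nat_lit 152) (nat_lit 1070736193) (nat_lit 0) (nat_lit 5752876685) (nat_lit 31) (nat_lit 5) (nat_lit 33) (nat_lit 4) (nat_lit 31) (nat_lit 4) (nat_lit 451) (nat_lit 318) (nat_lit 251)) (XT.lf (nat_lit 0) (nat_lit 11950459923) (nat_lit 76) (nat_lit 16515676826) (nat_lit 76) (nat_lit 600561925) (nat_lit 30) (nat_lit 4) (nat_lit 31)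 (nat_lit 5) (nat_lit 31) (nat_lit 4) (nat_lit 452) (nat_lit 318) (nat_lit 250))) (XT.nd (nat_lit 78) (nat_lit 76) (nat_lit 0) (XT.lf (nat_lit 0) (nat_lit 5664054968) (nat_lit 152) (nat_lit 4488803112) (nat_lit 76) (nat_lit 19581554767) (nat_lit 29) (nat_lit 5) (nat_lit 31) (nat_lit 5) (nat_lit 30) (nat_lit 4) (nat_lit 453) (nat_lit 318) (nat_lit 249)) (XT.lf (nat_lit 0) (nat_lit 8599425142) (nat_lit 76) (nat_lit 3546333829) (nat_lit 152) (nat_lit 18274986277) (nat_lit 28) (nat_lit 5) (nat_lit 29) (nat_lit 5) (nat_lit 30) (nat_lit 4) (nat_lit 454) (nat_lit 318) (nat_lit 248))))) (XT.nd (nat_lit 234) (nat_lit 152) (nat_lit 0) (XT.nd (nat_lit 78) (nat_lit 152) (nat_lit 0) (XT.lf (nat_lit 0) (nat_lit 18857649304) (nat_lit 152) (nat_lit 9065733971) (nat_lit 0) (nat_lit 3203214005) (nat_lit 28) (nat_lit 5) (nat_lit 30) (nat_lit 4) (nat_lit 28) (nat_lit 4) (nat_lit 455) (nat_lit 318) (nat_lit 247)) (XT.nd (nat_lit 78)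 (nat_lit 76) (nat_lit 0) (XT.lf (nat_lit 0) (nat_lit 4038571793) (nat_lit 76) (nat_lit 21766099453) (nat_lit 76) (nat_lit 6047942043) (nat_lit 27) (nat_lit 4) (nat_lit 28) (nat_lit 5) (nat_lit 28) (nat_lit 4) (nat_lit 456) (nat_lit 318) (nat_lit 246)) (XT.lf (nat_lit 0) (nat_lit 405004838) (nat_lit 152) (nat_lit 14957863714) (nat_lit 76) (nat_lit 17235869179) (nat_lit 26) (nat_lit 5) (nat_lit 28) (nat_lit 5) (nat_lit 27) (nat_lit 4) (nat_lit 457) (nat_lit 318) (nat_lit 245)))) (XT.nd (nat_lit 156) (nat_lit 76) (nat_lit 0) (XT.nd (nat_lit 78) (nat_lit 76) (nat_lit 0) (XT.lf (nat_lit 0) (nat_lit 6891028271) (nat_lit 152) (nat_lit 1851300346) (nat_lit 76) (nat_lit 24624291019) (nat_lit 26) (nat_lit 5) (nat_lit 28) (nat_lit 5) (nat_lit 27) (nat_lit 4) (nat_lit 458) (nat_lit 318) (nat_lit 244)) (XT.lf (nat_lit 0) (nat_lit 11805607382) (nat_lit 76) (nat_lit 1841688124) (nat_lit 152) (nat_lit 20507974079) (nat_lit 25)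 (nat_lit 5) (nat_lit 26) (nat_lit 5) (nat_lit 27) (nat_lit 4) (nat_lit 459) (nat_lit 318) (nat_lit 243))) (XT.nd (nat_lit 78) (nat_lit 76) (nat_lit 0) (XT.lf (nat_lit 0) (nat_lit 20637997757) (nat_lit 152) (nat_lit 9180942027) (nat_lit 0) (nat_lit 5147688274) (nat_lit 25) (nat_lit 5) (nat_lit 27) (nat_lit 4) (nat_lit 25) (nat_lit 4) (nat_lit 460) (nat_lit 318) (nat_lit 242)) (XT.lf (nat_lit 0) (nat_lit 4378896782) (nat_lit 76) (nat_lit 23483198707) (nat_lit 76) (nat_lit 7939522959) (nat_lit 24) (nat_lit 4) (nat_lit 25) (nat_lit 5) (nat_lit 25) (nat_lit 4) (nat_lit 461) (nat_lit 318) (nat_lit 241))))))) (XT.nd (nat_lit 1092) (nat_lit 380) (nat_lit 0) (XT.nd (nat_lit 546) (nat_lit 228) (nat_lit 0) (XT.nd (nat_lit 234) (nat_lit 152) (nat_lit 0) (XT.nd (nat_lit 78) (nat_lit 152) (nat_lit 0) (XT.lf (nat_lit 0) (nat_lit 18463272195) (nat_lit 76) (nat_lit 16896090977) (nat_lit 76) (nat_lit 1300603321) (nat_lit 24) (nat_lit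 4) (nat_lit 25) (nat_lit 5) (nat_lit 25) (nat_lit 4) (nat_lit 462) (nat_lit 318) (nat_lit 240)) (XT.nd (nat_lit 78) (nat_lit 76) (nat_lit 0) (XT.lf (nat_lit 0) (nat_lit 5393871478) (nat_lit 152) (nat_lit 4696231377) (nat_lit 76) (nat_lit 27453433194) (nat_lit 23) (nat_lit 5) (nat_lit 25) (nat_lit 5) (nat_lit 24) (nat_lit 4) (nat_lit 463) (nat_lit 318) (nat_lit 239)) (XT.lf (nat_lit 0) (nat_lit 9310955947) (nat_lit 76) (nat_lit 3007065785) (nat_lit 152) (nat_lit 26133556420) (nat_lit 22) (nat_lit 5) (nat_lit 23) (nat_lit 5) (nat_lit 24) (nat_lit 4) (nat_lit 464) (nat_lit 318) (nat_lit 238)))) (XT.nd (nat_lit 156) (nat_lit 152) (nat_lit 0) (XT.nd (nat_lit 78) (nat_lit 0) (nat_lit 0) (XT.lf (nat_lit 0) (nat_lit 19504547873) (nat_lit 152) (nat_lit 15659664720) (nat_lit 0) (nat_lit 4221010586) (nat_lit 22) (nat_lit 5) (nat_lit 24) (nat_lit 4) (nat_lit 22) (nat_lit 4) (nat_lit 465) (nat_lit 318) (nat_lit 237)) (XT.lf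 (nat_lit 0) (nat_lit 26902982330) (nat_lit 152) (nat_lit 1869255382) (nat_lit 0) (nat_lit 11574751637) (nat_lit 22) (nat_lit 5) (nat_lit 24) (nat_lit 4) (nat_lit 22) (nat_lit 4) (nat_lit 466) (nat_lit 318) (nat_lit 236))) (XT.nd (nat_lit 78) (nat_lit 76) (nat_lit 0) (XT.lf (nat_lit 0) (nat_lit 12515789573) (nat_lit 76) (nat_lit 22095403853) (nat_lit 76) (nat_lit 6723781503) (nat_lit 21) (nat_lit 4) (nat_lit 22) (nat_lit 5) (nat_lit 22) (nat_lit 4) (nat_lit 467) (nat_lit 318) (nat_lit 235)) (XT.lf (nat_lit 0) (nat_lit 180787288) (nat_lit 152) (nat_lit 15046751976) (nat_lit 76) (nat_lit 27125406731) (nat_lit 20) (nat_lit 5) (nat_lit 22) (nat_lit 5) (nat_lit 21) (nat_lit 4) (nat_lit 468) (nat_lit 318) (nat_lit 234))))) (XT.nd (nat_lit 234) (nat_lit 152) (nat_lit 0) (XT.nd (nat_lit 78) (nat_lit 76) (nat_lit 0) (XT.lf (nat_lit 0) (nat_lit 7125835765) (nat_lit 152) (nat_lit 989204367) (nat_lit 76) (nat_lit 35285365418)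 (nat_lit 20) (nat_lit 5) (nat_lit 22) (nat_lit 5) (nat_lit 21) (nat_lit 4) (nat_lit 469) (nat_lit 318) (nat_lit 233)) (XT.nd (nat_lit 78) (nat_lit 0) (nat_lit 0) (XT.lf (nat_lit 0) (nat_lit 13697664639) (nat_lit 76) (nat_lit 682643302) (nat_lit 152) (nat_lit 30095949788) (nat_lit 19) (nat_lit 5) (nat_lit 20) (nat_lit 5) (nat_lit 21) (nat_lit 4) (nat_lit 470) (nat_lit 318) (nat_lit 232)) (XT.lf (nat_lit 0) (nat_lit 21898976043) (nat_lit 152) (nat_lit 16865535971) (nat_lit 0) (nat_lit 6818477587) (nat_lit 19) (nat_lit 5) (nat_lit 21) (nat_lit 4) (nat_lit 19) (nat_lit 4) (nat_lit 471) (nat_lit 318) (nat_lit 231)))) (XT.nd (nat_lit 156) (nat_lit 76) (nat_lit 0) (XT.nd (nat_lit 78) (nat_lit 76) (nat_lit 0) (XT.lf (nat_lit 0) (nat_lit 29620300633) (nat_lit 152) (nat_lit 2599848504) (nat_lit 0) (nat_lit 14503462348) (nat_lit 19) (nat_lit 5) (nat_lit 21) (nat_lit 4) (nat_lit 19) (nat_lit 4) (nat_lit 472) (nat_lit 318)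 (nat_lit 230)) (XT.lf (nat_lit 0) (nat_lit 12277066240) (nat_lit 76) (nat_lit 25385414946) (nat_lit 76) (nat_lit 10233295274) (nat_lit 18) (nat_lit 4) (nat_lit 19) (nat_lit 5) (nat_lit 19) (nat_lit 4) (nat_lit 473) (nat_lit 318) (nat_lit 229))) (XT.nd (nat_lit 78) (nat_lit 76) (nat_lit 0) (XT.lf (nat_lit 0) (nat_lit 27597821734) (nat_lit 76) (nat_lit 18345863131) (nat_lit 76) (nat_lit 3159489683) (nat_lit 18) (nat_lit 4) (nat_lit 19) (nat_lit 5) (nat_lit 19) (nat_lit 4) (nat_lit 474) (nat_lit 318) (nat_lit 228)) (XT.lf (nat_lit 0) (nat_lit 4018066146) (nat_lit 152) (nat_lit 7062955262) (nat_lit 76) (nat_lit 39265422227) (nat_lit 17) (nat_lit 5) (nat_lit 19) (nat_lit 5) (nat_lit 18) (nat_lit 4) (nat_lit 475) (nat_lit 318) (nat_lit 227)))))) (XT.nd (nat_lit 546) (nat_lit 152) (nat_lit 0) (XT.nd (nat_lit 234) (nat_lit 152) (nat_lit 0) (XT.nd (nat_lit 78) (nat_lit 0) (nat_lit 0) (XT.lf (nat_lit 0) (nat_lit 7882140268)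 (nat_lit 76) (nat_lit 3513947059) (nat_lit 152) (nat_lit 40228526584) (nat_lit 16) (nat_lit 5) (nat_lit 17) (nat_lit 5) (nat_lit 18) (nat_lit 4) (nat_lit 476) (nat_lit 318) (nat_lit 226)) (XT.nd (nat_lit 78) (nat_lit 0) (nat_lit 0) (XT.lf (nat_lit 0) (nat_lit 19081531210) (nat_lit 152) (nat_lit 29613605659) (nat_lit 0) (nat_lit 4243410760) (nat_lit 16) (nat_lit 5) (nat_lit 18) (nat_lit 4) (nat_lit 16) (nat_lit 4) (nat_lit 477) (nat_lit 318) (nat_lit 225)) (XT.lf (nat_lit 0) (nat_lit 27006029565) (nat_lit 152) (nat_lit 15147254323) (nat_lit 0) (nat_lit 12138361508) (nat_lit 16) (nat_lit 5) (nat_lit 18) (nat_lit 4) (nat_lit 16) (nat_lit 4) (nat_lit 478) (nat_lit 318) (nat_lit 224)))) (XT.nd (nat_lit 156) (nat_lit 76) (nat_lit 0) (XT.nd (nat_lit 78) (nat_lit 76) (nat_lit 0) (XT.lf (nat_lit 0) (nat_lit 35142728502) (nat_lit 152) (nat_lit 297000926) (nat_lit 0) (nat_lit 20246373448) (nat_lit 16) (nat_lit 5) (nat_lit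 18) (nat_lit 4) (nat_lit 16) (nat_lit 4) (nat_lit 479) (nat_lit 318) (nat_lit 223)) (XT.lf (nat_lit 0) (nat_lit 15247667391) (nat_lit 76) (nat_lit 28397640274) (nat_lit 76) (nat_lit 13473433767) (nat_lit 15) (nat_lit 4) (nat_lit 16) (nat_lit 5) (nat_lit 16) (nat_lit 4) (nat_lit 480) (nat_lit 318) (nat_lit 222))) (XT.nd (nat_lit 78) (nat_lit 76) (nat_lit 0) (XT.lf (nat_lit 0) (nat_lit 31216611157) (nat_lit 76) (nat_lit 21164820708) (nat_lit 76) (nat_lit 6213573955) (nat_lit 15) (nat_lit 4) (nat_lit 16) (nat_lit 5) (nat_lit 16) (nat_lit 4) (nat_lit 481) (nat_lit 318) (nat_lit 221)) (XT.lf (nat_lit 0) (nat_lit 1215361424) (nat_lit 152) (nat_lit 12510315728) (nat_lit 76) (nat_lit 46390238723) (nat_lit 14) (nat_lit 5) (nat_lit 16) (nat_lit 5) (nat_lit 15) (nat_lit 4) (nat_lit 482) (nat_lit 318) (nat_lit 220))))) (XT.nd (nat_lit 312) (nat_lit 76) (nat_lit 0) (XT.nd (nat_lit 156) (nat_lit 0) (nat_lit 0) (XT.nd (nat_lit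 78) (nat_lit 0) (nat_lit 0) (XT.lf (nat_lit 0) (nat_lit 2750095229) (nat_lit 76) (nat_lit 5995265694) (nat_lit 152) (nat_lit 52935154858) (nat_lit 13) (nat_lit 5) (nat_lit 14) (nat_lit 5) (nat_lit 15) (nat_lit 4) (nat_lit 483) (nat_lit 318) (nat_lit 219)) (XT.lf (nat_lit 0) (nat_lit 16624425972) (nat_lit 152) (nat_lit 44629539535) (nat_lit 0) (nat_lit 2034393836) (nat_lit 13) (nat_lit 5) (nat_lit 15) (nat_lit 4) (nat_lit 13) (nat_lit 4) (nat_lit 484) (nat_lit 318) (nat_lit 218))) (XT.nd (nat_lit 78) (nat_lit 0) (nat_lit 0) (XT.lf (nat_lit 0) (nat_lit 24776577915) (nat_lit 152) (nat_lit 30003538834) (nat_lit 0) (nat_lit 10163220625) (nat_lit 13) (nat_lit 5) (nat_lit 15) (nat_lit 4) (nat_lit 13) (nat_lit 4) (nat_lit 485) (nat_lit 318) (nat_lit 217)) (XT.lf (nat_lit 0) (nat_lit 33151309830) (nat_lit 152) (nat_lit 14982008286) (nat_lit 0) (nat_lit 18515306760) (nat_lit 13) (nat_lit 5) (nat_lit 15) (nat_lit 4) (nat_lit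 13) (nat_lit 4) (nat_lit 486) (nat_lit 318) (nat_lit 216)))) (XT.nd (nat_lit 156) (nat_lit 0) (nat_lit 0) (XT.nd (nat_lit 78) (nat_lit 0) (nat_lit 0) (XT.lf (nat_lit 0) (nat_lit 457097333) (nat_lit 76) (nat_lit 41303236009) (nat_lit 76) (nat_lit 26645246745) (nat_lit 12) (nat_lit 4) (nat_lit 13) (nat_lit 5) (nat_lit 13) (nat_lit 4) (nat_lit 487) (nat_lit 318) (nat_lit 215)) (XT.lf (nat_lit 0) (nat_lit 16624913813) (nat_lit 76) (nat_lit 34132880392) (nat_lit 76) (nat_lit 19453545307) (nat_lit 12) (nat_lit 4) (nat_lit 13) (nat_lit 5) (nat_lit 13) (nat_lit 4) (nat_lit 488) (nat_lit 318) (nat_lit 214))) (XT.nd (nat_lit 78) (nat_lit 0) (nat_lit 0) (XT.lf (nat_lit 0) (nat_lit 33237397032) (nat_lit 76) (nat_lit 26767274813) (nat_lit 76) (nat_lit 12067215631) (nat_lit 12) (nat_lit 4) (nat_lit 13) (nat_lit 5) (nat_lit 13) (nat_lit 4) (nat_lit 489) (nat_lit 318) (nat_lit 213)) (XT.lf (nat_lit 0) (nat_lit 50309062750) (nat_lit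 76) (nat_lit 19199983304) (nat_lit 76) (nat_lit 4479803640) (nat_lit 12) (nat_lit 4) (nat_lit 13) (nat_lit 5) (nat_lit 13) (nat_lit 4) (nat_lit 490) (nat_lit 318) (nat_lit 212))))))))
noncomputable def xc53 : XT := (XT.nd (nat_lit 46722) (nat_lit 0) (nat_lit 2432) (XT.nd (nat_lit 45552) (nat_lit 0) (nat_lit 5548) (XT.nd (nat_lit 45006) (nat_lit 0) (nat_lit 8664) (XT.nd (nat_lit 44694) (nat_lit 0) (nat_lit 10792) (XT.nd (nat_lit 78) (nat_lit 76) (nat_lit 0) (XT.lf (nat_lit 0) (nat_lit 3250626598) (nat_lit 152) (nat_lit 8140942117) (nat_lit 76) (nat_lit 64571376403) (nat_lit 11) (nat_lit 5) (nat_lit 13) (nat_lit 5) (nat_lit 12) (nat_lit 4) (nat_lit 491) (nat_lit 318) (nat_lit 211)) (XT.nd (nat_lit 44538) (nat_lit 0) (nat_lit 12084) (XT.lf (nat_lit 0) (nat_lit 7937278554) (nat_lit 76) (nat_lit 3242996397) (nat_lit 152) (nat_lit 66812937958) (nat_lit 10) (nat_lit 5) (nat_lit 11) (nat_lit 5) (nat_lit 12) (nat_lit 4)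 (nat_lit 492) (nat_lit 318) (nat_lit 210)) (XT.lf (nat_lit 0) (nat_lit 1394382889) (nat_lit 456) (nat_lit 1404965152) (nat_lit 0) (nat_lit 1394382889) (nat_lit 169) (nat_lit 5) (nat_lit 175) (nat_lit 4) (nat_lit 169) (nat_lit 4) (nat_lit 382) (nat_lit 319) (nat_lit 319)))) (XT.nd (nat_lit 156) (nat_lit 456) (nat_lit 0) (XT.nd (nat_lit 78) (nat_lit 456) (nat_lit 0) (XT.lf (nat_lit 0) (nat_lit 4120923549) (nat_lit 380) (nat_lit 2725982406) (nat_lit 380) (nat_lit 1637895141) (nat_lit 164) (nat_lit 4) (nat_lit 169) (nat_lit 5) (nat_lit 169) (nat_lit 4) (nat_lit 383) (nat_lit 319) (nat_lit 318)) (XT.lf (nat_lit 0) (nat_lit 2350567389) (nat_lit 456) (nat_lit 5966575858) (nat_lit 0) (nat_lit 268545383) (nat_lit 158) (nat_lit 5) (nat_lit 164) (nat_lit 4) (nat_lit 158) (nat_lit 4) (nat_lit 384) (nat_lit 319) (nat_lit 317))) (XT.nd (nat_lit 78) (nat_lit 76) (nat_lit 0) (XT.lf (nat_lit 0) (nat_lit 1049683555) (nat_lit 380)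 (nat_lit 5358875439) (nat_lit 380) (nat_lit 2281099448) (nat_lit 153) (nat_lit 4) (nat_lit 158) (nat_lit 5) (nat_lit 158) (nat_lit 4) (nat_lit 385) (nat_lit 319) (nat_lit 316)) (XT.lf (nat_lit 0) (nat_lit 1719200941) (nat_lit 456) (nat_lit 554549521) (nat_lit 76) (nat_lit 6523626247) (nat_lit 152) (nat_lit 5) (nat_lit 158) (nat_lit 5) (nat_lit 153) (nat_lit 4) (nat_lit 386) (nat_lit 319) (nat_lit 315))))) (XT.nd (nat_lit 234) (nat_lit 1064) (nat_lit 0) (XT.nd (nat_lit 78) (nat_lit 760) (nat_lit 0) (XT.lf (nat_lit 0) (nat_lit 5772003878) (nat_lit 380) (nat_lit 2202296395) (nat_lit 0) (nat_lit 934022262) (nat_lit 148) (nat_lit 5) (nat_lit 153) (nat_lit 4) (nat_lit 148) (nat_lit 4) (nat_lit 387) (nat_lit 319) (nat_lit 314)) (XT.nd (nat_lit 78) (nat_lit 304) (nat_lit 0) (XT.lf (nat_lit 0) (nat_lit 888608224) (nat_lit 456) (nat_lit 3918821439) (nat_lit 76) (nat_lit 4215437894) (nat_lit 142) (nat_lit 5) (nat_lit 148)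 (nat_lit 5) (nat_lit 143) (nat_lit 4) (nat_lit 388) (nat_lit 319) (nat_lit 313)) (XT.lf (nat_lit 0) (nat_lit 3432158738) (nat_lit 304) (nat_lit 1500748161) (nat_lit 380) (nat_lit 4208182411) (nat_lit 138) (nat_lit 5) (nat_lit 142) (nat_lit 5) (nat_lit 143) (nat_lit 4) (nat_lit 389) (nat_lit 319) (nat_lit 312)))) (XT.nd (nat_lit 156) (nat_lit 684) (nat_lit 0) (XT.nd (nat_lit 78) (nat_lit 76) (nat_lit 0) (XT.lf (nat_lit 0) (nat_lit 1697655600) (nat_lit 304) (nat_lit 7382676207) (nat_lit 304) (nat_lit 183093145) (nat_lit 134) (nat_lit 4) (nat_lit 138) (nat_lit 5) (nat_lit 138) (nat_lit 4) (nat_lit 390) (nat_lit 319) (nat_lit 311)) (XT.lf (nat_lit 0) (nat_lit 3866154444) (nat_lit 380) (nat_lit 137346930) (nat_lit 76) (nat_lit 5385384462) (nat_lit 133) (nat_lit 5) (nat_lit 138) (nat_lit 5) (nat_lit 134) (nat_lit 4) (nat_lit 391) (nat_lit 319) (nat_lit 310))) (XT.nd (nat_lit 78) (nat_lit 380) (nat_lit 0) (XT.lf (nat_lit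 0) (nat_lit 7523399183) (nat_lit 304) (nat_lit 492463945) (nat_lit 380) (nat_lit 1502732483) (nat_lit 129) (nat_lit 5) (nat_lit 133) (nat_lit 5) (nat_lit 134) (nat_lit 4) (nat_lit 392) (nat_lit 319) (nat_lit 309)) (XT.lf (nat_lit 0) (nat_lit 2583887454) (nat_lit 380) (nat_lit 3968045796) (nat_lit 76) (nat_lit 3099596113) (nat_lit 124) (nat_lit 5) (nat_lit 129) (nat_lit 5) (nat_lit 125) (nat_lit 4) (nat_lit 393) (nat_lit 319) (nat_lit 308)))))) (XT.nd (nat_lit 546) (nat_lit 1444) (nat_lit 0) (XT.nd (nat_lit 234) (nat_lit 1064) (nat_lit 0) (XT.nd (nat_lit 78) (nat_lit 380) (nat_lit 0) (XT.lf (nat_lit 0) (nat_lit 3762173381) (nat_lit 228) (nat_lit 2973744116) (nat_lit 304) (nat_lit 3052914541) (nat_lit 121) (nat_lit 5) (nat_lit 124) (nat_lit 5) (nat_lit 125) (nat_lit 4) (nat_lit 394) (nat_lit 319) (nat_lit 307)) (XT.nd (nat_lit 78) (nat_lit 0) (nat_lit 0) (XT.lf (nat_lit 0) (nat_lit 1037607552) (nat_lit 380) (nat_lit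 8175015065) (nat_lit 76) (nat_lit 718041628) (nat_lit 116) (nat_lit 5) (nat_lit 121) (nat_lit 5) (nat_lit 117) (nat_lit 4) (nat_lit 395) (nat_lit 319) (nat_lit 306)) (XT.lf (nat_lit 0) (nat_lit 5193190077) (nat_lit 380) (nat_lit 378319132) (nat_lit 76) (nat_lit 4504240456) (nat_lit 116) (nat_lit 5) (nat_lit 121) (nat_lit 5) (nat_lit 117) (nat_lit 4) (nat_lit 396) (nat_lit 319) (nat_lit 305)))) (XT.nd (nat_lit 156) (nat_lit 532) (nat_lit 0) (XT.nd (nat_lit 78) (nat_lit 304) (nat_lit 0) (XT.lf (nat_lit 0) (nat_lit 7667838963) (nat_lit 228) (nat_lit 1794651142) (nat_lit 304) (nat_lit 763041781) (nat_lit 113) (nat_lit 5) (nat_lit 116) (nat_lit 5) (nat_lit 117) (nat_lit 4) (nat_lit 397) (nat_lit 319) (nat_lit 304)) (XT.lf (nat_lit 0) (nat_lit 3405351217) (nat_lit 304) (nat_lit 4876907404) (nat_lit 76) (nat_lit 2096764268) (nat_lit 109) (nat_lit 5) (nat_lit 113) (nat_lit 5) (nat_lit 110) (nat_lit 4) (nat_lit 398) (nat_lit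 319) (nat_lit 303))) (XT.nd (nat_lit 78) (nat_lit 304) (nat_lit 0) (XT.lf (nat_lit 0) (nat_lit 3221942807) (nat_lit 228) (nat_lit 4452726043) (nat_lit 304) (nat_lit 2862501255) (nat_lit 106) (nat_lit 5) (nat_lit 109) (nat_lit 5) (nat_lit 110) (nat_lit 4) (nat_lit 399) (nat_lit 319) (nat_lit 302)) (XT.lf (nat_lit 0) (nat_lit 832208953) (nat_lit 228) (nat_lit 487461514) (nat_lit 304) (nat_lit 9380776024) (nat_lit 102) (nat_lit 5) (nat_lit 105) (nat_lit 5) (nat_lit 106) (nat_lit 5) (nat_lit 400) (nat_lit 319) (nat_lit 301))))) (XT.nd (nat_lit 312) (nat_lit 760) (nat_lit 0) (XT.nd (nat_lit 156) (nat_lit 456) (nat_lit 0) (XT.nd (nat_lit 78) (nat_lit 228) (nat_lit 0) (XT.lf (nat_lit 0) (nat_lit 5596289802) (nat_lit 304) (nat_lit 1692178917) (nat_lit 76) (nat_lit 3578519905) (nat_lit 102) (nat_lit 5) (nat_lit 106) (nat_lit 5) (nat_lit 103) (nat_lit 4) (nat_lit 401) (nat_lit 319) (nat_lit 300)) (XT.lf (nat_lit 0) (nat_lit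 6723347496) (nat_lit 228) (nat_lit 3267063853) (nat_lit 304) (nat_lit 1048452361) (nat_lit 99) (nat_lit 5) (nat_lit 102) (nat_lit 5) (nat_lit 103) (nat_lit 4) (nat_lit 402) (nat_lit 319) (nat_lit 299))) (XT.nd (nat_lit 78) (nat_lit 152) (nat_lit 0) (XT.lf (nat_lit 0) (nat_lit 3221798931) (nat_lit 304) (nat_lit 7097643819) (nat_lit 76) (nat_lit 895940340) (nat_lit 95) (nat_lit 5) (nat_lit 99) (nat_lit 5) (nat_lit 96) (nat_lit 4) (nat_lit 403) (nat_lit 319) (nat_lit 298)) (XT.lf (nat_lit 0) (nat_lit 1346614392) (nat_lit 152) (nat_lit 6262368817) (nat_lit 228) (nat_lit 3787618185) (nat_lit 93) (nat_lit 5) (nat_lit 95) (nat_lit 5) (nat_lit 96) (nat_lit 4) (nat_lit 404) (nat_lit 319) (nat_lit 297)))) (XT.nd (nat_lit 156) (nat_lit 456) (nat_lit 0) (XT.nd (nat_lit 78) (nat_lit 228) (nat_lit 0) (XT.lf (nat_lit 0) (nat_lit 527139083) (nat_lit 228) (nat_lit 1530705620) (nat_lit 76) (nat_lit 9525468414) (nat_lit 92) (nat_lit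 5) (nat_lit 95) (nat_lit 5) (nat_lit 93) (nat_lit 5) (nat_lit 405) (nat_lit 319) (nat_lit 296)) (XT.lf (nat_lit 0) (nat_lit 4910157187) (nat_lit 304) (nat_lit 4579099344) (nat_lit 76) (nat_lit 2284806979) (nat_lit 89) (nat_lit 5) (nat_lit 93) (nat_lit 5) (nat_lit 90) (nat_lit 4) (nat_lit 406) (nat_lit 319) (nat_lit 295))) (XT.nd (nat_lit 78) (nat_lit 304) (nat_lit 0) (XT.lf (nat_lit 0) (nat_lit 4174664879) (nat_lit 152) (nat_lit 5249778851) (nat_lit 228) (nat_lit 2546109755) (nat_lit 87) (nat_lit 5) (nat_lit 89) (nat_lit 5) (nat_lit 90) (nat_lit 4) (nat_lit 407) (nat_lit 319) (nat_lit 294)) (XT.lf (nat_lit 0) (nat_lit 983588348) (nat_lit 228) (nat_lit 860579142) (nat_lit 304) (nat_lit 10328830811) (nat_lit 83) (nat_lit 5) (nat_lit 86) (nat_lit 5) (nat_lit 87) (nat_lit 5) (nat_lit 408) (nat_lit 319) (nat_lit 293))))))) (XT.nd (nat_lit 1092) (nat_lit 1444) (nat_lit 0) (XT.nd (nat_lit 546) (nat_lit 760) (nat_lit 0)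 (XT.nd (nat_lit 234) (nat_lit 532) (nat_lit 0) (XT.nd (nat_lit 78) (nat_lit 380) (nat_lit 0) (XT.lf (nat_lit 0) (nat_lit 6354019976) (nat_lit 304) (nat_lit 2384769384) (nat_lit 76) (nat_lit 3640809120) (nat_lit 83) (nat_lit 5) (nat_lit 87) (nat_lit 5) (nat_lit 84) (nat_lit 4) (nat_lit 409) (nat_lit 319) (nat_lit 292)) (XT.nd (nat_lit 78) (nat_lit 228) (nat_lit 0) (XT.lf (nat_lit 0) (nat_lit 6678927667) (nat_lit 152) (nat_lit 4319519757) (nat_lit 228) (nat_lit 1593980104) (nat_lit 81) (nat_lit 5) (nat_lit 83) (nat_lit 5) (nat_lit 84) (nat_lit 4) (nat_lit 410) (nat_lit 319) (nat_lit 291)) (XT.lf (nat_lit 0) (nat_lit 2896579419) (nat_lit 228) (nat_lit 9655667118) (nat_lit 76) (nat_lit 259027590) (nat_lit 78) (nat_lit 5) (nat_lit 81) (nat_lit 5) (nat_lit 79) (nat_lit 4) (nat_lit 411) (nat_lit 319) (nat_lit 290)))) (XT.nd (nat_lit 156) (nat_lit 380) (nat_lit 0) (XT.nd (nat_lit 78) (nat_lit 152) (nat_lit 0) (XT.lf (nat_lit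 0) (nat_lit 7520061715) (nat_lit 228) (nat_lit 603558652) (nat_lit 76) (nat_lit 4911693456) (nat_lit 78) (nat_lit 5) (nat_lit 81) (nat_lit 5) (nat_lit 79) (nat_lit 4) (nat_lit 412) (nat_lit 319) (nat_lit 289)) (XT.lf (nat_lit 0) (nat_lit 8767379453) (nat_lit 152) (nat_lit 3528437602) (nat_lit 228) (nat_lit 969858811) (nat_lit 76) (nat_lit 5) (nat_lit 78) (nat_lit 5) (nat_lit 79) (nat_lit 4) (nat_lit 413) (nat_lit 319) (nat_lit 288))) (XT.nd (nat_lit 78) (nat_lit 152) (nat_lit 0) (XT.lf (nat_lit 0) (nat_lit 3633792029) (nat_lit 228) (nat_lit 8650142007) (nat_lit 76) (nat_lit 1218122202) (nat_lit 73) (nat_lit 5) (nat_lit 76) (nat_lit 5) (nat_lit 74) (nat_lit 4) (nat_lit 414) (nat_lit 319) (nat_lit 287)) (XT.lf (nat_lit 0) (nat_lit 674465813) (nat_lit 152) (nat_lit 7698721333) (nat_lit 228) (nat_lit 5371546476) (nat_lit 71) (nat_lit 5) (nat_lit 73) (nat_lit 5) (nat_lit 74) (nat_lit 4) (nat_lit 415) (nat_lit 319) (nat_lit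 286))))) (XT.nd (nat_lit 234) (nat_lit 380) (nat_lit 0) (XT.nd (nat_lit 78) (nat_lit 380) (nat_lit 0) (XT.lf (nat_lit 0) (nat_lit 10332966083) (nat_lit 152) (nat_lit 2939843018) (nat_lit 228) (nat_lit 721348176) (nat_lit 71) (nat_lit 5) (nat_lit 73) (nat_lit 5) (nat_lit 74) (nat_lit 4) (nat_lit 416) (nat_lit 319) (nat_lit 285)) (XT.nd (nat_lit 78) (nat_lit 152) (nat_lit 0) (XT.lf (nat_lit 0) (nat_lit 3997864646) (nat_lit 228) (nat_lit 8282575679) (nat_lit 76) (nat_lit 1969190065) (nat_lit 68) (nat_lit 5) (nat_lit 71) (nat_lit 5) (nat_lit 69) (nat_lit 4) (nat_lit 417) (nat_lit 319) (nat_lit 284)) (XT.lf (nat_lit 0) (nat_lit 1315325121) (nat_lit 152) (nat_lit 7540281699) (nat_lit 228) (nat_lit 5656609752) (nat_lit 66) (nat_lit 5) (nat_lit 68) (nat_lit 5) (nat_lit 69) (nat_lit 4) (nat_lit 418) (nat_lit 319) (nat_lit 283)))) (XT.nd (nat_lit 156) (nat_lit 152) (nat_lit 0) (XT.nd (nat_lit 78) (nat_lit 228) (nat_lit 0)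 (XT.lf (nat_lit 0) (nat_lit 11250870116) (nat_lit 152) (nat_lit 2625028042) (nat_lit 228) (nat_lit 906284161) (nat_lit 66) (nat_lit 5) (nat_lit 68) (nat_lit 5) (nat_lit 69) (nat_lit 4) (nat_lit 419) (nat_lit 319) (nat_lit 282)) (XT.lf (nat_lit 0) (nat_lit 3928604260) (nat_lit 228) (nat_lit 8690373695) (nat_lit 76) (nat_lit 2439530209) (nat_lit 63) (nat_lit 5) (nat_lit 66) (nat_lit 5) (nat_lit 64) (nat_lit 4) (nat_lit 420) (nat_lit 319) (nat_lit 281))) (XT.nd (nat_lit 78) (nat_lit 0) (nat_lit 0) (XT.lf (nat_lit 0) (nat_lit 1164115841) (nat_lit 152) (nat_lit 7734164392) (nat_lit 228) (nat_lit 6444341602) (nat_lit 61) (nat_lit 5) (nat_lit 63) (nat_lit 5) (nat_lit 64) (nat_lit 4) (nat_lit 421) (nat_lit 319) (nat_lit 280)) (XT.lf (nat_lit 0) (nat_lit 11375360181) (nat_lit 152) (nat_lit 2664980581) (nat_lit 228) (nat_lit 1594225089) (nat_lit 61) (nat_lit 5) (nat_lit 63) (nat_lit 5) (nat_lit 64) (nat_lit 4) (nat_lit 422)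 (nat_lit 319) (nat_lit 279)))))) (XT.nd (nat_lit 546) (nat_lit 608) (nat_lit 0) (XT.nd (nat_lit 234) (nat_lit 532) (nat_lit 0) (XT.nd (nat_lit 78) (nat_lit 76) (nat_lit 0) (XT.lf (nat_lit 0) (nat_lit 3353737670) (nat_lit 228) (nat_lit 10033712932) (nat_lit 76) (nat_lit 2546280640) (nat_lit 58) (nat_lit 5) (nat_lit 61) (nat_lit 5) (nat_lit 59) (nat_lit 4) (nat_lit 423) (nat_lit 319) (nat_lit 278)) (XT.nd (nat_lit 78) (nat_lit 0) (nat_lit 0) (XT.lf (nat_lit 0) (nat_lit 54067318) (nat_lit 76) (nat_lit 8371416256) (nat_lit 152) (nat_lit 7815698164) (nat_lit 57) (nat_lit 5) (nat_lit 58) (nat_lit 5) (nat_lit 59) (nat_lit 4) (nat_lit 424) (nat_lit 319) (nat_lit 277)) (XT.lf (nat_lit 0) (nat_lit 10536152284) (nat_lit 76) (nat_lit 3152333562) (nat_lit 152) (nat_lit 2868201902) (nat_lit 57) (nat_lit 5) (nat_lit 58) (nat_lit 5) (nat_lit 59) (nat_lit 4) (nat_lit 425) (nat_lit 319) (nat_lit 276)))) (XT.nd (nat_lit 156) (nat_lit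 304) (nat_lit 0) (XT.nd (nat_lit 78) (nat_lit 0) (nat_lit 0) (XT.lf (nat_lit 0) (nat_lit 2187085133) (nat_lit 228) (nat_lit 12499445992) (nat_lit 76) (nat_lit 2194405110) (nat_lit 54) (nat_lit 5) (nat_lit 57) (nat_lit 5) (nat_lit 55) (nat_lit 4) (nat_lit 426) (nat_lit 319) (nat_lit 275)) (XT.lf (nat_lit 0) (nat_lit 7368210043) (nat_lit 228) (nat_lit 2166446838) (nat_lit 76) (nat_lit 7678453221) (nat_lit 54) (nat_lit 5) (nat_lit 57) (nat_lit 5) (nat_lit 55) (nat_lit 4) (nat_lit 427) (nat_lit 319) (nat_lit 274))) (XT.nd (nat_lit 78) (nat_lit 228) (nat_lit 0) (XT.lf (nat_lit 0) (nat_lit 8534202378) (nat_lit 76) (nat_lit 4193591149) (nat_lit 152) (nat_lit 4826769462) (nat_lit 53) (nat_lit 5) (nat_lit 54) (nat_lit 5) (nat_lit 55) (nat_lit 4) (nat_lit 428) (nat_lit 319) (nat_lit 273)) (XT.lf (nat_lit 0) (nat_lit 326421926) (nat_lit 228) (nat_lit 16305617135) (nat_lit 76) (nat_lit 1274390429) (nat_lit 50) (nat_lit 5)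 (nat_lit 53) (nat_lit 5) (nat_lit 51) (nat_lit 4) (nat_lit 429) (nat_lit 319) (nat_lit 272))))) (XT.nd (nat_lit 312) (nat_lit 304) (nat_lit 0) (XT.nd (nat_lit 156) (nat_lit 228) (nat_lit 0) (XT.nd (nat_lit 78) (nat_lit 76) (nat_lit 0) (XT.lf (nat_lit 0) (nat_lit 5611996713) (nat_lit 228) (nat_lit 5739990026) (nat_lit 76) (nat_lit 6913191688) (nat_lit 50) (nat_lit 5) (nat_lit 53) (nat_lit 5) (nat_lit 51) (nat_lit 4) (nat_lit 430) (nat_lit 319) (nat_lit 271)) (XT.lf (nat_lit 0) (nat_lit 5136836925) (nat_lit 76) (nat_lit 5911680650) (nat_lit 152) (nat_lit 7586404934) (nat_lit 49) (nat_lit 5) (nat_lit 50) (nat_lit 5) (nat_lit 51) (nat_lit 4) (nat_lit 431) (nat_lit 319) (nat_lit 270))) (XT.nd (nat_lit 78) (nat_lit 228) (nat_lit 0) (XT.lf (nat_lit 0) (nat_lit 16352664979) (nat_lit 76) (nat_lit 297083307) (nat_lit 152) (nat_lit 2365966124) (nat_lit 49) (nat_lit 5) (nat_lit 50) (nat_lit 5) (nat_lit 51) (nat_lit 4) (nat_lit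 432) (nat_lit 319) (nat_lit 269)) (XT.lf (nat_lit 0) (nat_lit 3032460486) (nat_lit 228) (nat_lit 10928075475) (nat_lit 76) (nat_lit 5444125519) (nat_lit 46) (nat_lit 5) (nat_lit 49) (nat_lit 5) (nat_lit 47) (nat_lit 4) (nat_lit 433) (nat_lit 319) (nat_lit 268)))) (XT.nd (nat_lit 156) (nat_lit 228) (nat_lit 0) (XT.nd (nat_lit 78) (nat_lit 0) (nat_lit 0) (XT.lf (nat_lit 0) (nat_lit 72113499) (nat_lit 76) (nat_lit 8448886001) (nat_lit 152) (nat_lit 11284306896) (nat_lit 45) (nat_lit 5) (nat_lit 46) (nat_lit 5) (nat_lit 47) (nat_lit 4) (nat_lit 434) (nat_lit 319) (nat_lit 267)) (XT.lf (nat_lit 0) (nat_lit 11524143840) (nat_lit 76) (nat_lit 2705945753) (nat_lit 152) (nat_lit 5986207704) (nat_lit 45) (nat_lit 5) (nat_lit 46) (nat_lit 5) (nat_lit 47) (nat_lit 4) (nat_lit 435) (nat_lit 319) (nat_lit 266))) (XT.nd (nat_lit 78) (nat_lit 76) (nat_lit 0) (XT.lf (nat_lit 0) (nat_lit 2599648901) (nat_lit 152) (nat_lit 17513326030)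 (nat_lit 152) (nat_lit 526570704) (nat_lit 43) (nat_lit 4) (nat_lit 45) (nat_lit 5) (nat_lit 45) (nat_lit 4) (nat_lit 436) (nat_lit 319) (nat_lit 265)) (XT.lf (nat_lit 0) (nat_lit 5059587806) (nat_lit 228) (nat_lit 6841553178) (nat_lit 76) (nat_lit 9171018092) (nat_lit 42) (nat_lit 5) (nat_lit 45) (nat_lit 5) (nat_lit 43) (nat_lit 4) (nat_lit 437) (nat_lit 319) (nat_lit 264))))))))
noncomputable def xc54 : XT := (XT.nd (nat_lit 2262) (nat_lit 760) (nat_lit 0) (XT.nd (nat_lit 1092) (nat_lit 684) (nat_lit 0) (XT.nd (nat_lit 546) (nat_lit 304) (nat_lit 0) (XT.nd (nat_lit 234) (nat_lit 228) (nat_lit 0) (XT.nd (nat_lit 78) (nat_lit 228) (nat_lit 0) (XT.lf (nat_lit 0) (nat_lit 4681376423) (nat_lit 76) (nat_lit 6114678257) (nat_lit 152) (nat_lit 10721743716) (nat_lit 41) (nat_lit 5) (nat_lit 42) (nat_lit 5) (nat_lit 43) (nat_lit 4) (nat_lit 438) (nat_lit 319) (nat_lit 263)) (XT.nd (nat_lit 78) (nat_lit 228) (nat_lit 0)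 (XT.lf (nat_lit 0) (nat_lit 16593693734) (nat_lit 76) (nat_lit 128892576) (nat_lit 152) (nat_lit 5253684470) (nat_lit 41) (nat_lit 5) (nat_lit 42) (nat_lit 5) (nat_lit 43) (nat_lit 4) (nat_lit 439) (nat_lit 319) (nat_lit 262)) (XT.lf (nat_lit 0) (nat_lit 441084448) (nat_lit 228) (nat_lit 16064060411) (nat_lit 76) (nat_lit 5941144619) (nat_lit 38) (nat_lit 5) (nat_lit 41) (nat_lit 5) (nat_lit 39) (nat_lit 4) (nat_lit 440) (nat_lit 319) (nat_lit 261)))) (XT.nd (nat_lit 156) (nat_lit 152) (nat_lit 0) (XT.nd (nat_lit 78) (nat_lit 76) (nat_lit 0) (XT.lf (nat_lit 0) (nat_lit 6207282274) (nat_lit 228) (nat_lit 4467161453) (nat_lit 76) (nat_lit 12254221870) (nat_lit 38) (nat_lit 5) (nat_lit 41) (nat_lit 5) (nat_lit 39) (nat_lit 4) (nat_lit 441) (nat_lit 319) (nat_lit 260)) (XT.lf (nat_lit 0) (nat_lit 7532525105) (nat_lit 76) (nat_lit 4637816035) (nat_lit 152) (nat_lit 11254458278) (nat_lit 37) (nat_lit 5) (nat_lit 38)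 (nat_lit 5) (nat_lit 39) (nat_lit 4) (nat_lit 442) (nat_lit 319) (nat_lit 259))) (XT.nd (nat_lit 78) (nat_lit 152) (nat_lit 0) (XT.lf (nat_lit 0) (nat_lit 18324624427) (nat_lit 152) (nat_lit 4058553146) (nat_lit 0) (nat_lit 1552272297) (nat_lit 37) (nat_lit 5) (nat_lit 39) (nat_lit 4) (nat_lit 37) (nat_lit 4) (nat_lit 443) (nat_lit 319) (nat_lit 258)) (XT.lf (nat_lit 0) (nat_lit 276233165) (nat_lit 152) (nat_lit 16307984213) (nat_lit 76) (nat_lit 7874804790) (nat_lit 35) (nat_lit 5) (nat_lit 37) (nat_lit 5) (nat_lit 36) (nat_lit 4) (nat_lit 444) (nat_lit 319) (nat_lit 257))))) (XT.nd (nat_lit 234) (nat_lit 228) (nat_lit 0) (XT.nd (nat_lit 78) (nat_lit 76) (nat_lit 0) (XT.lf (nat_lit 0) (nat_lit 6221574109) (nat_lit 152) (nat_lit 4332520165) (nat_lit 76) (nat_lit 14442709874) (nat_lit 35) (nat_lit 5) (nat_lit 37) (nat_lit 5) (nat_lit 36) (nat_lit 4) (nat_lit 445) (nat_lit 319) (nat_lit 256)) (XT.nd (nat_lit 78)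 (nat_lit 0) (nat_lit 0) (XT.lf (nat_lit 0) (nat_lit 8072743206) (nat_lit 76) (nat_lit 4304553004) (nat_lit 152) (nat_lit 13172465055) (nat_lit 34) (nat_lit 5) (nat_lit 35) (nat_lit 5) (nat_lit 36) (nat_lit 4) (nat_lit 446) (nat_lit 319) (nat_lit 255)) (XT.lf (nat_lit 0) (nat_lit 18736897357) (nat_lit 152) (nat_lit 5287049473) (nat_lit 0) (nat_lit 2094786282) (nat_lit 34) (nat_lit 5) (nat_lit 36) (nat_lit 4) (nat_lit 34) (nat_lit 4) (nat_lit 447) (nat_lit 319) (nat_lit 254)))) (XT.nd (nat_lit 156) (nat_lit 76) (nat_lit 0) (XT.nd (nat_lit 78) (nat_lit 76) (nat_lit 0) (XT.lf (nat_lit 0) (nat_lit 7283564348) (nat_lit 76) (nat_lit 18072205704) (nat_lit 76) (nat_lit 1346951728) (nat_lit 33) (nat_lit 4) (nat_lit 34) (nat_lit 5) (nat_lit 34) (nat_lit 4) (nat_lit 448) (nat_lit 319) (nat_lit 253)) (XT.lf (nat_lit 0) (nat_lit 4783781626) (nat_lit 152) (nat_lit 7094898537) (nat_lit 76) (nat_lit 15423853462) (nat_lit 32) (nat_lit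 5) (nat_lit 34) (nat_lit 5) (nat_lit 33) (nat_lit 4) (nat_lit 449) (nat_lit 319) (nat_lit 252))) (XT.nd (nat_lit 78) (nat_lit 0) (nat_lit 0) (XT.lf (nat_lit 0) (nat_lit 5613135131) (nat_lit 76) (nat_lit 5469367592) (nat_lit 152) (nat_lit 16837104860) (nat_lit 31) (nat_lit 5) (nat_lit 32) (nat_lit 5) (nat_lit 33) (nat_lit 4) (nat_lit 450) (nat_lit 319) (nat_lit 251)) (XT.lf (nat_lit 0) (nat_lit 17610694673) (nat_lit 152) (nat_lit 9799030808) (nat_lit 0) (nat_lit 1144254933) (nat_lit 31) (nat_lit 5) (nat_lit 33) (nat_lit 4) (nat_lit 31) (nat_lit 4) (nat_lit 451) (nat_lit 319) (nat_lit 250)))))) (XT.nd (nat_lit 546) (nat_lit 304) (nat_lit 0) (XT.nd (nat_lit 234) (nat_lit 228) (nat_lit 0) (XT.nd (nat_lit 78) (nat_lit 76) (nat_lit 0) (XT.lf (nat_lit 0) (nat_lit 3008339179) (nat_lit 76) (nat_lit 21367979537) (nat_lit 76) (nat_lit 4829819999) (nat_lit 30) (nat_lit 4) (nat_lit 31) (nat_lit 5) (nat_lit 31) (nat_lit 4) (nat_lit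 452) (nat_lit 319) (nat_lit 249)) (XT.nd (nat_lit 78) (nat_lit 0) (nat_lit 0) (XT.lf (nat_lit 0) (nat_lit 1496909369) (nat_lit 152) (nat_lit 13569064388) (nat_lit 76) (nat_lit 14809712095) (nat_lit 29) (nat_lit 5) (nat_lit 31) (nat_lit 5) (nat_lit 30) (nat_lit 4) (nat_lit 453) (nat_lit 319) (nat_lit 248)) (XT.lf (nat_lit 0) (nat_lit 7876129483) (nat_lit 152) (nat_lit 686850344) (nat_lit 76) (nat_lit 22002113788) (nat_lit 29) (nat_lit 5) (nat_lit 31) (nat_lit 5) (nat_lit 30) (nat_lit 4) (nat_lit 454) (nat_lit 319) (nat_lit 247)))) (XT.nd (nat_lit 156) (nat_lit 152) (nat_lit 0) (XT.nd (nat_lit 78) (nat_lit 0) (nat_lit 0) (XT.lf (nat_lit 0) (nat_lit 12755430475) (nat_lit 76) (nat_lit 1774844128) (nat_lit 152) (nat_lit 16742404219) (nat_lit 28) (nat_lit 5) (nat_lit 29) (nat_lit 5) (nat_lit 30) (nat_lit 4) (nat_lit 455) (nat_lit 319) (nat_lit 246)) (XT.lf (nat_lit 0) (nat_lit 21402208096) (nat_lit 152) (nat_lit 5511822462)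 (nat_lit 0) (nat_lit 5086917725) (nat_lit 28) (nat_lit 5) (nat_lit 30) (nat_lit 4) (nat_lit 28) (nat_lit 4) (nat_lit 456) (nat_lit 319) (nat_lit 245))) (XT.nd (nat_lit 78) (nat_lit 76) (nat_lit 0) (XT.lf (nat_lit 0) (nat_lit 7948103813) (nat_lit 76) (nat_lit 20588317255) (nat_lit 76) (nat_lit 4212962683) (nat_lit 27) (nat_lit 4) (nat_lit 28) (nat_lit 5) (nat_lit 28) (nat_lit 4) (nat_lit 457) (nat_lit 319) (nat_lit 244)) (XT.lf (nat_lit 0) (nat_lit 2336640470) (nat_lit 152) (nat_lit 11690289175) (nat_lit 76) (nat_lit 19492110579) (nat_lit 26) (nat_lit 5) (nat_lit 28) (nat_lit 5) (nat_lit 27) (nat_lit 4) (nat_lit 458) (nat_lit 319) (nat_lit 243))))) (XT.nd (nat_lit 312) (nat_lit 152) (nat_lit 0) (XT.nd (nat_lit 156) (nat_lit 76) (nat_lit 0) (XT.nd (nat_lit 78) (nat_lit 0) (nat_lit 0) (XT.lf (nat_lit 0) (nat_lit 1735086834) (nat_lit 76) (nat_lit 7242929143) (nat_lit 152) (nat_lit 25333121655) (nat_lit 25) (nat_lit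 5) (nat_lit 26) (nat_lit 5) (nat_lit 27) (nat_lit 4) (nat_lit 459) (nat_lit 319) (nat_lit 242)) (XT.lf (nat_lit 0) (nat_lit 15732470781) (nat_lit 76) (nat_lit 167885688) (nat_lit 152) (nat_lit 19224191175) (nat_lit 25) (nat_lit 5) (nat_lit 26) (nat_lit 5) (nat_lit 27) (nat_lit 4) (nat_lit 460) (nat_lit 319) (nat_lit 241))) (XT.nd (nat_lit 78) (nat_lit 76) (nat_lit 0) (XT.lf (nat_lit 0) (nat_lit 23063218092) (nat_lit 152) (nat_lit 5950103793) (nat_lit 0) (nat_lit 6948053900) (nat_lit 25) (nat_lit 5) (nat_lit 27) (nat_lit 4) (nat_lit 25) (nat_lit 4) (nat_lit 461) (nat_lit 319) (nat_lit 240)) (XT.lf (nat_lit 0) (nat_lit 7982155019) (nat_lit 76) (nat_lit 22502653397) (nat_lit 76) (nat_lit 6337186381) (nat_lit 24) (nat_lit 4) (nat_lit 25) (nat_lit 5) (nat_lit 25) (nat_lit 4) (nat_lit 462) (nat_lit 319) (nat_lit 239)))) (XT.nd (nat_lit 156) (nat_lit 76) (nat_lit 0) (XT.nd (nat_lit 78) (nat_lit 0) (nat_lit 0) (XT.lf (nat_lit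 0) (nat_lit 438565095) (nat_lit 152) (nat_lit 15324017563) (nat_lit 76) (nat_lit 21944944903) (nat_lit 23) (nat_lit 5) (nat_lit 25) (nat_lit 5) (nat_lit 24) (nat_lit 4) (nat_lit 463) (nat_lit 319) (nat_lit 238)) (XT.lf (nat_lit 0) (nat_lit 7256702843) (nat_lit 152) (nat_lit 1530613170) (nat_lit 76) (nat_lit 29831434619) (nat_lit 23) (nat_lit 5) (nat_lit 25) (nat_lit 5) (nat_lit 24) (nat_lit 4) (nat_lit 464) (nat_lit 319) (nat_lit 237))) (XT.nd (nat_lit 78) (nat_lit 0) (nat_lit 0) (XT.lf (nat_lit 0) (nat_lit 12864373057) (nat_lit 76) (nat_lit 1506132956) (nat_lit 152) (nat_lit 25184071909) (nat_lit 22) (nat_lit 5) (nat_lit 23) (nat_lit 5) (nat_lit 24) (nat_lit 4) (nat_lit 465) (nat_lit 319) (nat_lit 236)) (XT.lf (nat_lit 0) (nat_lit 21738459733) (nat_lit 152) (nat_lit 12916502285) (nat_lit 0) (nat_lit 5862297055) (nat_lit 22) (nat_lit 5) (nat_lit 24) (nat_lit 4) (nat_lit 22) (nat_lit 4) (nat_lit 466) (nat_lit 319)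 (nat_lit 235))))))) (XT.nd (nat_lit 1092) (nat_lit 228) (nat_lit 0) (XT.nd (nat_lit 546) (nat_lit 228) (nat_lit 0) (XT.nd (nat_lit 234) (nat_lit 152) (nat_lit 0) (XT.nd (nat_lit 78) (nat_lit 76) (nat_lit 0) (XT.lf (nat_lit 0) (nat_lit 1217801896) (nat_lit 76) (nat_lit 28104728998) (nat_lit 76) (nat_lit 12186438498) (nat_lit 21) (nat_lit 4) (nat_lit 22) (nat_lit 5) (nat_lit 22) (nat_lit 4) (nat_lit 467) (nat_lit 319) (nat_lit 234)) (XT.nd (nat_lit 78) (nat_lit 76) (nat_lit 0) (XT.lf (nat_lit 0) (nat_lit 15980052428) (nat_lit 76) (nat_lit 21253297101) (nat_lit 76) (nat_lit 5294105803) (nat_lit 21) (nat_lit 4) (nat_lit 22) (nat_lit 5) (nat_lit 22) (nat_lit 4) (nat_lit 468) (nat_lit 319) (nat_lit 233)) (XT.lf (nat_lit 0) (nat_lit 1739176797) (nat_lit 152) (nat_lit 12468371911) (nat_lit 76) (nat_lit 29369345568) (nat_lit 20) (nat_lit 5) (nat_lit 22) (nat_lit 5) (nat_lit 21) (nat_lit 4) (nat_lit 469) (nat_lit 319) (nat_lit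 232)))) (XT.nd (nat_lit 156) (nat_lit 76) (nat_lit 0) (XT.nd (nat_lit 78) (nat_lit 0) (nat_lit 0) (XT.lf (nat_lit 0) (nat_lit 1960920654) (nat_lit 76) (nat_lit 6905273626) (nat_lit 152) (nat_lit 35790376299) (nat_lit 19) (nat_lit 5) (nat_lit 20) (nat_lit 5) (nat_lit 21) (nat_lit 4) (nat_lit 470) (nat_lit 319) (nat_lit 231)) (XT.lf (nat_lit 0) (nat_lit 16310434633) (nat_lit 152) (nat_lit 28751349747) (nat_lit 0) (nat_lit 703751370) (nat_lit 19) (nat_lit 5) (nat_lit 21) (nat_lit 4) (nat_lit 19) (nat_lit 4) (nat_lit 471) (nat_lit 319) (nat_lit 230))) (XT.nd (nat_lit 78) (nat_lit 76) (nat_lit 0) (XT.lf (nat_lit 0) (nat_lit 24017572797) (nat_lit 152) (nat_lit 14513402738) (nat_lit 0) (nat_lit 8375608146) (nat_lit 19) (nat_lit 5) (nat_lit 21) (nat_lit 4) (nat_lit 19) (nat_lit 4) (nat_lit 472) (nat_lit 319) (nat_lit 229)) (XT.lf (nat_lit 0) (nat_lit 98940425) (nat_lit 76) (nat_lit 31829976101) (nat_lit 76) (nat_lit 16153757676)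 (nat_lit 18) (nat_lit 4) (nat_lit 19) (nat_lit 5) (nat_lit 19) (nat_lit 4) (nat_lit 473) (nat_lit 319) (nat_lit 228))))) (XT.nd (nat_lit 234) (nat_lit 152) (nat_lit 0) (XT.nd (nat_lit 78) (nat_lit 76) (nat_lit 0) (XT.lf (nat_lit 0) (nat_lit 15393027481) (nat_lit 76) (nat_lit 24803464304) (nat_lit 76) (nat_lit 9093989786) (nat_lit 18) (nat_lit 4) (nat_lit 19) (nat_lit 5) (nat_lit 19) (nat_lit 4) (nat_lit 474) (nat_lit 319) (nat_lit 227)) (XT.nd (nat_lit 78) (nat_lit 76) (nat_lit 0) (XT.lf (nat_lit 0) (nat_lit 31093377021) (nat_lit 76) (nat_lit 17591857383) (nat_lit 76) (nat_lit 1850095397) (nat_lit 18) (nat_lit 4) (nat_lit 19) (nat_lit 5) (nat_lit 19) (nat_lit 4) (nat_lit 475) (nat_lit 319) (nat_lit 226)) (XT.lf (nat_lit 0) (nat_lit 5475286176) (nat_lit 152) (nat_lit 4658278103) (nat_lit 76) (nat_lit 41683131967) (nat_lit 17) (nat_lit 5) (nat_lit 19) (nat_lit 5) (nat_lit 18) (nat_lit 4) (nat_lit 476) (nat_lit 319)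 (nat_lit 225)))) (XT.nd (nat_lit 156) (nat_lit 76) (nat_lit 0) (XT.nd (nat_lit 78) (nat_lit 0) (nat_lit 0) (XT.lf (nat_lit 0) (nat_lit 10709517686) (nat_lit 76) (nat_lit 2351103379) (nat_lit 152) (nat_lit 40073012549) (nat_lit 16) (nat_lit 5) (nat_lit 17) (nat_lit 5) (nat_lit 18) (nat_lit 4) (nat_lit 477) (nat_lit 319) (nat_lit 224)) (XT.lf (nat_lit 0) (nat_lit 20949940670) (nat_lit 152) (nat_lit 27959838476) (nat_lit 0) (nat_lit 5578007967) (nat_lit 16) (nat_lit 5) (nat_lit 18) (nat_lit 4) (nat_lit 16) (nat_lit 4) (nat_lit 478) (nat_lit 319) (nat_lit 223))) (XT.nd (nat_lit 78) (nat_lit 76) (nat_lit 0) (XT.lf (nat_lit 0) (nat_lit 29074427465) (nat_lit 152) (nat_lit 13133540542) (nat_lit 0) (nat_lit 13674643309) (nat_lit 16) (nat_lit 5) (nat_lit 18) (nat_lit 4) (nat_lit 16) (nat_lit 4) (nat_lit 479) (nat_lit 319) (nat_lit 222)) (XT.lf (nat_lit 0) (nat_lit 2131934861) (nat_lit 76) (nat_lit 35307138873) (nat_lit 76)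 (nat_lit 19880314471) (nat_lit 15) (nat_lit 4) (nat_lit 16) (nat_lit 5) (nat_lit 16) (nat_lit 4) (nat_lit 480) (nat_lit 319) (nat_lit 221)))))) (XT.nd (nat_lit 546) (nat_lit 76) (nat_lit 0) (XT.nd (nat_lit 234) (nat_lit 76) (nat_lit 0) (XT.nd (nat_lit 78) (nat_lit 76) (nat_lit 0) (XT.lf (nat_lit 0) (nat_lit 18077848912) (nat_lit 76) (nat_lit 28085616531) (nat_lit 76) (nat_lit 12632539463) (nat_lit 15) (nat_lit 4) (nat_lit 16) (nat_lit 5) (nat_lit 16) (nat_lit 4) (nat_lit 481) (nat_lit 319) (nat_lit 220)) (XT.nd (nat_lit 78) (nat_lit 76) (nat_lit 0) (XT.lf (nat_lit 0) (nat_lit 34456751724) (nat_lit 76) (nat_lit 20669713921) (nat_lit 76) (nat_lit 5191148827) (nat_lit 15) (nat_lit 4) (nat_lit 16) (nat_lit 5) (nat_lit 16) (nat_lit 4) (nat_lit 482) (nat_lit 319) (nat_lit 219)) (XT.lf (nat_lit 0) (nat_lit 2402544279) (nat_lit 152) (nat_lit 10626145862) (nat_lit 76) (nat_lit 48856149693) (nat_lit 14) (nat_lit 5) (nat_lit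 16) (nat_lit 5) (nat_lit 15) (nat_lit 4) (nat_lit 483) (nat_lit 319) (nat_lit 218)))) (XT.nd (nat_lit 156) (nat_lit 0) (nat_lit 0) (XT.nd (nat_lit 78) (nat_lit 0) (nat_lit 0) (XT.lf (nat_lit 0) (nat_lit 5069925666) (nat_lit 76) (nat_lit 5076508483) (nat_lit 152) (nat_lit 53350304803) (nat_lit 13) (nat_lit 5) (nat_lit 14) (nat_lit 5) (nat_lit 15) (nat_lit 4) (nat_lit 484) (nat_lit 319) (nat_lit 217)) (XT.lf (nat_lit 0) (nat_lit 18238957741) (nat_lit 152) (nat_lit 43773319585) (nat_lit 0) (nat_lit 3141228799) (nat_lit 13) (nat_lit 5) (nat_lit 15) (nat_lit 4) (nat_lit 13) (nat_lit 4) (nat_lit 485) (nat_lit 319) (nat_lit 216))) (XT.nd (nat_lit 78) (nat_lit 0) (nat_lit 0) (XT.lf (nat_lit 0) (nat_lit 26603175243) (nat_lit 152) (nat_lit 28772473993) (nat_lit 0) (nat_lit 11483460106) (nat_lit 13) (nat_lit 5) (nat_lit 15) (nat_lit 4) (nat_lit 13) (nat_lit 4) (nat_lit 486) (nat_lit 319) (nat_lit 215)) (XT.lf (nat_lit 0)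 (nat_lit 35197596689) (nat_lit 152) (nat_lit 13362370470) (nat_lit 0) (nat_lit 20056535731) (nat_lit 13) (nat_lit 5) (nat_lit 15) (nat_lit 4) (nat_lit 13) (nat_lit 4) (nat_lit 487) (nat_lit 319) (nat_lit 214))))) (XT.nd (nat_lit 44694) (nat_lit 0) (nat_lit 11552) (XT.nd (nat_lit 156) (nat_lit 0) (nat_lit 0) (XT.nd (nat_lit 78) (nat_lit 0) (nat_lit 0) (XT.lf (nat_lit 0) (nat_lit 2519623042) (nat_lit 76) (nat_lit 41534328882) (nat_lit 76) (nat_lit 26372543827) (nat_lit 12) (nat_lit 4) (nat_lit 13) (nat_lit 5) (nat_lit 13) (nat_lit 4) (nat_lit 488) (nat_lit 319) (nat_lit 213)) (XT.lf (nat_lit 0) (nat_lit 19112799858) (nat_lit 76) (nat_lit 34178221942) (nat_lit 76) (nat_lit 18996316405) (nat_lit 12) (nat_lit 4) (nat_lit 13) (nat_lit 5) (nat_lit 13) (nat_lit 4) (nat_lit 489) (nat_lit 319) (nat_lit 212))) (XT.nd (nat_lit 78) (nat_lit 0) (nat_lit 0) (XT.lf (nat_lit 0) (nat_lit 36165721496) (nat_lit 76) (nat_lit 26620152414)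 (nat_lit 76) (nat_lit 11418712428) (nat_lit 12) (nat_lit 4) (nat_lit 13) (nat_lit 5) (nat_lit 13) (nat_lit 4) (nat_lit 490) (nat_lit 319) (nat_lit 211)) (XT.lf (nat_lit 0) (nat_lit 53693288568) (nat_lit 76) (nat_lit 18853516160) (nat_lit 76) (nat_lit 3633110689) (nat_lit 12) (nat_lit 4) (nat_lit 13) (nat_lit 5) (nat_lit 13) (nat_lit 4) (nat_lit 491) (nat_lit 319) (nat_lit 210)))) (XT.nd (nat_lit 156) (nat_lit 836) (nat_lit 0) (XT.nd (nat_lit 78) (nat_lit 0) (nat_lit 0) (XT.lf (nat_lit 0) (nat_lit 118305542) (nat_lit 456) (nat_lit 1991247378) (nat_lit 456) (nat_lit 1991247378) (nat_lit 175) (nat_lit 4) (nat_lit 181) (nat_lit 5) (nat_lit 181) (nat_lit 4) (nat_lit 380) (nat_lit 320) (nat_lit 320)) (XT.lf (nat_lit 0) (nat_lit 7006678765) (nat_lit 456) (nat_lit 1220840772) (nat_lit 456) (nat_lit 66488993) (nat_lit 175) (nat_lit 4) (nat_lit 181) (nat_lit 5) (nat_lit 181) (nat_lit 4) (nat_lit 381) (nat_lit 320) (nat_lit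 319))) (XT.nd (nat_lit 78) (nat_lit 380) (nat_lit 0) (XT.lf (nat_lit 0) (nat_lit 3859931011) (nat_lit 456) (nat_lit 2877917928) (nat_lit 0) (nat_lit 1651113864) (nat_lit 169) (nat_lit 5) (nat_lit 175) (nat_lit 4) (nat_lit 169) (nat_lit 4) (nat_lit 382) (nat_lit 320) (nat_lit 318)) (XT.lf (nat_lit 0) (nat_lit 3984261759) (nat_lit 380) (nat_lit 3884374734) (nat_lit 380) (nat_lit 619162185) (nat_lit 164) (nat_lit 4) (nat_lit 169) (nat_lit 5) (nat_lit 169) (nat_lit 4) (nat_lit 383) (nat_lit 320) (nat_lit 317))))))))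
noncomputable def xc55 : XT := (XT.nd (nat_lit 2262) (nat_lit 3040) (nat_lit 0) (XT.nd (nat_lit 1092) (nat_lit 2660) (nat_lit 0) (XT.nd (nat_lit 546) (nat_lit 1520) (nat_lit 0) (XT.nd (nat_lit 234) (nat_lit 1444) (nat_lit 0) (XT.nd (nat_lit 78) (nat_lit 456) (nat_lit 0) (XT.lf (nat_lit 0) (nat_lit 2401753126) (nat_lit 380) (nat_lit 895090361) (nat_lit 456) (nat_lit 5293139090) (nat_lit 158) (nat_lit 5) (nat_lit 163) (nat_lit 5) (nat_lit 164) (nat_lit 4) (nat_lit 384) (nat_lit 320) (nat_lit 316)) (XT.nd (nat_lit 78) (nat_lit 76) (nat_lit 0) (XT.lf (nat_lit 0) (nat_lit 764141819) (nat_lit 380) (nat_lit 6532097787) (nat_lit 380) (nat_lit 1399483091) (nat_lit 153) (nat_lit 4) (nat_lit 158) (nat_lit 5) (nat_lit 158) (nat_lit 4) (nat_lit 385) (nat_lit 320) (nat_lit 315)) (XT.lf (nat_lit 0) (nat_lit 2536634086) (nat_lit 456) (nat_lit 921841133) (nat_lit 76) (nat_lit 5346132624) (nat_lit 152) (nat_lit 5) (nat_lit 158)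 (nat_lit 5) (nat_lit 153) (nat_lit 4) (nat_lit 386) (nat_lit 320) (nat_lit 314)))) (XT.nd (nat_lit 156) (nat_lit 684) (nat_lit 0) (XT.nd (nat_lit 78) (nat_lit 456) (nat_lit 0) (XT.lf (nat_lit 0) (nat_lit 6274304444) (nat_lit 304) (nat_lit 256123499) (nat_lit 380) (nat_lit 2386907384) (nat_lit 148) (nat_lit 5) (nat_lit 152) (nat_lit 5) (nat_lit 153) (nat_lit 4) (nat_lit 387) (nat_lit 320) (nat_lit 313)) (XT.lf (nat_lit 0) (nat_lit 1570367999) (nat_lit 456) (nat_lit 4450190631) (nat_lit 76) (nat_lit 3012707171) (nat_lit 142) (nat_lit 5) (nat_lit 148) (nat_lit 5) (nat_lit 143) (nat_lit 4) (nat_lit 388) (nat_lit 320) (nat_lit 312))) (XT.nd (nat_lit 78) (nat_lit 380) (nat_lit 0) (XT.lf (nat_lit 0) (nat_lit 2822859336) (nat_lit 304) (nat_lit 2741094009) (nat_lit 380) (nat_lit 3589066030) (nat_lit 138) (nat_lit 5) (nat_lit 142) (nat_lit 5) (nat_lit 143) (nat_lit 4) (nat_lit 389) (nat_lit 320) (nat_lit 311)) (XT.lf (nat_lit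 0) (nat_lit 363950692) (nat_lit 380) (nat_lit 8272447151) (nat_lit 76) (nat_lit 640748181) (nat_lit 133) (nat_lit 5) (nat_lit 138) (nat_lit 5) (nat_lit 134) (nat_lit 4) (nat_lit 390) (nat_lit 320) (nat_lit 310))))) (XT.nd (nat_lit 234) (nat_lit 836) (nat_lit 0) (XT.nd (nat_lit 78) (nat_lit 684) (nat_lit 0) (XT.lf (nat_lit 0) (nat_lit 4365460028) (nat_lit 380) (nat_lit 912545714) (nat_lit 76) (nat_lit 4125882866) (nat_lit 133) (nat_lit 5) (nat_lit 138) (nat_lit 5) (nat_lit 134) (nat_lit 4) (nat_lit 391) (nat_lit 320) (nat_lit 309)) (XT.nd (nat_lit 78) (nat_lit 380) (nat_lit 0) (XT.lf (nat_lit 0) (nat_lit 6666665962) (nat_lit 304) (nat_lit 1797388232) (nat_lit 380) (nat_lit 1071086883) (nat_lit 129) (nat_lit 5) (nat_lit 133) (nat_lit 5) (nat_lit 134) (nat_lit 4) (nat_lit 392) (nat_lit 320) (nat_lit 308)) (XT.lf (nat_lit 0) (nat_lit 2942386885) (nat_lit 380) (nat_lit 4934447746) (nat_lit 76) (nat_lit 1793066143) (nat_lit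 124) (nat_lit 5) (nat_lit 129) (nat_lit 5) (nat_lit 125) (nat_lit 4) (nat_lit 393) (nat_lit 320) (nat_lit 307)))) (XT.nd (nat_lit 156) (nat_lit 228) (nat_lit 0) (XT.nd (nat_lit 78) (nat_lit 380) (nat_lit 0) (XT.lf (nat_lit 0) (nat_lit 2709778873) (nat_lit 228) (nat_lit 4332256598) (nat_lit 304) (nat_lit 2766747895) (nat_lit 121) (nat_lit 5) (nat_lit 124) (nat_lit 5) (nat_lit 125) (nat_lit 4) (nat_lit 394) (nat_lit 320) (nat_lit 306)) (XT.lf (nat_lit 0) (nat_lit 599439813) (nat_lit 304) (nat_lit 658449002) (nat_lit 380) (nat_lit 8694461257) (nat_lit 116) (nat_lit 5) (nat_lit 120) (nat_lit 5) (nat_lit 121) (nat_lit 5) (nat_lit 395) (nat_lit 320) (nat_lit 305))) (XT.nd (nat_lit 78) (nat_lit 228) (nat_lit 0) (XT.lf (nat_lit 0) (nat_lit 5365438512) (nat_lit 380) (nat_lit 1615927213) (nat_lit 76) (nat_lit 3117518505) (nat_lit 116) (nat_lit 5) (nat_lit 121) (nat_lit 5) (nat_lit 117) (nat_lit 4) (nat_lit 396) (nat_lit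 320) (nat_lit 304)) (XT.lf (nat_lit 0) (nat_lit 6340205226) (nat_lit 228) (nat_lit 3241282534) (nat_lit 304) (nat_lit 668783741) (nat_lit 113) (nat_lit 5) (nat_lit 116) (nat_lit 5) (nat_lit 117) (nat_lit 4) (nat_lit 397) (nat_lit 320) (nat_lit 303)))))) (XT.nd (nat_lit 546) (nat_lit 1292) (nat_lit 0) (XT.nd (nat_lit 234) (nat_lit 760) (nat_lit 0) (XT.nd (nat_lit 78) (nat_lit 304) (nat_lit 0) (XT.lf (nat_lit 0) (nat_lit 3429284900) (nat_lit 304) (nat_lit 6334780245) (nat_lit 76) (nat_lit 641731827) (nat_lit 109) (nat_lit 5) (nat_lit 113) (nat_lit 5) (nat_lit 110) (nat_lit 4) (nat_lit 398) (nat_lit 320) (nat_lit 302)) (XT.nd (nat_lit 78) (nat_lit 76) (nat_lit 0) (XT.lf (nat_lit 0) (nat_lit 1669129821) (nat_lit 228) (nat_lit 5974556509) (nat_lit 304) (nat_lit 2921912232) (nat_lit 106) (nat_lit 5) (nat_lit 109) (nat_lit 5) (nat_lit 110) (nat_lit 4) (nat_lit 399) (nat_lit 320) (nat_lit 301)) (XT.lf (nat_lit 0) (nat_lit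 1213581929) (nat_lit 304) (nat_lit 829505573) (nat_lit 76) (nat_lit 8687246177) (nat_lit 105) (nat_lit 5) (nat_lit 109) (nat_lit 5) (nat_lit 106) (nat_lit 5) (nat_lit 400) (nat_lit 320) (nat_lit 300)))) (XT.nd (nat_lit 156) (nat_lit 304) (nat_lit 0) (XT.nd (nat_lit 78) (nat_lit 228) (nat_lit 0) (XT.lf (nat_lit 0) (nat_lit 5427501878) (nat_lit 304) (nat_lit 3450614684) (nat_lit 76) (nat_lit 2020646538) (nat_lit 102) (nat_lit 5) (nat_lit 106) (nat_lit 5) (nat_lit 103) (nat_lit 4) (nat_lit 401) (nat_lit 320) (nat_lit 299)) (XT.lf (nat_lit 0) (nat_lit 4865438357) (nat_lit 228) (nat_lit 4899944318) (nat_lit 304) (nat_lit 1306948854) (nat_lit 99) (nat_lit 5) (nat_lit 102) (nat_lit 5) (nat_lit 103) (nat_lit 4) (nat_lit 402) (nat_lit 320) (nat_lit 298))) (XT.nd (nat_lit 78) (nat_lit 0) (nat_lit 0) (XT.lf (nat_lit 0) (nat_lit 2135674597) (nat_lit 228) (nat_lit 766502568) (nat_lit 304) (nat_lit 8348739143) (nat_lit 95) (nat_lit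 5) (nat_lit 98) (nat_lit 5) (nat_lit 99) (nat_lit 5) (nat_lit 403) (nat_lit 320) (nat_lit 297)) (XT.lf (nat_lit 0) (nat_lit 7231073326) (nat_lit 304) (nat_lit 753534734) (nat_lit 76) (nat_lit 3449280796) (nat_lit 95) (nat_lit 5) (nat_lit 99) (nat_lit 5) (nat_lit 96) (nat_lit 4) (nat_lit 404) (nat_lit 320) (nat_lit 296))))) (XT.nd (nat_lit 312) (nat_lit 608) (nat_lit 0) (XT.nd (nat_lit 156) (nat_lit 228) (nat_lit 0) (XT.nd (nat_lit 78) (nat_lit 228) (nat_lit 0) (XT.lf (nat_lit 0) (nat_lit 74731389) (nat_lit 228) (nat_lit 3743073072) (nat_lit 76) (nat_lit 7804280504) (nat_lit 92) (nat_lit 5) (nat_lit 95) (nat_lit 5) (nat_lit 93) (nat_lit 5) (nat_lit 405) (nat_lit 320) (nat_lit 295)) (XT.lf (nat_lit 0) (nat_lit 4381322915) (nat_lit 304) (nat_lit 6921816508) (nat_lit 76) (nat_lit 511993857) (nat_lit 89) (nat_lit 5) (nat_lit 93) (nat_lit 5) (nat_lit 90) (nat_lit 4) (nat_lit 406) (nat_lit 320) (nat_lit 294))) (XT.nd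 (nat_lit 78) (nat_lit 76) (nat_lit 0) (XT.lf (nat_lit 0) (nat_lit 1721921508) (nat_lit 152) (nat_lit 7113601806) (nat_lit 228) (nat_lit 3177907502) (nat_lit 87) (nat_lit 5) (nat_lit 89) (nat_lit 5) (nat_lit 90) (nat_lit 4) (nat_lit 407) (nat_lit 320) (nat_lit 293)) (XT.lf (nat_lit 0) (nat_lit 1178844788) (nat_lit 228) (nat_lit 1587436471) (nat_lit 76) (nat_lit 9451156870) (nat_lit 86) (nat_lit 5) (nat_lit 89) (nat_lit 5) (nat_lit 87) (nat_lit 5) (nat_lit 408) (nat_lit 320) (nat_lit 292)))) (XT.nd (nat_lit 156) (nat_lit 228) (nat_lit 0) (XT.nd (nat_lit 78) (nat_lit 152) (nat_lit 0) (XT.lf (nat_lit 0) (nat_lit 5618482421) (nat_lit 304) (nat_lit 5076329574) (nat_lit 76) (nat_lit 1731337312) (nat_lit 83) (nat_lit 5) (nat_lit 87) (nat_lit 5) (nat_lit 84) (nat_lit 4) (nat_lit 409) (nat_lit 320) (nat_lit 291)) (XT.lf (nat_lit 0) (nat_lit 3871904563) (nat_lit 152) (nat_lit 6328897352) (nat_lit 228) (nat_lit 2440044101)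 (nat_lit 81) (nat_lit 5) (nat_lit 83) (nat_lit 5) (nat_lit 84) (nat_lit 4) (nat_lit 410) (nat_lit 320) (nat_lit 290))) (XT.nd (nat_lit 78) (nat_lit 0) (nat_lit 0) (XT.lf (nat_lit 0) (nat_lit 192242942) (nat_lit 152) (nat_lit 1808704647) (nat_lit 228) (nat_lit 10860975507) (nat_lit 78) (nat_lit 5) (nat_lit 80) (nat_lit 5) (nat_lit 81) (nat_lit 5) (nat_lit 411) (nat_lit 320) (nat_lit 289)) (XT.lf (nat_lit 0) (nat_lit 6572211570) (nat_lit 228) (nat_lit 3661178794) (nat_lit 76) (nat_lit 2854143024) (nat_lit 78) (nat_lit 5) (nat_lit 81) (nat_lit 5) (nat_lit 79) (nat_lit 4) (nat_lit 412) (nat_lit 320) (nat_lit 288))))))) (XT.nd (nat_lit 1092) (nat_lit 1368) (nat_lit 0) (XT.nd (nat_lit 546) (nat_lit 760) (nat_lit 0) (XT.nd (nat_lit 234) (nat_lit 532) (nat_lit 0) (XT.nd (nat_lit 78) (nat_lit 228) (nat_lit 0) (XT.lf (nat_lit 0) (nat_lit 5588511169) (nat_lit 152) (nat_lit 5695081098) (nat_lit 228) (nat_lit 2036238333) (nat_lit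 76) (nat_lit 5) (nat_lit 78) (nat_lit 5) (nat_lit 79) (nat_lit 4) (nat_lit 413) (nat_lit 320) (nat_lit 287)) (XT.nd (nat_lit 78) (nat_lit 0) (nat_lit 0) (XT.lf (nat_lit 0) (nat_lit 1516811230) (nat_lit 152) (nat_lit 993560028) (nat_lit 228) (nat_lit 11048486442) (nat_lit 73) (nat_lit 5) (nat_lit 75) (nat_lit 5) (nat_lit 76) (nat_lit 5) (nat_lit 414) (nat_lit 320) (nat_lit 286)) (XT.lf (nat_lit 0) (nat_lit 7200175370) (nat_lit 228) (nat_lit 2780537781) (nat_lit 76) (nat_lit 3822313258) (nat_lit 73) (nat_lit 5) (nat_lit 76) (nat_lit 5) (nat_lit 74) (nat_lit 4) (nat_lit 415) (nat_lit 320) (nat_lit 285)))) (XT.nd (nat_lit 156) (nat_lit 152) (nat_lit 0) (XT.nd (nat_lit 78) (nat_lit 228) (nat_lit 0) (XT.lf (nat_lit 0) (nat_lit 6763718974) (nat_lit 152) (nat_lit 5275672407) (nat_lit 228) (nat_lit 2014874353) (nat_lit 71) (nat_lit 5) (nat_lit 73) (nat_lit 5) (nat_lit 74) (nat_lit 4) (nat_lit 416) (nat_lit 320) (nat_lit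 284)) (XT.lf (nat_lit 0) (nat_lit 2239043496) (nat_lit 152) (nat_lit 402701173) (nat_lit 228) (nat_lit 11671005548) (nat_lit 68) (nat_lit 5) (nat_lit 70) (nat_lit 5) (nat_lit 71) (nat_lit 5) (nat_lit 417) (nat_lit 320) (nat_lit 283))) (XT.nd (nat_lit 78) (nat_lit 152) (nat_lit 0) (XT.lf (nat_lit 0) (nat_lit 7450624037) (nat_lit 228) (nat_lit 2555598865) (nat_lit 76) (nat_lit 4570582576) (nat_lit 68) (nat_lit 5) (nat_lit 71) (nat_lit 5) (nat_lit 69) (nat_lit 4) (nat_lit 418) (nat_lit 320) (nat_lit 282)) (XT.lf (nat_lit 0) (nat_lit 7271656075) (nat_lit 152) (nat_lit 5142246459) (nat_lit 228) (nat_lit 2434582177) (nat_lit 66) (nat_lit 5) (nat_lit 68) (nat_lit 5) (nat_lit 69) (nat_lit 4) (nat_lit 419) (nat_lit 320) (nat_lit 281))))) (XT.nd (nat_lit 234) (nat_lit 380) (nat_lit 0) (XT.nd (nat_lit 78) (nat_lit 152) (nat_lit 0) (XT.lf (nat_lit 0) (nat_lit 2224217447) (nat_lit 152) (nat_lit 110586479) (nat_lit 228) (nat_lit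 12793310029) (nat_lit 63) (nat_lit 5) (nat_lit 65) (nat_lit 5) (nat_lit 66) (nat_lit 5) (nat_lit 420) (nat_lit 320) (nat_lit 280)) (XT.nd (nat_lit 78) (nat_lit 152) (nat_lit 0) (XT.lf (nat_lit 0) (nat_lit 7261026410) (nat_lit 228) (nat_lit 3127582435) (nat_lit 76) (nat_lit 5024925224) (nat_lit 63) (nat_lit 5) (nat_lit 66) (nat_lit 5) (nat_lit 64) (nat_lit 4) (nat_lit 421) (nat_lit 320) (nat_lit 279)) (XT.lf (nat_lit 0) (nat_lit 6965448625) (nat_lit 152) (nat_lit 5376146212) (nat_lit 228) (nat_lit 3365730765) (nat_lit 61) (nat_lit 5) (nat_lit 63) (nat_lit 5) (nat_lit 64) (nat_lit 4) (nat_lit 422) (nat_lit 320) (nat_lit 278)))) (XT.nd (nat_lit 156) (nat_lit 152) (nat_lit 0) (XT.nd (nat_lit 78) (nat_lit 0) (nat_lit 0) (XT.lf (nat_lit 0) (nat_lit 1315177381) (nat_lit 152) (nat_lit 202109517) (nat_lit 228) (nat_lit 14492702964) (nat_lit 58) (nat_lit 5) (nat_lit 60) (nat_lit 5) (nat_lit 61) (nat_lit 5) (nat_lit 423)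 (nat_lit 320) (nat_lit 277)) (XT.lf (nat_lit 0) (nat_lit 6556461456) (nat_lit 228) (nat_lit 4661211092) (nat_lit 76) (nat_lit 5100747472) (nat_lit 58) (nat_lit 5) (nat_lit 61) (nat_lit 5) (nat_lit 59) (nat_lit 4) (nat_lit 424) (nat_lit 320) (nat_lit 276))) (XT.nd (nat_lit 78) (nat_lit 76) (nat_lit 0) (XT.lf (nat_lit 0) (nat_lit 5673579887) (nat_lit 76) (nat_lit 6070429683) (nat_lit 152) (nat_lit 4892182531) (nat_lit 57) (nat_lit 5) (nat_lit 58) (nat_lit 5) (nat_lit 59) (nat_lit 4) (nat_lit 425) (nat_lit 320) (nat_lit 275)) (XT.lf (nat_lit 0) (nat_lit 109577616) (nat_lit 152) (nat_lit 658424228) (nat_lit 76) (nat_lit 16195815386) (nat_lit 56) (nat_lit 5) (nat_lit 58) (nat_lit 5) (nat_lit 57) (nat_lit 5) (nat_lit 426) (nat_lit 320) (nat_lit 274)))))) (XT.nd (nat_lit 546) (nat_lit 608) (nat_lit 0) (XT.nd (nat_lit 234) (nat_lit 532) (nat_lit 0) (XT.nd (nat_lit 78) (nat_lit 76) (nat_lit 0) (XT.lf (nat_lit 0) (nat_lit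 5247731440) (nat_lit 228) (nat_lit 7348725468) (nat_lit 76) (nat_lit 4700825563) (nat_lit 54) (nat_lit 5) (nat_lit 57) (nat_lit 5) (nat_lit 55) (nat_lit 4) (nat_lit 427) (nat_lit 320) (nat_lit 273)) (XT.nd (nat_lit 78) (nat_lit 0) (nat_lit 0) (XT.lf (nat_lit 0) (nat_lit 3195680056) (nat_lit 76) (nat_lit 7332094880) (nat_lit 152) (nat_lit 7113348796) (nat_lit 53) (nat_lit 5) (nat_lit 54) (nat_lit 5) (nat_lit 55) (nat_lit 4) (nat_lit 428) (nat_lit 320) (nat_lit 272)) (XT.lf (nat_lit 0) (nat_lit 14102393824) (nat_lit 76) (nat_lit 1881403856) (nat_lit 152) (nat_lit 2010959501) (nat_lit 53) (nat_lit 5) (nat_lit 54) (nat_lit 5) (nat_lit 55) (nat_lit 4) (nat_lit 429) (nat_lit 320) (nat_lit 271)))) (XT.nd (nat_lit 156) (nat_lit 304) (nat_lit 0) (XT.nd (nat_lit 78) (nat_lit 0) (nat_lit 0) (XT.lf (nat_lit 0) (nat_lit 3229154278) (nat_lit 228) (nat_lit 11414530578) (nat_lit 76) (nat_lit 3712944232) (nat_lit 50) (nat_lit 5)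 (nat_lit 53) (nat_lit 5) (nat_lit 51) (nat_lit 4) (nat_lit 430) (nat_lit 320) (nat_lit 270)) (XT.lf (nat_lit 0) (nat_lit 8589035929) (nat_lit 228) (nat_lit 688641114) (nat_lit 76) (nat_lit 9450997235) (nat_lit 50) (nat_lit 5) (nat_lit 53) (nat_lit 5) (nat_lit 51) (nat_lit 4) (nat_lit 431) (nat_lit 320) (nat_lit 269))) (XT.nd (nat_lit 78) (nat_lit 228) (nat_lit 0) (XT.lf (nat_lit 0) (nat_lit 10463279384) (nat_lit 76) (nat_lit 3693286509) (nat_lit 152) (nat_lit 4953913184) (nat_lit 49) (nat_lit 5) (nat_lit 50) (nat_lit 5) (nat_lit 51) (nat_lit 4) (nat_lit 432) (nat_lit 320) (nat_lit 268)) (XT.lf (nat_lit 0) (nat_lit 375985556) (nat_lit 228) (nat_lit 17120575498) (nat_lit 76) (nat_lit 2007184012) (nat_lit 46) (nat_lit 5) (nat_lit 49) (nat_lit 5) (nat_lit 47) (nat_lit 4) (nat_lit 433) (nat_lit 320) (nat_lit 267))))) (XT.nd (nat_lit 312) (nat_lit 304) (nat_lit 0) (XT.nd (nat_lit 156) (nat_lit 228) (nat_lit 0) (XT.nd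 (nat_lit 78) (nat_lit 76) (nat_lit 0) (XT.lf (nat_lit 0) (nat_lit 5837488998) (nat_lit 228) (nat_lit 6171146059) (nat_lit 76) (nat_lit 7896567709) (nat_lit 46) (nat_lit 5) (nat_lit 49) (nat_lit 5) (nat_lit 47) (nat_lit 4) (nat_lit 434) (nat_lit 320) (nat_lit 266)) (XT.lf (nat_lit 0) (nat_lit 5109197881) (nat_lit 76) (nat_lit 6350834905) (nat_lit 152) (nat_lit 8858758938) (nat_lit 45) (nat_lit 5) (nat_lit 46) (nat_lit 5) (nat_lit 47) (nat_lit 4) (nat_lit 435) (nat_lit 320) (nat_lit 265))) (XT.nd (nat_lit 78) (nat_lit 228) (nat_lit 0) (XT.lf (nat_lit 0) (nat_lit 16758140949) (nat_lit 76) (nat_lit 504097255) (nat_lit 152) (nat_lit 3482223872) (nat_lit 45) (nat_lit 5) (nat_lit 46) (nat_lit 5) (nat_lit 47) (nat_lit 4) (nat_lit 436) (nat_lit 320) (nat_lit 264)) (XT.lf (nat_lit 0) (nat_lit 2091831281) (nat_lit 228) (nat_lit 13627333670) (nat_lit 76) (nat_lit 5460857803) (nat_lit 42) (nat_lit 5) (nat_lit 45) (nat_lit 5)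 (nat_lit 43) (nat_lit 4) (nat_lit 437) (nat_lit 320) (nat_lit 263)))) (XT.nd (nat_lit 156) (nat_lit 228) (nat_lit 0) (XT.nd (nat_lit 78) (nat_lit 76) (nat_lit 0) (XT.lf (nat_lit 0) (nat_lit 7758575009) (nat_lit 228) (nat_lit 2242385798) (nat_lit 76) (nat_lit 11626794443) (nat_lit 42) (nat_lit 5) (nat_lit 45) (nat_lit 5) (nat_lit 43) (nat_lit 4) (nat_lit 438) (nat_lit 320) (nat_lit 262)) (XT.lf (nat_lit 0) (nat_lit 9579129593) (nat_lit 76) (nat_lit 4059546210) (nat_lit 152) (nat_lit 8448946194) (nat_lit 41) (nat_lit 5) (nat_lit 42) (nat_lit 5) (nat_lit 43) (nat_lit 4) (nat_lit 439) (nat_lit 320) (nat_lit 261))) (XT.nd (nat_lit 78) (nat_lit 228) (nat_lit 0) (XT.lf (nat_lit 0) (nat_lit 19689257648) (nat_lit 152) (nat_lit 871415377) (nat_lit 0) (nat_lit 2000792215) (nat_lit 41) (nat_lit 5) (nat_lit 43) (nat_lit 4) (nat_lit 41) (nat_lit 4) (nat_lit 440) (nat_lit 320) (nat_lit 260)) (XT.lf (nat_lit 0) (nat_lit 2917502018)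 (nat_lit 228) (nat_lit 11871259276) (nat_lit 76) (nat_lit 8256885724) (nat_lit 38) (nat_lit 5) (nat_lit 41) (nat_lit 5) (nat_lit 39) (nat_lit 4) (nat_lit 441) (nat_lit 320) (nat_lit 259))))))))
noncomputable def xc56 : XT := (XT.nd (nat_lit 2184) (nat_lit 684) (nat_lit 0) (XT.nd (nat_lit 1092) (nat_lit 532) (nat_lit 0) (XT.nd (nat_lit 546) (nat_lit 456) (nat_lit 0) (XT.nd (nat_lit 234) (nat_lit 152) (nat_lit 0) (XT.nd (nat_lit 78) (nat_lit 152) (nat_lit 0) (XT.lf (nat_lit 0) (nat_lit 8784942525) (nat_lit 228) (nat_lit 62610329) (nat_lit 76) (nat_lit 14697097814) (nat_lit 38) (nat_lit 5) (nat_lit 41) (nat_lit 5) (nat_lit 39) (nat_lit 4) (nat_lit 442) (nat_lit 320) (nat_lit 258)) (XT.nd (nat_lit 78) (nat_lit 76) (nat_lit 0) (XT.lf (nat_lit 0) (nat_lit 12252571081) (nat_lit 76) (nat_lit 2647868184) (nat_lit 152) (nat_lit 9156026690) (nat_lit 37) (nat_lit 5) (nat_lit 38) (nat_lit 5) (nat_lit 39) (nat_lit 4) (nat_lit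 443) (nat_lit 320) (nat_lit 257)) (XT.lf (nat_lit 0) (nat_lit 236619823) (nat_lit 76) (nat_lit 20955992562) (nat_lit 76) (nat_lit 3391229417) (nat_lit 36) (nat_lit 4) (nat_lit 37) (nat_lit 5) (nat_lit 37) (nat_lit 4) (nat_lit 444) (nat_lit 320) (nat_lit 256)))) (XT.nd (nat_lit 156) (nat_lit 76) (nat_lit 0) (XT.nd (nat_lit 78) (nat_lit 0) (nat_lit 0) (XT.lf (nat_lit 0) (nat_lit 2597833811) (nat_lit 152) (nat_lit 12382013002) (nat_lit 76) (nat_lit 10143429647) (nat_lit 35) (nat_lit 5) (nat_lit 37) (nat_lit 5) (nat_lit 36) (nat_lit 4) (nat_lit 445) (nat_lit 320) (nat_lit 255)) (XT.lf (nat_lit 0) (nat_lit 8654156915) (nat_lit 152) (nat_lit 175883404) (nat_lit 76) (nat_lit 16849176330) (nat_lit 35) (nat_lit 5) (nat_lit 37) (nat_lit 5) (nat_lit 36) (nat_lit 4) (nat_lit 446) (nat_lit 320) (nat_lit 254))) (XT.nd (nat_lit 78) (nat_lit 0) (nat_lit 0) (XT.lf (nat_lit 0) (nat_lit 12559512257) (nat_lit 76) (nat_lit 2410424387)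 (nat_lit 152) (nat_lit 11279567563) (nat_lit 34) (nat_lit 5) (nat_lit 35) (nat_lit 5) (nat_lit 36) (nat_lit 4) (nat_lit 447) (nat_lit 320) (nat_lit 253)) (XT.lf (nat_lit 0) (nat_lit 21474509531) (nat_lit 152) (nat_lit 1278779609) (nat_lit 0) (nat_lit 4083633770) (nat_lit 34) (nat_lit 5) (nat_lit 36) (nat_lit 4) (nat_lit 34) (nat_lit 4) (nat_lit 448) (nat_lit 320) (nat_lit 252))))) (XT.nd (nat_lit 234) (nat_lit 228) (nat_lit 0) (XT.nd (nat_lit 78) (nat_lit 76) (nat_lit 0) (XT.lf (nat_lit 0) (nat_lit 812921930) (nat_lit 152) (nat_lit 15819014400) (nat_lit 76) (nat_lit 10806970000) (nat_lit 32) (nat_lit 5) (nat_lit 34) (nat_lit 5) (nat_lit 33) (nat_lit 4) (nat_lit 449) (nat_lit 320) (nat_lit 251)) (XT.nd (nat_lit 78) (nat_lit 76) (nat_lit 0) (XT.lf (nat_lit 0) (nat_lit 7037207517) (nat_lit 152) (nat_lit 3259802192) (nat_lit 76) (nat_lit 17761204596) (nat_lit 32) (nat_lit 5) (nat_lit 34) (nat_lit 5) (nat_lit 33) (nat_lit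 4) (nat_lit 450) (nat_lit 320) (nat_lit 250)) (XT.lf (nat_lit 0) (nat_lit 9789786768) (nat_lit 76) (nat_lit 3712179543) (nat_lit 152) (nat_lit 15192524744) (nat_lit 31) (nat_lit 5) (nat_lit 32) (nat_lit 5) (nat_lit 33) (nat_lit 4) (nat_lit 451) (nat_lit 320) (nat_lit 249)))) (XT.nd (nat_lit 156) (nat_lit 152) (nat_lit 0) (XT.nd (nat_lit 78) (nat_lit 76) (nat_lit 0) (XT.lf (nat_lit 0) (nat_lit 20183148445) (nat_lit 152) (nat_lit 6158541610) (nat_lit 0) (nat_lit 3007493453) (nat_lit 31) (nat_lit 5) (nat_lit 33) (nat_lit 4) (nat_lit 31) (nat_lit 4) (nat_lit 452) (nat_lit 320) (nat_lit 248)) (XT.lf (nat_lit 0) (nat_lit 6994476339) (nat_lit 76) (nat_lit 20135176666) (nat_lit 76) (nat_lit 2891918887) (nat_lit 30) (nat_lit 4) (nat_lit 31) (nat_lit 5) (nat_lit 31) (nat_lit 4) (nat_lit 453) (nat_lit 320) (nat_lit 247))) (XT.nd (nat_lit 78) (nat_lit 76) (nat_lit 0) (XT.lf (nat_lit 0) (nat_lit 3524489336) (nat_lit 152) (nat_lit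 10154178201) (nat_lit 76) (nat_lit 17033724214) (nat_lit 29) (nat_lit 5) (nat_lit 31) (nat_lit 5) (nat_lit 30) (nat_lit 4) (nat_lit 454) (nat_lit 320) (nat_lit 246)) (XT.lf (nat_lit 0) (nat_lit 3062952328) (nat_lit 76) (nat_lit 7003828949) (nat_lit 152) (nat_lit 21356552073) (nat_lit 28) (nat_lit 5) (nat_lit 29) (nat_lit 5) (nat_lit 30) (nat_lit 4) (nat_lit 455) (nat_lit 320) (nat_lit 245)))))) (XT.nd (nat_lit 546) (nat_lit 304) (nat_lit 0) (XT.nd (nat_lit 234) (nat_lit 152) (nat_lit 0) (XT.nd (nat_lit 78) (nat_lit 76) (nat_lit 0) (XT.lf (nat_lit 0) (nat_lit 16812353527) (nat_lit 76) (nat_lit 58007714) (nat_lit 152) (nat_lit 15283292949) (nat_lit 28) (nat_lit 5) (nat_lit 29) (nat_lit 5) (nat_lit 30) (nat_lit 4) (nat_lit 456) (nat_lit 320) (nat_lit 244)) (XT.nd (nat_lit 78) (nat_lit 76) (nat_lit 0) (XT.lf (nat_lit 0) (nat_lit 23909510753) (nat_lit 152) (nat_lit 2070914974) (nat_lit 0) (nat_lit 6924516585) (nat_lit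 28) (nat_lit 5) (nat_lit 30) (nat_lit 4) (nat_lit 28) (nat_lit 4) (nat_lit 457) (nat_lit 320) (nat_lit 243)) (XT.lf (nat_lit 0) (nat_lit 11757453578) (nat_lit 76) (nat_lit 19480295002) (nat_lit 76) (nat_lit 2438684563) (nat_lit 27) (nat_lit 4) (nat_lit 28) (nat_lit 5) (nat_lit 28) (nat_lit 4) (nat_lit 458) (nat_lit 320) (nat_lit 242)))) (XT.nd (nat_lit 156) (nat_lit 0) (nat_lit 0) (XT.nd (nat_lit 78) (nat_lit 76) (nat_lit 0) (XT.lf (nat_lit 0) (nat_lit 4216038851) (nat_lit 152) (nat_lit 8538018824) (nat_lit 76) (nat_lit 21716204016) (nat_lit 26) (nat_lit 5) (nat_lit 28) (nat_lit 5) (nat_lit 27) (nat_lit 4) (nat_lit 459) (nat_lit 320) (nat_lit 241)) (XT.lf (nat_lit 0) (nat_lit 5255775534) (nat_lit 76) (nat_lit 5781524707) (nat_lit 152) (nat_lit 24249404502) (nat_lit 25) (nat_lit 5) (nat_lit 26) (nat_lit 5) (nat_lit 27) (nat_lit 4) (nat_lit 460) (nat_lit 320) (nat_lit 240))) (XT.nd (nat_lit 78) (nat_lit 0) (nat_lit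 0) (XT.lf (nat_lit 0) (nat_lit 18129181048) (nat_lit 152) (nat_lit 16568034707) (nat_lit 0) (nat_lit 1428447200) (nat_lit 25) (nat_lit 5) (nat_lit 27) (nat_lit 4) (nat_lit 25) (nat_lit 4) (nat_lit 461) (nat_lit 320) (nat_lit 239)) (XT.lf (nat_lit 0) (nat_lit 25457518634) (nat_lit 152) (nat_lit 2823614451) (nat_lit 0) (nat_lit 8707947093) (nat_lit 25) (nat_lit 5) (nat_lit 27) (nat_lit 4) (nat_lit 25) (nat_lit 4) (nat_lit 462) (nat_lit 320) (nat_lit 238))))) (XT.nd (nat_lit 234) (nat_lit 76) (nat_lit 0) (XT.nd (nat_lit 78) (nat_lit 152) (nat_lit 0) (XT.lf (nat_lit 0) (nat_lit 11494210238) (nat_lit 76) (nat_lit 21589419989) (nat_lit 76) (nat_lit 4792433213) (nat_lit 24) (nat_lit 4) (nat_lit 25) (nat_lit 5) (nat_lit 25) (nat_lit 4) (nat_lit 463) (nat_lit 320) (nat_lit 237)) (XT.nd (nat_lit 78) (nat_lit 76) (nat_lit 0) (XT.lf (nat_lit 0) (nat_lit 2103193136) (nat_lit 152) (nat_lit 12573538917) (nat_lit 76) (nat_lit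 24112417938) (nat_lit 23) (nat_lit 5) (nat_lit 25) (nat_lit 5) (nat_lit 24) (nat_lit 4) (nat_lit 464) (nat_lit 320) (nat_lit 236)) (XT.lf (nat_lit 0) (nat_lit 1570818998) (nat_lit 76) (nat_lit 7522054592) (nat_lit 152) (nat_lit 30635827932) (nat_lit 22) (nat_lit 5) (nat_lit 23) (nat_lit 5) (nat_lit 24) (nat_lit 4) (nat_lit 465) (nat_lit 320) (nat_lit 235)))) (XT.nd (nat_lit 156) (nat_lit 76) (nat_lit 0) (XT.nd (nat_lit 78) (nat_lit 0) (nat_lit 0) (XT.lf (nat_lit 0) (nat_lit 16336446611) (nat_lit 76) (nat_lit 51510363) (nat_lit 152) (nat_lit 24305612350) (nat_lit 22) (nat_lit 5) (nat_lit 23) (nat_lit 5) (nat_lit 24) (nat_lit 4) (nat_lit 466) (nat_lit 320) (nat_lit 234)) (XT.lf (nat_lit 0) (nat_lit 23944742494) (nat_lit 152) (nat_lit 10275481588) (nat_lit 0) (nat_lit 7465874659) (nat_lit 22) (nat_lit 5) (nat_lit 24) (nat_lit 4) (nat_lit 22) (nat_lit 4) (nat_lit 467) (nat_lit 320) (nat_lit 233))) (XT.nd (nat_lit 78)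 (nat_lit 0) (nat_lit 0) (XT.lf (nat_lit 0) (nat_lit 4253160389) (nat_lit 76) (nat_lit 27486736045) (nat_lit 76) (nat_lit 10968158697) (nat_lit 21) (nat_lit 4) (nat_lit 22) (nat_lit 5) (nat_lit 22) (nat_lit 4) (nat_lit 468) (nat_lit 320) (nat_lit 232)) (XT.lf (nat_lit 0) (nat_lit 19370934035) (nat_lit 76) (nat_lit 20472318516) (nat_lit 76) (nat_lit 3915188242) (nat_lit 21) (nat_lit 4) (nat_lit 22) (nat_lit 5) (nat_lit 22) (nat_lit 4) (nat_lit 469) (nat_lit 320) (nat_lit 231))))))) (XT.nd (nat_lit 1092) (nat_lit 228) (nat_lit 0) (XT.nd (nat_lit 546) (nat_lit 228) (nat_lit 0) (XT.nd (nat_lit 234) (nat_lit 76) (nat_lit 0) (XT.nd (nat_lit 78) (nat_lit 76) (nat_lit 0) (XT.lf (nat_lit 0) (nat_lit 3255171396) (nat_lit 152) (nat_lit 9986562362) (nat_lit 76) (nat_lit 31598504580) (nat_lit 20) (nat_lit 5) (nat_lit 22) (nat_lit 5) (nat_lit 21) (nat_lit 4) (nat_lit 470) (nat_lit 320) (nat_lit 230)) (XT.nd (nat_lit 78) (nat_lit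 0) (nat_lit 0) (XT.lf (nat_lit 0) (nat_lit 4847610346) (nat_lit 76) (nat_lit 5732936685) (nat_lit 152) (nat_lit 35372222875) (nat_lit 19) (nat_lit 5) (nat_lit 20) (nat_lit 5) (nat_lit 21) (nat_lit 4) (nat_lit 471) (nat_lit 320) (nat_lit 229)) (XT.lf (nat_lit 0) (nat_lit 18218803471) (nat_lit 152) (nat_lit 26839036538) (nat_lit 0) (nat_lit 2038044718) (nat_lit 19) (nat_lit 5) (nat_lit 21) (nat_lit 4) (nat_lit 19) (nat_lit 4) (nat_lit 472) (nat_lit 320) (nat_lit 228)))) (XT.nd (nat_lit 156) (nat_lit 0) (nat_lit 0) (XT.nd (nat_lit 78) (nat_lit 76) (nat_lit 0) (XT.lf (nat_lit 0) (nat_lit 26115824058) (nat_lit 152) (nat_lit 12254772100) (nat_lit 0) (nat_lit 9901809213) (nat_lit 19) (nat_lit 5) (nat_lit 21) (nat_lit 4) (nat_lit 19) (nat_lit 4) (nat_lit 473) (nat_lit 320) (nat_lit 227)) (XT.lf (nat_lit 0) (nat_lit 2769529273) (nat_lit 76) (nat_lit 31480493742) (nat_lit 76) (nat_lit 15234191429) (nat_lit 18) (nat_lit 4)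 (nat_lit 19) (nat_lit 5) (nat_lit 19) (nat_lit 4) (nat_lit 474) (nat_lit 320) (nat_lit 226))) (XT.nd (nat_lit 78) (nat_lit 0) (nat_lit 0) (XT.lf (nat_lit 0) (nat_lit 18444741251) (nat_lit 76) (nat_lit 24281178289) (nat_lit 76) (nat_lit 8003528920) (nat_lit 18) (nat_lit 4) (nat_lit 19) (nat_lit 5) (nat_lit 19) (nat_lit 4) (nat_lit 475) (nat_lit 320) (nat_lit 225)) (XT.lf (nat_lit 0) (nat_lit 34540666629) (nat_lit 76) (nat_lit 16890108305) (nat_lit 76) (nat_lit 582024900) (nat_lit 18) (nat_lit 4) (nat_lit 19) (nat_lit 5) (nat_lit 19) (nat_lit 4) (nat_lit 476) (nat_lit 320) (nat_lit 224))))) (XT.nd (nat_lit 234) (nat_lit 76) (nat_lit 0) (XT.nd (nat_lit 78) (nat_lit 76) (nat_lit 0) (XT.lf (nat_lit 0) (nat_lit 6899492019) (nat_lit 152) (nat_lit 2331662212) (nat_lit 76) (nat_lit 44102206445) (nat_lit 17) (nat_lit 5) (nat_lit 19) (nat_lit 5) (nat_lit 18) (nat_lit 4) (nat_lit 477) (nat_lit 320) (nat_lit 223)) (XT.nd (nat_lit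 78) (nat_lit 0) (nat_lit 0) (XT.lf (nat_lit 0) (nat_lit 13472987410) (nat_lit 76) (nat_lit 1226177820) (nat_lit 152) (nat_lit 39991038695) (nat_lit 16) (nat_lit 5) (nat_lit 17) (nat_lit 5) (nat_lit 18) (nat_lit 4) (nat_lit 478) (nat_lit 320) (nat_lit 222)) (XT.lf (nat_lit 0) (nat_lit 22800008805) (nat_lit 152) (nat_lit 26402389542) (nat_lit 0) (nat_lit 6883339425) (nat_lit 16) (nat_lit 5) (nat_lit 18) (nat_lit 4) (nat_lit 16) (nat_lit 4) (nat_lit 479) (nat_lit 320) (nat_lit 221)))) (XT.nd (nat_lit 156) (nat_lit 0) (nat_lit 0) (XT.nd (nat_lit 78) (nat_lit 76) (nat_lit 0) (XT.lf (nat_lit 0) (nat_lit 31132650498) (nat_lit 152) (nat_lit 11201096188) (nat_lit 0) (nat_lit 15189728452) (nat_lit 16) (nat_lit 5) (nat_lit 18) (nat_lit 4) (nat_lit 16) (nat_lit 4) (nat_lit 480) (nat_lit 320) (nat_lit 220)) (XT.lf (nat_lit 0) (nat_lit 4499535139) (nat_lit 76) (nat_lit 35236301631) (nat_lit 76) (nat_lit 19267891560) (nat_lit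 15) (nat_lit 4) (nat_lit 16) (nat_lit 5) (nat_lit 16) (nat_lit 4) (nat_lit 481) (nat_lit 320) (nat_lit 219))) (XT.nd (nat_lit 78) (nat_lit 0) (nat_lit 0) (XT.lf (nat_lit 0) (nat_lit 20856730236) (nat_lit 76) (nat_lit 27831047737) (nat_lit 76) (nat_lit 11837892010) (nat_lit 15) (nat_lit 4) (nat_lit 16) (nat_lit 5) (nat_lit 16) (nat_lit 4) (nat_lit 482) (nat_lit 320) (nat_lit 218)) (XT.lf (nat_lit 0) (nat_lit 37661858020) (nat_lit 76) (nat_lit 20224623504) (nat_lit 76) (nat_lit 4207442868) (nat_lit 15) (nat_lit 4) (nat_lit 16) (nat_lit 5) (nat_lit 16) (nat_lit 4) (nat_lit 483) (nat_lit 320) (nat_lit 217)))))) (XT.nd (nat_lit 546) (nat_lit 0) (nat_lit 0) (XT.nd (nat_lit 234) (nat_lit 76) (nat_lit 0) (XT.nd (nat_lit 78) (nat_lit 76) (nat_lit 0) (XT.lf (nat_lit 0) (nat_lit 3559286469) (nat_lit 152) (nat_lit 8815154256) (nat_lit 76) (nat_lit 51334374299) (nat_lit 14) (nat_lit 5) (nat_lit 16) (nat_lit 5) (nat_lit 15)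 (nat_lit 4) (nat_lit 484) (nat_lit 320) (nat_lit 216)) (XT.nd (nat_lit 78) (nat_lit 0) (nat_lit 0) (XT.lf (nat_lit 0) (nat_lit 7330919260) (nat_lit 76) (nat_lit 4193253562) (nat_lit 152) (nat_lit 53845238775) (nat_lit 13) (nat_lit 5) (nat_lit 14) (nat_lit 5) (nat_lit 15) (nat_lit 4) (nat_lit 485) (nat_lit 320) (nat_lit 215)) (XT.lf (nat_lit 0) (nat_lit 19837874037) (nat_lit 152) (nat_lit 43017421108) (nat_lit 0) (nat_lit 4221235431) (nat_lit 13) (nat_lit 5) (nat_lit 15) (nat_lit 4) (nat_lit 13) (nat_lit 4) (nat_lit 486) (nat_lit 320) (nat_lit 214)))) (XT.nd (nat_lit 156) (nat_lit 76) (nat_lit 0) (XT.nd (nat_lit 78) (nat_lit 0) (nat_lit 0) (XT.lf (nat_lit 0) (nat_lit 28422384640) (nat_lit 152) (nat_lit 27626815140) (nat_lit 0) (nat_lit 12785021937) (nat_lit 13) (nat_lit 5) (nat_lit 15) (nat_lit 4) (nat_lit 13) (nat_lit 4) (nat_lit 487) (nat_lit 320) (nat_lit 213)) (XT.lf (nat_lit 0) (nat_lit 37244897540) (nat_lit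 152) (nat_lit 11812918213) (nat_lit 0) (nat_lit 21587414355) (nat_lit 13) (nat_lit 5) (nat_lit 15) (nat_lit 4) (nat_lit 13) (nat_lit 4) (nat_lit 488) (nat_lit 320) (nat_lit 212))) (XT.nd (nat_lit 78) (nat_lit 0) (nat_lit 0) (XT.lf (nat_lit 0) (nat_lit 4526414287) (nat_lit 76) (nat_lit 41830218105) (nat_lit 76) (nat_lit 26153200471) (nat_lit 12) (nat_lit 4) (nat_lit 13) (nat_lit 5) (nat_lit 13) (nat_lit 4) (nat_lit 489) (nat_lit 320) (nat_lit 211)) (XT.lf (nat_lit 0) (nat_lit 21561137789) (nat_lit 76) (nat_lit 34281101957) (nat_lit 76) (nat_lit 18585118838) (nat_lit 12) (nat_lit 4) (nat_lit 13) (nat_lit 5) (nat_lit 13) (nat_lit 4) (nat_lit 490) (nat_lit 320) (nat_lit 210))))) (XT.nd (nat_lit 44538) (nat_lit 0) (nat_lit 11096) (XT.nd (nat_lit 44382) (nat_lit 0) (nat_lit 12388) (XT.nd (nat_lit 44304) (nat_lit 0) (nat_lit 13376) (XT.lf (nat_lit 0) (nat_lit 39071036768) (nat_lit 76) (nat_lit 26523158304) (nat_lit 76)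 (nat_lit 10808762093) (nat_lit 12) (nat_lit 4) (nat_lit 13) (nat_lit 5) (nat_lit 13) (nat_lit 4) (nat_lit 491) (nat_lit 320) (nat_lit 209)) (XT.lf (nat_lit 0) (nat_lit 1656789692) (nat_lit 456) (nat_lit 1178009805) (nat_lit 456) (nat_lit 1178009805) (nat_lit 188) (nat_lit 4) (nat_lit 194) (nat_lit 5) (nat_lit 194) (nat_lit 4) (nat_lit 378) (nat_lit 321) (nat_lit 321))) (XT.nd (nat_lit 78) (nat_lit 456) (nat_lit 0) (XT.lf (nat_lit 0) (nat_lit 1480608711) (nat_lit 532) (nat_lit 6340752814) (nat_lit 0) (nat_lit 291626379) (nat_lit 181) (nat_lit 5) (nat_lit 188) (nat_lit 4) (nat_lit 181) (nat_lit 4) (nat_lit 379) (nat_lit 321) (nat_lit 320)) (XT.lf (nat_lit 0) (nat_lit 170307463) (nat_lit 456) (nat_lit 5188066759) (nat_lit 456) (nat_lit 2844732648) (nat_lit 175) (nat_lit 4) (nat_lit 181) (nat_lit 5) (nat_lit 181) (nat_lit 4) (nat_lit 380) (nat_lit 321) (nat_lit 319)))) (XT.nd (nat_lit 156) (nat_lit 836) (nat_lit 0)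 (XT.nd (nat_lit 78) (nat_lit 380) (nat_lit 0) (XT.lf (nat_lit 0) (nat_lit 1001610722) (nat_lit 532) (nat_lit 1430794226) (nat_lit 76) (nat_lit 5864277670) (nat_lit 174) (nat_lit 5) (nat_lit 181) (nat_lit 5) (nat_lit 175) (nat_lit 4) (nat_lit 381) (nat_lit 321) (nat_lit 318)) (XT.lf (nat_lit 0) (nat_lit 4865545532) (nat_lit 456) (nat_lit 3081940209) (nat_lit 0) (nat_lit 445981204) (nat_lit 169) (nat_lit 5) (nat_lit 175) (nat_lit 4) (nat_lit 169) (nat_lit 4) (nat_lit 382) (nat_lit 321) (nat_lit 317))) (XT.nd (nat_lit 78) (nat_lit 380) (nat_lit 0) (XT.lf (nat_lit 0) (nat_lit 324645535) (nat_lit 456) (nat_lit 4786160493) (nat_lit 76) (nat_lit 3382894945) (nat_lit 163) (nat_lit 5) (nat_lit 169) (nat_lit 5) (nat_lit 164) (nat_lit 4) (nat_lit 383) (nat_lit 321) (nat_lit 316)) (XT.lf (nat_lit 0) (nat_lit 2041759829) (nat_lit 380) (nat_lit 2136912458) (nat_lit 456) (nat_lit 4418543380) (nat_lit 158) (nat_lit 5) (nat_lit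 163) (nat_lit 5) (nat_lit 164) (nat_lit 4) (nat_lit 384) (nat_lit 321) (nat_lit 315))))))))
noncomputable def xc57 : XT := (XT.nd (nat_lit 2262) (nat_lit 2888) (nat_lit 0) (XT.nd (nat_lit 1092) (nat_lit 2508) (nat_lit 0) (XT.nd (nat_lit 546) (nat_lit 1824) (nat_lit 0) (XT.nd (nat_lit 234) (nat_lit 1140) (nat_lit 0) (XT.nd (nat_lit 78) (nat_lit 380) (nat_lit 0) (XT.lf (nat_lit 0) (nat_lit 335517363) (nat_lit 380) (nat_lit 7780623274) (nat_lit 380) (nat_lit 588685063) (nat_lit 153) (nat_lit 4) (nat_lit 158) (nat_lit 5) (nat_lit 158) (nat_lit 4) (nat_lit 385) (nat_lit 321) (nat_lit 314)) (XT.nd (nat_lit 78) (nat_lit 304) (nat_lit 0) (XT.lf (nat_lit 0) (nat_lit 3285999163) (nat_lit 456) (nat_lit 1432615863) (nat_lit 76) (nat_lit 4096241731) (nat_lit 152) (nat_lit 5) (nat_lit 158) (nat_lit 5) (nat_lit 153) (nat_lit 4) (nat_lit 386) (nat_lit 321) (nat_lit 313)) (XT.lf (nat_lit 0) (nat_lit 5688750651) (nat_lit 304) (nat_lit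 1541130794) (nat_lit 380) (nat_lit 1699211199) (nat_lit 148) (nat_lit 5) (nat_lit 152) (nat_lit 5) (nat_lit 153) (nat_lit 4) (nat_lit 387) (nat_lit 321) (nat_lit 312)))) (XT.nd (nat_lit 156) (nat_lit 380) (nat_lit 0) (XT.nd (nat_lit 78) (nat_lit 304) (nat_lit 0) (XT.lf (nat_lit 0) (nat_lit 2181522136) (nat_lit 456) (nat_lit 5131563283) (nat_lit 76) (nat_lit 1733643481) (nat_lit 142) (nat_lit 5) (nat_lit 148) (nat_lit 5) (nat_lit 143) (nat_lit 4) (nat_lit 388) (nat_lit 321) (nat_lit 311)) (XT.lf (nat_lit 0) (nat_lit 2062532907) (nat_lit 304) (nat_lit 4061715979) (nat_lit 380) (nat_lit 3043769463) (nat_lit 138) (nat_lit 5) (nat_lit 142) (nat_lit 5) (nat_lit 143) (nat_lit 4) (nat_lit 389) (nat_lit 321) (nat_lit 310))) (XT.nd (nat_lit 78) (nat_lit 0) (nat_lit 0) (XT.lf (nat_lit 0) (nat_lit 149426053) (nat_lit 304) (nat_lit 691289036) (nat_lit 380) (nat_lit 8453018937) (nat_lit 133) (nat_lit 5) (nat_lit 137) (nat_lit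 5) (nat_lit 138) (nat_lit 5) (nat_lit 390) (nat_lit 321) (nat_lit 309)) (XT.lf (nat_lit 0) (nat_lit 4792700258) (nat_lit 380) (nat_lit 1842577930) (nat_lit 76) (nat_lit 2786693405) (nat_lit 133) (nat_lit 5) (nat_lit 138) (nat_lit 5) (nat_lit 134) (nat_lit 4) (nat_lit 391) (nat_lit 321) (nat_lit 308))))) (XT.nd (nat_lit 234) (nat_lit 912) (nat_lit 0) (XT.nd (nat_lit 78) (nat_lit 608) (nat_lit 0) (XT.lf (nat_lit 0) (nat_lit 5653943250) (nat_lit 304) (nat_lit 3185986094) (nat_lit 380) (nat_lit 714844659) (nat_lit 129) (nat_lit 5) (nat_lit 133) (nat_lit 5) (nat_lit 134) (nat_lit 4) (nat_lit 392) (nat_lit 321) (nat_lit 307)) (XT.nd (nat_lit 78) (nat_lit 228) (nat_lit 0) (XT.lf (nat_lit 0) (nat_lit 3225842947) (nat_lit 380) (nat_lit 6062718553) (nat_lit 76) (nat_lit 402852978) (nat_lit 124) (nat_lit 5) (nat_lit 129) (nat_lit 5) (nat_lit 125) (nat_lit 4) (nat_lit 393) (nat_lit 321) (nat_lit 306)) (XT.lf (nat_lit 0) (nat_lit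 1494238444) (nat_lit 228) (nat_lit 5778534398) (nat_lit 304) (nat_lit 2559114014) (nat_lit 121) (nat_lit 5) (nat_lit 124) (nat_lit 5) (nat_lit 125) (nat_lit 4) (nat_lit 394) (nat_lit 321) (nat_lit 305)))) (XT.nd (nat_lit 156) (nat_lit 532) (nat_lit 0) (XT.nd (nat_lit 78) (nat_lit 304) (nat_lit 0) (XT.lf (nat_lit 0) (nat_lit 1414856669) (nat_lit 304) (nat_lit 716645041) (nat_lit 76) (nat_lit 7845298159) (nat_lit 120) (nat_lit 5) (nat_lit 124) (nat_lit 5) (nat_lit 121) (nat_lit 5) (nat_lit 395) (nat_lit 321) (nat_lit 304)) (XT.lf (nat_lit 0) (nat_lit 5460662234) (nat_lit 380) (nat_lit 3020824577) (nat_lit 76) (nat_lit 1643707068) (nat_lit 116) (nat_lit 5) (nat_lit 121) (nat_lit 5) (nat_lit 117) (nat_lit 4) (nat_lit 396) (nat_lit 321) (nat_lit 303))) (XT.nd (nat_lit 78) (nat_lit 304) (nat_lit 0) (XT.lf (nat_lit 0) (nat_lit 4843857526) (nat_lit 228) (nat_lit 4779160681) (nat_lit 304) (nat_lit 655181051) (nat_lit 113)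 (nat_lit 5) (nat_lit 116) (nat_lit 5) (nat_lit 117) (nat_lit 4) (nat_lit 397) (nat_lit 321) (nat_lit 302)) (XT.lf (nat_lit 0) (nat_lit 2459082752) (nat_lit 228) (nat_lit 922542971) (nat_lit 304) (nat_lit 7053931863) (nat_lit 109) (nat_lit 5) (nat_lit 112) (nat_lit 5) (nat_lit 113) (nat_lit 5) (nat_lit 398) (nat_lit 321) (nat_lit 301)))))) (XT.nd (nat_lit 546) (nat_lit 1292) (nat_lit 0) (XT.nd (nat_lit 234) (nat_lit 684) (nat_lit 0) (XT.nd (nat_lit 78) (nat_lit 532) (nat_lit 0) (XT.lf (nat_lit 0) (nat_lit 7532289544) (nat_lit 304) (nat_lit 59023931) (nat_lit 76) (nat_lit 3005964519) (nat_lit 109) (nat_lit 5) (nat_lit 113) (nat_lit 5) (nat_lit 110) (nat_lit 4) (nat_lit 399) (nat_lit 321) (nat_lit 300)) (XT.nd (nat_lit 78) (nat_lit 228) (nat_lit 0) (XT.lf (nat_lit 0) (nat_lit 1034036372) (nat_lit 304) (nat_lit 2652067010) (nat_lit 76) (nat_lit 7077135131) (nat_lit 105) (nat_lit 5) (nat_lit 109) (nat_lit 5) (nat_lit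 106) (nat_lit 5) (nat_lit 400) (nat_lit 321) (nat_lit 299)) (XT.lf (nat_lit 0) (nat_lit 5175736094) (nat_lit 304) (nat_lit 5390137835) (nat_lit 76) (nat_lit 367966732) (nat_lit 102) (nat_lit 5) (nat_lit 106) (nat_lit 5) (nat_lit 103) (nat_lit 4) (nat_lit 401) (nat_lit 321) (nat_lit 298)))) (XT.nd (nat_lit 156) (nat_lit 380) (nat_lit 0) (XT.nd (nat_lit 78) (nat_lit 76) (nat_lit 0) (XT.lf (nat_lit 0) (nat_lit 2824715813) (nat_lit 228) (nat_lit 6632020920) (nat_lit 304) (nat_lit 1652384705) (nat_lit 99) (nat_lit 5) (nat_lit 102) (nat_lit 5) (nat_lit 103) (nat_lit 4) (nat_lit 402) (nat_lit 321) (nat_lit 297)) (XT.lf (nat_lit 0) (nat_lit 2505820605) (nat_lit 304) (nat_lit 41712424) (nat_lit 76) (nat_lit 8742008248) (nat_lit 98) (nat_lit 5) (nat_lit 102) (nat_lit 5) (nat_lit 99) (nat_lit 5) (nat_lit 403) (nat_lit 321) (nat_lit 296))) (XT.nd (nat_lit 78) (nat_lit 152) (nat_lit 0) (XT.lf (nat_lit 0) (nat_lit 6780313955)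 (nat_lit 304) (nat_lit 3015053130) (nat_lit 76) (nat_lit 1678784264) (nat_lit 95) (nat_lit 5) (nat_lit 99) (nat_lit 5) (nat_lit 96) (nat_lit 4) (nat_lit 404) (nat_lit 321) (nat_lit 295)) (XT.lf (nat_lit 0) (nat_lit 5512056877) (nat_lit 152) (nat_lit 5676953920) (nat_lit 228) (nat_lit 475120583) (nat_lit 93) (nat_lit 5) (nat_lit 95) (nat_lit 5) (nat_lit 96) (nat_lit 4) (nat_lit 405) (nat_lit 321) (nat_lit 294))))) (XT.nd (nat_lit 312) (nat_lit 532) (nat_lit 0) (XT.nd (nat_lit 156) (nat_lit 456) (nat_lit 0) (XT.nd (nat_lit 78) (nat_lit 0) (nat_lit 0) (XT.lf (nat_lit 0) (nat_lit 2384887602) (nat_lit 228) (nat_lit 1390994085) (nat_lit 304) (nat_lit 8083385817) (nat_lit 89) (nat_lit 5) (nat_lit 92) (nat_lit 5) (nat_lit 93) (nat_lit 5) (nat_lit 406) (nat_lit 321) (nat_lit 293)) (XT.lf (nat_lit 0) (nat_lit 8164713329) (nat_lit 304) (nat_lit 911225428) (nat_lit 76) (nat_lit 2983592176) (nat_lit 89) (nat_lit 5) (nat_lit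 93) (nat_lit 5) (nat_lit 90) (nat_lit 4) (nat_lit 407) (nat_lit 321) (nat_lit 292))) (XT.nd (nat_lit 78) (nat_lit 228) (nat_lit 0) (XT.lf (nat_lit 0) (nat_lit 431563553) (nat_lit 228) (nat_lit 4338576772) (nat_lit 76) (nat_lit 7494940036) (nat_lit 86) (nat_lit 5) (nat_lit 89) (nat_lit 5) (nat_lit 87) (nat_lit 5) (nat_lit 408) (nat_lit 321) (nat_lit 291)) (XT.lf (nat_lit 0) (nat_lit 4501532404) (nat_lit 228) (nat_lit 290838032) (nat_lit 304) (nat_lit 7683790449) (nat_lit 83) (nat_lit 5) (nat_lit 86) (nat_lit 5) (nat_lit 87) (nat_lit 5) (nat_lit 409) (nat_lit 321) (nat_lit 290)))) (XT.nd (nat_lit 156) (nat_lit 304) (nat_lit 0) (XT.nd (nat_lit 78) (nat_lit 76) (nat_lit 0) (XT.lf (nat_lit 0) (nat_lit 858682374) (nat_lit 152) (nat_lit 8450144840) (nat_lit 228) (nat_lit 3384010554) (nat_lit 81) (nat_lit 5) (nat_lit 83) (nat_lit 5) (nat_lit 84) (nat_lit 4) (nat_lit 410) (nat_lit 321) (nat_lit 289)) (XT.lf (nat_lit 0)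 (nat_lit 1039546287) (nat_lit 228) (nat_lit 2926671750) (nat_lit 76) (nat_lit 8949048728) (nat_lit 80) (nat_lit 5) (nat_lit 83) (nat_lit 5) (nat_lit 81) (nat_lit 5) (nat_lit 411) (nat_lit 321) (nat_lit 288))) (XT.nd (nat_lit 78) (nat_lit 152) (nat_lit 0) (XT.lf (nat_lit 0) (nat_lit 5527276564) (nat_lit 228) (nat_lit 6930737994) (nat_lit 76) (nat_lit 685372439) (nat_lit 78) (nat_lit 5) (nat_lit 81) (nat_lit 5) (nat_lit 79) (nat_lit 4) (nat_lit 412) (nat_lit 321) (nat_lit 287)) (XT.lf (nat_lit 0) (nat_lit 2195244917) (nat_lit 152) (nat_lit 7977961749) (nat_lit 228) (nat_lit 3204444876) (nat_lit 76) (nat_lit 5) (nat_lit 78) (nat_lit 5) (nat_lit 79) (nat_lit 4) (nat_lit 413) (nat_lit 321) (nat_lit 286))))))) (XT.nd (nat_lit 1092) (nat_lit 1216) (nat_lit 0) (XT.nd (nat_lit 546) (nat_lit 836) (nat_lit 0) (XT.nd (nat_lit 234) (nat_lit 456) (nat_lit 0) (XT.nd (nat_lit 78) (nat_lit 304) (nat_lit 0) (XT.lf (nat_lit 0) (nat_lit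 1317632070) (nat_lit 228) (nat_lit 2010228799) (nat_lit 76) (nat_lit 10290578110) (nat_lit 75) (nat_lit 5) (nat_lit 78) (nat_lit 5) (nat_lit 76) (nat_lit 5) (nat_lit 414) (nat_lit 321) (nat_lit 285)) (XT.nd (nat_lit 78) (nat_lit 152) (nat_lit 0) (XT.lf (nat_lit 0) (nat_lit 5932514664) (nat_lit 228) (nat_lit 6442879874) (nat_lit 76) (nat_lit 1489464287) (nat_lit 73) (nat_lit 5) (nat_lit 76) (nat_lit 5) (nat_lit 74) (nat_lit 4) (nat_lit 415) (nat_lit 321) (nat_lit 284)) (XT.lf (nat_lit 0) (nat_lit 2971299423) (nat_lit 152) (nat_lit 7732345578) (nat_lit 228) (nat_lit 3414499107) (nat_lit 71) (nat_lit 5) (nat_lit 73) (nat_lit 5) (nat_lit 74) (nat_lit 4) (nat_lit 416) (nat_lit 321) (nat_lit 283)))) (XT.nd (nat_lit 156) (nat_lit 228) (nat_lit 0) (XT.nd (nat_lit 78) (nat_lit 152) (nat_lit 0) (XT.lf (nat_lit 0) (nat_lit 1216352950) (nat_lit 228) (nat_lit 1703647346) (nat_lit 76) (nat_lit 11458627471) (nat_lit 70) (nat_lit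 5) (nat_lit 73) (nat_lit 5) (nat_lit 71) (nat_lit 5) (nat_lit 417) (nat_lit 321) (nat_lit 282)) (XT.lf (nat_lit 0) (nat_lit 5952760793) (nat_lit 228) (nat_lit 6630519050) (nat_lit 76) (nat_lit 2061580433) (nat_lit 68) (nat_lit 5) (nat_lit 71) (nat_lit 5) (nat_lit 69) (nat_lit 4) (nat_lit 418) (nat_lit 321) (nat_lit 281))) (XT.nd (nat_lit 78) (nat_lit 76) (nat_lit 0) (XT.lf (nat_lit 0) (nat_lit 3059881042) (nat_lit 152) (nat_lit 7785180914) (nat_lit 228) (nat_lit 4073609883) (nat_lit 66) (nat_lit 5) (nat_lit 68) (nat_lit 5) (nat_lit 69) (nat_lit 4) (nat_lit 419) (nat_lit 321) (nat_lit 280)) (XT.lf (nat_lit 0) (nat_lit 675954465) (nat_lit 228) (nat_lit 2140132203) (nat_lit 76) (nat_lit 12384244066) (nat_lit 65) (nat_lit 5) (nat_lit 68) (nat_lit 5) (nat_lit 66) (nat_lit 5) (nat_lit 420) (nat_lit 321) (nat_lit 279))))) (XT.nd (nat_lit 234) (nat_lit 532) (nat_lit 0) (XT.nd (nat_lit 78) (nat_lit 152) (nat_lit 0) (XT.lf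 (nat_lit 0) (nat_lit 5524689072) (nat_lit 228) (nat_lit 7636032594) (nat_lit 76) (nat_lit 2327356575) (nat_lit 63) (nat_lit 5) (nat_lit 66) (nat_lit 5) (nat_lit 64) (nat_lit 4) (nat_lit 421) (nat_lit 321) (nat_lit 278)) (XT.nd (nat_lit 78) (nat_lit 0) (nat_lit 0) (XT.lf (nat_lit 0) (nat_lit 2312933357) (nat_lit 152) (nat_lit 8218192072) (nat_lit 228) (nat_lit 5252970984) (nat_lit 61) (nat_lit 5) (nat_lit 63) (nat_lit 5) (nat_lit 64) (nat_lit 4) (nat_lit 422) (nat_lit 321) (nat_lit 277)) (XT.lf (nat_lit 0) (nat_lit 12609805909) (nat_lit 152) (nat_lit 3096066557) (nat_lit 228) (nat_lit 382584407) (nat_lit 61) (nat_lit 5) (nat_lit 63) (nat_lit 5) (nat_lit 64) (nat_lit 4) (nat_lit 423) (nat_lit 321) (nat_lit 276)))) (XT.nd (nat_lit 156) (nat_lit 228) (nat_lit 0) (XT.nd (nat_lit 78) (nat_lit 76) (nat_lit 0) (XT.lf (nat_lit 0) (nat_lit 4572563311) (nat_lit 228) (nat_lit 9625390501) (nat_lit 76) (nat_lit 2201790769) (nat_lit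 58) (nat_lit 5) (nat_lit 61) (nat_lit 5) (nat_lit 59) (nat_lit 4) (nat_lit 424) (nat_lit 321) (nat_lit 275)) (XT.lf (nat_lit 0) (nat_lit 557664987) (nat_lit 76) (nat_lit 9124888686) (nat_lit 152) (nat_lit 7037292101) (nat_lit 57) (nat_lit 5) (nat_lit 58) (nat_lit 5) (nat_lit 59) (nat_lit 4) (nat_lit 425) (nat_lit 321) (nat_lit 274))) (XT.nd (nat_lit 78) (nat_lit 228) (nat_lit 0) (XT.lf (nat_lit 0) (nat_lit 11139187934) (nat_lit 76) (nat_lit 3846916162) (nat_lit 152) (nat_lit 2062242778) (nat_lit 57) (nat_lit 5) (nat_lit 58) (nat_lit 5) (nat_lit 59) (nat_lit 4) (nat_lit 426) (nat_lit 321) (nat_lit 273)) (XT.lf (nat_lit 0) (nat_lit 3006346103) (nat_lit 228) (nat_lit 12792174340) (nat_lit 76) (nat_lit 1587182755) (nat_lit 54) (nat_lit 5) (nat_lit 57) (nat_lit 5) (nat_lit 55) (nat_lit 4) (nat_lit 427) (nat_lit 321) (nat_lit 272)))))) (XT.nd (nat_lit 546) (nat_lit 608) (nat_lit 0) (XT.nd (nat_lit 234) (nat_lit 304)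 (nat_lit 0) (XT.nd (nat_lit 78) (nat_lit 304) (nat_lit 0) (XT.lf (nat_lit 0) (nat_lit 8228269947) (nat_lit 228) (nat_lit 2360681337) (nat_lit 76) (nat_lit 7142338877) (nat_lit 54) (nat_lit 5) (nat_lit 57) (nat_lit 5) (nat_lit 55) (nat_lit 4) (nat_lit 428) (nat_lit 321) (nat_lit 271)) (XT.nd (nat_lit 78) (nat_lit 228) (nat_lit 0) (XT.lf (nat_lit 0) (nat_lit 8448992569) (nat_lit 76) (nat_lit 5185072263) (nat_lit 152) (nat_lit 4452367664) (nat_lit 53) (nat_lit 5) (nat_lit 54) (nat_lit 5) (nat_lit 55) (nat_lit 4) (nat_lit 429) (nat_lit 321) (nat_lit 270)) (XT.lf (nat_lit 0) (nat_lit 719487163) (nat_lit 228) (nat_lit 17362226921) (nat_lit 76) (nat_lit 370773290) (nat_lit 50) (nat_lit 5) (nat_lit 53) (nat_lit 5) (nat_lit 51) (nat_lit 4) (nat_lit 430) (nat_lit 321) (nat_lit 269)))) (XT.nd (nat_lit 156) (nat_lit 228) (nat_lit 0) (XT.nd (nat_lit 78) (nat_lit 76) (nat_lit 0) (XT.lf (nat_lit 0) (nat_lit 6052902027) (nat_lit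 228) (nat_lit 6685560076) (nat_lit 76) (nat_lit 6086866341) (nat_lit 50) (nat_lit 5) (nat_lit 53) (nat_lit 5) (nat_lit 51) (nat_lit 4) (nat_lit 431) (nat_lit 321) (nat_lit 268)) (XT.lf (nat_lit 0) (nat_lit 4298269933) (nat_lit 76) (nat_lit 7237204306) (nat_lit 152) (nat_lit 7674209559) (nat_lit 49) (nat_lit 5) (nat_lit 50) (nat_lit 5) (nat_lit 51) (nat_lit 4) (nat_lit 432) (nat_lit 321) (nat_lit 267))) (XT.nd (nat_lit 78) (nat_lit 228) (nat_lit 0) (XT.lf (nat_lit 0) (nat_lit 15652601794) (nat_lit 76) (nat_lit 1545866083) (nat_lit 152) (nat_lit 2406627197) (nat_lit 49) (nat_lit 5) (nat_lit 50) (nat_lit 5) (nat_lit 51) (nat_lit 4) (nat_lit 433) (nat_lit 321) (nat_lit 266)) (XT.lf (nat_lit 0) (nat_lit 3022269682) (nat_lit 228) (nat_lit 12697521229) (nat_lit 76) (nat_lit 4289844605) (nat_lit 46) (nat_lit 5) (nat_lit 49) (nat_lit 5) (nat_lit 47) (nat_lit 4) (nat_lit 434) (nat_lit 321) (nat_lit 265))))) (XT.nd (nat_lit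 312) (nat_lit 304) (nat_lit 0) (XT.nd (nat_lit 156) (nat_lit 228) (nat_lit 0) (XT.nd (nat_lit 78) (nat_lit 76) (nat_lit 0) (XT.lf (nat_lit 0) (nat_lit 8570870522) (nat_lit 228) (nat_lit 1563395456) (nat_lit 76) (nat_lit 10291178403) (nat_lit 46) (nat_lit 5) (nat_lit 49) (nat_lit 5) (nat_lit 47) (nat_lit 4) (nat_lit 435) (nat_lit 321) (nat_lit 264)) (XT.lf (nat_lit 0) (nat_lit 10008369733) (nat_lit 76) (nat_lit 4324829010) (nat_lit 152) (nat_lit 6519113878) (nat_lit 45) (nat_lit 5) (nat_lit 46) (nat_lit 5) (nat_lit 47) (nat_lit 4) (nat_lit 436) (nat_lit 321) (nat_lit 263))) (XT.nd (nat_lit 78) (nat_lit 76) (nat_lit 0) (XT.lf (nat_lit 0) (nat_lit 571031055) (nat_lit 152) (nat_lit 19685952552) (nat_lit 152) (nat_lit 1035348794) (nat_lit 43) (nat_lit 4) (nat_lit 45) (nat_lit 5) (nat_lit 45) (nat_lit 4) (nat_lit 437) (nat_lit 321) (nat_lit 262)) (XT.lf (nat_lit 0) (nat_lit 4627595510) (nat_lit 228) (nat_lit 9371674092)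 (nat_lit 76) (nat_lit 7741815390) (nat_lit 42) (nat_lit 5) (nat_lit 45) (nat_lit 5) (nat_lit 43) (nat_lit 4) (nat_lit 438) (nat_lit 321) (nat_lit 261)))) (XT.nd (nat_lit 156) (nat_lit 228) (nat_lit 0) (XT.nd (nat_lit 78) (nat_lit 0) (nat_lit 0) (XT.lf (nat_lit 0) (nat_lit 2263125312) (nat_lit 76) (nat_lit 8150941386) (nat_lit 152) (nat_lit 11789695326) (nat_lit 41) (nat_lit 5) (nat_lit 42) (nat_lit 5) (nat_lit 43) (nat_lit 4) (nat_lit 439) (nat_lit 321) (nat_lit 260)) (XT.lf (nat_lit 0) (nat_lit 14350726195) (nat_lit 76) (nat_lit 2071263415) (nat_lit 152) (nat_lit 6256896780) (nat_lit 41) (nat_lit 5) (nat_lit 42) (nat_lit 5) (nat_lit 43) (nat_lit 4) (nat_lit 440) (nat_lit 321) (nat_lit 259))) (XT.nd (nat_lit 78) (nat_lit 76) (nat_lit 0) (XT.lf (nat_lit 0) (nat_lit 3575418943) (nat_lit 152) (nat_lit 19063581479) (nat_lit 152) (nat_lit 528401231) (nat_lit 39) (nat_lit 4) (nat_lit 41) (nat_lit 5) (nat_lit 41) (nat_lit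 4) (nat_lit 441) (nat_lit 321) (nat_lit 258)) (XT.lf (nat_lit 0) (nat_lit 5326815217) (nat_lit 228) (nat_lit 7821022329) (nat_lit 76) (nat_lit 10519397430) (nat_lit 38) (nat_lit 5) (nat_lit 41) (nat_lit 5) (nat_lit 39) (nat_lit 4) (nat_lit 442) (nat_lit 321) (nat_lit 257))))))))
noncomputable def xc58 : XT := (XT.nd (nat_lit 2262) (nat_lit 608) (nat_lit 0) (XT.nd (nat_lit 1092) (nat_lit 608) (nat_lit 0) (XT.nd (nat_lit 546) (nat_lit 380) (nat_lit 0) (XT.nd (nat_lit 234) (nat_lit 228) (nat_lit 0) (XT.nd (nat_lit 78) (nat_lit 76) (nat_lit 0) (XT.lf (nat_lit 0) (nat_lit 4297402883) (nat_lit 76) (nat_lit 7046560424) (nat_lit 152) (nat_lit 12838038620) (nat_lit 37) (nat_lit 5) (nat_lit 38) (nat_lit 5) (nat_lit 39) (nat_lit 4) (nat_lit 443) (nat_lit 321) (nat_lit 256)) (XT.nd (nat_lit 78) (nat_lit 76) (nat_lit 0) (XT.lf (nat_lit 0) (nat_lit 16856240421) (nat_lit 76) (nat_lit 720439933) (nat_lit 152) (nat_lit 7134482270)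 (nat_lit 37) (nat_lit 5) (nat_lit 38) (nat_lit 5) (nat_lit 39) (nat_lit 4) (nat_lit 444) (nat_lit 321) (nat_lit 255)) (XT.lf (nat_lit 0) (nat_lit 4485518706) (nat_lit 76) (nat_lit 19566675100) (nat_lit 76) (nat_lit 1202332195) (nat_lit 36) (nat_lit 4) (nat_lit 37) (nat_lit 5) (nat_lit 37) (nat_lit 4) (nat_lit 445) (nat_lit 321) (nat_lit 254)))) (XT.nd (nat_lit 156) (nat_lit 76) (nat_lit 0) (XT.nd (nat_lit 78) (nat_lit 76) (nat_lit 0) (XT.lf (nat_lit 0) (nat_lit 4856288808) (nat_lit 152) (nat_lit 8591713813) (nat_lit 76) (nat_lit 12363446284) (nat_lit 35) (nat_lit 5) (nat_lit 37) (nat_lit 5) (nat_lit 36) (nat_lit 4) (nat_lit 446) (nat_lit 321) (nat_lit 253)) (XT.lf (nat_lit 0) (nat_lit 3936192670) (nat_lit 76) (nat_lit 7132435736) (nat_lit 152) (nat_lit 15316212300) (nat_lit 34) (nat_lit 5) (nat_lit 35) (nat_lit 5) (nat_lit 36) (nat_lit 4) (nat_lit 447) (nat_lit 321) (nat_lit 252))) (XT.nd (nat_lit 78) (nat_lit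 76) (nat_lit 0) (XT.lf (nat_lit 0) (nat_lit 16937227736) (nat_lit 76) (nat_lit 575615611) (nat_lit 152) (nat_lit 9461227808) (nat_lit 34) (nat_lit 5) (nat_lit 35) (nat_lit 5) (nat_lit 36) (nat_lit 4) (nat_lit 448) (nat_lit 321) (nat_lit 251)) (XT.lf (nat_lit 0) (nat_lit 2662497224) (nat_lit 76) (nat_lit 21532463496) (nat_lit 76) (nat_lit 3384682506) (nat_lit 33) (nat_lit 4) (nat_lit 34) (nat_lit 5) (nat_lit 34) (nat_lit 4) (nat_lit 449) (nat_lit 321) (nat_lit 250))))) (XT.nd (nat_lit 234) (nat_lit 228) (nat_lit 0) (XT.nd (nat_lit 78) (nat_lit 76) (nat_lit 0) (XT.lf (nat_lit 0) (nat_lit 2885768269) (nat_lit 152) (nat_lit 12363542793) (nat_lit 76) (nat_lit 12951213596) (nat_lit 32) (nat_lit 5) (nat_lit 34) (nat_lit 5) (nat_lit 33) (nat_lit 4) (nat_lit 450) (nat_lit 321) (nat_lit 249)) (XT.nd (nat_lit 78) (nat_lit 0) (nat_lit 0) (XT.lf (nat_lit 0) (nat_lit 467093208) (nat_lit 76) (nat_lit 8774515356) (nat_lit 152)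 (nat_lit 19598461294) (nat_lit 31) (nat_lit 5) (nat_lit 32) (nat_lit 5) (nat_lit 33) (nat_lit 4) (nat_lit 451) (nat_lit 321) (nat_lit 248)) (XT.lf (nat_lit 0) (nat_lit 13861647571) (nat_lit 76) (nat_lit 2012564557) (nat_lit 152) (nat_lit 13622008410) (nat_lit 31) (nat_lit 5) (nat_lit 32) (nat_lit 5) (nat_lit 33) (nat_lit 4) (nat_lit 452) (nat_lit 321) (nat_lit 247)))) (XT.nd (nat_lit 156) (nat_lit 152) (nat_lit 0) (XT.nd (nat_lit 78) (nat_lit 76) (nat_lit 0) (XT.lf (nat_lit 0) (nat_lit 22715434237) (nat_lit 152) (nat_lit 2634691842) (nat_lit 0) (nat_lit 4821642162) (nat_lit 31) (nat_lit 5) (nat_lit 33) (nat_lit 4) (nat_lit 31) (nat_lit 4) (nat_lit 453) (nat_lit 321) (nat_lit 246)) (XT.lf (nat_lit 0) (nat_lit 10876557762) (nat_lit 76) (nat_lit 18972955921) (nat_lit 76) (nat_lit 1015441735) (nat_lit 30) (nat_lit 4) (nat_lit 31) (nat_lit 5) (nat_lit 31) (nat_lit 4) (nat_lit 454) (nat_lit 321) (nat_lit 245))) (XT.nd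 (nat_lit 78) (nat_lit 76) (nat_lit 0) (XT.lf (nat_lit 0) (nat_lit 5499083179) (nat_lit 152) (nat_lit 6856241459) (nat_lit 76) (nat_lit 19222293443) (nat_lit 29) (nat_lit 5) (nat_lit 31) (nat_lit 5) (nat_lit 30) (nat_lit 4) (nat_lit 455) (nat_lit 321) (nat_lit 244)) (XT.lf (nat_lit 0) (nat_lit 6722083749) (nat_lit 76) (nat_lit 5495417858) (nat_lit 152) (nat_lit 20092992910) (nat_lit 28) (nat_lit 5) (nat_lit 29) (nat_lit 5) (nat_lit 30) (nat_lit 4) (nat_lit 456) (nat_lit 321) (nat_lit 243)))))) (XT.nd (nat_lit 546) (nat_lit 304) (nat_lit 0) (XT.nd (nat_lit 234) (nat_lit 228) (nat_lit 0) (XT.nd (nat_lit 78) (nat_lit 76) (nat_lit 0) (XT.lf (nat_lit 0) (nat_lit 19186806885) (nat_lit 152) (nat_lit 12299739949) (nat_lit 0) (nat_lit 1577331862) (nat_lit 28) (nat_lit 5) (nat_lit 30) (nat_lit 4) (nat_lit 28) (nat_lit 4) (nat_lit 457) (nat_lit 321) (nat_lit 242)) (XT.nd (nat_lit 78) (nat_lit 0) (nat_lit 0) (XT.lf (nat_lit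 0) (nat_lit 1291405510) (nat_lit 76) (nat_lit 25105968559) (nat_lit 76) (nat_lit 7441526284) (nat_lit 27) (nat_lit 4) (nat_lit 28) (nat_lit 5) (nat_lit 28) (nat_lit 4) (nat_lit 458) (nat_lit 321) (nat_lit 241)) (XT.lf (nat_lit 0) (nat_lit 15476099186) (nat_lit 76) (nat_lit 18438092700) (nat_lit 76) (nat_lit 720284160) (nat_lit 27) (nat_lit 4) (nat_lit 28) (nat_lit 5) (nat_lit 28) (nat_lit 4) (nat_lit 459) (nat_lit 321) (nat_lit 240)))) (XT.nd (nat_lit 156) (nat_lit 76) (nat_lit 0) (XT.nd (nat_lit 78) (nat_lit 76) (nat_lit 0) (XT.lf (nat_lit 0) (nat_lit 6047958009) (nat_lit 152) (nat_lit 5492265688) (nat_lit 76) (nat_lit 23912916002) (nat_lit 26) (nat_lit 5) (nat_lit 28) (nat_lit 5) (nat_lit 27) (nat_lit 4) (nat_lit 460) (nat_lit 321) (nat_lit 239)) (XT.lf (nat_lit 0) (nat_lit 8682970994) (nat_lit 76) (nat_lit 4372641944) (nat_lit 152) (nat_lit 23239012377) (nat_lit 25) (nat_lit 5) (nat_lit 26) (nat_lit 5) (nat_lit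 27) (nat_lit 4) (nat_lit 461) (nat_lit 321) (nat_lit 238))) (XT.nd (nat_lit 78) (nat_lit 76) (nat_lit 0) (XT.lf (nat_lit 0) (nat_lit 20325875896) (nat_lit 152) (nat_lit 13856345209) (nat_lit 0) (nat_lit 2977564282) (nat_lit 25) (nat_lit 5) (nat_lit 27) (nat_lit 4) (nat_lit 25) (nat_lit 4) (nat_lit 462) (nat_lit 321) (nat_lit 237)) (XT.lf (nat_lit 0) (nat_lit 211068182) (nat_lit 76) (nat_lit 27616883972) (nat_lit 76) (nat_lit 10222538148) (nat_lit 24) (nat_lit 4) (nat_lit 25) (nat_lit 5) (nat_lit 25) (nat_lit 4) (nat_lit 463) (nat_lit 321) (nat_lit 236))))) (XT.nd (nat_lit 312) (nat_lit 152) (nat_lit 0) (XT.nd (nat_lit 156) (nat_lit 76) (nat_lit 0) (XT.nd (nat_lit 78) (nat_lit 76) (nat_lit 0) (XT.lf (nat_lit 0) (nat_lit 14923767027) (nat_lit 76) (nat_lit 20739965244) (nat_lit 76) (nat_lit 3300926014) (nat_lit 24) (nat_lit 4) (nat_lit 25) (nat_lit 5) (nat_lit 25) (nat_lit 4) (nat_lit 464) (nat_lit 321) (nat_lit 235))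 (XT.lf (nat_lit 0) (nat_lit 3722958822) (nat_lit 152) (nat_lit 9924824476) (nat_lit 76) (nat_lit 26258285233) (nat_lit 23) (nat_lit 5) (nat_lit 25) (nat_lit 5) (nat_lit 24) (nat_lit 4) (nat_lit 465) (nat_lit 321) (nat_lit 234))) (XT.nd (nat_lit 78) (nat_lit 0) (nat_lit 0) (XT.lf (nat_lit 0) (nat_lit 4614198288) (nat_lit 76) (nat_lit 6291593336) (nat_lit 152) (nat_lit 29968512754) (nat_lit 22) (nat_lit 5) (nat_lit 23) (nat_lit 5) (nat_lit 24) (nat_lit 4) (nat_lit 466) (nat_lit 321) (nat_lit 233)) (XT.lf (nat_lit 0) (nat_lit 18387948758) (nat_lit 152) (nat_lit 22147019823) (nat_lit 0) (nat_lit 1334104576) (nat_lit 22) (nat_lit 5) (nat_lit 24) (nat_lit 4) (nat_lit 22) (nat_lit 4) (nat_lit 467) (nat_lit 321) (nat_lit 232)))) (XT.nd (nat_lit 156) (nat_lit 76) (nat_lit 0) (XT.nd (nat_lit 78) (nat_lit 76) (nat_lit 0) (XT.lf (nat_lit 0) (nat_lit 26128000378) (nat_lit 152) (nat_lit 7729079463) (nat_lit 0) (nat_lit 9035603271)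 (nat_lit 22) (nat_lit 5) (nat_lit 24) (nat_lit 4) (nat_lit 22) (nat_lit 4) (nat_lit 468) (nat_lit 321) (nat_lit 231)) (XT.lf (nat_lit 0) (nat_lit 7207434845) (nat_lit 76) (nat_lit 26934078420) (nat_lit 76) (nat_lit 9804251288) (nat_lit 21) (nat_lit 4) (nat_lit 22) (nat_lit 5) (nat_lit 22) (nat_lit 4) (nat_lit 469) (nat_lit 321) (nat_lit 230))) (XT.nd (nat_lit 78) (nat_lit 76) (nat_lit 0) (XT.lf (nat_lit 0) (nat_lit 22696411226) (nat_lit 76) (nat_lit 19749342725) (nat_lit 76) (nat_lit 2583175764) (nat_lit 21) (nat_lit 4) (nat_lit 22) (nat_lit 5) (nat_lit 22) (nat_lit 4) (nat_lit 470) (nat_lit 321) (nat_lit 229)) (XT.lf (nat_lit 0) (nat_lit 4732616618) (nat_lit 152) (nat_lit 7594236614) (nat_lit 76) (nat_lit 33817153133) (nat_lit 20) (nat_lit 5) (nat_lit 22) (nat_lit 5) (nat_lit 21) (nat_lit 4) (nat_lit 471) (nat_lit 321) (nat_lit 228))))))) (XT.nd (nat_lit 1092) (nat_lit 152) (nat_lit 0) (XT.nd (nat_lit 546) (nat_lit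 228) (nat_lit 0) (XT.nd (nat_lit 234) (nat_lit 152) (nat_lit 0) (XT.nd (nat_lit 78) (nat_lit 0) (nat_lit 0) (XT.lf (nat_lit 0) (nat_lit 7658569877) (nat_lit 76) (nat_lit 4604618300) (nat_lit 152) (nat_lit 35027163985) (nat_lit 19) (nat_lit 5) (nat_lit 20) (nat_lit 5) (nat_lit 21) (nat_lit 4) (nat_lit 472) (nat_lit 321) (nat_lit 227)) (XT.nd (nat_lit 78) (nat_lit 0) (nat_lit 0) (XT.lf (nat_lit 0) (nat_lit 20102963767) (nat_lit 152) (nat_lit 25028641887) (nat_lit 0) (nat_lit 3336984917) (nat_lit 19) (nat_lit 5) (nat_lit 21) (nat_lit 4) (nat_lit 19) (nat_lit 4) (nat_lit 473) (nat_lit 321) (nat_lit 226)) (XT.lf (nat_lit 0) (nat_lit 28197935859) (nat_lit 152) (nat_lit 10083031042) (nat_lit 0) (nat_lit 11400609952) (nat_lit 19) (nat_lit 5) (nat_lit 21) (nat_lit 4) (nat_lit 19) (nat_lit 4) (nat_lit 474) (nat_lit 321) (nat_lit 225)))) (XT.nd (nat_lit 156) (nat_lit 76) (nat_lit 0) (XT.nd (nat_lit 78) (nat_lit 0) (nat_lit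 0) (XT.lf (nat_lit 0) (nat_lit 5367103448) (nat_lit 76) (nat_lit 31195403755) (nat_lit 76) (nat_lit 14367643814) (nat_lit 18) (nat_lit 4) (nat_lit 19) (nat_lit 5) (nat_lit 19) (nat_lit 4) (nat_lit 475) (nat_lit 321) (nat_lit 224)) (XT.lf (nat_lit 0) (nat_lit 21439334263) (nat_lit 76) (nat_lit 23815919658) (nat_lit 76) (nat_lit 6958612109) (nat_lit 18) (nat_lit 4) (nat_lit 19) (nat_lit 5) (nat_lit 19) (nat_lit 4) (nat_lit 476) (nat_lit 321) (nat_lit 223))) (XT.nd (nat_lit 78) (nat_lit 0) (nat_lit 0) (XT.lf (nat_lit 0) (nat_lit 635462240) (nat_lit 152) (nat_lit 15596006196) (nat_lit 76) (nat_lit 37305153846) (nat_lit 17) (nat_lit 5) (nat_lit 19) (nat_lit 5) (nat_lit 18) (nat_lit 4) (nat_lit 477) (nat_lit 321) (nat_lit 222)) (XT.lf (nat_lit 0) (nat_lit 8294097910) (nat_lit 152) (nat_lit 76827240) (nat_lit 76) (nat_lit 46526771856) (nat_lit 17) (nat_lit 5) (nat_lit 19) (nat_lit 5) (nat_lit 18) (nat_lit 4) (nat_lit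 478) (nat_lit 321) (nat_lit 221))))) (XT.nd (nat_lit 234) (nat_lit 152) (nat_lit 0) (XT.nd (nat_lit 78) (nat_lit 0) (nat_lit 0) (XT.lf (nat_lit 0) (nat_lit 16179169862) (nat_lit 76) (nat_lit 136128712) (nat_lit 152) (nat_lit 39980321905) (nat_lit 16) (nat_lit 5) (nat_lit 17) (nat_lit 5) (nat_lit 18) (nat_lit 4) (nat_lit 479) (nat_lit 321) (nat_lit 220)) (XT.nd (nat_lit 78) (nat_lit 0) (nat_lit 0) (XT.lf (nat_lit 0) (nat_lit 24635455875) (nat_lit 152) (nat_lit 24935771354) (nat_lit 0) (nat_lit 8162505476) (nat_lit 16) (nat_lit 5) (nat_lit 18) (nat_lit 4) (nat_lit 16) (nat_lit 4) (nat_lit 480) (nat_lit 321) (nat_lit 219)) (XT.lf (nat_lit 0) (nat_lit 33184539533) (nat_lit 152) (nat_lit 9344226282) (nat_lit 0) (nat_lit 16686843478) (nat_lit 16) (nat_lit 5) (nat_lit 18) (nat_lit 4) (nat_lit 16) (nat_lit 4) (nat_lit 481) (nat_lit 321) (nat_lit 218)))) (XT.nd (nat_lit 156) (nat_lit 76) (nat_lit 0) (XT.nd (nat_lit 78)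 (nat_lit 0) (nat_lit 0) (XT.lf (nat_lit 0) (nat_lit 6805924937) (nat_lit 76) (nat_lit 35228208845) (nat_lit 76) (nat_lit 18706487882) (nat_lit 15) (nat_lit 4) (nat_lit 16) (nat_lit 5) (nat_lit 16) (nat_lit 4) (nat_lit 482) (nat_lit 321) (nat_lit 217)) (XT.lf (nat_lit 0) (nat_lit 23590591118) (nat_lit 76) (nat_lit 27631822048) (nat_lit 76) (nat_lit 11086775932) (nat_lit 15) (nat_lit 4) (nat_lit 16) (nat_lit 5) (nat_lit 16) (nat_lit 4) (nat_lit 483) (nat_lit 321) (nat_lit 216))) (XT.nd (nat_lit 78) (nat_lit 76) (nat_lit 0) (XT.lf (nat_lit 0) (nat_lit 40838470046) (nat_lit 76) (nat_lit 19827326169) (nat_lit 76) (nat_lit 3259634272) (nat_lit 15) (nat_lit 4) (nat_lit 16) (nat_lit 5) (nat_lit 16) (nat_lit 4) (nat_lit 484) (nat_lit 321) (nat_lit 215)) (XT.lf (nat_lit 0) (nat_lit 4688466667) (nat_lit 152) (nat_lit 7072090757) (nat_lit 76) (nat_lit 53828821698) (nat_lit 14) (nat_lit 5) (nat_lit 16) (nat_lit 5) (nat_lit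 15) (nat_lit 4) (nat_lit 485) (nat_lit 321) (nat_lit 214)))))) (XT.nd (nat_lit 44616) (nat_lit 0) (nat_lit 11096) (XT.nd (nat_lit 234) (nat_lit 76) (nat_lit 0) (XT.nd (nat_lit 78) (nat_lit 0) (nat_lit 0) (XT.lf (nat_lit 0) (nat_lit 9538683415) (nat_lit 76) (nat_lit 3342945809) (nat_lit 152) (nat_lit 54418485304) (nat_lit 13) (nat_lit 5) (nat_lit 14) (nat_lit 5) (nat_lit 15) (nat_lit 4) (nat_lit 486) (nat_lit 321) (nat_lit 213)) (XT.nd (nat_lit 78) (nat_lit 0) (nat_lit 0) (XT.lf (nat_lit 0) (nat_lit 21424383209) (nat_lit 152) (nat_lit 42357620370) (nat_lit 0) (nat_lit 5277055046) (nat_lit 13) (nat_lit 5) (nat_lit 15) (nat_lit 4) (nat_lit 13) (nat_lit 4) (nat_lit 487) (nat_lit 321) (nat_lit 212)) (XT.lf (nat_lit 0) (nat_lit 30237554190) (nat_lit 152) (nat_lit 26562101758) (nat_lit 0) (nat_lit 14070691577) (nat_lit 13) (nat_lit 5) (nat_lit 15) (nat_lit 4) (nat_lit 13) (nat_lit 4) (nat_lit 488) (nat_lit 321) (nat_lit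 211)))) (XT.nd (nat_lit 156) (nat_lit 0) (nat_lit 0) (XT.nd (nat_lit 78) (nat_lit 76) (nat_lit 0) (XT.lf (nat_lit 0) (nat_lit 39296708554) (nat_lit 152) (nat_lit 10328938928) (nat_lit 0) (nat_lit 23110880457) (nat_lit 13) (nat_lit 5) (nat_lit 15) (nat_lit 4) (nat_lit 13) (nat_lit 4) (nat_lit 489) (nat_lit 321) (nat_lit 210)) (XT.lf (nat_lit 0) (nat_lit 6482550343) (nat_lit 76) (nat_lit 42189525966) (nat_lit 76) (nat_lit 25985284777) (nat_lit 12) (nat_lit 4) (nat_lit 13) (nat_lit 5) (nat_lit 13) (nat_lit 4) (nat_lit 490) (nat_lit 321) (nat_lit 209))) (XT.nd (nat_lit 44148) (nat_lit 0) (nat_lit 14364) (XT.lf (nat_lit 0) (nat_lit 23975295833) (nat_lit 76) (nat_lit 34440021731) (nat_lit 76) (nat_lit 18217903754) (nat_lit 12) (nat_lit 4) (nat_lit 13) (nat_lit 5) (nat_lit 13) (nat_lit 4) (nat_lit 491) (nat_lit 321) (nat_lit 208)) (XT.lf (nat_lit 0) (nat_lit 3191506690) (nat_lit 532) (nat_lit 369285472) (nat_lit 532)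 (nat_lit 369285472) (nat_lit 201) (nat_lit 4) (nat_lit 208) (nat_lit 5) (nat_lit 208) (nat_lit 4) (nat_lit 376) (nat_lit 322) (nat_lit 322))))) (XT.nd (nat_lit 312) (nat_lit 1748) (nat_lit 0) (XT.nd (nat_lit 156) (nat_lit 532) (nat_lit 0) (XT.nd (nat_lit 78) (nat_lit 456) (nat_lit 0) (XT.lf (nat_lit 0) (nat_lit 3044827070) (nat_lit 532) (nat_lit 3113562299) (nat_lit 0) (nat_lit 1783435713) (nat_lit 194) (nat_lit 5) (nat_lit 201) (nat_lit 4) (nat_lit 194) (nat_lit 4) (nat_lit 377) (nat_lit 322) (nat_lit 321)) (XT.lf (nat_lit 0) (nat_lit 3250286358) (nat_lit 456) (nat_lit 3631434625) (nat_lit 456) (nat_lit 1145391467) (nat_lit 188) (nat_lit 4) (nat_lit 194) (nat_lit 5) (nat_lit 194) (nat_lit 4) (nat_lit 378) (nat_lit 322) (nat_lit 320))) (XT.nd (nat_lit 78) (nat_lit 0) (nat_lit 0) (XT.lf (nat_lit 0) (nat_lit 1633566266) (nat_lit 456) (nat_lit 981503564) (nat_lit 532) (nat_lit 5500653954) (nat_lit 181) (nat_lit 5)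 (nat_lit 187) (nat_lit 5) (nat_lit 188) (nat_lit 4) (nat_lit 379) (nat_lit 322) (nat_lit 319)) (XT.lf (nat_lit 0) (nat_lit 6434116247) (nat_lit 532) (nat_lit 28102049) (nat_lit 0) (nat_lit 1745400452) (nat_lit 181) (nat_lit 5) (nat_lit 188) (nat_lit 4) (nat_lit 181) (nat_lit 4) (nat_lit 380) (nat_lit 322) (nat_lit 318)))) (XT.nd (nat_lit 156) (nat_lit 836) (nat_lit 0) (XT.nd (nat_lit 78) (nat_lit 380) (nat_lit 0) (XT.lf (nat_lit 0) (nat_lit 2004321214) (nat_lit 532) (nat_lit 1708030993) (nat_lit 76) (nat_lit 4589975447) (nat_lit 174) (nat_lit 5) (nat_lit 181) (nat_lit 5) (nat_lit 175) (nat_lit 4) (nat_lit 381) (nat_lit 322) (nat_lit 317)) (XT.lf (nat_lit 0) (nat_lit 4970444807) (nat_lit 380) (nat_lit 844157788) (nat_lit 456) (nat_lit 2586132190) (nat_lit 169) (nat_lit 5) (nat_lit 174) (nat_lit 5) (nat_lit 175) (nat_lit 4) (nat_lit 382) (nat_lit 322) (nat_lit 316))) (XT.nd (nat_lit 78) (nat_lit 380) (nat_lit 0)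 (XT.lf (nat_lit 0) (nat_lit 1190057131) (nat_lit 456) (nat_lit 5214111271) (nat_lit 76) (nat_lit 2098281259) (nat_lit 163) (nat_lit 5) (nat_lit 169) (nat_lit 5) (nat_lit 164) (nat_lit 4) (nat_lit 383) (nat_lit 322) (nat_lit 315)) (XT.lf (nat_lit 0) (nat_lit 1541530107) (nat_lit 380) (nat_lit 3452661418) (nat_lit 456) (nat_lit 3613281681) (nat_lit 158) (nat_lit 5) (nat_lit 163) (nat_lit 5) (nat_lit 164) (nat_lit 4) (nat_lit 384) (nat_lit 322) (nat_lit 314))))))))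
noncomputable def xc59 : XT := (XT.nd (nat_lit 2262) (nat_lit 3040) (nat_lit 0) (XT.nd (nat_lit 1092) (nat_lit 2356) (nat_lit 0) (XT.nd (nat_lit 546) (nat_lit 1824) (nat_lit 0) (XT.nd (nat_lit 234) (nat_lit 1140) (nat_lit 0) (XT.nd (nat_lit 78) (nat_lit 684) (nat_lit 0) (XT.lf (nat_lit 0) (nat_lit 155158174) (nat_lit 456) (nat_lit 237256463) (nat_lit 76) (nat_lit 8324333301) (nat_lit 157) (nat_lit 5) (nat_lit 163) (nat_lit 5) (nat_lit 158) (nat_lit 5) (nat_lit 385) (nat_lit 322) (nat_lit 313)) (XT.nd (nat_lit 78) (nat_lit 304) (nat_lit 0) (XT.lf (nat_lit 0) (nat_lit 3967950956) (nat_lit 456) (nat_lit 2087320019) (nat_lit 76) (nat_lit 2772861432) (nat_lit 152) (nat_lit 5) (nat_lit 158) (nat_lit 5) (nat_lit 153) (nat_lit 4) (nat_lit 386) (nat_lit 322) (nat_lit 312)) (XT.lf (nat_lit 0) (nat_lit 4958284904) (nat_lit 304) (nat_lit 2903533568) (nat_lit 380) (nat_lit 1082060998) (nat_lit 148) (nat_lit 5) (nat_lit 152)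 (nat_lit 5) (nat_lit 153) (nat_lit 4) (nat_lit 387) (nat_lit 322) (nat_lit 311)))) (XT.nd (nat_lit 156) (nat_lit 380) (nat_lit 0) (XT.nd (nat_lit 78) (nat_lit 304) (nat_lit 0) (XT.lf (nat_lit 0) (nat_lit 2722604653) (nat_lit 456) (nat_lit 5963534768) (nat_lit 76) (nat_lit 377129195) (nat_lit 142) (nat_lit 5) (nat_lit 148) (nat_lit 5) (nat_lit 143) (nat_lit 4) (nat_lit 388) (nat_lit 322) (nat_lit 310)) (XT.lf (nat_lit 0) (nat_lit 1150515085) (nat_lit 304) (nat_lit 5463768013) (nat_lit 380) (nat_lit 2571816238) (nat_lit 138) (nat_lit 5) (nat_lit 142) (nat_lit 5) (nat_lit 143) (nat_lit 4) (nat_lit 389) (nat_lit 322) (nat_lit 309))) (XT.nd (nat_lit 78) (nat_lit 304) (nat_lit 0) (XT.lf (nat_lit 0) (nat_lit 1259958334) (nat_lit 380) (nat_lit 850611008) (nat_lit 76) (nat_lit 7202423843) (nat_lit 137) (nat_lit 5) (nat_lit 142) (nat_lit 5) (nat_lit 138) (nat_lit 5) (nat_lit 390) (nat_lit 322) (nat_lit 308)) (XT.lf (nat_lit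 0) (nat_lit 5148248451) (nat_lit 380) (nat_lit 2928256227) (nat_lit 76) (nat_lit 1366645914) (nat_lit 133) (nat_lit 5) (nat_lit 138) (nat_lit 5) (nat_lit 134) (nat_lit 4) (nat_lit 391) (nat_lit 322) (nat_lit 307))))) (XT.nd (nat_lit 234) (nat_lit 912) (nat_lit 0) (XT.nd (nat_lit 78) (nat_lit 608) (nat_lit 0) (XT.lf (nat_lit 0) (nat_lit 4484346146) (nat_lit 304) (nat_lit 4659470868) (nat_lit 380) (nat_lit 433694530) (nat_lit 129) (nat_lit 5) (nat_lit 133) (nat_lit 5) (nat_lit 134) (nat_lit 4) (nat_lit 392) (nat_lit 322) (nat_lit 306)) (XT.nd (nat_lit 78) (nat_lit 228) (nat_lit 0) (XT.lf (nat_lit 0) (nat_lit 2351417483) (nat_lit 304) (nat_lit 1093598173) (nat_lit 380) (nat_lit 6270758247) (nat_lit 124) (nat_lit 5) (nat_lit 128) (nat_lit 5) (nat_lit 129) (nat_lit 5) (nat_lit 393) (nat_lit 322) (nat_lit 305)) (XT.lf (nat_lit 0) (nat_lit 114489971) (nat_lit 228) (nat_lit 7313841256) (nat_lit 304) (nat_lit 2429831470)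 (nat_lit 121) (nat_lit 5) (nat_lit 124) (nat_lit 5) (nat_lit 125) (nat_lit 4) (nat_lit 394) (nat_lit 322) (nat_lit 304)))) (XT.nd (nat_lit 156) (nat_lit 532) (nat_lit 0) (XT.nd (nat_lit 78) (nat_lit 304) (nat_lit 0) (XT.lf (nat_lit 0) (nat_lit 1501954153) (nat_lit 304) (nat_lit 2185803168) (nat_lit 76) (nat_lit 6316478503) (nat_lit 120) (nat_lit 5) (nat_lit 124) (nat_lit 5) (nat_lit 121) (nat_lit 5) (nat_lit 395) (nat_lit 322) (nat_lit 303)) (XT.lf (nat_lit 0) (nat_lit 5478944450) (nat_lit 380) (nat_lit 4594238804) (nat_lit 76) (nat_lit 81518346) (nat_lit 116) (nat_lit 5) (nat_lit 121) (nat_lit 5) (nat_lit 117) (nat_lit 4) (nat_lit 396) (nat_lit 322) (nat_lit 302))) (XT.nd (nat_lit 78) (nat_lit 304) (nat_lit 0) (XT.lf (nat_lit 0) (nat_lit 3177488374) (nat_lit 228) (nat_lit 6409629358) (nat_lit 304) (nat_lit 722221825) (nat_lit 113) (nat_lit 5) (nat_lit 116) (nat_lit 5) (nat_lit 117) (nat_lit 4) (nat_lit 397) (nat_lit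 322) (nat_lit 301)) (XT.lf (nat_lit 0) (nat_lit 666631923) (nat_lit 228) (nat_lit 2594023574) (nat_lit 304) (nat_lit 7207725538) (nat_lit 109) (nat_lit 5) (nat_lit 112) (nat_lit 5) (nat_lit 113) (nat_lit 5) (nat_lit 398) (nat_lit 322) (nat_lit 300)))))) (XT.nd (nat_lit 546) (nat_lit 1140) (nat_lit 0) (XT.nd (nat_lit 234) (nat_lit 684) (nat_lit 0) (XT.nd (nat_lit 78) (nat_lit 532) (nat_lit 0) (XT.lf (nat_lit 0) (nat_lit 7357557977) (nat_lit 304) (nat_lit 1929159533) (nat_lit 76) (nat_lit 1345003267) (nat_lit 109) (nat_lit 5) (nat_lit 113) (nat_lit 5) (nat_lit 110) (nat_lit 4) (nat_lit 399) (nat_lit 322) (nat_lit 299)) (XT.nd (nat_lit 78) (nat_lit 228) (nat_lit 0) (XT.lf (nat_lit 0) (nat_lit 772877210) (nat_lit 304) (nat_lit 4653307282) (nat_lit 76) (nat_lit 5373245244) (nat_lit 105) (nat_lit 5) (nat_lit 109) (nat_lit 5) (nat_lit 106) (nat_lit 5) (nat_lit 400) (nat_lit 322) (nat_lit 298)) (XT.lf (nat_lit 0) (nat_lit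 3445863837) (nat_lit 228) (nat_lit 1408447483) (nat_lit 304) (nat_lit 6117534474) (nat_lit 102) (nat_lit 5) (nat_lit 105) (nat_lit 5) (nat_lit 106) (nat_lit 5) (nat_lit 401) (nat_lit 322) (nat_lit 297)))) (XT.nd (nat_lit 156) (nat_lit 380) (nat_lit 0) (XT.nd (nat_lit 78) (nat_lit 76) (nat_lit 0) (XT.lf (nat_lit 0) (nat_lit 599396708) (nat_lit 228) (nat_lit 8464807123) (nat_lit 304) (nat_lit 2085061754) (nat_lit 99) (nat_lit 5) (nat_lit 102) (nat_lit 5) (nat_lit 103) (nat_lit 4) (nat_lit 402) (nat_lit 322) (nat_lit 296)) (XT.lf (nat_lit 0) (nat_lit 2045536163) (nat_lit 304) (nat_lit 2362745069) (nat_lit 76) (nat_lit 6922615919) (nat_lit 98) (nat_lit 5) (nat_lit 102) (nat_lit 5) (nat_lit 99) (nat_lit 5) (nat_lit 403) (nat_lit 322) (nat_lit 295))) (XT.nd (nat_lit 78) (nat_lit 152) (nat_lit 0) (XT.lf (nat_lit 0) (nat_lit 6049681928) (nat_lit 228) (nat_lit 195564708) (nat_lit 304) (nat_lit 5272509353) (nat_lit 95) (nat_lit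 5) (nat_lit 98) (nat_lit 5) (nat_lit 99) (nat_lit 5) (nat_lit 404) (nat_lit 322) (nat_lit 294)) (XT.lf (nat_lit 0) (nat_lit 2952732728) (nat_lit 152) (nat_lit 7639976069) (nat_lit 228) (nat_lit 1116869389) (nat_lit 93) (nat_lit 5) (nat_lit 95) (nat_lit 5) (nat_lit 96) (nat_lit 4) (nat_lit 405) (nat_lit 322) (nat_lit 293))))) (XT.nd (nat_lit 312) (nat_lit 380) (nat_lit 0) (XT.nd (nat_lit 156) (nat_lit 456) (nat_lit 0) (XT.nd (nat_lit 78) (nat_lit 228) (nat_lit 0) (XT.lf (nat_lit 0) (nat_lit 3089091134) (nat_lit 228) (nat_lit 318616924) (nat_lit 76) (nat_lit 8498923089) (nat_lit 92) (nat_lit 5) (nat_lit 95) (nat_lit 5) (nat_lit 93) (nat_lit 5) (nat_lit 406) (nat_lit 322) (nat_lit 292)) (XT.lf (nat_lit 0) (nat_lit 7420969149) (nat_lit 304) (nat_lit 3707707455) (nat_lit 76) (nat_lit 979931272) (nat_lit 89) (nat_lit 5) (nat_lit 93) (nat_lit 5) (nat_lit 90) (nat_lit 4) (nat_lit 407) (nat_lit 322) (nat_lit 291))) (XT.nd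 (nat_lit 78) (nat_lit 304) (nat_lit 0) (XT.lf (nat_lit 0) (nat_lit 5020702641) (nat_lit 152) (nat_lit 6879527968) (nat_lit 228) (nat_lit 415899730) (nat_lit 87) (nat_lit 5) (nat_lit 89) (nat_lit 5) (nat_lit 90) (nat_lit 4) (nat_lit 408) (nat_lit 322) (nat_lit 290)) (XT.lf (nat_lit 0) (nat_lit 1431778733) (nat_lit 228) (nat_lit 2458425755) (nat_lit 304) (nat_lit 8639015155) (nat_lit 83) (nat_lit 5) (nat_lit 86) (nat_lit 5) (nat_lit 87) (nat_lit 5) (nat_lit 409) (nat_lit 322) (nat_lit 289)))) (XT.nd (nat_lit 156) (nat_lit 228) (nat_lit 0) (XT.nd (nat_lit 78) (nat_lit 152) (nat_lit 0) (XT.lf (nat_lit 0) (nat_lit 8344462101) (nat_lit 304) (nat_lit 2317253916) (nat_lit 76) (nat_lit 2086050651) (nat_lit 83) (nat_lit 5) (nat_lit 87) (nat_lit 5) (nat_lit 84) (nat_lit 4) (nat_lit 410) (nat_lit 322) (nat_lit 288)) (XT.lf (nat_lit 0) (nat_lit 6720394976) (nat_lit 152) (nat_lit 6235640588) (nat_lit 228) (nat_lit 16132111)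 (nat_lit 81) (nat_lit 5) (nat_lit 83) (nat_lit 5) (nat_lit 84) (nat_lit 4) (nat_lit 411) (nat_lit 322) (nat_lit 287))) (XT.nd (nat_lit 78) (nat_lit 0) (nat_lit 0) (XT.lf (nat_lit 0) (nat_lit 2771708652) (nat_lit 152) (nat_lit 1628287085) (nat_lit 228) (nat_lit 8802458153) (nat_lit 78) (nat_lit 5) (nat_lit 80) (nat_lit 5) (nat_lit 81) (nat_lit 5) (nat_lit 412) (nat_lit 322) (nat_lit 286)) (XT.lf (nat_lit 0) (nat_lit 8977295552) (nat_lit 228) (nat_lit 1387765046) (nat_lit 76) (nat_lit 3073720449) (nat_lit 78) (nat_lit 5) (nat_lit 81) (nat_lit 5) (nat_lit 79) (nat_lit 4) (nat_lit 413) (nat_lit 322) (nat_lit 285))))))) (XT.nd (nat_lit 1092) (nat_lit 1368) (nat_lit 0) (XT.nd (nat_lit 546) (nat_lit 760) (nat_lit 0) (XT.nd (nat_lit 234) (nat_lit 532) (nat_lit 0) (XT.nd (nat_lit 78) (nat_lit 152) (nat_lit 0) (XT.lf (nat_lit 0) (nat_lit 39586374) (nat_lit 228) (nat_lit 5726084229) (nat_lit 76) (nat_lit 7915629909) (nat_lit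 75) (nat_lit 5) (nat_lit 78) (nat_lit 5) (nat_lit 76) (nat_lit 5) (nat_lit 414) (nat_lit 322) (nat_lit 284)) (XT.nd (nat_lit 78) (nat_lit 0) (nat_lit 0) (XT.lf (nat_lit 0) (nat_lit 3591852785) (nat_lit 152) (nat_lit 980183321) (nat_lit 228) (nat_lit 9358160627) (nat_lit 73) (nat_lit 5) (nat_lit 75) (nat_lit 5) (nat_lit 76) (nat_lit 5) (nat_lit 415) (nat_lit 322) (nat_lit 283)) (XT.lf (nat_lit 0) (nat_lit 9274473038) (nat_lit 228) (nat_lit 1027163761) (nat_lit 76) (nat_lit 3883909310) (nat_lit 73) (nat_lit 5) (nat_lit 76) (nat_lit 5) (nat_lit 74) (nat_lit 4) (nat_lit 416) (nat_lit 322) (nat_lit 282)))) (XT.nd (nat_lit 156) (nat_lit 152) (nat_lit 0) (XT.nd (nat_lit 78) (nat_lit 228) (nat_lit 0) (XT.lf (nat_lit 0) (nat_lit 8614450695) (nat_lit 152) (nat_lit 5535520311) (nat_lit 228) (nat_lit 297631805) (nat_lit 71) (nat_lit 5) (nat_lit 73) (nat_lit 5) (nat_lit 74) (nat_lit 4) (nat_lit 417) (nat_lit 322) (nat_lit 281))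 (XT.lf (nat_lit 0) (nat_lit 3772402021) (nat_lit 152) (nat_lit 581249874) (nat_lit 228) (nat_lit 10363000228) (nat_lit 68) (nat_lit 5) (nat_lit 70) (nat_lit 5) (nat_lit 71) (nat_lit 5) (nat_lit 418) (nat_lit 322) (nat_lit 280))) (XT.nd (nat_lit 78) (nat_lit 152) (nat_lit 0) (XT.lf (nat_lit 0) (nat_lit 9181349200) (nat_lit 228) (nat_lit 1361047656) (nat_lit 76) (nat_lit 4450007870) (nat_lit 68) (nat_lit 5) (nat_lit 71) (nat_lit 5) (nat_lit 69) (nat_lit 4) (nat_lit 419) (nat_lit 322) (nat_lit 279)) (XT.lf (nat_lit 0) (nat_lit 8566452802) (nat_lit 152) (nat_lit 5617181615) (nat_lit 228) (nat_lit 1091908541) (nat_lit 66) (nat_lit 5) (nat_lit 68) (nat_lit 5) (nat_lit 69) (nat_lit 4) (nat_lit 420) (nat_lit 322) (nat_lit 278))))) (XT.nd (nat_lit 234) (nat_lit 380) (nat_lit 0) (XT.nd (nat_lit 78) (nat_lit 152) (nat_lit 0) (XT.lf (nat_lit 0) (nat_lit 3173738280) (nat_lit 152) (nat_lit 507702909) (nat_lit 228) (nat_lit 11885067592)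 (nat_lit 63) (nat_lit 5) (nat_lit 65) (nat_lit 5) (nat_lit 66) (nat_lit 5) (nat_lit 421) (nat_lit 322) (nat_lit 277)) (XT.nd (nat_lit 78) (nat_lit 152) (nat_lit 0) (XT.lf (nat_lit 0) (nat_lit 8632211197) (nat_lit 228) (nat_lit 2535783858) (nat_lit 76) (nat_lit 4696204485) (nat_lit 63) (nat_lit 5) (nat_lit 66) (nat_lit 5) (nat_lit 64) (nat_lit 4) (nat_lit 422) (nat_lit 322) (nat_lit 276)) (XT.lf (nat_lit 0) (nat_lit 7659402741) (nat_lit 152) (nat_lit 6094481483) (nat_lit 228) (nat_lit 2416270520) (nat_lit 61) (nat_lit 5) (nat_lit 63) (nat_lit 5) (nat_lit 64) (nat_lit 4) (nat_lit 423) (nat_lit 322) (nat_lit 275)))) (XT.nd (nat_lit 156) (nat_lit 152) (nat_lit 0) (XT.nd (nat_lit 78) (nat_lit 0) (nat_lit 0) (XT.lf (nat_lit 0) (nat_lit 1632995523) (nat_lit 152) (nat_lit 846679183) (nat_lit 228) (nat_lit 14005323204) (nat_lit 58) (nat_lit 5) (nat_lit 60) (nat_lit 5) (nat_lit 61) (nat_lit 5) (nat_lit 424) (nat_lit 322)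 (nat_lit 274)) (XT.lf (nat_lit 0) (nat_lit 7548611818) (nat_lit 228) (nat_lit 4722083906) (nat_lit 76) (nat_lit 4535637283) (nat_lit 58) (nat_lit 5) (nat_lit 61) (nat_lit 5) (nat_lit 59) (nat_lit 4) (nat_lit 425) (nat_lit 322) (nat_lit 273))) (XT.nd (nat_lit 78) (nat_lit 76) (nat_lit 0) (XT.lf (nat_lit 0) (nat_lit 5715560616) (nat_lit 76) (nat_lit 7063075723) (nat_lit 152) (nat_lit 4358405787) (nat_lit 57) (nat_lit 5) (nat_lit 58) (nat_lit 5) (nat_lit 59) (nat_lit 4) (nat_lit 426) (nat_lit 322) (nat_lit 272)) (XT.lf (nat_lit 0) (nat_lit 668417294) (nat_lit 152) (nat_lit 1019623034) (nat_lit 76) (nat_lit 15789619564) (nat_lit 56) (nat_lit 5) (nat_lit 58) (nat_lit 5) (nat_lit 57) (nat_lit 5) (nat_lit 427) (nat_lit 322) (nat_lit 271)))))) (XT.nd (nat_lit 546) (nat_lit 608) (nat_lit 0) (XT.nd (nat_lit 234) (nat_lit 532) (nat_lit 0) (XT.nd (nat_lit 78) (nat_lit 76) (nat_lit 0) (XT.lf (nat_lit 0) (nat_lit 5837416645)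 (nat_lit 228) (nat_lit 8119137730) (nat_lit 76) (nat_lit 3868282264) (nat_lit 54) (nat_lit 5) (nat_lit 57) (nat_lit 5) (nat_lit 55) (nat_lit 4) (nat_lit 428) (nat_lit 322) (nat_lit 270)) (XT.nd (nat_lit 78) (nat_lit 0) (nat_lit 0) (XT.lf (nat_lit 0) (nat_lit 2527331919) (nat_lit 76) (nat_lit 8633129084) (nat_lit 152) (nat_lit 7022002477) (nat_lit 53) (nat_lit 5) (nat_lit 54) (nat_lit 5) (nat_lit 55) (nat_lit 4) (nat_lit 429) (nat_lit 322) (nat_lit 269)) (XT.lf (nat_lit 0) (nat_lit 13563846182) (nat_lit 76) (nat_lit 3109513616) (nat_lit 152) (nat_lit 1876558360) (nat_lit 53) (nat_lit 5) (nat_lit 54) (nat_lit 5) (nat_lit 55) (nat_lit 4) (nat_lit 430) (nat_lit 322) (nat_lit 268)))) (XT.nd (nat_lit 156) (nat_lit 304) (nat_lit 0) (XT.nd (nat_lit 78) (nat_lit 0) (nat_lit 0) (XT.lf (nat_lit 0) (nat_lit 3388521409) (nat_lit 228) (nat_lit 12959398175) (nat_lit 76) (nat_lit 2578531228) (nat_lit 50) (nat_lit 5) (nat_lit 53)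 (nat_lit 5) (nat_lit 51) (nat_lit 4) (nat_lit 431) (nat_lit 322) (nat_lit 267)) (XT.lf (nat_lit 0) (nat_lit 8804828536) (nat_lit 228) (nat_lit 2105839933) (nat_lit 76) (nat_lit 8402127419) (nat_lit 50) (nat_lit 5) (nat_lit 53) (nat_lit 5) (nat_lit 51) (nat_lit 4) (nat_lit 432) (nat_lit 322) (nat_lit 266))) (XT.nd (nat_lit 78) (nat_lit 228) (nat_lit 0) (XT.lf (nat_lit 0) (nat_lit 9160639418) (nat_lit 76) (nat_lit 5261874783) (nat_lit 152) (nat_lit 5287053921) (nat_lit 49) (nat_lit 5) (nat_lit 50) (nat_lit 5) (nat_lit 51) (nat_lit 4) (nat_lit 433) (nat_lit 322) (nat_lit 265)) (XT.lf (nat_lit 0) (nat_lit 72188455) (nat_lit 228) (nat_lit 19514121863) (nat_lit 76) (nat_lit 532406377) (nat_lit 46) (nat_lit 5) (nat_lit 49) (nat_lit 5) (nat_lit 47) (nat_lit 4) (nat_lit 434) (nat_lit 322) (nat_lit 264))))) (XT.nd (nat_lit 312) (nat_lit 304) (nat_lit 0) (XT.nd (nat_lit 156) (nat_lit 228) (nat_lit 0) (XT.nd (nat_lit 78) (nat_lit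 76) (nat_lit 0) (XT.lf (nat_lit 0) (nat_lit 5596682292) (nat_lit 228) (nat_lit 8425160473) (nat_lit 76) (nat_lit 6513407576) (nat_lit 46) (nat_lit 5) (nat_lit 49) (nat_lit 5) (nat_lit 47) (nat_lit 4) (nat_lit 435) (nat_lit 322) (nat_lit 263)) (XT.lf (nat_lit 0) (nat_lit 2965320543) (nat_lit 76) (nat_lit 8302583015) (nat_lit 152) (nat_lit 9696949757) (nat_lit 45) (nat_lit 5) (nat_lit 46) (nat_lit 5) (nat_lit 47) (nat_lit 4) (nat_lit 436) (nat_lit 322) (nat_lit 262))) (XT.nd (nat_lit 78) (nat_lit 228) (nat_lit 0) (XT.lf (nat_lit 0) (nat_lit 14782082901) (nat_lit 76) (nat_lit 2365280881) (nat_lit 152) (nat_lit 4258840534) (nat_lit 45) (nat_lit 5) (nat_lit 46) (nat_lit 5) (nat_lit 47) (nat_lit 4) (nat_lit 437) (nat_lit 322) (nat_lit 261)) (XT.lf (nat_lit 0) (nat_lit 1355380120) (nat_lit 228) (nat_lit 16804068450) (nat_lit 76) (nat_lit 3699788085) (nat_lit 42) (nat_lit 5) (nat_lit 45) (nat_lit 5) (nat_lit 43) (nat_lit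 4) (nat_lit 438) (nat_lit 322) (nat_lit 260)))) (XT.nd (nat_lit 156) (nat_lit 228) (nat_lit 0) (XT.nd (nat_lit 78) (nat_lit 76) (nat_lit 0) (XT.lf (nat_lit 0) (nat_lit 7097471816) (nat_lit 228) (nat_lit 5256104937) (nat_lit 76) (nat_lit 9969669674) (nat_lit 42) (nat_lit 5) (nat_lit 45) (nat_lit 5) (nat_lit 43) (nat_lit 4) (nat_lit 439) (nat_lit 322) (nat_lit 259)) (XT.lf (nat_lit 0) (nat_lit 6684633358) (nat_lit 76) (nat_lit 6346858771) (nat_lit 152) (nat_lit 9769097060) (nat_lit 41) (nat_lit 5) (nat_lit 42) (nat_lit 5) (nat_lit 43) (nat_lit 4) (nat_lit 440) (nat_lit 322) (nat_lit 258))) (XT.nd (nat_lit 78) (nat_lit 228) (nat_lit 0) (XT.lf (nat_lit 0) (nat_lit 19008057967) (nat_lit 76) (nat_lit 144458739) (nat_lit 152) (nat_lit 4139468610) (nat_lit 41) (nat_lit 5) (nat_lit 42) (nat_lit 5) (nat_lit 43) (nat_lit 4) (nat_lit 441) (nat_lit 322) (nat_lit 257)) (XT.lf (nat_lit 0) (nat_lit 1720530313) (nat_lit 228) (nat_lit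 15896476783) (nat_lit 76) (nat_lit 6177824574) (nat_lit 38) (nat_lit 5) (nat_lit 41) (nat_lit 5) (nat_lit 39) (nat_lit 4) (nat_lit 442) (nat_lit 322) (nat_lit 256))))))))
noncomputable def xc60 : XT := (XT.nd (nat_lit 2184) (nat_lit 684) (nat_lit 0) (XT.nd (nat_lit 1092) (nat_lit 608) (nat_lit 0) (XT.nd (nat_lit 546) (nat_lit 380) (nat_lit 0) (XT.nd (nat_lit 234) (nat_lit 228) (nat_lit 0) (XT.nd (nat_lit 78) (nat_lit 76) (nat_lit 0) (XT.lf (nat_lit 0) (nat_lit 7675127675) (nat_lit 228) (nat_lit 3902222208) (nat_lit 76) (nat_lit 12734126430) (nat_lit 38) (nat_lit 5) (nat_lit 41) (nat_lit 5) (nat_lit 39) (nat_lit 4) (nat_lit 443) (nat_lit 322) (nat_lit 255)) (XT.nd (nat_lit 78) (nat_lit 0) (nat_lit 0) (XT.lf (nat_lit 0) (nat_lit 8539035851) (nat_lit 76) (nat_lit 5309545298) (nat_lit 152) (nat_lit 10993834904) (nat_lit 37) (nat_lit 5) (nat_lit 38) (nat_lit 5) (nat_lit 39) (nat_lit 4) (nat_lit 444) (nat_lit 322) (nat_lit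 254)) (XT.lf (nat_lit 0) (nat_lit 20216292619) (nat_lit 152) (nat_lit 4045546038) (nat_lit 0) (nat_lit 1127175933) (nat_lit 37) (nat_lit 5) (nat_lit 39) (nat_lit 4) (nat_lit 37) (nat_lit 4) (nat_lit 445) (nat_lit 322) (nat_lit 253)))) (XT.nd (nat_lit 156) (nat_lit 76) (nat_lit 0) (XT.nd (nat_lit 78) (nat_lit 0) (nat_lit 0) (XT.lf (nat_lit 0) (nat_lit 902773218) (nat_lit 152) (nat_lit 17339629955) (nat_lit 76) (nat_lit 7706498408) (nat_lit 35) (nat_lit 5) (nat_lit 37) (nat_lit 5) (nat_lit 36) (nat_lit 4) (nat_lit 446) (nat_lit 322) (nat_lit 252)) (XT.lf (nat_lit 0) (nat_lit 7057326688) (nat_lit 152) (nat_lit 4926607673) (nat_lit 76) (nat_lit 14540093613) (nat_lit 35) (nat_lit 5) (nat_lit 37) (nat_lit 5) (nat_lit 36) (nat_lit 4) (nat_lit 447) (nat_lit 322) (nat_lit 251))) (XT.nd (nat_lit 78) (nat_lit 0) (nat_lit 0) (XT.lf (nat_lit 0) (nat_lit 7938676617) (nat_lit 76) (nat_lit 5494834529) (nat_lit 152) (nat_lit 13681789171)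 (nat_lit 34) (nat_lit 5) (nat_lit 35) (nat_lit 5) (nat_lit 36) (nat_lit 4) (nat_lit 448) (nat_lit 322) (nat_lit 250)) (XT.lf (nat_lit 0) (nat_lit 20023424971) (nat_lit 152) (nat_lit 6518962846) (nat_lit 0) (nat_lit 1181251627) (nat_lit 34) (nat_lit 5) (nat_lit 36) (nat_lit 4) (nat_lit 34) (nat_lit 4) (nat_lit 449) (nat_lit 322) (nat_lit 249))))) (XT.nd (nat_lit 234) (nat_lit 152) (nat_lit 0) (XT.nd (nat_lit 78) (nat_lit 152) (nat_lit 0) (XT.lf (nat_lit 0) (nat_lit 6518273688) (nat_lit 76) (nat_lit 20371740369) (nat_lit 76) (nat_lit 1457847228) (nat_lit 33) (nat_lit 4) (nat_lit 34) (nat_lit 5) (nat_lit 34) (nat_lit 4) (nat_lit 450) (nat_lit 322) (nat_lit 248)) (XT.nd (nat_lit 78) (nat_lit 76) (nat_lit 0) (XT.lf (nat_lit 0) (nat_lit 4903210091) (nat_lit 152) (nat_lit 9030007527) (nat_lit 76) (nat_lit 15055307074) (nat_lit 32) (nat_lit 5) (nat_lit 34) (nat_lit 5) (nat_lit 33) (nat_lit 4) (nat_lit 451) (nat_lit 322)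 (nat_lit 247)) (XT.lf (nat_lit 0) (nat_lit 4149229499) (nat_lit 76) (nat_lit 7279517445) (nat_lit 152) (nat_lit 18219141273) (nat_lit 31) (nat_lit 5) (nat_lit 32) (nat_lit 5) (nat_lit 33) (nat_lit 4) (nat_lit 452) (nat_lit 322) (nat_lit 246)))) (XT.nd (nat_lit 156) (nat_lit 76) (nat_lit 0) (XT.nd (nat_lit 78) (nat_lit 76) (nat_lit 0) (XT.lf (nat_lit 0) (nat_lit 17838781945) (nat_lit 76) (nat_lit 365918803) (nat_lit 152) (nat_lit 12120694042) (nat_lit 31) (nat_lit 5) (nat_lit 32) (nat_lit 5) (nat_lit 33) (nat_lit 4) (nat_lit 453) (nat_lit 322) (nat_lit 245)) (XT.lf (nat_lit 0) (nat_lit 797547281) (nat_lit 76) (nat_lit 24423202128) (nat_lit 76) (nat_lit 5801374278) (nat_lit 30) (nat_lit 4) (nat_lit 31) (nat_lit 5) (nat_lit 31) (nat_lit 4) (nat_lit 454) (nat_lit 322) (nat_lit 244))) (XT.nd (nat_lit 78) (nat_lit 0) (nat_lit 0) (XT.lf (nat_lit 0) (nat_lit 788930757) (nat_lit 152) (nat_lit 17080362613) (nat_lit 76) (nat_lit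 13867402209) (nat_lit 29) (nat_lit 5) (nat_lit 31) (nat_lit 5) (nat_lit 30) (nat_lit 4) (nat_lit 455) (nat_lit 322) (nat_lit 243)) (XT.lf (nat_lit 0) (nat_lit 7425634676) (nat_lit 152) (nat_lit 3666168417) (nat_lit 76) (nat_lit 21380221087) (nat_lit 29) (nat_lit 5) (nat_lit 31) (nat_lit 5) (nat_lit 30) (nat_lit 4) (nat_lit 456) (nat_lit 322) (nat_lit 242)))))) (XT.nd (nat_lit 546) (nat_lit 304) (nat_lit 0) (XT.nd (nat_lit 234) (nat_lit 152) (nat_lit 0) (XT.nd (nat_lit 78) (nat_lit 76) (nat_lit 0) (XT.lf (nat_lit 0) (nat_lit 10286214780) (nat_lit 76) (nat_lit 4040404855) (nat_lit 152) (nat_lit 18900839040) (nat_lit 28) (nat_lit 5) (nat_lit 29) (nat_lit 5) (nat_lit 30) (nat_lit 4) (nat_lit 457) (nat_lit 322) (nat_lit 241)) (XT.nd (nat_lit 78) (nat_lit 76) (nat_lit 0) (XT.lf (nat_lit 0) (nat_lit 21469366639) (nat_lit 152) (nat_lit 9368491408) (nat_lit 0) (nat_lit 3166657578) (nat_lit 28) (nat_lit 5) (nat_lit 30) (nat_lit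 4) (nat_lit 28) (nat_lit 4) (nat_lit 458) (nat_lit 322) (nat_lit 240)) (XT.lf (nat_lit 0) (nat_lit 4598033113) (nat_lit 76) (nat_lit 24279913488) (nat_lit 76) (nat_lit 5925392519) (nat_lit 27) (nat_lit 4) (nat_lit 28) (nat_lit 5) (nat_lit 28) (nat_lit 4) (nat_lit 459) (nat_lit 322) (nat_lit 239)))) (XT.nd (nat_lit 156) (nat_lit 76) (nat_lit 0) (XT.nd (nat_lit 78) (nat_lit 0) (nat_lit 0) (XT.lf (nat_lit 0) (nat_lit 928349354) (nat_lit 152) (nat_lit 16520274601) (nat_lit 76) (nat_lit 18175362607) (nat_lit 26) (nat_lit 5) (nat_lit 28) (nat_lit 5) (nat_lit 27) (nat_lit 4) (nat_lit 460) (nat_lit 322) (nat_lit 238)) (XT.lf (nat_lit 0) (nat_lit 7836935625) (nat_lit 152) (nat_lit 2544682164) (nat_lit 76) (nat_lit 26086827061) (nat_lit 26) (nat_lit 5) (nat_lit 28) (nat_lit 5) (nat_lit 27) (nat_lit 4) (nat_lit 461) (nat_lit 322) (nat_lit 237))) (XT.nd (nat_lit 78) (nat_lit 0) (nat_lit 0) (XT.lf (nat_lit 0) (nat_lit 12025298369)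 (nat_lit 76) (nat_lit 3012324827) (nat_lit 152) (nat_lit 22298069581) (nat_lit 25) (nat_lit 5) (nat_lit 26) (nat_lit 5) (nat_lit 27) (nat_lit 4) (nat_lit 462) (nat_lit 322) (nat_lit 236)) (XT.lf (nat_lit 0) (nat_lit 22493592993) (nat_lit 152) (nat_lit 11247499286) (nat_lit 0) (nat_lit 4486689180) (nat_lit 25) (nat_lit 5) (nat_lit 27) (nat_lit 4) (nat_lit 25) (nat_lit 4) (nat_lit 463) (nat_lit 322) (nat_lit 235))))) (XT.nd (nat_lit 234) (nat_lit 152) (nat_lit 0) (XT.nd (nat_lit 78) (nat_lit 76) (nat_lit 0) (XT.lf (nat_lit 0) (nat_lit 3212284190) (nat_lit 76) (nat_lit 26991859088) (nat_lit 76) (nat_lit 8941563618) (nat_lit 24) (nat_lit 4) (nat_lit 25) (nat_lit 5) (nat_lit 25) (nat_lit 4) (nat_lit 464) (nat_lit 322) (nat_lit 234)) (XT.nd (nat_lit 78) (nat_lit 76) (nat_lit 0) (XT.lf (nat_lit 0) (nat_lit 18279134370) (nat_lit 76) (nat_lit 19950968665) (nat_lit 76) (nat_lit 1858545372) (nat_lit 24) (nat_lit 4) (nat_lit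 25) (nat_lit 5) (nat_lit 25) (nat_lit 4) (nat_lit 465) (nat_lit 322) (nat_lit 233)) (XT.lf (nat_lit 0) (nat_lit 5301958259) (nat_lit 152) (nat_lit 7370348823) (nat_lit 76) (nat_lit 28386871529) (nat_lit 23) (nat_lit 5) (nat_lit 25) (nat_lit 5) (nat_lit 24) (nat_lit 4) (nat_lit 466) (nat_lit 322) (nat_lit 232)))) (XT.nd (nat_lit 156) (nat_lit 76) (nat_lit 0) (XT.nd (nat_lit 78) (nat_lit 0) (nat_lit 0) (XT.lf (nat_lit 0) (nat_lit 7576881678) (nat_lit 76) (nat_lit 5107805652) (nat_lit 152) (nat_lit 29372243398) (nat_lit 22) (nat_lit 5) (nat_lit 23) (nat_lit 5) (nat_lit 24) (nat_lit 4) (nat_lit 467) (nat_lit 322) (nat_lit 231)) (XT.lf (nat_lit 0) (nat_lit 20361835385) (nat_lit 152) (nat_lit 20039909474) (nat_lit 0) (nat_lit 2680683415) (nat_lit 22) (nat_lit 5) (nat_lit 24) (nat_lit 4) (nat_lit 22) (nat_lit 4) (nat_lit 468) (nat_lit 322) (nat_lit 230))) (XT.nd (nat_lit 78) (nat_lit 76) (nat_lit 0) (XT.lf (nat_lit 0)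 (nat_lit 28292663850) (nat_lit 152) (nat_lit 5270154814) (nat_lit 0) (nat_lit 10575172050) (nat_lit 22) (nat_lit 5) (nat_lit 24) (nat_lit 4) (nat_lit 22) (nat_lit 4) (nat_lit 469) (nat_lit 322) (nat_lit 229)) (XT.lf (nat_lit 0) (nat_lit 10088074560) (nat_lit 76) (nat_lit 26443901407) (nat_lit 76) (nat_lit 8691128220) (nat_lit 21) (nat_lit 4) (nat_lit 22) (nat_lit 5) (nat_lit 22) (nat_lit 4) (nat_lit 470) (nat_lit 322) (nat_lit 228))))))) (XT.nd (nat_lit 1092) (nat_lit 228) (nat_lit 0) (XT.nd (nat_lit 546) (nat_lit 228) (nat_lit 0) (XT.nd (nat_lit 234) (nat_lit 76) (nat_lit 0) (XT.nd (nat_lit 78) (nat_lit 152) (nat_lit 0) (XT.lf (nat_lit 0) (nat_lit 25964115864) (nat_lit 76) (nat_lit 19081435273) (nat_lit 76) (nat_lit 1294408311) (nat_lit 21) (nat_lit 4) (nat_lit 22) (nat_lit 5) (nat_lit 22) (nat_lit 4) (nat_lit 471) (nat_lit 322) (nat_lit 227)) (XT.nd (nat_lit 78) (nat_lit 76) (nat_lit 0) (XT.lf (nat_lit 0) (nat_lit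 6175179600) (nat_lit 152) (nat_lit 5284668464) (nat_lit 76) (nat_lit 36029418143) (nat_lit 20) (nat_lit 5) (nat_lit 22) (nat_lit 5) (nat_lit 21) (nat_lit 4) (nat_lit 472) (nat_lit 322) (nat_lit 226)) (XT.lf (nat_lit 0) (nat_lit 10400845798) (nat_lit 76) (nat_lit 3517093275) (nat_lit 152) (nat_lit 34752476429) (nat_lit 19) (nat_lit 5) (nat_lit 20) (nat_lit 5) (nat_lit 21) (nat_lit 4) (nat_lit 473) (nat_lit 322) (nat_lit 225)))) (XT.nd (nat_lit 156) (nat_lit 76) (nat_lit 0) (XT.nd (nat_lit 78) (nat_lit 0) (nat_lit 0) (XT.lf (nat_lit 0) (nat_lit 21966865378) (nat_lit 152) (nat_lit 23314079570) (nat_lit 0) (nat_lit 4603838603) (nat_lit 19) (nat_lit 5) (nat_lit 21) (nat_lit 4) (nat_lit 19) (nat_lit 4) (nat_lit 474) (nat_lit 322) (nat_lit 224)) (XT.lf (nat_lit 0) (nat_lit 30267963932) (nat_lit 152) (nat_lit 7991908795) (nat_lit 0) (nat_lit 12875389551) (nat_lit 19) (nat_lit 5) (nat_lit 21) (nat_lit 4) (nat_lit 19) (nat_lit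 4) (nat_lit 475) (nat_lit 322) (nat_lit 223))) (XT.nd (nat_lit 78) (nat_lit 0) (nat_lit 0) (XT.lf (nat_lit 0) (nat_lit 7898262934) (nat_lit 76) (nat_lit 30972339673) (nat_lit 76) (nat_lit 13551078295) (nat_lit 18) (nat_lit 4) (nat_lit 19) (nat_lit 5) (nat_lit 19) (nat_lit 4) (nat_lit 476) (nat_lit 322) (nat_lit 222)) (XT.lf (nat_lit 0) (nat_lit 24383627283) (nat_lit 76) (nat_lit 23405226185) (nat_lit 76) (nat_lit 5956113353) (nat_lit 18) (nat_lit 4) (nat_lit 19) (nat_lit 5) (nat_lit 19) (nat_lit 4) (nat_lit 477) (nat_lit 322) (nat_lit 221))))) (XT.nd (nat_lit 234) (nat_lit 76) (nat_lit 0) (XT.nd (nat_lit 78) (nat_lit 76) (nat_lit 0) (XT.lf (nat_lit 0) (nat_lit 1807556332) (nat_lit 152) (nat_lit 13806813724) (nat_lit 76) (nat_lit 39493725178) (nat_lit 17) (nat_lit 5) (nat_lit 19) (nat_lit 5) (nat_lit 18) (nat_lit 4) (nat_lit 478) (nat_lit 322) (nat_lit 220)) (XT.nd (nat_lit 78) (nat_lit 0) (nat_lit 0) (XT.lf (nat_lit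 0) (nat_lit 2154237553) (nat_lit 76) (nat_lit 7528837962) (nat_lit 152) (nat_lit 46827313963) (nat_lit 16) (nat_lit 5) (nat_lit 17) (nat_lit 5) (nat_lit 18) (nat_lit 4) (nat_lit 479) (nat_lit 322) (nat_lit 219)) (XT.lf (nat_lit 0) (nat_lit 17921319242) (nat_lit 152) (nat_lit 39125693537) (nat_lit 0) (nat_lit 903946650) (nat_lit 16) (nat_lit 5) (nat_lit 18) (nat_lit 4) (nat_lit 16) (nat_lit 4) (nat_lit 480) (nat_lit 322) (nat_lit 218)))) (XT.nd (nat_lit 156) (nat_lit 76) (nat_lit 0) (XT.nd (nat_lit 78) (nat_lit 0) (nat_lit 0) (XT.lf (nat_lit 0) (nat_lit 26459868599) (nat_lit 152) (nat_lit 23554812658) (nat_lit 0) (nat_lit 9418471099) (nat_lit 16) (nat_lit 5) (nat_lit 18) (nat_lit 4) (nat_lit 16) (nat_lit 4) (nat_lit 481) (nat_lit 322) (nat_lit 217)) (XT.lf (nat_lit 0) (nat_lit 35233812658) (nat_lit 152) (nat_lit 7557531871) (nat_lit 0) (nat_lit 18169090004) (nat_lit 16) (nat_lit 5) (nat_lit 18) (nat_lit 4) (nat_lit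 16) (nat_lit 4) (nat_lit 482) (nat_lit 322) (nat_lit 216))) (XT.nd (nat_lit 78) (nat_lit 0) (nat_lit 0) (XT.lf (nat_lit 0) (nat_lit 9056858972) (nat_lit 76) (nat_lit 35281019071) (nat_lit 76) (nat_lit 18193650636) (nat_lit 15) (nat_lit 4) (nat_lit 16) (nat_lit 5) (nat_lit 16) (nat_lit 4) (nat_lit 483) (nat_lit 322) (nat_lit 215)) (XT.lf (nat_lit 0) (nat_lit 26285450877) (nat_lit 76) (nat_lit 27485984438) (nat_lit 76) (nat_lit 10376629809) (nat_lit 15) (nat_lit 4) (nat_lit 16) (nat_lit 5) (nat_lit 16) (nat_lit 4) (nat_lit 484) (nat_lit 322) (nat_lit 214)))))) (XT.nd (nat_lit 44460) (nat_lit 0) (nat_lit 12312) (XT.nd (nat_lit 234) (nat_lit 76) (nat_lit 0) (XT.nd (nat_lit 78) (nat_lit 152) (nat_lit 0) (XT.lf (nat_lit 0) (nat_lit 43992888250) (nat_lit 76) (nat_lit 19475745690) (nat_lit 76) (nat_lit 2345045241) (nat_lit 15) (nat_lit 4) (nat_lit 16) (nat_lit 5) (nat_lit 16) (nat_lit 4) (nat_lit 485) (nat_lit 322) (nat_lit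 213)) (XT.nd (nat_lit 78) (nat_lit 76) (nat_lit 0) (XT.lf (nat_lit 0) (nat_lit 5792832236) (nat_lit 152) (nat_lit 5391975105) (nat_lit 76) (nat_lit 56343315126) (nat_lit 14) (nat_lit 5) (nat_lit 16) (nat_lit 5) (nat_lit 15) (nat_lit 4) (nat_lit 486) (nat_lit 322) (nat_lit 212)) (XT.lf (nat_lit 0) (nat_lit 11698570542) (nat_lit 76) (nat_lit 2523161265) (nat_lit 152) (nat_lit 55068750642) (nat_lit 13) (nat_lit 5) (nat_lit 14) (nat_lit 5) (nat_lit 15) (nat_lit 4) (nat_lit 487) (nat_lit 322) (nat_lit 211)))) (XT.nd (nat_lit 156) (nat_lit 76) (nat_lit 0) (XT.nd (nat_lit 78) (nat_lit 0) (nat_lit 0) (XT.lf (nat_lit 0) (nat_lit 23001578794) (nat_lit 152) (nat_lit 41789982150) (nat_lit 0) (nat_lit 6311210369) (nat_lit 13) (nat_lit 5) (nat_lit 15) (nat_lit 4) (nat_lit 13) (nat_lit 4) (nat_lit 488) (nat_lit 322) (nat_lit 210)) (XT.lf (nat_lit 0) (nat_lit 32051927503) (nat_lit 152) (nat_lit 25574142645) (nat_lit 0) (nat_lit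 15343145986) (nat_lit 13) (nat_lit 5) (nat_lit 15) (nat_lit 4) (nat_lit 13) (nat_lit 4) (nat_lit 489) (nat_lit 322) (nat_lit 209))) (XT.nd (nat_lit 78) (nat_lit 76) (nat_lit 0) (XT.lf (nat_lit 0) (nat_lit 41356431837) (nat_lit 152) (nat_lit 8905970042) (nat_lit 0) (nat_lit 24629773533) (nat_lit 13) (nat_lit 5) (nat_lit 15) (nat_lit 4) (nat_lit 13) (nat_lit 4) (nat_lit 490) (nat_lit 322) (nat_lit 208)) (XT.lf (nat_lit 0) (nat_lit 8392875309) (nat_lit 76) (nat_lit 42611024090) (nat_lit 76) (nat_lit 25867009680) (nat_lit 12) (nat_lit 4) (nat_lit 13) (nat_lit 5) (nat_lit 13) (nat_lit 4) (nat_lit 491) (nat_lit 322) (nat_lit 207))))) (XT.nd (nat_lit 312) (nat_lit 1520) (nat_lit 0) (XT.nd (nat_lit 156) (nat_lit 532) (nat_lit 0) (XT.nd (nat_lit 78) (nat_lit 532) (nat_lit 0) (XT.lf (nat_lit 0) (nat_lit 443564267) (nat_lit 532) (nat_lit 2964886437) (nat_lit 0) (nat_lit 443564267) (nat_lit 208) (nat_lit 5) (nat_lit 215) (nat_lit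 4) (nat_lit 208) (nat_lit 4) (nat_lit 374) (nat_lit 323) (nat_lit 323)) (XT.lf (nat_lit 0) (nat_lit 106357785) (nat_lit 532) (nat_lit 4506461691) (nat_lit 532) (nat_lit 3168251602) (nat_lit 201) (nat_lit 4) (nat_lit 208) (nat_lit 5) (nat_lit 208) (nat_lit 4) (nat_lit 375) (nat_lit 323) (nat_lit 322))) (XT.nd (nat_lit 78) (nat_lit 456) (nat_lit 0) (XT.lf (nat_lit 0) (nat_lit 538538638) (nat_lit 608) (nat_lit 1544209750) (nat_lit 76) (nat_lit 5778732176) (nat_lit 200) (nat_lit 5) (nat_lit 208) (nat_lit 5) (nat_lit 201) (nat_lit 4) (nat_lit 376) (nat_lit 323) (nat_lit 321)) (XT.lf (nat_lit 0) (nat_lit 4245278422) (nat_lit 532) (nat_lit 3239539940) (nat_lit 0) (nat_lit 460002168) (nat_lit 194) (nat_lit 5) (nat_lit 201) (nat_lit 4) (nat_lit 194) (nat_lit 4) (nat_lit 377) (nat_lit 323) (nat_lit 320)))) (XT.nd (nat_lit 156) (nat_lit 532) (nat_lit 0) (XT.nd (nat_lit 78) (nat_lit 456) (nat_lit 0) (XT.lf (nat_lit 0) (nat_lit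 1478219) (nat_lit 532) (nat_lit 4971257801) (nat_lit 76) (nat_lit 3058858828) (nat_lit 187) (nat_lit 5) (nat_lit 194) (nat_lit 5) (nat_lit 188) (nat_lit 4) (nat_lit 378) (nat_lit 323) (nat_lit 319)) (XT.lf (nat_lit 0) (nat_lit 1362221559) (nat_lit 456) (nat_lit 2327843428) (nat_lit 532) (nat_lit 4431311028) (nat_lit 181) (nat_lit 5) (nat_lit 187) (nat_lit 5) (nat_lit 188) (nat_lit 4) (nat_lit 379) (nat_lit 323) (nat_lit 318))) (XT.nd (nat_lit 78) (nat_lit 532) (nat_lit 0) (XT.lf (nat_lit 0) (nat_lit 7449910160) (nat_lit 532) (nat_lit 353435115) (nat_lit 0) (nat_lit 411715745) (nat_lit 181) (nat_lit 5) (nat_lit 188) (nat_lit 4) (nat_lit 181) (nat_lit 4) (nat_lit 380) (nat_lit 323) (nat_lit 317)) (XT.lf (nat_lit 0) (nat_lit 2943816078) (nat_lit 532) (nat_lit 2118643178) (nat_lit 76) (nat_lit 3248508490) (nat_lit 174) (nat_lit 5) (nat_lit 181) (nat_lit 5) (nat_lit 175) (nat_lit 4) (nat_lit 381) (nat_lit 323) (nat_lit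 316))))))))
noncomputable def xc61 : XT := (XT.nd (nat_lit 2262) (nat_lit 3116) (nat_lit 0) (XT.nd (nat_lit 1092) (nat_lit 2812) (nat_lit 0) (XT.nd (nat_lit 546) (nat_lit 1672) (nat_lit 0) (XT.nd (nat_lit 234) (nat_lit 1216) (nat_lit 0) (XT.nd (nat_lit 78) (nat_lit 836) (nat_lit 0) (XT.lf (nat_lit 0) (nat_lit 4490659523) (nat_lit 380) (nat_lit 2214205473) (nat_lit 456) (nat_lit 1705999669) (nat_lit 169) (nat_lit 5) (nat_lit 174) (nat_lit 5) (nat_lit 175) (nat_lit 4) (nat_lit 382) (nat_lit 323) (nat_lit 315)) (XT.nd (nat_lit 78) (nat_lit 380) (nat_lit 0) (XT.lf (nat_lit 0) (nat_lit 1989910870) (nat_lit 456) (nat_lit 5781811423) (nat_lit 76) (nat_lit 742508644) (nat_lit 163) (nat_lit 5) (nat_lit 169) (nat_lit 5) (nat_lit 164) (nat_lit 4) (nat_lit 383) (nat_lit 323) (nat_lit 314)) (XT.lf (nat_lit 0) (nat_lit 900626865) (nat_lit 380) (nat_lit 4843486922) (nat_lit 456) (nat_lit 2876650368) (nat_lit 158) (nat_lit 5)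 (nat_lit 163) (nat_lit 5) (nat_lit 164) (nat_lit 4) (nat_lit 384) (nat_lit 323) (nat_lit 313)))) (XT.nd (nat_lit 156) (nat_lit 760) (nat_lit 0) (XT.nd (nat_lit 78) (nat_lit 380) (nat_lit 0) (XT.lf (nat_lit 0) (nat_lit 833903940) (nat_lit 456) (nat_lit 959510310) (nat_lit 76) (nat_lit 6937728600) (nat_lit 157) (nat_lit 5) (nat_lit 163) (nat_lit 5) (nat_lit 158) (nat_lit 5) (nat_lit 385) (nat_lit 323) (nat_lit 312)) (XT.lf (nat_lit 0) (nat_lit 4583085347) (nat_lit 456) (nat_lit 2886525673) (nat_lit 76) (nat_lit 1374835374) (nat_lit 152) (nat_lit 5) (nat_lit 158) (nat_lit 5) (nat_lit 153) (nat_lit 4) (nat_lit 386) (nat_lit 323) (nat_lit 311))) (XT.nd (nat_lit 78) (nat_lit 456) (nat_lit 0) (XT.lf (nat_lit 0) (nat_lit 4082268933) (nat_lit 304) (nat_lit 4344522271) (nat_lit 380) (nat_lit 534917522) (nat_lit 148) (nat_lit 5) (nat_lit 152) (nat_lit 5) (nat_lit 153) (nat_lit 4) (nat_lit 387) (nat_lit 323) (nat_lit 310))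 (XT.lf (nat_lit 0) (nat_lit 2125383413) (nat_lit 380) (nat_lit 1079077682) (nat_lit 456) (nat_lit 5878127125) (nat_lit 142) (nat_lit 5) (nat_lit 147) (nat_lit 5) (nat_lit 148) (nat_lit 5) (nat_lit 388) (nat_lit 323) (nat_lit 309))))) (XT.nd (nat_lit 234) (nat_lit 988) (nat_lit 0) (XT.nd (nat_lit 78) (nat_lit 380) (nat_lit 0) (XT.lf (nat_lit 0) (nat_lit 86008964) (nat_lit 304) (nat_lit 6948475204) (nat_lit 380) (nat_lit 2172793968) (nat_lit 138) (nat_lit 5) (nat_lit 142) (nat_lit 5) (nat_lit 143) (nat_lit 4) (nat_lit 389) (nat_lit 323) (nat_lit 308)) (XT.nd (nat_lit 78) (nat_lit 304) (nat_lit 0) (XT.lf (nat_lit 0) (nat_lit 1610355311) (nat_lit 380) (nat_lit 2000797313) (nat_lit 76) (nat_lit 5724138448) (nat_lit 137) (nat_lit 5) (nat_lit 142) (nat_lit 5) (nat_lit 138) (nat_lit 5) (nat_lit 390) (nat_lit 323) (nat_lit 307)) (XT.lf (nat_lit 0) (nat_lit 5295546566) (nat_lit 304) (nat_lit 138197149) (nat_lit 380) (nat_lit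 4033660542) (nat_lit 133) (nat_lit 5) (nat_lit 137) (nat_lit 5) (nat_lit 138) (nat_lit 5) (nat_lit 391) (nat_lit 323) (nat_lit 306)))) (XT.nd (nat_lit 156) (nat_lit 304) (nat_lit 0) (XT.nd (nat_lit 78) (nat_lit 380) (nat_lit 0) (XT.lf (nat_lit 0) (nat_lit 3156852670) (nat_lit 304) (nat_lit 6219130066) (nat_lit 380) (nat_lit 227390832) (nat_lit 129) (nat_lit 5) (nat_lit 133) (nat_lit 5) (nat_lit 134) (nat_lit 4) (nat_lit 392) (nat_lit 323) (nat_lit 305)) (XT.lf (nat_lit 0) (nat_lit 908400454) (nat_lit 304) (nat_lit 2685969054) (nat_lit 380) (nat_lit 6148802635) (nat_lit 124) (nat_lit 5) (nat_lit 128) (nat_lit 5) (nat_lit 129) (nat_lit 5) (nat_lit 393) (nat_lit 323) (nat_lit 304))) (XT.nd (nat_lit 78) (nat_lit 304) (nat_lit 0) (XT.lf (nat_lit 0) (nat_lit 7522599046) (nat_lit 380) (nat_lit 1402754584) (nat_lit 76) (nat_lit 961867642) (nat_lit 124) (nat_lit 5) (nat_lit 129) (nat_lit 5) (nat_lit 125) (nat_lit 4) (nat_lit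 394) (nat_lit 323) (nat_lit 303)) (XT.lf (nat_lit 0) (nat_lit 1513495190) (nat_lit 304) (nat_lit 3821015525) (nat_lit 76) (nat_lit 4700344060) (nat_lit 120) (nat_lit 5) (nat_lit 124) (nat_lit 5) (nat_lit 121) (nat_lit 5) (nat_lit 395) (nat_lit 323) (nat_lit 302)))))) (XT.nd (nat_lit 546) (nat_lit 1444) (nat_lit 0) (XT.nd (nat_lit 234) (nat_lit 760) (nat_lit 0) (XT.nd (nat_lit 78) (nat_lit 304) (nat_lit 0) (XT.lf (nat_lit 0) (nat_lit 3834030367) (nat_lit 304) (nat_lit 1601666968) (nat_lit 380) (nat_lit 4751273956) (nat_lit 116) (nat_lit 5) (nat_lit 120) (nat_lit 5) (nat_lit 121) (nat_lit 5) (nat_lit 396) (nat_lit 323) (nat_lit 301)) (XT.nd (nat_lit 78) (nat_lit 76) (nat_lit 0) (XT.lf (nat_lit 0) (nat_lit 1339641718) (nat_lit 228) (nat_lit 8134113247) (nat_lit 304) (nat_lit 869964641) (nat_lit 113) (nat_lit 5) (nat_lit 116) (nat_lit 5) (nat_lit 117) (nat_lit 4) (nat_lit 397) (nat_lit 323) (nat_lit 300)) (XT.lf (nat_lit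 0) (nat_lit 3072487092) (nat_lit 304) (nat_lit 1276026320) (nat_lit 76) (nat_lit 6155596031) (nat_lit 112) (nat_lit 5) (nat_lit 116) (nat_lit 5) (nat_lit 113) (nat_lit 5) (nat_lit 398) (nat_lit 323) (nat_lit 299)))) (XT.nd (nat_lit 156) (nat_lit 228) (nat_lit 0) (XT.nd (nat_lit 78) (nat_lit 304) (nat_lit 0) (XT.lf (nat_lit 0) (nat_lit 6689823022) (nat_lit 228) (nat_lit 417484349) (nat_lit 304) (nat_lit 3562010583) (nat_lit 109) (nat_lit 5) (nat_lit 112) (nat_lit 5) (nat_lit 113) (nat_lit 5) (nat_lit 399) (nat_lit 323) (nat_lit 298)) (XT.lf (nat_lit 0) (nat_lit 429876244) (nat_lit 304) (nat_lit 6834975045) (nat_lit 76) (nat_lit 3574087680) (nat_lit 105) (nat_lit 5) (nat_lit 109) (nat_lit 5) (nat_lit 106) (nat_lit 5) (nat_lit 400) (nat_lit 323) (nat_lit 297))) (XT.nd (nat_lit 78) (nat_lit 0) (nat_lit 0) (XT.lf (nat_lit 0) (nat_lit 1162052477) (nat_lit 228) (nat_lit 3291909666) (nat_lit 304) (nat_lit 6559119100) (nat_lit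 102) (nat_lit 5) (nat_lit 105) (nat_lit 5) (nat_lit 106) (nat_lit 5) (nat_lit 401) (nat_lit 323) (nat_lit 296)) (XT.lf (nat_lit 0) (nat_lit 8604863487) (nat_lit 304) (nat_lit 1777095721) (nat_lit 76) (nat_lit 810317162) (nat_lit 102) (nat_lit 5) (nat_lit 106) (nat_lit 5) (nat_lit 103) (nat_lit 4) (nat_lit 402) (nat_lit 323) (nat_lit 295))))) (XT.nd (nat_lit 312) (nat_lit 684) (nat_lit 0) (XT.nd (nat_lit 156) (nat_lit 228) (nat_lit 0) (XT.nd (nat_lit 78) (nat_lit 228) (nat_lit 0) (XT.lf (nat_lit 0) (nat_lit 1500392238) (nat_lit 304) (nat_lit 4871126126) (nat_lit 76) (nat_lit 5004117583) (nat_lit 98) (nat_lit 5) (nat_lit 102) (nat_lit 5) (nat_lit 99) (nat_lit 5) (nat_lit 403) (nat_lit 323) (nat_lit 294)) (XT.lf (nat_lit 0) (nat_lit 3433958805) (nat_lit 228) (nat_lit 2207018939) (nat_lit 304) (nat_lit 5923295916) (nat_lit 95) (nat_lit 5) (nat_lit 98) (nat_lit 5) (nat_lit 99) (nat_lit 5) (nat_lit 404) (nat_lit 323)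 (nat_lit 293))) (XT.nd (nat_lit 78) (nat_lit 76) (nat_lit 0) (XT.lf (nat_lit 0) (nat_lit 199557782) (nat_lit 152) (nat_lit 9709340813) (nat_lit 228) (nat_lit 1849588479) (nat_lit 93) (nat_lit 5) (nat_lit 95) (nat_lit 5) (nat_lit 96) (nat_lit 4) (nat_lit 405) (nat_lit 323) (nat_lit 292)) (XT.lf (nat_lit 0) (nat_lit 2337039373) (nat_lit 228) (nat_lit 3170322175) (nat_lit 76) (nat_lit 6449403397) (nat_lit 92) (nat_lit 5) (nat_lit 95) (nat_lit 5) (nat_lit 93) (nat_lit 5) (nat_lit 406) (nat_lit 323) (nat_lit 291)))) (XT.nd (nat_lit 156) (nat_lit 304) (nat_lit 0) (XT.nd (nat_lit 78) (nat_lit 152) (nat_lit 0) (XT.lf (nat_lit 0) (nat_lit 5446226802) (nat_lit 228) (nat_lit 1151935040) (nat_lit 304) (nat_lit 5562707054) (nat_lit 89) (nat_lit 5) (nat_lit 92) (nat_lit 5) (nat_lit 93) (nat_lit 5) (nat_lit 407) (nat_lit 323) (nat_lit 290)) (XT.lf (nat_lit 0) (nat_lit 1908886138) (nat_lit 152) (nat_lit 9095113714) (nat_lit 228)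 (nat_lit 1366598632) (nat_lit 87) (nat_lit 5) (nat_lit 89) (nat_lit 5) (nat_lit 90) (nat_lit 4) (nat_lit 408) (nat_lit 323) (nat_lit 289))) (XT.nd (nat_lit 78) (nat_lit 228) (nat_lit 0) (XT.lf (nat_lit 0) (nat_lit 2911954193) (nat_lit 228) (nat_lit 1808644896) (nat_lit 76) (nat_lit 7864750117) (nat_lit 86) (nat_lit 5) (nat_lit 89) (nat_lit 5) (nat_lit 87) (nat_lit 5) (nat_lit 409) (nat_lit 323) (nat_lit 288)) (XT.lf (nat_lit 0) (nat_lit 7120362578) (nat_lit 228) (nat_lit 175741321) (nat_lit 304) (nat_lit 5509899616) (nat_lit 83) (nat_lit 5) (nat_lit 86) (nat_lit 5) (nat_lit 87) (nat_lit 5) (nat_lit 410) (nat_lit 323) (nat_lit 287))))))) (XT.nd (nat_lit 1092) (nat_lit 1368) (nat_lit 0) (XT.nd (nat_lit 546) (nat_lit 836) (nat_lit 0) (XT.nd (nat_lit 234) (nat_lit 532) (nat_lit 0) (XT.nd (nat_lit 78) (nat_lit 228) (nat_lit 0) (XT.lf (nat_lit 0) (nat_lit 3231699975) (nat_lit 152) (nat_lit 8609544360) (nat_lit 228) (nat_lit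 1191157107) (nat_lit 81) (nat_lit 5) (nat_lit 83) (nat_lit 5) (nat_lit 84) (nat_lit 4) (nat_lit 411) (nat_lit 323) (nat_lit 286)) (XT.nd (nat_lit 78) (nat_lit 152) (nat_lit 0) (XT.lf (nat_lit 0) (nat_lit 3190135059) (nat_lit 228) (nat_lit 874025830) (nat_lit 76) (nat_lit 9200602261) (nat_lit 80) (nat_lit 5) (nat_lit 83) (nat_lit 5) (nat_lit 81) (nat_lit 5) (nat_lit 412) (nat_lit 323) (nat_lit 285)) (XT.lf (nat_lit 0) (nat_lit 7704418316) (nat_lit 228) (nat_lit 5144152652) (nat_lit 76) (nat_lit 654413431) (nat_lit 78) (nat_lit 5) (nat_lit 81) (nat_lit 5) (nat_lit 79) (nat_lit 4) (nat_lit 413) (nat_lit 323) (nat_lit 284)))) (XT.nd (nat_lit 156) (nat_lit 304) (nat_lit 0) (XT.nd (nat_lit 78) (nat_lit 76) (nat_lit 0) (XT.lf (nat_lit 0) (nat_lit 4070808319) (nat_lit 152) (nat_lit 8310611335) (nat_lit 228) (nat_lit 1366121028) (nat_lit 76) (nat_lit 5) (nat_lit 78) (nat_lit 5) (nat_lit 79) (nat_lit 4) (nat_lit 414) (nat_lit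 323) (nat_lit 283)) (XT.lf (nat_lit 0) (nat_lit 3128490457) (nat_lit 228) (nat_lit 468450771) (nat_lit 76) (nat_lit 10401827810) (nat_lit 75) (nat_lit 5) (nat_lit 78) (nat_lit 5) (nat_lit 76) (nat_lit 5) (nat_lit 415) (nat_lit 323) (nat_lit 282))) (XT.nd (nat_lit 78) (nat_lit 152) (nat_lit 0) (XT.lf (nat_lit 0) (nat_lit 7771320496) (nat_lit 228) (nat_lit 5193155977) (nat_lit 76) (nat_lit 1291433343) (nat_lit 73) (nat_lit 5) (nat_lit 76) (nat_lit 5) (nat_lit 74) (nat_lit 4) (nat_lit 416) (nat_lit 323) (nat_lit 281)) (XT.lf (nat_lit 0) (nat_lit 4313210417) (nat_lit 152) (nat_lit 8263315400) (nat_lit 228) (nat_lit 1943552584) (nat_lit 71) (nat_lit 5) (nat_lit 73) (nat_lit 5) (nat_lit 74) (nat_lit 4) (nat_lit 417) (nat_lit 323) (nat_lit 280))))) (XT.nd (nat_lit 234) (nat_lit 456) (nat_lit 0) (XT.nd (nat_lit 78) (nat_lit 304) (nat_lit 0) (XT.lf (nat_lit 0) (nat_lit 2674708452) (nat_lit 228) (nat_lit 710495329) (nat_lit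 76) (nat_lit 11406355716) (nat_lit 70) (nat_lit 5) (nat_lit 73) (nat_lit 5) (nat_lit 71) (nat_lit 5) (nat_lit 418) (nat_lit 323) (nat_lit 279)) (XT.nd (nat_lit 78) (nat_lit 152) (nat_lit 0) (XT.lf (nat_lit 0) (nat_lit 7439676972) (nat_lit 228) (nat_lit 5957709097) (nat_lit 76) (nat_lit 1671810733) (nat_lit 68) (nat_lit 5) (nat_lit 71) (nat_lit 5) (nat_lit 69) (nat_lit 4) (nat_lit 419) (nat_lit 323) (nat_lit 278)) (XT.lf (nat_lit 0) (nat_lit 3827284196) (nat_lit 152) (nat_lit 8541218461) (nat_lit 228) (nat_lit 2986038918) (nat_lit 66) (nat_lit 5) (nat_lit 68) (nat_lit 5) (nat_lit 69) (nat_lit 4) (nat_lit 420) (nat_lit 323) (nat_lit 277)))) (XT.nd (nat_lit 156) (nat_lit 228) (nat_lit 0) (XT.nd (nat_lit 78) (nat_lit 152) (nat_lit 0) (XT.lf (nat_lit 0) (nat_lit 1765921431) (nat_lit 228) (nat_lit 1738247627) (nat_lit 76) (nat_lit 12143637685) (nat_lit 65) (nat_lit 5) (nat_lit 68) (nat_lit 5) (nat_lit 66) (nat_lit 5)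 (nat_lit 421) (nat_lit 323) (nat_lit 276)) (XT.lf (nat_lit 0) (nat_lit 6642956162) (nat_lit 228) (nat_lit 7585420336) (nat_lit 76) (nat_lit 1719335584) (nat_lit 63) (nat_lit 5) (nat_lit 66) (nat_lit 5) (nat_lit 64) (nat_lit 4) (nat_lit 422) (nat_lit 323) (nat_lit 275))) (XT.nd (nat_lit 78) (nat_lit 76) (nat_lit 0) (XT.lf (nat_lit 0) (nat_lit 2459541526) (nat_lit 152) (nat_lit 9228189787) (nat_lit 228) (nat_lit 4568245357) (nat_lit 61) (nat_lit 5) (nat_lit 63) (nat_lit 5) (nat_lit 64) (nat_lit 4) (nat_lit 423) (nat_lit 323) (nat_lit 274)) (XT.lf (nat_lit 0) (nat_lit 327135841) (nat_lit 228) (nat_lit 3712682716) (nat_lit 76) (nat_lit 12532900875) (nat_lit 60) (nat_lit 5) (nat_lit 63) (nat_lit 5) (nat_lit 61) (nat_lit 5) (nat_lit 424) (nat_lit 323) (nat_lit 273)))))) (XT.nd (nat_lit 546) (nat_lit 760) (nat_lit 0) (XT.nd (nat_lit 234) (nat_lit 380) (nat_lit 0) (XT.nd (nat_lit 78) (nat_lit 76) (nat_lit 0) (XT.lf (nat_lit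 0) (nat_lit 5301868013) (nat_lit 228) (nat_lit 10248336477) (nat_lit 76) (nat_lit 1346678427) (nat_lit 58) (nat_lit 5) (nat_lit 61) (nat_lit 5) (nat_lit 59) (nat_lit 4) (nat_lit 425) (nat_lit 323) (nat_lit 272)) (XT.nd (nat_lit 78) (nat_lit 0) (nat_lit 0) (XT.lf (nat_lit 0) (nat_lit 30878476) (nat_lit 76) (nat_lit 10420397284) (nat_lit 152) (nat_lit 6778736956) (nat_lit 57) (nat_lit 5) (nat_lit 58) (nat_lit 5) (nat_lit 59) (nat_lit 4) (nat_lit 426) (nat_lit 323) (nat_lit 271)) (XT.lf (nat_lit 0) (nat_lit 10733069173) (nat_lit 76) (nat_lit 5073479048) (nat_lit 152) (nat_lit 1765050998) (nat_lit 57) (nat_lit 5) (nat_lit 58) (nat_lit 5) (nat_lit 59) (nat_lit 4) (nat_lit 427) (nat_lit 323) (nat_lit 270)))) (XT.nd (nat_lit 156) (nat_lit 152) (nat_lit 0) (XT.nd (nat_lit 78) (nat_lit 0) (nat_lit 0) (XT.lf (nat_lit 0) (nat_lit 3322407104) (nat_lit 228) (nat_lit 14147080012) (nat_lit 76) (nat_lit 453279358) (nat_lit 54)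 (nat_lit 5) (nat_lit 57) (nat_lit 5) (nat_lit 55) (nat_lit 4) (nat_lit 428) (nat_lit 323) (nat_lit 269)) (XT.lf (nat_lit 0) (nat_lit 8596081570) (nat_lit 228) (nat_lit 3596191135) (nat_lit 76) (nat_lit 6089603639) (nat_lit 54) (nat_lit 5) (nat_lit 57) (nat_lit 5) (nat_lit 55) (nat_lit 4) (nat_lit 429) (nat_lit 323) (nat_lit 268))) (XT.nd (nat_lit 78) (nat_lit 76) (nat_lit 0) (XT.lf (nat_lit 0) (nat_lit 7322942009) (nat_lit 76) (nat_lit 6725995952) (nat_lit 152) (nat_lit 4602196208) (nat_lit 53) (nat_lit 5) (nat_lit 54) (nat_lit 5) (nat_lit 55) (nat_lit 4) (nat_lit 430) (nat_lit 323) (nat_lit 267)) (XT.lf (nat_lit 0) (nat_lit 608877844) (nat_lit 152) (nat_lit 484736780) (nat_lit 76) (nat_lit 17938055766) (nat_lit 52) (nat_lit 5) (nat_lit 54) (nat_lit 5) (nat_lit 53) (nat_lit 5) (nat_lit 431) (nat_lit 323) (nat_lit 266))))) (XT.nd (nat_lit 312) (nat_lit 304) (nat_lit 0) (XT.nd (nat_lit 156) (nat_lit 228) (nat_lit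 0) (XT.nd (nat_lit 78) (nat_lit 76) (nat_lit 0) (XT.lf (nat_lit 0) (nat_lit 5985652244) (nat_lit 228) (nat_lit 8707124834) (nat_lit 76) (nat_lit 4726426085) (nat_lit 50) (nat_lit 5) (nat_lit 53) (nat_lit 5) (nat_lit 51) (nat_lit 4) (nat_lit 432) (nat_lit 323) (nat_lit 265)) (XT.lf (nat_lit 0) (nat_lit 2383371958) (nat_lit 76) (nat_lit 9131303312) (nat_lit 152) (nat_lit 8303961673) (nat_lit 49) (nat_lit 5) (nat_lit 50) (nat_lit 5) (nat_lit 51) (nat_lit 4) (nat_lit 433) (nat_lit 323) (nat_lit 264))) (XT.nd (nat_lit 78) (nat_lit 228) (nat_lit 0) (XT.lf (nat_lit 0) (nat_lit 13897162235) (nat_lit 76) (nat_lit 3353140724) (nat_lit 152) (nat_lit 2978532043) (nat_lit 49) (nat_lit 5) (nat_lit 50) (nat_lit 5) (nat_lit 51) (nat_lit 4) (nat_lit 434) (nat_lit 323) (nat_lit 263)) (XT.lf (nat_lit 0) (nat_lit 2485756554) (nat_lit 228) (nat_lit 15581791739) (nat_lit 76) (nat_lit 2582230639) (nat_lit 46) (nat_lit 5) (nat_lit 49)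 (nat_lit 5) (nat_lit 47) (nat_lit 4) (nat_lit 435) (nat_lit 323) (nat_lit 262)))) (XT.nd (nat_lit 156) (nat_lit 228) (nat_lit 0) (XT.nd (nat_lit 78) (nat_lit 76) (nat_lit 0) (XT.lf (nat_lit 0) (nat_lit 8105750184) (nat_lit 228) (nat_lit 4291746569) (nat_lit 76) (nat_lit 8683423465) (nat_lit 46) (nat_lit 5) (nat_lit 49) (nat_lit 5) (nat_lit 47) (nat_lit 4) (nat_lit 436) (nat_lit 323) (nat_lit 261)) (XT.lf (nat_lit 0) (nat_lit 7397447223) (nat_lit 76) (nat_lit 6523220701) (nat_lit 152) (nat_lit 7603541007) (nat_lit 45) (nat_lit 5) (nat_lit 46) (nat_lit 5) (nat_lit 47) (nat_lit 4) (nat_lit 437) (nat_lit 323) (nat_lit 260))) (XT.nd (nat_lit 78) (nat_lit 228) (nat_lit 0) (XT.lf (nat_lit 0) (nat_lit 19442212440) (nat_lit 76) (nat_lit 466880274) (nat_lit 152) (nat_lit 2071734640) (nat_lit 45) (nat_lit 5) (nat_lit 46) (nat_lit 5) (nat_lit 47) (nat_lit 4) (nat_lit 438) (nat_lit 323) (nat_lit 259)) (XT.lf (nat_lit 0) (nat_lit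 3659195350) (nat_lit 228) (nat_lit 13039530914) (nat_lit 76) (nat_lit 5748257284) (nat_lit 42) (nat_lit 5) (nat_lit 45) (nat_lit 5) (nat_lit 43) (nat_lit 4) (nat_lit 439) (nat_lit 323) (nat_lit 258))))))))
noncomputable def xc62 : XT := (XT.nd (nat_lit 2262) (nat_lit 684) (nat_lit 0) (XT.nd (nat_lit 1092) (nat_lit 684) (nat_lit 0) (XT.nd (nat_lit 546) (nat_lit 456) (nat_lit 0) (XT.nd (nat_lit 234) (nat_lit 304) (nat_lit 0) (XT.nd (nat_lit 78) (nat_lit 76) (nat_lit 0) (XT.lf (nat_lit 0) (nat_lit 9507632694) (nat_lit 228) (nat_lit 1269458387) (nat_lit 76) (nat_lit 12149803994) (nat_lit 42) (nat_lit 5) (nat_lit 45) (nat_lit 5) (nat_lit 43) (nat_lit 4) (nat_lit 440) (nat_lit 323) (nat_lit 257)) (XT.nd (nat_lit 78) (nat_lit 0) (nat_lit 0) (XT.lf (nat_lit 0) (nat_lit 10988871374) (nat_lit 76) (nat_lit 4606252322) (nat_lit 152) (nat_lit 7824174755) (nat_lit 41) (nat_lit 5) (nat_lit 42) (nat_lit 5) (nat_lit 43) (nat_lit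 4) (nat_lit 441) (nat_lit 323) (nat_lit 256)) (XT.lf (nat_lit 0) (nat_lit 21853088014) (nat_lit 152) (nat_lit 381456285) (nat_lit 0) (nat_lit 1692296615) (nat_lit 41) (nat_lit 5) (nat_lit 43) (nat_lit 4) (nat_lit 41) (nat_lit 4) (nat_lit 442) (nat_lit 323) (nat_lit 255)))) (XT.nd (nat_lit 156) (nat_lit 76) (nat_lit 0) (XT.nd (nat_lit 78) (nat_lit 0) (nat_lit 0) (XT.lf (nat_lit 0) (nat_lit 3896911273) (nat_lit 228) (nat_lit 12340914008) (nat_lit 76) (nat_lit 8206991425) (nat_lit 38) (nat_lit 5) (nat_lit 41) (nat_lit 5) (nat_lit 39) (nat_lit 4) (nat_lit 443) (nat_lit 323) (nat_lit 254)) (XT.lf (nat_lit 0) (nat_lit 9968260194) (nat_lit 228) (nat_lit 104282002) (nat_lit 76) (nat_lit 14906278488) (nat_lit 38) (nat_lit 5) (nat_lit 41) (nat_lit 5) (nat_lit 39) (nat_lit 4) (nat_lit 444) (nat_lit 323) (nat_lit 253))) (XT.nd (nat_lit 78) (nat_lit 0) (nat_lit 0) (XT.lf (nat_lit 0) (nat_lit 12671831378) (nat_lit 76) (nat_lit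 3632266534) (nat_lit 152) (nat_lit 9222278592) (nat_lit 37) (nat_lit 5) (nat_lit 38) (nat_lit 5) (nat_lit 39) (nat_lit 4) (nat_lit 445) (nat_lit 323) (nat_lit 252)) (XT.lf (nat_lit 0) (nat_lit 22820561512) (nat_lit 152) (nat_lit 360813105) (nat_lit 0) (nat_lit 2909269970) (nat_lit 37) (nat_lit 5) (nat_lit 39) (nat_lit 4) (nat_lit 37) (nat_lit 4) (nat_lit 446) (nat_lit 323) (nat_lit 251))))) (XT.nd (nat_lit 234) (nat_lit 228) (nat_lit 0) (XT.nd (nat_lit 78) (nat_lit 76) (nat_lit 0) (XT.lf (nat_lit 0) (nat_lit 2925341090) (nat_lit 152) (nat_lit 14051219286) (nat_lit 76) (nat_lit 9690842817) (nat_lit 35) (nat_lit 5) (nat_lit 37) (nat_lit 5) (nat_lit 36) (nat_lit 4) (nat_lit 447) (nat_lit 323) (nat_lit 250)) (XT.nd (nat_lit 78) (nat_lit 76) (nat_lit 0) (XT.lf (nat_lit 0) (nat_lit 9206410252) (nat_lit 152) (nat_lit 1376736421) (nat_lit 76) (nat_lit 16678383273) (nat_lit 35) (nat_lit 5) (nat_lit 37) (nat_lit 5) (nat_lit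 36) (nat_lit 4) (nat_lit 448) (nat_lit 323) (nat_lit 249)) (XT.lf (nat_lit 0) (nat_lit 11838254736) (nat_lit 76) (nat_lit 3914393224) (nat_lit 152) (nat_lit 12118532319) (nat_lit 34) (nat_lit 5) (nat_lit 35) (nat_lit 5) (nat_lit 36) (nat_lit 4) (nat_lit 449) (nat_lit 323) (nat_lit 248)))) (XT.nd (nat_lit 156) (nat_lit 76) (nat_lit 0) (XT.nd (nat_lit 78) (nat_lit 152) (nat_lit 0) (XT.lf (nat_lit 0) (nat_lit 22500737662) (nat_lit 152) (nat_lit 3120143278) (nat_lit 0) (nat_lit 2878077058) (nat_lit 34) (nat_lit 5) (nat_lit 36) (nat_lit 4) (nat_lit 34) (nat_lit 4) (nat_lit 450) (nat_lit 323) (nat_lit 247)) (XT.lf (nat_lit 0) (nat_lit 402348517) (nat_lit 152) (nat_lit 18873495901) (nat_lit 76) (nat_lit 9866559801) (nat_lit 32) (nat_lit 5) (nat_lit 34) (nat_lit 5) (nat_lit 33) (nat_lit 4) (nat_lit 451) (nat_lit 323) (nat_lit 246))) (XT.nd (nat_lit 78) (nat_lit 76) (nat_lit 0) (XT.lf (nat_lit 0) (nat_lit 6870335400) (nat_lit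 152) (nat_lit 5809116302) (nat_lit 76) (nat_lit 17124043362) (nat_lit 32) (nat_lit 5) (nat_lit 34) (nat_lit 5) (nat_lit 33) (nat_lit 4) (nat_lit 452) (nat_lit 323) (nat_lit 245)) (XT.lf (nat_lit 0) (nat_lit 7731264585) (nat_lit 76) (nat_lit 5840599386) (nat_lit 152) (nat_lit 16911371219) (nat_lit 31) (nat_lit 5) (nat_lit 32) (nat_lit 5) (nat_lit 33) (nat_lit 4) (nat_lit 453) (nat_lit 323) (nat_lit 244)))))) (XT.nd (nat_lit 546) (nat_lit 380) (nat_lit 0) (XT.nd (nat_lit 234) (nat_lit 152) (nat_lit 0) (XT.nd (nat_lit 78) (nat_lit 152) (nat_lit 0) (XT.lf (nat_lit 0) (nat_lit 20510505835) (nat_lit 152) (nat_lit 9463688409) (nat_lit 0) (nat_lit 1208092821) (nat_lit 31) (nat_lit 5) (nat_lit 33) (nat_lit 4) (nat_lit 31) (nat_lit 4) (nat_lit 454) (nat_lit 323) (nat_lit 243)) (XT.nd (nat_lit 78) (nat_lit 76) (nat_lit 0) (XT.lf (nat_lit 0) (nat_lit 4182100035) (nat_lit 76) (nat_lit 23539505402) (nat_lit 76) (nat_lit 4178777629)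 (nat_lit 30) (nat_lit 4) (nat_lit 31) (nat_lit 5) (nat_lit 31) (nat_lit 4) (nat_lit 455) (nat_lit 323) (nat_lit 242)) (XT.lf (nat_lit 0) (nat_lit 2522869555) (nat_lit 152) (nat_lit 14295918845) (nat_lit 76) (nat_lit 15818627033) (nat_lit 29) (nat_lit 5) (nat_lit 31) (nat_lit 5) (nat_lit 30) (nat_lit 4) (nat_lit 456) (nat_lit 323) (nat_lit 241)))) (XT.nd (nat_lit 156) (nat_lit 76) (nat_lit 0) (XT.nd (nat_lit 78) (nat_lit 76) (nat_lit 0) (XT.lf (nat_lit 0) (nat_lit 9308860876) (nat_lit 152) (nat_lit 575323715) (nat_lit 76) (nat_lit 23512115833) (nat_lit 29) (nat_lit 5) (nat_lit 31) (nat_lit 5) (nat_lit 30) (nat_lit 4) (nat_lit 457) (nat_lit 323) (nat_lit 240)) (XT.lf (nat_lit 0) (nat_lit 13764250294) (nat_lit 76) (nat_lit 2634728944) (nat_lit 152) (nat_lit 17775957663) (nat_lit 28) (nat_lit 5) (nat_lit 29) (nat_lit 5) (nat_lit 30) (nat_lit 4) (nat_lit 458) (nat_lit 323) (nat_lit 239))) (XT.nd (nat_lit 78) (nat_lit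 76) (nat_lit 0) (XT.lf (nat_lit 0) (nat_lit 23722416955) (nat_lit 152) (nat_lit 6538752730) (nat_lit 0) (nat_lit 4715145626) (nat_lit 28) (nat_lit 5) (nat_lit 30) (nat_lit 4) (nat_lit 28) (nat_lit 4) (nat_lit 459) (nat_lit 323) (nat_lit 238)) (XT.lf (nat_lit 0) (nat_lit 7816269552) (nat_lit 76) (nat_lit 23519731264) (nat_lit 76) (nat_lit 4463622244) (nat_lit 27) (nat_lit 4) (nat_lit 28) (nat_lit 5) (nat_lit 28) (nat_lit 4) (nat_lit 460) (nat_lit 323) (nat_lit 237))))) (XT.nd (nat_lit 312) (nat_lit 228) (nat_lit 0) (XT.nd (nat_lit 156) (nat_lit 0) (nat_lit 0) (XT.nd (nat_lit 78) (nat_lit 76) (nat_lit 0) (XT.lf (nat_lit 0) (nat_lit 2516917190) (nat_lit 152) (nat_lit 13994182359) (nat_lit 76) (nat_lit 20134724048) (nat_lit 26) (nat_lit 5) (nat_lit 28) (nat_lit 5) (nat_lit 27) (nat_lit 4) (nat_lit 461) (nat_lit 323) (nat_lit 236)) (XT.lf (nat_lit 0) (nat_lit 318889846) (nat_lit 76) (nat_lit 9271478779) (nat_lit 152)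 (nat_lit 27926520557) (nat_lit 25) (nat_lit 5) (nat_lit 26) (nat_lit 5) (nat_lit 27) (nat_lit 4) (nat_lit 462) (nat_lit 323) (nat_lit 235))) (XT.nd (nat_lit 78) (nat_lit 0) (nat_lit 0) (XT.lf (nat_lit 0) (nat_lit 15290985442) (nat_lit 76) (nat_lit 1696816190) (nat_lit 152) (nat_lit 21422932897) (nat_lit 25) (nat_lit 5) (nat_lit 26) (nat_lit 5) (nat_lit 27) (nat_lit 4) (nat_lit 463) (nat_lit 323) (nat_lit 234)) (XT.lf (nat_lit 0) (nat_lit 24636909427) (nat_lit 152) (nat_lit 8734008741) (nat_lit 0) (nat_lit 5959585613) (nat_lit 25) (nat_lit 5) (nat_lit 27) (nat_lit 4) (nat_lit 25) (nat_lit 4) (nat_lit 464) (nat_lit 323) (nat_lit 233)))) (XT.nd (nat_lit 156) (nat_lit 152) (nat_lit 0) (XT.nd (nat_lit 78) (nat_lit 0) (nat_lit 0) (XT.lf (nat_lit 0) (nat_lit 6131618088) (nat_lit 76) (nat_lit 26431522107) (nat_lit 76) (nat_lit 7713297495) (nat_lit 24) (nat_lit 4) (nat_lit 25) (nat_lit 5) (nat_lit 25) (nat_lit 4) (nat_lit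 465) (nat_lit 323) (nat_lit 232)) (XT.lf (nat_lit 0) (nat_lit 21568251481) (nat_lit 76) (nat_lit 19219310585) (nat_lit 76) (nat_lit 461376460) (nat_lit 24) (nat_lit 4) (nat_lit 25) (nat_lit 5) (nat_lit 25) (nat_lit 4) (nat_lit 466) (nat_lit 323) (nat_lit 231))) (XT.nd (nat_lit 78) (nat_lit 76) (nat_lit 0) (XT.lf (nat_lit 0) (nat_lit 6844098044) (nat_lit 152) (nat_lit 4902968019) (nat_lit 76) (nat_lit 30502345842) (nat_lit 23) (nat_lit 5) (nat_lit 25) (nat_lit 5) (nat_lit 24) (nat_lit 4) (nat_lit 467) (nat_lit 323) (nat_lit 230)) (XT.lf (nat_lit 0) (nat_lit 10466321640) (nat_lit 76) (nat_lit 3967293490) (nat_lit 152) (nat_lit 28843923718) (nat_lit 22) (nat_lit 5) (nat_lit 23) (nat_lit 5) (nat_lit 24) (nat_lit 4) (nat_lit 468) (nat_lit 323) (nat_lit 229))))))) (XT.nd (nat_lit 1092) (nat_lit 228) (nat_lit 0) (XT.nd (nat_lit 546) (nat_lit 228) (nat_lit 0) (XT.nd (nat_lit 234) (nat_lit 152) (nat_lit 0) (XT.nd (nat_lit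 78) (nat_lit 76) (nat_lit 0) (XT.lf (nat_lit 0) (nat_lit 22313295748) (nat_lit 152) (nat_lit 18028682454) (nat_lit 0) (nat_lit 3992657977) (nat_lit 22) (nat_lit 5) (nat_lit 24) (nat_lit 4) (nat_lit 22) (nat_lit 4) (nat_lit 469) (nat_lit 323) (nat_lit 228)) (XT.nd (nat_lit 78) (nat_lit 76) (nat_lit 0) (XT.lf (nat_lit 0) (nat_lit 30443002310) (nat_lit 152) (nat_lit 2891925183) (nat_lit 0) (nat_lit 12088110765) (nat_lit 22) (nat_lit 5) (nat_lit 24) (nat_lit 4) (nat_lit 22) (nat_lit 4) (nat_lit 470) (nat_lit 323) (nat_lit 227)) (XT.lf (nat_lit 0) (nat_lit 12902185050) (nat_lit 76) (nat_lit 26013541038) (nat_lit 76) (nat_lit 7625393401) (nat_lit 21) (nat_lit 4) (nat_lit 22) (nat_lit 5) (nat_lit 22) (nat_lit 4) (nat_lit 471) (nat_lit 323) (nat_lit 226)))) (XT.nd (nat_lit 156) (nat_lit 76) (nat_lit 0) (XT.nd (nat_lit 78) (nat_lit 76) (nat_lit 0) (XT.lf (nat_lit 0) (nat_lit 29181358032) (nat_lit 76) (nat_lit 18465842010)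 (nat_lit 76) (nat_lit 45406905) (nat_lit 21) (nat_lit 4) (nat_lit 22) (nat_lit 5) (nat_lit 22) (nat_lit 4) (nat_lit 472) (nat_lit 323) (nat_lit 225)) (XT.lf (nat_lit 0) (nat_lit 7586360603) (nat_lit 152) (nat_lit 3051470137) (nat_lit 76) (nat_lit 38239295329) (nat_lit 20) (nat_lit 5) (nat_lit 22) (nat_lit 5) (nat_lit 21) (nat_lit 4) (nat_lit 473) (nat_lit 323) (nat_lit 224))) (XT.nd (nat_lit 78) (nat_lit 0) (nat_lit 0) (XT.lf (nat_lit 0) (nat_lit 13081161138) (nat_lit 76) (nat_lit 2467300603) (nat_lit 152) (nat_lit 34545637512) (nat_lit 19) (nat_lit 5) (nat_lit 20) (nat_lit 5) (nat_lit 21) (nat_lit 4) (nat_lit 474) (nat_lit 323) (nat_lit 223)) (XT.lf (nat_lit 0) (nat_lit 23814308230) (nat_lit 152) (nat_lit 21689605667) (nat_lit 0) (nat_lit 5841722013) (nat_lit 19) (nat_lit 5) (nat_lit 21) (nat_lit 4) (nat_lit 19) (nat_lit 4) (nat_lit 475) (nat_lit 323) (nat_lit 222))))) (XT.nd (nat_lit 234) (nat_lit 152) (nat_lit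 0) (XT.nd (nat_lit 78) (nat_lit 76) (nat_lit 0) (XT.lf (nat_lit 0) (nat_lit 32329825075) (nat_lit 152) (nat_lit 5975456069) (nat_lit 0) (nat_lit 14329387404) (nat_lit 19) (nat_lit 5) (nat_lit 21) (nat_lit 4) (nat_lit 19) (nat_lit 4) (nat_lit 476) (nat_lit 323) (nat_lit 221)) (XT.nd (nat_lit 78) (nat_lit 0) (nat_lit 0) (XT.lf (nat_lit 0) (nat_lit 10369301106) (nat_lit 76) (nat_lit 30809110774) (nat_lit 76) (nat_lit 12781632857) (nat_lit 18) (nat_lit 4) (nat_lit 19) (nat_lit 5) (nat_lit 19) (nat_lit 4) (nat_lit 477) (nat_lit 323) (nat_lit 220)) (XT.lf (nat_lit 0) (nat_lit 27284155795) (nat_lit 76) (nat_lit 23046801330) (nat_lit 76) (nat_lit 4993070747) (nat_lit 18) (nat_lit 4) (nat_lit 19) (nat_lit 5) (nat_lit 19) (nat_lit 4) (nat_lit 478) (nat_lit 323) (nat_lit 219)))) (XT.nd (nat_lit 156) (nat_lit 0) (nat_lit 0) (XT.nd (nat_lit 78) (nat_lit 76) (nat_lit 0) (XT.lf (nat_lit 0) (nat_lit 2948624594) (nat_lit 152) (nat_lit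 12093510681) (nat_lit 76) (nat_lit 41686564755) (nat_lit 17) (nat_lit 5) (nat_lit 19) (nat_lit 5) (nat_lit 18) (nat_lit 4) (nat_lit 479) (nat_lit 323) (nat_lit 218)) (XT.lf (nat_lit 0) (nat_lit 4325514218) (nat_lit 76) (nat_lit 6723489959) (nat_lit 152) (nat_lit 47124402036) (nat_lit 16) (nat_lit 5) (nat_lit 17) (nat_lit 5) (nat_lit 18) (nat_lit 4) (nat_lit 480) (nat_lit 323) (nat_lit 217))) (XT.nd (nat_lit 78) (nat_lit 0) (nat_lit 0) (XT.lf (nat_lit 0) (nat_lit 19512695759) (nat_lit 152) (nat_lit 38232443143) (nat_lit 0) (nat_lit 1912706272) (nat_lit 16) (nat_lit 5) (nat_lit 18) (nat_lit 4) (nat_lit 16) (nat_lit 4) (nat_lit 481) (nat_lit 323) (nat_lit 216)) (XT.lf (nat_lit 0) (nat_lit 28276710230) (nat_lit 152) (nat_lit 22254640339) (nat_lit 0) (nat_lit 10654074962) (nat_lit 16) (nat_lit 5) (nat_lit 18) (nat_lit 4) (nat_lit 16) (nat_lit 4) (nat_lit 482) (nat_lit 323) (nat_lit 215)))))) (XT.nd (nat_lit 546) (nat_lit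 0) (nat_lit 0) (XT.nd (nat_lit 234) (nat_lit 152) (nat_lit 0) (XT.nd (nat_lit 78) (nat_lit 76) (nat_lit 0) (XT.lf (nat_lit 0) (nat_lit 37284075167) (nat_lit 152) (nat_lit 5835892100) (nat_lit 0) (nat_lit 19639453705) (nat_lit 16) (nat_lit 5) (nat_lit 18) (nat_lit 4) (nat_lit 16) (nat_lit 4) (nat_lit 483) (nat_lit 323) (nat_lit 214)) (XT.nd (nat_lit 78) (nat_lit 0) (nat_lit 0) (XT.lf (nat_lit 0) (nat_lit 11257828843) (nat_lit 76) (nat_lit 35393049379) (nat_lit 76) (nat_lit 17727082097) (nat_lit 15) (nat_lit 4) (nat_lit 16) (nat_lit 5) (nat_lit 16) (nat_lit 4) (nat_lit 484) (nat_lit 323) (nat_lit 213)) (XT.lf (nat_lit 0) (nat_lit 28947086347) (nat_lit 76) (nat_lit 27391728763) (nat_lit 76) (nat_lit 9705037384) (nat_lit 15) (nat_lit 4) (nat_lit 16) (nat_lit 5) (nat_lit 16) (nat_lit 4) (nat_lit 485) (nat_lit 323) (nat_lit 212)))) (XT.nd (nat_lit 156) (nat_lit 76) (nat_lit 0) (XT.nd (nat_lit 78) (nat_lit 76) (nat_lit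 0) (XT.lf (nat_lit 0) (nat_lit 47131191348) (nat_lit 76) (nat_lit 19167945044) (nat_lit 76) (nat_lit 1461133182) (nat_lit 15) (nat_lit 4) (nat_lit 16) (nat_lit 5) (nat_lit 16) (nat_lit 4) (nat_lit 486) (nat_lit 323) (nat_lit 211)) (XT.lf (nat_lit 0) (nat_lit 6875007786) (nat_lit 152) (nat_lit 3770080504) (nat_lit 76) (nat_lit 58881600986) (nat_lit 14) (nat_lit 5) (nat_lit 16) (nat_lit 5) (nat_lit 15) (nat_lit 4) (nat_lit 487) (nat_lit 323) (nat_lit 210))) (XT.nd (nat_lit 78) (nat_lit 0) (nat_lit 0) (XT.lf (nat_lit 0) (nat_lit 13815694711) (nat_lit 76) (nat_lit 1731599134) (nat_lit 152) (nat_lit 55794911359) (nat_lit 13) (nat_lit 5) (nat_lit 14) (nat_lit 5) (nat_lit 15) (nat_lit 4) (nat_lit 488) (nat_lit 323) (nat_lit 209)) (XT.lf (nat_lit 0) (nat_lit 24572448184) (nat_lit 152) (nat_lit 41310844560) (nat_lit 0) (nat_lit 7326113342) (nat_lit 13) (nat_lit 5) (nat_lit 15) (nat_lit 4) (nat_lit 13) (nat_lit 4) (nat_lit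 489) (nat_lit 323) (nat_lit 208))))) (XT.nd (nat_lit 44070) (nat_lit 0) (nat_lit 13756) (XT.nd (nat_lit 43914) (nat_lit 0) (nat_lit 15352) (XT.nd (nat_lit 78) (nat_lit 0) (nat_lit 0) (XT.lf (nat_lit 0) (nat_lit 33868652344) (nat_lit 152) (nat_lit 24659000852) (nat_lit 0) (nat_lit 16604961397) (nat_lit 13) (nat_lit 5) (nat_lit 15) (nat_lit 4) (nat_lit 13) (nat_lit 4) (nat_lit 490) (nat_lit 323) (nat_lit 207)) (XT.lf (nat_lit 0) (nat_lit 43427384031) (nat_lit 152) (nat_lit 7539784024) (nat_lit 0) (nat_lit 26146842497) (nat_lit 13) (nat_lit 5) (nat_lit 15) (nat_lit 4) (nat_lit 13) (nat_lit 4) (nat_lit 491) (nat_lit 323) (nat_lit 206))) (XT.nd (nat_lit 78) (nat_lit 532) (nat_lit 0) (XT.lf (nat_lit 0) (nat_lit 1263970029) (nat_lit 608) (nat_lit 1250699151) (nat_lit 0) (nat_lit 1263970029) (nat_lit 222) (nat_lit 5) (nat_lit 230) (nat_lit 4) (nat_lit 222) (nat_lit 4) (nat_lit 372) (nat_lit 324) (nat_lit 324)) (XT.lf (nat_lit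 0) (nat_lit 3395693295) (nat_lit 532) (nat_lit 2826857348) (nat_lit 532) (nat_lit 1407150264) (nat_lit 215) (nat_lit 4) (nat_lit 222) (nat_lit 5) (nat_lit 222) (nat_lit 4) (nat_lit 373) (nat_lit 324) (nat_lit 323)))) (XT.nd (nat_lit 156) (nat_lit 1064) (nat_lit 0) (XT.nd (nat_lit 78) (nat_lit 0) (nat_lit 0) (XT.lf (nat_lit 0) (nat_lit 1709808294) (nat_lit 456) (nat_lit 510818193) (nat_lit 532) (nat_lit 5484766432) (nat_lit 208) (nat_lit 5) (nat_lit 214) (nat_lit 5) (nat_lit 215) (nat_lit 4) (nat_lit 374) (nat_lit 324) (nat_lit 322)) (XT.lf (nat_lit 0) (nat_lit 5892065595) (nat_lit 532) (nat_lit 15746719) (nat_lit 0) (nat_lit 1876266016) (nat_lit 208) (nat_lit 5) (nat_lit 215) (nat_lit 4) (nat_lit 208) (nat_lit 4) (nat_lit 375) (nat_lit 324) (nat_lit 321))) (XT.nd (nat_lit 78) (nat_lit 456) (nat_lit 0) (XT.lf (nat_lit 0) (nat_lit 1741757009) (nat_lit 608) (nat_lit 1741424204) (nat_lit 76) (nat_lit 4382397820) (nat_lit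 200) (nat_lit 5) (nat_lit 208) (nat_lit 5) (nat_lit 201) (nat_lit 4) (nat_lit 376) (nat_lit 324) (nat_lit 320)) (XT.lf (nat_lit 0) (nat_lit 4449851599) (nat_lit 456) (nat_lit 945071719) (nat_lit 532) (nat_lit 2555618189) (nat_lit 194) (nat_lit 5) (nat_lit 200) (nat_lit 5) (nat_lit 201) (nat_lit 4) (nat_lit 377) (nat_lit 324) (nat_lit 319))))))))
noncomputable def xc63 : XT := (XT.nd (nat_lit 2262) (nat_lit 3268) (nat_lit 0) (XT.nd (nat_lit 1092) (nat_lit 3116) (nat_lit 0) (XT.nd (nat_lit 546) (nat_lit 1900) (nat_lit 0) (XT.nd (nat_lit 234) (nat_lit 1672) (nat_lit 0) (XT.nd (nat_lit 78) (nat_lit 532) (nat_lit 0) (XT.lf (nat_lit 0) (nat_lit 1064494326) (nat_lit 532) (nat_lit 5305896972) (nat_lit 76) (nat_lit 1668366640) (nat_lit 187) (nat_lit 5) (nat_lit 194) (nat_lit 5) (nat_lit 188) (nat_lit 4) (nat_lit 378) (nat_lit 324) (nat_lit 318)) (XT.nd (nat_lit 78) (nat_lit 76) (nat_lit 0) (XT.lf (nat_lit 0) (nat_lit 960908726)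 (nat_lit 456) (nat_lit 3742765689) (nat_lit 532) (nat_lit 3426360893) (nat_lit 181) (nat_lit 5) (nat_lit 187) (nat_lit 5) (nat_lit 188) (nat_lit 4) (nat_lit 379) (nat_lit 324) (nat_lit 317)) (XT.lf (nat_lit 0) (nat_lit 185804381) (nat_lit 532) (nat_lit 820815209) (nat_lit 76) (nat_lit 7218524237) (nat_lit 180) (nat_lit 5) (nat_lit 187) (nat_lit 5) (nat_lit 181) (nat_lit 5) (nat_lit 380) (nat_lit 324) (nat_lit 316)))) (XT.nd (nat_lit 156) (nat_lit 836) (nat_lit 0) (XT.nd (nat_lit 78) (nat_lit 380) (nat_lit 0) (XT.lf (nat_lit 0) (nat_lit 3820916230) (nat_lit 532) (nat_lit 2662989570) (nat_lit 76) (nat_lit 1838704643) (nat_lit 174) (nat_lit 5) (nat_lit 181) (nat_lit 5) (nat_lit 175) (nat_lit 4) (nat_lit 381) (nat_lit 324) (nat_lit 315)) (XT.lf (nat_lit 0) (nat_lit 3876255192) (nat_lit 380) (nat_lit 3656483081) (nat_lit 456) (nat_lit 891258339) (nat_lit 169) (nat_lit 5) (nat_lit 174) (nat_lit 5) (nat_lit 175) (nat_lit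 4) (nat_lit 382) (nat_lit 324) (nat_lit 314))) (XT.nd (nat_lit 78) (nat_lit 380) (nat_lit 0) (XT.lf (nat_lit 0) (nat_lit 2032374807) (nat_lit 380) (nat_lit 699252490) (nat_lit 456) (nat_lit 5797226152) (nat_lit 163) (nat_lit 5) (nat_lit 168) (nat_lit 5) (nat_lit 169) (nat_lit 5) (nat_lit 383) (nat_lit 324) (nat_lit 313)) (XT.lf (nat_lit 0) (nat_lit 118490092) (nat_lit 380) (nat_lit 6310604255) (nat_lit 456) (nat_lit 2208005781) (nat_lit 158) (nat_lit 5) (nat_lit 163) (nat_lit 5) (nat_lit 164) (nat_lit 4) (nat_lit 384) (nat_lit 324) (nat_lit 312))))) (XT.nd (nat_lit 234) (nat_lit 1140) (nat_lit 0) (XT.nd (nat_lit 78) (nat_lit 684) (nat_lit 0) (XT.lf (nat_lit 0) (nat_lit 1447256962) (nat_lit 456) (nat_lit 1823613104) (nat_lit 76) (nat_lit 5477693984) (nat_lit 157) (nat_lit 5) (nat_lit 163) (nat_lit 5) (nat_lit 158) (nat_lit 5) (nat_lit 385) (nat_lit 324) (nat_lit 311)) (XT.nd (nat_lit 78) (nat_lit 304) (nat_lit 0)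 (XT.lf (nat_lit 0) (nat_lit 5031881520) (nat_lit 380) (nat_lit 101029467) (nat_lit 456) (nat_lit 3730872850) (nat_lit 152) (nat_lit 5) (nat_lit 157) (nat_lit 5) (nat_lit 158) (nat_lit 5) (nat_lit 386) (nat_lit 324) (nat_lit 310)) (XT.lf (nat_lit 0) (nat_lit 3059937287) (nat_lit 304) (nat_lit 5865356020) (nat_lit 380) (nat_lit 57302685) (nat_lit 148) (nat_lit 5) (nat_lit 152) (nat_lit 5) (nat_lit 153) (nat_lit 4) (nat_lit 387) (nat_lit 324) (nat_lit 309)))) (XT.nd (nat_lit 156) (nat_lit 684) (nat_lit 0) (XT.nd (nat_lit 78) (nat_lit 0) (nat_lit 0) (XT.lf (nat_lit 0) (nat_lit 997341212) (nat_lit 380) (nat_lit 2624270051) (nat_lit 456) (nat_lit 5483270365) (nat_lit 142) (nat_lit 5) (nat_lit 147) (nat_lit 5) (nat_lit 148) (nat_lit 5) (nat_lit 388) (nat_lit 324) (nat_lit 308)) (XT.lf (nat_lit 0) (nat_lit 7396099928) (nat_lit 456) (nat_lit 1109827857) (nat_lit 76) (nat_lit 725319050) (nat_lit 142) (nat_lit 5) (nat_lit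 148) (nat_lit 5) (nat_lit 143) (nat_lit 4) (nat_lit 389) (nat_lit 324) (nat_lit 307))) (XT.nd (nat_lit 78) (nat_lit 304) (nat_lit 0) (XT.lf (nat_lit 0) (nat_lit 1890775818) (nat_lit 380) (nat_lit 3305053719) (nat_lit 76) (nat_lit 4164860725) (nat_lit 137) (nat_lit 5) (nat_lit 142) (nat_lit 5) (nat_lit 138) (nat_lit 5) (nat_lit 390) (nat_lit 324) (nat_lit 306)) (XT.lf (nat_lit 0) (nat_lit 3907011564) (nat_lit 304) (nat_lit 1755310601) (nat_lit 380) (nat_lit 3832045017) (nat_lit 133) (nat_lit 5) (nat_lit 137) (nat_lit 5) (nat_lit 138) (nat_lit 5) (nat_lit 391) (nat_lit 324) (nat_lit 305)))))) (XT.nd (nat_lit 546) (nat_lit 1520) (nat_lit 0) (XT.nd (nat_lit 234) (nat_lit 912) (nat_lit 0) (XT.nd (nat_lit 78) (nat_lit 380) (nat_lit 0) (XT.lf (nat_lit 0) (nat_lit 1670302878) (nat_lit 304) (nat_lit 7866326497) (nat_lit 380) (nat_lit 95753299) (nat_lit 129) (nat_lit 5) (nat_lit 133) (nat_lit 5) (nat_lit 134) (nat_lit 4)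 (nat_lit 392) (nat_lit 324) (nat_lit 304)) (XT.nd (nat_lit 78) (nat_lit 304) (nat_lit 0) (XT.lf (nat_lit 0) (nat_lit 3676790728) (nat_lit 380) (nat_lit 683936349) (nat_lit 76) (nat_lit 5412823391) (nat_lit 128) (nat_lit 5) (nat_lit 133) (nat_lit 5) (nat_lit 129) (nat_lit 5) (nat_lit 393) (nat_lit 324) (nat_lit 303)) (XT.lf (nat_lit 0) (nat_lit 6831011359) (nat_lit 304) (nat_lit 720512385) (nat_lit 380) (nat_lit 2367688277) (nat_lit 124) (nat_lit 5) (nat_lit 128) (nat_lit 5) (nat_lit 129) (nat_lit 5) (nat_lit 394) (nat_lit 324) (nat_lit 302)))) (XT.nd (nat_lit 156) (nat_lit 304) (nat_lit 0) (XT.nd (nat_lit 78) (nat_lit 304) (nat_lit 0) (XT.lf (nat_lit 0) (nat_lit 1449489865) (nat_lit 304) (nat_lit 5623710940) (nat_lit 76) (nat_lit 2995482672) (nat_lit 120) (nat_lit 5) (nat_lit 124) (nat_lit 5) (nat_lit 121) (nat_lit 5) (nat_lit 395) (nat_lit 324) (nat_lit 301)) (XT.lf (nat_lit 0) (nat_lit 1937691453) (nat_lit 304)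 (nat_lit 3379475172) (nat_lit 380) (nat_lit 4905276019) (nat_lit 116) (nat_lit 5) (nat_lit 120) (nat_lit 5) (nat_lit 121) (nat_lit 5) (nat_lit 396) (nat_lit 324) (nat_lit 300))) (XT.nd (nat_lit 78) (nat_lit 304) (nat_lit 0) (XT.lf (nat_lit 0) (nat_lit 9289283689) (nat_lit 380) (nat_lit 658189071) (nat_lit 76) (nat_lit 433703104) (nat_lit 116) (nat_lit 5) (nat_lit 121) (nat_lit 5) (nat_lit 117) (nat_lit 4) (nat_lit 397) (nat_lit 324) (nat_lit 299)) (XT.lf (nat_lit 0) (nat_lit 2812547700) (nat_lit 304) (nat_lit 3379538474) (nat_lit 76) (nat_lit 4350820104) (nat_lit 112) (nat_lit 5) (nat_lit 116) (nat_lit 5) (nat_lit 113) (nat_lit 5) (nat_lit 398) (nat_lit 324) (nat_lit 298))))) (XT.nd (nat_lit 312) (nat_lit 760) (nat_lit 0) (XT.nd (nat_lit 156) (nat_lit 228) (nat_lit 0) (XT.nd (nat_lit 78) (nat_lit 304) (nat_lit 0) (XT.lf (nat_lit 0) (nat_lit 4487877485) (nat_lit 228) (nat_lit 2303541776) (nat_lit 304) (nat_lit 3918380111)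 (nat_lit 109) (nat_lit 5) (nat_lit 112) (nat_lit 5) (nat_lit 113) (nat_lit 5) (nat_lit 399) (nat_lit 324) (nat_lit 297)) (XT.lf (nat_lit 0) (nat_lit 4733765) (nat_lit 304) (nat_lit 9198976611) (nat_lit 76) (nat_lit 1678090359) (nat_lit 105) (nat_lit 5) (nat_lit 109) (nat_lit 5) (nat_lit 106) (nat_lit 5) (nat_lit 400) (nat_lit 324) (nat_lit 296))) (XT.nd (nat_lit 78) (nat_lit 228) (nat_lit 0) (XT.lf (nat_lit 0) (nat_lit 3983285403) (nat_lit 304) (nat_lit 1280526093) (nat_lit 76) (nat_lit 5793503142) (nat_lit 105) (nat_lit 5) (nat_lit 109) (nat_lit 5) (nat_lit 106) (nat_lit 5) (nat_lit 401) (nat_lit 324) (nat_lit 295)) (XT.lf (nat_lit 0) (nat_lit 6899946586) (nat_lit 228) (nat_lit 1179846596) (nat_lit 304) (nat_lit 3158353828) (nat_lit 102) (nat_lit 5) (nat_lit 105) (nat_lit 5) (nat_lit 106) (nat_lit 5) (nat_lit 402) (nat_lit 324) (nat_lit 294)))) (XT.nd (nat_lit 156) (nat_lit 228) (nat_lit 0) (XT.nd (nat_lit 78)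 (nat_lit 228) (nat_lit 0) (XT.lf (nat_lit 0) (nat_lit 869912492) (nat_lit 304) (nat_lit 7569047384) (nat_lit 76) (nat_lit 2984836882) (nat_lit 98) (nat_lit 5) (nat_lit 102) (nat_lit 5) (nat_lit 99) (nat_lit 5) (nat_lit 403) (nat_lit 324) (nat_lit 293)) (XT.lf (nat_lit 0) (nat_lit 626595696) (nat_lit 228) (nat_lit 4323924912) (nat_lit 304) (nat_lit 6663718161) (nat_lit 95) (nat_lit 5) (nat_lit 98) (nat_lit 5) (nat_lit 99) (nat_lit 5) (nat_lit 404) (nat_lit 324) (nat_lit 292))) (XT.nd (nat_lit 78) (nat_lit 228) (nat_lit 0) (XT.lf (nat_lit 0) (nat_lit 9113393993) (nat_lit 228) (nat_lit 50507671) (nat_lit 304) (nat_lit 2646191545) (nat_lit 95) (nat_lit 5) (nat_lit 98) (nat_lit 5) (nat_lit 99) (nat_lit 5) (nat_lit 405) (nat_lit 324) (nat_lit 291)) (XT.lf (nat_lit 0) (nat_lit 1496144273) (nat_lit 228) (nat_lit 6219257681) (nat_lit 76) (nat_lit 4294998503) (nat_lit 92) (nat_lit 5) (nat_lit 95) (nat_lit 5) (nat_lit 93)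 (nat_lit 5) (nat_lit 406) (nat_lit 324) (nat_lit 290))))))) (XT.nd (nat_lit 1092) (nat_lit 1444) (nat_lit 0) (XT.nd (nat_lit 546) (nat_lit 760) (nat_lit 0) (XT.nd (nat_lit 234) (nat_lit 608) (nat_lit 0) (XT.nd (nat_lit 78) (nat_lit 228) (nat_lit 0) (XT.lf (nat_lit 0) (nat_lit 2282136524) (nat_lit 228) (nat_lit 3413014924) (nat_lit 304) (nat_lit 6521220840) (nat_lit 89) (nat_lit 5) (nat_lit 92) (nat_lit 5) (nat_lit 93) (nat_lit 5) (nat_lit 407) (nat_lit 324) (nat_lit 289)) (XT.nd (nat_lit 78) (nat_lit 228) (nat_lit 0) (XT.lf (nat_lit 0) (nat_lit 10029412320) (nat_lit 304) (nat_lit 1379845405) (nat_lit 76) (nat_lit 1018995758) (nat_lit 89) (nat_lit 5) (nat_lit 93) (nat_lit 5) (nat_lit 90) (nat_lit 4) (nat_lit 408) (nat_lit 324) (nat_lit 288)) (XT.lf (nat_lit 0) (nat_lit 1854794710) (nat_lit 228) (nat_lit 5226569139) (nat_lit 76) (nat_lit 5563293870) (nat_lit 86) (nat_lit 5) (nat_lit 89) (nat_lit 5) (nat_lit 87) (nat_lit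 5) (nat_lit 409) (nat_lit 324) (nat_lit 287)))) (XT.nd (nat_lit 156) (nat_lit 380) (nat_lit 0) (XT.nd (nat_lit 78) (nat_lit 0) (nat_lit 0) (XT.lf (nat_lit 0) (nat_lit 3581214953) (nat_lit 228) (nat_lit 2593225628) (nat_lit 304) (nat_lit 6692810491) (nat_lit 83) (nat_lit 5) (nat_lit 86) (nat_lit 5) (nat_lit 87) (nat_lit 5) (nat_lit 410) (nat_lit 324) (nat_lit 286)) (XT.lf (nat_lit 0) (nat_lit 10634978356) (nat_lit 304) (nat_lit 460868790) (nat_lit 76) (nat_lit 2000343748) (nat_lit 83) (nat_lit 5) (nat_lit 87) (nat_lit 5) (nat_lit 84) (nat_lit 4) (nat_lit 411) (nat_lit 324) (nat_lit 285))) (XT.nd (nat_lit 78) (nat_lit 152) (nat_lit 0) (XT.lf (nat_lit 0) (nat_lit 1910085078) (nat_lit 228) (nat_lit 4679880015) (nat_lit 76) (nat_lit 6740000698) (nat_lit 80) (nat_lit 5) (nat_lit 83) (nat_lit 5) (nat_lit 81) (nat_lit 5) (nat_lit 412) (nat_lit 324) (nat_lit 284)) (XT.lf (nat_lit 0) (nat_lit 4431914515) (nat_lit 152) (nat_lit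 1918891743) (nat_lit 228) (nat_lit 7219591134) (nat_lit 78) (nat_lit 5) (nat_lit 80) (nat_lit 5) (nat_lit 81) (nat_lit 5) (nat_lit 413) (nat_lit 324) (nat_lit 283))))) (XT.nd (nat_lit 234) (nat_lit 380) (nat_lit 0) (XT.nd (nat_lit 78) (nat_lit 380) (nat_lit 0) (XT.lf (nat_lit 0) (nat_lit 10941059735) (nat_lit 228) (nat_lit 35593558) (nat_lit 76) (nat_lit 2840906208) (nat_lit 78) (nat_lit 5) (nat_lit 81) (nat_lit 5) (nat_lit 79) (nat_lit 4) (nat_lit 414) (nat_lit 324) (nat_lit 282)) (XT.nd (nat_lit 78) (nat_lit 152) (nat_lit 0) (XT.lf (nat_lit 0) (nat_lit 1618136022) (nat_lit 228) (nat_lit 4682230730) (nat_lit 76) (nat_lit 7769743319) (nat_lit 75) (nat_lit 5) (nat_lit 78) (nat_lit 5) (nat_lit 76) (nat_lit 5) (nat_lit 415) (nat_lit 324) (nat_lit 281)) (XT.lf (nat_lit 0) (nat_lit 4727491385) (nat_lit 152) (nat_lit 1450766260) (nat_lit 228) (nat_lit 8151477558) (nat_lit 73) (nat_lit 5) (nat_lit 75) (nat_lit 5) (nat_lit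 76) (nat_lit 5) (nat_lit 416) (nat_lit 324) (nat_lit 280)))) (XT.nd (nat_lit 156) (nat_lit 152) (nat_lit 0) (XT.nd (nat_lit 78) (nat_lit 228) (nat_lit 0) (XT.lf (nat_lit 0) (nat_lit 10899952703) (nat_lit 228) (nat_lit 215918792) (nat_lit 76) (nat_lit 3480540610) (nat_lit 73) (nat_lit 5) (nat_lit 76) (nat_lit 5) (nat_lit 74) (nat_lit 4) (nat_lit 417) (nat_lit 324) (nat_lit 279)) (XT.lf (nat_lit 0) (nat_lit 925832580) (nat_lit 228) (nat_lit 5353341121) (nat_lit 76) (nat_lit 8590133077) (nat_lit 70) (nat_lit 5) (nat_lit 73) (nat_lit 5) (nat_lit 71) (nat_lit 5) (nat_lit 418) (nat_lit 324) (nat_lit 278))) (XT.nd (nat_lit 78) (nat_lit 0) (nat_lit 0) (XT.lf (nat_lit 0) (nat_lit 4343718201) (nat_lit 152) (nat_lit 1257479437) (nat_lit 228) (nat_lit 9548437305) (nat_lit 68) (nat_lit 5) (nat_lit 70) (nat_lit 5) (nat_lit 71) (nat_lit 5) (nat_lit 419) (nat_lit 324) (nat_lit 277)) (XT.lf (nat_lit 0) (nat_lit 10454054452) (nat_lit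 228) (nat_lit 1132091649) (nat_lit 76) (nat_lit 3851115358) (nat_lit 68) (nat_lit 5) (nat_lit 71) (nat_lit 5) (nat_lit 69) (nat_lit 4) (nat_lit 420) (nat_lit 324) (nat_lit 276)))))) (XT.nd (nat_lit 546) (nat_lit 608) (nat_lit 0) (XT.nd (nat_lit 234) (nat_lit 456) (nat_lit 0) (XT.nd (nat_lit 78) (nat_lit 228) (nat_lit 0) (XT.lf (nat_lit 0) (nat_lit 8897389202) (nat_lit 152) (nat_lit 6599692238) (nat_lit 228) (nat_lit 235103069) (nat_lit 66) (nat_lit 5) (nat_lit 68) (nat_lit 5) (nat_lit 69) (nat_lit 4) (nat_lit 421) (nat_lit 324) (nat_lit 275)) (XT.nd (nat_lit 78) (nat_lit 0) (nat_lit 0) (XT.lf (nat_lit 0) (nat_lit 3135820372) (nat_lit 152) (nat_lit 1417191347) (nat_lit 228) (nat_lit 11481953604) (nat_lit 63) (nat_lit 5) (nat_lit 65) (nat_lit 5) (nat_lit 66) (nat_lit 5) (nat_lit 422) (nat_lit 324) (nat_lit 274)) (XT.lf (nat_lit 0) (nat_lit 9534391607) (nat_lit 228) (nat_lit 2935891309) (nat_lit 76) (nat_lit 3874851230)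 (nat_lit 63) (nat_lit 5) (nat_lit 66) (nat_lit 5) (nat_lit 64) (nat_lit 4) (nat_lit 423) (nat_lit 324) (nat_lit 273)))) (XT.nd (nat_lit 156) (nat_lit 76) (nat_lit 0) (XT.nd (nat_lit 78) (nat_lit 228) (nat_lit 0) (XT.lf (nat_lit 0) (nat_lit 7362604785) (nat_lit 152) (nat_lit 7335915151) (nat_lit 228) (nat_lit 1965093570) (nat_lit 61) (nat_lit 5) (nat_lit 63) (nat_lit 5) (nat_lit 64) (nat_lit 4) (nat_lit 424) (nat_lit 324) (nat_lit 272)) (XT.lf (nat_lit 0) (nat_lit 934937110) (nat_lit 152) (nat_lit 2019473772) (nat_lit 228) (nat_lit 14036742190) (nat_lit 58) (nat_lit 5) (nat_lit 60) (nat_lit 5) (nat_lit 61) (nat_lit 5) (nat_lit 425) (nat_lit 324) (nat_lit 271))) (XT.nd (nat_lit 78) (nat_lit 76) (nat_lit 0) (XT.lf (nat_lit 0) (nat_lit 8058893727) (nat_lit 228) (nat_lit 5804308563) (nat_lit 76) (nat_lit 3462430438) (nat_lit 58) (nat_lit 5) (nat_lit 61) (nat_lit 5) (nat_lit 59) (nat_lit 4) (nat_lit 426) (nat_lit 324)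 (nat_lit 270)) (XT.lf (nat_lit 0) (nat_lit 4736699721) (nat_lit 76) (nat_lit 8595641293) (nat_lit 152) (nat_lit 4337335023) (nat_lit 57) (nat_lit 5) (nat_lit 58) (nat_lit 5) (nat_lit 59) (nat_lit 4) (nat_lit 427) (nat_lit 324) (nat_lit 269))))) (XT.nd (nat_lit 312) (nat_lit 304) (nat_lit 0) (XT.nd (nat_lit 156) (nat_lit 76) (nat_lit 0) (XT.nd (nat_lit 78) (nat_lit 152) (nat_lit 0) (XT.lf (nat_lit 0) (nat_lit 735099626) (nat_lit 152) (nat_lit 2408046254) (nat_lit 76) (nat_lit 14880397675) (nat_lit 56) (nat_lit 5) (nat_lit 58) (nat_lit 5) (nat_lit 57) (nat_lit 5) (nat_lit 428) (nat_lit 324) (nat_lit 268)) (XT.lf (nat_lit 0) (nat_lit 5930372934) (nat_lit 228) (nat_lit 9943802386) (nat_lit 76) (nat_lit 2510832017) (nat_lit 54) (nat_lit 5) (nat_lit 57) (nat_lit 5) (nat_lit 55) (nat_lit 4) (nat_lit 429) (nat_lit 324) (nat_lit 267))) (XT.nd (nat_lit 78) (nat_lit 0) (nat_lit 0) (XT.lf (nat_lit 0) (nat_lit 804525253) (nat_lit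 76) (nat_lit 10492408873) (nat_lit 152) (nat_lit 7459921712) (nat_lit 53) (nat_lit 5) (nat_lit 54) (nat_lit 5) (nat_lit 55) (nat_lit 4) (nat_lit 430) (nat_lit 324) (nat_lit 266)) (XT.lf (nat_lit 0) (nat_lit 11991485139) (nat_lit 76) (nat_lit 4885993376) (nat_lit 152) (nat_lit 2260795280) (nat_lit 53) (nat_lit 5) (nat_lit 54) (nat_lit 5) (nat_lit 55) (nat_lit 4) (nat_lit 431) (nat_lit 324) (nat_lit 265)))) (XT.nd (nat_lit 156) (nat_lit 76) (nat_lit 0) (XT.nd (nat_lit 78) (nat_lit 0) (nat_lit 0) (XT.lf (nat_lit 0) (nat_lit 3034164406) (nat_lit 228) (nat_lit 15595227611) (nat_lit 76) (nat_lit 900846113) (nat_lit 50) (nat_lit 5) (nat_lit 53) (nat_lit 5) (nat_lit 51) (nat_lit 4) (nat_lit 432) (nat_lit 324) (nat_lit 264)) (XT.lf (nat_lit 0) (nat_lit 8517446520) (nat_lit 228) (nat_lit 4593698852) (nat_lit 76) (nat_lit 6819900383) (nat_lit 50) (nat_lit 5) (nat_lit 53) (nat_lit 5) (nat_lit 51) (nat_lit 4) (nat_lit 433)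 (nat_lit 324) (nat_lit 263))) (XT.nd (nat_lit 78) (nat_lit 0) (nat_lit 0) (XT.lf (nat_lit 0) (nat_lit 6786624219) (nat_lit 76) (nat_lit 7398844059) (nat_lit 152) (nat_lit 6157805285) (nat_lit 49) (nat_lit 5) (nat_lit 50) (nat_lit 5) (nat_lit 51) (nat_lit 4) (nat_lit 434) (nat_lit 324) (nat_lit 262)) (XT.lf (nat_lit 0) (nat_lit 18519660697) (nat_lit 76) (nat_lit 1505775380) (nat_lit 152) (nat_lit 742378065) (nat_lit 49) (nat_lit 5) (nat_lit 50) (nat_lit 5) (nat_lit 51) (nat_lit 4) (nat_lit 435) (nat_lit 324) (nat_lit 261))))))))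
noncomputable def xc64 : XT := (XT.nd (nat_lit 2184) (nat_lit 912) (nat_lit 0) (XT.nd (nat_lit 1092) (nat_lit 684) (nat_lit 0) (XT.nd (nat_lit 546) (nat_lit 532) (nat_lit 0) (XT.nd (nat_lit 234) (nat_lit 304) (nat_lit 0) (XT.nd (nat_lit 78) (nat_lit 76) (nat_lit 0) (XT.lf (nat_lit 0) (nat_lit 4833307331) (nat_lit 228) (nat_lit 11790829260) (nat_lit 76) (nat_lit 4576798200) (nat_lit 46) (nat_lit 5) (nat_lit 49) (nat_lit 5) (nat_lit 47) (nat_lit 4) (nat_lit 436) (nat_lit 324) (nat_lit 260)) (XT.nd (nat_lit 78) (nat_lit 76) (nat_lit 0) (XT.lf (nat_lit 0) (nat_lit 10555697524) (nat_lit 228) (nat_lit 286114276) (nat_lit 76) (nat_lit 10805188928) (nat_lit 46) (nat_lit 5) (nat_lit 49) (nat_lit 5) (nat_lit 47) (nat_lit 4) (nat_lit 437) (nat_lit 324) (nat_lit 259)) (XT.lf (nat_lit 0) (nat_lit 11713222147) (nat_lit 76) (nat_lit 4806918260) (nat_lit 152) (nat_lit 5584199558) (nat_lit 45) (nat_lit 5) (nat_lit 46) (nat_lit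 5) (nat_lit 47) (nat_lit 4) (nat_lit 438) (nat_lit 324) (nat_lit 258)))) (XT.nd (nat_lit 156) (nat_lit 76) (nat_lit 0) (XT.nd (nat_lit 78) (nat_lit 0) (nat_lit 0) (XT.lf (nat_lit 0) (nat_lit 74478437) (nat_lit 228) (nat_lit 21138115394) (nat_lit 76) (nat_lit 1363140308) (nat_lit 42) (nat_lit 5) (nat_lit 45) (nat_lit 5) (nat_lit 43) (nat_lit 4) (nat_lit 439) (nat_lit 324) (nat_lit 257)) (XT.lf (nat_lit 0) (nat_lit 5902210748) (nat_lit 228) (nat_lit 9407095774) (nat_lit 76) (nat_lit 7746961535) (nat_lit 42) (nat_lit 5) (nat_lit 45) (nat_lit 5) (nat_lit 43) (nat_lit 4) (nat_lit 440) (nat_lit 324) (nat_lit 256))) (XT.nd (nat_lit 78) (nat_lit 0) (nat_lit 0) (XT.lf (nat_lit 0) (nat_lit 2650609010) (nat_lit 76) (nat_lit 9238838288) (nat_lit 152) (nat_lit 11662232974) (nat_lit 41) (nat_lit 5) (nat_lit 42) (nat_lit 5) (nat_lit 43) (nat_lit 4) (nat_lit 441) (nat_lit 324) (nat_lit 255)) (XT.lf (nat_lit 0) (nat_lit 15186667420)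 (nat_lit 76) (nat_lit 2924275680) (nat_lit 152) (nat_lit 5949374861) (nat_lit 41) (nat_lit 5) (nat_lit 42) (nat_lit 5) (nat_lit 43) (nat_lit 4) (nat_lit 442) (nat_lit 324) (nat_lit 254))))) (XT.nd (nat_lit 234) (nat_lit 228) (nat_lit 0) (XT.nd (nat_lit 78) (nat_lit 152) (nat_lit 0) (XT.lf (nat_lit 0) (nat_lit 3473118530) (nat_lit 152) (nat_lit 21074250995) (nat_lit 152) (nat_lit 35998987) (nat_lit 39) (nat_lit 4) (nat_lit 41) (nat_lit 5) (nat_lit 41) (nat_lit 4) (nat_lit 443) (nat_lit 324) (nat_lit 253)) (XT.nd (nat_lit 78) (nat_lit 76) (nat_lit 0) (XT.lf (nat_lit 0) (nat_lit 6016613455) (nat_lit 228) (nat_lit 8910163882) (nat_lit 76) (nat_lit 10191189775) (nat_lit 38) (nat_lit 5) (nat_lit 41) (nat_lit 5) (nat_lit 39) (nat_lit 4) (nat_lit 444) (nat_lit 324) (nat_lit 252)) (XT.lf (nat_lit 0) (nat_lit 3654164918) (nat_lit 76) (nat_lit 8592730163) (nat_lit 152) (nat_lit 13421795572) (nat_lit 37) (nat_lit 5) (nat_lit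 38) (nat_lit 5) (nat_lit 39) (nat_lit 4) (nat_lit 445) (nat_lit 324) (nat_lit 251)))) (XT.nd (nat_lit 156) (nat_lit 152) (nat_lit 0) (XT.nd (nat_lit 78) (nat_lit 76) (nat_lit 0) (XT.lf (nat_lit 0) (nat_lit 16706076669) (nat_lit 76) (nat_lit 2010095759) (nat_lit 152) (nat_lit 7518202903) (nat_lit 37) (nat_lit 5) (nat_lit 38) (nat_lit 5) (nat_lit 39) (nat_lit 4) (nat_lit 446) (nat_lit 324) (nat_lit 250)) (XT.lf (nat_lit 0) (nat_lit 3279980376) (nat_lit 76) (nat_lit 22139826521) (nat_lit 76) (nat_lit 1396017277) (nat_lit 36) (nat_lit 4) (nat_lit 37) (nat_lit 5) (nat_lit 37) (nat_lit 4) (nat_lit 447) (nat_lit 324) (nat_lit 249))) (XT.nd (nat_lit 78) (nat_lit 76) (nat_lit 0) (XT.lf (nat_lit 0) (nat_lit 4894037015) (nat_lit 152) (nat_lit 10882785494) (nat_lit 76) (nat_lit 11634079608) (nat_lit 35) (nat_lit 5) (nat_lit 37) (nat_lit 5) (nat_lit 36) (nat_lit 4) (nat_lit 448) (nat_lit 324) (nat_lit 248)) (XT.lf (nat_lit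 0) (nat_lit 2108514322) (nat_lit 76) (nat_lit 9220507724) (nat_lit 152) (nat_lit 16694868881) (nat_lit 34) (nat_lit 5) (nat_lit 35) (nat_lit 5) (nat_lit 36) (nat_lit 4) (nat_lit 449) (nat_lit 324) (nat_lit 247)))))) (XT.nd (nat_lit 546) (nat_lit 380) (nat_lit 0) (XT.nd (nat_lit 234) (nat_lit 152) (nat_lit 0) (XT.nd (nat_lit 78) (nat_lit 152) (nat_lit 0) (XT.lf (nat_lit 0) (nat_lit 15644639838) (nat_lit 76) (nat_lit 2386725256) (nat_lit 152) (nat_lit 10621676821) (nat_lit 34) (nat_lit 5) (nat_lit 35) (nat_lit 5) (nat_lit 36) (nat_lit 4) (nat_lit 450) (nat_lit 324) (nat_lit 246)) (XT.nd (nat_lit 78) (nat_lit 76) (nat_lit 0) (XT.lf (nat_lit 0) (nat_lit 177777352) (nat_lit 76) (nat_lit 24768576198) (nat_lit 76) (nat_lit 4354368343) (nat_lit 33) (nat_lit 4) (nat_lit 34) (nat_lit 5) (nat_lit 34) (nat_lit 4) (nat_lit 451) (nat_lit 324) (nat_lit 245)) (XT.lf (nat_lit 0) (nat_lit 2181437426) (nat_lit 152) (nat_lit 16049611991)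 (nat_lit 76) (nat_lit 11732534339) (nat_lit 32) (nat_lit 5) (nat_lit 34) (nat_lit 5) (nat_lit 33) (nat_lit 4) (nat_lit 452) (nat_lit 324) (nat_lit 244)))) (XT.nd (nat_lit 156) (nat_lit 76) (nat_lit 0) (XT.nd (nat_lit 78) (nat_lit 76) (nat_lit 0) (XT.lf (nat_lit 0) (nat_lit 8791997358) (nat_lit 152) (nat_lit 2692041455) (nat_lit 76) (nat_lit 19162014900) (nat_lit 32) (nat_lit 5) (nat_lit 34) (nat_lit 5) (nat_lit 33) (nat_lit 4) (nat_lit 453) (nat_lit 324) (nat_lit 243)) (XT.lf (nat_lit 0) (nat_lit 11222282738) (nat_lit 76) (nat_lit 4453649790) (nat_lit 152) (nat_lit 15670815011) (nat_lit 31) (nat_lit 5) (nat_lit 32) (nat_lit 5) (nat_lit 33) (nat_lit 4) (nat_lit 454) (nat_lit 324) (nat_lit 242))) (XT.nd (nat_lit 78) (nat_lit 76) (nat_lit 0) (XT.lf (nat_lit 0) (nat_lit 22787888144) (nat_lit 152) (nat_lit 6548522934) (nat_lit 0) (nat_lit 2731407510) (nat_lit 31) (nat_lit 5) (nat_lit 33) (nat_lit 4) (nat_lit 31) (nat_lit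 4) (nat_lit 455) (nat_lit 324) (nat_lit 241)) (XT.lf (nat_lit 0) (nat_lit 7475275672) (nat_lit 76) (nat_lit 22722085331) (nat_lit 76) (nat_lit 2610637444) (nat_lit 30) (nat_lit 4) (nat_lit 31) (nat_lit 5) (nat_lit 31) (nat_lit 4) (nat_lit 456) (nat_lit 324) (nat_lit 240))))) (XT.nd (nat_lit 234) (nat_lit 228) (nat_lit 0) (XT.nd (nat_lit 78) (nat_lit 76) (nat_lit 0) (XT.lf (nat_lit 0) (nat_lit 4210649972) (nat_lit 152) (nat_lit 11617194707) (nat_lit 76) (nat_lit 17740261683) (nat_lit 29) (nat_lit 5) (nat_lit 31) (nat_lit 5) (nat_lit 30) (nat_lit 4) (nat_lit 457) (nat_lit 324) (nat_lit 239)) (XT.nd (nat_lit 78) (nat_lit 0) (nat_lit 0) (XT.lf (nat_lit 0) (nat_lit 2472758020) (nat_lit 76) (nat_lit 8704278472) (nat_lit 152) (nat_lit 23173418949) (nat_lit 28) (nat_lit 5) (nat_lit 29) (nat_lit 5) (nat_lit 30) (nat_lit 4) (nat_lit 458) (nat_lit 324) (nat_lit 238)) (XT.lf (nat_lit 0) (nat_lit 17164687530) (nat_lit 76) (nat_lit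 1274532377) (nat_lit 152) (nat_lit 16714452202) (nat_lit 28) (nat_lit 5) (nat_lit 29) (nat_lit 5) (nat_lit 30) (nat_lit 4) (nat_lit 459) (nat_lit 324) (nat_lit 237)))) (XT.nd (nat_lit 156) (nat_lit 152) (nat_lit 0) (XT.nd (nat_lit 78) (nat_lit 76) (nat_lit 0) (XT.lf (nat_lit 0) (nat_lit 25950697359) (nat_lit 152) (nat_lit 3802694161) (nat_lit 0) (nat_lit 6226652141) (nat_lit 28) (nat_lit 5) (nat_lit 30) (nat_lit 4) (nat_lit 28) (nat_lit 4) (nat_lit 460) (nat_lit 324) (nat_lit 236)) (XT.lf (nat_lit 0) (nat_lit 10954231524) (nat_lit 76) (nat_lit 22822194134) (nat_lit 76) (nat_lit 3052114707) (nat_lit 27) (nat_lit 4) (nat_lit 28) (nat_lit 5) (nat_lit 28) (nat_lit 4) (nat_lit 461) (nat_lit 324) (nat_lit 235))) (XT.nd (nat_lit 78) (nat_lit 76) (nat_lit 0) (XT.lf (nat_lit 0) (nat_lit 4063550499) (nat_lit 152) (nat_lit 11565765319) (nat_lit 76) (nat_lit 22071691174) (nat_lit 26) (nat_lit 5) (nat_lit 28) (nat_lit 5) (nat_lit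 27) (nat_lit 4) (nat_lit 462) (nat_lit 324) (nat_lit 234)) (XT.lf (nat_lit 0) (nat_lit 3148775107) (nat_lit 76) (nat_lit 8184692674) (nat_lit 152) (nat_lit 27265210571) (nat_lit 25) (nat_lit 5) (nat_lit 26) (nat_lit 5) (nat_lit 27) (nat_lit 4) (nat_lit 463) (nat_lit 324) (nat_lit 233))))))) (XT.nd (nat_lit 1092) (nat_lit 456) (nat_lit 0) (XT.nd (nat_lit 546) (nat_lit 228) (nat_lit 0) (XT.nd (nat_lit 234) (nat_lit 152) (nat_lit 0) (XT.nd (nat_lit 78) (nat_lit 76) (nat_lit 0) (XT.lf (nat_lit 0) (nat_lit 18487888369) (nat_lit 76) (nat_lit 422545464) (nat_lit 152) (nat_lit 20610178552) (nat_lit 25) (nat_lit 5) (nat_lit 26) (nat_lit 5) (nat_lit 27) (nat_lit 4) (nat_lit 464) (nat_lit 324) (nat_lit 232)) (XT.nd (nat_lit 78) (nat_lit 76) (nat_lit 0) (XT.lf (nat_lit 0) (nat_lit 26760226950) (nat_lit 152) (nat_lit 6308767693) (nat_lit 0) (nat_lit 7399845289) (nat_lit 25) (nat_lit 5) (nat_lit 27) (nat_lit 4) (nat_lit 25)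 (nat_lit 4) (nat_lit 465) (nat_lit 324) (nat_lit 231)) (XT.lf (nat_lit 0) (nat_lit 8976482241) (nat_lit 76) (nat_lit 25933023945) (nat_lit 76) (nat_lit 6534089358) (nat_lit 24) (nat_lit 4) (nat_lit 25) (nat_lit 5) (nat_lit 25) (nat_lit 4) (nat_lit 466) (nat_lit 324) (nat_lit 230)))) (XT.nd (nat_lit 156) (nat_lit 76) (nat_lit 0) (XT.nd (nat_lit 78) (nat_lit 0) (nat_lit 0) (XT.lf (nat_lit 0) (nat_lit 876852578) (nat_lit 152) (nat_lit 17656353876) (nat_lit 76) (nat_lit 23913005169) (nat_lit 23) (nat_lit 5) (nat_lit 25) (nat_lit 5) (nat_lit 24) (nat_lit 4) (nat_lit 467) (nat_lit 324) (nat_lit 229)) (XT.lf (nat_lit 0) (nat_lit 8353107513) (nat_lit 152) (nat_lit 2515896188) (nat_lit 76) (nat_lit 32608733182) (nat_lit 23) (nat_lit 5) (nat_lit 25) (nat_lit 5) (nat_lit 24) (nat_lit 4) (nat_lit 468) (nat_lit 324) (nat_lit 228))) (XT.nd (nat_lit 78) (nat_lit 0) (nat_lit 0) (XT.lf (nat_lit 0) (nat_lit 13289627446) (nat_lit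 76) (nat_lit 2866832294) (nat_lit 152) (nat_lit 28380664766) (nat_lit 22) (nat_lit 5) (nat_lit 23) (nat_lit 5) (nat_lit 24) (nat_lit 4) (nat_lit 469) (nat_lit 324) (nat_lit 227)) (XT.lf (nat_lit 0) (nat_lit 24246343693) (nat_lit 152) (nat_lit 16107082466) (nat_lit 0) (nat_lit 5273295534) (nat_lit 22) (nat_lit 5) (nat_lit 24) (nat_lit 4) (nat_lit 22) (nat_lit 4) (nat_lit 470) (nat_lit 324) (nat_lit 226))))) (XT.nd (nat_lit 234) (nat_lit 76) (nat_lit 0) (XT.nd (nat_lit 78) (nat_lit 152) (nat_lit 0) (XT.lf (nat_lit 0) (nat_lit 32583136140) (nat_lit 152) (nat_lit 587944627) (nat_lit 0) (nat_lit 13577800513) (nat_lit 22) (nat_lit 5) (nat_lit 24) (nat_lit 4) (nat_lit 22) (nat_lit 4) (nat_lit 471) (nat_lit 324) (nat_lit 225)) (XT.nd (nat_lit 78) (nat_lit 76) (nat_lit 0) (XT.lf (nat_lit 0) (nat_lit 15656550303) (nat_lit 76) (nat_lit 25640513948) (nat_lit 76) (nat_lit 6603831265) (nat_lit 21) (nat_lit 4) (nat_lit 22) (nat_lit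 5) (nat_lit 22) (nat_lit 4) (nat_lit 472) (nat_lit 324) (nat_lit 224)) (XT.lf (nat_lit 0) (nat_lit 1144362564) (nat_lit 152) (nat_lit 16744060711) (nat_lit 76) (nat_lit 31199229615) (nat_lit 20) (nat_lit 5) (nat_lit 22) (nat_lit 5) (nat_lit 21) (nat_lit 4) (nat_lit 473) (nat_lit 324) (nat_lit 223)))) (XT.nd (nat_lit 156) (nat_lit 0) (nat_lit 0) (XT.nd (nat_lit 78) (nat_lit 76) (nat_lit 0) (XT.lf (nat_lit 0) (nat_lit 8969503890) (nat_lit 152) (nat_lit 888571427) (nat_lit 76) (nat_lit 40450659920) (nat_lit 20) (nat_lit 5) (nat_lit 22) (nat_lit 5) (nat_lit 21) (nat_lit 4) (nat_lit 474) (nat_lit 324) (nat_lit 222)) (XT.lf (nat_lit 0) (nat_lit 15705936405) (nat_lit 76) (nat_lit 1452333410) (nat_lit 152) (nat_lit 34404314856) (nat_lit 19) (nat_lit 5) (nat_lit 20) (nat_lit 5) (nat_lit 21) (nat_lit 4) (nat_lit 475) (nat_lit 324) (nat_lit 221))) (XT.nd (nat_lit 78) (nat_lit 0) (nat_lit 0) (XT.lf (nat_lit 0) (nat_lit 25648953229)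 (nat_lit 152) (nat_lit 20149798702) (nat_lit 0) (nat_lit 7053610729) (nat_lit 19) (nat_lit 5) (nat_lit 21) (nat_lit 4) (nat_lit 19) (nat_lit 4) (nat_lit 476) (nat_lit 324) (nat_lit 220)) (XT.lf (nat_lit 0) (nat_lit 34387307936) (nat_lit 152) (nat_lit 4028025444) (nat_lit 0) (nat_lit 15765712769) (nat_lit 19) (nat_lit 5) (nat_lit 21) (nat_lit 4) (nat_lit 19) (nat_lit 4) (nat_lit 477) (nat_lit 324) (nat_lit 219)))))) (XT.nd (nat_lit 546) (nat_lit 228) (nat_lit 0) (XT.nd (nat_lit 234) (nat_lit 76) (nat_lit 0) (XT.nd (nat_lit 78) (nat_lit 76) (nat_lit 0) (XT.lf (nat_lit 0) (nat_lit 12786224502) (nat_lit 76) (nat_lit 30703693184) (nat_lit 76) (nat_lit 12056609992) (nat_lit 18) (nat_lit 4) (nat_lit 19) (nat_lit 5) (nat_lit 19) (nat_lit 4) (nat_lit 478) (nat_lit 324) (nat_lit 218)) (XT.nd (nat_lit 78) (nat_lit 76) (nat_lit 0) (XT.lf (nat_lit 0) (nat_lit 30147189559) (nat_lit 76) (nat_lit 22738505454) (nat_lit 76) (nat_lit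 4066676607) (nat_lit 18) (nat_lit 4) (nat_lit 19) (nat_lit 5) (nat_lit 19) (nat_lit 4) (nat_lit 479) (nat_lit 324) (nat_lit 217)) (XT.lf (nat_lit 0) (nat_lit 4061535751) (nat_lit 152) (nat_lit 10450936179) (nat_lit 76) (nat_lit 43887324598) (nat_lit 17) (nat_lit 5) (nat_lit 19) (nat_lit 5) (nat_lit 18) (nat_lit 4) (nat_lit 480) (nat_lit 324) (nat_lit 216)))) (XT.nd (nat_lit 156) (nat_lit 0) (nat_lit 0) (XT.nd (nat_lit 78) (nat_lit 0) (nat_lit 0) (XT.lf (nat_lit 0) (nat_lit 6440998881) (nat_lit 76) (nat_lit 5953177370) (nat_lit 152) (nat_lit 47493991062) (nat_lit 16) (nat_lit 5) (nat_lit 17) (nat_lit 5) (nat_lit 18) (nat_lit 4) (nat_lit 481) (nat_lit 324) (nat_lit 215)) (XT.lf (nat_lit 0) (nat_lit 21091324761) (nat_lit 152) (nat_lit 37431050710) (nat_lit 0) (nat_lit 2895378460) (nat_lit 16) (nat_lit 5) (nat_lit 18) (nat_lit 4) (nat_lit 16) (nat_lit 4) (nat_lit 482) (nat_lit 324) (nat_lit 214))) (XT.nd (nat_lit 78)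 (nat_lit 0) (nat_lit 0) (XT.lf (nat_lit 0) (nat_lit 30089330108) (nat_lit 152) (nat_lit 21030662339) (nat_lit 0) (nat_lit 11872037988) (nat_lit 16) (nat_lit 5) (nat_lit 18) (nat_lit 4) (nat_lit 16) (nat_lit 4) (nat_lit 483) (nat_lit 324) (nat_lit 213)) (XT.lf (nat_lit 0) (nat_lit 39338829045) (nat_lit 152) (nat_lit 4174447299) (nat_lit 0) (nat_lit 21100812827) (nat_lit 16) (nat_lit 5) (nat_lit 18) (nat_lit 4) (nat_lit 16) (nat_lit 4) (nat_lit 484) (nat_lit 324) (nat_lit 212))))) (XT.nd (nat_lit 312) (nat_lit 76) (nat_lit 0) (XT.nd (nat_lit 156) (nat_lit 76) (nat_lit 0) (XT.nd (nat_lit 78) (nat_lit 0) (nat_lit 0) (XT.lf (nat_lit 0) (nat_lit 13414080159) (nat_lit 76) (nat_lit 35562767843) (nat_lit 76) (nat_lit 17304631143) (nat_lit 15) (nat_lit 4) (nat_lit 16) (nat_lit 5) (nat_lit 16) (nat_lit 4) (nat_lit 485) (nat_lit 324) (nat_lit 211)) (XT.lf (nat_lit 0) (nat_lit 31581048889) (nat_lit 76) (nat_lit 27347390318)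 (nat_lit 76) (nat_lit 9069719169) (nat_lit 15) (nat_lit 4) (nat_lit 16) (nat_lit 5) (nat_lit 16) (nat_lit 4) (nat_lit 486) (nat_lit 324) (nat_lit 210))) (XT.nd (nat_lit 78) (nat_lit 76) (nat_lit 0) (XT.lf (nat_lit 0) (nat_lit 50259253256) (nat_lit 76) (nat_lit 18902119018) (nat_lit 76) (nat_lit 605482385) (nat_lit 15) (nat_lit 4) (nat_lit 16) (nat_lit 5) (nat_lit 16) (nat_lit 4) (nat_lit 487) (nat_lit 324) (nat_lit 209)) (XT.lf (nat_lit 0) (nat_lit 7937503267) (nat_lit 152) (nat_lit 2201918093) (nat_lit 76) (nat_lit 61447357532) (nat_lit 14) (nat_lit 5) (nat_lit 16) (nat_lit 5) (nat_lit 15) (nat_lit 4) (nat_lit 488) (nat_lit 324) (nat_lit 208)))) (XT.nd (nat_lit 156) (nat_lit 0) (nat_lit 0) (XT.nd (nat_lit 78) (nat_lit 0) (nat_lit 0) (XT.lf (nat_lit 0) (nat_lit 15894947390) (nat_lit 76) (nat_lit 966074237) (nat_lit 152) (nat_lit 56596007450) (nat_lit 13) (nat_lit 5) (nat_lit 14) (nat_lit 5) (nat_lit 15) (nat_lit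 4) (nat_lit 489) (nat_lit 324) (nat_lit 207)) (XT.lf (nat_lit 0) (nat_lit 26139880868) (nat_lit 152) (nat_lit 40916804779) (nat_lit 0) (nat_lit 8324072501) (nat_lit 13) (nat_lit 5) (nat_lit 15) (nat_lit 4) (nat_lit 13) (nat_lit 4) (nat_lit 490) (nat_lit 324) (nat_lit 206))) (XT.nd (nat_lit 43680) (nat_lit 0) (nat_lit 16492) (XT.lf (nat_lit 0) (nat_lit 35690788845) (nat_lit 152) (nat_lit 23812979500) (nat_lit 0) (nat_lit 17858620684) (nat_lit 13) (nat_lit 5) (nat_lit 15) (nat_lit 4) (nat_lit 13) (nat_lit 4) (nat_lit 491) (nat_lit 324) (nat_lit 205)) (XT.lf (nat_lit 0) (nat_lit 483565767) (nat_lit 608) (nat_lit 1613314696) (nat_lit 608) (nat_lit 1613314696) (nat_lit 230) (nat_lit 4) (nat_lit 238) (nat_lit 5) (nat_lit 238) (nat_lit 4) (nat_lit 370) (nat_lit 325) (nat_lit 325))))))))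
noncomputable def xc65 : XT := (XT.nd (nat_lit 2262) (nat_lit 3952) (nat_lit 0) (XT.nd (nat_lit 1092) (nat_lit 4104) (nat_lit 0) (XT.nd (nat_lit 546) (nat_lit 2356) (nat_lit 0) (XT.nd (nat_lit 234) (nat_lit 1596) (nat_lit 0) (XT.nd (nat_lit 78) (nat_lit 1064) (nat_lit 0) (XT.lf (nat_lit 0) (nat_lit 356089389) (nat_lit 684) (nat_lit 783305784) (nat_lit 76) (nat_lit 6349020618) (nat_lit 229) (nat_lit 5) (nat_lit 238) (nat_lit 5) (nat_lit 230) (nat_lit 4) (nat_lit 371) (nat_lit 325) (nat_lit 324)) (XT.nd (nat_lit 78) (nat_lit 532) (nat_lit 0) (XT.lf (nat_lit 0) (nat_lit 3940743951) (nat_lit 608) (nat_lit 2559299003) (nat_lit 0) (nat_lit 1058738571) (nat_lit 222) (nat_lit 5) (nat_lit 230) (nat_lit 4) (nat_lit 222) (nat_lit 4) (nat_lit 372) (nat_lit 325) (nat_lit 323)) (XT.lf (nat_lit 0) (nat_lit 3279307213) (nat_lit 532) (nat_lit 4306875729) (nat_lit 532) (nat_lit 46513956) (nat_lit 215) (nat_lit 4) (nat_lit 222) (nat_lit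 5) (nat_lit 222) (nat_lit 4) (nat_lit 373) (nat_lit 325) (nat_lit 322)))) (XT.nd (nat_lit 156) (nat_lit 1064) (nat_lit 0) (XT.nd (nat_lit 78) (nat_lit 0) (nat_lit 0) (XT.lf (nat_lit 0) (nat_lit 1516955043) (nat_lit 456) (nat_lit 1988230624) (nat_lit 532) (nat_lit 4204313374) (nat_lit 208) (nat_lit 5) (nat_lit 214) (nat_lit 5) (nat_lit 215) (nat_lit 4) (nat_lit 374) (nat_lit 325) (nat_lit 321)) (XT.lf (nat_lit 0) (nat_lit 7115511176) (nat_lit 532) (nat_lit 255909762) (nat_lit 0) (nat_lit 418613157) (nat_lit 208) (nat_lit 5) (nat_lit 215) (nat_lit 4) (nat_lit 208) (nat_lit 4) (nat_lit 375) (nat_lit 325) (nat_lit 320))) (XT.nd (nat_lit 78) (nat_lit 456) (nat_lit 0) (XT.lf (nat_lit 0) (nat_lit 2886547703) (nat_lit 608) (nat_lit 2061857982) (nat_lit 76) (nat_lit 2924261562) (nat_lit 200) (nat_lit 5) (nat_lit 208) (nat_lit 5) (nat_lit 201) (nat_lit 4) (nat_lit 376) (nat_lit 325) (nat_lit 319)) (XT.lf (nat_lit 0) (nat_lit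 4065822403) (nat_lit 456) (nat_lit 2424992649) (nat_lit 532) (nat_lit 1468296494) (nat_lit 194) (nat_lit 5) (nat_lit 200) (nat_lit 5) (nat_lit 201) (nat_lit 4) (nat_lit 377) (nat_lit 325) (nat_lit 318))))) (XT.nd (nat_lit 234) (nat_lit 1292) (nat_lit 0) (XT.nd (nat_lit 78) (nat_lit 532) (nat_lit 0) (XT.lf (nat_lit 0) (nat_lit 2066936416) (nat_lit 532) (nat_lit 5770025803) (nat_lit 76) (nat_lit 211976063) (nat_lit 187) (nat_lit 5) (nat_lit 194) (nat_lit 5) (nat_lit 188) (nat_lit 4) (nat_lit 378) (nat_lit 325) (nat_lit 317)) (XT.nd (nat_lit 78) (nat_lit 76) (nat_lit 0) (XT.lf (nat_lit 0) (nat_lit 429277105) (nat_lit 456) (nat_lit 5227506687) (nat_lit 532) (nat_lit 2484925438) (nat_lit 181) (nat_lit 5) (nat_lit 187) (nat_lit 5) (nat_lit 188) (nat_lit 4) (nat_lit 379) (nat_lit 325) (nat_lit 316)) (XT.lf (nat_lit 0) (nat_lit 1064947533) (nat_lit 532) (nat_lit 1430626001) (nat_lit 76) (nat_lit 5742303186) (nat_lit 180)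 (nat_lit 5) (nat_lit 187) (nat_lit 5) (nat_lit 181) (nat_lit 5) (nat_lit 380) (nat_lit 325) (nat_lit 315)))) (XT.nd (nat_lit 156) (nat_lit 456) (nat_lit 0) (XT.nd (nat_lit 78) (nat_lit 380) (nat_lit 0) (XT.lf (nat_lit 0) (nat_lit 4636388069) (nat_lit 532) (nat_lit 3341545811) (nat_lit 76) (nat_lit 359332038) (nat_lit 174) (nat_lit 5) (nat_lit 181) (nat_lit 5) (nat_lit 175) (nat_lit 4) (nat_lit 381) (nat_lit 325) (nat_lit 314)) (XT.lf (nat_lit 0) (nat_lit 3126694954) (nat_lit 380) (nat_lit 5172250852) (nat_lit 456) (nat_lit 141196289) (nat_lit 169) (nat_lit 5) (nat_lit 174) (nat_lit 5) (nat_lit 175) (nat_lit 4) (nat_lit 382) (nat_lit 325) (nat_lit 313))) (XT.nd (nat_lit 78) (nat_lit 0) (nat_lit 0) (XT.lf (nat_lit 0) (nat_lit 1186280908) (nat_lit 380) (nat_lit 2230847071) (nat_lit 456) (nat_lit 5129163788) (nat_lit 163) (nat_lit 5) (nat_lit 168) (nat_lit 5) (nat_lit 169) (nat_lit 5) (nat_lit 383) (nat_lit 325) (nat_lit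 312)) (XT.lf (nat_lit 0) (nat_lit 7057475302) (nat_lit 456) (nat_lit 789844185) (nat_lit 76) (nat_lit 808943607) (nat_lit 163) (nat_lit 5) (nat_lit 169) (nat_lit 5) (nat_lit 164) (nat_lit 4) (nat_lit 384) (nat_lit 325) (nat_lit 311)))))) (XT.nd (nat_lit 546) (nat_lit 1824) (nat_lit 0) (XT.nd (nat_lit 234) (nat_lit 1064) (nat_lit 0) (XT.nd (nat_lit 78) (nat_lit 760) (nat_lit 0) (XT.lf (nat_lit 0) (nat_lit 1995753179) (nat_lit 456) (nat_lit 2830319887) (nat_lit 76) (nat_lit 3942953695) (nat_lit 157) (nat_lit 5) (nat_lit 163) (nat_lit 5) (nat_lit 158) (nat_lit 5) (nat_lit 385) (nat_lit 325) (nat_lit 310)) (XT.nd (nat_lit 78) (nat_lit 380) (nat_lit 0) (XT.lf (nat_lit 0) (nat_lit 3948224532) (nat_lit 380) (nat_lit 1682946971) (nat_lit 456) (nat_lit 3254592233) (nat_lit 152) (nat_lit 5) (nat_lit 157) (nat_lit 5) (nat_lit 158) (nat_lit 5) (nat_lit 386) (nat_lit 325) (nat_lit 309)) (XT.lf (nat_lit 0) (nat_lit 344347652)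 (nat_lit 380) (nat_lit 7119538809) (nat_lit 76) (nat_lit 1542571777) (nat_lit 147) (nat_lit 5) (nat_lit 152) (nat_lit 5) (nat_lit 148) (nat_lit 5) (nat_lit 387) (nat_lit 325) (nat_lit 308)))) (XT.nd (nat_lit 156) (nat_lit 684) (nat_lit 0) (XT.nd (nat_lit 78) (nat_lit 380) (nat_lit 0) (XT.lf (nat_lit 0) (nat_lit 3973428937) (nat_lit 380) (nat_lit 276075707) (nat_lit 76) (nat_lit 4880693398) (nat_lit 147) (nat_lit 5) (nat_lit 152) (nat_lit 5) (nat_lit 148) (nat_lit 5) (nat_lit 388) (nat_lit 325) (nat_lit 307)) (XT.lf (nat_lit 0) (nat_lit 6793861801) (nat_lit 380) (nat_lit 905712390) (nat_lit 456) (nat_lit 1558448349) (nat_lit 142) (nat_lit 5) (nat_lit 147) (nat_lit 5) (nat_lit 148) (nat_lit 5) (nat_lit 389) (nat_lit 325) (nat_lit 306))) (XT.nd (nat_lit 78) (nat_lit 304) (nat_lit 0) (XT.lf (nat_lit 0) (nat_lit 2101464884) (nat_lit 380) (nat_lit 4764519868) (nat_lit 76) (nat_lit 2523228198) (nat_lit 137) (nat_lit 5)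 (nat_lit 142) (nat_lit 5) (nat_lit 138) (nat_lit 5) (nat_lit 390) (nat_lit 325) (nat_lit 305)) (XT.lf (nat_lit 0) (nat_lit 2361876522) (nat_lit 304) (nat_lit 3458908519) (nat_lit 380) (nat_lit 3703679841) (nat_lit 133) (nat_lit 5) (nat_lit 137) (nat_lit 5) (nat_lit 138) (nat_lit 5) (nat_lit 391) (nat_lit 325) (nat_lit 304))))) (XT.nd (nat_lit 312) (nat_lit 836) (nat_lit 0) (XT.nd (nat_lit 156) (nat_lit 608) (nat_lit 0) (XT.nd (nat_lit 78) (nat_lit 76) (nat_lit 0) (XT.lf (nat_lit 0) (nat_lit 23397841) (nat_lit 304) (nat_lit 9602499458) (nat_lit 380) (nat_lit 38666908) (nat_lit 129) (nat_lit 5) (nat_lit 133) (nat_lit 5) (nat_lit 134) (nat_lit 4) (nat_lit 392) (nat_lit 325) (nat_lit 303)) (XT.lf (nat_lit 0) (nat_lit 3695952002) (nat_lit 380) (nat_lit 2419674932) (nat_lit 76) (nat_lit 3691200468) (nat_lit 128) (nat_lit 5) (nat_lit 133) (nat_lit 5) (nat_lit 129) (nat_lit 5) (nat_lit 393) (nat_lit 325) (nat_lit 302)))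 (XT.nd (nat_lit 78) (nat_lit 304) (nat_lit 0) (XT.lf (nat_lit 0) (nat_lit 5005174944) (nat_lit 304) (nat_lit 2512220032) (nat_lit 380) (nat_lit 2436699989) (nat_lit 124) (nat_lit 5) (nat_lit 128) (nat_lit 5) (nat_lit 129) (nat_lit 5) (nat_lit 394) (nat_lit 325) (nat_lit 301)) (XT.lf (nat_lit 0) (nat_lit 1309882251) (nat_lit 304) (nat_lit 7595464583) (nat_lit 76) (nat_lit 1200404654) (nat_lit 120) (nat_lit 5) (nat_lit 124) (nat_lit 5) (nat_lit 121) (nat_lit 5) (nat_lit 395) (nat_lit 325) (nat_lit 300)))) (XT.nd (nat_lit 156) (nat_lit 532) (nat_lit 0) (XT.nd (nat_lit 78) (nat_lit 304) (nat_lit 0) (XT.lf (nat_lit 0) (nat_lit 5123693303) (nat_lit 304) (nat_lit 126862942) (nat_lit 76) (nat_lit 5010577070) (nat_lit 120) (nat_lit 5) (nat_lit 124) (nat_lit 5) (nat_lit 121) (nat_lit 5) (nat_lit 396) (nat_lit 325) (nat_lit 299)) (XT.lf (nat_lit 0) (nat_lit 7605836824) (nat_lit 304) (nat_lit 1449741345) (nat_lit 380) (nat_lit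 1365501825) (nat_lit 116) (nat_lit 5) (nat_lit 120) (nat_lit 5) (nat_lit 121) (nat_lit 5) (nat_lit 397) (nat_lit 325) (nat_lit 298))) (XT.nd (nat_lit 78) (nat_lit 228) (nat_lit 0) (XT.lf (nat_lit 0) (nat_lit 2474202118) (nat_lit 304) (nat_lit 5658750947) (nat_lit 76) (nat_lit 2452044619) (nat_lit 112) (nat_lit 5) (nat_lit 116) (nat_lit 5) (nat_lit 113) (nat_lit 5) (nat_lit 398) (nat_lit 325) (nat_lit 297)) (XT.lf (nat_lit 0) (nat_lit 2108382500) (nat_lit 228) (nat_lit 4288048823) (nat_lit 304) (nat_lit 4357164668) (nat_lit 109) (nat_lit 5) (nat_lit 112) (nat_lit 5) (nat_lit 113) (nat_lit 5) (nat_lit 399) (nat_lit 325) (nat_lit 296))))))) (XT.nd (nat_lit 1092) (nat_lit 1596) (nat_lit 0) (XT.nd (nat_lit 546) (nat_lit 1064) (nat_lit 0) (XT.nd (nat_lit 234) (nat_lit 760) (nat_lit 0) (XT.nd (nat_lit 78) (nat_lit 532) (nat_lit 0) (XT.lf (nat_lit 0) (nat_lit 10116285027) (nat_lit 228) (nat_lit 309589339) (nat_lit 304)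 (nat_lit 501703183) (nat_lit 109) (nat_lit 5) (nat_lit 112) (nat_lit 5) (nat_lit 113) (nat_lit 5) (nat_lit 400) (nat_lit 325) (nat_lit 295)) (XT.nd (nat_lit 78) (nat_lit 228) (nat_lit 0) (XT.lf (nat_lit 0) (nat_lit 3442266916) (nat_lit 304) (nat_lit 3883200080) (nat_lit 76) (nat_lit 3779105722) (nat_lit 105) (nat_lit 5) (nat_lit 109) (nat_lit 5) (nat_lit 106) (nat_lit 5) (nat_lit 401) (nat_lit 325) (nat_lit 294)) (XT.lf (nat_lit 0) (nat_lit 4191733385) (nat_lit 228) (nat_lit 3288617035) (nat_lit 304) (nat_lit 3806812680) (nat_lit 102) (nat_lit 5) (nat_lit 105) (nat_lit 5) (nat_lit 106) (nat_lit 5) (nat_lit 402) (nat_lit 325) (nat_lit 293)))) (XT.nd (nat_lit 156) (nat_lit 456) (nat_lit 0) (XT.nd (nat_lit 78) (nat_lit 0) (nat_lit 0) (XT.lf (nat_lit 0) (nat_lit 153546020) (nat_lit 304) (nat_lit 10458866251) (nat_lit 76) (nat_lit 863009396) (nat_lit 98) (nat_lit 5) (nat_lit 102) (nat_lit 5) (nat_lit 99) (nat_lit 5)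 (nat_lit 403) (nat_lit 325) (nat_lit 292)) (XT.lf (nat_lit 0) (nat_lit 4196100529) (nat_lit 304) (nat_lit 2328518352) (nat_lit 76) (nat_lit 5142391238) (nat_lit 98) (nat_lit 5) (nat_lit 102) (nat_lit 5) (nat_lit 99) (nat_lit 5) (nat_lit 404) (nat_lit 325) (nat_lit 291))) (XT.nd (nat_lit 78) (nat_lit 228) (nat_lit 0) (XT.lf (nat_lit 0) (nat_lit 6059390095) (nat_lit 228) (nat_lit 2295660295) (nat_lit 304) (nat_lit 3509451795) (nat_lit 95) (nat_lit 5) (nat_lit 98) (nat_lit 5) (nat_lit 99) (nat_lit 5) (nat_lit 405) (nat_lit 325) (nat_lit 290)) (XT.lf (nat_lit 0) (nat_lit 565671072) (nat_lit 228) (nat_lit 9468087559) (nat_lit 76) (nat_lit 2033825917) (nat_lit 92) (nat_lit 5) (nat_lit 95) (nat_lit 5) (nat_lit 93) (nat_lit 5) (nat_lit 406) (nat_lit 325) (nat_lit 289))))) (XT.nd (nat_lit 234) (nat_lit 608) (nat_lit 0) (XT.nd (nat_lit 78) (nat_lit 456) (nat_lit 0) (XT.lf (nat_lit 0) (nat_lit 4711964138) (nat_lit 228) (nat_lit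 1063082341) (nat_lit 76) (nat_lit 6500095616) (nat_lit 92) (nat_lit 5) (nat_lit 95) (nat_lit 5) (nat_lit 93) (nat_lit 5) (nat_lit 407) (nat_lit 325) (nat_lit 288)) (XT.nd (nat_lit 78) (nat_lit 228) (nat_lit 0) (XT.lf (nat_lit 0) (nat_lit 7640973758) (nat_lit 228) (nat_lit 1354464727) (nat_lit 304) (nat_lit 3493112570) (nat_lit 89) (nat_lit 5) (nat_lit 92) (nat_lit 5) (nat_lit 93) (nat_lit 5) (nat_lit 408) (nat_lit 325) (nat_lit 287)) (XT.lf (nat_lit 0) (nat_lit 704039176) (nat_lit 228) (nat_lit 8852919693) (nat_lit 76) (nat_lit 3150651034) (nat_lit 86) (nat_lit 5) (nat_lit 89) (nat_lit 5) (nat_lit 87) (nat_lit 5) (nat_lit 409) (nat_lit 325) (nat_lit 286)))) (XT.nd (nat_lit 156) (nat_lit 380) (nat_lit 0) (XT.nd (nat_lit 78) (nat_lit 228) (nat_lit 0) (XT.lf (nat_lit 0) (nat_lit 4959664701) (nat_lit 228) (nat_lit 165660588) (nat_lit 76) (nat_lit 7806802391) (nat_lit 86) (nat_lit 5) (nat_lit 89) (nat_lit 5) (nat_lit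 87) (nat_lit 5) (nat_lit 410) (nat_lit 325) (nat_lit 285)) (XT.lf (nat_lit 0) (nat_lit 8855203051) (nat_lit 228) (nat_lit 514548541) (nat_lit 304) (nat_lit 3792833140) (nat_lit 83) (nat_lit 5) (nat_lit 86) (nat_lit 5) (nat_lit 87) (nat_lit 5) (nat_lit 411) (nat_lit 325) (nat_lit 284))) (XT.nd (nat_lit 78) (nat_lit 152) (nat_lit 0) (XT.lf (nat_lit 0) (nat_lit 532083945) (nat_lit 228) (nat_lit 8703265425) (nat_lit 76) (nat_lit 4163568717) (nat_lit 80) (nat_lit 5) (nat_lit 83) (nat_lit 5) (nat_lit 81) (nat_lit 5) (nat_lit 412) (nat_lit 325) (nat_lit 283)) (XT.lf (nat_lit 0) (nat_lit 278040916) (nat_lit 152) (nat_lit 4626354243) (nat_lit 228) (nat_lit 8737010217) (nat_lit 78) (nat_lit 5) (nat_lit 80) (nat_lit 5) (nat_lit 81) (nat_lit 5) (nat_lit 413) (nat_lit 325) (nat_lit 282)))))) (XT.nd (nat_lit 546) (nat_lit 836) (nat_lit 0) (XT.nd (nat_lit 234) (nat_lit 380) (nat_lit 0) (XT.nd (nat_lit 78) (nat_lit 380) (nat_lit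 0) (XT.lf (nat_lit 0) (nat_lit 9440301296) (nat_lit 228) (nat_lit 4284042636) (nat_lit 76) (nat_lit 165857264) (nat_lit 78) (nat_lit 5) (nat_lit 81) (nat_lit 5) (nat_lit 79) (nat_lit 4) (nat_lit 414) (nat_lit 325) (nat_lit 281)) (XT.nd (nat_lit 78) (nat_lit 152) (nat_lit 0) (XT.lf (nat_lit 0) (nat_lit 5125988) (nat_lit 228) (nat_lit 9123259018) (nat_lit 76) (nat_lit 5016932974) (nat_lit 75) (nat_lit 5) (nat_lit 78) (nat_lit 5) (nat_lit 76) (nat_lit 5) (nat_lit 415) (nat_lit 325) (nat_lit 280)) (XT.lf (nat_lit 0) (nat_lit 148892530) (nat_lit 152) (nat_lit 4344916814) (nat_lit 228) (nat_lit 9913279926) (nat_lit 73) (nat_lit 5) (nat_lit 75) (nat_lit 5) (nat_lit 76) (nat_lit 5) (nat_lit 416) (nat_lit 325) (nat_lit 279)))) (XT.nd (nat_lit 156) (nat_lit 228) (nat_lit 0) (XT.nd (nat_lit 78) (nat_lit 152) (nat_lit 0) (XT.lf (nat_lit 0) (nat_lit 9160399209) (nat_lit 228) (nat_lit 4892421028) (nat_lit 76) (nat_lit 622602014)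 (nat_lit 73) (nat_lit 5) (nat_lit 76) (nat_lit 5) (nat_lit 74) (nat_lit 4) (nat_lit 417) (nat_lit 325) (nat_lit 278)) (XT.lf (nat_lit 0) (nat_lit 4707845503) (nat_lit 152) (nat_lit 9293639945) (nat_lit 228) (nat_lit 949290577) (nat_lit 71) (nat_lit 5) (nat_lit 73) (nat_lit 5) (nat_lit 74) (nat_lit 4) (nat_lit 418) (nat_lit 325) (nat_lit 277))) (XT.nd (nat_lit 78) (nat_lit 152) (nat_lit 0) (XT.lf (nat_lit 0) (nat_lit 3676416738) (nat_lit 228) (nat_lit 668536691) (nat_lit 76) (nat_lit 10888472644) (nat_lit 70) (nat_lit 5) (nat_lit 73) (nat_lit 5) (nat_lit 71) (nat_lit 5) (nat_lit 419) (nat_lit 325) (nat_lit 276)) (XT.lf (nat_lit 0) (nat_lit 8466673733) (nat_lit 228) (nat_lit 6259052961) (nat_lit 76) (nat_lit 797206488) (nat_lit 68) (nat_lit 5) (nat_lit 71) (nat_lit 5) (nat_lit 69) (nat_lit 4) (nat_lit 420) (nat_lit 325) (nat_lit 275))))) (XT.nd (nat_lit 312) (nat_lit 304) (nat_lit 0) (XT.nd (nat_lit 156) (nat_lit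 304) (nat_lit 0) (XT.nd (nat_lit 78) (nat_lit 76) (nat_lit 0) (XT.lf (nat_lit 0) (nat_lit 3621696579) (nat_lit 152) (nat_lit 9811755077) (nat_lit 228) (nat_lit 2386694568) (nat_lit 66) (nat_lit 5) (nat_lit 68) (nat_lit 5) (nat_lit 69) (nat_lit 4) (nat_lit 421) (nat_lit 325) (nat_lit 274)) (XT.lf (nat_lit 0) (nat_lit 2387782015) (nat_lit 228) (nat_lit 2314186870) (nat_lit 76) (nat_lit 11423249710) (nat_lit 65) (nat_lit 5) (nat_lit 68) (nat_lit 5) (nat_lit 66) (nat_lit 5) (nat_lit 422) (nat_lit 325) (nat_lit 273))) (XT.nd (nat_lit 78) (nat_lit 152) (nat_lit 0) (XT.lf (nat_lit 0) (nat_lit 7289305193) (nat_lit 228) (nat_lit 8537047278) (nat_lit 76) (nat_lit 611432956) (nat_lit 63) (nat_lit 5) (nat_lit 66) (nat_lit 5) (nat_lit 64) (nat_lit 4) (nat_lit 423) (nat_lit 325) (nat_lit 272)) (XT.lf (nat_lit 0) (nat_lit 1604467517) (nat_lit 152) (nat_lit 10768985484) (nat_lit 228) (nat_lit 4385213442) (nat_lit 61) (nat_lit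 5) (nat_lit 63) (nat_lit 5) (nat_lit 64) (nat_lit 4) (nat_lit 424) (nat_lit 325) (nat_lit 271)))) (XT.nd (nat_lit 156) (nat_lit 76) (nat_lit 0) (XT.nd (nat_lit 78) (nat_lit 152) (nat_lit 0) (XT.lf (nat_lit 0) (nat_lit 547948871) (nat_lit 228) (nat_lit 4957906575) (nat_lit 76) (nat_lit 11582057605) (nat_lit 60) (nat_lit 5) (nat_lit 63) (nat_lit 5) (nat_lit 61) (nat_lit 5) (nat_lit 425) (nat_lit 325) (nat_lit 270)) (XT.lf (nat_lit 0) (nat_lit 5520536985) (nat_lit 152) (nat_lit 25052912) (nat_lit 228) (nat_lit 11880010117) (nat_lit 58) (nat_lit 5) (nat_lit 60) (nat_lit 5) (nat_lit 61) (nat_lit 5) (nat_lit 426) (nat_lit 325) (nat_lit 269))) (XT.nd (nat_lit 78) (nat_lit 76) (nat_lit 0) (XT.lf (nat_lit 0) (nat_lit 10749496126) (nat_lit 228) (nat_lit 1499714086) (nat_lit 76) (nat_lit 5522521334) (nat_lit 58) (nat_lit 5) (nat_lit 61) (nat_lit 5) (nat_lit 59) (nat_lit 4) (nat_lit 427) (nat_lit 325) (nat_lit 268)) (XT.lf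 (nat_lit 0) (nat_lit 9313615390) (nat_lit 76) (nat_lit 6838836285) (nat_lit 152) (nat_lit 1974511308) (nat_lit 57) (nat_lit 5) (nat_lit 58) (nat_lit 5) (nat_lit 59) (nat_lit 4) (nat_lit 428) (nat_lit 325) (nat_lit 267))))))))
noncomputable def xc66 : XT := (XT.nd (nat_lit 2184) (nat_lit 1140) (nat_lit 0) (XT.nd (nat_lit 1092) (nat_lit 760) (nat_lit 0) (XT.nd (nat_lit 546) (nat_lit 608) (nat_lit 0) (XT.nd (nat_lit 234) (nat_lit 304) (nat_lit 0) (XT.nd (nat_lit 78) (nat_lit 76) (nat_lit 0) (XT.lf (nat_lit 0) (nat_lit 1910046687) (nat_lit 152) (nat_lit 1238570788) (nat_lit 228) (nat_lit 15343700748) (nat_lit 54) (nat_lit 5) (nat_lit 56) (nat_lit 5) (nat_lit 57) (nat_lit 5) (nat_lit 429) (nat_lit 325) (nat_lit 266)) (XT.nd (nat_lit 78) (nat_lit 76) (nat_lit 0) (XT.lf (nat_lit 0) (nat_lit 8472591424) (nat_lit 228) (nat_lit 5880074770) (nat_lit 76) (nat_lit 4512779918) (nat_lit 54) (nat_lit 5) (nat_lit 57) (nat_lit 5)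 (nat_lit 55) (nat_lit 4) (nat_lit 430) (nat_lit 325) (nat_lit 265)) (XT.lf (nat_lit 0) (nat_lit 5147937584) (nat_lit 76) (nat_lit 8824868077) (nat_lit 152) (nat_lit 5276470029) (nat_lit 53) (nat_lit 5) (nat_lit 54) (nat_lit 5) (nat_lit 55) (nat_lit 4) (nat_lit 431) (nat_lit 325) (nat_lit 264)))) (XT.nd (nat_lit 156) (nat_lit 76) (nat_lit 0) (XT.nd (nat_lit 78) (nat_lit 152) (nat_lit 0) (XT.lf (nat_lit 0) (nat_lit 8349957) (nat_lit 152) (nat_lit 3099563114) (nat_lit 76) (nat_lit 16536267819) (nat_lit 52) (nat_lit 5) (nat_lit 54) (nat_lit 5) (nat_lit 53) (nat_lit 5) (nat_lit 432) (nat_lit 325) (nat_lit 263)) (XT.lf (nat_lit 0) (nat_lit 5408902647) (nat_lit 228) (nat_lit 11815861403) (nat_lit 76) (nat_lit 2822707919) (nat_lit 50) (nat_lit 5) (nat_lit 53) (nat_lit 5) (nat_lit 51) (nat_lit 4) (nat_lit 433) (nat_lit 325) (nat_lit 262))) (XT.nd (nat_lit 78) (nat_lit 76) (nat_lit 0) (XT.lf (nat_lit 0) (nat_lit 10990167302)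 (nat_lit 228) (nat_lit 607992307) (nat_lit 76) (nat_lit 8864144407) (nat_lit 50) (nat_lit 5) (nat_lit 53) (nat_lit 5) (nat_lit 51) (nat_lit 4) (nat_lit 434) (nat_lit 325) (nat_lit 261)) (XT.lf (nat_lit 0) (nat_lit 11073313814) (nat_lit 76) (nat_lit 5729586502) (nat_lit 152) (nat_lit 4084762804) (nat_lit 49) (nat_lit 5) (nat_lit 50) (nat_lit 5) (nat_lit 51) (nat_lit 4) (nat_lit 435) (nat_lit 325) (nat_lit 260))))) (XT.nd (nat_lit 234) (nat_lit 304) (nat_lit 0) (XT.nd (nat_lit 78) (nat_lit 76) (nat_lit 0) (XT.lf (nat_lit 0) (nat_lit 1419211111) (nat_lit 228) (nat_lit 19596344210) (nat_lit 76) (nat_lit 310301719) (nat_lit 46) (nat_lit 5) (nat_lit 49) (nat_lit 5) (nat_lit 47) (nat_lit 4) (nat_lit 436) (nat_lit 325) (nat_lit 259)) (XT.nd (nat_lit 78) (nat_lit 76) (nat_lit 0) (XT.lf (nat_lit 0) (nat_lit 7120806392) (nat_lit 228) (nat_lit 8130588419) (nat_lit 76) (nat_lit 6521153369) (nat_lit 46) (nat_lit 5) (nat_lit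 49) (nat_lit 5) (nat_lit 47) (nat_lit 4) (nat_lit 437) (nat_lit 325) (nat_lit 258)) (XT.lf (nat_lit 0) (nat_lit 3674050346) (nat_lit 76) (nat_lit 9313732255) (nat_lit 152) (nat_lit 9245030131) (nat_lit 45) (nat_lit 5) (nat_lit 46) (nat_lit 5) (nat_lit 47) (nat_lit 4) (nat_lit 438) (nat_lit 325) (nat_lit 257)))) (XT.nd (nat_lit 156) (nat_lit 76) (nat_lit 0) (XT.nd (nat_lit 78) (nat_lit 228) (nat_lit 0) (XT.lf (nat_lit 0) (nat_lit 15923466495) (nat_lit 76) (nat_lit 3148883314) (nat_lit 152) (nat_lit 3633290556) (nat_lit 45) (nat_lit 5) (nat_lit 46) (nat_lit 5) (nat_lit 47) (nat_lit 4) (nat_lit 439) (nat_lit 325) (nat_lit 256)) (XT.lf (nat_lit 0) (nat_lit 2147819137) (nat_lit 228) (nat_lit 17865830636) (nat_lit 76) (nat_lit 3177099113) (nat_lit 42) (nat_lit 5) (nat_lit 45) (nat_lit 5) (nat_lit 43) (nat_lit 4) (nat_lit 440) (nat_lit 325) (nat_lit 255))) (XT.nd (nat_lit 78) (nat_lit 76) (nat_lit 0) (XT.lf (nat_lit 0)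 (nat_lit 8090059933) (nat_lit 228) (nat_lit 5896659890) (nat_lit 76) (nat_lit 9700792319) (nat_lit 42) (nat_lit 5) (nat_lit 45) (nat_lit 5) (nat_lit 43) (nat_lit 4) (nat_lit 441) (nat_lit 325) (nat_lit 254)) (XT.lf (nat_lit 0) (nat_lit 6485593207) (nat_lit 76) (nat_lit 7748853716) (nat_lit 152) (nat_lit 9964017307) (nat_lit 41) (nat_lit 5) (nat_lit 42) (nat_lit 5) (nat_lit 43) (nat_lit 4) (nat_lit 442) (nat_lit 325) (nat_lit 253)))))) (XT.nd (nat_lit 546) (nat_lit 304) (nat_lit 0) (XT.nd (nat_lit 234) (nat_lit 228) (nat_lit 0) (XT.nd (nat_lit 78) (nat_lit 228) (nat_lit 0) (XT.lf (nat_lit 0) (nat_lit 19288350866) (nat_lit 76) (nat_lit 1296324610) (nat_lit 152) (nat_lit 4139426343) (nat_lit 41) (nat_lit 5) (nat_lit 42) (nat_lit 5) (nat_lit 43) (nat_lit 4) (nat_lit 443) (nat_lit 325) (nat_lit 252)) (XT.nd (nat_lit 78) (nat_lit 0) (nat_lit 0) (XT.lf (nat_lit 0) (nat_lit 1908105599) (nat_lit 228) (nat_lit 18052931595)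 (nat_lit 76) (nat_lit 5301402198) (nat_lit 38) (nat_lit 5) (nat_lit 41) (nat_lit 5) (nat_lit 39) (nat_lit 4) (nat_lit 444) (nat_lit 325) (nat_lit 251)) (XT.lf (nat_lit 0) (nat_lit 8084938085) (nat_lit 228) (nat_lit 5594682913) (nat_lit 76) (nat_lit 12135146419) (nat_lit 38) (nat_lit 5) (nat_lit 41) (nat_lit 5) (nat_lit 39) (nat_lit 4) (nat_lit 445) (nat_lit 325) (nat_lit 250)))) (XT.nd (nat_lit 156) (nat_lit 152) (nat_lit 0) (XT.nd (nat_lit 78) (nat_lit 0) (nat_lit 0) (XT.lf (nat_lit 0) (nat_lit 7311450400) (nat_lit 76) (nat_lit 7169794814) (nat_lit 152) (nat_lit 11901396967) (nat_lit 37) (nat_lit 5) (nat_lit 38) (nat_lit 5) (nat_lit 39) (nat_lit 4) (nat_lit 446) (nat_lit 325) (nat_lit 249)) (XT.lf (nat_lit 0) (nat_lit 20651589585) (nat_lit 76) (nat_lit 438634308) (nat_lit 152) (nat_lit 5876707755) (nat_lit 37) (nat_lit 5) (nat_lit 38) (nat_lit 5) (nat_lit 39) (nat_lit 4) (nat_lit 447) (nat_lit 325) (nat_lit 248)))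 (XT.nd (nat_lit 78) (nat_lit 0) (nat_lit 0) (XT.lf (nat_lit 0) (nat_lit 416311926) (nat_lit 152) (nat_lit 20742689032) (nat_lit 76) (nat_lit 6406835733) (nat_lit 35) (nat_lit 5) (nat_lit 37) (nat_lit 5) (nat_lit 36) (nat_lit 4) (nat_lit 448) (nat_lit 325) (nat_lit 247)) (XT.lf (nat_lit 0) (nat_lit 6813820414) (nat_lit 152) (nat_lit 7825377672) (nat_lit 76) (nat_lit 13540752582) (nat_lit 35) (nat_lit 5) (nat_lit 37) (nat_lit 5) (nat_lit 36) (nat_lit 4) (nat_lit 449) (nat_lit 325) (nat_lit 246))))) (XT.nd (nat_lit 234) (nat_lit 152) (nat_lit 0) (XT.nd (nat_lit 78) (nat_lit 76) (nat_lit 0) (XT.lf (nat_lit 0) (nat_lit 5522485732) (nat_lit 76) (nat_lit 7899938717) (nat_lit 152) (nat_lit 15389490221) (nat_lit 34) (nat_lit 5) (nat_lit 35) (nat_lit 5) (nat_lit 36) (nat_lit 4) (nat_lit 450) (nat_lit 325) (nat_lit 245)) (XT.nd (nat_lit 78) (nat_lit 76) (nat_lit 0) (XT.lf (nat_lit 0) (nat_lit 19367101344) (nat_lit 76) (nat_lit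 907662705) (nat_lit 152) (nat_lit 9186710886) (nat_lit 34) (nat_lit 5) (nat_lit 35) (nat_lit 5) (nat_lit 36) (nat_lit 4) (nat_lit 451) (nat_lit 325) (nat_lit 244)) (XT.lf (nat_lit 0) (nat_lit 3440236516) (nat_lit 76) (nat_lit 23953160754) (nat_lit 76) (nat_lit 2735304650) (nat_lit 33) (nat_lit 4) (nat_lit 34) (nat_lit 5) (nat_lit 34) (nat_lit 4) (nat_lit 452) (nat_lit 325) (nat_lit 243)))) (XT.nd (nat_lit 156) (nat_lit 0) (nat_lit 0) (XT.nd (nat_lit 78) (nat_lit 76) (nat_lit 0) (XT.lf (nat_lit 0) (nat_lit 3912464914) (nat_lit 152) (nat_lit 13335616529) (nat_lit 76) (nat_lit 13564364968) (nat_lit 32) (nat_lit 5) (nat_lit 34) (nat_lit 5) (nat_lit 33) (nat_lit 4) (nat_lit 453) (nat_lit 325) (nat_lit 242)) (XT.lf (nat_lit 0) (nat_lit 336168639) (nat_lit 76) (nat_lit 10339892298) (nat_lit 152) (nat_lit 20840690204) (nat_lit 31) (nat_lit 5) (nat_lit 32) (nat_lit 5) (nat_lit 33) (nat_lit 4) (nat_lit 454) (nat_lit 325)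 (nat_lit 241))) (XT.nd (nat_lit 78) (nat_lit 0) (nat_lit 0) (XT.lf (nat_lit 0) (nat_lit 14630946899) (nat_lit 76) (nat_lit 3114766516) (nat_lit 152) (nat_lit 14493378576) (nat_lit 31) (nat_lit 5) (nat_lit 32) (nat_lit 5) (nat_lit 33) (nat_lit 4) (nat_lit 455) (nat_lit 325) (nat_lit 240)) (XT.lf (nat_lit 0) (nat_lit 25038182470) (nat_lit 152) (nat_lit 3729542551) (nat_lit 0) (nat_lit 4215057629) (nat_lit 31) (nat_lit 5) (nat_lit 33) (nat_lit 4) (nat_lit 31) (nat_lit 4) (nat_lit 456) (nat_lit 325) (nat_lit 239))))))) (XT.nd (nat_lit 1092) (nat_lit 456) (nat_lit 0) (XT.nd (nat_lit 546) (nat_lit 304) (nat_lit 0) (XT.nd (nat_lit 234) (nat_lit 152) (nat_lit 0) (XT.nd (nat_lit 78) (nat_lit 152) (nat_lit 0) (XT.lf (nat_lit 0) (nat_lit 10685406914) (nat_lit 76) (nat_lit 21967603832) (nat_lit 76) (nat_lit 1092667083) (nat_lit 30) (nat_lit 4) (nat_lit 31) (nat_lit 5) (nat_lit 31) (nat_lit 4) (nat_lit 457) (nat_lit 325) (nat_lit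 238)) (XT.nd (nat_lit 78) (nat_lit 76) (nat_lit 0) (XT.lf (nat_lit 0) (nat_lit 5856522992) (nat_lit 152) (nat_lit 9036497896) (nat_lit 76) (nat_lit 19636477299) (nat_lit 29) (nat_lit 5) (nat_lit 31) (nat_lit 5) (nat_lit 30) (nat_lit 4) (nat_lit 458) (nat_lit 325) (nat_lit 237)) (XT.lf (nat_lit 0) (nat_lit 5447435642) (nat_lit 76) (nat_lit 7568087957) (nat_lit 152) (nat_lit 22320287352) (nat_lit 28) (nat_lit 5) (nat_lit 29) (nat_lit 5) (nat_lit 30) (nat_lit 4) (nat_lit 459) (nat_lit 325) (nat_lit 236)))) (XT.nd (nat_lit 156) (nat_lit 152) (nat_lit 0) (XT.nd (nat_lit 78) (nat_lit 0) (nat_lit 0) (XT.lf (nat_lit 0) (nat_lit 20452212223) (nat_lit 152) (nat_lit 15669218332) (nat_lit 0) (nat_lit 42996204) (nat_lit 28) (nat_lit 5) (nat_lit 30) (nat_lit 4) (nat_lit 28) (nat_lit 4) (nat_lit 460) (nat_lit 325) (nat_lit 235)) (XT.lf (nat_lit 0) (nat_lit 28158766678) (nat_lit 152) (nat_lit 1152875323) (nat_lit 0) (nat_lit 7704857253)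 (nat_lit 28) (nat_lit 5) (nat_lit 30) (nat_lit 4) (nat_lit 28) (nat_lit 4) (nat_lit 461) (nat_lit 325) (nat_lit 234))) (XT.nd (nat_lit 78) (nat_lit 76) (nat_lit 0) (XT.lf (nat_lit 0) (nat_lit 14019661077) (nat_lit 76) (nat_lit 22184276238) (nat_lit 76) (nat_lit 1686975156) (nat_lit 27) (nat_lit 4) (nat_lit 28) (nat_lit 5) (nat_lit 28) (nat_lit 4) (nat_lit 462) (nat_lit 325) (nat_lit 233)) (XT.lf (nat_lit 0) (nat_lit 5572134170) (nat_lit 152) (nat_lit 9227996539) (nat_lit 76) (nat_lit 23990251944) (nat_lit 26) (nat_lit 5) (nat_lit 28) (nat_lit 5) (nat_lit 27) (nat_lit 4) (nat_lit 463) (nat_lit 325) (nat_lit 232))))) (XT.nd (nat_lit 234) (nat_lit 228) (nat_lit 0) (XT.nd (nat_lit 78) (nat_lit 0) (nat_lit 0) (XT.lf (nat_lit 0) (nat_lit 5901659102) (nat_lit 76) (nat_lit 7143655580) (nat_lit 152) (nat_lit 26670116080) (nat_lit 25) (nat_lit 5) (nat_lit 26) (nat_lit 5) (nat_lit 27) (nat_lit 4) (nat_lit 464) (nat_lit 325)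 (nat_lit 231)) (XT.nd (nat_lit 78) (nat_lit 0) (nat_lit 0) (XT.lf (nat_lit 0) (nat_lit 20817456667) (nat_lit 152) (nat_lit 19050530555) (nat_lit 0) (nat_lit 798001117) (nat_lit 25) (nat_lit 5) (nat_lit 27) (nat_lit 4) (nat_lit 25) (nat_lit 4) (nat_lit 465) (nat_lit 325) (nat_lit 230)) (XT.lf (nat_lit 0) (nat_lit 28867784669) (nat_lit 152) (nat_lit 3965029207) (nat_lit 0) (nat_lit 8810899095) (nat_lit 25) (nat_lit 5) (nat_lit 27) (nat_lit 4) (nat_lit 25) (nat_lit 4) (nat_lit 466) (nat_lit 325) (nat_lit 229)))) (XT.nd (nat_lit 156) (nat_lit 76) (nat_lit 0) (XT.nd (nat_lit 78) (nat_lit 76) (nat_lit 0) (XT.lf (nat_lit 0) (nat_lit 11753944878) (nat_lit 76) (nat_lit 25493704997) (nat_lit 76) (nat_lit 5400479593) (nat_lit 24) (nat_lit 4) (nat_lit 25) (nat_lit 5) (nat_lit 25) (nat_lit 4) (nat_lit 467) (nat_lit 325) (nat_lit 228)) (XT.lf (nat_lit 0) (nat_lit 2168873231) (nat_lit 152) (nat_lit 15725694131) (nat_lit 76) (nat_lit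 25787013736) (nat_lit 23) (nat_lit 5) (nat_lit 25) (nat_lit 5) (nat_lit 24) (nat_lit 4) (nat_lit 468) (nat_lit 325) (nat_lit 227))) (XT.nd (nat_lit 78) (nat_lit 76) (nat_lit 0) (XT.lf (nat_lit 0) (nat_lit 9832550326) (nat_lit 152) (nat_lit 202683403) (nat_lit 76) (nat_lit 34709925674) (nat_lit 23) (nat_lit 5) (nat_lit 25) (nat_lit 5) (nat_lit 24) (nat_lit 4) (nat_lit 469) (nat_lit 325) (nat_lit 226)) (XT.lf (nat_lit 0) (nat_lit 16053587414) (nat_lit 76) (nat_lit 1803360404) (nat_lit 152) (nat_lit 27979773781) (nat_lit 22) (nat_lit 5) (nat_lit 23) (nat_lit 5) (nat_lit 24) (nat_lit 4) (nat_lit 470) (nat_lit 325) (nat_lit 225)))))) (XT.nd (nat_lit 546) (nat_lit 228) (nat_lit 0) (XT.nd (nat_lit 234) (nat_lit 152) (nat_lit 0) (XT.nd (nat_lit 78) (nat_lit 76) (nat_lit 0) (XT.lf (nat_lit 0) (nat_lit 26164844450) (nat_lit 152) (nat_lit 14269189783) (nat_lit 0) (nat_lit 6525714231) (nat_lit 22) (nat_lit 5) (nat_lit 24)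 (nat_lit 4) (nat_lit 22) (nat_lit 4) (nat_lit 471) (nat_lit 325) (nat_lit 224)) (XT.nd (nat_lit 78) (nat_lit 0) (nat_lit 0) (XT.lf (nat_lit 0) (nat_lit 1680713970) (nat_lit 76) (nat_lit 33052490214) (nat_lit 76) (nat_lit 13382925959) (nat_lit 21) (nat_lit 4) (nat_lit 22) (nat_lit 5) (nat_lit 22) (nat_lit 4) (nat_lit 472) (nat_lit 325) (nat_lit 223)) (XT.lf (nat_lit 0) (nat_lit 18357653826) (nat_lit 76) (nat_lit 25322507835) (nat_lit 76) (nat_lit 5623395974) (nat_lit 21) (nat_lit 4) (nat_lit 22) (nat_lit 5) (nat_lit 22) (nat_lit 4) (nat_lit 473) (nat_lit 325) (nat_lit 222)))) (XT.nd (nat_lit 156) (nat_lit 0) (nat_lit 0) (XT.nd (nat_lit 78) (nat_lit 76) (nat_lit 0) (XT.lf (nat_lit 0) (nat_lit 2300589042) (nat_lit 152) (nat_lit 15057603102) (nat_lit 76) (nat_lit 33168396534) (nat_lit 20) (nat_lit 5) (nat_lit 22) (nat_lit 5) (nat_lit 21) (nat_lit 4) (nat_lit 474) (nat_lit 325) (nat_lit 221)) (XT.lf (nat_lit 0) (nat_lit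 1233877395) (nat_lit 76) (nat_lit 9105791425) (nat_lit 152) (nat_lit 41445260223) (nat_lit 19) (nat_lit 5) (nat_lit 20) (nat_lit 5) (nat_lit 21) (nat_lit 4) (nat_lit 475) (nat_lit 325) (nat_lit 220))) (XT.nd (nat_lit 78) (nat_lit 0) (nat_lit 0) (XT.lf (nat_lit 0) (nat_lit 18281309457) (nat_lit 76) (nat_lit 469429466) (nat_lit 152) (nat_lit 34326356846) (nat_lit 19) (nat_lit 5) (nat_lit 20) (nat_lit 5) (nat_lit 21) (nat_lit 4) (nat_lit 476) (nat_lit 325) (nat_lit 219)) (XT.lf (nat_lit 0) (nat_lit 27474332611) (nat_lit 152) (nat_lit 18689540909) (nat_lit 0) (nat_lit 8242348898) (nat_lit 19) (nat_lit 5) (nat_lit 21) (nat_lit 4) (nat_lit 19) (nat_lit 4) (nat_lit 477) (nat_lit 325) (nat_lit 218))))) (XT.nd (nat_lit 312) (nat_lit 76) (nat_lit 0) (XT.nd (nat_lit 156) (nat_lit 76) (nat_lit 0) (XT.nd (nat_lit 78) (nat_lit 76) (nat_lit 0) (XT.lf (nat_lit 0) (nat_lit 36444083276) (nat_lit 152) (nat_lit 2144252854) (nat_lit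 0) (nat_lit 17187353908) (nat_lit 19) (nat_lit 5) (nat_lit 21) (nat_lit 4) (nat_lit 19) (nat_lit 4) (nat_lit 478) (nat_lit 325) (nat_lit 217)) (XT.lf (nat_lit 0) (nat_lit 15154771518) (nat_lit 76) (nat_lit 30654221537) (nat_lit 76) (nat_lit 11373467260) (nat_lit 18) (nat_lit 4) (nat_lit 19) (nat_lit 5) (nat_lit 19) (nat_lit 4) (nat_lit 479) (nat_lit 325) (nat_lit 216))) (XT.nd (nat_lit 78) (nat_lit 76) (nat_lit 0) (XT.lf (nat_lit 0) (nat_lit 32978751150) (nat_lit 76) (nat_lit 22478347567) (nat_lit 76) (nat_lit 3174268137) (nat_lit 18) (nat_lit 4) (nat_lit 19) (nat_lit 5) (nat_lit 19) (nat_lit 4) (nat_lit 480) (nat_lit 325) (nat_lit 215)) (XT.lf (nat_lit 0) (nat_lit 5149026484) (nat_lit 152) (nat_lit 8874201447) (nat_lit 76) (nat_lit 46099563999) (nat_lit 17) (nat_lit 5) (nat_lit 19) (nat_lit 5) (nat_lit 18) (nat_lit 4) (nat_lit 481) (nat_lit 325) (nat_lit 214)))) (XT.nd (nat_lit 156) (nat_lit 0) (nat_lit 0) (XT.nd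 (nat_lit 78) (nat_lit 0) (nat_lit 0) (XT.lf (nat_lit 0) (nat_lit 8505959676) (nat_lit 76) (nat_lit 5215553171) (nat_lit 152) (nat_lit 47934605840) (nat_lit 16) (nat_lit 5) (nat_lit 17) (nat_lit 5) (nat_lit 18) (nat_lit 4) (nat_lit 482) (nat_lit 325) (nat_lit 213)) (XT.lf (nat_lit 0) (nat_lit 22660296127) (nat_lit 152) (nat_lit 36717460667) (nat_lit 0) (nat_lit 3854415326) (nat_lit 16) (nat_lit 5) (nat_lit 18) (nat_lit 4) (nat_lit 16) (nat_lit 4) (nat_lit 483) (nat_lit 325) (nat_lit 212))) (XT.nd (nat_lit 78) (nat_lit 0) (nat_lit 0) (XT.lf (nat_lit 0) (nat_lit 31900972752) (nat_lit 152) (nat_lit 19878551564) (nat_lit 0) (nat_lit 13074971469) (nat_lit 16) (nat_lit 5) (nat_lit 18) (nat_lit 4) (nat_lit 16) (nat_lit 4) (nat_lit 484) (nat_lit 325) (nat_lit 211)) (XT.lf (nat_lit 0) (nat_lit 41401482014) (nat_lit 152) (nat_lit 2568583005) (nat_lit 0) (nat_lit 22555946282) (nat_lit 16) (nat_lit 5) (nat_lit 18) (nat_lit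 4) (nat_lit 16) (nat_lit 4) (nat_lit 485) (nat_lit 325) (nat_lit 210))))))))
noncomputable def xc67 : XT := (XT.nd (nat_lit 45708) (nat_lit 0) (nat_lit 4332) (XT.nd (nat_lit 44538) (nat_lit 0) (nat_lit 9424) (XT.nd (nat_lit 43992) (nat_lit 0) (nat_lit 14744) (XT.nd (nat_lit 234) (nat_lit 76) (nat_lit 0) (XT.nd (nat_lit 78) (nat_lit 76) (nat_lit 0) (XT.lf (nat_lit 0) (nat_lit 15530628731) (nat_lit 76) (nat_lit 35788786502) (nat_lit 76) (nat_lit 16924285284) (nat_lit 15) (nat_lit 4) (nat_lit 16) (nat_lit 5) (nat_lit 16) (nat_lit 4) (nat_lit 486) (nat_lit 325) (nat_lit 209)) (XT.nd (nat_lit 78) (nat_lit 76) (nat_lit 0) (XT.lf (nat_lit 0) (nat_lit 34192680518) (nat_lit 76) (nat_lit 27351438847) (nat_lit 76) (nat_lit 8468524538) (nat_lit 15) (nat_lit 4) (nat_lit 16) (nat_lit 5) (nat_lit 16) (nat_lit 4) (nat_lit 487) (nat_lit 325) (nat_lit 208)) (XT.lf (nat_lit 0) (nat_lit 219828805) (nat_lit 152) (nat_lit 18454538622)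 (nat_lit 76) (nat_lit 53160710521) (nat_lit 14) (nat_lit 5) (nat_lit 16) (nat_lit 5) (nat_lit 15) (nat_lit 4) (nat_lit 488) (nat_lit 325) (nat_lit 207)))) (XT.nd (nat_lit 156) (nat_lit 0) (nat_lit 0) (XT.nd (nat_lit 78) (nat_lit 76) (nat_lit 0) (XT.lf (nat_lit 0) (nat_lit 8982721632) (nat_lit 152) (nat_lit 683222288) (nat_lit 76) (nat_lit 64044203196) (nat_lit 14) (nat_lit 5) (nat_lit 16) (nat_lit 5) (nat_lit 15) (nat_lit 4) (nat_lit 489) (nat_lit 325) (nat_lit 206)) (XT.lf (nat_lit 0) (nat_lit 17941012362) (nat_lit 76) (nat_lit 224509879) (nat_lit 152) (nat_lit 57471235915) (nat_lit 13) (nat_lit 5) (nat_lit 14) (nat_lit 5) (nat_lit 15) (nat_lit 4) (nat_lit 490) (nat_lit 325) (nat_lit 205))) (XT.nd (nat_lit 43524) (nat_lit 0) (nat_lit 17784) (XT.lf (nat_lit 0) (nat_lit 27706676256) (nat_lit 152) (nat_lit 40604705643) (nat_lit 0) (nat_lit 9307299962) (nat_lit 13) (nat_lit 5) (nat_lit 15) (nat_lit 4) (nat_lit 13)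 (nat_lit 4) (nat_lit 491) (nat_lit 325) (nat_lit 204)) (XT.lf (nat_lit 0) (nat_lit 2261407487) (nat_lit 684) (nat_lit 692504482) (nat_lit 684) (nat_lit 692504482) (nat_lit 247) (nat_lit 4) (nat_lit 256) (nat_lit 5) (nat_lit 256) (nat_lit 4) (nat_lit 368) (nat_lit 326) (nat_lit 326))))) (XT.nd (nat_lit 234) (nat_lit 1672) (nat_lit 0) (XT.nd (nat_lit 78) (nat_lit 684) (nat_lit 0) (XT.lf (nat_lit 0) (nat_lit 2140843138) (nat_lit 684) (nat_lit 4625534965) (nat_lit 0) (nat_lit 589490875) (nat_lit 238) (nat_lit 5) (nat_lit 247) (nat_lit 4) (nat_lit 238) (nat_lit 4) (nat_lit 369) (nat_lit 326) (nat_lit 325)) (XT.nd (nat_lit 78) (nat_lit 76) (nat_lit 0) (XT.lf (nat_lit 0) (nat_lit 911126042) (nat_lit 608) (nat_lit 4784149156) (nat_lit 608) (nat_lit 1726629648) (nat_lit 230) (nat_lit 4) (nat_lit 238) (nat_lit 5) (nat_lit 238) (nat_lit 4) (nat_lit 370) (nat_lit 326) (nat_lit 324)) (XT.lf (nat_lit 0) (nat_lit 1777934809)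 (nat_lit 684) (nat_lit 910610141) (nat_lit 76) (nat_lit 4802437588) (nat_lit 229) (nat_lit 5) (nat_lit 238) (nat_lit 5) (nat_lit 230) (nat_lit 4) (nat_lit 371) (nat_lit 326) (nat_lit 323)))) (XT.nd (nat_lit 156) (nat_lit 532) (nat_lit 0) (XT.nd (nat_lit 78) (nat_lit 608) (nat_lit 0) (XT.lf (nat_lit 0) (nat_lit 4825513118) (nat_lit 532) (nat_lit 477461269) (nat_lit 608) (nat_lit 2260180074) (nat_lit 222) (nat_lit 5) (nat_lit 229) (nat_lit 5) (nat_lit 230) (nat_lit 4) (nat_lit 372) (nat_lit 326) (nat_lit 322)) (XT.lf (nat_lit 0) (nat_lit 1231726702) (nat_lit 608) (nat_lit 4604333901) (nat_lit 76) (nat_lit 1802268624) (nat_lit 214) (nat_lit 5) (nat_lit 222) (nat_lit 5) (nat_lit 215) (nat_lit 4) (nat_lit 373) (nat_lit 326) (nat_lit 321))) (XT.nd (nat_lit 78) (nat_lit 76) (nat_lit 0) (XT.lf (nat_lit 0) (nat_lit 1204487064) (nat_lit 456) (nat_lit 3528744102) (nat_lit 532) (nat_lit 2983381650) (nat_lit 208) (nat_lit 5)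 (nat_lit 214) (nat_lit 5) (nat_lit 215) (nat_lit 4) (nat_lit 374) (nat_lit 326) (nat_lit 320)) (XT.lf (nat_lit 0) (nat_lit 485677059) (nat_lit 532) (nat_lit 631968796) (nat_lit 76) (nat_lit 6680861824) (nat_lit 207) (nat_lit 5) (nat_lit 214) (nat_lit 5) (nat_lit 208) (nat_lit 5) (nat_lit 375) (nat_lit 326) (nat_lit 319)))))) (XT.nd (nat_lit 546) (nat_lit 2356) (nat_lit 0) (XT.nd (nat_lit 234) (nat_lit 1444) (nat_lit 0) (XT.nd (nat_lit 78) (nat_lit 988) (nat_lit 0) (XT.lf (nat_lit 0) (nat_lit 3973911022) (nat_lit 608) (nat_lit 2505791073) (nat_lit 76) (nat_lit 1403049305) (nat_lit 200) (nat_lit 5) (nat_lit 208) (nat_lit 5) (nat_lit 201) (nat_lit 4) (nat_lit 376) (nat_lit 326) (nat_lit 318)) (XT.nd (nat_lit 78) (nat_lit 532) (nat_lit 0) (XT.lf (nat_lit 0) (nat_lit 3557502563) (nat_lit 456) (nat_lit 3971898811) (nat_lit 532) (nat_lit 441272058) (nat_lit 194) (nat_lit 5) (nat_lit 200) (nat_lit 5) (nat_lit 201) (nat_lit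 4) (nat_lit 377) (nat_lit 326) (nat_lit 317)) (XT.lf (nat_lit 0) (nat_lit 1684850493) (nat_lit 456) (nat_lit 1337688597) (nat_lit 532) (nat_lit 5039219928) (nat_lit 187) (nat_lit 5) (nat_lit 193) (nat_lit 5) (nat_lit 194) (nat_lit 5) (nat_lit 378) (nat_lit 326) (nat_lit 316)))) (XT.nd (nat_lit 156) (nat_lit 912) (nat_lit 0) (XT.nd (nat_lit 78) (nat_lit 532) (nat_lit 0) (XT.lf (nat_lit 0) (nat_lit 6552466997) (nat_lit 532) (nat_lit 228588476) (nat_lit 76) (nat_lit 1375285278) (nat_lit 187) (nat_lit 5) (nat_lit 194) (nat_lit 5) (nat_lit 188) (nat_lit 4) (nat_lit 379) (nat_lit 326) (nat_lit 315)) (XT.lf (nat_lit 0) (nat_lit 1883901234) (nat_lit 532) (nat_lit 2171968844) (nat_lit 76) (nat_lit 4197743693) (nat_lit 180) (nat_lit 5) (nat_lit 187) (nat_lit 5) (nat_lit 181) (nat_lit 5) (nat_lit 380) (nat_lit 326) (nat_lit 314))) (XT.nd (nat_lit 78) (nat_lit 456) (nat_lit 0) (XT.lf (nat_lit 0) (nat_lit 4188016389) (nat_lit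 456) (nat_lit 1214603263) (nat_lit 532) (nat_lit 2951977061) (nat_lit 174) (nat_lit 5) (nat_lit 180) (nat_lit 5) (nat_lit 181) (nat_lit 5) (nat_lit 381) (nat_lit 326) (nat_lit 313)) (XT.lf (nat_lit 0) (nat_lit 534210044) (nat_lit 456) (nat_lit 6223228726) (nat_lit 76) (nat_lit 1701719336) (nat_lit 168) (nat_lit 5) (nat_lit 174) (nat_lit 5) (nat_lit 169) (nat_lit 5) (nat_lit 382) (nat_lit 326) (nat_lit 312))))) (XT.nd (nat_lit 312) (nat_lit 1140) (nat_lit 0) (XT.nd (nat_lit 156) (nat_lit 836) (nat_lit 0) (XT.nd (nat_lit 78) (nat_lit 0) (nat_lit 0) (XT.lf (nat_lit 0) (nat_lit 200896393) (nat_lit 380) (nat_lit 3838836007) (nat_lit 456) (nat_lit 4527047114) (nat_lit 163) (nat_lit 5) (nat_lit 168) (nat_lit 5) (nat_lit 169) (nat_lit 5) (nat_lit 383) (nat_lit 326) (nat_lit 311)) (XT.lf (nat_lit 0) (nat_lit 6834725259) (nat_lit 380) (nat_lit 797507205) (nat_lit 456) (nat_lit 1045964527) (nat_lit 163) (nat_lit 5) (nat_lit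 168) (nat_lit 5) (nat_lit 169) (nat_lit 5) (nat_lit 384) (nat_lit 326) (nat_lit 310))) (XT.nd (nat_lit 78) (nat_lit 380) (nat_lit 0) (XT.lf (nat_lit 0) (nat_lit 2479871861) (nat_lit 456) (nat_lit 3980510306) (nat_lit 76) (nat_lit 2332166698) (nat_lit 157) (nat_lit 5) (nat_lit 163) (nat_lit 5) (nat_lit 158) (nat_lit 5) (nat_lit 385) (nat_lit 326) (nat_lit 309)) (XT.lf (nat_lit 0) (nat_lit 2719886015) (nat_lit 380) (nat_lit 3344937475) (nat_lit 456) (nat_lit 2845986171) (nat_lit 152) (nat_lit 5) (nat_lit 157) (nat_lit 5) (nat_lit 158) (nat_lit 5) (nat_lit 386) (nat_lit 326) (nat_lit 308)))) (XT.nd (nat_lit 156) (nat_lit 760) (nat_lit 0) (XT.nd (nat_lit 78) (nat_lit 0) (nat_lit 0) (XT.lf (nat_lit 0) (nat_lit 564656273) (nat_lit 304) (nat_lit 113905751) (nat_lit 380) (nat_lit 8354826115) (nat_lit 147) (nat_lit 5) (nat_lit 151) (nat_lit 5) (nat_lit 152) (nat_lit 5) (nat_lit 387) (nat_lit 326) (nat_lit 307)) (XT.lf (nat_lit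 0) (nat_lit 4268560583) (nat_lit 380) (nat_lit 1679051764) (nat_lit 76) (nat_lit 3210697066) (nat_lit 147) (nat_lit 5) (nat_lit 152) (nat_lit 5) (nat_lit 148) (nat_lit 5) (nat_lit 388) (nat_lit 326) (nat_lit 306))) (XT.nd (nat_lit 78) (nat_lit 380) (nat_lit 0) (XT.lf (nat_lit 0) (nat_lit 5308623859) (nat_lit 380) (nat_lit 2634923609) (nat_lit 456) (nat_lit 1344129922) (nat_lit 142) (nat_lit 5) (nat_lit 147) (nat_lit 5) (nat_lit 148) (nat_lit 5) (nat_lit 389) (nat_lit 326) (nat_lit 305)) (XT.lf (nat_lit 0) (nat_lit 2242606605) (nat_lit 380) (nat_lit 6380471020) (nat_lit 76) (nat_lit 797806432) (nat_lit 137) (nat_lit 5) (nat_lit 142) (nat_lit 5) (nat_lit 138) (nat_lit 5) (nat_lit 390) (nat_lit 326) (nat_lit 304))))))) (XT.nd (nat_lit 1092) (nat_lit 2128) (nat_lit 0) (XT.nd (nat_lit 546) (nat_lit 1368) (nat_lit 0) (XT.nd (nat_lit 234) (nat_lit 912) (nat_lit 0) (XT.nd (nat_lit 78) (nat_lit 380) (nat_lit 0) (XT.lf (nat_lit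 0) (nat_lit 658791321) (nat_lit 304) (nat_lit 5250479483) (nat_lit 380) (nat_lit 3648452850) (nat_lit 133) (nat_lit 5) (nat_lit 137) (nat_lit 5) (nat_lit 138) (nat_lit 5) (nat_lit 391) (nat_lit 326) (nat_lit 303)) (XT.nd (nat_lit 78) (nat_lit 380) (nat_lit 0) (XT.lf (nat_lit 0) (nat_lit 7931679198) (nat_lit 304) (nat_lit 1746131610) (nat_lit 380) (nat_lit 21117094) (nat_lit 133) (nat_lit 5) (nat_lit 137) (nat_lit 5) (nat_lit 138) (nat_lit 5) (nat_lit 392) (nat_lit 326) (nat_lit 302)) (XT.lf (nat_lit 0) (nat_lit 3643137973) (nat_lit 380) (nat_lit 4318058123) (nat_lit 76) (nat_lit 1882097889) (nat_lit 128) (nat_lit 5) (nat_lit 133) (nat_lit 5) (nat_lit 129) (nat_lit 5) (nat_lit 393) (nat_lit 326) (nat_lit 301)))) (XT.nd (nat_lit 156) (nat_lit 304) (nat_lit 0) (XT.nd (nat_lit 78) (nat_lit 304) (nat_lit 0) (XT.lf (nat_lit 0) (nat_lit 3015075030) (nat_lit 304) (nat_lit 4395677815) (nat_lit 380) (nat_lit 2581430641)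 (nat_lit 124) (nat_lit 5) (nat_lit 128) (nat_lit 5) (nat_lit 129) (nat_lit 5) (nat_lit 394) (nat_lit 326) (nat_lit 300)) (XT.lf (nat_lit 0) (nat_lit 401159968) (nat_lit 228) (nat_lit 700120376) (nat_lit 304) (nat_lit 9044608955) (nat_lit 120) (nat_lit 5) (nat_lit 123) (nat_lit 5) (nat_lit 124) (nat_lit 5) (nat_lit 395) (nat_lit 326) (nat_lit 299))) (XT.nd (nat_lit 78) (nat_lit 304) (nat_lit 0) (XT.lf (nat_lit 0) (nat_lit 4874148371) (nat_lit 304) (nat_lit 2322785486) (nat_lit 76) (nat_lit 3105572054) (nat_lit 120) (nat_lit 5) (nat_lit 124) (nat_lit 5) (nat_lit 121) (nat_lit 5) (nat_lit 396) (nat_lit 326) (nat_lit 298)) (XT.lf (nat_lit 0) (nat_lit 5313346745) (nat_lit 304) (nat_lit 3437433129) (nat_lit 380) (nat_lit 1713336621) (nat_lit 116) (nat_lit 5) (nat_lit 120) (nat_lit 5) (nat_lit 121) (nat_lit 5) (nat_lit 397) (nat_lit 326) (nat_lit 297))))) (XT.nd (nat_lit 234) (nat_lit 836) (nat_lit 0) (XT.nd (nat_lit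 78) (nat_lit 228) (nat_lit 0) (XT.lf (nat_lit 0) (nat_lit 2057154702) (nat_lit 304) (nat_lit 8115655284) (nat_lit 76) (nat_lit 457610453) (nat_lit 112) (nat_lit 5) (nat_lit 116) (nat_lit 5) (nat_lit 113) (nat_lit 5) (nat_lit 398) (nat_lit 326) (nat_lit 296)) (XT.nd (nat_lit 78) (nat_lit 228) (nat_lit 0) (XT.lf (nat_lit 0) (nat_lit 5926331219) (nat_lit 304) (nat_lit 441945522) (nat_lit 76) (nat_lit 4432339355) (nat_lit 112) (nat_lit 5) (nat_lit 116) (nat_lit 5) (nat_lit 113) (nat_lit 5) (nat_lit 399) (nat_lit 326) (nat_lit 295)) (XT.lf (nat_lit 0) (nat_lit 7505392438) (nat_lit 228) (nat_lit 2413720686) (nat_lit 304) (nat_lit 1056589967) (nat_lit 109) (nat_lit 5) (nat_lit 112) (nat_lit 5) (nat_lit 113) (nat_lit 5) (nat_lit 400) (nat_lit 326) (nat_lit 294)))) (XT.nd (nat_lit 156) (nat_lit 304) (nat_lit 0) (XT.nd (nat_lit 78) (nat_lit 228) (nat_lit 0) (XT.lf (nat_lit 0) (nat_lit 2819263589) (nat_lit 304) (nat_lit 6670919494)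 (nat_lit 76) (nat_lit 1665048806) (nat_lit 105) (nat_lit 5) (nat_lit 109) (nat_lit 5) (nat_lit 106) (nat_lit 5) (nat_lit 401) (nat_lit 326) (nat_lit 293)) (XT.lf (nat_lit 0) (nat_lit 1296357259) (nat_lit 228) (nat_lit 5501709868) (nat_lit 304) (nat_lit 4541538667) (nat_lit 102) (nat_lit 5) (nat_lit 105) (nat_lit 5) (nat_lit 106) (nat_lit 5) (nat_lit 402) (nat_lit 326) (nat_lit 292))) (XT.nd (nat_lit 78) (nat_lit 304) (nat_lit 0) (XT.lf (nat_lit 0) (nat_lit 9536568044) (nat_lit 228) (nat_lit 1364061733) (nat_lit 304) (nat_lit 628759392) (nat_lit 102) (nat_lit 5) (nat_lit 105) (nat_lit 5) (nat_lit 106) (nat_lit 5) (nat_lit 403) (nat_lit 326) (nat_lit 291)) (XT.lf (nat_lit 0) (nat_lit 3362123917) (nat_lit 304) (nat_lit 5464282283) (nat_lit 76) (nat_lit 2896675648) (nat_lit 98) (nat_lit 5) (nat_lit 102) (nat_lit 5) (nat_lit 99) (nat_lit 5) (nat_lit 404) (nat_lit 326) (nat_lit 290)))))) (XT.nd (nat_lit 546) (nat_lit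 988) (nat_lit 0) (XT.nd (nat_lit 234) (nat_lit 684) (nat_lit 0) (XT.nd (nat_lit 78) (nat_lit 228) (nat_lit 0) (XT.lf (nat_lit 0) (nat_lit 2810201062) (nat_lit 228) (nat_lit 4649447812) (nat_lit 304) (nat_lit 4462772342) (nat_lit 95) (nat_lit 5) (nat_lit 98) (nat_lit 5) (nat_lit 99) (nat_lit 5) (nat_lit 405) (nat_lit 326) (nat_lit 289)) (XT.nd (nat_lit 78) (nat_lit 228) (nat_lit 0) (XT.lf (nat_lit 0) (nat_lit 11344382778) (nat_lit 228) (nat_lit 330424754) (nat_lit 304) (nat_lit 453100970) (nat_lit 95) (nat_lit 5) (nat_lit 98) (nat_lit 5) (nat_lit 99) (nat_lit 5) (nat_lit 406) (nat_lit 326) (nat_lit 288)) (XT.lf (nat_lit 0) (nat_lit 3661219395) (nat_lit 228) (nat_lit 4564991282) (nat_lit 76) (nat_lit 4110614635) (nat_lit 92) (nat_lit 5) (nat_lit 95) (nat_lit 5) (nat_lit 93) (nat_lit 5) (nat_lit 407) (nat_lit 326) (nat_lit 287)))) (XT.nd (nat_lit 156) (nat_lit 304) (nat_lit 0) (XT.nd (nat_lit 78) (nat_lit 152) (nat_lit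 0) (XT.lf (nat_lit 0) (nat_lit 4019517642) (nat_lit 228) (nat_lit 3861354346) (nat_lit 304) (nat_lit 4671280983) (nat_lit 89) (nat_lit 5) (nat_lit 92) (nat_lit 5) (nat_lit 93) (nat_lit 5) (nat_lit 408) (nat_lit 326) (nat_lit 286)) (XT.lf (nat_lit 0) (nat_lit 77929299) (nat_lit 152) (nat_lit 12144081039) (nat_lit 228) (nat_lit 552091212) (nat_lit 87) (nat_lit 5) (nat_lit 89) (nat_lit 5) (nat_lit 90) (nat_lit 4) (nat_lit 409) (nat_lit 326) (nat_lit 285))) (XT.nd (nat_lit 78) (nat_lit 228) (nat_lit 0) (XT.lf (nat_lit 0) (nat_lit 3685574089) (nat_lit 228) (nat_lit 4052773667) (nat_lit 76) (nat_lit 5261296492) (nat_lit 86) (nat_lit 5) (nat_lit 89) (nat_lit 5) (nat_lit 87) (nat_lit 5) (nat_lit 410) (nat_lit 326) (nat_lit 284)) (XT.lf (nat_lit 0) (nat_lit 4842043275) (nat_lit 228) (nat_lit 3187144143) (nat_lit 304) (nat_lit 5202911682) (nat_lit 83) (nat_lit 5) (nat_lit 86) (nat_lit 5) (nat_lit 87) (nat_lit 5) (nat_lit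 411) (nat_lit 326) (nat_lit 283))))) (XT.nd (nat_lit 312) (nat_lit 456) (nat_lit 0) (XT.nd (nat_lit 156) (nat_lit 304) (nat_lit 0) (XT.nd (nat_lit 78) (nat_lit 76) (nat_lit 0) (XT.lf (nat_lit 0) (nat_lit 514439271) (nat_lit 152) (nat_lit 11993081843) (nat_lit 228) (nat_lit 963881211) (nat_lit 81) (nat_lit 5) (nat_lit 83) (nat_lit 5) (nat_lit 84) (nat_lit 4) (nat_lit 412) (nat_lit 326) (nat_lit 282)) (XT.lf (nat_lit 0) (nat_lit 3396915230) (nat_lit 228) (nat_lit 4019808288) (nat_lit 76) (nat_lit 6298357056) (nat_lit 80) (nat_lit 5) (nat_lit 83) (nat_lit 5) (nat_lit 81) (nat_lit 5) (nat_lit 413) (nat_lit 326) (nat_lit 281))) (XT.nd (nat_lit 78) (nat_lit 152) (nat_lit 0) (XT.lf (nat_lit 0) (nat_lit 5182461214) (nat_lit 152) (nat_lit 2682021914) (nat_lit 228) (nat_lit 6101446607) (nat_lit 78) (nat_lit 5) (nat_lit 80) (nat_lit 5) (nat_lit 81) (nat_lit 5) (nat_lit 414) (nat_lit 326) (nat_lit 280)) (XT.lf (nat_lit 0)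 (nat_lit 411755005) (nat_lit 152) (nat_lit 12066179745) (nat_lit 228) (nat_lit 1746020216) (nat_lit 76) (nat_lit 5) (nat_lit 78) (nat_lit 5) (nat_lit 79) (nat_lit 4) (nat_lit 415) (nat_lit 326) (nat_lit 279)))) (XT.nd (nat_lit 156) (nat_lit 228) (nat_lit 0) (XT.nd (nat_lit 78) (nat_lit 152) (nat_lit 0) (XT.lf (nat_lit 0) (nat_lit 2748675879) (nat_lit 228) (nat_lit 4572991009) (nat_lit 76) (nat_lit 7165407557) (nat_lit 75) (nat_lit 5) (nat_lit 78) (nat_lit 5) (nat_lit 76) (nat_lit 5) (nat_lit 416) (nat_lit 326) (nat_lit 278)) (XT.lf (nat_lit 0) (nat_lit 4930031303) (nat_lit 152) (nat_lit 2407999984) (nat_lit 228) (nat_lit 7419696012) (nat_lit 73) (nat_lit 5) (nat_lit 75) (nat_lit 5) (nat_lit 76) (nat_lit 5) (nat_lit 417) (nat_lit 326) (nat_lit 277))) (XT.nd (nat_lit 78) (nat_lit 228) (nat_lit 0) (XT.lf (nat_lit 0) (nat_lit 12084997082) (nat_lit 228) (nat_lit 341742361) (nat_lit 76) (nat_lit 2609167998) (nat_lit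 73) (nat_lit 5) (nat_lit 76) (nat_lit 5) (nat_lit 74) (nat_lit 4) (nat_lit 418) (nat_lit 326) (nat_lit 276)) (XT.lf (nat_lit 0) (nat_lit 1684814564) (nat_lit 228) (nat_lit 5836543149) (nat_lit 76) (nat_lit 7798650834) (nat_lit 70) (nat_lit 5) (nat_lit 73) (nat_lit 5) (nat_lit 71) (nat_lit 5) (nat_lit 419) (nat_lit 326) (nat_lit 275))))))))
noncomputable def xc68 : XT := (XT.nd (nat_lit 2184) (nat_lit 1368) (nat_lit 0) (XT.nd (nat_lit 1092) (nat_lit 988) (nat_lit 0) (XT.nd (nat_lit 546) (nat_lit 760) (nat_lit 0) (XT.nd (nat_lit 234) (nat_lit 380) (nat_lit 0) (XT.nd (nat_lit 78) (nat_lit 228) (nat_lit 0) (XT.lf (nat_lit 0) (nat_lit 3955858876) (nat_lit 152) (nat_lit 2435385294) (nat_lit 228) (nat_lit 9220788828) (nat_lit 68) (nat_lit 5) (nat_lit 70) (nat_lit 5) (nat_lit 71) (nat_lit 5) (nat_lit 420) (nat_lit 326) (nat_lit 274)) (XT.nd (nat_lit 78) (nat_lit 228) (nat_lit 0) (XT.lf (nat_lit 0) (nat_lit 11275005603)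 (nat_lit 228) (nat_lit 1867136557) (nat_lit 76) (nat_lit 2769596824) (nat_lit 68) (nat_lit 5) (nat_lit 71) (nat_lit 5) (nat_lit 69) (nat_lit 4) (nat_lit 421) (nat_lit 326) (nat_lit 273)) (XT.lf (nat_lit 0) (nat_lit 138425119) (nat_lit 228) (nat_lit 7955020513) (nat_lit 76) (nat_lit 8125313626) (nat_lit 65) (nat_lit 5) (nat_lit 68) (nat_lit 5) (nat_lit 66) (nat_lit 5) (nat_lit 422) (nat_lit 326) (nat_lit 272)))) (XT.nd (nat_lit 156) (nat_lit 228) (nat_lit 0) (XT.nd (nat_lit 78) (nat_lit 0) (nat_lit 0) (XT.lf (nat_lit 0) (nat_lit 2109742592) (nat_lit 152) (nat_lit 2844467901) (nat_lit 228) (nat_lit 11579689972) (nat_lit 63) (nat_lit 5) (nat_lit 65) (nat_lit 5) (nat_lit 66) (nat_lit 5) (nat_lit 423) (nat_lit 326) (nat_lit 271)) (XT.lf (nat_lit 0) (nat_lit 9971680002) (nat_lit 228) (nat_lit 4329928962) (nat_lit 76) (nat_lit 2555175041) (nat_lit 63) (nat_lit 5) (nat_lit 66) (nat_lit 5) (nat_lit 64) (nat_lit 4) (nat_lit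 424) (nat_lit 326) (nat_lit 270))) (XT.nd (nat_lit 78) (nat_lit 76) (nat_lit 0) (XT.lf (nat_lit 0) (nat_lit 6072074123) (nat_lit 152) (nat_lit 9107002670) (nat_lit 228) (nat_lit 2009099450) (nat_lit 61) (nat_lit 5) (nat_lit 63) (nat_lit 5) (nat_lit 64) (nat_lit 4) (nat_lit 425) (nat_lit 326) (nat_lit 269)) (XT.lf (nat_lit 0) (nat_lit 2951510359) (nat_lit 228) (nat_lit 768180169) (nat_lit 76) (nat_lit 13809041127) (nat_lit 60) (nat_lit 5) (nat_lit 63) (nat_lit 5) (nat_lit 61) (nat_lit 5) (nat_lit 426) (nat_lit 326) (nat_lit 268))))) (XT.nd (nat_lit 234) (nat_lit 456) (nat_lit 0) (XT.nd (nat_lit 78) (nat_lit 152) (nat_lit 0) (XT.lf (nat_lit 0) (nat_lit 8089219824) (nat_lit 228) (nat_lit 7913691402) (nat_lit 76) (nat_lit 1873939798) (nat_lit 58) (nat_lit 5) (nat_lit 61) (nat_lit 5) (nat_lit 59) (nat_lit 4) (nat_lit 427) (nat_lit 326) (nat_lit 267)) (XT.nd (nat_lit 78) (nat_lit 76) (nat_lit 0) (XT.lf (nat_lit 0) (nat_lit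 2730197140) (nat_lit 76) (nat_lit 10676290600) (nat_lit 152) (nat_lit 4828167226) (nat_lit 57) (nat_lit 5) (nat_lit 58) (nat_lit 5) (nat_lit 59) (nat_lit 4) (nat_lit 428) (nat_lit 326) (nat_lit 266)) (XT.lf (nat_lit 0) (nat_lit 309923855) (nat_lit 152) (nat_lit 4831924191) (nat_lit 76) (nat_lit 13460208547) (nat_lit 56) (nat_lit 5) (nat_lit 58) (nat_lit 5) (nat_lit 57) (nat_lit 5) (nat_lit 429) (nat_lit 326) (nat_lit 265)))) (XT.nd (nat_lit 156) (nat_lit 304) (nat_lit 0) (XT.nd (nat_lit 78) (nat_lit 0) (nat_lit 0) (XT.lf (nat_lit 0) (nat_lit 5526256905) (nat_lit 228) (nat_lit 12832484676) (nat_lit 76) (nat_lit 619673844) (nat_lit 54) (nat_lit 5) (nat_lit 57) (nat_lit 5) (nat_lit 55) (nat_lit 4) (nat_lit 430) (nat_lit 326) (nat_lit 264)) (XT.lf (nat_lit 0) (nat_lit 10955355557) (nat_lit 228) (nat_lit 1944834363) (nat_lit 76) (nat_lit 6464190218) (nat_lit 54) (nat_lit 5) (nat_lit 57) (nat_lit 5) (nat_lit 55) (nat_lit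 4) (nat_lit 431) (nat_lit 326) (nat_lit 263))) (XT.nd (nat_lit 78) (nat_lit 228) (nat_lit 0) (XT.lf (nat_lit 0) (nat_lit 9373708140) (nat_lit 76) (nat_lit 7221093937) (nat_lit 152) (nat_lit 3165700755) (nat_lit 53) (nat_lit 5) (nat_lit 54) (nat_lit 5) (nat_lit 55) (nat_lit 4) (nat_lit 432) (nat_lit 326) (nat_lit 262)) (XT.lf (nat_lit 0) (nat_lit 819333214) (nat_lit 152) (nat_lit 1357129363) (nat_lit 228) (nat_lit 17991850686) (nat_lit 50) (nat_lit 5) (nat_lit 52) (nat_lit 5) (nat_lit 53) (nat_lit 5) (nat_lit 433) (nat_lit 326) (nat_lit 261)))))) (XT.nd (nat_lit 546) (nat_lit 608) (nat_lit 0) (XT.nd (nat_lit 234) (nat_lit 304) (nat_lit 0) (XT.nd (nat_lit 78) (nat_lit 76) (nat_lit 0) (XT.lf (nat_lit 0) (nat_lit 7723788549) (nat_lit 228) (nat_lit 8166922186) (nat_lit 76) (nat_lit 4693454218) (nat_lit 50) (nat_lit 5) (nat_lit 53) (nat_lit 5) (nat_lit 51) (nat_lit 4) (nat_lit 434) (nat_lit 326) (nat_lit 260)) (XT.nd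 (nat_lit 78) (nat_lit 0) (nat_lit 0) (XT.lf (nat_lit 0) (nat_lit 3325470568) (nat_lit 76) (nat_lit 10116289397) (nat_lit 152) (nat_lit 7570608377) (nat_lit 49) (nat_lit 5) (nat_lit 50) (nat_lit 5) (nat_lit 51) (nat_lit 4) (nat_lit 435) (nat_lit 326) (nat_lit 259)) (XT.lf (nat_lit 0) (nat_lit 15254217978) (nat_lit 76) (nat_lit 4118815148) (nat_lit 152) (nat_lit 2079134663) (nat_lit 49) (nat_lit 5) (nat_lit 50) (nat_lit 5) (nat_lit 51) (nat_lit 4) (nat_lit 436) (nat_lit 326) (nat_lit 258)))) (XT.nd (nat_lit 156) (nat_lit 76) (nat_lit 0) (XT.nd (nat_lit 78) (nat_lit 0) (nat_lit 0) (XT.lf (nat_lit 0) (nat_lit 3541884377) (nat_lit 228) (nat_lit 16287180440) (nat_lit 76) (nat_lit 2074029434) (nat_lit 46) (nat_lit 5) (nat_lit 49) (nat_lit 5) (nat_lit 47) (nat_lit 4) (nat_lit 437) (nat_lit 326) (nat_lit 257)) (XT.lf (nat_lit 0) (nat_lit 9353942168) (nat_lit 228) (nat_lit 4590958406) (nat_lit 76) (nat_lit 8420107060) (nat_lit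 46) (nat_lit 5) (nat_lit 49) (nat_lit 5) (nat_lit 47) (nat_lit 4) (nat_lit 438) (nat_lit 326) (nat_lit 256))) (XT.nd (nat_lit 78) (nat_lit 0) (nat_lit 0) (XT.lf (nat_lit 0) (nat_lit 7530725918) (nat_lit 76) (nat_lit 7843394229) (nat_lit 152) (nat_lit 7465648036) (nat_lit 45) (nat_lit 5) (nat_lit 46) (nat_lit 5) (nat_lit 47) (nat_lit 4) (nat_lit 439) (nat_lit 326) (nat_lit 255)) (XT.lf (nat_lit 0) (nat_lit 20038504530) (nat_lit 76) (nat_lit 1544563411) (nat_lit 152) (nat_lit 1745461118) (nat_lit 45) (nat_lit 5) (nat_lit 46) (nat_lit 5) (nat_lit 47) (nat_lit 4) (nat_lit 440) (nat_lit 326) (nat_lit 254))))) (XT.nd (nat_lit 234) (nat_lit 304) (nat_lit 0) (XT.nd (nat_lit 78) (nat_lit 76) (nat_lit 0) (XT.lf (nat_lit 0) (nat_lit 4164470082) (nat_lit 228) (nat_lit 14719622295) (nat_lit 76) (nat_lit 4943695521) (nat_lit 42) (nat_lit 5) (nat_lit 45) (nat_lit 5) (nat_lit 43) (nat_lit 4) (nat_lit 441) (nat_lit 326) (nat_lit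 253)) (XT.nd (nat_lit 78) (nat_lit 76) (nat_lit 0) (XT.lf (nat_lit 0) (nat_lit 10228117430) (nat_lit 228) (nat_lit 2498624483) (nat_lit 76) (nat_lit 11614421365) (nat_lit 42) (nat_lit 5) (nat_lit 45) (nat_lit 5) (nat_lit 43) (nat_lit 4) (nat_lit 442) (nat_lit 326) (nat_lit 252)) (XT.lf (nat_lit 0) (nat_lit 10220047823) (nat_lit 76) (nat_lit 6315611230) (nat_lit 152) (nat_lit 8332423493) (nat_lit 41) (nat_lit 5) (nat_lit 42) (nat_lit 5) (nat_lit 43) (nat_lit 4) (nat_lit 443) (nat_lit 326) (nat_lit 251)))) (XT.nd (nat_lit 156) (nat_lit 76) (nat_lit 0) (XT.nd (nat_lit 78) (nat_lit 228) (nat_lit 0) (XT.lf (nat_lit 0) (nat_lit 23024517279) (nat_lit 152) (nat_lit 2110055940) (nat_lit 0) (nat_lit 276475572) (nat_lit 41) (nat_lit 5) (nat_lit 43) (nat_lit 4) (nat_lit 41) (nat_lit 4) (nat_lit 444) (nat_lit 326) (nat_lit 250)) (XT.lf (nat_lit 0) (nat_lit 3798189764) (nat_lit 228) (nat_lit 15116086644) (nat_lit 76) (nat_lit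 7050950042) (nat_lit 38) (nat_lit 5) (nat_lit 41) (nat_lit 5) (nat_lit 39) (nat_lit 4) (nat_lit 445) (nat_lit 326) (nat_lit 249))) (XT.nd (nat_lit 78) (nat_lit 76) (nat_lit 0) (XT.lf (nat_lit 0) (nat_lit 10106943506) (nat_lit 228) (nat_lit 2385404082) (nat_lit 76) (nat_lit 14043381179) (nat_lit 38) (nat_lit 5) (nat_lit 41) (nat_lit 5) (nat_lit 39) (nat_lit 4) (nat_lit 446) (nat_lit 326) (nat_lit 248)) (XT.lf (nat_lit 0) (nat_lit 10874804218) (nat_lit 76) (nat_lit 5800651451) (nat_lit 152) (nat_lit 10445777483) (nat_lit 37) (nat_lit 5) (nat_lit 38) (nat_lit 5) (nat_lit 39) (nat_lit 4) (nat_lit 447) (nat_lit 326) (nat_lit 247))))))) (XT.nd (nat_lit 1092) (nat_lit 684) (nat_lit 0) (XT.nd (nat_lit 546) (nat_lit 304) (nat_lit 0) (XT.nd (nat_lit 234) (nat_lit 228) (nat_lit 0) (XT.nd (nat_lit 78) (nat_lit 152) (nat_lit 0) (XT.lf (nat_lit 0) (nat_lit 23441890371) (nat_lit 152) (nat_lit 3217284709) (nat_lit 0) (nat_lit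 1065103392) (nat_lit 37) (nat_lit 5) (nat_lit 39) (nat_lit 4) (nat_lit 37) (nat_lit 4) (nat_lit 448) (nat_lit 326) (nat_lit 246)) (XT.nd (nat_lit 78) (nat_lit 0) (nat_lit 0) (XT.lf (nat_lit 0) (nat_lit 2150123894) (nat_lit 152) (nat_lit 18079638260) (nat_lit 76) (nat_lit 8111322927) (nat_lit 35) (nat_lit 5) (nat_lit 37) (nat_lit 5) (nat_lit 36) (nat_lit 4) (nat_lit 449) (nat_lit 326) (nat_lit 245)) (XT.lf (nat_lit 0) (nat_lit 8689422027) (nat_lit 152) (nat_lit 4870496825) (nat_lit 76) (nat_lit 15415210229) (nat_lit 35) (nat_lit 5) (nat_lit 37) (nat_lit 5) (nat_lit 36) (nat_lit 4) (nat_lit 450) (nat_lit 326) (nat_lit 244)))) (XT.nd (nat_lit 156) (nat_lit 152) (nat_lit 0) (XT.nd (nat_lit 78) (nat_lit 0) (nat_lit 0) (XT.lf (nat_lit 0) (nat_lit 8846531480) (nat_lit 76) (nat_lit 6631437550) (nat_lit 152) (nat_lit 14148634890) (nat_lit 34) (nat_lit 5) (nat_lit 35) (nat_lit 5) (nat_lit 36) (nat_lit 4) (nat_lit 451) (nat_lit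 326) (nat_lit 243)) (XT.lf (nat_lit 0) (nat_lit 22492800432) (nat_lit 152) (nat_lit 7287666985) (nat_lit 0) (nat_lit 516478316) (nat_lit 34) (nat_lit 5) (nat_lit 36) (nat_lit 4) (nat_lit 34) (nat_lit 4) (nat_lit 452) (nat_lit 326) (nat_lit 242))) (XT.nd (nat_lit 78) (nat_lit 76) (nat_lit 0) (XT.lf (nat_lit 0) (nat_lit 6613597107) (nat_lit 76) (nat_lit 23202745557) (nat_lit 76) (nat_lit 1168108683) (nat_lit 33) (nat_lit 4) (nat_lit 34) (nat_lit 5) (nat_lit 34) (nat_lit 4) (nat_lit 453) (nat_lit 326) (nat_lit 241)) (XT.lf (nat_lit 0) (nat_lit 5599811870) (nat_lit 152) (nat_lit 10723635046) (nat_lit 76) (nat_lit 15366200808) (nat_lit 32) (nat_lit 5) (nat_lit 34) (nat_lit 5) (nat_lit 33) (nat_lit 4) (nat_lit 454) (nat_lit 326) (nat_lit 240))))) (XT.nd (nat_lit 234) (nat_lit 228) (nat_lit 0) (XT.nd (nat_lit 78) (nat_lit 0) (nat_lit 0) (XT.lf (nat_lit 0) (nat_lit 3328773775) (nat_lit 76) (nat_lit 9220484437) (nat_lit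 152) (nat_lit 19866337234) (nat_lit 31) (nat_lit 5) (nat_lit 32) (nat_lit 5) (nat_lit 33) (nat_lit 4) (nat_lit 455) (nat_lit 326) (nat_lit 239)) (XT.nd (nat_lit 78) (nat_lit 0) (nat_lit 0) (XT.lf (nat_lit 0) (nat_lit 17965525866) (nat_lit 76) (nat_lit 1820243852) (nat_lit 152) (nat_lit 13375195782) (nat_lit 31) (nat_lit 5) (nat_lit 32) (nat_lit 5) (nat_lit 33) (nat_lit 4) (nat_lit 456) (nat_lit 326) (nat_lit 238)) (XT.lf (nat_lit 0) (nat_lit 27266053066) (nat_lit 152) (nat_lit 999091123) (nat_lit 0) (nat_lit 5662753484) (nat_lit 31) (nat_lit 5) (nat_lit 33) (nat_lit 4) (nat_lit 31) (nat_lit 4) (nat_lit 457) (nat_lit 326) (nat_lit 237)))) (XT.nd (nat_lit 156) (nat_lit 76) (nat_lit 0) (XT.nd (nat_lit 78) (nat_lit 0) (nat_lit 0) (XT.lf (nat_lit 0) (nat_lit 371809111) (nat_lit 152) (nat_lit 20897364778) (nat_lit 76) (nat_lit 13444877115) (nat_lit 29) (nat_lit 5) (nat_lit 31) (nat_lit 5) (nat_lit 30) (nat_lit 4) (nat_lit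 458) (nat_lit 326) (nat_lit 236)) (XT.lf (nat_lit 0) (nat_lit 7464543615) (nat_lit 152) (nat_lit 6546528970) (nat_lit 76) (nat_lit 21511279758) (nat_lit 29) (nat_lit 5) (nat_lit 31) (nat_lit 5) (nat_lit 30) (nat_lit 4) (nat_lit 459) (nat_lit 326) (nat_lit 235))) (XT.nd (nat_lit 78) (nat_lit 0) (nat_lit 0) (XT.lf (nat_lit 0) (nat_lit 8344853321) (nat_lit 76) (nat_lit 6478023545) (nat_lit 152) (nat_lit 21530442522) (nat_lit 28) (nat_lit 5) (nat_lit 29) (nat_lit 5) (nat_lit 30) (nat_lit 4) (nat_lit 460) (nat_lit 326) (nat_lit 234)) (XT.lf (nat_lit 0) (nat_lit 22453689656) (nat_lit 152) (nat_lit 13455897152) (nat_lit 0) (nat_lit 1298077884) (nat_lit 28) (nat_lit 5) (nat_lit 30) (nat_lit 4) (nat_lit 28) (nat_lit 4) (nat_lit 461) (nat_lit 326) (nat_lit 233)))))) (XT.nd (nat_lit 546) (nat_lit 380) (nat_lit 0) (XT.nd (nat_lit 234) (nat_lit 152) (nat_lit 0) (XT.nd (nat_lit 78) (nat_lit 76) (nat_lit 0) (XT.lf (nat_lit 0)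 (nat_lit 1445995512) (nat_lit 76) (nat_lit 28918920432) (nat_lit 76) (nat_lit 7721180837) (nat_lit 27) (nat_lit 4) (nat_lit 28) (nat_lit 5) (nat_lit 28) (nat_lit 4) (nat_lit 462) (nat_lit 326) (nat_lit 232)) (XT.nd (nat_lit 78) (nat_lit 76) (nat_lit 0) (XT.lf (nat_lit 0) (nat_lit 17019949850) (nat_lit 76) (nat_lit 21603142522) (nat_lit 76) (nat_lit 364502129) (nat_lit 27) (nat_lit 4) (nat_lit 28) (nat_lit 5) (nat_lit 28) (nat_lit 4) (nat_lit 463) (nat_lit 326) (nat_lit 231)) (XT.lf (nat_lit 0) (nat_lit 7046374409) (nat_lit 152) (nat_lit 6974209855) (nat_lit 76) (nat_lit 25894246460) (nat_lit 26) (nat_lit 5) (nat_lit 28) (nat_lit 5) (nat_lit 27) (nat_lit 4) (nat_lit 464) (nat_lit 326) (nat_lit 230)))) (XT.nd (nat_lit 156) (nat_lit 76) (nat_lit 0) (XT.nd (nat_lit 78) (nat_lit 0) (nat_lit 0) (XT.lf (nat_lit 0) (nat_lit 8584525391) (nat_lit 76) (nat_lit 6145242205) (nat_lit 152) (nat_lit 26138283651) (nat_lit 25) (nat_lit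 5) (nat_lit 26) (nat_lit 5) (nat_lit 27) (nat_lit 4) (nat_lit 465) (nat_lit 326) (nat_lit 229)) (XT.lf (nat_lit 0) (nat_lit 22708728823) (nat_lit 152) (nat_lit 17162821697) (nat_lit 0) (nat_lit 1976366828) (nat_lit 25) (nat_lit 5) (nat_lit 27) (nat_lit 4) (nat_lit 25) (nat_lit 4) (nat_lit 466) (nat_lit 326) (nat_lit 228))) (XT.nd (nat_lit 78) (nat_lit 76) (nat_lit 0) (XT.lf (nat_lit 0) (nat_lit 30963671079) (nat_lit 152) (nat_lit 1696383214) (nat_lit 0) (nat_lit 10196027696) (nat_lit 25) (nat_lit 5) (nat_lit 27) (nat_lit 4) (nat_lit 25) (nat_lit 4) (nat_lit 467) (nat_lit 326) (nat_lit 227)) (XT.lf (nat_lit 0) (nat_lit 14470752280) (nat_lit 76) (nat_lit 25111085035) (nat_lit 76) (nat_lit 4309187877) (nat_lit 24) (nat_lit 4) (nat_lit 25) (nat_lit 5) (nat_lit 25) (nat_lit 4) (nat_lit 468) (nat_lit 326) (nat_lit 226))))) (XT.nd (nat_lit 312) (nat_lit 228) (nat_lit 0) (XT.nd (nat_lit 156) (nat_lit 0) (nat_lit 0) (XT.nd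 (nat_lit 78) (nat_lit 76) (nat_lit 0) (XT.lf (nat_lit 0) (nat_lit 3426997280) (nat_lit 152) (nat_lit 13878348770) (nat_lit 76) (nat_lit 27650847932) (nat_lit 23) (nat_lit 5) (nat_lit 25) (nat_lit 5) (nat_lit 24) (nat_lit 4) (nat_lit 469) (nat_lit 326) (nat_lit 225)) (XT.lf (nat_lit 0) (nat_lit 2083461034) (nat_lit 76) (nat_lit 9222401897) (nat_lit 152) (nat_lit 34746259605) (nat_lit 22) (nat_lit 5) (nat_lit 23) (nat_lit 5) (nat_lit 24) (nat_lit 4) (nat_lit 470) (nat_lit 326) (nat_lit 224))) (XT.nd (nat_lit 78) (nat_lit 0) (nat_lit 0) (XT.lf (nat_lit 0) (nat_lit 18764689941) (nat_lit 76) (nat_lit 773969031) (nat_lit 152) (nat_lit 27638743837) (nat_lit 22) (nat_lit 5) (nat_lit 23) (nat_lit 5) (nat_lit 24) (nat_lit 4) (nat_lit 471) (nat_lit 326) (nat_lit 223)) (XT.lf (nat_lit 0) (nat_lit 28072525618) (nat_lit 152) (nat_lit 12509401250) (nat_lit 0) (nat_lit 7752892794) (nat_lit 22) (nat_lit 5) (nat_lit 24) (nat_lit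 4) (nat_lit 22) (nat_lit 4) (nat_lit 472) (nat_lit 326) (nat_lit 222)))) (XT.nd (nat_lit 156) (nat_lit 152) (nat_lit 0) (XT.nd (nat_lit 78) (nat_lit 0) (nat_lit 0) (XT.lf (nat_lit 0) (nat_lit 3897549966) (nat_lit 76) (nat_lit 32988510036) (nat_lit 76) (nat_lit 12640190215) (nat_lit 21) (nat_lit 4) (nat_lit 22) (nat_lit 5) (nat_lit 22) (nat_lit 4) (nat_lit 473) (nat_lit 326) (nat_lit 221)) (XT.lf (nat_lit 0) (nat_lit 21011698564) (nat_lit 76) (nat_lit 25057372503) (nat_lit 76) (nat_lit 4681201229) (nat_lit 21) (nat_lit 4) (nat_lit 22) (nat_lit 5) (nat_lit 22) (nat_lit 4) (nat_lit 474) (nat_lit 326) (nat_lit 220))) (XT.nd (nat_lit 78) (nat_lit 76) (nat_lit 0) (XT.lf (nat_lit 0) (nat_lit 3427100917) (nat_lit 152) (nat_lit 13446196657) (nat_lit 76) (nat_lit 35137329125) (nat_lit 20) (nat_lit 5) (nat_lit 22) (nat_lit 5) (nat_lit 21) (nat_lit 4) (nat_lit 475) (nat_lit 326) (nat_lit 219)) (XT.lf (nat_lit 0) (nat_lit 3313801445)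 (nat_lit 76) (nat_lit 8382388521) (nat_lit 152) (nat_lit 41610863219) (nat_lit 19) (nat_lit 5) (nat_lit 20) (nat_lit 5) (nat_lit 21) (nat_lit 4) (nat_lit 476) (nat_lit 326) (nat_lit 218))))))))
noncomputable def xc69 : XT := (XT.nd (nat_lit 45552) (nat_lit 0) (nat_lit 5776) (XT.nd (nat_lit 1092) (nat_lit 0) (nat_lit 0) (XT.nd (nat_lit 546) (nat_lit 228) (nat_lit 0) (XT.nd (nat_lit 234) (nat_lit 228) (nat_lit 0) (XT.nd (nat_lit 78) (nat_lit 0) (nat_lit 0) (XT.lf (nat_lit 0) (nat_lit 20333769377) (nat_lit 152) (nat_lit 33830398732) (nat_lit 0) (nat_lit 474592472) (nat_lit 19) (nat_lit 5) (nat_lit 21) (nat_lit 4) (nat_lit 19) (nat_lit 4) (nat_lit 477) (nat_lit 326) (nat_lit 217)) (XT.nd (nat_lit 78) (nat_lit 0) (nat_lit 0) (XT.lf (nat_lit 0) (nat_lit 29293859776) (nat_lit 152) (nat_lit 17304000579) (nat_lit 0) (nat_lit 9410657962) (nat_lit 19) (nat_lit 5) (nat_lit 21) (nat_lit 4) (nat_lit 19) (nat_lit 4) (nat_lit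 478) (nat_lit 326) (nat_lit 216)) (XT.lf (nat_lit 0) (nat_lit 38503713722) (nat_lit 152) (nat_lit 319040093) (nat_lit 0) (nat_lit 18597186755) (nat_lit 19) (nat_lit 5) (nat_lit 21) (nat_lit 4) (nat_lit 19) (nat_lit 4) (nat_lit 479) (nat_lit 326) (nat_lit 215)))) (XT.nd (nat_lit 156) (nat_lit 152) (nat_lit 0) (XT.nd (nat_lit 78) (nat_lit 0) (nat_lit 0) (XT.lf (nat_lit 0) (nat_lit 17480430105) (nat_lit 76) (nat_lit 30658981143) (nat_lit 76) (nat_lit 10729808396) (nat_lit 18) (nat_lit 4) (nat_lit 19) (nat_lit 5) (nat_lit 19) (nat_lit 4) (nat_lit 480) (nat_lit 326) (nat_lit 214)) (XT.lf (nat_lit 0) (nat_lit 35784633530) (nat_lit 76) (nat_lit 22264477567) (nat_lit 76) (nat_lit 2313318625) (nat_lit 18) (nat_lit 4) (nat_lit 19) (nat_lit 5) (nat_lit 19) (nat_lit 4) (nat_lit 481) (nat_lit 326) (nat_lit 213))) (XT.nd (nat_lit 78) (nat_lit 76) (nat_lit 0) (XT.lf (nat_lit 0) (nat_lit 6213709985) (nat_lit 152) (nat_lit 7358673491)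 (nat_lit 76) (nat_lit 48326758350) (nat_lit 17) (nat_lit 5) (nat_lit 19) (nat_lit 5) (nat_lit 18) (nat_lit 4) (nat_lit 482) (nat_lit 326) (nat_lit 212)) (XT.lf (nat_lit 0) (nat_lit 10525424289) (nat_lit 76) (nat_lit 4508394995) (nat_lit 152) (nat_lit 48444936452) (nat_lit 16) (nat_lit 5) (nat_lit 17) (nat_lit 5) (nat_lit 18) (nat_lit 4) (nat_lit 483) (nat_lit 326) (nat_lit 211))))) (XT.nd (nat_lit 234) (nat_lit 228) (nat_lit 0) (XT.nd (nat_lit 78) (nat_lit 0) (nat_lit 0) (XT.lf (nat_lit 0) (nat_lit 24222593108) (nat_lit 152) (nat_lit 36087886774) (nat_lit 0) (nat_lit 4792156855) (nat_lit 16) (nat_lit 5) (nat_lit 18) (nat_lit 4) (nat_lit 16) (nat_lit 4) (nat_lit 484) (nat_lit 326) (nat_lit 210)) (XT.nd (nat_lit 78) (nat_lit 0) (nat_lit 0) (XT.lf (nat_lit 0) (nat_lit 33714786496) (nat_lit 152) (nat_lit 18794230720) (nat_lit 0) (nat_lit 14265384758) (nat_lit 16) (nat_lit 5) (nat_lit 18) (nat_lit 4) (nat_lit 16) (nat_lit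 4) (nat_lit 485) (nat_lit 326) (nat_lit 209)) (XT.lf (nat_lit 0) (nat_lit 43475356146) (nat_lit 152) (nat_lit 1013914872) (nat_lit 0) (nat_lit 24007541316) (nat_lit 16) (nat_lit 5) (nat_lit 18) (nat_lit 4) (nat_lit 16) (nat_lit 4) (nat_lit 486) (nat_lit 326) (nat_lit 208)))) (XT.nd (nat_lit 156) (nat_lit 152) (nat_lit 0) (XT.nd (nat_lit 78) (nat_lit 0) (nat_lit 0) (XT.lf (nat_lit 0) (nat_lit 17612275905) (nat_lit 76) (nat_lit 36069854775) (nat_lit 76) (nat_lit 16584163157) (nat_lit 15) (nat_lit 4) (nat_lit 16) (nat_lit 5) (nat_lit 16) (nat_lit 4) (nat_lit 487) (nat_lit 326) (nat_lit 207)) (XT.lf (nat_lit 0) (nat_lit 36787129199) (nat_lit 76) (nat_lit 27402471991) (nat_lit 76) (nat_lit 7899424268) (nat_lit 15) (nat_lit 4) (nat_lit 16) (nat_lit 5) (nat_lit 16) (nat_lit 4) (nat_lit 488) (nat_lit 326) (nat_lit 206))) (XT.nd (nat_lit 78) (nat_lit 76) (nat_lit 0) (XT.lf (nat_lit 0) (nat_lit 1010009365) (nat_lit 152)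 (nat_lit 17469579298) (nat_lit 76) (nat_lit 55487012359) (nat_lit 14) (nat_lit 5) (nat_lit 16) (nat_lit 5) (nat_lit 15) (nat_lit 4) (nat_lit 489) (nat_lit 326) (nat_lit 205)) (XT.lf (nat_lit 0) (nat_lit 805786869) (nat_lit 76) (nat_lit 9214924940) (nat_lit 152) (nat_lit 65877663403) (nat_lit 13) (nat_lit 5) (nat_lit 14) (nat_lit 5) (nat_lit 15) (nat_lit 4) (nat_lit 490) (nat_lit 326) (nat_lit 204)))))) (XT.nd (nat_lit 43836) (nat_lit 0) (nat_lit 13224) (XT.nd (nat_lit 43524) (nat_lit 0) (nat_lit 16416) (XT.nd (nat_lit 43368) (nat_lit 0) (nat_lit 18468) (XT.lf (nat_lit 0) (nat_lit 19468069856) (nat_lit 152) (nat_lit 57929634834) (nat_lit 0) (nat_lit 485408304) (nat_lit 13) (nat_lit 5) (nat_lit 15) (nat_lit 4) (nat_lit 13) (nat_lit 4) (nat_lit 491) (nat_lit 326) (nat_lit 203)) (XT.nd (nat_lit 78) (nat_lit 0) (nat_lit 0) (XT.lf (nat_lit 0) (nat_lit 241313087) (nat_lit 1292) (nat_lit 3104745277) (nat_lit 0) (nat_lit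 241313087) (nat_lit 256) (nat_lit 5) (nat_lit 273) (nat_lit 4) (nat_lit 256) (nat_lit 4) (nat_lit 366) (nat_lit 327) (nat_lit 327)) (XT.lf (nat_lit 0) (nat_lit 3969430795) (nat_lit 1292) (nat_lit 939766712) (nat_lit 0) (nat_lit 2323601179) (nat_lit 256) (nat_lit 5) (nat_lit 273) (nat_lit 4) (nat_lit 256) (nat_lit 4) (nat_lit 367) (nat_lit 327) (nat_lit 326)))) (XT.nd (nat_lit 156) (nat_lit 684) (nat_lit 0) (XT.nd (nat_lit 78) (nat_lit 608) (nat_lit 0) (XT.lf (nat_lit 0) (nat_lit 205523291) (nat_lit 760) (nat_lit 2826510164) (nat_lit 76) (nat_lit 4262250436) (nat_lit 246) (nat_lit 5) (nat_lit 256) (nat_lit 5) (nat_lit 247) (nat_lit 4) (nat_lit 368) (nat_lit 327) (nat_lit 325)) (XT.lf (nat_lit 0) (nat_lit 2611635857) (nat_lit 608) (nat_lit 1036990037) (nat_lit 684) (nat_lit 3709985738) (nat_lit 238) (nat_lit 5) (nat_lit 246) (nat_lit 5) (nat_lit 247) (nat_lit 4) (nat_lit 369) (nat_lit 327) (nat_lit 324))) (XT.nd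 (nat_lit 78) (nat_lit 76) (nat_lit 0) (XT.lf (nat_lit 0) (nat_lit 743060625) (nat_lit 608) (nat_lit 6400549877) (nat_lit 608) (nat_lit 282839241) (nat_lit 230) (nat_lit 4) (nat_lit 238) (nat_lit 5) (nat_lit 238) (nat_lit 4) (nat_lit 370) (nat_lit 327) (nat_lit 323)) (XT.lf (nat_lit 0) (nat_lit 3146091541) (nat_lit 684) (nat_lit 1150851890) (nat_lit 76) (nat_lit 3199609190) (nat_lit 229) (nat_lit 5) (nat_lit 238) (nat_lit 5) (nat_lit 230) (nat_lit 4) (nat_lit 371) (nat_lit 327) (nat_lit 322))))) (XT.nd (nat_lit 312) (nat_lit 1520) (nat_lit 0) (XT.nd (nat_lit 156) (nat_lit 532) (nat_lit 0) (XT.nd (nat_lit 78) (nat_lit 608) (nat_lit 0) (XT.lf (nat_lit 0) (nat_lit 4527264237) (nat_lit 532) (nat_lit 2094922141) (nat_lit 608) (nat_lit 948023731) (nat_lit 222) (nat_lit 5) (nat_lit 229) (nat_lit 5) (nat_lit 230) (nat_lit 4) (nat_lit 372) (nat_lit 327) (nat_lit 321)) (XT.lf (nat_lit 0) (nat_lit 2453423436) (nat_lit 608)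 (nat_lit 4974874891) (nat_lit 76) (nat_lit 218670027) (nat_lit 214) (nat_lit 5) (nat_lit 222) (nat_lit 5) (nat_lit 215) (nat_lit 4) (nat_lit 373) (nat_lit 327) (nat_lit 320))) (XT.nd (nat_lit 78) (nat_lit 76) (nat_lit 0) (XT.lf (nat_lit 0) (nat_lit 772131325) (nat_lit 456) (nat_lit 5133704708) (nat_lit 532) (nat_lit 1820904427) (nat_lit 208) (nat_lit 5) (nat_lit 214) (nat_lit 5) (nat_lit 215) (nat_lit 4) (nat_lit 374) (nat_lit 327) (nat_lit 319)) (XT.lf (nat_lit 0) (nat_lit 1580883120) (nat_lit 532) (nat_lit 1139383465) (nat_lit 76) (nat_lit 5089385973) (nat_lit 207) (nat_lit 5) (nat_lit 214) (nat_lit 5) (nat_lit 208) (nat_lit 5) (nat_lit 375) (nat_lit 327) (nat_lit 318)))) (XT.nd (nat_lit 156) (nat_lit 456) (nat_lit 0) (XT.nd (nat_lit 78) (nat_lit 532) (nat_lit 0) (XT.lf (nat_lit 0) (nat_lit 4820385343) (nat_lit 532) (nat_lit 186201630) (nat_lit 608) (nat_lit 2889199633) (nat_lit 200) (nat_lit 5) (nat_lit 207)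 (nat_lit 5) (nat_lit 208) (nat_lit 5) (nat_lit 376) (nat_lit 327) (nat_lit 317)) (XT.lf (nat_lit 0) (nat_lit 516081485) (nat_lit 532) (nat_lit 5065848975) (nat_lit 76) (nat_lit 2403155020) (nat_lit 193) (nat_lit 5) (nat_lit 200) (nat_lit 5) (nat_lit 194) (nat_lit 5) (nat_lit 377) (nat_lit 327) (nat_lit 316))) (XT.nd (nat_lit 78) (nat_lit 0) (nat_lit 0) (XT.lf (nat_lit 0) (nat_lit 960579656) (nat_lit 456) (nat_lit 2961437557) (nat_lit 532) (nat_lit 4155517739) (nat_lit 187) (nat_lit 5) (nat_lit 193) (nat_lit 5) (nat_lit 194) (nat_lit 5) (nat_lit 378) (nat_lit 327) (nat_lit 315)) (XT.lf (nat_lit 0) (nat_lit 7164673043) (nat_lit 456) (nat_lit 232211969) (nat_lit 532) (nat_lit 776896290) (nat_lit 187) (nat_lit 5) (nat_lit 193) (nat_lit 5) (nat_lit 194) (nat_lit 5) (nat_lit 379) (nat_lit 327) (nat_lit 314))))))) (XT.nd (nat_lit 1092) (nat_lit 2964) (nat_lit 0) (XT.nd (nat_lit 546) (nat_lit 1824) (nat_lit 0) (XT.nd (nat_lit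 234) (nat_lit 1216) (nat_lit 0) (XT.nd (nat_lit 78) (nat_lit 912) (nat_lit 0) (XT.lf (nat_lit 0) (nat_lit 2643381075) (nat_lit 532) (nat_lit 3045491513) (nat_lit 76) (nat_lit 2583496141) (nat_lit 180) (nat_lit 5) (nat_lit 187) (nat_lit 5) (nat_lit 181) (nat_lit 5) (nat_lit 380) (nat_lit 327) (nat_lit 313)) (XT.nd (nat_lit 78) (nat_lit 456) (nat_lit 0) (XT.lf (nat_lit 0) (nat_lit 3243482452) (nat_lit 456) (nat_lit 2869343203) (nat_lit 532) (nat_lit 2262015960) (nat_lit 174) (nat_lit 5) (nat_lit 180) (nat_lit 5) (nat_lit 181) (nat_lit 5) (nat_lit 381) (nat_lit 327) (nat_lit 312)) (XT.lf (nat_lit 0) (nat_lit 1144674334) (nat_lit 456) (nat_lit 7273386787) (nat_lit 76) (nat_lit 63134968) (nat_lit 168) (nat_lit 5) (nat_lit 174) (nat_lit 5) (nat_lit 169) (nat_lit 5) (nat_lit 382) (nat_lit 327) (nat_lit 311)))) (XT.nd (nat_lit 156) (nat_lit 836) (nat_lit 0) (XT.nd (nat_lit 78) (nat_lit 380) (nat_lit 0) (XT.lf (nat_lit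 0) (nat_lit 4608872787) (nat_lit 456) (nat_lit 906596700) (nat_lit 76) (nat_lit 3074598460) (nat_lit 168) (nat_lit 5) (nat_lit 174) (nat_lit 5) (nat_lit 169) (nat_lit 5) (nat_lit 383) (nat_lit 327) (nat_lit 310)) (XT.lf (nat_lit 0) (nat_lit 5656297968) (nat_lit 380) (nat_lit 2497432856) (nat_lit 456) (nat_lit 549194280) (nat_lit 163) (nat_lit 5) (nat_lit 168) (nat_lit 5) (nat_lit 169) (nat_lit 5) (nat_lit 384) (nat_lit 327) (nat_lit 309))) (XT.nd (nat_lit 78) (nat_lit 380) (nat_lit 0) (XT.lf (nat_lit 0) (nat_lit 2900036023) (nat_lit 456) (nat_lit 5275189380) (nat_lit 76) (nat_lit 643925509) (nat_lit 157) (nat_lit 5) (nat_lit 163) (nat_lit 5) (nat_lit 158) (nat_lit 5) (nat_lit 385) (nat_lit 327) (nat_lit 308)) (XT.lf (nat_lit 0) (nat_lit 1345792663) (nat_lit 380) (nat_lit 5088453205) (nat_lit 456) (nat_lit 2504697630) (nat_lit 152) (nat_lit 5) (nat_lit 157) (nat_lit 5) (nat_lit 158) (nat_lit 5) (nat_lit 386) (nat_lit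 327) (nat_lit 307))))) (XT.nd (nat_lit 234) (nat_lit 1064) (nat_lit 0) (XT.nd (nat_lit 78) (nat_lit 684) (nat_lit 0) (XT.lf (nat_lit 0) (nat_lit 970447516) (nat_lit 456) (nat_lit 904706780) (nat_lit 76) (nat_lit 7187560546) (nat_lit 151) (nat_lit 5) (nat_lit 157) (nat_lit 5) (nat_lit 152) (nat_lit 5) (nat_lit 387) (nat_lit 327) (nat_lit 306)) (XT.nd (nat_lit 78) (nat_lit 380) (nat_lit 0) (XT.lf (nat_lit 0) (nat_lit 4497677029) (nat_lit 380) (nat_lit 3232274577) (nat_lit 76) (nat_lit 1459576308) (nat_lit 147) (nat_lit 5) (nat_lit 152) (nat_lit 5) (nat_lit 148) (nat_lit 5) (nat_lit 388) (nat_lit 327) (nat_lit 305)) (XT.lf (nat_lit 0) (nat_lit 3671731670) (nat_lit 380) (nat_lit 4449390295) (nat_lit 456) (nat_lit 1199328657) (nat_lit 142) (nat_lit 5) (nat_lit 147) (nat_lit 5) (nat_lit 148) (nat_lit 5) (nat_lit 389) (nat_lit 327) (nat_lit 304)))) (XT.nd (nat_lit 156) (nat_lit 684) (nat_lit 0) (XT.nd (nat_lit 78) (nat_lit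 0) (nat_lit 0) (XT.lf (nat_lit 0) (nat_lit 1291183657) (nat_lit 304) (nat_lit 1033071163) (nat_lit 380) (nat_lit 7131178522) (nat_lit 137) (nat_lit 5) (nat_lit 141) (nat_lit 5) (nat_lit 142) (nat_lit 5) (nat_lit 390) (nat_lit 327) (nat_lit 303)) (XT.lf (nat_lit 0) (nat_lit 5939427782) (nat_lit 380) (nat_lit 1180243021) (nat_lit 76) (nat_lit 2474154626) (nat_lit 137) (nat_lit 5) (nat_lit 142) (nat_lit 5) (nat_lit 138) (nat_lit 5) (nat_lit 391) (nat_lit 327) (nat_lit 302))) (XT.nd (nat_lit 78) (nat_lit 380) (nat_lit 0) (XT.lf (nat_lit 0) (nat_lit 6017337954) (nat_lit 304) (nat_lit 3644358756) (nat_lit 380) (nat_lit 74728628) (nat_lit 133) (nat_lit 5) (nat_lit 137) (nat_lit 5) (nat_lit 138) (nat_lit 5) (nat_lit 392) (nat_lit 327) (nat_lit 301)) (XT.lf (nat_lit 0) (nat_lit 3502075151) (nat_lit 304) (nat_lit 16384842) (nat_lit 380) (nat_lit 6364517362) (nat_lit 128) (nat_lit 5) (nat_lit 132) (nat_lit 5) (nat_lit 133)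 (nat_lit 5) (nat_lit 393) (nat_lit 327) (nat_lit 300)))))) (XT.nd (nat_lit 546) (nat_lit 1520) (nat_lit 0) (XT.nd (nat_lit 234) (nat_lit 836) (nat_lit 0) (XT.nd (nat_lit 78) (nat_lit 304) (nat_lit 0) (XT.lf (nat_lit 0) (nat_lit 858972693) (nat_lit 304) (nat_lit 6372531474) (nat_lit 380) (nat_lit 2802006699) (nat_lit 124) (nat_lit 5) (nat_lit 128) (nat_lit 5) (nat_lit 129) (nat_lit 5) (nat_lit 394) (nat_lit 327) (nat_lit 299)) (XT.nd (nat_lit 78) (nat_lit 228) (nat_lit 0) (XT.lf (nat_lit 0) (nat_lit 847622174) (nat_lit 380) (nat_lit 1853490397) (nat_lit 76) (nat_lit 7487295802) (nat_lit 123) (nat_lit 5) (nat_lit 128) (nat_lit 5) (nat_lit 124) (nat_lit 5) (nat_lit 395) (nat_lit 327) (nat_lit 298)) (XT.lf (nat_lit 0) (nat_lit 4549687504) (nat_lit 304) (nat_lit 4689806283) (nat_lit 76) (nat_lit 1107661583) (nat_lit 120) (nat_lit 5) (nat_lit 124) (nat_lit 5) (nat_lit 121) (nat_lit 5) (nat_lit 396) (nat_lit 327) (nat_lit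 297)))) (XT.nd (nat_lit 156) (nat_lit 456) (nat_lit 0) (XT.nd (nat_lit 78) (nat_lit 76) (nat_lit 0) (XT.lf (nat_lit 0) (nat_lit 2847892961) (nat_lit 304) (nat_lit 5522477524) (nat_lit 380) (nat_lit 2140080046) (nat_lit 116) (nat_lit 5) (nat_lit 120) (nat_lit 5) (nat_lit 121) (nat_lit 5) (nat_lit 397) (nat_lit 327) (nat_lit 296)) (XT.lf (nat_lit 0) (nat_lit 1577924981) (nat_lit 380) (nat_lit 87936422) (nat_lit 76) (nat_lit 9012846312) (nat_lit 115) (nat_lit 5) (nat_lit 120) (nat_lit 5) (nat_lit 116) (nat_lit 5) (nat_lit 398) (nat_lit 327) (nat_lit 295))) (XT.nd (nat_lit 78) (nat_lit 228) (nat_lit 0) (XT.lf (nat_lit 0) (nat_lit 5398386856) (nat_lit 304) (nat_lit 3129447318) (nat_lit 76) (nat_lit 2322536239) (nat_lit 112) (nat_lit 5) (nat_lit 116) (nat_lit 5) (nat_lit 113) (nat_lit 5) (nat_lit 399) (nat_lit 327) (nat_lit 294)) (XT.lf (nat_lit 0) (nat_lit 4714142937) (nat_lit 228) (nat_lit 4619291029) (nat_lit 304)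 (nat_lit 1693760924) (nat_lit 109) (nat_lit 5) (nat_lit 112) (nat_lit 5) (nat_lit 113) (nat_lit 5) (nat_lit 400) (nat_lit 327) (nat_lit 293))))) (XT.nd (nat_lit 312) (nat_lit 684) (nat_lit 0) (XT.nd (nat_lit 156) (nat_lit 532) (nat_lit 0) (XT.nd (nat_lit 78) (nat_lit 0) (nat_lit 0) (XT.lf (nat_lit 0) (nat_lit 1557657087) (nat_lit 228) (nat_lit 561471166) (nat_lit 304) (nat_lit 9090046244) (nat_lit 105) (nat_lit 5) (nat_lit 108) (nat_lit 5) (nat_lit 109) (nat_lit 5) (nat_lit 401) (nat_lit 327) (nat_lit 292)) (XT.lf (nat_lit 0) (nat_lit 6049541326) (nat_lit 304) (nat_lit 1753807523) (nat_lit 76) (nat_lit 3591656244) (nat_lit 105) (nat_lit 5) (nat_lit 109) (nat_lit 5) (nat_lit 106) (nat_lit 5) (nat_lit 402) (nat_lit 327) (nat_lit 291))) (XT.nd (nat_lit 78) (nat_lit 304) (nat_lit 0) (XT.lf (nat_lit 0) (nat_lit 6402318518) (nat_lit 228) (nat_lit 3702475909) (nat_lit 304) (nat_lit 1481418159) (nat_lit 102) (nat_lit 5)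 (nat_lit 105) (nat_lit 5) (nat_lit 106) (nat_lit 5) (nat_lit 403) (nat_lit 327) (nat_lit 290)) (XT.lf (nat_lit 0) (nat_lit 2441838834) (nat_lit 304) (nat_lit 8795663225) (nat_lit 76) (nat_lit 545181592) (nat_lit 98) (nat_lit 5) (nat_lit 102) (nat_lit 5) (nat_lit 99) (nat_lit 5) (nat_lit 404) (nat_lit 327) (nat_lit 289)))) (XT.nd (nat_lit 156) (nat_lit 456) (nat_lit 0) (XT.nd (nat_lit 78) (nat_lit 228) (nat_lit 0) (XT.lf (nat_lit 0) (nat_lit 6483038079) (nat_lit 304) (nat_lit 624581800) (nat_lit 76) (nat_lit 4876097333) (nat_lit 98) (nat_lit 5) (nat_lit 102) (nat_lit 5) (nat_lit 99) (nat_lit 5) (nat_lit 405) (nat_lit 327) (nat_lit 288)) (XT.lf (nat_lit 0) (nat_lit 7849080861) (nat_lit 228) (nat_lit 2814071684) (nat_lit 304) (nat_lit 1527107572) (nat_lit 95) (nat_lit 5) (nat_lit 98) (nat_lit 5) (nat_lit 99) (nat_lit 5) (nat_lit 406) (nat_lit 327) (nat_lit 287))) (XT.nd (nat_lit 78) (nat_lit 228) (nat_lit 0) (XT.lf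 (nat_lit 0) (nat_lit 2520061802) (nat_lit 228) (nat_lit 8271182922) (nat_lit 76) (nat_lit 1610889231) (nat_lit 92) (nat_lit 5) (nat_lit 95) (nat_lit 5) (nat_lit 93) (nat_lit 5) (nat_lit 407) (nat_lit 327) (nat_lit 286)) (XT.lf (nat_lit 0) (nat_lit 191165211) (nat_lit 228) (nat_lit 6483583571) (nat_lit 304) (nat_lit 5944665730) (nat_lit 89) (nat_lit 5) (nat_lit 92) (nat_lit 5) (nat_lit 93) (nat_lit 5) (nat_lit 408) (nat_lit 327) (nat_lit 285))))))))
noncomputable def xc70 : XT := (XT.nd (nat_lit 2262) (nat_lit 1824) (nat_lit 0) (XT.nd (nat_lit 1092) (nat_lit 1292) (nat_lit 0) (XT.nd (nat_lit 546) (nat_lit 912) (nat_lit 0) (XT.nd (nat_lit 234) (nat_lit 380) (nat_lit 0) (XT.nd (nat_lit 78) (nat_lit 456) (nat_lit 0) (XT.lf (nat_lit 0) (nat_lit 8981544024) (nat_lit 228) (nat_lit 1999628169) (nat_lit 304) (nat_lit 1861236159) (nat_lit 89) (nat_lit 5) (nat_lit 92) (nat_lit 5) (nat_lit 93) (nat_lit 5) (nat_lit 409) (nat_lit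 327) (nat_lit 284)) (XT.nd (nat_lit 78) (nat_lit 228) (nat_lit 0) (XT.lf (nat_lit 0) (nat_lit 2316630632) (nat_lit 228) (nat_lit 8153403192) (nat_lit 76) (nat_lit 2600858690) (nat_lit 86) (nat_lit 5) (nat_lit 89) (nat_lit 5) (nat_lit 87) (nat_lit 5) (nat_lit 410) (nat_lit 327) (nat_lit 283)) (XT.lf (nat_lit 0) (nat_lit 612535683) (nat_lit 228) (nat_lit 5979967574) (nat_lit 304) (nat_lit 6712879821) (nat_lit 83) (nat_lit 5) (nat_lit 86) (nat_lit 5) (nat_lit 87) (nat_lit 5) (nat_lit 411) (nat_lit 327) (nat_lit 282)))) (XT.nd (nat_lit 156) (nat_lit 152) (nat_lit 0) (XT.nd (nat_lit 78) (nat_lit 228) (nat_lit 0) (XT.lf (nat_lit 0) (nat_lit 9715431223) (nat_lit 228) (nat_lit 1309279405) (nat_lit 304) (nat_lit 2521362855) (nat_lit 83) (nat_lit 5) (nat_lit 86) (nat_lit 5) (nat_lit 87) (nat_lit 5) (nat_lit 412) (nat_lit 327) (nat_lit 281)) (XT.lf (nat_lit 0) (nat_lit 1792467416) (nat_lit 228) (nat_lit 8535589636) (nat_lit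 76) (nat_lit 3464467765) (nat_lit 80) (nat_lit 5) (nat_lit 83) (nat_lit 5) (nat_lit 81) (nat_lit 5) (nat_lit 413) (nat_lit 327) (nat_lit 280))) (XT.nd (nat_lit 78) (nat_lit 0) (nat_lit 0) (XT.lf (nat_lit 0) (nat_lit 530670159) (nat_lit 152) (nat_lit 5658585699) (nat_lit 228) (nat_lit 7856244604) (nat_lit 78) (nat_lit 5) (nat_lit 80) (nat_lit 5) (nat_lit 81) (nat_lit 5) (nat_lit 414) (nat_lit 327) (nat_lit 279)) (XT.lf (nat_lit 0) (nat_lit 9952959153) (nat_lit 152) (nat_lit 798939394) (nat_lit 228) (nat_lit 3553154425) (nat_lit 78) (nat_lit 5) (nat_lit 80) (nat_lit 5) (nat_lit 81) (nat_lit 5) (nat_lit 415) (nat_lit 327) (nat_lit 278))))) (XT.nd (nat_lit 234) (nat_lit 532) (nat_lit 0) (XT.nd (nat_lit 78) (nat_lit 152) (nat_lit 0) (XT.lf (nat_lit 0) (nat_lit 900183825) (nat_lit 228) (nat_lit 9525816709) (nat_lit 76) (nat_lit 4144994541) (nat_lit 75) (nat_lit 5) (nat_lit 78) (nat_lit 5) (nat_lit 76) (nat_lit 5) (nat_lit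 416) (nat_lit 327) (nat_lit 277)) (XT.nd (nat_lit 78) (nat_lit 152) (nat_lit 0) (XT.lf (nat_lit 0) (nat_lit 5417050107) (nat_lit 228) (nat_lit 163130330) (nat_lit 76) (nat_lit 9263644922) (nat_lit 75) (nat_lit 5) (nat_lit 78) (nat_lit 5) (nat_lit 76) (nat_lit 5) (nat_lit 417) (nat_lit 327) (nat_lit 276)) (XT.lf (nat_lit 0) (nat_lit 9580403727) (nat_lit 152) (nat_lit 531645079) (nat_lit 228) (nat_lit 5011518382) (nat_lit 73) (nat_lit 5) (nat_lit 75) (nat_lit 5) (nat_lit 76) (nat_lit 5) (nat_lit 418) (nat_lit 327) (nat_lit 275)))) (XT.nd (nat_lit 156) (nat_lit 304) (nat_lit 0) (XT.nd (nat_lit 78) (nat_lit 76) (nat_lit 0) (XT.lf (nat_lit 0) (nat_lit 4156920230) (nat_lit 152) (nat_lit 10828262970) (nat_lit 228) (nat_lit 425404774) (nat_lit 71) (nat_lit 5) (nat_lit 73) (nat_lit 5) (nat_lit 74) (nat_lit 4) (nat_lit 419) (nat_lit 327) (nat_lit 274)) (XT.lf (nat_lit 0) (nat_lit 4227115113) (nat_lit 228) (nat_lit 1577407780)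 (nat_lit 76) (nat_lit 9900080985) (nat_lit 70) (nat_lit 5) (nat_lit 73) (nat_lit 5) (nat_lit 71) (nat_lit 5) (nat_lit 420) (nat_lit 327) (nat_lit 273))) (XT.nd (nat_lit 78) (nat_lit 152) (nat_lit 0) (XT.lf (nat_lit 0) (nat_lit 8465293447) (nat_lit 152) (nat_lit 579075399) (nat_lit 228) (nat_lit 6961938625) (nat_lit 68) (nat_lit 5) (nat_lit 70) (nat_lit 5) (nat_lit 71) (nat_lit 5) (nat_lit 421) (nat_lit 327) (nat_lit 272)) (XT.lf (nat_lit 0) (nat_lit 2441282732) (nat_lit 152) (nat_lit 11603142714) (nat_lit 228) (nat_lit 2271492854) (nat_lit 66) (nat_lit 5) (nat_lit 68) (nat_lit 5) (nat_lit 69) (nat_lit 4) (nat_lit 422) (nat_lit 327) (nat_lit 271)))))) (XT.nd (nat_lit 546) (nat_lit 608) (nat_lit 0) (XT.nd (nat_lit 234) (nat_lit 456) (nat_lit 0) (XT.nd (nat_lit 78) (nat_lit 152) (nat_lit 0) (XT.lf (nat_lit 0) (nat_lit 2545019505) (nat_lit 228) (nat_lit 3871160068) (nat_lit 76) (nat_lit 10216845099) (nat_lit 65) (nat_lit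 5) (nat_lit 68) (nat_lit 5) (nat_lit 66) (nat_lit 5) (nat_lit 423) (nat_lit 327) (nat_lit 270)) (XT.nd (nat_lit 78) (nat_lit 0) (nat_lit 0) (XT.lf (nat_lit 0) (nat_lit 6453168370) (nat_lit 152) (nat_lit 1023279303) (nat_lit 228) (nat_lit 9482043892) (nat_lit 63) (nat_lit 5) (nat_lit 65) (nat_lit 5) (nat_lit 66) (nat_lit 5) (nat_lit 424) (nat_lit 327) (nat_lit 269)) (XT.lf (nat_lit 0) (nat_lit 12593099846) (nat_lit 228) (nat_lit 252804742) (nat_lit 76) (nat_lit 4446703604) (nat_lit 63) (nat_lit 5) (nat_lit 66) (nat_lit 5) (nat_lit 64) (nat_lit 4) (nat_lit 425) (nat_lit 327) (nat_lit 268)))) (XT.nd (nat_lit 156) (nat_lit 76) (nat_lit 0) (XT.nd (nat_lit 78) (nat_lit 152) (nat_lit 0) (XT.lf (nat_lit 0) (nat_lit 288603642) (nat_lit 228) (nat_lit 7217592525) (nat_lit 76) (nat_lit 10128495147) (nat_lit 60) (nat_lit 5) (nat_lit 63) (nat_lit 5) (nat_lit 61) (nat_lit 5) (nat_lit 426) (nat_lit 327) (nat_lit 267)) (XT.lf (nat_lit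 0) (nat_lit 3363832966) (nat_lit 152) (nat_lit 1958650320) (nat_lit 228) (nat_lit 12663444168) (nat_lit 58) (nat_lit 5) (nat_lit 60) (nat_lit 5) (nat_lit 61) (nat_lit 5) (nat_lit 427) (nat_lit 327) (nat_lit 266))) (XT.nd (nat_lit 78) (nat_lit 76) (nat_lit 0) (XT.lf (nat_lit 0) (nat_lit 10572927881) (nat_lit 228) (nat_lit 4052435474) (nat_lit 76) (nat_lit 3720374563) (nat_lit 58) (nat_lit 5) (nat_lit 61) (nat_lit 5) (nat_lit 59) (nat_lit 4) (nat_lit 428) (nat_lit 327) (nat_lit 265)) (XT.lf (nat_lit 0) (nat_lit 6870586717) (nat_lit 76) (nat_lit 9152866985) (nat_lit 152) (nat_lit 2691615549) (nat_lit 57) (nat_lit 5) (nat_lit 58) (nat_lit 5) (nat_lit 59) (nat_lit 4) (nat_lit 429) (nat_lit 327) (nat_lit 264))))) (XT.nd (nat_lit 312) (nat_lit 304) (nat_lit 0) (XT.nd (nat_lit 156) (nat_lit 76) (nat_lit 0) (XT.nd (nat_lit 78) (nat_lit 152) (nat_lit 0) (XT.lf (nat_lit 0) (nat_lit 2490948199) (nat_lit 152) (nat_lit 993213132)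 (nat_lit 76) (nat_lit 15610633394) (nat_lit 56) (nat_lit 5) (nat_lit 58) (nat_lit 5) (nat_lit 57) (nat_lit 5) (nat_lit 430) (nat_lit 327) (nat_lit 263)) (XT.lf (nat_lit 0) (nat_lit 7855720720) (nat_lit 228) (nat_lit 9225573148) (nat_lit 76) (nat_lit 2401396974) (nat_lit 54) (nat_lit 5) (nat_lit 57) (nat_lit 5) (nat_lit 55) (nat_lit 4) (nat_lit 431) (nat_lit 327) (nat_lit 262))) (XT.nd (nat_lit 78) (nat_lit 0) (nat_lit 0) (XT.lf (nat_lit 0) (nat_lit 1909703338) (nat_lit 76) (nat_lit 11493326537) (nat_lit 152) (nat_lit 6478549352) (nat_lit 53) (nat_lit 5) (nat_lit 54) (nat_lit 5) (nat_lit 55) (nat_lit 4) (nat_lit 432) (nat_lit 327) (nat_lit 261)) (XT.lf (nat_lit 0) (nat_lit 13492540675) (nat_lit 76) (nat_lit 5676467274) (nat_lit 152) (nat_lit 1121861923) (nat_lit 53) (nat_lit 5) (nat_lit 54) (nat_lit 5) (nat_lit 55) (nat_lit 4) (nat_lit 433) (nat_lit 327) (nat_lit 260)))) (XT.nd (nat_lit 156) (nat_lit 76) (nat_lit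 0) (XT.nd (nat_lit 78) (nat_lit 0) (nat_lit 0) (XT.lf (nat_lit 0) (nat_lit 4318240717) (nat_lit 228) (nat_lit 16029201791) (nat_lit 76) (nat_lit 363477459) (nat_lit 50) (nat_lit 5) (nat_lit 53) (nat_lit 5) (nat_lit 51) (nat_lit 4) (nat_lit 434) (nat_lit 327) (nat_lit 259)) (XT.lf (nat_lit 0) (nat_lit 9984551901) (nat_lit 228) (nat_lit 4638327195) (nat_lit 76) (nat_lit 6517795464) (nat_lit 50) (nat_lit 5) (nat_lit 53) (nat_lit 5) (nat_lit 51) (nat_lit 4) (nat_lit 435) (nat_lit 327) (nat_lit 258))) (XT.nd (nat_lit 78) (nat_lit 0) (nat_lit 0) (XT.lf (nat_lit 0) (nat_lit 7161841238) (nat_lit 76) (nat_lit 8689041235) (nat_lit 152) (nat_lit 5731541167) (nat_lit 49) (nat_lit 5) (nat_lit 50) (nat_lit 5) (nat_lit 51) (nat_lit 4) (nat_lit 436) (nat_lit 327) (nat_lit 257)) (XT.lf (nat_lit 0) (nat_lit 19339617869) (nat_lit 76) (nat_lit 2562052570) (nat_lit 152) (nat_lit 135503400) (nat_lit 49) (nat_lit 5) (nat_lit 50) (nat_lit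 5) (nat_lit 51) (nat_lit 4) (nat_lit 437) (nat_lit 327) (nat_lit 256))))))) (XT.nd (nat_lit 1092) (nat_lit 760) (nat_lit 0) (XT.nd (nat_lit 546) (nat_lit 456) (nat_lit 0) (XT.nd (nat_lit 234) (nat_lit 304) (nat_lit 0) (XT.nd (nat_lit 78) (nat_lit 76) (nat_lit 0) (XT.lf (nat_lit 0) (nat_lit 5608831767) (nat_lit 228) (nat_lit 13102448605) (nat_lit 76) (nat_lit 3789958171) (nat_lit 46) (nat_lit 5) (nat_lit 49) (nat_lit 5) (nat_lit 47) (nat_lit 4) (nat_lit 438) (nat_lit 327) (nat_lit 255)) (XT.nd (nat_lit 78) (nat_lit 76) (nat_lit 0) (XT.lf (nat_lit 0) (nat_lit 11538143791) (nat_lit 228) (nat_lit 1162330606) (nat_lit 76) (nat_lit 10278251878) (nat_lit 46) (nat_lit 5) (nat_lit 49) (nat_lit 5) (nat_lit 47) (nat_lit 4) (nat_lit 439) (nat_lit 327) (nat_lit 254)) (XT.lf (nat_lit 0) (nat_lit 11288039967) (nat_lit 76) (nat_lit 6429388869) (nat_lit 152) (nat_lit 5750949367) (nat_lit 45) (nat_lit 5) (nat_lit 46) (nat_lit 5)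 (nat_lit 47) (nat_lit 4) (nat_lit 440) (nat_lit 327) (nat_lit 253)))) (XT.nd (nat_lit 156) (nat_lit 76) (nat_lit 0) (XT.nd (nat_lit 78) (nat_lit 0) (nat_lit 0) (XT.lf (nat_lit 0) (nat_lit 83768345) (nat_lit 228) (nat_lit 23877710517) (nat_lit 76) (nat_lit 11915628) (nat_lit 42) (nat_lit 5) (nat_lit 45) (nat_lit 5) (nat_lit 43) (nat_lit 4) (nat_lit 441) (nat_lit 327) (nat_lit 252)) (XT.lf (nat_lit 0) (nat_lit 6129555349) (nat_lit 228) (nat_lit 11690400086) (nat_lit 76) (nat_lit 6667351315) (nat_lit 42) (nat_lit 5) (nat_lit 45) (nat_lit 5) (nat_lit 43) (nat_lit 4) (nat_lit 442) (nat_lit 327) (nat_lit 251))) (XT.nd (nat_lit 78) (nat_lit 0) (nat_lit 0) (XT.lf (nat_lit 0) (nat_lit 811980749) (nat_lit 76) (nat_lit 11517339988) (nat_lit 152) (nat_lit 12688139607) (nat_lit 41) (nat_lit 5) (nat_lit 42) (nat_lit 5) (nat_lit 43) (nat_lit 4) (nat_lit 443) (nat_lit 327) (nat_lit 250)) (XT.lf (nat_lit 0) (nat_lit 13863332092)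 (nat_lit 76) (nat_lit 4934989929) (nat_lit 152) (nat_lit 6762701284) (nat_lit 41) (nat_lit 5) (nat_lit 42) (nat_lit 5) (nat_lit 43) (nat_lit 4) (nat_lit 444) (nat_lit 327) (nat_lit 249))))) (XT.nd (nat_lit 234) (nat_lit 152) (nat_lit 0) (XT.nd (nat_lit 78) (nat_lit 152) (nat_lit 0) (XT.lf (nat_lit 0) (nat_lit 1124994978) (nat_lit 152) (nat_lit 24330864055) (nat_lit 152) (nat_lit 665202141) (nat_lit 39) (nat_lit 4) (nat_lit 41) (nat_lit 5) (nat_lit 41) (nat_lit 4) (nat_lit 445) (nat_lit 327) (nat_lit 248)) (XT.nd (nat_lit 78) (nat_lit 76) (nat_lit 0) (XT.lf (nat_lit 0) (nat_lit 5639763882) (nat_lit 228) (nat_lit 12290812623) (nat_lit 76) (nat_lit 8761682783) (nat_lit 38) (nat_lit 5) (nat_lit 41) (nat_lit 5) (nat_lit 39) (nat_lit 4) (nat_lit 446) (nat_lit 327) (nat_lit 247)) (XT.lf (nat_lit 0) (nat_lit 740747298) (nat_lit 76) (nat_lit 11353834180) (nat_lit 152) (nat_lit 15186593929) (nat_lit 37) (nat_lit 5) (nat_lit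 38) (nat_lit 5) (nat_lit 39) (nat_lit 4) (nat_lit 447) (nat_lit 327) (nat_lit 246)))) (XT.nd (nat_lit 156) (nat_lit 152) (nat_lit 0) (XT.nd (nat_lit 78) (nat_lit 0) (nat_lit 0) (XT.lf (nat_lit 0) (nat_lit 14353098779) (nat_lit 76) (nat_lit 4481375483) (nat_lit 152) (nat_lit 9050543593) (nat_lit 37) (nat_lit 5) (nat_lit 38) (nat_lit 5) (nat_lit 39) (nat_lit 4) (nat_lit 448) (nat_lit 327) (nat_lit 245)) (XT.lf (nat_lit 0) (nat_lit 25769525134) (nat_lit 152) (nat_lit 219096206) (nat_lit 0) (nat_lit 2518567113) (nat_lit 37) (nat_lit 5) (nat_lit 39) (nat_lit 4) (nat_lit 37) (nat_lit 4) (nat_lit 449) (nat_lit 327) (nat_lit 244))) (XT.nd (nat_lit 78) (nat_lit 0) (nat_lit 0) (XT.lf (nat_lit 0) (nat_lit 3837139262) (nat_lit 152) (nat_lit 15525287430) (nat_lit 76) (nat_lit 9780133557) (nat_lit 35) (nat_lit 5) (nat_lit 37) (nat_lit 5) (nat_lit 36) (nat_lit 4) (nat_lit 450) (nat_lit 327) (nat_lit 243)) (XT.lf (nat_lit 0) (nat_lit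 10525358717) (nat_lit 152) (nat_lit 2010068062) (nat_lit 76) (nat_lit 17261618907) (nat_lit 35) (nat_lit 5) (nat_lit 37) (nat_lit 5) (nat_lit 36) (nat_lit 4) (nat_lit 451) (nat_lit 327) (nat_lit 242)))))) (XT.nd (nat_lit 546) (nat_lit 380) (nat_lit 0) (XT.nd (nat_lit 234) (nat_lit 152) (nat_lit 0) (XT.nd (nat_lit 78) (nat_lit 152) (nat_lit 0) (XT.lf (nat_lit 0) (nat_lit 12088995174) (nat_lit 76) (nat_lit 5411303168) (nat_lit 152) (nat_lit 12968286661) (nat_lit 34) (nat_lit 5) (nat_lit 35) (nat_lit 5) (nat_lit 36) (nat_lit 4) (nat_lit 452) (nat_lit 327) (nat_lit 241)) (XT.nd (nat_lit 78) (nat_lit 152) (nat_lit 0) (XT.lf (nat_lit 0) (nat_lit 24693440058) (nat_lit 152) (nat_lit 4583730254) (nat_lit 0) (nat_lit 1882833049) (nat_lit 34) (nat_lit 5) (nat_lit 36) (nat_lit 4) (nat_lit 34) (nat_lit 4) (nat_lit 453) (nat_lit 327) (nat_lit 240)) (XT.lf (nat_lit 0) (nat_lit 344571523) (nat_lit 152) (nat_lit 22166094068) (nat_lit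 76) (nat_lit 9357868125) (nat_lit 32) (nat_lit 5) (nat_lit 34) (nat_lit 5) (nat_lit 33) (nat_lit 4) (nat_lit 454) (nat_lit 327) (nat_lit 239)))) (XT.nd (nat_lit 156) (nat_lit 76) (nat_lit 0) (XT.nd (nat_lit 78) (nat_lit 76) (nat_lit 0) (XT.lf (nat_lit 0) (nat_lit 7247656362) (nat_lit 152) (nat_lit 8206198110) (nat_lit 76) (nat_lit 17142018477) (nat_lit 32) (nat_lit 5) (nat_lit 34) (nat_lit 5) (nat_lit 33) (nat_lit 4) (nat_lit 455) (nat_lit 327) (nat_lit 238)) (XT.lf (nat_lit 0) (nat_lit 6239948211) (nat_lit 76) (nat_lit 8149559496) (nat_lit 152) (nat_lit 18954575748) (nat_lit 31) (nat_lit 5) (nat_lit 32) (nat_lit 5) (nat_lit 33) (nat_lit 4) (nat_lit 456) (nat_lit 327) (nat_lit 237))) (XT.nd (nat_lit 78) (nat_lit 76) (nat_lit 0) (XT.lf (nat_lit 0) (nat_lit 21233920014) (nat_lit 76) (nat_lit 566560415) (nat_lit 152) (nat_lit 12312615147) (nat_lit 31) (nat_lit 5) (nat_lit 32) (nat_lit 5) (nat_lit 33) (nat_lit 4) (nat_lit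 457) (nat_lit 327) (nat_lit 236)) (XT.lf (nat_lit 0) (nat_lit 1682952499) (nat_lit 76) (nat_lit 27809214786) (nat_lit 76) (nat_lit 5411260466) (nat_lit 30) (nat_lit 4) (nat_lit 31) (nat_lit 5) (nat_lit 31) (nat_lit 4) (nat_lit 458) (nat_lit 327) (nat_lit 235))))) (XT.nd (nat_lit 312) (nat_lit 228) (nat_lit 0) (XT.nd (nat_lit 156) (nat_lit 76) (nat_lit 0) (XT.nd (nat_lit 78) (nat_lit 0) (nat_lit 0) (XT.lf (nat_lit 0) (nat_lit 1773570115) (nat_lit 152) (nat_lit 18843641194) (nat_lit 76) (nat_lit 15096483759) (nat_lit 29) (nat_lit 5) (nat_lit 31) (nat_lit 5) (nat_lit 30) (nat_lit 4) (nat_lit 459) (nat_lit 327) (nat_lit 234)) (XT.lf (nat_lit 0) (nat_lit 9038583546) (nat_lit 152) (nat_lit 4140357336) (nat_lit 76) (nat_lit 23368521384) (nat_lit 29) (nat_lit 5) (nat_lit 31) (nat_lit 5) (nat_lit 30) (nat_lit 4) (nat_lit 460) (nat_lit 327) (nat_lit 233))) (XT.nd (nat_lit 78) (nat_lit 0) (nat_lit 0) (XT.lf (nat_lit 0) (nat_lit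 11172251055) (nat_lit 76) (nat_lit 5430864534) (nat_lit 152) (nat_lit 20800680945) (nat_lit 28) (nat_lit 5) (nat_lit 29) (nat_lit 5) (nat_lit 30) (nat_lit 4) (nat_lit 461) (nat_lit 327) (nat_lit 232)) (XT.lf (nat_lit 0) (nat_lit 24435539638) (nat_lit 152) (nat_lit 11330214343) (nat_lit 0) (nat_lit 2518839236) (nat_lit 28) (nat_lit 5) (nat_lit 30) (nat_lit 4) (nat_lit 28) (nat_lit 4) (nat_lit 462) (nat_lit 327) (nat_lit 231)))) (XT.nd (nat_lit 156) (nat_lit 76) (nat_lit 0) (XT.nd (nat_lit 78) (nat_lit 76) (nat_lit 0) (XT.lf (nat_lit 0) (nat_lit 3993937456) (nat_lit 76) (nat_lit 28576136585) (nat_lit 76) (nat_lit 6619726669) (nat_lit 27) (nat_lit 4) (nat_lit 28) (nat_lit 5) (nat_lit 28) (nat_lit 4) (nat_lit 463) (nat_lit 327) (nat_lit 230)) (XT.lf (nat_lit 0) (nat_lit 900894970) (nat_lit 152) (nat_lit 20166146049) (nat_lit 76) (nat_lit 19052169771) (nat_lit 26) (nat_lit 5) (nat_lit 28) (nat_lit 5) (nat_lit 27) (nat_lit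 4) (nat_lit 464) (nat_lit 327) (nat_lit 229))) (XT.nd (nat_lit 78) (nat_lit 76) (nat_lit 0) (XT.lf (nat_lit 0) (nat_lit 8489810333) (nat_lit 152) (nat_lit 4798077888) (nat_lit 76) (nat_lit 27787377896) (nat_lit 26) (nat_lit 5) (nat_lit 28) (nat_lit 5) (nat_lit 27) (nat_lit 4) (nat_lit 465) (nat_lit 327) (nat_lit 228)) (XT.lf (nat_lit 0) (nat_lit 11204033550) (nat_lit 76) (nat_lit 5186491693) (nat_lit 152) (nat_lit 25666954819) (nat_lit 25) (nat_lit 5) (nat_lit 26) (nat_lit 5) (nat_lit 27) (nat_lit 4) (nat_lit 466) (nat_lit 327) (nat_lit 227))))))))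
noncomputable def xc71 : XT := (XT.nd (nat_lit 45396) (nat_lit 0) (nat_lit 8132) (XT.nd (nat_lit 1092) (nat_lit 380) (nat_lit 0) (XT.nd (nat_lit 546) (nat_lit 304) (nat_lit 0) (XT.nd (nat_lit 234) (nat_lit 152) (nat_lit 0) (XT.nd (nat_lit 78) (nat_lit 76) (nat_lit 0) (XT.lf (nat_lit 0) (nat_lit 24584022601) (nat_lit 152) (nat_lit 15359651136) (nat_lit 0) (nat_lit 3123814753) (nat_lit 25) (nat_lit 5) (nat_lit 27) (nat_lit 4) (nat_lit 25) (nat_lit 4) (nat_lit 467) (nat_lit 327) (nat_lit 226)) (XT.nd (nat_lit 78) (nat_lit 0) (nat_lit 0) (XT.lf (nat_lit 0) (nat_lit 513280276) (nat_lit 76) (nat_lit 32543489183) (nat_lit 76) (nat_lit 11050025244) (nat_lit 24) (nat_lit 4) (nat_lit 25) (nat_lit 5) (nat_lit 25) (nat_lit 4) (nat_lit 468) (nat_lit 327) (nat_lit 225)) (XT.lf (nat_lit 0) (nat_lit 17133349781) (nat_lit 76) (nat_lit 24782853714) (nat_lit 76) (nat_lit 3257102307) (nat_lit 24) (nat_lit 4) (nat_lit 25) (nat_lit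 5) (nat_lit 25) (nat_lit 4) (nat_lit 469) (nat_lit 327) (nat_lit 224)))) (XT.nd (nat_lit 156) (nat_lit 0) (nat_lit 0) (XT.nd (nat_lit 78) (nat_lit 76) (nat_lit 0) (XT.lf (nat_lit 0) (nat_lit 4654378649) (nat_lit 152) (nat_lit 12108709804) (nat_lit 76) (nat_lit 29508013848) (nat_lit 23) (nat_lit 5) (nat_lit 25) (nat_lit 5) (nat_lit 24) (nat_lit 4) (nat_lit 470) (nat_lit 327) (nat_lit 223)) (XT.lf (nat_lit 0) (nat_lit 4310523025) (nat_lit 76) (nat_lit 8447139793) (nat_lit 152) (nat_lit 34642605492) (nat_lit 22) (nat_lit 5) (nat_lit 23) (nat_lit 5) (nat_lit 24) (nat_lit 4) (nat_lit 471) (nat_lit 327) (nat_lit 222))) (XT.nd (nat_lit 78) (nat_lit 0) (nat_lit 0) (XT.lf (nat_lit 0) (nat_lit 21207190473) (nat_lit 152) (nat_lit 27133291170) (nat_lit 0) (nat_lit 219734060) (nat_lit 22) (nat_lit 5) (nat_lit 24) (nat_lit 4) (nat_lit 22) (nat_lit 4) (nat_lit 472) (nat_lit 327) (nat_lit 221)) (XT.lf (nat_lit 0) (nat_lit 29972987591)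 (nat_lit 152) (nat_lit 10822411418) (nat_lit 0) (nat_lit 8957679725) (nat_lit 22) (nat_lit 5) (nat_lit 24) (nat_lit 4) (nat_lit 22) (nat_lit 4) (nat_lit 473) (nat_lit 327) (nat_lit 220))))) (XT.nd (nat_lit 234) (nat_lit 152) (nat_lit 0) (XT.nd (nat_lit 78) (nat_lit 76) (nat_lit 0) (XT.lf (nat_lit 0) (nat_lit 6056529982) (nat_lit 76) (nat_lit 32983203622) (nat_lit 76) (nat_lit 11940855509) (nat_lit 21) (nat_lit 4) (nat_lit 22) (nat_lit 5) (nat_lit 22) (nat_lit 4) (nat_lit 474) (nat_lit 327) (nat_lit 219)) (XT.nd (nat_lit 78) (nat_lit 76) (nat_lit 0) (XT.lf (nat_lit 0) (nat_lit 23624625752) (nat_lit 76) (nat_lit 24843111430) (nat_lit 76) (nat_lit 3774510652) (nat_lit 21) (nat_lit 4) (nat_lit 22) (nat_lit 5) (nat_lit 22) (nat_lit 4) (nat_lit 475) (nat_lit 327) (nat_lit 218)) (XT.lf (nat_lit 0) (nat_lit 4526703655) (nat_lit 152) (nat_lit 11904880382) (nat_lit 76) (nat_lit 37109424959) (nat_lit 20) (nat_lit 5) (nat_lit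 22) (nat_lit 5) (nat_lit 21) (nat_lit 4) (nat_lit 476) (nat_lit 327) (nat_lit 217)))) (XT.nd (nat_lit 156) (nat_lit 76) (nat_lit 0) (XT.nd (nat_lit 78) (nat_lit 0) (nat_lit 0) (XT.lf (nat_lit 0) (nat_lit 5338851956) (nat_lit 76) (nat_lit 7694491105) (nat_lit 152) (nat_lit 41843301840) (nat_lit 19) (nat_lit 5) (nat_lit 20) (nat_lit 5) (nat_lit 21) (nat_lit 4) (nat_lit 477) (nat_lit 327) (nat_lit 216)) (XT.lf (nat_lit 0) (nat_lit 21910090406) (nat_lit 152) (nat_lit 32955770347) (nat_lit 0) (nat_lit 1383042476) (nat_lit 19) (nat_lit 5) (nat_lit 21) (nat_lit 4) (nat_lit 19) (nat_lit 4) (nat_lit 478) (nat_lit 327) (nat_lit 215))) (XT.nd (nat_lit 78) (nat_lit 76) (nat_lit 0) (XT.lf (nat_lit 0) (nat_lit 31110838625) (nat_lit 152) (nat_lit 15988615406) (nat_lit 0) (nat_lit 10561144915) (nat_lit 19) (nat_lit 5) (nat_lit 21) (nat_lit 4) (nat_lit 19) (nat_lit 4) (nat_lit 479) (nat_lit 327) (nat_lit 214)) (XT.lf (nat_lit 0)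 (nat_lit 1481368539) (nat_lit 76) (nat_lit 39102534333) (nat_lit 76) (nat_lit 18530854429) (nat_lit 18) (nat_lit 4) (nat_lit 19) (nat_lit 5) (nat_lit 19) (nat_lit 4) (nat_lit 480) (nat_lit 327) (nat_lit 213)))))) (XT.nd (nat_lit 546) (nat_lit 152) (nat_lit 0) (XT.nd (nat_lit 234) (nat_lit 152) (nat_lit 0) (XT.nd (nat_lit 78) (nat_lit 76) (nat_lit 0) (XT.lf (nat_lit 0) (nat_lit 19768454509) (nat_lit 76) (nat_lit 30716400649) (nat_lit 76) (nat_lit 10123374924) (nat_lit 18) (nat_lit 4) (nat_lit 19) (nat_lit 5) (nat_lit 19) (nat_lit 4) (nat_lit 481) (nat_lit 327) (nat_lit 212)) (XT.nd (nat_lit 78) (nat_lit 76) (nat_lit 0) (XT.lf (nat_lit 0) (nat_lit 38570416711) (nat_lit 76) (nat_lit 22095178953) (nat_lit 76) (nat_lit 1481429132) (nat_lit 18) (nat_lit 4) (nat_lit 19) (nat_lit 5) (nat_lit 19) (nat_lit 4) (nat_lit 482) (nat_lit 327) (nat_lit 211)) (XT.lf (nat_lit 0) (nat_lit 7258084058) (nat_lit 152) (nat_lit 5899959665)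 (nat_lit 76) (nat_lit 50572307571) (nat_lit 17) (nat_lit 5) (nat_lit 19) (nat_lit 5) (nat_lit 18) (nat_lit 4) (nat_lit 483) (nat_lit 327) (nat_lit 210)))) (XT.nd (nat_lit 156) (nat_lit 76) (nat_lit 0) (XT.nd (nat_lit 78) (nat_lit 0) (nat_lit 0) (XT.lf (nat_lit 0) (nat_lit 12504195617) (nat_lit 76) (nat_lit 3829597668) (nat_lit 152) (nat_lit 49023831192) (nat_lit 16) (nat_lit 5) (nat_lit 17) (nat_lit 5) (nat_lit 18) (nat_lit 4) (nat_lit 484) (nat_lit 327) (nat_lit 209)) (XT.lf (nat_lit 0) (nat_lit 25781100573) (nat_lit 152) (nat_lit 35538797755) (nat_lit 0) (nat_lit 5710838206) (nat_lit 16) (nat_lit 5) (nat_lit 18) (nat_lit 4) (nat_lit 16) (nat_lit 4) (nat_lit 485) (nat_lit 327) (nat_lit 208))) (XT.nd (nat_lit 78) (nat_lit 76) (nat_lit 0) (XT.lf (nat_lit 0) (nat_lit 35533831713) (nat_lit 152) (nat_lit 17773858008) (nat_lit 0) (nat_lit 15445692558) (nat_lit 16) (nat_lit 5) (nat_lit 18) (nat_lit 4) (nat_lit 16) (nat_lit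 4) (nat_lit 486) (nat_lit 327) (nat_lit 207)) (XT.lf (nat_lit 0) (nat_lit 503551684) (nat_lit 76) (nat_lit 45064984837) (nat_lit 76) (nat_lit 24959489577) (nat_lit 15) (nat_lit 4) (nat_lit 16) (nat_lit 5) (nat_lit 16) (nat_lit 4) (nat_lit 487) (nat_lit 327) (nat_lit 206))))) (XT.nd (nat_lit 43446) (nat_lit 0) (nat_lit 18468) (XT.nd (nat_lit 156) (nat_lit 152) (nat_lit 0) (XT.nd (nat_lit 78) (nat_lit 0) (nat_lit 0) (XT.lf (nat_lit 0) (nat_lit 19663623080) (nat_lit 76) (nat_lit 36404853311) (nat_lit 76) (nat_lit 16282507464) (nat_lit 15) (nat_lit 4) (nat_lit 16) (nat_lit 5) (nat_lit 16) (nat_lit 4) (nat_lit 488) (nat_lit 327) (nat_lit 205)) (XT.lf (nat_lit 0) (nat_lit 39369363364) (nat_lit 76) (nat_lit 27499209153) (nat_lit 76) (nat_lit 7360503513) (nat_lit 15) (nat_lit 4) (nat_lit 16) (nat_lit 5) (nat_lit 16) (nat_lit 4) (nat_lit 489) (nat_lit 327) (nat_lit 204))) (XT.nd (nat_lit 78) (nat_lit 76) (nat_lit 0) (XT.lf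 (nat_lit 0) (nat_lit 1778914318) (nat_lit 152) (nat_lit 16543392869) (nat_lit 76) (nat_lit 57841113278) (nat_lit 14) (nat_lit 5) (nat_lit 16) (nat_lit 5) (nat_lit 15) (nat_lit 4) (nat_lit 490) (nat_lit 327) (nat_lit 203)) (XT.lf (nat_lit 0) (nat_lit 2266015913) (nat_lit 76) (nat_lit 8786213408) (nat_lit 152) (nat_lit 67101150410) (nat_lit 13) (nat_lit 5) (nat_lit 14) (nat_lit 5) (nat_lit 15) (nat_lit 4) (nat_lit 491) (nat_lit 327) (nat_lit 202)))) (XT.nd (nat_lit 156) (nat_lit 1292) (nat_lit 0) (XT.nd (nat_lit 78) (nat_lit 1140) (nat_lit 0) (XT.lf (nat_lit 0) (nat_lit 1196499217) (nat_lit 1140) (nat_lit 1139508861) (nat_lit 0) (nat_lit 1196499217) (nat_lit 288) (nat_lit 5) (nat_lit 303) (nat_lit 4) (nat_lit 288) (nat_lit 4) (nat_lit 364) (nat_lit 328) (nat_lit 328)) (XT.lf (nat_lit 0) (nat_lit 2851434730) (nat_lit 1140) (nat_lit 3006771478) (nat_lit 1140) (nat_lit 1260710839) (nat_lit 273) (nat_lit 4) (nat_lit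 288) (nat_lit 5) (nat_lit 288) (nat_lit 4) (nat_lit 365) (nat_lit 328) (nat_lit 327))) (XT.nd (nat_lit 78) (nat_lit 0) (nat_lit 0) (XT.lf (nat_lit 0) (nat_lit 901045450) (nat_lit 1216) (nat_lit 1238023807) (nat_lit 1292) (nat_lit 5036857669) (nat_lit 256) (nat_lit 5) (nat_lit 272) (nat_lit 5) (nat_lit 273) (nat_lit 4) (nat_lit 366) (nat_lit 328) (nat_lit 326)) (XT.lf (nat_lit 0) (nat_lit 5564786769) (nat_lit 1292) (nat_lit 1045189303) (nat_lit 0) (nat_lit 625859818) (nat_lit 256) (nat_lit 5) (nat_lit 273) (nat_lit 4) (nat_lit 256) (nat_lit 4) (nat_lit 367) (nat_lit 328) (nat_lit 325))))))) (XT.nd (nat_lit 1092) (nat_lit 4104) (nat_lit 0) (XT.nd (nat_lit 546) (nat_lit 2584) (nat_lit 0) (XT.nd (nat_lit 234) (nat_lit 1596) (nat_lit 0) (XT.nd (nat_lit 78) (nat_lit 1292) (nat_lit 0) (XT.lf (nat_lit 0) (nat_lit 1716980954) (nat_lit 760) (nat_lit 3004807875) (nat_lit 76) (nat_lit 2576586137) (nat_lit 246) (nat_lit 5)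 (nat_lit 256) (nat_lit 5) (nat_lit 247) (nat_lit 4) (nat_lit 368) (nat_lit 328) (nat_lit 324)) (XT.nd (nat_lit 78) (nat_lit 684) (nat_lit 0) (XT.lf (nat_lit 0) (nat_lit 2377890837) (nat_lit 608) (nat_lit 2732620146) (nat_lit 684) (nat_lit 2253697722) (nat_lit 238) (nat_lit 5) (nat_lit 246) (nat_lit 5) (nat_lit 247) (nat_lit 4) (nat_lit 369) (nat_lit 328) (nat_lit 323)) (XT.lf (nat_lit 0) (nat_lit 445450050) (nat_lit 608) (nat_lit 645173028) (nat_lit 684) (nat_lit 6342900904) (nat_lit 229) (nat_lit 5) (nat_lit 237) (nat_lit 5) (nat_lit 238) (nat_lit 5) (nat_lit 370) (nat_lit 328) (nat_lit 322)))) (XT.nd (nat_lit 156) (nat_lit 988) (nat_lit 0) (XT.nd (nat_lit 78) (nat_lit 608) (nat_lit 0) (XT.lf (nat_lit 0) (nat_lit 4461755061) (nat_lit 684) (nat_lit 1504240952) (nat_lit 76) (nat_lit 1539134893) (nat_lit 229) (nat_lit 5) (nat_lit 238) (nat_lit 5) (nat_lit 230) (nat_lit 4) (nat_lit 371) (nat_lit 328) (nat_lit 321))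 (XT.lf (nat_lit 0) (nat_lit 302859321) (nat_lit 608) (nat_lit 3468068780) (nat_lit 76) (nat_lit 3809248851) (nat_lit 221) (nat_lit 5) (nat_lit 229) (nat_lit 5) (nat_lit 222) (nat_lit 5) (nat_lit 372) (nat_lit 328) (nat_lit 320))) (XT.nd (nat_lit 78) (nat_lit 456) (nat_lit 0) (XT.lf (nat_lit 0) (nat_lit 2179337993) (nat_lit 532) (nat_lit 1455201696) (nat_lit 608) (nat_lit 4023675903) (nat_lit 214) (nat_lit 5) (nat_lit 221) (nat_lit 5) (nat_lit 222) (nat_lit 5) (nat_lit 373) (nat_lit 328) (nat_lit 319)) (XT.lf (nat_lit 0) (nat_lit 219510041) (nat_lit 456) (nat_lit 6804514834) (nat_lit 532) (nat_lit 715865948) (nat_lit 208) (nat_lit 5) (nat_lit 214) (nat_lit 5) (nat_lit 215) (nat_lit 4) (nat_lit 374) (nat_lit 328) (nat_lit 318))))) (XT.nd (nat_lit 234) (nat_lit 1444) (nat_lit 0) (XT.nd (nat_lit 78) (nat_lit 1064) (nat_lit 0) (XT.lf (nat_lit 0) (nat_lit 2621069926) (nat_lit 532) (nat_lit 1767968528) (nat_lit 76) (nat_lit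 3434758874) (nat_lit 207) (nat_lit 5) (nat_lit 214) (nat_lit 5) (nat_lit 208) (nat_lit 5) (nat_lit 375) (nat_lit 328) (nat_lit 317)) (XT.nd (nat_lit 78) (nat_lit 532) (nat_lit 0) (XT.lf (nat_lit 0) (nat_lit 4127610772) (nat_lit 532) (nat_lit 1870476068) (nat_lit 608) (nat_lit 1913319148) (nat_lit 200) (nat_lit 5) (nat_lit 207) (nat_lit 5) (nat_lit 208) (nat_lit 5) (nat_lit 376) (nat_lit 328) (nat_lit 316)) (XT.lf (nat_lit 0) (nat_lit 1407412468) (nat_lit 532) (nat_lit 5850508633) (nat_lit 76) (nat_lit 744480734) (nat_lit 193) (nat_lit 5) (nat_lit 200) (nat_lit 5) (nat_lit 194) (nat_lit 5) (nat_lit 377) (nat_lit 328) (nat_lit 315)))) (XT.nd (nat_lit 156) (nat_lit 912) (nat_lit 0) (XT.nd (nat_lit 78) (nat_lit 76) (nat_lit 0) (XT.lf (nat_lit 0) (nat_lit 107607653) (nat_lit 456) (nat_lit 4656470884) (nat_lit 532) (nat_lit 3332263675) (nat_lit 187) (nat_lit 5) (nat_lit 193) (nat_lit 5) (nat_lit 194) (nat_lit 5) (nat_lit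 378) (nat_lit 328) (nat_lit 314)) (XT.lf (nat_lit 0) (nat_lit 4675364) (nat_lit 532) (nat_lit 1933318023) (nat_lit 76) (nat_lit 6255817222) (nat_lit 186) (nat_lit 5) (nat_lit 193) (nat_lit 5) (nat_lit 187) (nat_lit 5) (nat_lit 379) (nat_lit 328) (nat_lit 313))) (XT.nd (nat_lit 78) (nat_lit 456) (nat_lit 0) (XT.lf (nat_lit 0) (nat_lit 3344050679) (nat_lit 532) (nat_lit 4051957281) (nat_lit 76) (nat_lit 898150024) (nat_lit 180) (nat_lit 5) (nat_lit 187) (nat_lit 5) (nat_lit 181) (nat_lit 5) (nat_lit 380) (nat_lit 328) (nat_lit 312)) (XT.lf (nat_lit 0) (nat_lit 2164921523) (nat_lit 456) (nat_lit 4599182259) (nat_lit 532) (nat_lit 1634020219) (nat_lit 174) (nat_lit 5) (nat_lit 180) (nat_lit 5) (nat_lit 181) (nat_lit 5) (nat_lit 381) (nat_lit 328) (nat_lit 311)))))) (XT.nd (nat_lit 546) (nat_lit 2052) (nat_lit 0) (XT.nd (nat_lit 234) (nat_lit 1216) (nat_lit 0) (XT.nd (nat_lit 78) (nat_lit 380) (nat_lit 0) (XT.lf (nat_lit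 0) (nat_lit 26166006) (nat_lit 380) (nat_lit 1683502087) (nat_lit 456) (nat_lit 6796162439) (nat_lit 168) (nat_lit 5) (nat_lit 173) (nat_lit 5) (nat_lit 174) (nat_lit 5) (nat_lit 382) (nat_lit 328) (nat_lit 310)) (XT.nd (nat_lit 78) (nat_lit 380) (nat_lit 0) (XT.lf (nat_lit 0) (nat_lit 5119438293) (nat_lit 456) (nat_lit 2148550635) (nat_lit 76) (nat_lit 1348356729) (nat_lit 168) (nat_lit 5) (nat_lit 174) (nat_lit 5) (nat_lit 169) (nat_lit 5) (nat_lit 383) (nat_lit 328) (nat_lit 309)) (XT.lf (nat_lit 0) (nat_lit 4338276087) (nat_lit 380) (nat_lit 4276219153) (nat_lit 456) (nat_lit 116211726) (nat_lit 163) (nat_lit 5) (nat_lit 168) (nat_lit 5) (nat_lit 169) (nat_lit 5) (nat_lit 384) (nat_lit 328) (nat_lit 308)))) (XT.nd (nat_lit 156) (nat_lit 760) (nat_lit 0) (XT.nd (nat_lit 78) (nat_lit 0) (nat_lit 0) (XT.lf (nat_lit 0) (nat_lit 2122025193) (nat_lit 380) (nat_lit 1145599812) (nat_lit 456) (nat_lit 5580900777) (nat_lit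 157) (nat_lit 5) (nat_lit 162) (nat_lit 5) (nat_lit 163) (nat_lit 5) (nat_lit 385) (nat_lit 328) (nat_lit 307)) (XT.lf (nat_lit 0) (nat_lit 6741446103) (nat_lit 456) (nat_lit 171836308) (nat_lit 76) (nat_lit 2056856878) (nat_lit 157) (nat_lit 5) (nat_lit 163) (nat_lit 5) (nat_lit 158) (nat_lit 5) (nat_lit 386) (nat_lit 328) (nat_lit 306))) (XT.nd (nat_lit 78) (nat_lit 304) (nat_lit 0) (XT.lf (nat_lit 0) (nat_lit 1203136168) (nat_lit 456) (nat_lit 2510936184) (nat_lit 76) (nat_lit 5380905312) (nat_lit 151) (nat_lit 5) (nat_lit 157) (nat_lit 5) (nat_lit 152) (nat_lit 5) (nat_lit 387) (nat_lit 328) (nat_lit 305)) (XT.lf (nat_lit 0) (nat_lit 4283000818) (nat_lit 304) (nat_lit 381646274) (nat_lit 380) (nat_lit 4559123676) (nat_lit 147) (nat_lit 5) (nat_lit 151) (nat_lit 5) (nat_lit 152) (nat_lit 5) (nat_lit 388) (nat_lit 328) (nat_lit 304))))) (XT.nd (nat_lit 312) (nat_lit 988) (nat_lit 0) (XT.nd (nat_lit 156) (nat_lit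 608) (nat_lit 0) (XT.nd (nat_lit 78) (nat_lit 76) (nat_lit 0) (XT.lf (nat_lit 0) (nat_lit 1881754940) (nat_lit 380) (nat_lit 6350697905) (nat_lit 456) (nat_lit 1123918031) (nat_lit 142) (nat_lit 5) (nat_lit 147) (nat_lit 5) (nat_lit 148) (nat_lit 5) (nat_lit 389) (nat_lit 328) (nat_lit 303)) (XT.lf (nat_lit 0) (nat_lit 2351205843) (nat_lit 456) (nat_lit 611058471) (nat_lit 76) (nat_lit 6530484932) (nat_lit 141) (nat_lit 5) (nat_lit 147) (nat_lit 5) (nat_lit 142) (nat_lit 5) (nat_lit 390) (nat_lit 328) (nat_lit 302))) (XT.nd (nat_lit 78) (nat_lit 304) (nat_lit 0) (XT.lf (nat_lit 0) (nat_lit 5907582173) (nat_lit 380) (nat_lit 3164344739) (nat_lit 76) (nat_lit 560985847) (nat_lit 137) (nat_lit 5) (nat_lit 142) (nat_lit 5) (nat_lit 138) (nat_lit 5) (nat_lit 391) (nat_lit 328) (nat_lit 301)) (XT.lf (nat_lit 0) (nat_lit 3943440225) (nat_lit 304) (nat_lit 5633269514) (nat_lit 380) (nat_lit 200404478) (nat_lit 133) (nat_lit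 5) (nat_lit 137) (nat_lit 5) (nat_lit 138) (nat_lit 5) (nat_lit 392) (nat_lit 328) (nat_lit 300)))) (XT.nd (nat_lit 156) (nat_lit 608) (nat_lit 0) (XT.nd (nat_lit 78) (nat_lit 0) (nat_lit 0) (XT.lf (nat_lit 0) (nat_lit 1296143312) (nat_lit 304) (nat_lit 2044849514) (nat_lit 380) (nat_lit 6584343851) (nat_lit 128) (nat_lit 5) (nat_lit 132) (nat_lit 5) (nat_lit 133) (nat_lit 5) (nat_lit 393) (nat_lit 328) (nat_lit 299)) (XT.lf (nat_lit 0) (nat_lit 6993574950) (nat_lit 380) (nat_lit 1436428297) (nat_lit 76) (nat_lit 1647687490) (nat_lit 128) (nat_lit 5) (nat_lit 133) (nat_lit 5) (nat_lit 129) (nat_lit 5) (nat_lit 394) (nat_lit 328) (nat_lit 298))) (XT.nd (nat_lit 78) (nat_lit 228) (nat_lit 0) (XT.lf (nat_lit 0) (nat_lit 524242442) (nat_lit 380) (nat_lit 4269242751) (nat_lit 76) (nat_lit 5440593978) (nat_lit 123) (nat_lit 5) (nat_lit 128) (nat_lit 5) (nat_lit 124) (nat_lit 5) (nat_lit 395) (nat_lit 328) (nat_lit 297))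 (XT.lf (nat_lit 0) (nat_lit 3155181543) (nat_lit 228) (nat_lit 1004501533) (nat_lit 304) (nat_lit 6235147954) (nat_lit 120) (nat_lit 5) (nat_lit 123) (nat_lit 5) (nat_lit 124) (nat_lit 5) (nat_lit 396) (nat_lit 328) (nat_lit 296))))))))
noncomputable def xc72 : XT := (XT.nd (nat_lit 2184) (nat_lit 2204) (nat_lit 0) (XT.nd (nat_lit 1092) (nat_lit 1748) (nat_lit 0) (XT.nd (nat_lit 546) (nat_lit 1216) (nat_lit 0) (XT.nd (nat_lit 234) (nat_lit 760) (nat_lit 0) (XT.nd (nat_lit 78) (nat_lit 304) (nat_lit 0) (XT.lf (nat_lit 0) (nat_lit 207321191) (nat_lit 304) (nat_lit 7706696412) (nat_lit 380) (nat_lit 2646104983) (nat_lit 116) (nat_lit 5) (nat_lit 120) (nat_lit 5) (nat_lit 121) (nat_lit 5) (nat_lit 397) (nat_lit 328) (nat_lit 295)) (XT.nd (nat_lit 78) (nat_lit 228) (nat_lit 0) (XT.lf (nat_lit 0) (nat_lit 1050600296) (nat_lit 380) (nat_lit 2822320442) (nat_lit 76) (nat_lit 6856545785) (nat_lit 115) (nat_lit 5) (nat_lit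 120) (nat_lit 5) (nat_lit 116) (nat_lit 5) (nat_lit 398) (nat_lit 328) (nat_lit 294)) (XT.lf (nat_lit 0) (nat_lit 4791869861) (nat_lit 304) (nat_lit 5997613326) (nat_lit 76) (nat_lit 114027241) (nat_lit 112) (nat_lit 5) (nat_lit 116) (nat_lit 5) (nat_lit 113) (nat_lit 5) (nat_lit 399) (nat_lit 328) (nat_lit 293)))) (XT.nd (nat_lit 156) (nat_lit 456) (nat_lit 0) (XT.nd (nat_lit 78) (nat_lit 76) (nat_lit 0) (XT.lf (nat_lit 0) (nat_lit 1740097568) (nat_lit 228) (nat_lit 6928227567) (nat_lit 304) (nat_lit 2413772805) (nat_lit 109) (nat_lit 5) (nat_lit 112) (nat_lit 5) (nat_lit 113) (nat_lit 5) (nat_lit 400) (nat_lit 328) (nat_lit 292)) (XT.lf (nat_lit 0) (nat_lit 1368310286) (nat_lit 304) (nat_lit 1542741298) (nat_lit 76) (nat_lit 8354584258) (nat_lit 108) (nat_lit 5) (nat_lit 112) (nat_lit 5) (nat_lit 109) (nat_lit 5) (nat_lit 401) (nat_lit 328) (nat_lit 291))) (XT.nd (nat_lit 78) (nat_lit 228) (nat_lit 0) (XT.lf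 (nat_lit 0) (nat_lit 5231220484) (nat_lit 304) (nat_lit 4967310068) (nat_lit 76) (nat_lit 1254965804) (nat_lit 105) (nat_lit 5) (nat_lit 109) (nat_lit 5) (nat_lit 106) (nat_lit 5) (nat_lit 402) (nat_lit 328) (nat_lit 290)) (XT.lf (nat_lit 0) (nat_lit 3077112878) (nat_lit 228) (nat_lit 6148617569) (nat_lit 304) (nat_lit 2420800388) (nat_lit 102) (nat_lit 5) (nat_lit 105) (nat_lit 5) (nat_lit 106) (nat_lit 5) (nat_lit 403) (nat_lit 328) (nat_lit 289))))) (XT.nd (nat_lit 234) (nat_lit 684) (nat_lit 0) (XT.nd (nat_lit 78) (nat_lit 456) (nat_lit 0) (XT.lf (nat_lit 0) (nat_lit 1458004296) (nat_lit 304) (nat_lit 489295659) (nat_lit 76) (nat_lit 9897860755) (nat_lit 101) (nat_lit 5) (nat_lit 105) (nat_lit 5) (nat_lit 102) (nat_lit 5) (nat_lit 404) (nat_lit 328) (nat_lit 288)) (XT.nd (nat_lit 78) (nat_lit 228) (nat_lit 0) (XT.lf (nat_lit 0) (nat_lit 5447181809) (nat_lit 304) (nat_lit 4201640935) (nat_lit 76) (nat_lit 2398936473)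 (nat_lit 98) (nat_lit 5) (nat_lit 102) (nat_lit 5) (nat_lit 99) (nat_lit 5) (nat_lit 405) (nat_lit 328) (nat_lit 287)) (XT.lf (nat_lit 0) (nat_lit 4154143224) (nat_lit 228) (nat_lit 5410005358) (nat_lit 304) (nat_lit 2692052139) (nat_lit 95) (nat_lit 5) (nat_lit 98) (nat_lit 5) (nat_lit 99) (nat_lit 5) (nat_lit 406) (nat_lit 328) (nat_lit 286)))) (XT.nd (nat_lit 156) (nat_lit 456) (nat_lit 0) (XT.nd (nat_lit 78) (nat_lit 0) (nat_lit 0) (XT.lf (nat_lit 0) (nat_lit 276118600) (nat_lit 152) (nat_lit 1021191952) (nat_lit 228) (nat_lit 11173520049) (nat_lit 92) (nat_lit 5) (nat_lit 94) (nat_lit 5) (nat_lit 95) (nat_lit 5) (nat_lit 407) (nat_lit 328) (nat_lit 285)) (XT.lf (nat_lit 0) (nat_lit 5412998810) (nat_lit 228) (nat_lit 3772351506) (nat_lit 76) (nat_lit 3503934617) (nat_lit 92) (nat_lit 5) (nat_lit 95) (nat_lit 5) (nat_lit 93) (nat_lit 5) (nat_lit 408) (nat_lit 328) (nat_lit 284))) (XT.nd (nat_lit 78) (nat_lit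 228) (nat_lit 0) (XT.lf (nat_lit 0) (nat_lit 4897328179) (nat_lit 228) (nat_lit 4758123304) (nat_lit 304) (nat_lit 3258750116) (nat_lit 89) (nat_lit 5) (nat_lit 92) (nat_lit 5) (nat_lit 93) (nat_lit 5) (nat_lit 409) (nat_lit 328) (nat_lit 283)) (XT.lf (nat_lit 0) (nat_lit 673016805) (nat_lit 152) (nat_lit 180355045) (nat_lit 228) (nat_lit 12292510875) (nat_lit 86) (nat_lit 5) (nat_lit 88) (nat_lit 5) (nat_lit 89) (nat_lit 5) (nat_lit 410) (nat_lit 328) (nat_lit 282)))))) (XT.nd (nat_lit 546) (nat_lit 912) (nat_lit 0) (XT.nd (nat_lit 234) (nat_lit 380) (nat_lit 0) (XT.nd (nat_lit 78) (nat_lit 456) (nat_lit 0) (XT.lf (nat_lit 0) (nat_lit 5095327491) (nat_lit 228) (nat_lit 3762141420) (nat_lit 76) (nat_lit 4523925277) (nat_lit 86) (nat_lit 5) (nat_lit 89) (nat_lit 5) (nat_lit 87) (nat_lit 5) (nat_lit 411) (nat_lit 328) (nat_lit 281)) (XT.nd (nat_lit 78) (nat_lit 228) (nat_lit 0) (XT.lf (nat_lit 0) (nat_lit 5221325976)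 (nat_lit 228) (nat_lit 4243367511) (nat_lit 304) (nat_lit 4159279637) (nat_lit 83) (nat_lit 5) (nat_lit 86) (nat_lit 5) (nat_lit 87) (nat_lit 5) (nat_lit 412) (nat_lit 328) (nat_lit 280)) (XT.lf (nat_lit 0) (nat_lit 86977072) (nat_lit 228) (nat_lit 13278674536) (nat_lit 76) (nat_lit 508234348) (nat_lit 80) (nat_lit 5) (nat_lit 83) (nat_lit 5) (nat_lit 81) (nat_lit 5) (nat_lit 413) (nat_lit 328) (nat_lit 279)))) (XT.nd (nat_lit 156) (nat_lit 228) (nat_lit 0) (XT.nd (nat_lit 78) (nat_lit 152) (nat_lit 0) (XT.lf (nat_lit 0) (nat_lit 4453359929) (nat_lit 228) (nat_lit 4266688966) (nat_lit 76) (nat_lit 5407727885) (nat_lit 80) (nat_lit 5) (nat_lit 83) (nat_lit 5) (nat_lit 81) (nat_lit 5) (nat_lit 414) (nat_lit 328) (nat_lit 278)) (XT.lf (nat_lit 0) (nat_lit 5027196189) (nat_lit 152) (nat_lit 3921990671) (nat_lit 228) (nat_lit 5440149826) (nat_lit 78) (nat_lit 5) (nat_lit 80) (nat_lit 5) (nat_lit 81) (nat_lit 5) (nat_lit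 415) (nat_lit 328) (nat_lit 277))) (XT.nd (nat_lit 78) (nat_lit 228) (nat_lit 0) (XT.lf (nat_lit 0) (nat_lit 13583611575) (nat_lit 228) (nat_lit 67164122) (nat_lit 76) (nat_lit 1007861764) (nat_lit 78) (nat_lit 5) (nat_lit 81) (nat_lit 5) (nat_lit 79) (nat_lit 4) (nat_lit 416) (nat_lit 328) (nat_lit 276)) (XT.lf (nat_lit 0) (nat_lit 3437785409) (nat_lit 228) (nat_lit 5396979162) (nat_lit 76) (nat_lit 6097766841) (nat_lit 75) (nat_lit 5) (nat_lit 78) (nat_lit 5) (nat_lit 76) (nat_lit 5) (nat_lit 417) (nat_lit 328) (nat_lit 275))))) (XT.nd (nat_lit 234) (nat_lit 532) (nat_lit 0) (XT.nd (nat_lit 78) (nat_lit 228) (nat_lit 0) (XT.lf (nat_lit 0) (nat_lit 4199963286) (nat_lit 152) (nat_lit 3857442852) (nat_lit 228) (nat_lit 7157131040) (nat_lit 73) (nat_lit 5) (nat_lit 75) (nat_lit 5) (nat_lit 76) (nat_lit 5) (nat_lit 418) (nat_lit 328) (nat_lit 274)) (XT.nd (nat_lit 78) (nat_lit 228) (nat_lit 0) (XT.lf (nat_lit 0) (nat_lit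 12835075920) (nat_lit 228) (nat_lit 1405361178) (nat_lit 76) (nat_lit 1263987326) (nat_lit 73) (nat_lit 5) (nat_lit 76) (nat_lit 5) (nat_lit 74) (nat_lit 4) (nat_lit 419) (nat_lit 328) (nat_lit 273)) (XT.lf (nat_lit 0) (nat_lit 1989563987) (nat_lit 228) (nat_lit 7281986563) (nat_lit 76) (nat_lit 6528661104) (nat_lit 70) (nat_lit 5) (nat_lit 73) (nat_lit 5) (nat_lit 71) (nat_lit 5) (nat_lit 420) (nat_lit 328) (nat_lit 272)))) (XT.nd (nat_lit 156) (nat_lit 380) (nat_lit 0) (XT.nd (nat_lit 78) (nat_lit 0) (nat_lit 0) (XT.lf (nat_lit 0) (nat_lit 2605807299) (nat_lit 152) (nat_lit 4121888998) (nat_lit 228) (nat_lit 9376594902) (nat_lit 68) (nat_lit 5) (nat_lit 70) (nat_lit 5) (nat_lit 71) (nat_lit 5) (nat_lit 421) (nat_lit 328) (nat_lit 271)) (XT.lf (nat_lit 0) (nat_lit 11647541805) (nat_lit 228) (nat_lit 3570447757) (nat_lit 76) (nat_lit 1198321039) (nat_lit 68) (nat_lit 5) (nat_lit 71) (nat_lit 5) (nat_lit 69) (nat_lit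 4) (nat_lit 422) (nat_lit 328) (nat_lit 270))) (XT.nd (nat_lit 78) (nat_lit 152) (nat_lit 0) (XT.lf (nat_lit 0) (nat_lit 38484721) (nat_lit 228) (nat_lit 10071771928) (nat_lit 76) (nat_lit 6625622287) (nat_lit 65) (nat_lit 5) (nat_lit 68) (nat_lit 5) (nat_lit 66) (nat_lit 5) (nat_lit 423) (nat_lit 328) (nat_lit 269)) (XT.lf (nat_lit 0) (nat_lit 88819560) (nat_lit 152) (nat_lit 4797935971) (nat_lit 228) (nat_lit 12177087067) (nat_lit 63) (nat_lit 5) (nat_lit 65) (nat_lit 5) (nat_lit 66) (nat_lit 5) (nat_lit 424) (nat_lit 328) (nat_lit 268))))))) (XT.nd (nat_lit 1092) (nat_lit 912) (nat_lit 0) (XT.nd (nat_lit 546) (nat_lit 608) (nat_lit 0) (XT.nd (nat_lit 234) (nat_lit 456) (nat_lit 0) (XT.nd (nat_lit 78) (nat_lit 228) (nat_lit 0) (XT.lf (nat_lit 0) (nat_lit 9945240153) (nat_lit 228) (nat_lit 6725863948) (nat_lit 76) (nat_lit 728602142) (nat_lit 63) (nat_lit 5) (nat_lit 66) (nat_lit 5) (nat_lit 64) (nat_lit 4) (nat_lit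 425) (nat_lit 328) (nat_lit 267)) (XT.nd (nat_lit 78) (nat_lit 76) (nat_lit 0) (XT.lf (nat_lit 0) (nat_lit 3778872336) (nat_lit 152) (nat_lit 11417307016) (nat_lit 228) (nat_lit 2548249368) (nat_lit 61) (nat_lit 5) (nat_lit 63) (nat_lit 5) (nat_lit 64) (nat_lit 4) (nat_lit 426) (nat_lit 328) (nat_lit 266)) (XT.lf (nat_lit 0) (nat_lit 2481817475) (nat_lit 228) (nat_lit 3463811521) (nat_lit 76) (nat_lit 12152378694) (nat_lit 60) (nat_lit 5) (nat_lit 63) (nat_lit 5) (nat_lit 61) (nat_lit 5) (nat_lit 427) (nat_lit 328) (nat_lit 265)))) (XT.nd (nat_lit 156) (nat_lit 304) (nat_lit 0) (XT.nd (nat_lit 78) (nat_lit 0) (nat_lit 0) (XT.lf (nat_lit 0) (nat_lit 7396132140) (nat_lit 152) (nat_lit 244744401) (nat_lit 228) (nat_lit 10819684948) (nat_lit 58) (nat_lit 5) (nat_lit 60) (nat_lit 5) (nat_lit 61) (nat_lit 5) (nat_lit 428) (nat_lit 328) (nat_lit 264)) (XT.lf (nat_lit 0) (nat_lit 13002502806) (nat_lit 228) (nat_lit 310622103)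 (nat_lit 76) (nat_lit 5519436616) (nat_lit 58) (nat_lit 5) (nat_lit 61) (nat_lit 5) (nat_lit 59) (nat_lit 4) (nat_lit 429) (nat_lit 328) (nat_lit 263))) (XT.nd (nat_lit 78) (nat_lit 228) (nat_lit 0) (XT.lf (nat_lit 0) (nat_lit 10902214416) (nat_lit 76) (nat_lit 7689577291) (nat_lit 152) (nat_lit 621928824) (nat_lit 57) (nat_lit 5) (nat_lit 58) (nat_lit 5) (nat_lit 59) (nat_lit 4) (nat_lit 430) (nat_lit 328) (nat_lit 262)) (XT.lf (nat_lit 0) (nat_lit 2786352138) (nat_lit 152) (nat_lit 1853169264) (nat_lit 228) (nat_lit 14965739917) (nat_lit 54) (nat_lit 5) (nat_lit 56) (nat_lit 5) (nat_lit 57) (nat_lit 5) (nat_lit 431) (nat_lit 328) (nat_lit 261))))) (XT.nd (nat_lit 234) (nat_lit 456) (nat_lit 0) (XT.nd (nat_lit 78) (nat_lit 152) (nat_lit 0) (XT.lf (nat_lit 0) (nat_lit 10130864589) (nat_lit 228) (nat_lit 5739604865) (nat_lit 76) (nat_lit 4135360756) (nat_lit 54) (nat_lit 5) (nat_lit 57) (nat_lit 5) (nat_lit 55)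 (nat_lit 4) (nat_lit 432) (nat_lit 328) (nat_lit 260)) (XT.nd (nat_lit 78) (nat_lit 76) (nat_lit 0) (XT.lf (nat_lit 0) (nat_lit 5692840352) (nat_lit 76) (nat_lit 10128165673) (nat_lit 152) (nat_lit 4596391411) (nat_lit 53) (nat_lit 5) (nat_lit 54) (nat_lit 5) (nat_lit 55) (nat_lit 4) (nat_lit 433) (nat_lit 328) (nat_lit 259)) (XT.lf (nat_lit 0) (nat_lit 843723879) (nat_lit 152) (nat_lit 3334361475) (nat_lit 76) (nat_lit 16662399190) (nat_lit 52) (nat_lit 5) (nat_lit 54) (nat_lit 5) (nat_lit 53) (nat_lit 5) (nat_lit 434) (nat_lit 328) (nat_lit 258)))) (XT.nd (nat_lit 156) (nat_lit 304) (nat_lit 0) (XT.nd (nat_lit 78) (nat_lit 0) (nat_lit 0) (XT.lf (nat_lit 0) (nat_lit 6417739100) (nat_lit 228) (nat_lit 12846385944) (nat_lit 76) (nat_lit 2008884327) (nat_lit 50) (nat_lit 5) (nat_lit 53) (nat_lit 5) (nat_lit 51) (nat_lit 4) (nat_lit 435) (nat_lit 328) (nat_lit 257)) (XT.lf (nat_lit 0) (nat_lit 12196662401) (nat_lit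 228) (nat_lit 1220494583) (nat_lit 76) (nat_lit 8300225001) (nat_lit 50) (nat_lit 5) (nat_lit 53) (nat_lit 5) (nat_lit 51) (nat_lit 4) (nat_lit 436) (nat_lit 328) (nat_lit 256))) (XT.nd (nat_lit 78) (nat_lit 228) (nat_lit 0) (XT.lf (nat_lit 0) (nat_lit 10898806526) (nat_lit 76) (nat_lit 7318327004) (nat_lit 152) (nat_lit 3955909439) (nat_lit 49) (nat_lit 5) (nat_lit 50) (nat_lit 5) (nat_lit 51) (nat_lit 4) (nat_lit 437) (nat_lit 328) (nat_lit 255)) (XT.lf (nat_lit 0) (nat_lit 692926201) (nat_lit 152) (nat_lit 1030844661) (nat_lit 228) (nat_lit 20918615879) (nat_lit 46) (nat_lit 5) (nat_lit 48) (nat_lit 5) (nat_lit 49) (nat_lit 5) (nat_lit 438) (nat_lit 328) (nat_lit 254)))))) (XT.nd (nat_lit 546) (nat_lit 532) (nat_lit 0) (XT.nd (nat_lit 234) (nat_lit 304) (nat_lit 0) (XT.nd (nat_lit 78) (nat_lit 76) (nat_lit 0) (XT.lf (nat_lit 0) (nat_lit 7625235903) (nat_lit 228) (nat_lit 10033039974) (nat_lit 76) (nat_lit 5462435175)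 (nat_lit 46) (nat_lit 5) (nat_lit 49) (nat_lit 5) (nat_lit 47) (nat_lit 4) (nat_lit 439) (nat_lit 328) (nat_lit 253)) (XT.nd (nat_lit 78) (nat_lit 0) (nat_lit 0) (XT.lf (nat_lit 0) (nat_lit 2207509023) (nat_lit 76) (nat_lit 11492308895) (nat_lit 152) (nat_lit 9913687288) (nat_lit 45) (nat_lit 5) (nat_lit 46) (nat_lit 5) (nat_lit 47) (nat_lit 4) (nat_lit 440) (nat_lit 328) (nat_lit 252)) (XT.lf (nat_lit 0) (nat_lit 14955357075) (nat_lit 76) (nat_lit 5067640329) (nat_lit 152) (nat_lit 4096097217) (nat_lit 45) (nat_lit 5) (nat_lit 46) (nat_lit 5) (nat_lit 47) (nat_lit 4) (nat_lit 441) (nat_lit 328) (nat_lit 251)))) (XT.nd (nat_lit 156) (nat_lit 76) (nat_lit 0) (XT.nd (nat_lit 78) (nat_lit 0) (nat_lit 0) (XT.lf (nat_lit 0) (nat_lit 1872835924) (nat_lit 228) (nat_lit 21224322534) (nat_lit 76) (nat_lit 1541734192) (nat_lit 42) (nat_lit 5) (nat_lit 45) (nat_lit 5) (nat_lit 43) (nat_lit 4) (nat_lit 442) (nat_lit 328) (nat_lit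 250)) (XT.lf (nat_lit 0) (nat_lit 8047960970) (nat_lit 228) (nat_lit 8769539955) (nat_lit 76) (nat_lit 8352285539) (nat_lit 42) (nat_lit 5) (nat_lit 45) (nat_lit 5) (nat_lit 43) (nat_lit 4) (nat_lit 443) (nat_lit 328) (nat_lit 249))) (XT.nd (nat_lit 78) (nat_lit 0) (nat_lit 0) (XT.lf (nat_lit 0) (nat_lit 4075838069) (nat_lit 76) (nat_lit 10338501316) (nat_lit 152) (nat_lit 11302089705) (nat_lit 41) (nat_lit 5) (nat_lit 42) (nat_lit 5) (nat_lit 43) (nat_lit 4) (nat_lit 444) (nat_lit 328) (nat_lit 248)) (XT.lf (nat_lit 0) (nat_lit 17424375645) (nat_lit 76) (nat_lit 3603079557) (nat_lit 152) (nat_lit 5250345342) (nat_lit 41) (nat_lit 5) (nat_lit 42) (nat_lit 5) (nat_lit 43) (nat_lit 4) (nat_lit 445) (nat_lit 328) (nat_lit 247))))) (XT.nd (nat_lit 312) (nat_lit 228) (nat_lit 0) (XT.nd (nat_lit 156) (nat_lit 76) (nat_lit 0) (XT.nd (nat_lit 78) (nat_lit 0) (nat_lit 0) (XT.lf (nat_lit 0) (nat_lit 1005520850) (nat_lit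 228) (nat_lit 22556103167) (nat_lit 76) (nat_lit 3292854969) (nat_lit 38) (nat_lit 5) (nat_lit 41) (nat_lit 5) (nat_lit 39) (nat_lit 4) (nat_lit 446) (nat_lit 328) (nat_lit 246)) (XT.lf (nat_lit 0) (nat_lit 7437412285) (nat_lit 228) (nat_lit 9568994424) (nat_lit 76) (nat_lit 10437677050) (nat_lit 38) (nat_lit 5) (nat_lit 41) (nat_lit 5) (nat_lit 39) (nat_lit 4) (nat_lit 447) (nat_lit 328) (nat_lit 245))) (XT.nd (nat_lit 78) (nat_lit 0) (nat_lit 0) (XT.lf (nat_lit 0) (nat_lit 3823212857) (nat_lit 76) (nat_lit 10244647738) (nat_lit 152) (nat_lit 13983349792) (nat_lit 37) (nat_lit 5) (nat_lit 38) (nat_lit 5) (nat_lit 39) (nat_lit 4) (nat_lit 448) (nat_lit 328) (nat_lit 244)) (XT.lf (nat_lit 0) (nat_lit 17754801587) (nat_lit 76) (nat_lit 3208242508) (nat_lit 152) (nat_lit 7711533731) (nat_lit 37) (nat_lit 5) (nat_lit 38) (nat_lit 5) (nat_lit 39) (nat_lit 4) (nat_lit 449) (nat_lit 328) (nat_lit 243)))) (XT.nd (nat_lit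 156) (nat_lit 76) (nat_lit 0) (XT.nd (nat_lit 78) (nat_lit 76) (nat_lit 0) (XT.lf (nat_lit 0) (nat_lit 2744953027) (nat_lit 76) (nat_lit 25355176135) (nat_lit 76) (nat_lit 1215467360) (nat_lit 36) (nat_lit 4) (nat_lit 37) (nat_lit 5) (nat_lit 37) (nat_lit 4) (nat_lit 450) (nat_lit 328) (nat_lit 242)) (XT.lf (nat_lit 0) (nat_lit 5481626284) (nat_lit 152) (nat_lit 13072071618) (nat_lit 76) (nat_lit 11417180642) (nat_lit 35) (nat_lit 5) (nat_lit 37) (nat_lit 5) (nat_lit 36) (nat_lit 4) (nat_lit 451) (nat_lit 328) (nat_lit 241))) (XT.nd (nat_lit 78) (nat_lit 0) (nat_lit 0) (XT.lf (nat_lit 0) (nat_lit 778782509) (nat_lit 76) (nat_lit 11554651108) (nat_lit 152) (nat_lit 18312678941) (nat_lit 34) (nat_lit 5) (nat_lit 35) (nat_lit 5) (nat_lit 36) (nat_lit 4) (nat_lit 452) (nat_lit 328) (nat_lit 240)) (XT.lf (nat_lit 0) (nat_lit 15257836911) (nat_lit 76) (nat_lit 4236025608) (nat_lit 152) (nat_lit 11844650489) (nat_lit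 34) (nat_lit 5) (nat_lit 35) (nat_lit 5) (nat_lit 36) (nat_lit 4) (nat_lit 453) (nat_lit 328) (nat_lit 239))))))))
noncomputable def xc73 : XT := (XT.nd (nat_lit 2262) (nat_lit 304) (nat_lit 0) (XT.nd (nat_lit 1092) (nat_lit 532) (nat_lit 0) (XT.nd (nat_lit 546) (nat_lit 304) (nat_lit 0) (XT.nd (nat_lit 234) (nat_lit 228) (nat_lit 0) (XT.nd (nat_lit 78) (nat_lit 152) (nat_lit 0) (XT.lf (nat_lit 0) (nat_lit 26872508520) (nat_lit 152) (nat_lit 1966442708) (nat_lit 0) (nat_lit 3212633512) (nat_lit 34) (nat_lit 5) (nat_lit 36) (nat_lit 4) (nat_lit 34) (nat_lit 4) (nat_lit 454) (nat_lit 328) (nat_lit 238)) (XT.nd (nat_lit 78) (nat_lit 0) (nat_lit 0) (XT.lf (nat_lit 0) (nat_lit 1791656374) (nat_lit 152) (nat_lit 20074624475) (nat_lit 76) (nat_lit 10915139745) (nat_lit 32) (nat_lit 5) (nat_lit 34) (nat_lit 5) (nat_lit 33) (nat_lit 4) (nat_lit 455) (nat_lit 328) (nat_lit 237)) (XT.lf (nat_lit 0) (nat_lit 8859986737) (nat_lit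 152) (nat_lit 5776216660) (nat_lit 76) (nat_lit 18895633960) (nat_lit 32) (nat_lit 5) (nat_lit 34) (nat_lit 5) (nat_lit 33) (nat_lit 4) (nat_lit 456) (nat_lit 328) (nat_lit 236)))) (XT.nd (nat_lit 156) (nat_lit 152) (nat_lit 0) (XT.nd (nat_lit 78) (nat_lit 0) (nat_lit 0) (XT.lf (nat_lit 0) (nat_lit 9077077115) (nat_lit 76) (nat_lit 7123861084) (nat_lit 152) (nat_lit 18102012528) (nat_lit 31) (nat_lit 5) (nat_lit 32) (nat_lit 5) (nat_lit 33) (nat_lit 4) (nat_lit 457) (nat_lit 328) (nat_lit 235)) (XT.lf (nat_lit 0) (nat_lit 23800298011) (nat_lit 152) (nat_lit 10658799677) (nat_lit 0) (nat_lit 636955617) (nat_lit 31) (nat_lit 5) (nat_lit 33) (nat_lit 4) (nat_lit 31) (nat_lit 4) (nat_lit 458) (nat_lit 328) (nat_lit 234))) (XT.nd (nat_lit 78) (nat_lit 76) (nat_lit 0) (XT.lf (nat_lit 0) (nat_lit 4309081329) (nat_lit 76) (nat_lit 27404660749) (nat_lit 76) (nat_lit 4196624948) (nat_lit 30) (nat_lit 4) (nat_lit 31) (nat_lit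 5) (nat_lit 31) (nat_lit 4) (nat_lit 459) (nat_lit 328) (nat_lit 233)) (XT.lf (nat_lit 0) (nat_lit 3137557434) (nat_lit 152) (nat_lit 16882185865) (nat_lit 76) (nat_lit 16725983352) (nat_lit 29) (nat_lit 5) (nat_lit 31) (nat_lit 5) (nat_lit 30) (nat_lit 4) (nat_lit 460) (nat_lit 328) (nat_lit 232))))) (XT.nd (nat_lit 234) (nat_lit 228) (nat_lit 0) (XT.nd (nat_lit 78) (nat_lit 76) (nat_lit 0) (XT.lf (nat_lit 0) (nat_lit 10582343203) (nat_lit 152) (nat_lit 1811398576) (nat_lit 76) (nat_lit 25211912055) (nat_lit 29) (nat_lit 5) (nat_lit 31) (nat_lit 5) (nat_lit 30) (nat_lit 4) (nat_lit 461) (nat_lit 328) (nat_lit 231)) (XT.nd (nat_lit 78) (nat_lit 0) (nat_lit 0) (XT.lf (nat_lit 0) (nat_lit 13936537386) (nat_lit 76) (nat_lit 4423557915) (nat_lit 152) (nat_lit 20127995885) (nat_lit 28) (nat_lit 5) (nat_lit 29) (nat_lit 5) (nat_lit 30) (nat_lit 4) (nat_lit 462) (nat_lit 328) (nat_lit 230)) (XT.lf (nat_lit 0) (nat_lit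 26401746834) (nat_lit 152) (nat_lit 9285956646) (nat_lit 0) (nat_lit 3708382182) (nat_lit 28) (nat_lit 5) (nat_lit 30) (nat_lit 4) (nat_lit 28) (nat_lit 4) (nat_lit 463) (nat_lit 328) (nat_lit 229)))) (XT.nd (nat_lit 156) (nat_lit 76) (nat_lit 0) (XT.nd (nat_lit 78) (nat_lit 76) (nat_lit 0) (XT.lf (nat_lit 0) (nat_lit 6474545550) (nat_lit 76) (nat_lit 28292548348) (nat_lit 76) (nat_lit 5561753672) (nat_lit 27) (nat_lit 4) (nat_lit 28) (nat_lit 5) (nat_lit 28) (nat_lit 4) (nat_lit 464) (nat_lit 328) (nat_lit 228)) (XT.lf (nat_lit 0) (nat_lit 2124081715) (nat_lit 152) (nat_lit 18455248623) (nat_lit 76) (nat_lit 20707525196) (nat_lit 26) (nat_lit 5) (nat_lit 28) (nat_lit 5) (nat_lit 27) (nat_lit 4) (nat_lit 465) (nat_lit 328) (nat_lit 227))) (XT.nd (nat_lit 78) (nat_lit 76) (nat_lit 0) (XT.lf (nat_lit 0) (nat_lit 9905824930) (nat_lit 152) (nat_lit 2693591285) (nat_lit 76) (nat_lit 29673222856) (nat_lit 26) (nat_lit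 5) (nat_lit 28) (nat_lit 5) (nat_lit 27) (nat_lit 4) (nat_lit 466) (nat_lit 328) (nat_lit 226)) (XT.lf (nat_lit 0) (nat_lit 13766540075) (nat_lit 76) (nat_lit 4264597728) (nat_lit 152) (nat_lit 25253555657) (nat_lit 25) (nat_lit 5) (nat_lit 26) (nat_lit 5) (nat_lit 27) (nat_lit 4) (nat_lit 467) (nat_lit 328) (nat_lit 225)))))) (XT.nd (nat_lit 546) (nat_lit 304) (nat_lit 0) (XT.nd (nat_lit 234) (nat_lit 152) (nat_lit 0) (XT.nd (nat_lit 78) (nat_lit 76) (nat_lit 0) (XT.lf (nat_lit 0) (nat_lit 26447032875) (nat_lit 152) (nat_lit 13635451310) (nat_lit 0) (nat_lit 4243221458) (nat_lit 25) (nat_lit 5) (nat_lit 27) (nat_lit 4) (nat_lit 25) (nat_lit 4) (nat_lit 468) (nat_lit 328) (nat_lit 224)) (XT.nd (nat_lit 78) (nat_lit 0) (nat_lit 0) (XT.lf (nat_lit 0) (nat_lit 2692246580) (nat_lit 76) (nat_lit 32469731847) (nat_lit 76) (nat_lit 10234573374) (nat_lit 24) (nat_lit 4) (nat_lit 25) (nat_lit 5) (nat_lit 25) (nat_lit 4)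 (nat_lit 469) (nat_lit 328) (nat_lit 223)) (XT.lf (nat_lit 0) (nat_lit 19747901630) (nat_lit 76) (nat_lit 24506861644) (nat_lit 76) (nat_lit 2241269136) (nat_lit 24) (nat_lit 4) (nat_lit 25) (nat_lit 5) (nat_lit 25) (nat_lit 4) (nat_lit 470) (nat_lit 328) (nat_lit 222)))) (XT.nd (nat_lit 156) (nat_lit 0) (nat_lit 0) (XT.nd (nat_lit 78) (nat_lit 76) (nat_lit 0) (XT.lf (nat_lit 0) (nat_lit 5854026457) (nat_lit 152) (nat_lit 10411466405) (nat_lit 76) (nat_lit 31361903974) (nat_lit 23) (nat_lit 5) (nat_lit 25) (nat_lit 5) (nat_lit 24) (nat_lit 4) (nat_lit 471) (nat_lit 328) (nat_lit 221)) (XT.lf (nat_lit 0) (nat_lit 6480142383) (nat_lit 76) (nat_lit 7709005151) (nat_lit 152) (nat_lit 34601629250) (nat_lit 22) (nat_lit 5) (nat_lit 23) (nat_lit 5) (nat_lit 24) (nat_lit 4) (nat_lit 472) (nat_lit 328) (nat_lit 220))) (XT.nd (nat_lit 78) (nat_lit 0) (nat_lit 0) (XT.lf (nat_lit 0) (nat_lit 22870868521) (nat_lit 152) (nat_lit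 25945084207) (nat_lit 0) (nat_lit 1170209719) (nat_lit 22) (nat_lit 5) (nat_lit 24) (nat_lit 4) (nat_lit 22) (nat_lit 4) (nat_lit 473) (nat_lit 328) (nat_lit 219)) (XT.lf (nat_lit 0) (nat_lit 31869713465) (nat_lit 152) (nat_lit 9203194734) (nat_lit 0) (nat_lit 10142801998) (nat_lit 22) (nat_lit 5) (nat_lit 24) (nat_lit 4) (nat_lit 22) (nat_lit 4) (nat_lit 474) (nat_lit 328) (nat_lit 218))))) (XT.nd (nat_lit 312) (nat_lit 76) (nat_lit 0) (XT.nd (nat_lit 156) (nat_lit 152) (nat_lit 0) (XT.nd (nat_lit 78) (nat_lit 0) (nat_lit 0) (XT.lf (nat_lit 0) (nat_lit 8163057174) (nat_lit 76) (nat_lit 33034852887) (nat_lit 76) (nat_lit 11282453394) (nat_lit 21) (nat_lit 4) (nat_lit 22) (nat_lit 5) (nat_lit 22) (nat_lit 4) (nat_lit 475) (nat_lit 328) (nat_lit 217)) (XT.lf (nat_lit 0) (nat_lit 26202132769) (nat_lit 76) (nat_lit 24677873858) (nat_lit 76) (nat_lit 2900728709) (nat_lit 21) (nat_lit 4) (nat_lit 22) (nat_lit 5) (nat_lit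 22) (nat_lit 4) (nat_lit 476) (nat_lit 328) (nat_lit 216))) (XT.nd (nat_lit 78) (nat_lit 76) (nat_lit 0) (XT.lf (nat_lit 0) (nat_lit 5602074668) (nat_lit 152) (nat_lit 10428958479) (nat_lit 76) (nat_lit 39087988092) (nat_lit 20) (nat_lit 5) (nat_lit 22) (nat_lit 5) (nat_lit 21) (nat_lit 4) (nat_lit 477) (nat_lit 328) (nat_lit 215)) (XT.lf (nat_lit 0) (nat_lit 7314114571) (nat_lit 76) (nat_lit 7039880395) (nat_lit 152) (nat_lit 42141029705) (nat_lit 19) (nat_lit 5) (nat_lit 20) (nat_lit 5) (nat_lit 21) (nat_lit 4) (nat_lit 478) (nat_lit 328) (nat_lit 214)))) (XT.nd (nat_lit 156) (nat_lit 76) (nat_lit 0) (XT.nd (nat_lit 78) (nat_lit 0) (nat_lit 0) (XT.lf (nat_lit 0) (nat_lit 23478231037) (nat_lit 152) (nat_lit 32163370457) (nat_lit 0) (nat_lit 2267414541) (nat_lit 19) (nat_lit 5) (nat_lit 21) (nat_lit 4) (nat_lit 19) (nat_lit 4) (nat_lit 479) (nat_lit 328) (nat_lit 213)) (XT.lf (nat_lit 0) (nat_lit 32928472443) (nat_lit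 152) (nat_lit 14739076780) (nat_lit 0) (nat_lit 11696310127) (nat_lit 19) (nat_lit 5) (nat_lit 21) (nat_lit 4) (nat_lit 19) (nat_lit 4) (nat_lit 480) (nat_lit 328) (nat_lit 212))) (XT.nd (nat_lit 78) (nat_lit 0) (nat_lit 0) (XT.lf (nat_lit 0) (nat_lit 3238053771) (nat_lit 76) (nat_lit 39438377423) (nat_lit 76) (nat_lit 18185491009) (nat_lit 18) (nat_lit 4) (nat_lit 19) (nat_lit 5) (nat_lit 19) (nat_lit 4) (nat_lit 481) (nat_lit 328) (nat_lit 211)) (XT.lf (nat_lit 0) (nat_lit 22023881130) (nat_lit 76) (nat_lit 30825045153) (nat_lit 76) (nat_lit 9552038257) (nat_lit 18) (nat_lit 4) (nat_lit 19) (nat_lit 5) (nat_lit 19) (nat_lit 4) (nat_lit 482) (nat_lit 328) (nat_lit 210))))))) (XT.nd (nat_lit 44070) (nat_lit 0) (nat_lit 12160) (XT.nd (nat_lit 546) (nat_lit 76) (nat_lit 0) (XT.nd (nat_lit 234) (nat_lit 76) (nat_lit 0) (XT.nd (nat_lit 78) (nat_lit 152) (nat_lit 0) (XT.lf (nat_lit 0) (nat_lit 41341483568) (nat_lit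 76) (nat_lit 21968861977) (nat_lit 76) (nat_lit 676320632) (nat_lit 18) (nat_lit 4) (nat_lit 19) (nat_lit 5) (nat_lit 19) (nat_lit 4) (nat_lit 483) (nat_lit 328) (nat_lit 209)) (XT.nd (nat_lit 78) (nat_lit 76) (nat_lit 0) (XT.lf (nat_lit 0) (nat_lit 8284538780) (nat_lit 152) (nat_lit 4493893105) (nat_lit 76) (nat_lit 52839544166) (nat_lit 17) (nat_lit 5) (nat_lit 19) (nat_lit 5) (nat_lit 18) (nat_lit 4) (nat_lit 484) (nat_lit 328) (nat_lit 208)) (XT.lf (nat_lit 0) (nat_lit 14446866587) (nat_lit 76) (nat_lit 3177166175) (nat_lit 152) (nat_lit 49670289974) (nat_lit 16) (nat_lit 5) (nat_lit 17) (nat_lit 5) (nat_lit 18) (nat_lit 4) (nat_lit 485) (nat_lit 328) (nat_lit 207)))) (XT.nd (nat_lit 156) (nat_lit 76) (nat_lit 0) (XT.nd (nat_lit 78) (nat_lit 0) (nat_lit 0) (XT.lf (nat_lit 0) (nat_lit 27338612835) (nat_lit 152) (nat_lit 35066903790) (nat_lit 0) (nat_lit 6612596612) (nat_lit 16) (nat_lit 5) (nat_lit 18) (nat_lit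 4) (nat_lit 16) (nat_lit 4) (nat_lit 486) (nat_lit 328) (nat_lit 206)) (XT.lf (nat_lit 0) (nat_lit 37361088650) (nat_lit 152) (nat_lit 16813813654) (nat_lit 0) (nat_lit 16618221840) (nat_lit 16) (nat_lit 5) (nat_lit 18) (nat_lit 4) (nat_lit 16) (nat_lit 4) (nat_lit 487) (nat_lit 328) (nat_lit 205))) (XT.nd (nat_lit 78) (nat_lit 0) (nat_lit 0) (XT.lf (nat_lit 0) (nat_lit 1997278524) (nat_lit 76) (nat_lit 45691597384) (nat_lit 76) (nat_lit 24932370781) (nat_lit 15) (nat_lit 4) (nat_lit 16) (nat_lit 5) (nat_lit 16) (nat_lit 4) (nat_lit 488) (nat_lit 328) (nat_lit 204)) (XT.lf (nat_lit 0) (nat_lit 21689085452) (nat_lit 76) (nat_lit 36792788233) (nat_lit 76) (nat_lit 16017678334) (nat_lit 15) (nat_lit 4) (nat_lit 16) (nat_lit 5) (nat_lit 16) (nat_lit 4) (nat_lit 489) (nat_lit 328) (nat_lit 203))))) (XT.nd (nat_lit 43212) (nat_lit 0) (nat_lit 18392) (XT.nd (nat_lit 78) (nat_lit 76) (nat_lit 0) (XT.lf (nat_lit 0) (nat_lit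 41944185700) (nat_lit 76) (nat_lit 27640485741) (nat_lit 76) (nat_lit 6849955168) (nat_lit 15) (nat_lit 4) (nat_lit 16) (nat_lit 5) (nat_lit 16) (nat_lit 4) (nat_lit 490) (nat_lit 328) (nat_lit 202)) (XT.nd (nat_lit 43056) (nat_lit 0) (nat_lit 21964) (XT.lf (nat_lit 0) (nat_lit 2528487490) (nat_lit 152) (nat_lit 15672672496) (nat_lit 76) (nat_lit 60226257646) (nat_lit 14) (nat_lit 5) (nat_lit 16) (nat_lit 5) (nat_lit 15) (nat_lit 4) (nat_lit 491) (nat_lit 328) (nat_lit 201)) (XT.lf (nat_lit 0) (nat_lit 874226285) (nat_lit 988) (nat_lit 1304080764) (nat_lit 988) (nat_lit 1304080764) (nat_lit 303) (nat_lit 4) (nat_lit 316) (nat_lit 5) (nat_lit 316) (nat_lit 4) (nat_lit 362) (nat_lit 329) (nat_lit 329)))) (XT.nd (nat_lit 156) (nat_lit 2432) (nat_lit 0) (XT.nd (nat_lit 78) (nat_lit 1064) (nat_lit 0) (XT.lf (nat_lit 0) (nat_lit 767117265) (nat_lit 1064) (nat_lit 295147682) (nat_lit 76) (nat_lit 5952262778) (nat_lit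 302) (nat_lit 5) (nat_lit 316) (nat_lit 5) (nat_lit 303) (nat_lit 4) (nat_lit 363) (nat_lit 329) (nat_lit 328)) (XT.lf (nat_lit 0) (nat_lit 4140809024) (nat_lit 1140) (nat_lit 2329441068) (nat_lit 0) (nat_lit 596305926) (nat_lit 288) (nat_lit 5) (nat_lit 303) (nat_lit 4) (nat_lit 288) (nat_lit 4) (nat_lit 364) (nat_lit 329) (nat_lit 327))) (XT.nd (nat_lit 78) (nat_lit 1216) (nat_lit 0) (XT.lf (nat_lit 0) (nat_lit 425434139) (nat_lit 1216) (nat_lit 4376076297) (nat_lit 76) (nat_lit 2320348672) (nat_lit 272) (nat_lit 5) (nat_lit 288) (nat_lit 5) (nat_lit 273) (nat_lit 4) (nat_lit 365) (nat_lit 329) (nat_lit 326)) (XT.lf (nat_lit 0) (nat_lit 727481556) (nat_lit 1216) (nat_lit 3022773997) (nat_lit 1292) (nat_lit 3429781169) (nat_lit 256) (nat_lit 5) (nat_lit 272) (nat_lit 5) (nat_lit 273) (nat_lit 4) (nat_lit 366) (nat_lit 329) (nat_lit 325)))))) (XT.nd (nat_lit 546) (nat_lit 3040) (nat_lit 0) (XT.nd (nat_lit 234)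 (nat_lit 1824) (nat_lit 0) (XT.nd (nat_lit 78) (nat_lit 1368) (nat_lit 0) (XT.lf (nat_lit 0) (nat_lit 5974423261) (nat_lit 1216) (nat_lit 1147671965) (nat_lit 1292) (nat_lit 119486761) (nat_lit 256) (nat_lit 5) (nat_lit 272) (nat_lit 5) (nat_lit 273) (nat_lit 4) (nat_lit 367) (nat_lit 329) (nat_lit 324)) (XT.nd (nat_lit 78) (nat_lit 608) (nat_lit 0) (XT.lf (nat_lit 0) (nat_lit 3177711228) (nat_lit 760) (nat_lit 3291753305) (nat_lit 76) (nat_lit 836044579) (nat_lit 246) (nat_lit 5) (nat_lit 256) (nat_lit 5) (nat_lit 247) (nat_lit 4) (nat_lit 368) (nat_lit 329) (nat_lit 323)) (XT.lf (nat_lit 0) (nat_lit 2034847412) (nat_lit 608) (nat_lit 4487149044) (nat_lit 684) (nat_lit 850842011) (nat_lit 238) (nat_lit 5) (nat_lit 246) (nat_lit 5) (nat_lit 247) (nat_lit 4) (nat_lit 369) (nat_lit 329) (nat_lit 322)))) (XT.nd (nat_lit 156) (nat_lit 1140) (nat_lit 0) (XT.nd (nat_lit 78) (nat_lit 0) (nat_lit 0) (XT.lf (nat_lit 0)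 (nat_lit 22189165) (nat_lit 608) (nat_lit 2394303259) (nat_lit 684) (nat_lit 5026762338) (nat_lit 229) (nat_lit 5) (nat_lit 237) (nat_lit 5) (nat_lit 238) (nat_lit 5) (nat_lit 370) (nat_lit 329) (nat_lit 321)) (XT.lf (nat_lit 0) (nat_lit 5543816726) (nat_lit 608) (nat_lit 184027235) (nat_lit 684) (nat_lit 1788827860) (nat_lit 229) (nat_lit 5) (nat_lit 237) (nat_lit 5) (nat_lit 238) (nat_lit 5) (nat_lit 371) (nat_lit 329) (nat_lit 320))) (XT.nd (nat_lit 78) (nat_lit 532) (nat_lit 0) (XT.lf (nat_lit 0) (nat_lit 1482152105) (nat_lit 608) (nat_lit 4019002213) (nat_lit 76) (nat_lit 2091740759) (nat_lit 221) (nat_lit 5) (nat_lit 229) (nat_lit 5) (nat_lit 222) (nat_lit 5) (nat_lit 372) (nat_lit 329) (nat_lit 319)) (XT.lf (nat_lit 0) (nat_lit 1566871388) (nat_lit 532) (nat_lit 3198000162) (nat_lit 608) (nat_lit 2907546297) (nat_lit 214) (nat_lit 5) (nat_lit 221) (nat_lit 5) (nat_lit 222) (nat_lit 5) (nat_lit 373) (nat_lit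 329) (nat_lit 318))))) (XT.nd (nat_lit 312) (nat_lit 1444) (nat_lit 0) (XT.nd (nat_lit 156) (nat_lit 1064) (nat_lit 0) (XT.nd (nat_lit 78) (nat_lit 456) (nat_lit 0) (XT.lf (nat_lit 0) (nat_lit 338357681) (nat_lit 608) (nat_lit 455989047) (nat_lit 76) (nat_lit 6961268209) (nat_lit 213) (nat_lit 5) (nat_lit 221) (nat_lit 5) (nat_lit 214) (nat_lit 5) (nat_lit 374) (nat_lit 329) (nat_lit 317)) (XT.lf (nat_lit 0) (nat_lit 3607146376) (nat_lit 532) (nat_lit 2518273235) (nat_lit 76) (nat_lit 1715534735) (nat_lit 207) (nat_lit 5) (nat_lit 214) (nat_lit 5) (nat_lit 208) (nat_lit 5) (nat_lit 375) (nat_lit 329) (nat_lit 316))) (XT.nd (nat_lit 78) (nat_lit 532) (nat_lit 0) (XT.lf (nat_lit 0) (nat_lit 3312199323) (nat_lit 532) (nat_lit 3623322272) (nat_lit 608) (nat_lit 994514259) (nat_lit 200) (nat_lit 5) (nat_lit 207) (nat_lit 5) (nat_lit 208) (nat_lit 5) (nat_lit 376) (nat_lit 329) (nat_lit 315)) (XT.lf (nat_lit 0) (nat_lit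 1249245431) (nat_lit 456) (nat_lit 1002501758) (nat_lit 532) (nat_lit 5770728594) (nat_lit 193) (nat_lit 5) (nat_lit 199) (nat_lit 5) (nat_lit 200) (nat_lit 5) (nat_lit 377) (nat_lit 329) (nat_lit 314)))) (XT.nd (nat_lit 156) (nat_lit 912) (nat_lit 0) (XT.nd (nat_lit 78) (nat_lit 532) (nat_lit 0) (XT.lf (nat_lit 0) (nat_lit 5557868062) (nat_lit 532) (nat_lit 857740120) (nat_lit 76) (nat_lit 1702336775) (nat_lit 193) (nat_lit 5) (nat_lit 200) (nat_lit 5) (nat_lit 194) (nat_lit 5) (nat_lit 378) (nat_lit 329) (nat_lit 313)) (XT.lf (nat_lit 0) (nat_lit 713711423) (nat_lit 532) (nat_lit 2995401759) (nat_lit 76) (nat_lit 4507531695) (nat_lit 186) (nat_lit 5) (nat_lit 193) (nat_lit 5) (nat_lit 187) (nat_lit 5) (nat_lit 379) (nat_lit 329) (nat_lit 312))) (XT.nd (nat_lit 78) (nat_lit 456) (nat_lit 0) (XT.lf (nat_lit 0) (nat_lit 3118073027) (nat_lit 456) (nat_lit 876878345) (nat_lit 532) (nat_lit 4323796330) (nat_lit 180)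 (nat_lit 5) (nat_lit 186) (nat_lit 5) (nat_lit 187) (nat_lit 5) (nat_lit 380) (nat_lit 329) (nat_lit 311)) (XT.lf (nat_lit 0) (nat_lit 951391170) (nat_lit 456) (nat_lit 6405631941) (nat_lit 532) (nat_lit 1067441102) (nat_lit 174) (nat_lit 5) (nat_lit 180) (nat_lit 5) (nat_lit 181) (nat_lit 5) (nat_lit 381) (nat_lit 329) (nat_lit 310))))))))
noncomputable def xc74 : XT := (XT.nd (nat_lit 2262) (nat_lit 3268) (nat_lit 0) (XT.nd (nat_lit 1092) (nat_lit 2584) (nat_lit 0) (XT.nd (nat_lit 546) (nat_lit 1824) (nat_lit 0) (XT.nd (nat_lit 234) (nat_lit 1140) (nat_lit 0) (XT.nd (nat_lit 78) (nat_lit 836) (nat_lit 0) (XT.lf (nat_lit 0) (nat_lit 2227304983) (nat_lit 532) (nat_lit 1269496683) (nat_lit 76) (nat_lit 5036352697) (nat_lit 173) (nat_lit 5) (nat_lit 180) (nat_lit 5) (nat_lit 174) (nat_lit 5) (nat_lit 382) (nat_lit 329) (nat_lit 309)) (XT.nd (nat_lit 78) (nat_lit 456) (nat_lit 0) (XT.lf (nat_lit 0) (nat_lit 5111135973)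 (nat_lit 380) (nat_lit 463261081) (nat_lit 456) (nat_lit 3071162896) (nat_lit 168) (nat_lit 5) (nat_lit 173) (nat_lit 5) (nat_lit 174) (nat_lit 5) (nat_lit 383) (nat_lit 329) (nat_lit 308)) (XT.lf (nat_lit 0) (nat_lit 248417476) (nat_lit 456) (nat_lit 5884494369) (nat_lit 76) (nat_lit 2628581941) (nat_lit 162) (nat_lit 5) (nat_lit 168) (nat_lit 5) (nat_lit 163) (nat_lit 5) (nat_lit 384) (nat_lit 329) (nat_lit 307)))) (XT.nd (nat_lit 156) (nat_lit 760) (nat_lit 0) (XT.nd (nat_lit 78) (nat_lit 0) (nat_lit 0) (XT.lf (nat_lit 0) (nat_lit 549024546) (nat_lit 380) (nat_lit 3030015579) (nat_lit 456) (nat_lit 5301776614) (nat_lit 157) (nat_lit 5) (nat_lit 162) (nat_lit 5) (nat_lit 163) (nat_lit 5) (nat_lit 385) (nat_lit 329) (nat_lit 306)) (XT.lf (nat_lit 0) (nat_lit 6999368464) (nat_lit 456) (nat_lit 1808595022) (nat_lit 76) (nat_lit 196080531) (nat_lit 157) (nat_lit 5) (nat_lit 163) (nat_lit 5) (nat_lit 158) (nat_lit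 5) (nat_lit 386) (nat_lit 329) (nat_lit 305))) (XT.nd (nat_lit 78) (nat_lit 304) (nat_lit 0) (XT.lf (nat_lit 0) (nat_lit 1371403480) (nat_lit 456) (nat_lit 4266453919) (nat_lit 76) (nat_lit 3492510232) (nat_lit 151) (nat_lit 5) (nat_lit 157) (nat_lit 5) (nat_lit 152) (nat_lit 5) (nat_lit 387) (nat_lit 329) (nat_lit 304)) (XT.lf (nat_lit 0) (nat_lit 2443229440) (nat_lit 304) (nat_lit 2337851024) (nat_lit 380) (nat_lit 4479643515) (nat_lit 147) (nat_lit 5) (nat_lit 151) (nat_lit 5) (nat_lit 152) (nat_lit 5) (nat_lit 388) (nat_lit 329) (nat_lit 303))))) (XT.nd (nat_lit 234) (nat_lit 1064) (nat_lit 0) (XT.nd (nat_lit 78) (nat_lit 760) (nat_lit 0) (XT.lf (nat_lit 0) (nat_lit 8278241738) (nat_lit 380) (nat_lit 61643558) (nat_lit 76) (nat_lit 1055566112) (nat_lit 147) (nat_lit 5) (nat_lit 152) (nat_lit 5) (nat_lit 148) (nat_lit 5) (nat_lit 389) (nat_lit 329) (nat_lit 302)) (XT.nd (nat_lit 78) (nat_lit 304) (nat_lit 0)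 (XT.lf (nat_lit 0) (nat_lit 2323603623) (nat_lit 456) (nat_lit 2643796892) (nat_lit 76) (nat_lit 4565460246) (nat_lit 141) (nat_lit 5) (nat_lit 147) (nat_lit 5) (nat_lit 142) (nat_lit 5) (nat_lit 390) (nat_lit 329) (nat_lit 301)) (XT.lf (nat_lit 0) (nat_lit 4352563005) (nat_lit 304) (nat_lit 1468930701) (nat_lit 380) (nat_lit 3853292464) (nat_lit 137) (nat_lit 5) (nat_lit 141) (nat_lit 5) (nat_lit 142) (nat_lit 5) (nat_lit 391) (nat_lit 329) (nat_lit 300)))) (XT.nd (nat_lit 156) (nat_lit 684) (nat_lit 0) (XT.nd (nat_lit 78) (nat_lit 76) (nat_lit 0) (XT.lf (nat_lit 0) (nat_lit 1708173867) (nat_lit 304) (nat_lit 7714601767) (nat_lit 380) (nat_lit 398254458) (nat_lit 133) (nat_lit 5) (nat_lit 137) (nat_lit 5) (nat_lit 138) (nat_lit 5) (nat_lit 392) (nat_lit 329) (nat_lit 299)) (XT.lf (nat_lit 0) (nat_lit 3102467648) (nat_lit 380) (nat_lit 1054495149) (nat_lit 76) (nat_lit 5813689578) (nat_lit 132) (nat_lit 5) (nat_lit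 137) (nat_lit 5) (nat_lit 133) (nat_lit 5) (nat_lit 393) (nat_lit 329) (nat_lit 298))) (XT.nd (nat_lit 78) (nat_lit 380) (nat_lit 0) (XT.lf (nat_lit 0) (nat_lit 6238681444) (nat_lit 304) (nat_lit 458276465) (nat_lit 380) (nat_lit 3427797776) (nat_lit 128) (nat_lit 5) (nat_lit 132) (nat_lit 5) (nat_lit 133) (nat_lit 5) (nat_lit 394) (nat_lit 329) (nat_lit 297)) (XT.lf (nat_lit 0) (nat_lit 127002389) (nat_lit 380) (nat_lit 6856036022) (nat_lit 76) (nat_lit 3300018876) (nat_lit 123) (nat_lit 5) (nat_lit 128) (nat_lit 5) (nat_lit 124) (nat_lit 5) (nat_lit 395) (nat_lit 329) (nat_lit 296)))))) (XT.nd (nat_lit 546) (nat_lit 1216) (nat_lit 0) (XT.nd (nat_lit 234) (nat_lit 760) (nat_lit 0) (XT.nd (nat_lit 78) (nat_lit 380) (nat_lit 0) (XT.lf (nat_lit 0) (nat_lit 468826216) (nat_lit 228) (nat_lit 3237109077) (nat_lit 304) (nat_lit 6739575026) (nat_lit 120) (nat_lit 5) (nat_lit 123) (nat_lit 5) (nat_lit 124) (nat_lit 5)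 (nat_lit 396) (nat_lit 329) (nat_lit 295)) (XT.nd (nat_lit 78) (nat_lit 380) (nat_lit 0) (XT.lf (nat_lit 0) (nat_lit 7406417889) (nat_lit 304) (nat_lit 2559732169) (nat_lit 76) (nat_lit 646273145) (nat_lit 120) (nat_lit 5) (nat_lit 124) (nat_lit 5) (nat_lit 121) (nat_lit 5) (nat_lit 397) (nat_lit 329) (nat_lit 294)) (XT.lf (nat_lit 0) (nat_lit 446015620) (nat_lit 380) (nat_lit 5735317501) (nat_lit 76) (nat_lit 4602269221) (nat_lit 115) (nat_lit 5) (nat_lit 120) (nat_lit 5) (nat_lit 116) (nat_lit 5) (nat_lit 398) (nat_lit 329) (nat_lit 293)))) (XT.nd (nat_lit 156) (nat_lit 532) (nat_lit 0) (XT.nd (nat_lit 78) (nat_lit 0) (nat_lit 0) (XT.lf (nat_lit 0) (nat_lit 1888966481) (nat_lit 228) (nat_lit 2238804543) (nat_lit 304) (nat_lit 6831665927) (nat_lit 112) (nat_lit 5) (nat_lit 115) (nat_lit 5) (nat_lit 116) (nat_lit 5) (nat_lit 399) (nat_lit 329) (nat_lit 292)) (XT.lf (nat_lit 0) (nat_lit 7936849055) (nat_lit 304)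 (nat_lit 1391645867) (nat_lit 76) (nat_lit 1811555986) (nat_lit 112) (nat_lit 5) (nat_lit 116) (nat_lit 5) (nat_lit 113) (nat_lit 5) (nat_lit 400) (nat_lit 329) (nat_lit 291))) (XT.nd (nat_lit 78) (nat_lit 228) (nat_lit 0) (XT.lf (nat_lit 0) (nat_lit 551494590) (nat_lit 304) (nat_lit 4799398241) (nat_lit 76) (nat_lit 5974212202) (nat_lit 108) (nat_lit 5) (nat_lit 112) (nat_lit 5) (nat_lit 109) (nat_lit 5) (nat_lit 401) (nat_lit 329) (nat_lit 290)) (XT.lf (nat_lit 0) (nat_lit 3131266520) (nat_lit 228) (nat_lit 1210295770) (nat_lit 304) (nat_lit 7173593224) (nat_lit 105) (nat_lit 5) (nat_lit 108) (nat_lit 5) (nat_lit 109) (nat_lit 5) (nat_lit 402) (nat_lit 329) (nat_lit 289))))) (XT.nd (nat_lit 312) (nat_lit 456) (nat_lit 0) (XT.nd (nat_lit 156) (nat_lit 456) (nat_lit 0) (XT.nd (nat_lit 78) (nat_lit 304) (nat_lit 0) (XT.lf (nat_lit 0) (nat_lit 8266918061) (nat_lit 304) (nat_lit 433330271) (nat_lit 76) (nat_lit 3010020840)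 (nat_lit 105) (nat_lit 5) (nat_lit 109) (nat_lit 5) (nat_lit 106) (nat_lit 5) (nat_lit 403) (nat_lit 329) (nat_lit 288)) (XT.lf (nat_lit 0) (nat_lit 423279798) (nat_lit 304) (nat_lit 4107922734) (nat_lit 76) (nat_lit 7378959513) (nat_lit 101) (nat_lit 5) (nat_lit 105) (nat_lit 5) (nat_lit 102) (nat_lit 5) (nat_lit 404) (nat_lit 329) (nat_lit 287))) (XT.nd (nat_lit 78) (nat_lit 228) (nat_lit 0) (XT.lf (nat_lit 0) (nat_lit 4134579247) (nat_lit 228) (nat_lit 191422397) (nat_lit 304) (nat_lit 7789356745) (nat_lit 98) (nat_lit 5) (nat_lit 101) (nat_lit 5) (nat_lit 102) (nat_lit 5) (nat_lit 405) (nat_lit 329) (nat_lit 286)) (XT.lf (nat_lit 0) (nat_lit 256341280) (nat_lit 228) (nat_lit 8120494067) (nat_lit 304) (nat_lit 3948952584) (nat_lit 95) (nat_lit 5) (nat_lit 98) (nat_lit 5) (nat_lit 99) (nat_lit 5) (nat_lit 406) (nat_lit 329) (nat_lit 285)))) (XT.nd (nat_lit 156) (nat_lit 228) (nat_lit 0) (XT.nd (nat_lit 78) (nat_lit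 152) (nat_lit 0) (XT.lf (nat_lit 0) (nat_lit 35549977) (nat_lit 304) (nat_lit 3729120299) (nat_lit 76) (nat_lit 8776995416) (nat_lit 94) (nat_lit 5) (nat_lit 98) (nat_lit 5) (nat_lit 95) (nat_lit 5) (nat_lit 407) (nat_lit 329) (nat_lit 284)) (XT.lf (nat_lit 0) (nat_lit 4061395906) (nat_lit 228) (nat_lit 7941736819) (nat_lit 76) (nat_lit 759686273) (nat_lit 92) (nat_lit 5) (nat_lit 95) (nat_lit 5) (nat_lit 93) (nat_lit 5) (nat_lit 408) (nat_lit 329) (nat_lit 283))) (XT.nd (nat_lit 78) (nat_lit 0) (nat_lit 0) (XT.lf (nat_lit 0) (nat_lit 600670782) (nat_lit 228) (nat_lit 7636100597) (nat_lit 304) (nat_lit 4752980196) (nat_lit 89) (nat_lit 5) (nat_lit 92) (nat_lit 5) (nat_lit 93) (nat_lit 5) (nat_lit 409) (nat_lit 329) (nat_lit 282)) (XT.lf (nat_lit 0) (nat_lit 9474852240) (nat_lit 228) (nat_lit 3091113233) (nat_lit 304) (nat_lit 656677023) (nat_lit 89) (nat_lit 5) (nat_lit 92) (nat_lit 5) (nat_lit 93) (nat_lit 5)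 (nat_lit 410) (nat_lit 329) (nat_lit 281))))))) (XT.nd (nat_lit 1092) (nat_lit 1444) (nat_lit 0) (XT.nd (nat_lit 546) (nat_lit 760) (nat_lit 0) (XT.nd (nat_lit 234) (nat_lit 608) (nat_lit 0) (XT.nd (nat_lit 78) (nat_lit 228) (nat_lit 0) (XT.lf (nat_lit 0) (nat_lit 3507476575) (nat_lit 228) (nat_lit 8344427497) (nat_lit 76) (nat_lit 1609161034) (nat_lit 86) (nat_lit 5) (nat_lit 89) (nat_lit 5) (nat_lit 87) (nat_lit 5) (nat_lit 411) (nat_lit 329) (nat_lit 280)) (XT.nd (nat_lit 78) (nat_lit 0) (nat_lit 0) (XT.lf (nat_lit 0) (nat_lit 504586963) (nat_lit 228) (nat_lit 7302129647) (nat_lit 304) (nat_lit 5899034405) (nat_lit 83) (nat_lit 5) (nat_lit 86) (nat_lit 5) (nat_lit 87) (nat_lit 5) (nat_lit 412) (nat_lit 329) (nat_lit 279)) (XT.lf (nat_lit 0) (nat_lit 9704871422) (nat_lit 228) (nat_lit 2564655632) (nat_lit 304) (nat_lit 1687218946) (nat_lit 83) (nat_lit 5) (nat_lit 86) (nat_lit 5) (nat_lit 87) (nat_lit 5) (nat_lit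 413) (nat_lit 329) (nat_lit 278)))) (XT.nd (nat_lit 156) (nat_lit 380) (nat_lit 0) (XT.nd (nat_lit 78) (nat_lit 0) (nat_lit 0) (XT.lf (nat_lit 0) (nat_lit 2620769385) (nat_lit 228) (nat_lit 9283861607) (nat_lit 76) (nat_lit 2309234861) (nat_lit 80) (nat_lit 5) (nat_lit 83) (nat_lit 5) (nat_lit 81) (nat_lit 5) (nat_lit 414) (nat_lit 329) (nat_lit 277)) (XT.lf (nat_lit 0) (nat_lit 7044419951) (nat_lit 228) (nat_lit 129472970) (nat_lit 76) (nat_lit 7303700967) (nat_lit 80) (nat_lit 5) (nat_lit 83) (nat_lit 5) (nat_lit 81) (nat_lit 5) (nat_lit 415) (nat_lit 329) (nat_lit 276))) (XT.nd (nat_lit 78) (nat_lit 228) (nat_lit 0) (XT.lf (nat_lit 0) (nat_lit 9401412889) (nat_lit 152) (nat_lit 2242730230) (nat_lit 228) (nat_lit 3103795345) (nat_lit 78) (nat_lit 5) (nat_lit 80) (nat_lit 5) (nat_lit 81) (nat_lit 5) (nat_lit 416) (nat_lit 329) (nat_lit 275)) (XT.lf (nat_lit 0) (nat_lit 1351117264) (nat_lit 228) (nat_lit 10872291126)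 (nat_lit 76) (nat_lit 2801936296) (nat_lit 75) (nat_lit 5) (nat_lit 78) (nat_lit 5) (nat_lit 76) (nat_lit 5) (nat_lit 417) (nat_lit 329) (nat_lit 274))))) (XT.nd (nat_lit 234) (nat_lit 456) (nat_lit 0) (XT.nd (nat_lit 78) (nat_lit 304) (nat_lit 0) (XT.lf (nat_lit 0) (nat_lit 5907396556) (nat_lit 228) (nat_lit 1397693279) (nat_lit 76) (nat_lit 8004163381) (nat_lit 75) (nat_lit 5) (nat_lit 78) (nat_lit 5) (nat_lit 76) (nat_lit 5) (nat_lit 418) (nat_lit 329) (nat_lit 273)) (XT.nd (nat_lit 78) (nat_lit 152) (nat_lit 0) (XT.lf (nat_lit 0) (nat_lit 8446361410) (nat_lit 152) (nat_lit 2189925764) (nat_lit 228) (nat_lit 4964319112) (nat_lit 73) (nat_lit 5) (nat_lit 75) (nat_lit 5) (nat_lit 76) (nat_lit 5) (nat_lit 419) (nat_lit 329) (nat_lit 272)) (XT.lf (nat_lit 0) (nat_lit 2656376207) (nat_lit 152) (nat_lit 12875015294) (nat_lit 228) (nat_lit 368582861) (nat_lit 71) (nat_lit 5) (nat_lit 73) (nat_lit 5) (nat_lit 74) (nat_lit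 4) (nat_lit 420) (nat_lit 329) (nat_lit 271)))) (XT.nd (nat_lit 156) (nat_lit 228) (nat_lit 0) (XT.nd (nat_lit 78) (nat_lit 152) (nat_lit 0) (XT.lf (nat_lit 0) (nat_lit 4329560730) (nat_lit 228) (nat_lit 3442496037) (nat_lit 76) (nat_lit 8433521104) (nat_lit 70) (nat_lit 5) (nat_lit 73) (nat_lit 5) (nat_lit 71) (nat_lit 5) (nat_lit 421) (nat_lit 329) (nat_lit 270)) (XT.lf (nat_lit 0) (nat_lit 6702147816) (nat_lit 152) (nat_lit 2479897474) (nat_lit 228) (nat_lit 7337574987) (nat_lit 68) (nat_lit 5) (nat_lit 70) (nat_lit 5) (nat_lit 71) (nat_lit 5) (nat_lit 422) (nat_lit 329) (nat_lit 269))) (XT.nd (nat_lit 78) (nat_lit 76) (nat_lit 0) (XT.lf (nat_lit 0) (nat_lit 278349504) (nat_lit 152) (nat_lit 13924683148) (nat_lit 228) (nat_lit 2639367743) (nat_lit 66) (nat_lit 5) (nat_lit 68) (nat_lit 5) (nat_lit 69) (nat_lit 4) (nat_lit 423) (nat_lit 329) (nat_lit 268)) (XT.lf (nat_lit 0) (nat_lit 2238213684) (nat_lit 228)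 (nat_lit 6418215142) (nat_lit 76) (nat_lit 8515364148) (nat_lit 65) (nat_lit 5) (nat_lit 68) (nat_lit 5) (nat_lit 66) (nat_lit 5) (nat_lit 424) (nat_lit 329) (nat_lit 267)))))) (XT.nd (nat_lit 546) (nat_lit 760) (nat_lit 0) (XT.nd (nat_lit 234) (nat_lit 380) (nat_lit 0) (XT.nd (nat_lit 78) (nat_lit 152) (nat_lit 0) (XT.lf (nat_lit 0) (nat_lit 4008412621) (nat_lit 152) (nat_lit 3197135763) (nat_lit 228) (nat_lit 10304844665) (nat_lit 63) (nat_lit 5) (nat_lit 65) (nat_lit 5) (nat_lit 66) (nat_lit 5) (nat_lit 425) (nat_lit 329) (nat_lit 266)) (XT.nd (nat_lit 78) (nat_lit 152) (nat_lit 0) (XT.lf (nat_lit 0) (nat_lit 12368802871) (nat_lit 228) (nat_lit 3077618691) (nat_lit 76) (nat_lit 2411326381) (nat_lit 63) (nat_lit 5) (nat_lit 66) (nat_lit 5) (nat_lit 64) (nat_lit 4) (nat_lit 426) (nat_lit 329) (nat_lit 265)) (XT.lf (nat_lit 0) (nat_lit 7704514376) (nat_lit 152) (nat_lit 10047502607) (nat_lit 228) (nat_lit 461558338)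 (nat_lit 61) (nat_lit 5) (nat_lit 63) (nat_lit 5) (nat_lit 64) (nat_lit 4) (nat_lit 427) (nat_lit 329) (nat_lit 264)))) (XT.nd (nat_lit 156) (nat_lit 152) (nat_lit 0) (XT.nd (nat_lit 78) (nat_lit 0) (nat_lit 0) (XT.lf (nat_lit 0) (nat_lit 178147242) (nat_lit 152) (nat_lit 4438990506) (nat_lit 228) (nat_lit 13961807283) (nat_lit 58) (nat_lit 5) (nat_lit 60) (nat_lit 5) (nat_lit 61) (nat_lit 5) (nat_lit 428) (nat_lit 329) (nat_lit 263)) (XT.lf (nat_lit 0) (nat_lit 9918540877) (nat_lit 228) (nat_lit 7643078402) (nat_lit 76) (nat_lit 1391134149) (nat_lit 58) (nat_lit 5) (nat_lit 61) (nat_lit 5) (nat_lit 59) (nat_lit 4) (nat_lit 429) (nat_lit 329) (nat_lit 262))) (XT.nd (nat_lit 78) (nat_lit 76) (nat_lit 0) (XT.lf (nat_lit 0) (nat_lit 3387779258) (nat_lit 76) (nat_lit 12028491467) (nat_lit 152) (nat_lit 3920390098) (nat_lit 57) (nat_lit 5) (nat_lit 58) (nat_lit 5) (nat_lit 59) (nat_lit 4) (nat_lit 430) (nat_lit 329)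 (nat_lit 261)) (XT.lf (nat_lit 0) (nat_lit 1359350975) (nat_lit 152) (nat_lit 4909072326) (nat_lit 76) (nat_lit 13462113262) (nat_lit 56) (nat_lit 5) (nat_lit 58) (nat_lit 5) (nat_lit 57) (nat_lit 5) (nat_lit 431) (nat_lit 329) (nat_lit 260))))) (XT.nd (nat_lit 312) (nat_lit 304) (nat_lit 0) (XT.nd (nat_lit 156) (nat_lit 304) (nat_lit 0) (XT.nd (nat_lit 78) (nat_lit 0) (nat_lit 0) (XT.lf (nat_lit 0) (nat_lit 6479822579) (nat_lit 152) (nat_lit 263135821) (nat_lit 228) (nat_lit 13391380608) (nat_lit 54) (nat_lit 5) (nat_lit 56) (nat_lit 5) (nat_lit 57) (nat_lit 5) (nat_lit 432) (nat_lit 329) (nat_lit 259)) (XT.lf (nat_lit 0) (nat_lit 12357188724) (nat_lit 228) (nat_lit 2365053942) (nat_lit 76) (nat_lit 5825942338) (nat_lit 54) (nat_lit 5) (nat_lit 57) (nat_lit 5) (nat_lit 55) (nat_lit 4) (nat_lit 433) (nat_lit 329) (nat_lit 258))) (XT.nd (nat_lit 78) (nat_lit 228) (nat_lit 0) (XT.lf (nat_lit 0) (nat_lit 9375592679)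 (nat_lit 76) (nat_lit 8820208719) (nat_lit 152) (nat_lit 2776969153) (nat_lit 53) (nat_lit 5) (nat_lit 54) (nat_lit 5) (nat_lit 55) (nat_lit 4) (nat_lit 434) (nat_lit 329) (nat_lit 257)) (XT.lf (nat_lit 0) (nat_lit 12750689) (nat_lit 152) (nat_lit 2719630535) (nat_lit 228) (nat_lit 18677281895) (nat_lit 50) (nat_lit 5) (nat_lit 52) (nat_lit 5) (nat_lit 53) (nat_lit 5) (nat_lit 435) (nat_lit 329) (nat_lit 256)))) (XT.nd (nat_lit 156) (nat_lit 228) (nat_lit 0) (XT.nd (nat_lit 78) (nat_lit 76) (nat_lit 0) (XT.lf (nat_lit 0) (nat_lit 8467139178) (nat_lit 228) (nat_lit 9778396525) (nat_lit 76) (nat_lit 3609826267) (nat_lit 50) (nat_lit 5) (nat_lit 53) (nat_lit 5) (nat_lit 51) (nat_lit 4) (nat_lit 436) (nat_lit 329) (nat_lit 255)) (XT.lf (nat_lit 0) (nat_lit 2137395957) (nat_lit 76) (nat_lit 12248496648) (nat_lit 152) (nat_lit 7928183121) (nat_lit 49) (nat_lit 5) (nat_lit 50) (nat_lit 5) (nat_lit 51) (nat_lit 4) (nat_lit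 437) (nat_lit 329) (nat_lit 254))) (XT.nd (nat_lit 78) (nat_lit 228) (nat_lit 0) (XT.lf (nat_lit 0) (nat_lit 14545697246) (nat_lit 76) (nat_lit 6000139545) (nat_lit 152) (nat_lit 2238807701) (nat_lit 49) (nat_lit 5) (nat_lit 50) (nat_lit 5) (nat_lit 51) (nat_lit 4) (nat_lit 438) (nat_lit 329) (nat_lit 253)) (XT.lf (nat_lit 0) (nat_lit 3559587491) (nat_lit 228) (nat_lit 19236104877) (nat_lit 76) (nat_lit 472325906) (nat_lit 46) (nat_lit 5) (nat_lit 49) (nat_lit 5) (nat_lit 47) (nat_lit 4) (nat_lit 439) (nat_lit 329) (nat_lit 252))))))))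
noncomputable def xc75 : XT := (XT.nd (nat_lit 2262) (nat_lit 760) (nat_lit 0) (XT.nd (nat_lit 1092) (nat_lit 684) (nat_lit 0) (XT.nd (nat_lit 546) (nat_lit 532) (nat_lit 0) (XT.nd (nat_lit 234) (nat_lit 304) (nat_lit 0) (XT.nd (nat_lit 78) (nat_lit 76) (nat_lit 0) (XT.lf (nat_lit 0) (nat_lit 9596041413) (nat_lit 228) (nat_lit 7070309721) (nat_lit 76) (nat_lit 7095606239) (nat_lit 46) (nat_lit 5) (nat_lit 49) (nat_lit 5) (nat_lit 47) (nat_lit 4) (nat_lit 440) (nat_lit 329) (nat_lit 251)) (XT.nd (nat_lit 78) (nat_lit 0) (nat_lit 0) (XT.lf (nat_lit 0) (nat_lit 5505458477) (nat_lit 76) (nat_lit 10327728447) (nat_lit 152) (nat_lit 8436941955) (nat_lit 45) (nat_lit 5) (nat_lit 46) (nat_lit 5) (nat_lit 47) (nat_lit 4) (nat_lit 441) (nat_lit 329) (nat_lit 250)) (XT.lf (nat_lit 0) (nat_lit 18541614082) (nat_lit 76) (nat_lit 3754281465) (nat_lit 152) (nat_lit 2496498627) (nat_lit 45) (nat_lit 5) (nat_lit 46) (nat_lit 5)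 (nat_lit 47) (nat_lit 4) (nat_lit 442) (nat_lit 329) (nat_lit 249)))) (XT.nd (nat_lit 156) (nat_lit 76) (nat_lit 0) (XT.nd (nat_lit 78) (nat_lit 0) (nat_lit 0) (XT.lf (nat_lit 0) (nat_lit 3613019992) (nat_lit 228) (nat_lit 18684768585) (nat_lit 76) (nat_lit 3029649990) (nat_lit 42) (nat_lit 5) (nat_lit 45) (nat_lit 5) (nat_lit 43) (nat_lit 4) (nat_lit 443) (nat_lit 329) (nat_lit 248)) (XT.lf (nat_lit 0) (nat_lit 9924350275) (nat_lit 228) (nat_lit 5948855643) (nat_lit 76) (nat_lit 10002527670) (nat_lit 42) (nat_lit 5) (nat_lit 45) (nat_lit 5) (nat_lit 43) (nat_lit 4) (nat_lit 444) (nat_lit 329) (nat_lit 247))) (XT.nd (nat_lit 78) (nat_lit 0) (nat_lit 0) (XT.lf (nat_lit 0) (nat_lit 7251650677) (nat_lit 76) (nat_lit 9211801919) (nat_lit 152) (nat_lit 9975873774) (nat_lit 41) (nat_lit 5) (nat_lit 42) (nat_lit 5) (nat_lit 43) (nat_lit 4) (nat_lit 445) (nat_lit 329) (nat_lit 246)) (XT.lf (nat_lit 0) (nat_lit 20911706396)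 (nat_lit 76) (nat_lit 2316167637) (nat_lit 152) (nat_lit 3791080340) (nat_lit 41) (nat_lit 5) (nat_lit 42) (nat_lit 5) (nat_lit 43) (nat_lit 4) (nat_lit 446) (nat_lit 329) (nat_lit 245))))) (XT.nd (nat_lit 234) (nat_lit 228) (nat_lit 0) (XT.nd (nat_lit 78) (nat_lit 76) (nat_lit 0) (XT.lf (nat_lit 0) (nat_lit 2616711219) (nat_lit 228) (nat_lit 20232259488) (nat_lit 76) (nat_lit 4763624874) (nat_lit 38) (nat_lit 5) (nat_lit 41) (nat_lit 5) (nat_lit 39) (nat_lit 4) (nat_lit 447) (nat_lit 329) (nat_lit 244)) (XT.nd (nat_lit 78) (nat_lit 76) (nat_lit 0) (XT.lf (nat_lit 0) (nat_lit 9195510134) (nat_lit 228) (nat_lit 6942931467) (nat_lit 76) (nat_lit 12082830911) (nat_lit 38) (nat_lit 5) (nat_lit 41) (nat_lit 5) (nat_lit 39) (nat_lit 4) (nat_lit 448) (nat_lit 329) (nat_lit 243)) (XT.lf (nat_lit 0) (nat_lit 6822481908) (nat_lit 76) (nat_lit 9185410238) (nat_lit 152) (nat_lit 12839232644) (nat_lit 37) (nat_lit 5) (nat_lit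 38) (nat_lit 5) (nat_lit 39) (nat_lit 4) (nat_lit 449) (nat_lit 329) (nat_lit 242)))) (XT.nd (nat_lit 156) (nat_lit 76) (nat_lit 0) (XT.nd (nat_lit 78) (nat_lit 152) (nat_lit 0) (XT.lf (nat_lit 0) (nat_lit 21088001620) (nat_lit 76) (nat_lit 1977716063) (nat_lit 152) (nat_lit 6424804363) (nat_lit 37) (nat_lit 5) (nat_lit 38) (nat_lit 5) (nat_lit 39) (nat_lit 4) (nat_lit 450) (nat_lit 329) (nat_lit 241)) (XT.lf (nat_lit 0) (nat_lit 257326313) (nat_lit 152) (nat_lit 24521772708) (nat_lit 76) (nat_lit 5371706512) (nat_lit 35) (nat_lit 5) (nat_lit 37) (nat_lit 5) (nat_lit 36) (nat_lit 4) (nat_lit 451) (nat_lit 329) (nat_lit 240))) (XT.nd (nat_lit 78) (nat_lit 76) (nat_lit 0) (XT.lf (nat_lit 0) (nat_lit 7087655660) (nat_lit 152) (nat_lit 10712820405) (nat_lit 76) (nat_lit 13026208530) (nat_lit 35) (nat_lit 5) (nat_lit 37) (nat_lit 5) (nat_lit 36) (nat_lit 4) (nat_lit 452) (nat_lit 329) (nat_lit 239)) (XT.lf (nat_lit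 0) (nat_lit 3526584705) (nat_lit 76) (nat_lit 10602633695) (nat_lit 152) (nat_lit 17393433317) (nat_lit 34) (nat_lit 5) (nat_lit 35) (nat_lit 5) (nat_lit 36) (nat_lit 4) (nat_lit 453) (nat_lit 329) (nat_lit 238)))))) (XT.nd (nat_lit 546) (nat_lit 380) (nat_lit 0) (XT.nd (nat_lit 234) (nat_lit 152) (nat_lit 0) (XT.nd (nat_lit 78) (nat_lit 152) (nat_lit 0) (XT.lf (nat_lit 0) (nat_lit 18360658155) (nat_lit 76) (nat_lit 3102274390) (nat_lit 152) (nat_lit 10774139525) (nat_lit 34) (nat_lit 5) (nat_lit 35) (nat_lit 5) (nat_lit 36) (nat_lit 4) (nat_lit 454) (nat_lit 329) (nat_lit 237)) (XT.nd (nat_lit 78) (nat_lit 76) (nat_lit 0) (XT.lf (nat_lit 0) (nat_lit 582595237) (nat_lit 76) (nat_lit 28457391750) (nat_lit 76) (nat_lit 3932239496) (nat_lit 33) (nat_lit 4) (nat_lit 34) (nat_lit 5) (nat_lit 34) (nat_lit 4) (nat_lit 455) (nat_lit 329) (nat_lit 236)) (XT.lf (nat_lit 0) (nat_lit 3199678574) (nat_lit 152) (nat_lit 18078642439)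 (nat_lit 76) (nat_lit 12445851150) (nat_lit 32) (nat_lit 5) (nat_lit 34) (nat_lit 5) (nat_lit 33) (nat_lit 4) (nat_lit 456) (nat_lit 329) (nat_lit 235)))) (XT.nd (nat_lit 156) (nat_lit 76) (nat_lit 0) (XT.nd (nat_lit 78) (nat_lit 76) (nat_lit 0) (XT.lf (nat_lit 0) (nat_lit 10440614018) (nat_lit 152) (nat_lit 3426958723) (nat_lit 76) (nat_lit 20630713864) (nat_lit 32) (nat_lit 5) (nat_lit 34) (nat_lit 5) (nat_lit 33) (nat_lit 4) (nat_lit 457) (nat_lit 329) (nat_lit 234)) (XT.lf (nat_lit 0) (nat_lit 11847203038) (nat_lit 76) (nat_lit 6140305546) (nat_lit 152) (nat_lit 17305455133) (nat_lit 31) (nat_lit 5) (nat_lit 32) (nat_lit 5) (nat_lit 33) (nat_lit 4) (nat_lit 458) (nat_lit 329) (nat_lit 233))) (XT.nd (nat_lit 78) (nat_lit 76) (nat_lit 0) (XT.lf (nat_lit 0) (nat_lit 25788143013) (nat_lit 152) (nat_lit 8526738196) (nat_lit 0) (nat_lit 1795781076) (nat_lit 31) (nat_lit 5) (nat_lit 33) (nat_lit 4) (nat_lit 31) (nat_lit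 4) (nat_lit 459) (nat_lit 329) (nat_lit 232)) (XT.lf (nat_lit 0) (nat_lit 6866141736) (nat_lit 76) (nat_lit 27059084028) (nat_lit 76) (nat_lit 3024594268) (nat_lit 30) (nat_lit 4) (nat_lit 31) (nat_lit 5) (nat_lit 31) (nat_lit 4) (nat_lit 460) (nat_lit 329) (nat_lit 231))))) (XT.nd (nat_lit 312) (nat_lit 228) (nat_lit 0) (XT.nd (nat_lit 156) (nat_lit 0) (nat_lit 0) (XT.nd (nat_lit 78) (nat_lit 76) (nat_lit 0) (XT.lf (nat_lit 0) (nat_lit 4467220226) (nat_lit 152) (nat_lit 15006933498) (nat_lit 76) (nat_lit 18336825989) (nat_lit 29) (nat_lit 5) (nat_lit 31) (nat_lit 5) (nat_lit 30) (nat_lit 4) (nat_lit 461) (nat_lit 329) (nat_lit 230)) (XT.lf (nat_lit 0) (nat_lit 455495338) (nat_lit 76) (nat_lit 11648246242) (nat_lit 152) (nat_lit 26593912904) (nat_lit 28) (nat_lit 5) (nat_lit 29) (nat_lit 5) (nat_lit 30) (nat_lit 4) (nat_lit 462) (nat_lit 329) (nat_lit 229))) (XT.nd (nat_lit 78) (nat_lit 0) (nat_lit 0) (XT.lf (nat_lit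 0) (nat_lit 16644310952) (nat_lit 76) (nat_lit 3453208234) (nat_lit 152) (nat_lit 19509566473) (nat_lit 28) (nat_lit 5) (nat_lit 29) (nat_lit 5) (nat_lit 30) (nat_lit 4) (nat_lit 463) (nat_lit 329) (nat_lit 228)) (XT.lf (nat_lit 0) (nat_lit 28356152906) (nat_lit 152) (nat_lit 7317231992) (nat_lit 0) (nat_lit 4869664536) (nat_lit 28) (nat_lit 5) (nat_lit 30) (nat_lit 4) (nat_lit 28) (nat_lit 4) (nat_lit 464) (nat_lit 329) (nat_lit 227)))) (XT.nd (nat_lit 156) (nat_lit 76) (nat_lit 0) (XT.nd (nat_lit 78) (nat_lit 76) (nat_lit 0) (XT.lf (nat_lit 0) (nat_lit 8894052884) (nat_lit 76) (nat_lit 28065943203) (nat_lit 76) (nat_lit 4544173445) (nat_lit 27) (nat_lit 4) (nat_lit 28) (nat_lit 5) (nat_lit 28) (nat_lit 4) (nat_lit 465) (nat_lit 329) (nat_lit 226)) (XT.lf (nat_lit 0) (nat_lit 3315299590) (nat_lit 152) (nat_lit 16825965363) (nat_lit 76) (nat_lit 22350327285) (nat_lit 26) (nat_lit 5) (nat_lit 28) (nat_lit 5) (nat_lit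 27) (nat_lit 4) (nat_lit 466) (nat_lit 329) (nat_lit 225))) (XT.nd (nat_lit 78) (nat_lit 76) (nat_lit 0) (XT.lf (nat_lit 0) (nat_lit 11297655429) (nat_lit 152) (nat_lit 655039102) (nat_lit 76) (nat_lit 31555241225) (nat_lit 26) (nat_lit 5) (nat_lit 28) (nat_lit 5) (nat_lit 27) (nat_lit 4) (nat_lit 467) (nat_lit 329) (nat_lit 224)) (XT.lf (nat_lit 0) (nat_lit 16278118160) (nat_lit 76) (nat_lit 3376899205) (nat_lit 152) (nat_lit 24895686970) (nat_lit 25) (nat_lit 5) (nat_lit 26) (nat_lit 5) (nat_lit 27) (nat_lit 4) (nat_lit 468) (nat_lit 329) (nat_lit 223))))))) (XT.nd (nat_lit 1092) (nat_lit 228) (nat_lit 0) (XT.nd (nat_lit 546) (nat_lit 304) (nat_lit 0) (XT.nd (nat_lit 234) (nat_lit 152) (nat_lit 0) (XT.nd (nat_lit 78) (nat_lit 76) (nat_lit 0) (XT.lf (nat_lit 0) (nat_lit 28301325751) (nat_lit 152) (nat_lit 11984952817) (nat_lit 0) (nat_lit 5337331432) (nat_lit 25) (nat_lit 5) (nat_lit 27) (nat_lit 4) (nat_lit 25)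 (nat_lit 4) (nat_lit 469) (nat_lit 329) (nat_lit 222)) (XT.nd (nat_lit 78) (nat_lit 0) (nat_lit 0) (XT.lf (nat_lit 0) (nat_lit 4812384225) (nat_lit 76) (nat_lit 32454039646) (nat_lit 76) (nat_lit 9460497720) (nat_lit 24) (nat_lit 4) (nat_lit 25) (nat_lit 5) (nat_lit 25) (nat_lit 4) (nat_lit 470) (nat_lit 329) (nat_lit 221)) (XT.lf (nat_lit 0) (nat_lit 22320309793) (nat_lit 76) (nat_lit 24281112002) (nat_lit 76) (nat_lit 1258883079) (nat_lit 24) (nat_lit 4) (nat_lit 25) (nat_lit 5) (nat_lit 25) (nat_lit 4) (nat_lit 471) (nat_lit 329) (nat_lit 220)))) (XT.nd (nat_lit 156) (nat_lit 0) (nat_lit 0) (XT.nd (nat_lit 78) (nat_lit 76) (nat_lit 0) (XT.lf (nat_lit 0) (nat_lit 7028814420) (nat_lit 152) (nat_lit 8781587103) (nat_lit 76) (nat_lit 33215806349) (nat_lit 23) (nat_lit 5) (nat_lit 25) (nat_lit 5) (nat_lit 24) (nat_lit 4) (nat_lit 472) (nat_lit 329) (nat_lit 219)) (XT.lf (nat_lit 0) (nat_lit 8597728544) (nat_lit 76)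 (nat_lit 7005645429) (nat_lit 152) (nat_lit 34621434743) (nat_lit 22) (nat_lit 5) (nat_lit 23) (nat_lit 5) (nat_lit 24) (nat_lit 4) (nat_lit 473) (nat_lit 329) (nat_lit 218))) (XT.nd (nat_lit 78) (nat_lit 0) (nat_lit 0) (XT.lf (nat_lit 0) (nat_lit 24525476370) (nat_lit 152) (nat_lit 24836165833) (nat_lit 0) (nat_lit 2095016867) (nat_lit 22) (nat_lit 5) (nat_lit 24) (nat_lit 4) (nat_lit 22) (nat_lit 4) (nat_lit 474) (nat_lit 329) (nat_lit 217)) (XT.lf (nat_lit 0) (nat_lit 33766078455) (nat_lit 152) (nat_lit 7646988730) (nat_lit 0) (nat_lit 11310873296) (nat_lit 22) (nat_lit 5) (nat_lit 24) (nat_lit 4) (nat_lit 22) (nat_lit 4) (nat_lit 475) (nat_lit 329) (nat_lit 216))))) (XT.nd (nat_lit 234) (nat_lit 152) (nat_lit 0) (XT.nd (nat_lit 78) (nat_lit 76) (nat_lit 0) (XT.lf (nat_lit 0) (nat_lit 10222286990) (nat_lit 76) (nat_lit 33141887877) (nat_lit 76) (nat_lit 10662657809) (nat_lit 21) (nat_lit 4) (nat_lit 22) (nat_lit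 5) (nat_lit 22) (nat_lit 4) (nat_lit 476) (nat_lit 329) (nat_lit 215)) (XT.nd (nat_lit 78) (nat_lit 76) (nat_lit 0) (XT.lf (nat_lit 0) (nat_lit 28749690055) (nat_lit 76) (nat_lit 24559947358) (nat_lit 76) (nat_lit 2057392137) (nat_lit 21) (nat_lit 4) (nat_lit 22) (nat_lit 5) (nat_lit 22) (nat_lit 4) (nat_lit 477) (nat_lit 329) (nat_lit 214)) (XT.lf (nat_lit 0) (nat_lit 6655771656) (nat_lit 152) (nat_lit 9013984539) (nat_lit 76) (nat_lit 41076237485) (nat_lit 20) (nat_lit 5) (nat_lit 22) (nat_lit 5) (nat_lit 21) (nat_lit 4) (nat_lit 478) (nat_lit 329) (nat_lit 213)))) (XT.nd (nat_lit 156) (nat_lit 76) (nat_lit 0) (XT.nd (nat_lit 78) (nat_lit 0) (nat_lit 0) (XT.lf (nat_lit 0) (nat_lit 9244441069) (nat_lit 76) (nat_lit 6416459554) (nat_lit 152) (nat_lit 42502657910) (nat_lit 19) (nat_lit 5) (nat_lit 20) (nat_lit 5) (nat_lit 21) (nat_lit 4) (nat_lit 479) (nat_lit 329) (nat_lit 212)) (XT.lf (nat_lit 0) (nat_lit 25041130064)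 (nat_lit 152) (nat_lit 31449439447) (nat_lit 0) (nat_lit 3129932961) (nat_lit 19) (nat_lit 5) (nat_lit 21) (nat_lit 4) (nat_lit 19) (nat_lit 4) (nat_lit 480) (nat_lit 329) (nat_lit 211))) (XT.nd (nat_lit 78) (nat_lit 76) (nat_lit 0) (XT.lf (nat_lit 0) (nat_lit 34749872341) (nat_lit 152) (nat_lit 13551314982) (nat_lit 0) (nat_lit 12818554755) (nat_lit 19) (nat_lit 5) (nat_lit 21) (nat_lit 4) (nat_lit 19) (nat_lit 4) (nat_lit 481) (nat_lit 329) (nat_lit 210)) (XT.lf (nat_lit 0) (nat_lit 4949149739) (nat_lit 76) (nat_lit 39832356400) (nat_lit 76) (nat_lit 17881504366) (nat_lit 18) (nat_lit 4) (nat_lit 19) (nat_lit 5) (nat_lit 19) (nat_lit 4) (nat_lit 482) (nat_lit 329) (nat_lit 209)))))) (XT.nd (nat_lit 546) (nat_lit 0) (nat_lit 0) (XT.nd (nat_lit 234) (nat_lit 152) (nat_lit 0) (XT.nd (nat_lit 78) (nat_lit 76) (nat_lit 0) (XT.lf (nat_lit 0) (nat_lit 24251543539) (nat_lit 76) (nat_lit 30983609765) (nat_lit 76) (nat_lit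 9013792246) (nat_lit 18) (nat_lit 4) (nat_lit 19) (nat_lit 5) (nat_lit 19) (nat_lit 4) (nat_lit 483) (nat_lit 329) (nat_lit 208)) (XT.nd (nat_lit 78) (nat_lit 0) (nat_lit 0) (XT.lf (nat_lit 0) (nat_lit 102140599) (nat_lit 152) (nat_lit 21780885193) (nat_lit 76) (nat_lit 43999862828) (nat_lit 17) (nat_lit 5) (nat_lit 19) (nat_lit 5) (nat_lit 18) (nat_lit 4) (nat_lit 484) (nat_lit 329) (nat_lit 207)) (XT.lf (nat_lit 0) (nat_lit 9295363755) (nat_lit 152) (nat_lit 3136518975) (nat_lit 76) (nat_lit 55131740924) (nat_lit 17) (nat_lit 5) (nat_lit 19) (nat_lit 5) (nat_lit 18) (nat_lit 4) (nat_lit 485) (nat_lit 329) (nat_lit 206)))) (XT.nd (nat_lit 156) (nat_lit 76) (nat_lit 0) (XT.nd (nat_lit 78) (nat_lit 0) (nat_lit 0) (XT.lf (nat_lit 0) (nat_lit 16357834185) (nat_lit 76) (nat_lit 2549209010) (nat_lit 152) (nat_lit 50383458195) (nat_lit 16) (nat_lit 5) (nat_lit 17) (nat_lit 5) (nat_lit 18) (nat_lit 4) (nat_lit 486) (nat_lit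 329) (nat_lit 205)) (XT.lf (nat_lit 0) (nat_lit 28897841108) (nat_lit 152) (nat_lit 34669143823) (nat_lit 0) (nat_lit 7499477913) (nat_lit 16) (nat_lit 5) (nat_lit 18) (nat_lit 4) (nat_lit 16) (nat_lit 4) (nat_lit 487) (nat_lit 329) (nat_lit 204))) (XT.nd (nat_lit 78) (nat_lit 76) (nat_lit 0) (XT.lf (nat_lit 0) (nat_lit 39199464890) (nat_lit 152) (nat_lit 15910687208) (nat_lit 0) (nat_lit 17785218400) (nat_lit 16) (nat_lit 5) (nat_lit 18) (nat_lit 4) (nat_lit 16) (nat_lit 4) (nat_lit 488) (nat_lit 329) (nat_lit 203)) (XT.lf (nat_lit 0) (nat_lit 3450938316) (nat_lit 76) (nat_lit 46378645619) (nat_lit 76) (nat_lit 24948978454) (nat_lit 15) (nat_lit 4) (nat_lit 16) (nat_lit 5) (nat_lit 16) (nat_lit 4) (nat_lit 489) (nat_lit 329) (nat_lit 202))))) (XT.nd (nat_lit 43134) (nat_lit 0) (nat_lit 19532) (XT.nd (nat_lit 42978) (nat_lit 0) (nat_lit 22876) (XT.nd (nat_lit 78) (nat_lit 0) (nat_lit 0) (XT.lf (nat_lit 0) (nat_lit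 23692905040) (nat_lit 76) (nat_lit 37232785776) (nat_lit 76) (nat_lit 15788147083) (nat_lit 15) (nat_lit 4) (nat_lit 16) (nat_lit 5) (nat_lit 16) (nat_lit 4) (nat_lit 490) (nat_lit 329) (nat_lit 201)) (XT.lf (nat_lit 0) (nat_lit 44516246247) (nat_lit 76) (nat_lit 27825247785) (nat_lit 76) (nat_lit 6366073628) (nat_lit 15) (nat_lit 4) (nat_lit 16) (nat_lit 5) (nat_lit 16) (nat_lit 4) (nat_lit 491) (nat_lit 329) (nat_lit 200))) (XT.nd (nat_lit 78) (nat_lit 988) (nat_lit 0) (XT.lf (nat_lit 0) (nat_lit 2950178911) (nat_lit 836) (nat_lit 243379543) (nat_lit 836) (nat_lit 243379543) (nat_lit 329) (nat_lit 4) (nat_lit 340) (nat_lit 5) (nat_lit 340) (nat_lit 4) (nat_lit 360) (nat_lit 330) (nat_lit 330)) (XT.lf (nat_lit 0) (nat_lit 2854019688) (nat_lit 988) (nat_lit 3118336224) (nat_lit 0) (nat_lit 946052084) (nat_lit 316) (nat_lit 5) (nat_lit 329) (nat_lit 4) (nat_lit 316) (nat_lit 4) (nat_lit 361) (nat_lit 330) (nat_lit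 329)))) (XT.nd (nat_lit 156) (nat_lit 2280) (nat_lit 0) (XT.nd (nat_lit 78) (nat_lit 76) (nat_lit 0) (XT.lf (nat_lit 0) (nat_lit 1700156294) (nat_lit 988) (nat_lit 4513270579) (nat_lit 988) (nat_lit 752907243) (nat_lit 303) (nat_lit 4) (nat_lit 316) (nat_lit 5) (nat_lit 316) (nat_lit 4) (nat_lit 362) (nat_lit 330) (nat_lit 328)) (XT.lf (nat_lit 0) (nat_lit 2535989547) (nat_lit 1064) (nat_lit 410747013) (nat_lit 76) (nat_lit 4070342488) (nat_lit 302) (nat_lit 5) (nat_lit 316) (nat_lit 5) (nat_lit 303) (nat_lit 4) (nat_lit 363) (nat_lit 330) (nat_lit 327))) (XT.nd (nat_lit 78) (nat_lit 1216) (nat_lit 0) (XT.lf (nat_lit 0) (nat_lit 4577795472) (nat_lit 1064) (nat_lit 1275732560) (nat_lit 1140) (nat_lit 1217285725) (nat_lit 288) (nat_lit 5) (nat_lit 302) (nat_lit 5) (nat_lit 303) (nat_lit 4) (nat_lit 364) (nat_lit 330) (nat_lit 326)) (XT.lf (nat_lit 0) (nat_lit 2037985207) (nat_lit 1216) (nat_lit 4600822979) (nat_lit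 76) (nat_lit 488713703) (nat_lit 272) (nat_lit 5) (nat_lit 288) (nat_lit 5) (nat_lit 273) (nat_lit 4) (nat_lit 365) (nat_lit 330) (nat_lit 325))))))))
noncomputable def xc76 : XT := (XT.nd (nat_lit 2184) (nat_lit 4864) (nat_lit 0) (XT.nd (nat_lit 1092) (nat_lit 4104) (nat_lit 0) (XT.nd (nat_lit 546) (nat_lit 2660) (nat_lit 0) (XT.nd (nat_lit 234) (nat_lit 1900) (nat_lit 0) (XT.nd (nat_lit 78) (nat_lit 760) (nat_lit 0) (XT.lf (nat_lit 0) (nat_lit 449282586) (nat_lit 1216) (nat_lit 4863578678) (nat_lit 1292) (nat_lit 1874356565) (nat_lit 256) (nat_lit 5) (nat_lit 272) (nat_lit 5) (nat_lit 273) (nat_lit 4) (nat_lit 366) (nat_lit 330) (nat_lit 324)) (XT.nd (nat_lit 78) (nat_lit 684) (nat_lit 0) (XT.lf (nat_lit 0) (nat_lit 1361088177) (nat_lit 1292) (nat_lit 1614845536) (nat_lit 76) (nat_lit 4273838987) (nat_lit 255) (nat_lit 5) (nat_lit 272) (nat_lit 5) (nat_lit 256) (nat_lit 5) (nat_lit 367) (nat_lit 330) (nat_lit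 323)) (XT.lf (nat_lit 0) (nat_lit 3618392225) (nat_lit 684) (nat_lit 980018793) (nat_lit 760) (nat_lit 2716998928) (nat_lit 246) (nat_lit 5) (nat_lit 255) (nat_lit 5) (nat_lit 256) (nat_lit 5) (nat_lit 368) (nat_lit 330) (nat_lit 322)))) (XT.nd (nat_lit 156) (nat_lit 1216) (nat_lit 0) (XT.nd (nat_lit 78) (nat_lit 0) (nat_lit 0) (XT.lf (nat_lit 0) (nat_lit 490054153) (nat_lit 684) (nat_lit 5807107075) (nat_lit 76) (nat_lit 1087203096) (nat_lit 237) (nat_lit 5) (nat_lit 246) (nat_lit 5) (nat_lit 238) (nat_lit 5) (nat_lit 369) (nat_lit 330) (nat_lit 321)) (XT.lf (nat_lit 0) (nat_lit 3696355840) (nat_lit 684) (nat_lit 503930161) (nat_lit 76) (nat_lit 3255598869) (nat_lit 237) (nat_lit 5) (nat_lit 246) (nat_lit 5) (nat_lit 238) (nat_lit 5) (nat_lit 370) (nat_lit 330) (nat_lit 320))) (XT.nd (nat_lit 78) (nat_lit 608) (nat_lit 0) (XT.lf (nat_lit 0) (nat_lit 4959751126) (nat_lit 608) (nat_lit 1999626547) (nat_lit 684)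 (nat_lit 571390382) (nat_lit 229) (nat_lit 5) (nat_lit 237) (nat_lit 5) (nat_lit 238) (nat_lit 5) (nat_lit 371) (nat_lit 330) (nat_lit 319)) (XT.lf (nat_lit 0) (nat_lit 2609384428) (nat_lit 608) (nat_lit 4687114586) (nat_lit 76) (nat_lit 312149973) (nat_lit 221) (nat_lit 5) (nat_lit 229) (nat_lit 5) (nat_lit 222) (nat_lit 5) (nat_lit 372) (nat_lit 330) (nat_lit 318))))) (XT.nd (nat_lit 234) (nat_lit 1596) (nat_lit 0) (XT.nd (nat_lit 78) (nat_lit 532) (nat_lit 0) (XT.lf (nat_lit 0) (nat_lit 836366621) (nat_lit 532) (nat_lit 5006896242) (nat_lit 608) (nat_lit 1846388982) (nat_lit 214) (nat_lit 5) (nat_lit 221) (nat_lit 5) (nat_lit 222) (nat_lit 5) (nat_lit 373) (nat_lit 330) (nat_lit 317)) (XT.nd (nat_lit 78) (nat_lit 456) (nat_lit 0) (XT.lf (nat_lit 0) (nat_lit 1337328212) (nat_lit 608) (nat_lit 1262433514) (nat_lit 76) (nat_lit 5174039591) (nat_lit 213) (nat_lit 5) (nat_lit 221) (nat_lit 5) (nat_lit 214) (nat_lit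 5) (nat_lit 374) (nat_lit 330) (nat_lit 316)) (XT.lf (nat_lit 0) (nat_lit 4469480688) (nat_lit 456) (nat_lit 71177608) (nat_lit 532) (nat_lit 3320459787) (nat_lit 207) (nat_lit 5) (nat_lit 213) (nat_lit 5) (nat_lit 214) (nat_lit 5) (nat_lit 375) (nat_lit 330) (nat_lit 315)))) (XT.nd (nat_lit 156) (nat_lit 532) (nat_lit 0) (XT.nd (nat_lit 78) (nat_lit 532) (nat_lit 0) (XT.lf (nat_lit 0) (nat_lit 2373438502) (nat_lit 532) (nat_lit 5446271855) (nat_lit 608) (nat_lit 131982127) (nat_lit 200) (nat_lit 5) (nat_lit 207) (nat_lit 5) (nat_lit 208) (nat_lit 5) (nat_lit 376) (nat_lit 330) (nat_lit 314)) (XT.lf (nat_lit 0) (nat_lit 212211667) (nat_lit 456) (nat_lit 2835954278) (nat_lit 532) (nat_lit 4997208643) (nat_lit 193) (nat_lit 5) (nat_lit 199) (nat_lit 5) (nat_lit 200) (nat_lit 5) (nat_lit 377) (nat_lit 330) (nat_lit 313))) (XT.nd (nat_lit 78) (nat_lit 532) (nat_lit 0) (XT.lf (nat_lit 0) (nat_lit 6192743933) (nat_lit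 456) (nat_lit 106226972) (nat_lit 532) (nat_lit 1843544414) (nat_lit 193) (nat_lit 5) (nat_lit 199) (nat_lit 5) (nat_lit 200) (nat_lit 5) (nat_lit 378) (nat_lit 330) (nat_lit 312)) (XT.lf (nat_lit 0) (nat_lit 1365991478) (nat_lit 532) (nat_lit 4188819500) (nat_lit 76) (nat_lit 2687717125) (nat_lit 186) (nat_lit 5) (nat_lit 193) (nat_lit 5) (nat_lit 187) (nat_lit 5) (nat_lit 379) (nat_lit 330) (nat_lit 311)))))) (XT.nd (nat_lit 546) (nat_lit 1900) (nat_lit 0) (XT.nd (nat_lit 234) (nat_lit 1216) (nat_lit 0) (XT.nd (nat_lit 78) (nat_lit 532) (nat_lit 0) (XT.lf (nat_lit 0) (nat_lit 1852383597) (nat_lit 456) (nat_lit 2745363784) (nat_lit 532) (nat_lit 3748379122) (nat_lit 180) (nat_lit 5) (nat_lit 186) (nat_lit 5) (nat_lit 187) (nat_lit 5) (nat_lit 380) (nat_lit 330) (nat_lit 310)) (XT.nd (nat_lit 78) (nat_lit 532) (nat_lit 0) (XT.lf (nat_lit 0) (nat_lit 7895929171) (nat_lit 532) (nat_lit 390399260) (nat_lit 76) (nat_lit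 167442014) (nat_lit 180) (nat_lit 5) (nat_lit 187) (nat_lit 5) (nat_lit 181) (nat_lit 5) (nat_lit 381) (nat_lit 330) (nat_lit 309)) (XT.lf (nat_lit 0) (nat_lit 2686556795) (nat_lit 532) (nat_lit 2701722286) (nat_lit 76) (nat_lit 3175256791) (nat_lit 173) (nat_lit 5) (nat_lit 180) (nat_lit 5) (nat_lit 174) (nat_lit 5) (nat_lit 382) (nat_lit 330) (nat_lit 308)))) (XT.nd (nat_lit 156) (nat_lit 380) (nat_lit 0) (XT.nd (nat_lit 78) (nat_lit 456) (nat_lit 0) (XT.lf (nat_lit 0) (nat_lit 3602496907) (nat_lit 380) (nat_lit 2381175679) (nat_lit 456) (nat_lit 2693777983) (nat_lit 168) (nat_lit 5) (nat_lit 173) (nat_lit 5) (nat_lit 174) (nat_lit 5) (nat_lit 383) (nat_lit 330) (nat_lit 307)) (XT.lf (nat_lit 0) (nat_lit 548923583) (nat_lit 456) (nat_lit 7522194430) (nat_lit 76) (nat_lit 724252259) (nat_lit 162) (nat_lit 5) (nat_lit 168) (nat_lit 5) (nat_lit 163) (nat_lit 5) (nat_lit 384) (nat_lit 330) (nat_lit 306))) (XT.nd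 (nat_lit 78) (nat_lit 380) (nat_lit 0) (XT.lf (nat_lit 0) (nat_lit 3839486410) (nat_lit 456) (nat_lit 1147083283) (nat_lit 76) (nat_lit 3929334315) (nat_lit 162) (nat_lit 5) (nat_lit 168) (nat_lit 5) (nat_lit 163) (nat_lit 5) (nat_lit 385) (nat_lit 330) (nat_lit 305)) (XT.lf (nat_lit 0) (nat_lit 5431265258) (nat_lit 380) (nat_lit 1781158060) (nat_lit 456) (nat_lit 1828138438) (nat_lit 157) (nat_lit 5) (nat_lit 162) (nat_lit 5) (nat_lit 163) (nat_lit 5) (nat_lit 386) (nat_lit 330) (nat_lit 304))))) (XT.nd (nat_lit 234) (nat_lit 1140) (nat_lit 0) (XT.nd (nat_lit 78) (nat_lit 304) (nat_lit 0) (XT.lf (nat_lit 0) (nat_lit 1475396480) (nat_lit 456) (nat_lit 6172793932) (nat_lit 76) (nat_lit 1520725253) (nat_lit 151) (nat_lit 5) (nat_lit 157) (nat_lit 5) (nat_lit 152) (nat_lit 5) (nat_lit 387) (nat_lit 330) (nat_lit 303)) (XT.nd (nat_lit 78) (nat_lit 0) (nat_lit 0) (XT.lf (nat_lit 0) (nat_lit 451070495) (nat_lit 304)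 (nat_lit 4381698815) (nat_lit 380) (nat_lit 4468079812) (nat_lit 147) (nat_lit 5) (nat_lit 151) (nat_lit 5) (nat_lit 152) (nat_lit 5) (nat_lit 388) (nat_lit 330) (nat_lit 302)) (XT.lf (nat_lit 0) (nat_lit 7305823561) (nat_lit 304) (nat_lit 981122855) (nat_lit 380) (nat_lit 1149927414) (nat_lit 147) (nat_lit 5) (nat_lit 151) (nat_lit 5) (nat_lit 152) (nat_lit 5) (nat_lit 389) (nat_lit 330) (nat_lit 301)))) (XT.nd (nat_lit 156) (nat_lit 380) (nat_lit 0) (XT.nd (nat_lit 78) (nat_lit 304) (nat_lit 0) (XT.lf (nat_lit 0) (nat_lit 2229012395) (nat_lit 456) (nat_lit 4834003428) (nat_lit 76) (nat_lit 2513159462) (nat_lit 141) (nat_lit 5) (nat_lit 147) (nat_lit 5) (nat_lit 142) (nat_lit 5) (nat_lit 390) (nat_lit 330) (nat_lit 300)) (XT.lf (nat_lit 0) (nat_lit 2071703014) (nat_lit 304) (nat_lit 3601632116) (nat_lit 380) (nat_lit 4046379681) (nat_lit 137) (nat_lit 5) (nat_lit 141) (nat_lit 5) (nat_lit 142) (nat_lit 5) (nat_lit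 391) (nat_lit 330) (nat_lit 299))) (XT.nd (nat_lit 78) (nat_lit 380) (nat_lit 0) (XT.lf (nat_lit 0) (nat_lit 9190915680) (nat_lit 304) (nat_lit 15631152) (nat_lit 380) (nat_lit 661460897) (nat_lit 137) (nat_lit 5) (nat_lit 141) (nat_lit 5) (nat_lit 142) (nat_lit 5) (nat_lit 392) (nat_lit 330) (nat_lit 298)) (XT.lf (nat_lit 0) (nat_lit 2806400806) (nat_lit 380) (nat_lit 3544332914) (nat_lit 76) (nat_lit 3668118584) (nat_lit 132) (nat_lit 5) (nat_lit 137) (nat_lit 5) (nat_lit 133) (nat_lit 5) (nat_lit 393) (nat_lit 330) (nat_lit 297))))))) (XT.nd (nat_lit 1092) (nat_lit 2052) (nat_lit 0) (XT.nd (nat_lit 546) (nat_lit 1292) (nat_lit 0) (XT.nd (nat_lit 234) (nat_lit 836) (nat_lit 0) (XT.nd (nat_lit 78) (nat_lit 380) (nat_lit 0) (XT.lf (nat_lit 0) (nat_lit 3653082843) (nat_lit 304) (nat_lit 2692718558) (nat_lit 380) (nat_lit 3828813208) (nat_lit 128) (nat_lit 5) (nat_lit 132) (nat_lit 5) (nat_lit 133) (nat_lit 5) (nat_lit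 394) (nat_lit 330) (nat_lit 296)) (XT.nd (nat_lit 78) (nat_lit 76) (nat_lit 0) (XT.lf (nat_lit 0) (nat_lit 715776783) (nat_lit 304) (nat_lit 9268207205) (nat_lit 380) (nat_lit 351300220) (nat_lit 124) (nat_lit 5) (nat_lit 128) (nat_lit 5) (nat_lit 129) (nat_lit 5) (nat_lit 395) (nat_lit 330) (nat_lit 295)) (XT.lf (nat_lit 0) (nat_lit 3200190066) (nat_lit 380) (nat_lit 2346185294) (nat_lit 76) (nat_lit 4952497890) (nat_lit 123) (nat_lit 5) (nat_lit 128) (nat_lit 5) (nat_lit 124) (nat_lit 5) (nat_lit 396) (nat_lit 330) (nat_lit 294)))) (XT.nd (nat_lit 156) (nat_lit 304) (nat_lit 0) (XT.nd (nat_lit 78) (nat_lit 304) (nat_lit 0) (XT.lf (nat_lit 0) (nat_lit 5152192107) (nat_lit 228) (nat_lit 1689783681) (nat_lit 304) (nat_lit 3825576854) (nat_lit 120) (nat_lit 5) (nat_lit 123) (nat_lit 5) (nat_lit 124) (nat_lit 5) (nat_lit 397) (nat_lit 330) (nat_lit 293)) (XT.lf (nat_lit 0) (nat_lit 2009302794) (nat_lit 304) (nat_lit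 8590728868) (nat_lit 380) (nat_lit 241061296) (nat_lit 116) (nat_lit 5) (nat_lit 120) (nat_lit 5) (nat_lit 121) (nat_lit 5) (nat_lit 398) (nat_lit 330) (nat_lit 292))) (XT.nd (nat_lit 78) (nat_lit 228) (nat_lit 0) (XT.lf (nat_lit 0) (nat_lit 3398711447) (nat_lit 380) (nat_lit 1286895475) (nat_lit 76) (nat_lit 6332795888) (nat_lit 115) (nat_lit 5) (nat_lit 120) (nat_lit 5) (nat_lit 116) (nat_lit 5) (nat_lit 399) (nat_lit 330) (nat_lit 291)) (XT.lf (nat_lit 0) (nat_lit 6520818188) (nat_lit 228) (nat_lit 628469654) (nat_lit 304) (nat_lit 4051488950) (nat_lit 112) (nat_lit 5) (nat_lit 115) (nat_lit 5) (nat_lit 116) (nat_lit 5) (nat_lit 400) (nat_lit 330) (nat_lit 290))))) (XT.nd (nat_lit 234) (nat_lit 760) (nat_lit 0) (XT.nd (nat_lit 78) (nat_lit 304) (nat_lit 0) (XT.lf (nat_lit 0) (nat_lit 3139024285) (nat_lit 228) (nat_lit 7895045078) (nat_lit 304) (nat_lit 353911803) (nat_lit 109) (nat_lit 5) (nat_lit 112) (nat_lit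 5) (nat_lit 113) (nat_lit 5) (nat_lit 401) (nat_lit 330) (nat_lit 289)) (XT.nd (nat_lit 78) (nat_lit 228) (nat_lit 0) (XT.lf (nat_lit 0) (nat_lit 3385615200) (nat_lit 304) (nat_lit 419896917) (nat_lit 76) (nat_lit 7774349547) (nat_lit 108) (nat_lit 5) (nat_lit 112) (nat_lit 5) (nat_lit 109) (nat_lit 5) (nat_lit 402) (nat_lit 330) (nat_lit 288)) (XT.lf (nat_lit 0) (nat_lit 7254739587) (nat_lit 304) (nat_lit 4076821471) (nat_lit 76) (nat_lit 445105629) (nat_lit 105) (nat_lit 5) (nat_lit 109) (nat_lit 5) (nat_lit 106) (nat_lit 5) (nat_lit 403) (nat_lit 330) (nat_lit 287)))) (XT.nd (nat_lit 156) (nat_lit 228) (nat_lit 0) (XT.nd (nat_lit 78) (nat_lit 304) (nat_lit 0) (XT.lf (nat_lit 0) (nat_lit 4046813520) (nat_lit 228) (nat_lit 7220520835) (nat_lit 304) (nat_lit 711228320) (nat_lit 102) (nat_lit 5) (nat_lit 105) (nat_lit 5) (nat_lit 106) (nat_lit 5) (nat_lit 404) (nat_lit 330) (nat_lit 286)) (XT.lf (nat_lit 0) (nat_lit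 197819406) (nat_lit 228) (nat_lit 2943471137) (nat_lit 304) (nat_lit 9044600074) (nat_lit 98) (nat_lit 5) (nat_lit 101) (nat_lit 5) (nat_lit 102) (nat_lit 5) (nat_lit 405) (nat_lit 330) (nat_lit 285))) (XT.nd (nat_lit 78) (nat_lit 228) (nat_lit 0) (XT.lf (nat_lit 0) (nat_lit 7137162127) (nat_lit 304) (nat_lit 3772647728) (nat_lit 76) (nat_lit 1488163097) (nat_lit 98) (nat_lit 5) (nat_lit 102) (nat_lit 5) (nat_lit 99) (nat_lit 5) (nat_lit 406) (nat_lit 330) (nat_lit 284)) (XT.lf (nat_lit 0) (nat_lit 4666106138) (nat_lit 228) (nat_lit 6609471747) (nat_lit 304) (nat_lit 1340167574) (nat_lit 95) (nat_lit 5) (nat_lit 98) (nat_lit 5) (nat_lit 99) (nat_lit 5) (nat_lit 407) (nat_lit 330) (nat_lit 283)))))) (XT.nd (nat_lit 546) (nat_lit 1064) (nat_lit 0) (XT.nd (nat_lit 234) (nat_lit 532) (nat_lit 0) (XT.nd (nat_lit 78) (nat_lit 228) (nat_lit 0) (XT.lf (nat_lit 0) (nat_lit 494554395) (nat_lit 152) (nat_lit 2142966571) (nat_lit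 228) (nat_lit 10201997135) (nat_lit 92) (nat_lit 5) (nat_lit 94) (nat_lit 5) (nat_lit 95) (nat_lit 5) (nat_lit 408) (nat_lit 330) (nat_lit 282)) (XT.nd (nat_lit 78) (nat_lit 228) (nat_lit 0) (XT.lf (nat_lit 0) (nat_lit 6761498550) (nat_lit 228) (nat_lit 3835841755) (nat_lit 76) (nat_lit 2470655801) (nat_lit 92) (nat_lit 5) (nat_lit 95) (nat_lit 5) (nat_lit 93) (nat_lit 5) (nat_lit 409) (nat_lit 330) (nat_lit 281)) (XT.lf (nat_lit 0) (nat_lit 4920248396) (nat_lit 228) (nat_lit 6108141120) (nat_lit 304) (nat_lit 2274369993) (nat_lit 89) (nat_lit 5) (nat_lit 92) (nat_lit 5) (nat_lit 93) (nat_lit 5) (nat_lit 410) (nat_lit 330) (nat_lit 280)))) (XT.nd (nat_lit 156) (nat_lit 304) (nat_lit 0) (XT.nd (nat_lit 78) (nat_lit 0) (nat_lit 0) (XT.lf (nat_lit 0) (nat_lit 379949772) (nat_lit 152) (nat_lit 1455718483) (nat_lit 228) (nat_lit 11708554038) (nat_lit 86) (nat_lit 5) (nat_lit 88) (nat_lit 5) (nat_lit 89) (nat_lit 5)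 (nat_lit 411) (nat_lit 330) (nat_lit 279)) (XT.lf (nat_lit 0) (nat_lit 6092000771) (nat_lit 228) (nat_lit 4352288169) (nat_lit 76) (nat_lit 3345909588) (nat_lit 86) (nat_lit 5) (nat_lit 89) (nat_lit 5) (nat_lit 87) (nat_lit 5) (nat_lit 412) (nat_lit 330) (nat_lit 278))) (XT.nd (nat_lit 78) (nat_lit 76) (nat_lit 0) (XT.lf (nat_lit 0) (nat_lit 4720603860) (nat_lit 228) (nat_lit 5767782950) (nat_lit 304) (nat_lit 3554802447) (nat_lit 83) (nat_lit 5) (nat_lit 86) (nat_lit 5) (nat_lit 87) (nat_lit 5) (nat_lit 413) (nat_lit 330) (nat_lit 277)) (XT.lf (nat_lit 0) (nat_lit 696081001) (nat_lit 304) (nat_lit 236144871) (nat_lit 76) (nat_lit 13371431092) (nat_lit 82) (nat_lit 5) (nat_lit 86) (nat_lit 5) (nat_lit 83) (nat_lit 5) (nat_lit 414) (nat_lit 330) (nat_lit 276))))) (XT.nd (nat_lit 312) (nat_lit 532) (nat_lit 0) (XT.nd (nat_lit 156) (nat_lit 228) (nat_lit 0) (XT.nd (nat_lit 78) (nat_lit 152) (nat_lit 0) (XT.lf (nat_lit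 0) (nat_lit 5085275208) (nat_lit 228) (nat_lit 5421390403) (nat_lit 76) (nat_lit 4061755834) (nat_lit 80) (nat_lit 5) (nat_lit 83) (nat_lit 5) (nat_lit 81) (nat_lit 5) (nat_lit 415) (nat_lit 330) (nat_lit 275)) (XT.lf (nat_lit 0) (nat_lit 3964377912) (nat_lit 152) (nat_lit 5645873674) (nat_lit 228) (nat_lit 5230759515) (nat_lit 78) (nat_lit 5) (nat_lit 80) (nat_lit 5) (nat_lit 81) (nat_lit 5) (nat_lit 416) (nat_lit 330) (nat_lit 274))) (XT.nd (nat_lit 78) (nat_lit 228) (nat_lit 0) (XT.lf (nat_lit 0) (nat_lit 13664415607) (nat_lit 152) (nat_lit 616242544) (nat_lit 228) (nat_lit 840835141) (nat_lit 78) (nat_lit 5) (nat_lit 80) (nat_lit 5) (nat_lit 81) (nat_lit 5) (nat_lit 417) (nat_lit 330) (nat_lit 273)) (XT.lf (nat_lit 0) (nat_lit 3689201835) (nat_lit 228) (nat_lit 7158464465) (nat_lit 76) (nat_lit 4559259952) (nat_lit 75) (nat_lit 5) (nat_lit 78) (nat_lit 5) (nat_lit 76) (nat_lit 5) (nat_lit 418) (nat_lit 330)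 (nat_lit 272)))) (XT.nd (nat_lit 156) (nat_lit 380) (nat_lit 0) (XT.nd (nat_lit 78) (nat_lit 0) (nat_lit 0) (XT.lf (nat_lit 0) (nat_lit 2532112177) (nat_lit 152) (nat_lit 5807478577) (nat_lit 228) (nat_lit 7361045994) (nat_lit 73) (nat_lit 5) (nat_lit 75) (nat_lit 5) (nat_lit 76) (nat_lit 5) (nat_lit 419) (nat_lit 330) (nat_lit 271)) (XT.lf (nat_lit 0) (nat_lit 12583623706) (nat_lit 152) (nat_lit 574748455) (nat_lit 228) (nat_lit 2843924659) (nat_lit 73) (nat_lit 5) (nat_lit 75) (nat_lit 5) (nat_lit 76) (nat_lit 5) (nat_lit 420) (nat_lit 330) (nat_lit 270))) (XT.nd (nat_lit 78) (nat_lit 152) (nat_lit 0) (XT.lf (nat_lit 0) (nat_lit 1841660835) (nat_lit 228) (nat_lit 9697499363) (nat_lit 76) (nat_lit 4771281969) (nat_lit 70) (nat_lit 5) (nat_lit 73) (nat_lit 5) (nat_lit 71) (nat_lit 5) (nat_lit 421) (nat_lit 330) (nat_lit 269)) (XT.lf (nat_lit 0) (nat_lit 284793616) (nat_lit 152) (nat_lit 6326802256) (nat_lit 228)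 (nat_lit 10015367298) (nat_lit 68) (nat_lit 5) (nat_lit 70) (nat_lit 5) (nat_lit 71) (nat_lit 5) (nat_lit 422) (nat_lit 330) (nat_lit 268))))))))
noncomputable def xc77 : XT := (XT.nd (nat_lit 2262) (nat_lit 1368) (nat_lit 0) (XT.nd (nat_lit 1092) (nat_lit 988) (nat_lit 0) (XT.nd (nat_lit 546) (nat_lit 608) (nat_lit 0) (XT.nd (nat_lit 234) (nat_lit 532) (nat_lit 0) (XT.nd (nat_lit 78) (nat_lit 228) (nat_lit 0) (XT.lf (nat_lit 0) (nat_lit 10690719365) (nat_lit 152) (nat_lit 890001634) (nat_lit 228) (nat_lit 5370580206) (nat_lit 68) (nat_lit 5) (nat_lit 70) (nat_lit 5) (nat_lit 71) (nat_lit 5) (nat_lit 423) (nat_lit 330) (nat_lit 267)) (XT.nd (nat_lit 78) (nat_lit 76) (nat_lit 0) (XT.lf (nat_lit 0) (nat_lit 4084514460) (nat_lit 152) (nat_lit 12658021476) (nat_lit 228) (nat_lit 541529004) (nat_lit 66) (nat_lit 5) (nat_lit 68) (nat_lit 5) (nat_lit 69) (nat_lit 4) (nat_lit 424) (nat_lit 330) (nat_lit 266)) (XT.lf (nat_lit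 0) (nat_lit 4377727350) (nat_lit 228) (nat_lit 2882125585) (nat_lit 76) (nat_lit 10364729487) (nat_lit 65) (nat_lit 5) (nat_lit 68) (nat_lit 5) (nat_lit 66) (nat_lit 5) (nat_lit 425) (nat_lit 330) (nat_lit 265)))) (XT.nd (nat_lit 156) (nat_lit 228) (nat_lit 0) (XT.nd (nat_lit 78) (nat_lit 152) (nat_lit 0) (XT.lf (nat_lit 0) (nat_lit 7820745756) (nat_lit 152) (nat_lit 1648466663) (nat_lit 228) (nat_lit 8504879801) (nat_lit 63) (nat_lit 5) (nat_lit 65) (nat_lit 5) (nat_lit 66) (nat_lit 5) (nat_lit 426) (nat_lit 330) (nat_lit 264)) (XT.lf (nat_lit 0) (nat_lit 468203290) (nat_lit 152) (nat_lit 14279374345) (nat_lit 228) (nat_lit 3585489200) (nat_lit 61) (nat_lit 5) (nat_lit 63) (nat_lit 5) (nat_lit 64) (nat_lit 4) (nat_lit 427) (nat_lit 330) (nat_lit 263))) (XT.nd (nat_lit 78) (nat_lit 152) (nat_lit 0) (XT.lf (nat_lit 0) (nat_lit 1533049726) (nat_lit 228) (nat_lit 7186367924) (nat_lit 76) (nat_lit 9980554923) (nat_lit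 60) (nat_lit 5) (nat_lit 63) (nat_lit 5) (nat_lit 61) (nat_lit 5) (nat_lit 428) (nat_lit 330) (nat_lit 262)) (XT.lf (nat_lit 0) (nat_lit 3781265105) (nat_lit 152) (nat_lit 2949920240) (nat_lit 228) (nat_lit 12345695270) (nat_lit 58) (nat_lit 5) (nat_lit 60) (nat_lit 5) (nat_lit 61) (nat_lit 5) (nat_lit 429) (nat_lit 330) (nat_lit 261))))) (XT.nd (nat_lit 234) (nat_lit 456) (nat_lit 0) (XT.nd (nat_lit 78) (nat_lit 152) (nat_lit 0) (XT.lf (nat_lit 0) (nat_lit 12149230529) (nat_lit 228) (nat_lit 4336824880) (nat_lit 76) (nat_lit 2977124713) (nat_lit 58) (nat_lit 5) (nat_lit 61) (nat_lit 5) (nat_lit 59) (nat_lit 4) (nat_lit 430) (nat_lit 330) (nat_lit 260)) (XT.nd (nat_lit 78) (nat_lit 76) (nat_lit 0) (XT.lf (nat_lit 0) (nat_lit 6990296295) (nat_lit 76) (nat_lit 10798943756) (nat_lit 152) (nat_lit 2070048972) (nat_lit 57) (nat_lit 5) (nat_lit 58) (nat_lit 5) (nat_lit 59) (nat_lit 4) (nat_lit 431) (nat_lit 330) (nat_lit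 259)) (XT.lf (nat_lit 0) (nat_lit 3273481972) (nat_lit 152) (nat_lit 1619996808) (nat_lit 76) (nat_lit 15372625200) (nat_lit 56) (nat_lit 5) (nat_lit 58) (nat_lit 5) (nat_lit 57) (nat_lit 5) (nat_lit 432) (nat_lit 330) (nat_lit 258)))) (XT.nd (nat_lit 156) (nat_lit 228) (nat_lit 0) (XT.nd (nat_lit 78) (nat_lit 76) (nat_lit 0) (XT.lf (nat_lit 0) (nat_lit 8809047864) (nat_lit 228) (nat_lit 10618110628) (nat_lit 76) (nat_lit 1255152814) (nat_lit 54) (nat_lit 5) (nat_lit 57) (nat_lit 5) (nat_lit 55) (nat_lit 4) (nat_lit 433) (nat_lit 330) (nat_lit 257)) (XT.lf (nat_lit 0) (nat_lit 925189963) (nat_lit 76) (nat_lit 13623652590) (nat_lit 152) (nat_lit 6561020195) (nat_lit 53) (nat_lit 5) (nat_lit 54) (nat_lit 5) (nat_lit 55) (nat_lit 4) (nat_lit 434) (nat_lit 330) (nat_lit 256))) (XT.nd (nat_lit 78) (nat_lit 228) (nat_lit 0) (XT.lf (nat_lit 0) (nat_lit 12967226297) (nat_lit 76) (nat_lit 7565537082) (nat_lit 152) (nat_lit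 1015322059) (nat_lit 53) (nat_lit 5) (nat_lit 54) (nat_lit 5) (nat_lit 55) (nat_lit 4) (nat_lit 435) (nat_lit 330) (nat_lit 255)) (XT.lf (nat_lit 0) (nat_lit 3326823614) (nat_lit 152) (nat_lit 1275648701) (nat_lit 228) (nat_lit 17395709297) (nat_lit 50) (nat_lit 5) (nat_lit 52) (nat_lit 5) (nat_lit 53) (nat_lit 5) (nat_lit 436) (nat_lit 330) (nat_lit 254)))))) (XT.nd (nat_lit 546) (nat_lit 608) (nat_lit 0) (XT.nd (nat_lit 234) (nat_lit 304) (nat_lit 0) (XT.nd (nat_lit 78) (nat_lit 76) (nat_lit 0) (XT.lf (nat_lit 0) (nat_lit 10471429445) (nat_lit 228) (nat_lit 6816605620) (nat_lit 76) (nat_lit 5170355395) (nat_lit 50) (nat_lit 5) (nat_lit 53) (nat_lit 5) (nat_lit 51) (nat_lit 4) (nat_lit 437) (nat_lit 330) (nat_lit 253)) (XT.nd (nat_lit 78) (nat_lit 0) (nat_lit 0) (XT.lf (nat_lit 0) (nat_lit 5424747471) (nat_lit 76) (nat_lit 11123002742) (nat_lit 152) (nat_lit 6383718886) (nat_lit 49) (nat_lit 5) (nat_lit 50) (nat_lit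 5) (nat_lit 51) (nat_lit 4) (nat_lit 438) (nat_lit 330) (nat_lit 252)) (XT.lf (nat_lit 0) (nat_lit 18111417325) (nat_lit 76) (nat_lit 4730678873) (nat_lit 152) (nat_lit 575574137) (nat_lit 49) (nat_lit 5) (nat_lit 50) (nat_lit 5) (nat_lit 51) (nat_lit 4) (nat_lit 439) (nat_lit 330) (nat_lit 251)))) (XT.nd (nat_lit 156) (nat_lit 76) (nat_lit 0) (XT.nd (nat_lit 78) (nat_lit 0) (nat_lit 0) (XT.lf (nat_lit 0) (nat_lit 5357684274) (nat_lit 228) (nat_lit 16644526419) (nat_lit 76) (nat_lit 1912998605) (nat_lit 46) (nat_lit 5) (nat_lit 49) (nat_lit 5) (nat_lit 47) (nat_lit 4) (nat_lit 440) (nat_lit 330) (nat_lit 250)) (XT.lf (nat_lit 0) (nat_lit 11525970382) (nat_lit 228) (nat_lit 4206048523) (nat_lit 76) (nat_lit 8693428720) (nat_lit 46) (nat_lit 5) (nat_lit 49) (nat_lit 5) (nat_lit 47) (nat_lit 4) (nat_lit 441) (nat_lit 330) (nat_lit 249))) (XT.nd (nat_lit 78) (nat_lit 0) (nat_lit 0) (XT.lf (nat_lit 0) (nat_lit 8716832226)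 (nat_lit 76) (nat_lit 9214853433) (nat_lit 152) (nat_lit 7017738071) (nat_lit 45) (nat_lit 5) (nat_lit 46) (nat_lit 5) (nat_lit 47) (nat_lit 4) (nat_lit 442) (nat_lit 330) (nat_lit 248)) (XT.lf (nat_lit 0) (nat_lit 22055347937) (nat_lit 76) (nat_lit 2485641106) (nat_lit 152) (nat_lit 947789565) (nat_lit 45) (nat_lit 5) (nat_lit 46) (nat_lit 5) (nat_lit 47) (nat_lit 4) (nat_lit 443) (nat_lit 330) (nat_lit 247))))) (XT.nd (nat_lit 312) (nat_lit 304) (nat_lit 0) (XT.nd (nat_lit 156) (nat_lit 76) (nat_lit 0) (XT.nd (nat_lit 78) (nat_lit 0) (nat_lit 0) (XT.lf (nat_lit 0) (nat_lit 5308741151) (nat_lit 228) (nat_lit 16251359691) (nat_lit 76) (nat_lit 4479445863) (nat_lit 42) (nat_lit 5) (nat_lit 45) (nat_lit 5) (nat_lit 43) (nat_lit 4) (nat_lit 444) (nat_lit 330) (nat_lit 246)) (XT.lf (nat_lit 0) (nat_lit 11763178414) (nat_lit 228) (nat_lit 3220571845) (nat_lit 76) (nat_lit 11621930076) (nat_lit 42) (nat_lit 5) (nat_lit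 45) (nat_lit 5) (nat_lit 43) (nat_lit 4) (nat_lit 445) (nat_lit 330) (nat_lit 245))) (XT.nd (nat_lit 78) (nat_lit 0) (nat_lit 0) (XT.lf (nat_lit 0) (nat_lit 10347452122) (nat_lit 76) (nat_lit 8133782862) (nat_lit 152) (nat_lit 8705465170) (nat_lit 41) (nat_lit 5) (nat_lit 42) (nat_lit 5) (nat_lit 43) (nat_lit 4) (nat_lit 446) (nat_lit 330) (nat_lit 244)) (XT.lf (nat_lit 0) (nat_lit 24333476932) (nat_lit 76) (nat_lit 1070727312) (nat_lit 152) (nat_lit 2380846909) (nat_lit 41) (nat_lit 5) (nat_lit 42) (nat_lit 5) (nat_lit 43) (nat_lit 4) (nat_lit 447) (nat_lit 330) (nat_lit 243)))) (XT.nd (nat_lit 156) (nat_lit 76) (nat_lit 0) (XT.nd (nat_lit 78) (nat_lit 0) (nat_lit 0) (XT.lf (nat_lit 0) (nat_lit 4185480012) (nat_lit 228) (nat_lit 18010943010) (nat_lit 76) (nat_lit 6199760367) (nat_lit 38) (nat_lit 5) (nat_lit 41) (nat_lit 5) (nat_lit 39) (nat_lit 4) (nat_lit 448) (nat_lit 330) (nat_lit 242)) (XT.lf (nat_lit 0)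 (nat_lit 10918237045) (nat_lit 228) (nat_lit 4405312360) (nat_lit 76) (nat_lit 13700875786) (nat_lit 38) (nat_lit 5) (nat_lit 41) (nat_lit 5) (nat_lit 39) (nat_lit 4) (nat_lit 449) (nat_lit 330) (nat_lit 241))) (XT.nd (nat_lit 78) (nat_lit 0) (nat_lit 0) (XT.lf (nat_lit 0) (nat_lit 9746142758) (nat_lit 76) (nat_lit 8172842720) (nat_lit 152) (nat_lit 11750550032) (nat_lit 37) (nat_lit 5) (nat_lit 38) (nat_lit 5) (nat_lit 39) (nat_lit 4) (nat_lit 450) (nat_lit 330) (nat_lit 240)) (XT.lf (nat_lit 0) (nat_lit 24360434284) (nat_lit 76) (nat_lit 786436063) (nat_lit 152) (nat_lit 5186616851) (nat_lit 37) (nat_lit 5) (nat_lit 38) (nat_lit 5) (nat_lit 39) (nat_lit 4) (nat_lit 451) (nat_lit 330) (nat_lit 239))))))) (XT.nd (nat_lit 1092) (nat_lit 684) (nat_lit 0) (XT.nd (nat_lit 546) (nat_lit 304) (nat_lit 0) (XT.nd (nat_lit 234) (nat_lit 152) (nat_lit 0) (XT.nd (nat_lit 78) (nat_lit 76) (nat_lit 0) (XT.lf (nat_lit 0) (nat_lit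 1664638905) (nat_lit 152) (nat_lit 22586150781) (nat_lit 76) (nat_lit 6762481463) (nat_lit 35) (nat_lit 5) (nat_lit 37) (nat_lit 5) (nat_lit 36) (nat_lit 4) (nat_lit 452) (nat_lit 330) (nat_lit 238)) (XT.nd (nat_lit 78) (nat_lit 76) (nat_lit 0) (XT.lf (nat_lit 0) (nat_lit 8659113293) (nat_lit 152) (nat_lit 8440734039) (nat_lit 76) (nat_lit 14610804258) (nat_lit 35) (nat_lit 5) (nat_lit 37) (nat_lit 5) (nat_lit 36) (nat_lit 4) (nat_lit 453) (nat_lit 330) (nat_lit 237)) (XT.lf (nat_lit 0) (nat_lit 6200427039) (nat_lit 76) (nat_lit 9696603981) (nat_lit 152) (nat_lit 16530915463) (nat_lit 34) (nat_lit 5) (nat_lit 35) (nat_lit 5) (nat_lit 36) (nat_lit 4) (nat_lit 454) (nat_lit 330) (nat_lit 236)))) (XT.nd (nat_lit 156) (nat_lit 76) (nat_lit 0) (XT.nd (nat_lit 78) (nat_lit 76) (nat_lit 0) (XT.lf (nat_lit 0) (nat_lit 21404725271) (nat_lit 76) (nat_lit 2006887549) (nat_lit 152) (nat_lit 9753362883) (nat_lit 34) (nat_lit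 5) (nat_lit 35) (nat_lit 5) (nat_lit 36) (nat_lit 4) (nat_lit 455) (nat_lit 330) (nat_lit 235)) (XT.lf (nat_lit 0) (nat_lit 3096388840) (nat_lit 76) (nat_lit 28116673925) (nat_lit 76) (nat_lit 2709211354) (nat_lit 33) (nat_lit 4) (nat_lit 34) (nat_lit 5) (nat_lit 34) (nat_lit 4) (nat_lit 456) (nat_lit 330) (nat_lit 234))) (XT.nd (nat_lit 78) (nat_lit 0) (nat_lit 0) (XT.lf (nat_lit 0) (nat_lit 4572200658) (nat_lit 152) (nat_lit 16171929443) (nat_lit 76) (nat_lit 13953412010) (nat_lit 32) (nat_lit 5) (nat_lit 34) (nat_lit 5) (nat_lit 33) (nat_lit 4) (nat_lit 457) (nat_lit 330) (nat_lit 233)) (XT.lf (nat_lit 0) (nat_lit 11993183629) (nat_lit 152) (nat_lit 1152027418) (nat_lit 76) (nat_lit 22350786082) (nat_lit 32) (nat_lit 5) (nat_lit 34) (nat_lit 5) (nat_lit 33) (nat_lit 4) (nat_lit 458) (nat_lit 330) (nat_lit 232))))) (XT.nd (nat_lit 234) (nat_lit 152) (nat_lit 0) (XT.nd (nat_lit 78) (nat_lit 76) (nat_lit 0) (XT.lf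 (nat_lit 0) (nat_lit 14557048019) (nat_lit 76) (nat_lit 5195971617) (nat_lit 152) (nat_lit 16561900556) (nat_lit 31) (nat_lit 5) (nat_lit 32) (nat_lit 5) (nat_lit 33) (nat_lit 4) (nat_lit 459) (nat_lit 330) (nat_lit 231)) (XT.nd (nat_lit 78) (nat_lit 76) (nat_lit 0) (XT.lf (nat_lit 0) (nat_lit 27762499965) (nat_lit 152) (nat_lit 6471459682) (nat_lit 0) (nat_lit 2923946891) (nat_lit 31) (nat_lit 5) (nat_lit 33) (nat_lit 4) (nat_lit 31) (nat_lit 4) (nat_lit 460) (nat_lit 330) (nat_lit 230)) (XT.lf (nat_lit 0) (nat_lit 9360548995) (nat_lit 76) (nat_lit 26770171712) (nat_lit 76) (nat_lit 1891909125) (nat_lit 30) (nat_lit 4) (nat_lit 31) (nat_lit 5) (nat_lit 31) (nat_lit 4) (nat_lit 461) (nat_lit 330) (nat_lit 229)))) (XT.nd (nat_lit 156) (nat_lit 0) (nat_lit 0) (XT.nd (nat_lit 78) (nat_lit 76) (nat_lit 0) (XT.lf (nat_lit 0) (nat_lit 5765848077) (nat_lit 152) (nat_lit 13212143914) (nat_lit 76) (nat_lit 19932329143)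 (nat_lit 29) (nat_lit 5) (nat_lit 31) (nat_lit 5) (nat_lit 30) (nat_lit 4) (nat_lit 462) (nat_lit 330) (nat_lit 228)) (XT.lf (nat_lit 0) (nat_lit 2692148007) (nat_lit 76) (nat_lit 10926765067) (nat_lit 152) (nat_lit 26205061079) (nat_lit 28) (nat_lit 5) (nat_lit 29) (nat_lit 5) (nat_lit 30) (nat_lit 4) (nat_lit 463) (nat_lit 330) (nat_lit 227))) (XT.nd (nat_lit 78) (nat_lit 0) (nat_lit 0) (XT.lf (nat_lit 0) (nat_lit 19301880872) (nat_lit 76) (nat_lit 2517068013) (nat_lit 152) (nat_lit 18942747436) (nat_lit 28) (nat_lit 5) (nat_lit 29) (nat_lit 5) (nat_lit 30) (nat_lit 4) (nat_lit 464) (nat_lit 330) (nat_lit 226)) (XT.lf (nat_lit 0) (nat_lit 30302467306) (nat_lit 152) (nat_lit 5418450004) (nat_lit 0) (nat_lit 6005509292) (nat_lit 28) (nat_lit 5) (nat_lit 30) (nat_lit 4) (nat_lit 28) (nat_lit 4) (nat_lit 465) (nat_lit 330) (nat_lit 225)))))) (XT.nd (nat_lit 546) (nat_lit 380) (nat_lit 0) (XT.nd (nat_lit 234) (nat_lit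 76) (nat_lit 0) (XT.nd (nat_lit 78) (nat_lit 152) (nat_lit 0) (XT.lf (nat_lit 0) (nat_lit 11258405781) (nat_lit 76) (nat_lit 27894271206) (nat_lit 76) (nat_lit 3564057101) (nat_lit 27) (nat_lit 4) (nat_lit 28) (nat_lit 5) (nat_lit 28) (nat_lit 4) (nat_lit 466) (nat_lit 330) (nat_lit 224)) (XT.nd (nat_lit 78) (nat_lit 76) (nat_lit 0) (XT.lf (nat_lit 0) (nat_lit 4477531152) (nat_lit 152) (nat_lit 15273113333) (nat_lit 76) (nat_lit 23983770777) (nat_lit 26) (nat_lit 5) (nat_lit 28) (nat_lit 5) (nat_lit 27) (nat_lit 4) (nat_lit 467) (nat_lit 330) (nat_lit 223)) (XT.lf (nat_lit 0) (nat_lit 1349340202) (nat_lit 76) (nat_lit 11332033605) (nat_lit 152) (nat_lit 32100416003) (nat_lit 25) (nat_lit 5) (nat_lit 26) (nat_lit 5) (nat_lit 27) (nat_lit 4) (nat_lit 468) (nat_lit 330) (nat_lit 222)))) (XT.nd (nat_lit 156) (nat_lit 76) (nat_lit 0) (XT.nd (nat_lit 78) (nat_lit 0) (nat_lit 0) (XT.lf (nat_lit 0) (nat_lit 18744576402)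 (nat_lit 76) (nat_lit 2520871413) (nat_lit 152) (nat_lit 24591115072) (nat_lit 25) (nat_lit 5) (nat_lit 26) (nat_lit 5) (nat_lit 27) (nat_lit 4) (nat_lit 469) (nat_lit 330) (nat_lit 221)) (XT.lf (nat_lit 0) (nat_lit 30150348452) (nat_lit 152) (nat_lit 10403166656) (nat_lit 0) (nat_lit 6408765664) (nat_lit 25) (nat_lit 5) (nat_lit 27) (nat_lit 4) (nat_lit 25) (nat_lit 4) (nat_lit 470) (nat_lit 330) (nat_lit 220))) (XT.nd (nat_lit 78) (nat_lit 0) (nat_lit 0) (XT.lf (nat_lit 0) (nat_lit 6879057804) (nat_lit 76) (nat_lit 32494694339) (nat_lit 76) (nat_lit 8725260098) (nat_lit 24) (nat_lit 4) (nat_lit 25) (nat_lit 5) (nat_lit 25) (nat_lit 4) (nat_lit 471) (nat_lit 330) (nat_lit 219)) (XT.lf (nat_lit 0) (nat_lit 24856231759) (nat_lit 76) (nat_lit 24103752647) (nat_lit 76) (nat_lit 307278160) (nat_lit 24) (nat_lit 4) (nat_lit 25) (nat_lit 5) (nat_lit 25) (nat_lit 4) (nat_lit 472) (nat_lit 330) (nat_lit 218))))) (XT.nd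 (nat_lit 312) (nat_lit 228) (nat_lit 0) (XT.nd (nat_lit 156) (nat_lit 0) (nat_lit 0) (XT.nd (nat_lit 78) (nat_lit 76) (nat_lit 0) (XT.lf (nat_lit 0) (nat_lit 8181489738) (nat_lit 152) (nat_lit 7214302984) (nat_lit 76) (nat_lit 35072913261) (nat_lit 23) (nat_lit 5) (nat_lit 25) (nat_lit 5) (nat_lit 24) (nat_lit 4) (nat_lit 473) (nat_lit 330) (nat_lit 217)) (XT.lf (nat_lit 0) (nat_lit 10668443782) (nat_lit 76) (nat_lit 6334836493) (nat_lit 152) (nat_lit 34700285736) (nat_lit 22) (nat_lit 5) (nat_lit 23) (nat_lit 5) (nat_lit 24) (nat_lit 4) (nat_lit 474) (nat_lit 330) (nat_lit 216))) (XT.nd (nat_lit 78) (nat_lit 0) (nat_lit 0) (XT.lf (nat_lit 0) (nat_lit 26174127637) (nat_lit 152) (nat_lit 23802316977) (nat_lit 0) (nat_lit 2996495760) (nat_lit 22) (nat_lit 5) (nat_lit 24) (nat_lit 4) (nat_lit 22) (nat_lit 4) (nat_lit 475) (nat_lit 330) (nat_lit 215)) (XT.lf (nat_lit 0) (nat_lit 35665358844) (nat_lit 152) (nat_lit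 6149278169) (nat_lit 0) (nat_lit 12464401813) (nat_lit 22) (nat_lit 5) (nat_lit 24) (nat_lit 4) (nat_lit 22) (nat_lit 4) (nat_lit 476) (nat_lit 330) (nat_lit 214)))) (XT.nd (nat_lit 156) (nat_lit 152) (nat_lit 0) (XT.nd (nat_lit 78) (nat_lit 0) (nat_lit 0) (XT.lf (nat_lit 0) (nat_lit 12239143272) (nat_lit 76) (nat_lit 33302879740) (nat_lit 76) (nat_lit 10079276928) (nat_lit 21) (nat_lit 4) (nat_lit 22) (nat_lit 5) (nat_lit 22) (nat_lit 4) (nat_lit 477) (nat_lit 330) (nat_lit 213)) (XT.lf (nat_lit 0) (nat_lit 31272557137) (nat_lit 76) (nat_lit 24487750853) (nat_lit 76) (nat_lit 1242161847) (nat_lit 21) (nat_lit 4) (nat_lit 22) (nat_lit 5) (nat_lit 22) (nat_lit 4) (nat_lit 478) (nat_lit 330) (nat_lit 212))) (XT.nd (nat_lit 78) (nat_lit 76) (nat_lit 0) (XT.lf (nat_lit 0) (nat_lit 7690240495) (nat_lit 152) (nat_lit 7655746619) (nat_lit 76) (nat_lit 43077315024) (nat_lit 20) (nat_lit 5) (nat_lit 22) (nat_lit 5) (nat_lit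 21) (nat_lit 4) (nat_lit 479) (nat_lit 330) (nat_lit 211)) (XT.lf (nat_lit 0) (nat_lit 11134464526) (nat_lit 76) (nat_lit 5822246532) (nat_lit 152) (nat_lit 42926948047) (nat_lit 19) (nat_lit 5) (nat_lit 20) (nat_lit 5) (nat_lit 21) (nat_lit 4) (nat_lit 480) (nat_lit 330) (nat_lit 210))))))))
noncomputable def xc78 : XT := (XT.nd (nat_lit 44928) (nat_lit 0) (nat_lit 6612) (XT.nd (nat_lit 43758) (nat_lit 0) (nat_lit 14592) (XT.nd (nat_lit 546) (nat_lit 76) (nat_lit 0) (XT.nd (nat_lit 234) (nat_lit 152) (nat_lit 0) (XT.nd (nat_lit 78) (nat_lit 76) (nat_lit 0) (XT.lf (nat_lit 0) (nat_lit 26601631660) (nat_lit 152) (nat_lit 30810462338) (nat_lit 0) (nat_lit 3972719615) (nat_lit 19) (nat_lit 5) (nat_lit 21) (nat_lit 4) (nat_lit 19) (nat_lit 4) (nat_lit 481) (nat_lit 330) (nat_lit 209)) (XT.nd (nat_lit 78) (nat_lit 76) (nat_lit 0) (XT.lf (nat_lit 0) (nat_lit 36578065301) (nat_lit 152) (nat_lit 12421485216) (nat_lit 0)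 (nat_lit 13930187772) (nat_lit 19) (nat_lit 5) (nat_lit 21) (nat_lit 4) (nat_lit 19) (nat_lit 4) (nat_lit 482) (nat_lit 330) (nat_lit 208)) (XT.lf (nat_lit 0) (nat_lit 6618931004) (nat_lit 76) (nat_lit 40283456468) (nat_lit 76) (nat_lit 17617165848) (nat_lit 18) (nat_lit 4) (nat_lit 19) (nat_lit 5) (nat_lit 19) (nat_lit 4) (nat_lit 483) (nat_lit 330) (nat_lit 207)))) (XT.nd (nat_lit 156) (nat_lit 76) (nat_lit 0) (XT.nd (nat_lit 78) (nat_lit 76) (nat_lit 0) (XT.lf (nat_lit 0) (nat_lit 26456086712) (nat_lit 76) (nat_lit 31190913568) (nat_lit 76) (nat_lit 8506746160) (nat_lit 18) (nat_lit 4) (nat_lit 19) (nat_lit 5) (nat_lit 19) (nat_lit 4) (nat_lit 484) (nat_lit 330) (nat_lit 206)) (XT.lf (nat_lit 0) (nat_lit 845291042) (nat_lit 152) (nat_lit 20985582697) (nat_lit 76) (nat_lit 46006276609) (nat_lit 17) (nat_lit 5) (nat_lit 19) (nat_lit 5) (nat_lit 18) (nat_lit 4) (nat_lit 485) (nat_lit 330) (nat_lit 205))) (XT.nd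 (nat_lit 78) (nat_lit 76) (nat_lit 0) (XT.lf (nat_lit 0) (nat_lit 10292754983) (nat_lit 152) (nat_lit 1824081484) (nat_lit 76) (nat_lit 57452118293) (nat_lit 17) (nat_lit 5) (nat_lit 19) (nat_lit 5) (nat_lit 18) (nat_lit 4) (nat_lit 486) (nat_lit 330) (nat_lit 204)) (XT.lf (nat_lit 0) (nat_lit 18241312731) (nat_lit 76) (nat_lit 1943931911) (nat_lit 152) (nat_lit 51162621024) (nat_lit 16) (nat_lit 5) (nat_lit 17) (nat_lit 5) (nat_lit 18) (nat_lit 4) (nat_lit 487) (nat_lit 330) (nat_lit 203))))) (XT.nd (nat_lit 234) (nat_lit 0) (nat_lit 0) (XT.nd (nat_lit 78) (nat_lit 76) (nat_lit 0) (XT.lf (nat_lit 0) (nat_lit 30461420595) (nat_lit 152) (nat_lit 34342673617) (nat_lit 0) (nat_lit 8373442741) (nat_lit 16) (nat_lit 5) (nat_lit 18) (nat_lit 4) (nat_lit 16) (nat_lit 4) (nat_lit 488) (nat_lit 330) (nat_lit 202)) (XT.nd (nat_lit 78) (nat_lit 76) (nat_lit 0) (XT.lf (nat_lit 0) (nat_lit 41051802481) (nat_lit 152) (nat_lit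 15061265571) (nat_lit 0) (nat_lit 18948853099) (nat_lit 16) (nat_lit 5) (nat_lit 18) (nat_lit 4) (nat_lit 16) (nat_lit 4) (nat_lit 489) (nat_lit 330) (nat_lit 201)) (XT.lf (nat_lit 0) (nat_lit 4868201441) (nat_lit 76) (nat_lit 47125552459) (nat_lit 76) (nat_lit 25008067612) (nat_lit 15) (nat_lit 4) (nat_lit 16) (nat_lit 5) (nat_lit 16) (nat_lit 4) (nat_lit 490) (nat_lit 330) (nat_lit 200)))) (XT.nd (nat_lit 42822) (nat_lit 0) (nat_lit 23788) (XT.nd (nat_lit 42744) (nat_lit 0) (nat_lit 24700) (XT.lf (nat_lit 0) (nat_lit 25679163042) (nat_lit 76) (nat_lit 37724087283) (nat_lit 76) (nat_lit 15592490335) (nat_lit 15) (nat_lit 4) (nat_lit 16) (nat_lit 5) (nat_lit 16) (nat_lit 4) (nat_lit 491) (nat_lit 330) (nat_lit 199)) (XT.lf (nat_lit 0) (nat_lit 846595445) (nat_lit 836) (nat_lit 1702352065) (nat_lit 0) (nat_lit 846595445) (nat_lit 340) (nat_lit 5) (nat_lit 351) (nat_lit 4) (nat_lit 340) (nat_lit 4) (nat_lit 358)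 (nat_lit 331) (nat_lit 331))) (XT.nd (nat_lit 78) (nat_lit 76) (nat_lit 0) (XT.lf (nat_lit 0) (nat_lit 1167601788) (nat_lit 836) (nat_lit 3844072507) (nat_lit 836) (nat_lit 1819909676) (nat_lit 329) (nat_lit 4) (nat_lit 340) (nat_lit 5) (nat_lit 340) (nat_lit 4) (nat_lit 359) (nat_lit 331) (nat_lit 330)) (XT.lf (nat_lit 0) (nat_lit 1455595941) (nat_lit 912) (nat_lit 1034509702) (nat_lit 76) (nat_lit 4384905781) (nat_lit 328) (nat_lit 5) (nat_lit 340) (nat_lit 5) (nat_lit 329) (nat_lit 4) (nat_lit 360) (nat_lit 331) (nat_lit 329)))))) (XT.nd (nat_lit 546) (nat_lit 3648) (nat_lit 0) (XT.nd (nat_lit 234) (nat_lit 3572) (nat_lit 0) (XT.nd (nat_lit 78) (nat_lit 1064) (nat_lit 0) (XT.lf (nat_lit 0) (nat_lit 3696887523) (nat_lit 912) (nat_lit 1029331486) (nat_lit 988) (nat_lit 2195027602) (nat_lit 316) (nat_lit 5) (nat_lit 328) (nat_lit 5) (nat_lit 329) (nat_lit 4) (nat_lit 361) (nat_lit 331) (nat_lit 328)) (XT.nd (nat_lit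 78) (nat_lit 0) (nat_lit 0) (XT.lf (nat_lit 0) (nat_lit 1033543827) (nat_lit 1064) (nat_lit 5425918456) (nat_lit 76) (nat_lit 511244668) (nat_lit 302) (nat_lit 5) (nat_lit 316) (nat_lit 5) (nat_lit 303) (nat_lit 4) (nat_lit 362) (nat_lit 331) (nat_lit 327)) (XT.lf (nat_lit 0) (nat_lit 4259030908) (nat_lit 1064) (nat_lit 624240322) (nat_lit 76) (nat_lit 2139446882) (nat_lit 302) (nat_lit 5) (nat_lit 316) (nat_lit 5) (nat_lit 303) (nat_lit 4) (nat_lit 363) (nat_lit 331) (nat_lit 326)))) (XT.nd (nat_lit 156) (nat_lit 1292) (nat_lit 0) (XT.nd (nat_lit 78) (nat_lit 1140) (nat_lit 0) (XT.lf (nat_lit 0) (nat_lit 440008678) (nat_lit 1140) (nat_lit 2768288865) (nat_lit 76) (nat_lit 3869542085) (nat_lit 287) (nat_lit 5) (nat_lit 302) (nat_lit 5) (nat_lit 288) (nat_lit 5) (nat_lit 364) (nat_lit 331) (nat_lit 325)) (XT.lf (nat_lit 0) (nat_lit 2192372181) (nat_lit 1140) (nat_lit 1424271180) (nat_lit 1216) (nat_lit 3519219805)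 (nat_lit 272) (nat_lit 5) (nat_lit 287) (nat_lit 5) (nat_lit 288) (nat_lit 5) (nat_lit 365) (nat_lit 331) (nat_lit 324))) (XT.nd (nat_lit 78) (nat_lit 76) (nat_lit 0) (XT.lf (nat_lit 0) (nat_lit 66205452) (nat_lit 1216) (nat_lit 6762046320) (nat_lit 1292) (nat_lit 369224747) (nat_lit 256) (nat_lit 5) (nat_lit 272) (nat_lit 5) (nat_lit 273) (nat_lit 4) (nat_lit 366) (nat_lit 331) (nat_lit 323)) (XT.lf (nat_lit 0) (nat_lit 2791384066) (nat_lit 1292) (nat_lit 2069740504) (nat_lit 76) (nat_lit 2399855008) (nat_lit 255) (nat_lit 5) (nat_lit 272) (nat_lit 5) (nat_lit 256) (nat_lit 5) (nat_lit 367) (nat_lit 331) (nat_lit 322))))) (XT.nd (nat_lit 312) (nat_lit 1596) (nat_lit 0) (XT.nd (nat_lit 156) (nat_lit 684) (nat_lit 0) (XT.nd (nat_lit 78) (nat_lit 684) (nat_lit 0) (XT.lf (nat_lit 0) (nat_lit 3107814737) (nat_lit 684) (nat_lit 2871843036) (nat_lit 760) (nat_lit 1348448264) (nat_lit 246) (nat_lit 5) (nat_lit 255) (nat_lit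 5) (nat_lit 256) (nat_lit 5) (nat_lit 368) (nat_lit 331) (nat_lit 321)) (XT.lf (nat_lit 0) (nat_lit 994054074) (nat_lit 608) (nat_lit 777738731) (nat_lit 684) (nat_lit 5626692873) (nat_lit 237) (nat_lit 5) (nat_lit 245) (nat_lit 5) (nat_lit 246) (nat_lit 5) (nat_lit 369) (nat_lit 331) (nat_lit 320))) (XT.nd (nat_lit 78) (nat_lit 684) (nat_lit 0) (XT.lf (nat_lit 0) (nat_lit 4927689787) (nat_lit 684) (nat_lit 1140760630) (nat_lit 76) (nat_lit 1403084181) (nat_lit 237) (nat_lit 5) (nat_lit 246) (nat_lit 5) (nat_lit 238) (nat_lit 5) (nat_lit 370) (nat_lit 331) (nat_lit 319)) (XT.lf (nat_lit 0) (nat_lit 582858105) (nat_lit 684) (nat_lit 3289873857) (nat_lit 76) (nat_lit 3674981220) (nat_lit 228) (nat_lit 5) (nat_lit 237) (nat_lit 5) (nat_lit 229) (nat_lit 5) (nat_lit 371) (nat_lit 331) (nat_lit 318)))) (XT.nd (nat_lit 156) (nat_lit 1064) (nat_lit 0) (XT.nd (nat_lit 78) (nat_lit 0) (nat_lit 0) (XT.lf (nat_lit 0) (nat_lit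 2139001871) (nat_lit 532) (nat_lit 1561549952) (nat_lit 608) (nat_lit 3926450309) (nat_lit 221) (nat_lit 5) (nat_lit 228) (nat_lit 5) (nat_lit 229) (nat_lit 5) (nat_lit 372) (nat_lit 331) (nat_lit 317)) (XT.lf (nat_lit 0) (nat_lit 6870779094) (nat_lit 608) (nat_lit 12564552) (nat_lit 76) (nat_lit 826585302) (nat_lit 221) (nat_lit 5) (nat_lit 229) (nat_lit 5) (nat_lit 222) (nat_lit 5) (nat_lit 373) (nat_lit 331) (nat_lit 316))) (XT.nd (nat_lit 78) (nat_lit 456) (nat_lit 0) (XT.lf (nat_lit 0) (nat_lit 2284516440) (nat_lit 608) (nat_lit 2188668961) (nat_lit 76) (nat_lit 3321828030) (nat_lit 213) (nat_lit 5) (nat_lit 221) (nat_lit 5) (nat_lit 214) (nat_lit 5) (nat_lit 374) (nat_lit 331) (nat_lit 315)) (XT.lf (nat_lit 0) (nat_lit 3478180593) (nat_lit 456) (nat_lit 1961038274) (nat_lit 532) (nat_lit 2444583360) (nat_lit 207) (nat_lit 5) (nat_lit 213) (nat_lit 5) (nat_lit 214) (nat_lit 5) (nat_lit 375) (nat_lit 331) (nat_lit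 314))))))) (XT.nd (nat_lit 1092) (nat_lit 3420) (nat_lit 0) (XT.nd (nat_lit 546) (nat_lit 1976) (nat_lit 0) (XT.nd (nat_lit 234) (nat_lit 1520) (nat_lit 0) (XT.nd (nat_lit 78) (nat_lit 456) (nat_lit 0) (XT.lf (nat_lit 0) (nat_lit 661858631) (nat_lit 608) (nat_lit 6672375579) (nat_lit 76) (nat_lit 641965926) (nat_lit 199) (nat_lit 5) (nat_lit 207) (nat_lit 5) (nat_lit 200) (nat_lit 5) (nat_lit 376) (nat_lit 331) (nat_lit 313)) (XT.nd (nat_lit 78) (nat_lit 456) (nat_lit 0) (XT.lf (nat_lit 0) (nat_lit 3799222742) (nat_lit 608) (nat_lit 934007853) (nat_lit 76) (nat_lit 3337831920) (nat_lit 199) (nat_lit 5) (nat_lit 207) (nat_lit 5) (nat_lit 200) (nat_lit 5) (nat_lit 377) (nat_lit 331) (nat_lit 312)) (XT.lf (nat_lit 0) (nat_lit 4981705336) (nat_lit 456) (nat_lit 2021664131) (nat_lit 532) (nat_lit 1166245255) (nat_lit 193) (nat_lit 5) (nat_lit 199) (nat_lit 5) (nat_lit 200) (nat_lit 5) (nat_lit 378) (nat_lit 331) (nat_lit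 311)))) (XT.nd (nat_lit 156) (nat_lit 532) (nat_lit 0) (XT.nd (nat_lit 78) (nat_lit 456) (nat_lit 0) (XT.lf (nat_lit 0) (nat_lit 1962085481) (nat_lit 532) (nat_lit 5514614038) (nat_lit 76) (nat_lit 794783380) (nat_lit 186) (nat_lit 5) (nat_lit 193) (nat_lit 5) (nat_lit 187) (nat_lit 5) (nat_lit 379) (nat_lit 331) (nat_lit 310)) (XT.lf (nat_lit 0) (nat_lit 453096026) (nat_lit 456) (nat_lit 4691064002) (nat_lit 532) (nat_lit 3232422445) (nat_lit 180) (nat_lit 5) (nat_lit 186) (nat_lit 5) (nat_lit 187) (nat_lit 5) (nat_lit 380) (nat_lit 331) (nat_lit 309))) (XT.nd (nat_lit 78) (nat_lit 532) (nat_lit 0) (XT.lf (nat_lit 0) (nat_lit 6620039381) (nat_lit 456) (nat_lit 1785045925) (nat_lit 532) (nat_lit 80269224) (nat_lit 180) (nat_lit 5) (nat_lit 186) (nat_lit 5) (nat_lit 187) (nat_lit 5) (nat_lit 381) (nat_lit 331) (nat_lit 308)) (XT.lf (nat_lit 0) (nat_lit 3087573294) (nat_lit 532) (nat_lit 4272272854) (nat_lit 76)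 (nat_lit 1237163002) (nat_lit 173) (nat_lit 5) (nat_lit 180) (nat_lit 5) (nat_lit 174) (nat_lit 5) (nat_lit 382) (nat_lit 331) (nat_lit 307))))) (XT.nd (nat_lit 234) (nat_lit 1140) (nat_lit 0) (XT.nd (nat_lit 78) (nat_lit 456) (nat_lit 0) (XT.lf (nat_lit 0) (nat_lit 1954175356) (nat_lit 380) (nat_lit 4380227968) (nat_lit 456) (nat_lit 2378038631) (nat_lit 168) (nat_lit 5) (nat_lit 173) (nat_lit 5) (nat_lit 174) (nat_lit 5) (nat_lit 383) (nat_lit 331) (nat_lit 306)) (XT.nd (nat_lit 78) (nat_lit 380) (nat_lit 0) (XT.lf (nat_lit 0) (nat_lit 804875873) (nat_lit 456) (nat_lit 476694742) (nat_lit 76) (nat_lit 7550317757) (nat_lit 167) (nat_lit 5) (nat_lit 173) (nat_lit 5) (nat_lit 168) (nat_lit 5) (nat_lit 384) (nat_lit 331) (nat_lit 305)) (XT.lf (nat_lit 0) (nat_lit 4044630524) (nat_lit 456) (nat_lit 2977038985) (nat_lit 76) (nat_lit 1932285571) (nat_lit 162) (nat_lit 5) (nat_lit 168) (nat_lit 5) (nat_lit 163) (nat_lit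 5) (nat_lit 385) (nat_lit 331) (nat_lit 304)))) (XT.nd (nat_lit 156) (nat_lit 304) (nat_lit 0) (XT.nd (nat_lit 78) (nat_lit 456) (nat_lit 0) (XT.lf (nat_lit 0) (nat_lit 3519038655) (nat_lit 380) (nat_lit 3847361667) (nat_lit 456) (nat_lit 1713755991) (nat_lit 157) (nat_lit 5) (nat_lit 162) (nat_lit 5) (nat_lit 163) (nat_lit 5) (nat_lit 386) (nat_lit 331) (nat_lit 303)) (XT.lf (nat_lit 0) (nat_lit 973619201) (nat_lit 380) (nat_lit 546843428) (nat_lit 456) (nat_lit 7690035122) (nat_lit 151) (nat_lit 5) (nat_lit 156) (nat_lit 5) (nat_lit 157) (nat_lit 5) (nat_lit 387) (nat_lit 331) (nat_lit 302))) (XT.nd (nat_lit 78) (nat_lit 304) (nat_lit 0) (XT.lf (nat_lit 0) (nat_lit 4836054259) (nat_lit 456) (nat_lit 1662136951) (nat_lit 76) (nat_lit 2845501188) (nat_lit 151) (nat_lit 5) (nat_lit 157) (nat_lit 5) (nat_lit 152) (nat_lit 5) (nat_lit 388) (nat_lit 331) (nat_lit 301)) (XT.lf (nat_lit 0) (nat_lit 5114405754) (nat_lit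 304) (nat_lit 3127845217) (nat_lit 380) (nat_lit 1238913074) (nat_lit 147) (nat_lit 5) (nat_lit 151) (nat_lit 5) (nat_lit 152) (nat_lit 5) (nat_lit 389) (nat_lit 331) (nat_lit 300)))))) (XT.nd (nat_lit 546) (nat_lit 1596) (nat_lit 0) (XT.nd (nat_lit 234) (nat_lit 1064) (nat_lit 0) (XT.nd (nat_lit 78) (nat_lit 304) (nat_lit 0) (XT.lf (nat_lit 0) (nat_lit 2067349507) (nat_lit 456) (nat_lit 7183591851) (nat_lit 76) (nat_lit 371789310) (nat_lit 141) (nat_lit 5) (nat_lit 147) (nat_lit 5) (nat_lit 142) (nat_lit 5) (nat_lit 390) (nat_lit 331) (nat_lit 299)) (XT.nd (nat_lit 78) (nat_lit 304) (nat_lit 0) (XT.lf (nat_lit 0) (nat_lit 5461037060) (nat_lit 456) (nat_lit 363113408) (nat_lit 76) (nat_lit 3943645670) (nat_lit 141) (nat_lit 5) (nat_lit 147) (nat_lit 5) (nat_lit 142) (nat_lit 5) (nat_lit 391) (nat_lit 331) (nat_lit 298)) (XT.lf (nat_lit 0) (nat_lit 6704510207) (nat_lit 304) (nat_lit 2255926253) (nat_lit 380) (nat_lit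 956673653) (nat_lit 137) (nat_lit 5) (nat_lit 141) (nat_lit 5) (nat_lit 142) (nat_lit 5) (nat_lit 392) (nat_lit 331) (nat_lit 297)))) (XT.nd (nat_lit 156) (nat_lit 380) (nat_lit 0) (XT.nd (nat_lit 78) (nat_lit 304) (nat_lit 0) (XT.lf (nat_lit 0) (nat_lit 2440074279) (nat_lit 380) (nat_lit 6200837995) (nat_lit 76) (nat_lit 1429440086) (nat_lit 132) (nat_lit 5) (nat_lit 137) (nat_lit 5) (nat_lit 133) (nat_lit 5) (nat_lit 393) (nat_lit 331) (nat_lit 296)) (XT.lf (nat_lit 0) (nat_lit 898845790) (nat_lit 304) (nat_lit 5024799001) (nat_lit 380) (nat_lit 4304150896) (nat_lit 128) (nat_lit 5) (nat_lit 132) (nat_lit 5) (nat_lit 133) (nat_lit 5) (nat_lit 394) (nat_lit 331) (nat_lit 295))) (XT.nd (nat_lit 78) (nat_lit 380) (nat_lit 0) (XT.lf (nat_lit 0) (nat_lit 8250213234) (nat_lit 304) (nat_lit 1265421213) (nat_lit 380) (nat_lit 874222570) (nat_lit 128) (nat_lit 5) (nat_lit 132) (nat_lit 5) (nat_lit 133) (nat_lit 5) (nat_lit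 395) (nat_lit 331) (nat_lit 294)) (XT.lf (nat_lit 0) (nat_lit 2625199816) (nat_lit 380) (nat_lit 5326428207) (nat_lit 76) (nat_lit 2603842596) (nat_lit 123) (nat_lit 5) (nat_lit 128) (nat_lit 5) (nat_lit 124) (nat_lit 5) (nat_lit 396) (nat_lit 331) (nat_lit 293))))) (XT.nd (nat_lit 312) (nat_lit 760) (nat_lit 0) (XT.nd (nat_lit 156) (nat_lit 608) (nat_lit 0) (XT.nd (nat_lit 78) (nat_lit 0) (nat_lit 0) (XT.lf (nat_lit 0) (nat_lit 2068636691) (nat_lit 228) (nat_lit 4140626852) (nat_lit 304) (nat_lit 4516623567) (nat_lit 120) (nat_lit 5) (nat_lit 123) (nat_lit 5) (nat_lit 124) (nat_lit 5) (nat_lit 397) (nat_lit 331) (nat_lit 292)) (XT.lf (nat_lit 0) (nat_lit 9708021990) (nat_lit 228) (nat_lit 190436030) (nat_lit 304) (nat_lit 1003040528) (nat_lit 120) (nat_lit 5) (nat_lit 123) (nat_lit 5) (nat_lit 124) (nat_lit 5) (nat_lit 398) (nat_lit 331) (nat_lit 291))) (XT.nd (nat_lit 78) (nat_lit 228) (nat_lit 0) (XT.lf (nat_lit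 0) (nat_lit 2610256189) (nat_lit 380) (nat_lit 4608452705) (nat_lit 76) (nat_lit 3861564571) (nat_lit 115) (nat_lit 5) (nat_lit 120) (nat_lit 5) (nat_lit 116) (nat_lit 5) (nat_lit 399) (nat_lit 331) (nat_lit 290)) (XT.lf (nat_lit 0) (nat_lit 3090042528) (nat_lit 228) (nat_lit 3210920274) (nat_lit 304) (nat_lit 4963485569) (nat_lit 112) (nat_lit 5) (nat_lit 115) (nat_lit 5) (nat_lit 116) (nat_lit 5) (nat_lit 400) (nat_lit 331) (nat_lit 289)))) (XT.nd (nat_lit 156) (nat_lit 456) (nat_lit 0) (XT.nd (nat_lit 78) (nat_lit 304) (nat_lit 0) (XT.lf (nat_lit 0) (nat_lit 10104088292) (nat_lit 304) (nat_lit 434362212) (nat_lit 76) (nat_lit 915656613) (nat_lit 112) (nat_lit 5) (nat_lit 116) (nat_lit 5) (nat_lit 113) (nat_lit 5) (nat_lit 401) (nat_lit 331) (nat_lit 288)) (XT.lf (nat_lit 0) (nat_lit 2378094577) (nat_lit 304) (nat_lit 4101190180) (nat_lit 76) (nat_lit 5167920074) (nat_lit 108) (nat_lit 5) (nat_lit 112) (nat_lit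 5) (nat_lit 109) (nat_lit 5) (nat_lit 402) (nat_lit 331) (nat_lit 287))) (XT.nd (nat_lit 78) (nat_lit 228) (nat_lit 0) (XT.lf (nat_lit 0) (nat_lit 3907573840) (nat_lit 228) (nat_lit 2273007202) (nat_lit 304) (nat_lit 5665432241) (nat_lit 105) (nat_lit 5) (nat_lit 108) (nat_lit 5) (nat_lit 109) (nat_lit 5) (nat_lit 403) (nat_lit 331) (nat_lit 286)) (XT.lf (nat_lit 0) (nat_lit 88202601) (nat_lit 228) (nat_lit 10019501115) (nat_lit 304) (nat_lit 1942773888) (nat_lit 102) (nat_lit 5) (nat_lit 105) (nat_lit 5) (nat_lit 106) (nat_lit 5) (nat_lit 404) (nat_lit 331) (nat_lit 285))))))))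
noncomputable def xc79 : XT := (XT.nd (nat_lit 2262) (nat_lit 1824) (nat_lit 0) (XT.nd (nat_lit 1092) (nat_lit 1596) (nat_lit 0) (XT.nd (nat_lit 546) (nat_lit 988) (nat_lit 0) (XT.nd (nat_lit 234) (nat_lit 532) (nat_lit 0) (XT.nd (nat_lit 78) (nat_lit 456) (nat_lit 0) (XT.lf (nat_lit 0) (nat_lit 1906400485) (nat_lit 304) (nat_lit 3866427091) (nat_lit 76) (nat_lit 6486158339) (nat_lit 101) (nat_lit 5) (nat_lit 105) (nat_lit 5) (nat_lit 102) (nat_lit 5) (nat_lit 405) (nat_lit 331) (nat_lit 284)) (XT.nd (nat_lit 78) (nat_lit 228) (nat_lit 0) (XT.lf (nat_lit 0) (nat_lit 4457866735) (nat_lit 228) (nat_lit 1366779611) (nat_lit 304) (nat_lit 6648754491) (nat_lit 98) (nat_lit 5) (nat_lit 101) (nat_lit 5) (nat_lit 102) (nat_lit 5) (nat_lit 406) (nat_lit 331) (nat_lit 283)) (XT.lf (nat_lit 0) (nat_lit 310696113) (nat_lit 228) (nat_lit 9572812180) (nat_lit 304) (nat_lit 2810055368) (nat_lit 95) (nat_lit 5) (nat_lit 98) (nat_lit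 5) (nat_lit 99) (nat_lit 5) (nat_lit 407) (nat_lit 331) (nat_lit 282)))) (XT.nd (nat_lit 156) (nat_lit 304) (nat_lit 0) (XT.nd (nat_lit 78) (nat_lit 152) (nat_lit 0) (XT.lf (nat_lit 0) (nat_lit 1167097935) (nat_lit 304) (nat_lit 3974958770) (nat_lit 76) (nat_lit 7776583514) (nat_lit 94) (nat_lit 5) (nat_lit 98) (nat_lit 5) (nat_lit 95) (nat_lit 5) (nat_lit 408) (nat_lit 331) (nat_lit 281)) (XT.lf (nat_lit 0) (nat_lit 4668116275) (nat_lit 152) (nat_lit 535627402) (nat_lit 228) (nat_lit 7945997892) (nat_lit 92) (nat_lit 5) (nat_lit 94) (nat_lit 5) (nat_lit 95) (nat_lit 5) (nat_lit 409) (nat_lit 331) (nat_lit 280))) (XT.nd (nat_lit 78) (nat_lit 76) (nat_lit 0) (XT.lf (nat_lit 0) (nat_lit 146721405) (nat_lit 228) (nat_lit 9249290530) (nat_lit 304) (nat_lit 3990735009) (nat_lit 89) (nat_lit 5) (nat_lit 92) (nat_lit 5) (nat_lit 93) (nat_lit 5) (nat_lit 410) (nat_lit 331) (nat_lit 279)) (XT.lf (nat_lit 0) (nat_lit 125630638)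 (nat_lit 304) (nat_lit 4508305024) (nat_lit 76) (nat_lit 8995587080) (nat_lit 88) (nat_lit 5) (nat_lit 92) (nat_lit 5) (nat_lit 89) (nat_lit 5) (nat_lit 411) (nat_lit 331) (nat_lit 278))))) (XT.nd (nat_lit 234) (nat_lit 608) (nat_lit 0) (XT.nd (nat_lit 78) (nat_lit 228) (nat_lit 0) (XT.lf (nat_lit 0) (nat_lit 4283412528) (nat_lit 228) (nat_lit 9425882640) (nat_lit 76) (nat_lit 169163339) (nat_lit 86) (nat_lit 5) (nat_lit 89) (nat_lit 5) (nat_lit 87) (nat_lit 5) (nat_lit 412) (nat_lit 331) (nat_lit 277)) (XT.nd (nat_lit 78) (nat_lit 228) (nat_lit 0) (XT.lf (nat_lit 0) (nat_lit 8611738736) (nat_lit 228) (nat_lit 483919919) (nat_lit 76) (nat_lit 5037835300) (nat_lit 86) (nat_lit 5) (nat_lit 89) (nat_lit 5) (nat_lit 87) (nat_lit 5) (nat_lit 413) (nat_lit 331) (nat_lit 276)) (XT.lf (nat_lit 0) (nat_lit 8821953608) (nat_lit 228) (nat_lit 4288058792) (nat_lit 304) (nat_lit 1284970896) (nat_lit 83) (nat_lit 5) (nat_lit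 86) (nat_lit 5) (nat_lit 87) (nat_lit 5) (nat_lit 414) (nat_lit 331) (nat_lit 275)))) (XT.nd (nat_lit 156) (nat_lit 380) (nat_lit 0) (XT.nd (nat_lit 78) (nat_lit 0) (nat_lit 0) (XT.lf (nat_lit 0) (nat_lit 3021716273) (nat_lit 228) (nat_lit 10951278819) (nat_lit 76) (nat_lit 690353363) (nat_lit 80) (nat_lit 5) (nat_lit 83) (nat_lit 5) (nat_lit 81) (nat_lit 5) (nat_lit 415) (nat_lit 331) (nat_lit 274)) (XT.lf (nat_lit 0) (nat_lit 7486756776) (nat_lit 228) (nat_lit 1680754659) (nat_lit 76) (nat_lit 5770227349) (nat_lit 80) (nat_lit 5) (nat_lit 83) (nat_lit 5) (nat_lit 81) (nat_lit 5) (nat_lit 416) (nat_lit 331) (nat_lit 273))) (XT.nd (nat_lit 78) (nat_lit 228) (nat_lit 0) (XT.lf (nat_lit 0) (nat_lit 7948319279) (nat_lit 152) (nat_lit 4170813386) (nat_lit 228) (nat_lit 3100231753) (nat_lit 78) (nat_lit 5) (nat_lit 80) (nat_lit 5) (nat_lit 81) (nat_lit 5) (nat_lit 417) (nat_lit 331) (nat_lit 272)) (XT.lf (nat_lit 0)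 (nat_lit 1360511129) (nat_lit 228) (nat_lit 13169340364) (nat_lit 76) (nat_lit 979001313) (nat_lit 75) (nat_lit 5) (nat_lit 78) (nat_lit 5) (nat_lit 76) (nat_lit 5) (nat_lit 418) (nat_lit 331) (nat_lit 271)))))) (XT.nd (nat_lit 546) (nat_lit 836) (nat_lit 0) (XT.nd (nat_lit 234) (nat_lit 456) (nat_lit 0) (XT.nd (nat_lit 78) (nat_lit 304) (nat_lit 0) (XT.lf (nat_lit 0) (nat_lit 5965540113) (nat_lit 228) (nat_lit 3565135266) (nat_lit 76) (nat_lit 6273251030) (nat_lit 75) (nat_lit 5) (nat_lit 78) (nat_lit 5) (nat_lit 76) (nat_lit 5) (nat_lit 419) (nat_lit 331) (nat_lit 270)) (XT.nd (nat_lit 78) (nat_lit 152) (nat_lit 0) (XT.lf (nat_lit 0) (nat_lit 6378824526) (nat_lit 152) (nat_lit 4349785380) (nat_lit 228) (nat_lit 5378650164) (nat_lit 73) (nat_lit 5) (nat_lit 75) (nat_lit 5) (nat_lit 76) (nat_lit 5) (nat_lit 420) (nat_lit 331) (nat_lit 269)) (XT.lf (nat_lit 0) (nat_lit 196503187) (nat_lit 152) (nat_lit 15444583924)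 (nat_lit 228) (nat_lit 778415585) (nat_lit 71) (nat_lit 5) (nat_lit 73) (nat_lit 5) (nat_lit 74) (nat_lit 4) (nat_lit 421) (nat_lit 331) (nat_lit 268)))) (XT.nd (nat_lit 156) (nat_lit 228) (nat_lit 0) (XT.nd (nat_lit 78) (nat_lit 152) (nat_lit 0) (XT.lf (nat_lit 0) (nat_lit 3983717175) (nat_lit 228) (nat_lit 6274825135) (nat_lit 76) (nat_lit 6478397677) (nat_lit 70) (nat_lit 5) (nat_lit 73) (nat_lit 5) (nat_lit 71) (nat_lit 5) (nat_lit 422) (nat_lit 331) (nat_lit 267)) (XT.lf (nat_lit 0) (nat_lit 3970528798) (nat_lit 152) (nat_lit 4900788106) (nat_lit 228) (nat_lit 8192408870) (nat_lit 68) (nat_lit 5) (nat_lit 70) (nat_lit 5) (nat_lit 71) (nat_lit 5) (nat_lit 423) (nat_lit 331) (nat_lit 266))) (XT.nd (nat_lit 78) (nat_lit 228) (nat_lit 0) (XT.lf (nat_lit 0) (nat_lit 13935743731) (nat_lit 228) (nat_lit 2824339406) (nat_lit 76) (nat_lit 639329948) (nat_lit 68) (nat_lit 5) (nat_lit 71) (nat_lit 5) (nat_lit 69) (nat_lit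 4) (nat_lit 424) (nat_lit 331) (nat_lit 265)) (XT.lf (nat_lit 0) (nat_lit 1465116366) (nat_lit 228) (nat_lit 9970140360) (nat_lit 76) (nat_lit 6306943109) (nat_lit 65) (nat_lit 5) (nat_lit 68) (nat_lit 5) (nat_lit 66) (nat_lit 5) (nat_lit 425) (nat_lit 331) (nat_lit 264))))) (XT.nd (nat_lit 312) (nat_lit 456) (nat_lit 0) (XT.nd (nat_lit 156) (nat_lit 228) (nat_lit 0) (XT.nd (nat_lit 78) (nat_lit 0) (nat_lit 0) (XT.lf (nat_lit 0) (nat_lit 556874320) (nat_lit 152) (nat_lit 5910942764) (nat_lit 228) (nat_lit 11626557847) (nat_lit 63) (nat_lit 5) (nat_lit 65) (nat_lit 5) (nat_lit 66) (nat_lit 5) (nat_lit 426) (nat_lit 331) (nat_lit 263)) (XT.lf (nat_lit 0) (nat_lit 11535508345) (nat_lit 152) (nat_lit 147743293) (nat_lit 228) (nat_lit 6771987546) (nat_lit 63) (nat_lit 5) (nat_lit 65) (nat_lit 5) (nat_lit 66) (nat_lit 5) (nat_lit 427) (nat_lit 331) (nat_lit 262))) (XT.nd (nat_lit 78) (nat_lit 76) (nat_lit 0) (XT.lf (nat_lit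 0) (nat_lit 3971021854) (nat_lit 152) (nat_lit 13140736898) (nat_lit 228) (nat_lit 1713475710) (nat_lit 61) (nat_lit 5) (nat_lit 63) (nat_lit 5) (nat_lit 64) (nat_lit 4) (nat_lit 428) (nat_lit 331) (nat_lit 261)) (XT.lf (nat_lit 0) (nat_lit 3463458175) (nat_lit 228) (nat_lit 3977135731) (nat_lit 76) (nat_lit 11763683431) (nat_lit 60) (nat_lit 5) (nat_lit 63) (nat_lit 5) (nat_lit 61) (nat_lit 5) (nat_lit 429) (nat_lit 331) (nat_lit 260)))) (XT.nd (nat_lit 156) (nat_lit 304) (nat_lit 0) (XT.nd (nat_lit 78) (nat_lit 0) (nat_lit 0) (XT.lf (nat_lit 0) (nat_lit 7285949591) (nat_lit 152) (nat_lit 1509301077) (nat_lit 228) (nat_lit 10797915283) (nat_lit 58) (nat_lit 5) (nat_lit 60) (nat_lit 5) (nat_lit 61) (nat_lit 5) (nat_lit 430) (nat_lit 331) (nat_lit 259)) (XT.lf (nat_lit 0) (nat_lit 14335871103) (nat_lit 228) (nat_lit 1134338550) (nat_lit 76) (nat_lit 4522048352) (nat_lit 58) (nat_lit 5) (nat_lit 61) (nat_lit 5) (nat_lit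 59) (nat_lit 4) (nat_lit 431) (nat_lit 331) (nat_lit 258))) (XT.nd (nat_lit 78) (nat_lit 228) (nat_lit 0) (XT.lf (nat_lit 0) (nat_lit 10499923799) (nat_lit 76) (nat_lit 9623805221) (nat_lit 152) (nat_lit 277166155) (nat_lit 57) (nat_lit 5) (nat_lit 58) (nat_lit 5) (nat_lit 59) (nat_lit 4) (nat_lit 432) (nat_lit 331) (nat_lit 257)) (XT.lf (nat_lit 0) (nat_lit 1601746401) (nat_lit 152) (nat_lit 3551149483) (nat_lit 228) (nat_lit 15667615271) (nat_lit 54) (nat_lit 5) (nat_lit 56) (nat_lit 5) (nat_lit 57) (nat_lit 5) (nat_lit 433) (nat_lit 331) (nat_lit 256))))))) (XT.nd (nat_lit 1092) (nat_lit 836) (nat_lit 0) (XT.nd (nat_lit 546) (nat_lit 532) (nat_lit 0) (XT.nd (nat_lit 234) (nat_lit 304) (nat_lit 0) (XT.nd (nat_lit 78) (nat_lit 152) (nat_lit 0) (XT.lf (nat_lit 0) (nat_lit 10832585976) (nat_lit 228) (nat_lit 7690885271) (nat_lit 76) (nat_lit 2726395805) (nat_lit 54) (nat_lit 5) (nat_lit 57) (nat_lit 5) (nat_lit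 55) (nat_lit 4) (nat_lit 434) (nat_lit 331) (nat_lit 255)) (XT.nd (nat_lit 78) (nat_lit 76) (nat_lit 0) (XT.lf (nat_lit 0) (nat_lit 4166893077) (nat_lit 76) (nat_lit 12557335081) (nat_lit 152) (nat_lit 4966631219) (nat_lit 53) (nat_lit 5) (nat_lit 54) (nat_lit 5) (nat_lit 55) (nat_lit 4) (nat_lit 435) (nat_lit 331) (nat_lit 254)) (XT.lf (nat_lit 0) (nat_lit 679738291) (nat_lit 152) (nat_lit 5673835746) (nat_lit 76) (nat_lit 15789978067) (nat_lit 52) (nat_lit 5) (nat_lit 54) (nat_lit 5) (nat_lit 53) (nat_lit 5) (nat_lit 436) (nat_lit 331) (nat_lit 253)))) (XT.nd (nat_lit 156) (nat_lit 152) (nat_lit 0) (XT.nd (nat_lit 78) (nat_lit 0) (nat_lit 0) (XT.lf (nat_lit 0) (nat_lit 6427213477) (nat_lit 228) (nat_lit 16058535737) (nat_lit 76) (nat_lit 121657365) (nat_lit 50) (nat_lit 5) (nat_lit 53) (nat_lit 5) (nat_lit 51) (nat_lit 4) (nat_lit 437) (nat_lit 331) (nat_lit 252)) (XT.lf (nat_lit 0) (nat_lit 12435375413) (nat_lit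 228) (nat_lit 3952819501) (nat_lit 76) (nat_lit 6694336204) (nat_lit 50) (nat_lit 5) (nat_lit 53) (nat_lit 5) (nat_lit 51) (nat_lit 4) (nat_lit 438) (nat_lit 331) (nat_lit 251))) (XT.nd (nat_lit 78) (nat_lit 76) (nat_lit 0) (XT.lf (nat_lit 0) (nat_lit 8625692965) (nat_lit 76) (nat_lit 10049445389) (nat_lit 152) (nat_lit 4895232593) (nat_lit 49) (nat_lit 5) (nat_lit 50) (nat_lit 5) (nat_lit 51) (nat_lit 4) (nat_lit 439) (nat_lit 331) (nat_lit 250)) (XT.lf (nat_lit 0) (nat_lit 1017965021) (nat_lit 152) (nat_lit 2478095120) (nat_lit 76) (nat_lit 20576227090) (nat_lit 48) (nat_lit 5) (nat_lit 50) (nat_lit 5) (nat_lit 49) (nat_lit 5) (nat_lit 440) (nat_lit 331) (nat_lit 249))))) (XT.nd (nat_lit 234) (nat_lit 304) (nat_lit 0) (XT.nd (nat_lit 78) (nat_lit 76) (nat_lit 0) (XT.lf (nat_lit 0) (nat_lit 7112635896) (nat_lit 228) (nat_lit 14157094746) (nat_lit 76) (nat_lit 3315004381) (nat_lit 46) (nat_lit 5) (nat_lit 49) (nat_lit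 5) (nat_lit 47) (nat_lit 4) (nat_lit 441) (nat_lit 331) (nat_lit 248)) (XT.nd (nat_lit 78) (nat_lit 76) (nat_lit 0) (XT.lf (nat_lit 0) (nat_lit 13419536963) (nat_lit 228) (nat_lit 1432455740) (nat_lit 76) (nat_lit 10259683832) (nat_lit 46) (nat_lit 5) (nat_lit 49) (nat_lit 5) (nat_lit 47) (nat_lit 4) (nat_lit 442) (nat_lit 331) (nat_lit 247)) (XT.lf (nat_lit 0) (nat_lit 11849682272) (nat_lit 76) (nat_lit 8150261363) (nat_lit 152) (nat_lit 5651955629) (nat_lit 45) (nat_lit 5) (nat_lit 46) (nat_lit 5) (nat_lit 47) (nat_lit 4) (nat_lit 443) (nat_lit 331) (nat_lit 246)))) (XT.nd (nat_lit 156) (nat_lit 76) (nat_lit 0) (XT.nd (nat_lit 78) (nat_lit 152) (nat_lit 0) (XT.lf (nat_lit 0) (nat_lit 543365223) (nat_lit 152) (nat_lit 709379869) (nat_lit 76) (nat_lit 24955869897) (nat_lit 44) (nat_lit 5) (nat_lit 46) (nat_lit 5) (nat_lit 45) (nat_lit 5) (nat_lit 444) (nat_lit 331) (nat_lit 245)) (XT.lf (nat_lit 0) (nat_lit 6964214677)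 (nat_lit 228) (nat_lit 13916813619) (nat_lit 76) (nat_lit 5894728828) (nat_lit 42) (nat_lit 5) (nat_lit 45) (nat_lit 5) (nat_lit 43) (nat_lit 4) (nat_lit 445) (nat_lit 331) (nat_lit 244))) (XT.nd (nat_lit 78) (nat_lit 76) (nat_lit 0) (XT.lf (nat_lit 0) (nat_lit 13568706088) (nat_lit 228) (nat_lit 577298843) (nat_lit 76) (nat_lit 13214179812) (nat_lit 42) (nat_lit 5) (nat_lit 45) (nat_lit 5) (nat_lit 43) (nat_lit 4) (nat_lit 446) (nat_lit 331) (nat_lit 243)) (XT.lf (nat_lit 0) (nat_lit 13370904174) (nat_lit 76) (nat_lit 7101169791) (nat_lit 152) (nat_lit 7487050638) (nat_lit 41) (nat_lit 5) (nat_lit 42) (nat_lit 5) (nat_lit 43) (nat_lit 4) (nat_lit 447) (nat_lit 331) (nat_lit 242)))))) (XT.nd (nat_lit 546) (nat_lit 380) (nat_lit 0) (XT.nd (nat_lit 234) (nat_lit 228) (nat_lit 0) (XT.nd (nat_lit 78) (nat_lit 228) (nat_lit 0) (XT.lf (nat_lit 0) (nat_lit 27562208381) (nat_lit 152) (nat_lit 880507247) (nat_lit 0) (nat_lit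 133928683) (nat_lit 41) (nat_lit 5) (nat_lit 43) (nat_lit 4) (nat_lit 41) (nat_lit 4) (nat_lit 448) (nat_lit 331) (nat_lit 241)) (XT.nd (nat_lit 78) (nat_lit 0) (nat_lit 0) (XT.lf (nat_lit 0) (nat_lit 5715764420) (nat_lit 228) (nat_lit 15885342125) (nat_lit 76) (nat_lit 7604743419) (nat_lit 38) (nat_lit 5) (nat_lit 41) (nat_lit 5) (nat_lit 39) (nat_lit 4) (nat_lit 449) (nat_lit 331) (nat_lit 240)) (XT.lf (nat_lit 0) (nat_lit 12609589989) (nat_lit 228) (nat_lit 1949190977) (nat_lit 76) (nat_lit 15295387731) (nat_lit 38) (nat_lit 5) (nat_lit 41) (nat_lit 5) (nat_lit 39) (nat_lit 4) (nat_lit 450) (nat_lit 331) (nat_lit 239)))) (XT.nd (nat_lit 156) (nat_lit 152) (nat_lit 0) (XT.nd (nat_lit 78) (nat_lit 0) (nat_lit 0) (XT.lf (nat_lit 0) (nat_lit 12601432493) (nat_lit 76) (nat_lit 7203842098) (nat_lit 152) (nat_lit 10713812511) (nat_lit 37) (nat_lit 5) (nat_lit 38) (nat_lit 5) (nat_lit 39) (nat_lit 4) (nat_lit 451) (nat_lit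 331) (nat_lit 238)) (XT.lf (nat_lit 0) (nat_lit 27214257968) (nat_lit 152) (nat_lit 3628177979) (nat_lit 0) (nat_lit 361595657) (nat_lit 37) (nat_lit 5) (nat_lit 39) (nat_lit 4) (nat_lit 37) (nat_lit 4) (nat_lit 452) (nat_lit 331) (nat_lit 237))) (XT.nd (nat_lit 78) (nat_lit 0) (nat_lit 0) (XT.lf (nat_lit 0) (nat_lit 3033828523) (nat_lit 152) (nat_lit 20745802316) (nat_lit 76) (nat_lit 8124394230) (nat_lit 35) (nat_lit 5) (nat_lit 37) (nat_lit 5) (nat_lit 36) (nat_lit 4) (nat_lit 453) (nat_lit 331) (nat_lit 236)) (XT.lf (nat_lit 0) (nat_lit 10199712372) (nat_lit 152) (nat_lit 6249360925) (nat_lit 76) (nat_lit 16174408310) (nat_lit 35) (nat_lit 5) (nat_lit 37) (nat_lit 5) (nat_lit 36) (nat_lit 4) (nat_lit 454) (nat_lit 331) (nat_lit 235))))) (XT.nd (nat_lit 312) (nat_lit 152) (nat_lit 0) (XT.nd (nat_lit 156) (nat_lit 152) (nat_lit 0) (XT.nd (nat_lit 78) (nat_lit 0) (nat_lit 0) (XT.lf (nat_lit 0) (nat_lit 8807068366)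 (nat_lit 76) (nat_lit 8833662224) (nat_lit 152) (nat_lit 15721987755) (nat_lit 34) (nat_lit 5) (nat_lit 35) (nat_lit 5) (nat_lit 36) (nat_lit 4) (nat_lit 455) (nat_lit 331) (nat_lit 234)) (XT.lf (nat_lit 0) (nat_lit 24396991802) (nat_lit 76) (nat_lit 946861286) (nat_lit 152) (nat_lit 8779114087) (nat_lit 34) (nat_lit 5) (nat_lit 35) (nat_lit 5) (nat_lit 36) (nat_lit 4) (nat_lit 456) (nat_lit 331) (nat_lit 233))) (XT.nd (nat_lit 78) (nat_lit 76) (nat_lit 0) (XT.lf (nat_lit 0) (nat_lit 5542297515) (nat_lit 76) (nat_lit 27834300284) (nat_lit 76) (nat_lit 1526470985) (nat_lit 33) (nat_lit 4) (nat_lit 34) (nat_lit 5) (nat_lit 34) (nat_lit 4) (nat_lit 457) (nat_lit 331) (nat_lit 232)) (XT.lf (nat_lit 0) (nat_lit 5912620261) (nat_lit 152) (nat_lit 14348601825) (nat_lit 76) (nat_lit 15441092819) (nat_lit 32) (nat_lit 5) (nat_lit 34) (nat_lit 5) (nat_lit 33) (nat_lit 4) (nat_lit 458) (nat_lit 331) (nat_lit 231)))) (XT.nd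 (nat_lit 156) (nat_lit 76) (nat_lit 0) (XT.nd (nat_lit 78) (nat_lit 0) (nat_lit 0) (XT.lf (nat_lit 0) (nat_lit 1075649617) (nat_lit 76) (nat_lit 12455876685) (nat_lit 152) (nat_lit 22993940090) (nat_lit 31) (nat_lit 5) (nat_lit 32) (nat_lit 5) (nat_lit 33) (nat_lit 4) (nat_lit 459) (nat_lit 331) (nat_lit 230)) (XT.lf (nat_lit 0) (nat_lit 17213034499) (nat_lit 76) (nat_lit 4288090660) (nat_lit 152) (nat_lit 15868524534) (nat_lit 31) (nat_lit 5) (nat_lit 32) (nat_lit 5) (nat_lit 33) (nat_lit 4) (nat_lit 460) (nat_lit 331) (nat_lit 229))) (XT.nd (nat_lit 78) (nat_lit 76) (nat_lit 0) (XT.lf (nat_lit 0) (nat_lit 29727161806) (nat_lit 152) (nat_lit 4487188297) (nat_lit 0) (nat_lit 4024288904) (nat_lit 31) (nat_lit 5) (nat_lit 33) (nat_lit 4) (nat_lit 31) (nat_lit 4) (nat_lit 461) (nat_lit 331) (nat_lit 228)) (XT.lf (nat_lit 0) (nat_lit 11798423629) (nat_lit 76) (nat_lit 26535775839) (nat_lit 76) (nat_lit 795472912) (nat_lit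 30) (nat_lit 4) (nat_lit 31) (nat_lit 5) (nat_lit 31) (nat_lit 4) (nat_lit 462) (nat_lit 331) (nat_lit 227))))))))
noncomputable def xc80 : XT := (XT.nd (nat_lit 2184) (nat_lit 76) (nat_lit 0) (XT.nd (nat_lit 1092) (nat_lit 456) (nat_lit 0) (XT.nd (nat_lit 546) (nat_lit 228) (nat_lit 0) (XT.nd (nat_lit 234) (nat_lit 228) (nat_lit 0) (XT.nd (nat_lit 78) (nat_lit 76) (nat_lit 0) (XT.lf (nat_lit 0) (nat_lit 7036581314) (nat_lit 152) (nat_lit 11492382687) (nat_lit 76) (nat_lit 21515687249) (nat_lit 29) (nat_lit 5) (nat_lit 31) (nat_lit 5) (nat_lit 30) (nat_lit 4) (nat_lit 463) (nat_lit 331) (nat_lit 226)) (XT.nd (nat_lit 78) (nat_lit 0) (nat_lit 0) (XT.lf (nat_lit 0) (nat_lit 4868291662) (nat_lit 76) (nat_lit 10245115138) (nat_lit 152) (nat_lit 25872663367) (nat_lit 28) (nat_lit 5) (nat_lit 29) (nat_lit 5) (nat_lit 30) (nat_lit 4) (nat_lit 464) (nat_lit 331) (nat_lit 225)) (XT.lf (nat_lit 0) (nat_lit 21915286050) (nat_lit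 76) (nat_lit 1612528712) (nat_lit 152) (nat_lit 18425059428) (nat_lit 28) (nat_lit 5) (nat_lit 29) (nat_lit 5) (nat_lit 30) (nat_lit 4) (nat_lit 465) (nat_lit 331) (nat_lit 224)))) (XT.nd (nat_lit 156) (nat_lit 152) (nat_lit 0) (XT.nd (nat_lit 78) (nat_lit 76) (nat_lit 0) (XT.lf (nat_lit 0) (nat_lit 32244277503) (nat_lit 152) (nat_lit 3584303581) (nat_lit 0) (nat_lit 7118613416) (nat_lit 28) (nat_lit 5) (nat_lit 30) (nat_lit 4) (nat_lit 28) (nat_lit 4) (nat_lit 466) (nat_lit 331) (nat_lit 223)) (XT.lf (nat_lit 0) (nat_lit 13573282388) (nat_lit 76) (nat_lit 27775636723) (nat_lit 76) (nat_lit 2618625579) (nat_lit 27) (nat_lit 4) (nat_lit 28) (nat_lit 5) (nat_lit 28) (nat_lit 4) (nat_lit 467) (nat_lit 331) (nat_lit 222))) (XT.nd (nat_lit 78) (nat_lit 76) (nat_lit 0) (XT.lf (nat_lit 0) (nat_lit 5613622167) (nat_lit 152) (nat_lit 13791792178) (nat_lit 76) (nat_lit 25610941241) (nat_lit 26) (nat_lit 5) (nat_lit 28) (nat_lit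 5) (nat_lit 27) (nat_lit 4) (nat_lit 468) (nat_lit 331) (nat_lit 221)) (XT.lf (nat_lit 0) (nat_lit 3310320115) (nat_lit 76) (nat_lit 10742543383) (nat_lit 152) (nat_lit 32042610514) (nat_lit 25) (nat_lit 5) (nat_lit 26) (nat_lit 5) (nat_lit 27) (nat_lit 4) (nat_lit 469) (nat_lit 331) (nat_lit 220))))) (XT.nd (nat_lit 234) (nat_lit 152) (nat_lit 0) (XT.nd (nat_lit 78) (nat_lit 76) (nat_lit 0) (XT.lf (nat_lit 0) (nat_lit 21171476516) (nat_lit 76) (nat_lit 1694117719) (nat_lit 152) (nat_lit 24337763117) (nat_lit 25) (nat_lit 5) (nat_lit 26) (nat_lit 5) (nat_lit 27) (nat_lit 4) (nat_lit 470) (nat_lit 331) (nat_lit 219)) (XT.nd (nat_lit 78) (nat_lit 76) (nat_lit 0) (XT.lf (nat_lit 0) (nat_lit 31997438723) (nat_lit 152) (nat_lit 8885367465) (nat_lit 0) (nat_lit 7460029756) (nat_lit 25) (nat_lit 5) (nat_lit 27) (nat_lit 4) (nat_lit 25) (nat_lit 4) (nat_lit 471) (nat_lit 331) (nat_lit 218)) (XT.lf (nat_lit 0) (nat_lit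 8897383589) (nat_lit 76) (nat_lit 32590124765) (nat_lit 76) (nat_lit 8026463132) (nat_lit 24) (nat_lit 4) (nat_lit 25) (nat_lit 5) (nat_lit 25) (nat_lit 4) (nat_lit 472) (nat_lit 331) (nat_lit 217)))) (XT.nd (nat_lit 156) (nat_lit 76) (nat_lit 0) (XT.nd (nat_lit 78) (nat_lit 0) (nat_lit 0) (XT.lf (nat_lit 0) (nat_lit 604058982) (nat_lit 152) (nat_lit 23362909925) (nat_lit 76) (nat_lit 26750938609) (nat_lit 23) (nat_lit 5) (nat_lit 25) (nat_lit 5) (nat_lit 24) (nat_lit 4) (nat_lit 473) (nat_lit 331) (nat_lit 216)) (XT.lf (nat_lit 0) (nat_lit 9314681518) (nat_lit 152) (nat_lit 5705091832) (nat_lit 76) (nat_lit 36936329542) (nat_lit 23) (nat_lit 5) (nat_lit 25) (nat_lit 5) (nat_lit 24) (nat_lit 4) (nat_lit 474) (nat_lit 331) (nat_lit 215))) (XT.nd (nat_lit 78) (nat_lit 0) (nat_lit 0) (XT.lf (nat_lit 0) (nat_lit 12697219295) (nat_lit 76) (nat_lit 5694475048) (nat_lit 152) (nat_lit 34836598249) (nat_lit 22) (nat_lit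 5) (nat_lit 23) (nat_lit 5) (nat_lit 24) (nat_lit 4) (nat_lit 475) (nat_lit 331) (nat_lit 214)) (XT.lf (nat_lit 0) (nat_lit 27819834996) (nat_lit 152) (nat_lit 22839570736) (nat_lit 0) (nat_lit 3876878319) (nat_lit 22) (nat_lit 5) (nat_lit 24) (nat_lit 4) (nat_lit 22) (nat_lit 4) (nat_lit 476) (nat_lit 331) (nat_lit 213)))))) (XT.nd (nat_lit 546) (nat_lit 228) (nat_lit 0) (XT.nd (nat_lit 234) (nat_lit 152) (nat_lit 0) (XT.nd (nat_lit 78) (nat_lit 76) (nat_lit 0) (XT.lf (nat_lit 0) (nat_lit 37570740512) (nat_lit 152) (nat_lit 4705780057) (nat_lit 0) (nat_lit 13605797641) (nat_lit 22) (nat_lit 5) (nat_lit 24) (nat_lit 4) (nat_lit 22) (nat_lit 4) (nat_lit 477) (nat_lit 331) (nat_lit 212)) (XT.nd (nat_lit 78) (nat_lit 0) (nat_lit 0) (XT.lf (nat_lit 0) (nat_lit 14218333474) (nat_lit 76) (nat_lit 33516534166) (nat_lit 76) (nat_lit 9530245475) (nat_lit 21) (nat_lit 4) (nat_lit 22) (nat_lit 5) (nat_lit 22) (nat_lit 4)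 (nat_lit 478) (nat_lit 331) (nat_lit 211)) (XT.lf (nat_lit 0) (nat_lit 33775797836) (nat_lit 76) (nat_lit 24459828072) (nat_lit 76) (nat_lit 452815284) (nat_lit 21) (nat_lit 4) (nat_lit 22) (nat_lit 5) (nat_lit 22) (nat_lit 4) (nat_lit 479) (nat_lit 331) (nat_lit 210)))) (XT.nd (nat_lit 156) (nat_lit 0) (nat_lit 0) (XT.nd (nat_lit 78) (nat_lit 76) (nat_lit 0) (XT.lf (nat_lit 0) (nat_lit 8707822712) (nat_lit 152) (nat_lit 6350253163) (nat_lit 76) (nat_lit 45094293175) (nat_lit 20) (nat_lit 5) (nat_lit 22) (nat_lit 5) (nat_lit 21) (nat_lit 4) (nat_lit 480) (nat_lit 331) (nat_lit 209)) (XT.lf (nat_lit 0) (nat_lit 12988613671) (nat_lit 76) (nat_lit 5255367309) (nat_lit 152) (nat_lit 43412805692) (nat_lit 19) (nat_lit 5) (nat_lit 20) (nat_lit 5) (nat_lit 21) (nat_lit 4) (nat_lit 481) (nat_lit 331) (nat_lit 208))) (XT.nd (nat_lit 78) (nat_lit 0) (nat_lit 0) (XT.lf (nat_lit 0) (nat_lit 28162493027) (nat_lit 152) (nat_lit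 30243155610) (nat_lit 0) (nat_lit 4797800596) (nat_lit 19) (nat_lit 5) (nat_lit 21) (nat_lit 4) (nat_lit 19) (nat_lit 4) (nat_lit 482) (nat_lit 331) (nat_lit 207)) (XT.lf (nat_lit 0) (nat_lit 38416001840) (nat_lit 152) (nat_lit 11345954434) (nat_lit 0) (nat_lit 15033432621) (nat_lit 19) (nat_lit 5) (nat_lit 21) (nat_lit 4) (nat_lit 19) (nat_lit 4) (nat_lit 483) (nat_lit 331) (nat_lit 206))))) (XT.nd (nat_lit 234) (nat_lit 76) (nat_lit 0) (XT.nd (nat_lit 78) (nat_lit 76) (nat_lit 0) (XT.lf (nat_lit 0) (nat_lit 8251476475) (nat_lit 76) (nat_lit 40790790755) (nat_lit 76) (nat_lit 17390865431) (nat_lit 18) (nat_lit 4) (nat_lit 19) (nat_lit 5) (nat_lit 19) (nat_lit 4) (nat_lit 484) (nat_lit 331) (nat_lit 205)) (XT.nd (nat_lit 78) (nat_lit 76) (nat_lit 0) (XT.lf (nat_lit 0) (nat_lit 28641980518) (nat_lit 76) (nat_lit 31445893978) (nat_lit 76) (nat_lit 8029118067) (nat_lit 18) (nat_lit 4) (nat_lit 19) (nat_lit 5) (nat_lit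 19) (nat_lit 4) (nat_lit 485) (nat_lit 331) (nat_lit 204)) (XT.lf (nat_lit 0) (nat_lit 1568252021) (nat_lit 152) (nat_lit 20249584100) (nat_lit 76) (nat_lit 48033479608) (nat_lit 17) (nat_lit 5) (nat_lit 19) (nat_lit 5) (nat_lit 18) (nat_lit 4) (nat_lit 486) (nat_lit 331) (nat_lit 203)))) (XT.nd (nat_lit 156) (nat_lit 0) (nat_lit 0) (XT.nd (nat_lit 78) (nat_lit 76) (nat_lit 0) (XT.lf (nat_lit 0) (nat_lit 11278821369) (nat_lit 152) (nat_lit 553011620) (nat_lit 76) (nat_lit 59803851454) (nat_lit 17) (nat_lit 5) (nat_lit 19) (nat_lit 5) (nat_lit 18) (nat_lit 4) (nat_lit 487) (nat_lit 331) (nat_lit 202)) (XT.lf (nat_lit 0) (nat_lit 20101346458) (nat_lit 76) (nat_lit 1359631932) (nat_lit 152) (nat_lit 52007198102) (nat_lit 16) (nat_lit 5) (nat_lit 17) (nat_lit 5) (nat_lit 18) (nat_lit 4) (nat_lit 488) (nat_lit 331) (nat_lit 201))) (XT.nd (nat_lit 78) (nat_lit 0) (nat_lit 0) (XT.lf (nat_lit 0) (nat_lit 32031917237) (nat_lit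 152) (nat_lit 34084854551) (nat_lit 0) (nat_lit 9236372380) (nat_lit 16) (nat_lit 5) (nat_lit 18) (nat_lit 4) (nat_lit 16) (nat_lit 4) (nat_lit 489) (nat_lit 331) (nat_lit 200)) (XT.lf (nat_lit 0) (nat_lit 42920884734) (nat_lit 152) (nat_lit 14262521718) (nat_lit 0) (nat_lit 20111227775) (nat_lit 16) (nat_lit 5) (nat_lit 18) (nat_lit 4) (nat_lit 16) (nat_lit 4) (nat_lit 490) (nat_lit 331) (nat_lit 199))))))) (XT.nd (nat_lit 43602) (nat_lit 0) (nat_lit 11628) (XT.nd (nat_lit 43056) (nat_lit 0) (nat_lit 17556) (XT.nd (nat_lit 42744) (nat_lit 0) (nat_lit 22876) (XT.nd (nat_lit 42588) (nat_lit 0) (nat_lit 25460) (XT.lf (nat_lit 0) (nat_lit 6252568698) (nat_lit 76) (nat_lit 47931860717) (nat_lit 76) (nat_lit 25108502688) (nat_lit 15) (nat_lit 4) (nat_lit 16) (nat_lit 5) (nat_lit 16) (nat_lit 4) (nat_lit 491) (nat_lit 331) (nat_lit 198)) (XT.nd (nat_lit 78) (nat_lit 76) (nat_lit 0) (XT.lf (nat_lit 0) (nat_lit 580221661)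 (nat_lit 684) (nat_lit 1389263457) (nat_lit 684) (nat_lit 1389263457) (nat_lit 351) (nat_lit 4) (nat_lit 360) (nat_lit 5) (nat_lit 360) (nat_lit 4) (nat_lit 356) (nat_lit 332) (nat_lit 332)) (XT.lf (nat_lit 0) (nat_lit 491110562) (nat_lit 760) (nat_lit 1150479905) (nat_lit 76) (nat_lit 5112182469) (nat_lit 350) (nat_lit 5) (nat_lit 360) (nat_lit 5) (nat_lit 351) (nat_lit 4) (nat_lit 357) (nat_lit 332) (nat_lit 331)))) (XT.nd (nat_lit 156) (nat_lit 912) (nat_lit 0) (XT.nd (nat_lit 78) (nat_lit 912) (nat_lit 0) (XT.lf (nat_lit 0) (nat_lit 3338503317) (nat_lit 760) (nat_lit 390967313) (nat_lit 836) (nat_lit 3063099572) (nat_lit 340) (nat_lit 5) (nat_lit 350) (nat_lit 5) (nat_lit 351) (nat_lit 4) (nat_lit 358) (nat_lit 332) (nat_lit 330)) (XT.lf (nat_lit 0) (nat_lit 154638102) (nat_lit 912) (nat_lit 5760341831) (nat_lit 76) (nat_lit 919732550) (nat_lit 328) (nat_lit 5) (nat_lit 340) (nat_lit 5) (nat_lit 329) (nat_lit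 4) (nat_lit 359) (nat_lit 332) (nat_lit 329))) (XT.nd (nat_lit 78) (nat_lit 912) (nat_lit 0) (XT.lf (nat_lit 0) (nat_lit 3344332166) (nat_lit 912) (nat_lit 1193230485) (nat_lit 76) (nat_lit 2341585261) (nat_lit 328) (nat_lit 5) (nat_lit 340) (nat_lit 5) (nat_lit 329) (nat_lit 4) (nat_lit 360) (nat_lit 332) (nat_lit 328)) (XT.lf (nat_lit 0) (nat_lit 3490580707) (nat_lit 912) (nat_lit 3073557826) (nat_lit 988) (nat_lit 362792214) (nat_lit 316) (nat_lit 5) (nat_lit 328) (nat_lit 5) (nat_lit 329) (nat_lit 4) (nat_lit 361) (nat_lit 332) (nat_lit 327))))) (XT.nd (nat_lit 234) (nat_lit 3116) (nat_lit 0) (XT.nd (nat_lit 78) (nat_lit 1140) (nat_lit 0) (XT.lf (nat_lit 0) (nat_lit 1270783286) (nat_lit 988) (nat_lit 1503225285) (nat_lit 1064) (nat_lit 4203556471) (nat_lit 302) (nat_lit 5) (nat_lit 315) (nat_lit 5) (nat_lit 316) (nat_lit 5) (nat_lit 362) (nat_lit 332) (nat_lit 326)) (XT.nd (nat_lit 78) (nat_lit 1140) (nat_lit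 0) (XT.lf (nat_lit 0) (nat_lit 5937746917) (nat_lit 1064) (nat_lit 935814158) (nat_lit 76) (nat_lit 157888771) (nat_lit 302) (nat_lit 5) (nat_lit 316) (nat_lit 5) (nat_lit 303) (nat_lit 4) (nat_lit 363) (nat_lit 332) (nat_lit 325)) (XT.lf (nat_lit 0) (nat_lit 2027490538) (nat_lit 1140) (nat_lit 3156579356) (nat_lit 76) (nat_lit 1903537298) (nat_lit 287) (nat_lit 5) (nat_lit 302) (nat_lit 5) (nat_lit 288) (nat_lit 5) (nat_lit 364) (nat_lit 332) (nat_lit 324)))) (XT.nd (nat_lit 156) (nat_lit 1900) (nat_lit 0) (XT.nd (nat_lit 78) (nat_lit 76) (nat_lit 0) (XT.lf (nat_lit 0) (nat_lit 1751132006) (nat_lit 1140) (nat_lit 3403285612) (nat_lit 1216) (nat_lit 1992723725) (nat_lit 272) (nat_lit 5) (nat_lit 287) (nat_lit 5) (nat_lit 288) (nat_lit 5) (nat_lit 365) (nat_lit 332) (nat_lit 323)) (XT.lf (nat_lit 0) (nat_lit 1084717605) (nat_lit 1216) (nat_lit 439237144) (nat_lit 76) (nat_lit 5685983623) (nat_lit 271) (nat_lit 5)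 (nat_lit 287) (nat_lit 5) (nat_lit 272) (nat_lit 5) (nat_lit 366) (nat_lit 332) (nat_lit 322))) (XT.nd (nat_lit 78) (nat_lit 684) (nat_lit 0) (XT.lf (nat_lit 0) (nat_lit 4174982296) (nat_lit 1292) (nat_lit 2631092528) (nat_lit 76) (nat_lit 469172045) (nat_lit 255) (nat_lit 5) (nat_lit 272) (nat_lit 5) (nat_lit 256) (nat_lit 5) (nat_lit 367) (nat_lit 332) (nat_lit 321)) (XT.lf (nat_lit 0) (nat_lit 2490019620) (nat_lit 684) (nat_lit 4824442273) (nat_lit 760) (nat_lit 29392483) (nat_lit 246) (nat_lit 5) (nat_lit 255) (nat_lit 5) (nat_lit 256) (nat_lit 5) (nat_lit 368) (nat_lit 332) (nat_lit 320)))))) (XT.nd (nat_lit 546) (nat_lit 2964) (nat_lit 0) (XT.nd (nat_lit 234) (nat_lit 1596) (nat_lit 0) (XT.nd (nat_lit 78) (nat_lit 684) (nat_lit 0) (XT.lf (nat_lit 0) (nat_lit 289264231) (nat_lit 608) (nat_lit 2726607657) (nat_lit 684) (nat_lit 4399475091) (nat_lit 237) (nat_lit 5) (nat_lit 245) (nat_lit 5) (nat_lit 246) (nat_lit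 5) (nat_lit 369) (nat_lit 332) (nat_lit 319)) (XT.nd (nat_lit 78) (nat_lit 684) (nat_lit 0) (XT.lf (nat_lit 0) (nat_lit 5595778048) (nat_lit 608) (nat_lit 520583008) (nat_lit 684) (nat_lit 1373712839) (nat_lit 237) (nat_lit 5) (nat_lit 245) (nat_lit 5) (nat_lit 246) (nat_lit 5) (nat_lit 370) (nat_lit 332) (nat_lit 318)) (XT.lf (nat_lit 0) (nat_lit 1676373248) (nat_lit 684) (nat_lit 4129341160) (nat_lit 76) (nat_lit 1761828988) (nat_lit 228) (nat_lit 5) (nat_lit 237) (nat_lit 5) (nat_lit 229) (nat_lit 5) (nat_lit 371) (nat_lit 332) (nat_lit 317)))) (XT.nd (nat_lit 156) (nat_lit 988) (nat_lit 0) (XT.nd (nat_lit 78) (nat_lit 76) (nat_lit 0) (XT.lf (nat_lit 0) (nat_lit 1237274925) (nat_lit 532) (nat_lit 3508009106) (nat_lit 608) (nat_lit 2903026226) (nat_lit 221) (nat_lit 5) (nat_lit 228) (nat_lit 5) (nat_lit 229) (nat_lit 5) (nat_lit 372) (nat_lit 332) (nat_lit 316)) (XT.lf (nat_lit 0) (nat_lit 132719100) (nat_lit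 608) (nat_lit 974217993) (nat_lit 76) (nat_lit 6625699214) (nat_lit 220) (nat_lit 5) (nat_lit 228) (nat_lit 5) (nat_lit 221) (nat_lit 5) (nat_lit 373) (nat_lit 332) (nat_lit 315))) (XT.nd (nat_lit 78) (nat_lit 456) (nat_lit 0) (XT.lf (nat_lit 0) (nat_lit 3180750007) (nat_lit 608) (nat_lit 3235504721) (nat_lit 76) (nat_lit 1403015087) (nat_lit 213) (nat_lit 5) (nat_lit 221) (nat_lit 5) (nat_lit 214) (nat_lit 5) (nat_lit 374) (nat_lit 332) (nat_lit 314)) (XT.lf (nat_lit 0) (nat_lit 2365238180) (nat_lit 456) (nat_lit 3921556092) (nat_lit 532) (nat_lit 1622736898) (nat_lit 207) (nat_lit 5) (nat_lit 213) (nat_lit 5) (nat_lit 214) (nat_lit 5) (nat_lit 375) (nat_lit 332) (nat_lit 313))))) (XT.nd (nat_lit 312) (nat_lit 1368) (nat_lit 0) (XT.nd (nat_lit 156) (nat_lit 988) (nat_lit 0) (XT.nd (nat_lit 78) (nat_lit 0) (nat_lit 0) (XT.lf (nat_lit 0) (nat_lit 95311262) (nat_lit 532) (nat_lit 1316725540) (nat_lit 608) (nat_lit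 6591336288) (nat_lit 199) (nat_lit 5) (nat_lit 206) (nat_lit 5) (nat_lit 207) (nat_lit 5) (nat_lit 376) (nat_lit 332) (nat_lit 312)) (XT.lf (nat_lit 0) (nat_lit 4499686841) (nat_lit 608) (nat_lit 2202365297) (nat_lit 76) (nat_lit 1397686481) (nat_lit 199) (nat_lit 5) (nat_lit 207) (nat_lit 5) (nat_lit 200) (nat_lit 5) (nat_lit 377) (nat_lit 332) (nat_lit 311))) (XT.nd (nat_lit 78) (nat_lit 532) (nat_lit 0) (XT.lf (nat_lit 0) (nat_lit 3643221121) (nat_lit 456) (nat_lit 4011768542) (nat_lit 532) (nat_lit 544777866) (nat_lit 193) (nat_lit 5) (nat_lit 199) (nat_lit 5) (nat_lit 200) (nat_lit 5) (nat_lit 378) (nat_lit 332) (nat_lit 310)) (XT.lf (nat_lit 0) (nat_lit 1317746506) (nat_lit 456) (nat_lit 1196267036) (nat_lit 532) (nat_lit 5789176048) (nat_lit 186) (nat_lit 5) (nat_lit 192) (nat_lit 5) (nat_lit 193) (nat_lit 5) (nat_lit 379) (nat_lit 332) (nat_lit 309)))) (XT.nd (nat_lit 156) (nat_lit 836) (nat_lit 0) (XT.nd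 (nat_lit 78) (nat_lit 532) (nat_lit 0) (XT.lf (nat_lit 0) (nat_lit 5645058113) (nat_lit 532) (nat_lit 1059917919) (nat_lit 76) (nat_lit 1704854451) (nat_lit 186) (nat_lit 5) (nat_lit 193) (nat_lit 5) (nat_lit 187) (nat_lit 5) (nat_lit 380) (nat_lit 332) (nat_lit 308)) (XT.lf (nat_lit 0) (nat_lit 334397550) (nat_lit 532) (nat_lit 3481712124) (nat_lit 76) (nat_lit 4703753700) (nat_lit 179) (nat_lit 5) (nat_lit 186) (nat_lit 5) (nat_lit 180) (nat_lit 5) (nat_lit 381) (nat_lit 332) (nat_lit 307))) (XT.nd (nat_lit 78) (nat_lit 380) (nat_lit 0) (XT.lf (nat_lit 0) (nat_lit 2643210080) (nat_lit 456) (nat_lit 795138158) (nat_lit 532) (nat_lit 5195025908) (nat_lit 173) (nat_lit 5) (nat_lit 179) (nat_lit 5) (nat_lit 180) (nat_lit 5) (nat_lit 382) (nat_lit 332) (nat_lit 306)) (XT.lf (nat_lit 0) (nat_lit 164731040) (nat_lit 380) (nat_lit 6462164693) (nat_lit 456) (nat_lit 2123668953) (nat_lit 168) (nat_lit 5) (nat_lit 173)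 (nat_lit 5) (nat_lit 174) (nat_lit 5) (nat_lit 383) (nat_lit 332) (nat_lit 305))))))))
noncomputable def xc81 : XT := (XT.nd (nat_lit 2262) (nat_lit 3192) (nat_lit 0) (XT.nd (nat_lit 1092) (nat_lit 2660) (nat_lit 0) (XT.nd (nat_lit 546) (nat_lit 1748) (nat_lit 0) (XT.nd (nat_lit 234) (nat_lit 836) (nat_lit 0) (XT.nd (nat_lit 78) (nat_lit 760) (nat_lit 0) (XT.lf (nat_lit 0) (nat_lit 1021061990) (nat_lit 456) (nat_lit 2351220669) (nat_lit 76) (nat_lit 5498660412) (nat_lit 167) (nat_lit 5) (nat_lit 173) (nat_lit 5) (nat_lit 168) (nat_lit 5) (nat_lit 384) (nat_lit 332) (nat_lit 304)) (XT.nd (nat_lit 78) (nat_lit 380) (nat_lit 0) (XT.lf (nat_lit 0) (nat_lit 4040518406) (nat_lit 380) (nat_lit 150300531) (nat_lit 456) (nat_lit 4804299246) (nat_lit 162) (nat_lit 5) (nat_lit 167) (nat_lit 5) (nat_lit 168) (nat_lit 5) (nat_lit 385) (nat_lit 332) (nat_lit 303)) (XT.lf (nat_lit 0) (nat_lit 1459078338) (nat_lit 380) (nat_lit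 6000433323) (nat_lit 456) (nat_lit 1663408294) (nat_lit 157) (nat_lit 5) (nat_lit 162) (nat_lit 5) (nat_lit 163) (nat_lit 5) (nat_lit 386) (nat_lit 332) (nat_lit 302)))) (XT.nd (nat_lit 156) (nat_lit 380) (nat_lit 0) (XT.nd (nat_lit 78) (nat_lit 380) (nat_lit 0) (XT.lf (nat_lit 0) (nat_lit 1528831880) (nat_lit 456) (nat_lit 1192444086) (nat_lit 76) (nat_lit 6533208540) (nat_lit 156) (nat_lit 5) (nat_lit 162) (nat_lit 5) (nat_lit 157) (nat_lit 5) (nat_lit 387) (nat_lit 332) (nat_lit 301)) (XT.lf (nat_lit 0) (nat_lit 4780464047) (nat_lit 456) (nat_lit 3919501879) (nat_lit 76) (nat_lit 689639539) (nat_lit 151) (nat_lit 5) (nat_lit 157) (nat_lit 5) (nat_lit 152) (nat_lit 5) (nat_lit 388) (nat_lit 332) (nat_lit 300))) (XT.nd (nat_lit 78) (nat_lit 76) (nat_lit 0) (XT.lf (nat_lit 0) (nat_lit 2768298746) (nat_lit 304) (nat_lit 5365468915) (nat_lit 380) (nat_lit 1394903554) (nat_lit 147) (nat_lit 5) (nat_lit 151) (nat_lit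 5) (nat_lit 152) (nat_lit 5) (nat_lit 389) (nat_lit 332) (nat_lit 299)) (XT.lf (nat_lit 0) (nat_lit 1857106638) (nat_lit 380) (nat_lit 40038386) (nat_lit 76) (nat_lit 7774863575) (nat_lit 146) (nat_lit 5) (nat_lit 151) (nat_lit 5) (nat_lit 147) (nat_lit 5) (nat_lit 390) (nat_lit 332) (nat_lit 298))))) (XT.nd (nat_lit 234) (nat_lit 684) (nat_lit 0) (XT.nd (nat_lit 78) (nat_lit 684) (nat_lit 0) (XT.lf (nat_lit 0) (nat_lit 5202335326) (nat_lit 456) (nat_lit 2917633468) (nat_lit 76) (nat_lit 1698565730) (nat_lit 141) (nat_lit 5) (nat_lit 147) (nat_lit 5) (nat_lit 142) (nat_lit 5) (nat_lit 391) (nat_lit 332) (nat_lit 297)) (XT.nd (nat_lit 78) (nat_lit 380) (nat_lit 0) (XT.lf (nat_lit 0) (nat_lit 4056079916) (nat_lit 304) (nat_lit 4591239266) (nat_lit 380) (nat_lit 1322168277) (nat_lit 137) (nat_lit 5) (nat_lit 141) (nat_lit 5) (nat_lit 142) (nat_lit 5) (nat_lit 392) (nat_lit 332) (nat_lit 296)) (XT.lf (nat_lit 0) (nat_lit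 1089734255) (nat_lit 304) (nat_lit 922299425) (nat_lit 380) (nat_lit 8112897890) (nat_lit 132) (nat_lit 5) (nat_lit 136) (nat_lit 5) (nat_lit 137) (nat_lit 5) (nat_lit 393) (nat_lit 332) (nat_lit 295)))) (XT.nd (nat_lit 156) (nat_lit 380) (nat_lit 0) (XT.nd (nat_lit 78) (nat_lit 304) (nat_lit 0) (XT.lf (nat_lit 0) (nat_lit 5449598551) (nat_lit 380) (nat_lit 1986893257) (nat_lit 76) (nat_lit 2847269200) (nat_lit 132) (nat_lit 5) (nat_lit 137) (nat_lit 5) (nat_lit 133) (nat_lit 5) (nat_lit 394) (nat_lit 332) (nat_lit 294)) (XT.lf (nat_lit 0) (nat_lit 5282644082) (nat_lit 304) (nat_lit 3711388698) (nat_lit 380) (nat_lit 1453221992) (nat_lit 128) (nat_lit 5) (nat_lit 132) (nat_lit 5) (nat_lit 133) (nat_lit 5) (nat_lit 395) (nat_lit 332) (nat_lit 293))) (XT.nd (nat_lit 78) (nat_lit 0) (nat_lit 0) (XT.lf (nat_lit 0) (nat_lit 1975955482) (nat_lit 380) (nat_lit 8483655105) (nat_lit 76) (nat_lit 155876495) (nat_lit 123)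 (nat_lit 5) (nat_lit 128) (nat_lit 5) (nat_lit 124) (nat_lit 5) (nat_lit 396) (nat_lit 332) (nat_lit 292)) (XT.lf (nat_lit 0) (nat_lit 5512871126) (nat_lit 380) (nat_lit 1170841449) (nat_lit 76) (nat_lit 4103610719) (nat_lit 123) (nat_lit 5) (nat_lit 128) (nat_lit 5) (nat_lit 124) (nat_lit 5) (nat_lit 397) (nat_lit 332) (nat_lit 291)))))) (XT.nd (nat_lit 546) (nat_lit 1292) (nat_lit 0) (XT.nd (nat_lit 234) (nat_lit 760) (nat_lit 0) (XT.nd (nat_lit 78) (nat_lit 380) (nat_lit 0) (XT.lf (nat_lit 0) (nat_lit 6403767753) (nat_lit 228) (nat_lit 2759951326) (nat_lit 304) (nat_lit 1800371175) (nat_lit 120) (nat_lit 5) (nat_lit 123) (nat_lit 5) (nat_lit 124) (nat_lit 5) (nat_lit 398) (nat_lit 332) (nat_lit 290)) (XT.nd (nat_lit 78) (nat_lit 0) (nat_lit 0) (XT.lf (nat_lit 0) (nat_lit 1743558406) (nat_lit 380) (nat_lit 8115468081) (nat_lit 76) (nat_lit 1286621226) (nat_lit 115) (nat_lit 5) (nat_lit 120) (nat_lit 5) (nat_lit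 116) (nat_lit 5) (nat_lit 399) (nat_lit 332) (nat_lit 289)) (XT.lf (nat_lit 0) (nat_lit 5378453809) (nat_lit 380) (nat_lit 518311133) (nat_lit 76) (nat_lit 5434736705) (nat_lit 115) (nat_lit 5) (nat_lit 120) (nat_lit 5) (nat_lit 116) (nat_lit 5) (nat_lit 400) (nat_lit 332) (nat_lit 288)))) (XT.nd (nat_lit 156) (nat_lit 228) (nat_lit 0) (XT.nd (nat_lit 78) (nat_lit 304) (nat_lit 0) (XT.lf (nat_lit 0) (nat_lit 7369684103) (nat_lit 228) (nat_lit 1772098640) (nat_lit 304) (nat_lit 2380576101) (nat_lit 112) (nat_lit 5) (nat_lit 115) (nat_lit 5) (nat_lit 116) (nat_lit 5) (nat_lit 401) (nat_lit 332) (nat_lit 287)) (XT.lf (nat_lit 0) (nat_lit 1288020412) (nat_lit 304) (nat_lit 7976932220) (nat_lit 76) (nat_lit 2453194212) (nat_lit 108) (nat_lit 5) (nat_lit 112) (nat_lit 5) (nat_lit 109) (nat_lit 5) (nat_lit 402) (nat_lit 332) (nat_lit 286))) (XT.nd (nat_lit 78) (nat_lit 228) (nat_lit 0) (XT.lf (nat_lit 0) (nat_lit 5027918382)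 (nat_lit 304) (nat_lit 84597899) (nat_lit 76) (nat_lit 6806320839) (nat_lit 108) (nat_lit 5) (nat_lit 112) (nat_lit 5) (nat_lit 109) (nat_lit 5) (nat_lit 403) (nat_lit 332) (nat_lit 285)) (XT.lf (nat_lit 0) (nat_lit 8123844454) (nat_lit 228) (nat_lit 784936113) (nat_lit 304) (nat_lit 3215912733) (nat_lit 105) (nat_lit 5) (nat_lit 108) (nat_lit 5) (nat_lit 109) (nat_lit 5) (nat_lit 404) (nat_lit 332) (nat_lit 284))))) (XT.nd (nat_lit 312) (nat_lit 532) (nat_lit 0) (XT.nd (nat_lit 156) (nat_lit 228) (nat_lit 0) (XT.nd (nat_lit 78) (nat_lit 228) (nat_lit 0) (XT.lf (nat_lit 0) (nat_lit 586214678) (nat_lit 304) (nat_lit 8130808184) (nat_lit 76) (nat_lit 3618706426) (nat_lit 101) (nat_lit 5) (nat_lit 105) (nat_lit 5) (nat_lit 102) (nat_lit 5) (nat_lit 405) (nat_lit 332) (nat_lit 283)) (XT.lf (nat_lit 0) (nat_lit 68528680) (nat_lit 228) (nat_lit 4369726395) (nat_lit 304) (nat_lit 8113879000) (nat_lit 98) (nat_lit 5) (nat_lit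 101) (nat_lit 5) (nat_lit 102) (nat_lit 5) (nat_lit 406) (nat_lit 332) (nat_lit 282))) (XT.nd (nat_lit 78) (nat_lit 228) (nat_lit 0) (XT.lf (nat_lit 0) (nat_lit 8441430645) (nat_lit 304) (nat_lit 4174059427) (nat_lit 76) (nat_lit 158481015) (nat_lit 98) (nat_lit 5) (nat_lit 102) (nat_lit 5) (nat_lit 99) (nat_lit 5) (nat_lit 407) (nat_lit 332) (nat_lit 281)) (XT.lf (nat_lit 0) (nat_lit 4348538868) (nat_lit 228) (nat_lit 8254254999) (nat_lit 304) (nat_lit 398533656) (nat_lit 95) (nat_lit 5) (nat_lit 98) (nat_lit 5) (nat_lit 99) (nat_lit 5) (nat_lit 408) (nat_lit 332) (nat_lit 280)))) (XT.nd (nat_lit 156) (nat_lit 304) (nat_lit 0) (XT.nd (nat_lit 78) (nat_lit 152) (nat_lit 0) (XT.lf (nat_lit 0) (nat_lit 3577956378) (nat_lit 304) (nat_lit 135398273) (nat_lit 76) (nat_lit 9521230417) (nat_lit 94) (nat_lit 5) (nat_lit 98) (nat_lit 5) (nat_lit 95) (nat_lit 5) (nat_lit 409) (nat_lit 332) (nat_lit 279)) (XT.lf (nat_lit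 0) (nat_lit 7714026582) (nat_lit 228) (nat_lit 4755260763) (nat_lit 76) (nat_lit 1003992232) (nat_lit 92) (nat_lit 5) (nat_lit 95) (nat_lit 5) (nat_lit 93) (nat_lit 5) (nat_lit 410) (nat_lit 332) (nat_lit 278))) (XT.nd (nat_lit 78) (nat_lit 76) (nat_lit 0) (XT.lf (nat_lit 0) (nat_lit 4087657507) (nat_lit 228) (nat_lit 7918826461) (nat_lit 304) (nat_lit 1711688099) (nat_lit 89) (nat_lit 5) (nat_lit 92) (nat_lit 5) (nat_lit 93) (nat_lit 5) (nat_lit 411) (nat_lit 332) (nat_lit 277)) (XT.lf (nat_lit 0) (nat_lit 2412856195) (nat_lit 304) (nat_lit 775929603) (nat_lit 76) (nat_lit 10780817736) (nat_lit 88) (nat_lit 5) (nat_lit 92) (nat_lit 5) (nat_lit 89) (nat_lit 5) (nat_lit 412) (nat_lit 332) (nat_lit 276))))))) (XT.nd (nat_lit 1092) (nat_lit 1444) (nat_lit 0) (XT.nd (nat_lit 546) (nat_lit 760) (nat_lit 0) (XT.nd (nat_lit 234) (nat_lit 532) (nat_lit 0) (XT.nd (nat_lit 78) (nat_lit 304) (nat_lit 0) (XT.lf (nat_lit 0)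 (nat_lit 6680825528) (nat_lit 228) (nat_lit 5826196114) (nat_lit 76) (nat_lit 1719430884) (nat_lit 86) (nat_lit 5) (nat_lit 89) (nat_lit 5) (nat_lit 87) (nat_lit 5) (nat_lit 413) (nat_lit 332) (nat_lit 275)) (XT.nd (nat_lit 78) (nat_lit 76) (nat_lit 0) (XT.lf (nat_lit 0) (nat_lit 3336042241) (nat_lit 228) (nat_lit 7768942583) (nat_lit 304) (nat_lit 3385183230) (nat_lit 83) (nat_lit 5) (nat_lit 86) (nat_lit 5) (nat_lit 87) (nat_lit 5) (nat_lit 414) (nat_lit 332) (nat_lit 274)) (XT.lf (nat_lit 0) (nat_lit 898651255) (nat_lit 304) (nat_lit 1951092089) (nat_lit 76) (nat_lit 11911313183) (nat_lit 82) (nat_lit 5) (nat_lit 86) (nat_lit 5) (nat_lit 83) (nat_lit 5) (nat_lit 415) (nat_lit 332) (nat_lit 273)))) (XT.nd (nat_lit 156) (nat_lit 228) (nat_lit 0) (XT.nd (nat_lit 78) (nat_lit 152) (nat_lit 0) (XT.lf (nat_lit 0) (nat_lit 5295788452) (nat_lit 228) (nat_lit 7490227420) (nat_lit 76) (nat_lit 2251470605) (nat_lit 80)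 (nat_lit 5) (nat_lit 83) (nat_lit 5) (nat_lit 81) (nat_lit 5) (nat_lit 416) (nat_lit 332) (nat_lit 272)) (XT.lf (nat_lit 0) (nat_lit 1986805800) (nat_lit 152) (nat_lit 7863477985) (nat_lit 228) (nat_lit 5471167190) (nat_lit 78) (nat_lit 5) (nat_lit 80) (nat_lit 5) (nat_lit 81) (nat_lit 5) (nat_lit 417) (nat_lit 332) (nat_lit 271))) (XT.nd (nat_lit 78) (nat_lit 228) (nat_lit 0) (XT.lf (nat_lit 0) (nat_lit 11829911500) (nat_lit 152) (nat_lit 2745898672) (nat_lit 228) (nat_lit 1037097176) (nat_lit 78) (nat_lit 5) (nat_lit 80) (nat_lit 5) (nat_lit 81) (nat_lit 5) (nat_lit 418) (nat_lit 332) (nat_lit 270)) (XT.lf (nat_lit 0) (nat_lit 3503911146) (nat_lit 228) (nat_lit 9867252485) (nat_lit 76) (nat_lit 2539646381) (nat_lit 75) (nat_lit 5) (nat_lit 78) (nat_lit 5) (nat_lit 76) (nat_lit 5) (nat_lit 419) (nat_lit 332) (nat_lit 269))))) (XT.nd (nat_lit 234) (nat_lit 380) (nat_lit 0) (XT.nd (nat_lit 78) (nat_lit 380) (nat_lit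 0) (XT.lf (nat_lit 0) (nat_lit 8185850669) (nat_lit 228) (nat_lit 82605742) (nat_lit 76) (nat_lit 7948123345) (nat_lit 75) (nat_lit 5) (nat_lit 78) (nat_lit 5) (nat_lit 76) (nat_lit 5) (nat_lit 420) (nat_lit 332) (nat_lit 268)) (XT.nd (nat_lit 78) (nat_lit 228) (nat_lit 0) (XT.lf (nat_lit 0) (nat_lit 10124481829) (nat_lit 152) (nat_lit 2942040130) (nat_lit 228) (nat_lit 3463256714) (nat_lit 73) (nat_lit 5) (nat_lit 75) (nat_lit 5) (nat_lit 76) (nat_lit 5) (nat_lit 421) (nat_lit 332) (nat_lit 267)) (XT.lf (nat_lit 0) (nat_lit 1239903072) (nat_lit 228) (nat_lit 13096546285) (nat_lit 76) (nat_lit 2514883764) (nat_lit 70) (nat_lit 5) (nat_lit 73) (nat_lit 5) (nat_lit 71) (nat_lit 5) (nat_lit 422) (nat_lit 332) (nat_lit 266)))) (XT.nd (nat_lit 156) (nat_lit 228) (nat_lit 0) (XT.nd (nat_lit 78) (nat_lit 152) (nat_lit 0) (XT.lf (nat_lit 0) (nat_lit 6070243974) (nat_lit 228) (nat_lit 2962646466) (nat_lit 76) (nat_lit 8146948165)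 (nat_lit 70) (nat_lit 5) (nat_lit 73) (nat_lit 5) (nat_lit 71) (nat_lit 5) (nat_lit 423) (nat_lit 332) (nat_lit 265)) (XT.lf (nat_lit 0) (nat_lit 7555750208) (nat_lit 152) (nat_lit 3524748107) (nat_lit 228) (nat_lit 6436654653) (nat_lit 68) (nat_lit 5) (nat_lit 70) (nat_lit 5) (nat_lit 71) (nat_lit 5) (nat_lit 424) (nat_lit 332) (nat_lit 264))) (XT.nd (nat_lit 78) (nat_lit 76) (nat_lit 0) (XT.lf (nat_lit 0) (nat_lit 508572459) (nat_lit 152) (nat_lit 15750794937) (nat_lit 228) (nat_lit 1604673849) (nat_lit 66) (nat_lit 5) (nat_lit 68) (nat_lit 5) (nat_lit 69) (nat_lit 4) (nat_lit 425) (nat_lit 332) (nat_lit 263)) (XT.lf (nat_lit 0) (nat_lit 3405579466) (nat_lit 228) (nat_lit 6857014424) (nat_lit 76) (nat_lit 7954799733) (nat_lit 65) (nat_lit 5) (nat_lit 68) (nat_lit 5) (nat_lit 66) (nat_lit 5) (nat_lit 426) (nat_lit 332) (nat_lit 262)))))) (XT.nd (nat_lit 546) (nat_lit 760) (nat_lit 0) (XT.nd (nat_lit 234) (nat_lit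 304) (nat_lit 0) (XT.nd (nat_lit 78) (nat_lit 228) (nat_lit 0) (XT.lf (nat_lit 0) (nat_lit 3952357459) (nat_lit 152) (nat_lit 4583244474) (nat_lit 228) (nat_lit 10045219971) (nat_lit 63) (nat_lit 5) (nat_lit 65) (nat_lit 5) (nat_lit 66) (nat_lit 5) (nat_lit 427) (nat_lit 332) (nat_lit 261)) (XT.nd (nat_lit 78) (nat_lit 228) (nat_lit 0) (XT.lf (nat_lit 0) (nat_lit 13865507326) (nat_lit 228) (nat_lit 3804797873) (nat_lit 76) (nat_lit 1283471653) (nat_lit 63) (nat_lit 5) (nat_lit 66) (nat_lit 5) (nat_lit 64) (nat_lit 4) (nat_lit 428) (nat_lit 332) (nat_lit 260)) (XT.lf (nat_lit 0) (nat_lit 99090210) (nat_lit 228) (nat_lit 11957802782) (nat_lit 76) (nat_lit 7278564336) (nat_lit 60) (nat_lit 5) (nat_lit 63) (nat_lit 5) (nat_lit 61) (nat_lit 5) (nat_lit 429) (nat_lit 332) (nat_lit 259)))) (XT.nd (nat_lit 156) (nat_lit 152) (nat_lit 0) (XT.nd (nat_lit 78) (nat_lit 152) (nat_lit 0) (XT.lf (nat_lit 0) (nat_lit 5343605635)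 (nat_lit 228) (nat_lit 868225436) (nat_lit 76) (nat_lit 13515134663) (nat_lit 60) (nat_lit 5) (nat_lit 63) (nat_lit 5) (nat_lit 61) (nat_lit 5) (nat_lit 430) (nat_lit 332) (nat_lit 258)) (XT.lf (nat_lit 0) (nat_lit 10701103187) (nat_lit 152) (nat_lit 113240898) (nat_lit 228) (nat_lit 9313811602) (nat_lit 58) (nat_lit 5) (nat_lit 60) (nat_lit 5) (nat_lit 61) (nat_lit 5) (nat_lit 431) (nat_lit 332) (nat_lit 257))) (XT.nd (nat_lit 78) (nat_lit 76) (nat_lit 0) (XT.lf (nat_lit 0) (nat_lit 2012182945) (nat_lit 76) (nat_lit 14490670635) (nat_lit 152) (nat_lit 4036921124) (nat_lit 57) (nat_lit 5) (nat_lit 58) (nat_lit 5) (nat_lit 59) (nat_lit 4) (nat_lit 432) (nat_lit 332) (nat_lit 256)) (XT.lf (nat_lit 0) (nat_lit 1434470680) (nat_lit 152) (nat_lit 7050511373) (nat_lit 76) (nat_lit 12476455278) (nat_lit 56) (nat_lit 5) (nat_lit 58) (nat_lit 5) (nat_lit 57) (nat_lit 5) (nat_lit 433) (nat_lit 332) (nat_lit 255))))) (XT.nd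 (nat_lit 312) (nat_lit 456) (nat_lit 0) (XT.nd (nat_lit 156) (nat_lit 152) (nat_lit 0) (XT.nd (nat_lit 78) (nat_lit 0) (nat_lit 0) (XT.lf (nat_lit 0) (nat_lit 4763712885) (nat_lit 152) (nat_lit 2238150350) (nat_lit 228) (nat_lit 14392300198) (nat_lit 54) (nat_lit 5) (nat_lit 56) (nat_lit 5) (nat_lit 57) (nat_lit 5) (nat_lit 434) (nat_lit 332) (nat_lit 254)) (XT.lf (nat_lit 0) (nat_lit 12815841128) (nat_lit 228) (nat_lit 4862163553) (nat_lit 76) (nat_lit 4159482246) (nat_lit 54) (nat_lit 5) (nat_lit 57) (nat_lit 5) (nat_lit 55) (nat_lit 4) (nat_lit 435) (nat_lit 332) (nat_lit 253))) (XT.nd (nat_lit 78) (nat_lit 76) (nat_lit 0) (XT.lf (nat_lit 0) (nat_lit 7321353555) (nat_lit 76) (nat_lit 11543700636) (nat_lit 152) (nat_lit 3427233906) (nat_lit 53) (nat_lit 5) (nat_lit 54) (nat_lit 5) (nat_lit 55) (nat_lit 4) (nat_lit 436) (nat_lit 332) (nat_lit 252)) (XT.lf (nat_lit 0) (nat_lit 2307363020) (nat_lit 152) (nat_lit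 2870729605) (nat_lit 76) (nat_lit 17581432101) (nat_lit 52) (nat_lit 5) (nat_lit 54) (nat_lit 5) (nat_lit 53) (nat_lit 5) (nat_lit 437) (nat_lit 332) (nat_lit 251)))) (XT.nd (nat_lit 156) (nat_lit 304) (nat_lit 0) (XT.nd (nat_lit 78) (nat_lit 0) (nat_lit 0) (XT.lf (nat_lit 0) (nat_lit 8221780448) (nat_lit 228) (nat_lit 13561375025) (nat_lit 76) (nat_lit 1454307229) (nat_lit 50) (nat_lit 5) (nat_lit 53) (nat_lit 5) (nat_lit 51) (nat_lit 4) (nat_lit 438) (nat_lit 332) (nat_lit 250)) (XT.lf (nat_lit 0) (nat_lit 14363534313) (nat_lit 228) (nat_lit 1179251868) (nat_lit 76) (nat_lit 8185457692) (nat_lit 50) (nat_lit 5) (nat_lit 53) (nat_lit 5) (nat_lit 51) (nat_lit 4) (nat_lit 439) (nat_lit 332) (nat_lit 249))) (XT.nd (nat_lit 78) (nat_lit 228) (nat_lit 0) (XT.lf (nat_lit 0) (nat_lit 11748261538) (nat_lit 76) (nat_lit 9024463074) (nat_lit 152) (nat_lit 3458530461) (nat_lit 49) (nat_lit 5) (nat_lit 50) (nat_lit 5) (nat_lit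 51) (nat_lit 4) (nat_lit 440) (nat_lit 332) (nat_lit 248)) (XT.lf (nat_lit 0) (nat_lit 263185733) (nat_lit 152) (nat_lit 2295283254) (nat_lit 228) (nat_lit 22190587017) (nat_lit 46) (nat_lit 5) (nat_lit 48) (nat_lit 5) (nat_lit 49) (nat_lit 5) (nat_lit 441) (nat_lit 332) (nat_lit 247))))))))
noncomputable def xc82 : XT := (XT.nd (nat_lit 2184) (nat_lit 760) (nat_lit 0) (XT.nd (nat_lit 1092) (nat_lit 684) (nat_lit 0) (XT.nd (nat_lit 546) (nat_lit 456) (nat_lit 0) (XT.nd (nat_lit 234) (nat_lit 304) (nat_lit 0) (XT.nd (nat_lit 78) (nat_lit 76) (nat_lit 0) (XT.lf (nat_lit 0) (nat_lit 8828721254) (nat_lit 228) (nat_lit 11766492793) (nat_lit 76) (nat_lit 4681883883) (nat_lit 46) (nat_lit 5) (nat_lit 49) (nat_lit 5) (nat_lit 47) (nat_lit 4) (nat_lit 442) (nat_lit 332) (nat_lit 246)) (XT.nd (nat_lit 78) (nat_lit 0) (nat_lit 0) (XT.lf (nat_lit 0) (nat_lit 1282920318) (nat_lit 76) (nat_lit 14010473105) (nat_lit 152) (nat_lit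 10527400195) (nat_lit 45) (nat_lit 5) (nat_lit 46) (nat_lit 5) (nat_lit 47) (nat_lit 4) (nat_lit 443) (nat_lit 332) (nat_lit 245)) (XT.lf (nat_lit 0) (nat_lit 14911690866) (nat_lit 76) (nat_lit 7130712579) (nat_lit 152) (nat_lit 4335686619) (nat_lit 45) (nat_lit 5) (nat_lit 46) (nat_lit 5) (nat_lit 47) (nat_lit 4) (nat_lit 444) (nat_lit 332) (nat_lit 244)))) (XT.nd (nat_lit 156) (nat_lit 76) (nat_lit 0) (XT.nd (nat_lit 78) (nat_lit 0) (nat_lit 0) (XT.lf (nat_lit 0) (nat_lit 1963579136) (nat_lit 152) (nat_lit 29363942) (nat_lit 228) (nat_lit 24958845022) (nat_lit 42) (nat_lit 5) (nat_lit 44) (nat_lit 5) (nat_lit 45) (nat_lit 5) (nat_lit 445) (nat_lit 332) (nat_lit 243)) (XT.lf (nat_lit 0) (nat_lit 8583463760) (nat_lit 228) (nat_lit 11674230497) (nat_lit 76) (nat_lit 7278941405) (nat_lit 42) (nat_lit 5) (nat_lit 45) (nat_lit 5) (nat_lit 43) (nat_lit 4) (nat_lit 446) (nat_lit 332) (nat_lit 242))) (XT.nd (nat_lit 78)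 (nat_lit 0) (nat_lit 0) (XT.lf (nat_lit 0) (nat_lit 2027556372) (nat_lit 76) (nat_lit 13336946294) (nat_lit 152) (nat_lit 12774743521) (nat_lit 41) (nat_lit 5) (nat_lit 42) (nat_lit 5) (nat_lit 43) (nat_lit 4) (nat_lit 447) (nat_lit 332) (nat_lit 241)) (XT.lf (nat_lit 0) (nat_lit 16329320855) (nat_lit 76) (nat_lit 6110861915) (nat_lit 152) (nat_lit 6317017527) (nat_lit 41) (nat_lit 5) (nat_lit 42) (nat_lit 5) (nat_lit 43) (nat_lit 4) (nat_lit 448) (nat_lit 332) (nat_lit 240))))) (XT.nd (nat_lit 234) (nat_lit 152) (nat_lit 0) (XT.nd (nat_lit 78) (nat_lit 76) (nat_lit 0) (XT.lf (nat_lit 0) (nat_lit 330346550) (nat_lit 228) (nat_lit 27760769677) (nat_lit 76) (nat_lit 1302408864) (nat_lit 38) (nat_lit 5) (nat_lit 41) (nat_lit 5) (nat_lit 39) (nat_lit 4) (nat_lit 449) (nat_lit 332) (nat_lit 239)) (XT.nd (nat_lit 78) (nat_lit 76) (nat_lit 0) (XT.lf (nat_lit 0) (nat_lit 7211320685) (nat_lit 228) (nat_lit 13849008454)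 (nat_lit 76) (nat_lit 8981900937) (nat_lit 38) (nat_lit 5) (nat_lit 41) (nat_lit 5) (nat_lit 39) (nat_lit 4) (nat_lit 450) (nat_lit 332) (nat_lit 238)) (XT.lf (nat_lit 0) (nat_lit 440634508) (nat_lit 76) (nat_lit 13836996627) (nat_lit 152) (nat_lit 16433399255) (nat_lit 37) (nat_lit 5) (nat_lit 38) (nat_lit 5) (nat_lit 39) (nat_lit 4) (nat_lit 451) (nat_lit 332) (nat_lit 237)))) (XT.nd (nat_lit 156) (nat_lit 152) (nat_lit 0) (XT.nd (nat_lit 78) (nat_lit 0) (nat_lit 0) (XT.lf (nat_lit 0) (nat_lit 15395259662) (nat_lit 76) (nat_lit 6275470695) (nat_lit 152) (nat_lit 9725721728) (nat_lit 37) (nat_lit 5) (nat_lit 38) (nat_lit 5) (nat_lit 39) (nat_lit 4) (nat_lit 452) (nat_lit 332) (nat_lit 236)) (XT.lf (nat_lit 0) (nat_lit 29275636226) (nat_lit 152) (nat_lit 1365188059) (nat_lit 0) (nat_lit 1461913050) (nat_lit 37) (nat_lit 5) (nat_lit 39) (nat_lit 4) (nat_lit 37) (nat_lit 4) (nat_lit 453) (nat_lit 332) (nat_lit 235)))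 (XT.nd (nat_lit 78) (nat_lit 0) (nat_lit 0) (XT.lf (nat_lit 0) (nat_lit 4368363456) (nat_lit 152) (nat_lit 18994783051) (nat_lit 76) (nat_lit 9460630838) (nat_lit 35) (nat_lit 5) (nat_lit 37) (nat_lit 5) (nat_lit 36) (nat_lit 4) (nat_lit 454) (nat_lit 332) (nat_lit 234)) (XT.lf (nat_lit 0) (nat_lit 11713004789) (nat_lit 152) (nat_lit 4132576379) (nat_lit 76) (nat_lit 17720324813) (nat_lit 35) (nat_lit 5) (nat_lit 37) (nat_lit 5) (nat_lit 36) (nat_lit 4) (nat_lit 455) (nat_lit 332) (nat_lit 233)))))) (XT.nd (nat_lit 546) (nat_lit 380) (nat_lit 0) (XT.nd (nat_lit 234) (nat_lit 152) (nat_lit 0) (XT.nd (nat_lit 78) (nat_lit 76) (nat_lit 0) (XT.lf (nat_lit 0) (nat_lit 11352954953) (nat_lit 76) (nat_lit 8011067344) (nat_lit 152) (nat_lit 14963696240) (nat_lit 34) (nat_lit 5) (nat_lit 35) (nat_lit 5) (nat_lit 36) (nat_lit 4) (nat_lit 456) (nat_lit 332) (nat_lit 232)) (XT.nd (nat_lit 78) (nat_lit 76) (nat_lit 0) (XT.lf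 (nat_lit 0) (nat_lit 27264235091) (nat_lit 152) (nat_lit 7768475720) (nat_lit 0) (nat_lit 79085849) (nat_lit 34) (nat_lit 5) (nat_lit 36) (nat_lit 4) (nat_lit 34) (nat_lit 4) (nat_lit 457) (nat_lit 332) (nat_lit 231)) (XT.lf (nat_lit 0) (nat_lit 7926510648) (nat_lit 76) (nat_lit 27608085198) (nat_lit 76) (nat_lit 380808135) (nat_lit 33) (nat_lit 4) (nat_lit 34) (nat_lit 5) (nat_lit 34) (nat_lit 4) (nat_lit 458) (nat_lit 332) (nat_lit 230)))) (XT.nd (nat_lit 156) (nat_lit 0) (nat_lit 0) (XT.nd (nat_lit 78) (nat_lit 76) (nat_lit 0) (XT.lf (nat_lit 0) (nat_lit 7224180774) (nat_lit 152) (nat_lit 12603090889) (nat_lit 76) (nat_lit 16912034576) (nat_lit 32) (nat_lit 5) (nat_lit 34) (nat_lit 5) (nat_lit 33) (nat_lit 4) (nat_lit 459) (nat_lit 332) (nat_lit 229)) (XT.lf (nat_lit 0) (nat_lit 3262555067) (nat_lit 76) (nat_lit 11796776184) (nat_lit 152) (nat_lit 22528192236) (nat_lit 31) (nat_lit 5) (nat_lit 32) (nat_lit 5)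 (nat_lit 33) (nat_lit 4) (nat_lit 460) (nat_lit 332) (nat_lit 228))) (XT.nd (nat_lit 78) (nat_lit 0) (nat_lit 0) (XT.lf (nat_lit 0) (nat_lit 19821305108) (nat_lit 76) (nat_lit 3414037457) (nat_lit 152) (nat_lit 15222671477) (nat_lit 31) (nat_lit 5) (nat_lit 32) (nat_lit 5) (nat_lit 33) (nat_lit 4) (nat_lit 461) (nat_lit 332) (nat_lit 227)) (XT.lf (nat_lit 0) (nat_lit 31685794308) (nat_lit 152) (nat_lit 2568438712) (nat_lit 0) (nat_lit 5099512440) (nat_lit 31) (nat_lit 5) (nat_lit 33) (nat_lit 4) (nat_lit 31) (nat_lit 4) (nat_lit 462) (nat_lit 332) (nat_lit 226))))) (XT.nd (nat_lit 234) (nat_lit 152) (nat_lit 0) (XT.nd (nat_lit 78) (nat_lit 76) (nat_lit 0) (XT.lf (nat_lit 0) (nat_lit 262435384) (nat_lit 152) (nat_lit 26088819425) (nat_lit 76) (nat_lit 13920525071) (nat_lit 29) (nat_lit 5) (nat_lit 31) (nat_lit 5) (nat_lit 30) (nat_lit 4) (nat_lit 463) (nat_lit 332) (nat_lit 225)) (XT.nd (nat_lit 78) (nat_lit 76)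 (nat_lit 0) (XT.lf (nat_lit 0) (nat_lit 8282420760) (nat_lit 152) (nat_lit 9842502887) (nat_lit 76) (nat_lit 23089980782) (nat_lit 29) (nat_lit 5) (nat_lit 31) (nat_lit 5) (nat_lit 30) (nat_lit 4) (nat_lit 464) (nat_lit 332) (nat_lit 224)) (XT.lf (nat_lit 0) (nat_lit 6989436288) (nat_lit 76) (nat_lit 9600962436) (nat_lit 152) (nat_lit 25594503043) (nat_lit 28) (nat_lit 5) (nat_lit 29) (nat_lit 5) (nat_lit 30) (nat_lit 4) (nat_lit 465) (nat_lit 332) (nat_lit 223)))) (XT.nd (nat_lit 156) (nat_lit 152) (nat_lit 0) (XT.nd (nat_lit 78) (nat_lit 0) (nat_lit 0) (XT.lf (nat_lit 0) (nat_lit 24490313443) (nat_lit 76) (nat_lit 737112188) (nat_lit 152) (nat_lit 17954179924) (nat_lit 28) (nat_lit 5) (nat_lit 29) (nat_lit 5) (nat_lit 30) (nat_lit 4) (nat_lit 466) (nat_lit 332) (nat_lit 222)) (XT.lf (nat_lit 0) (nat_lit 34185058726) (nat_lit 152) (nat_lit 1809751510) (nat_lit 0) (nat_lit 8211556156) (nat_lit 28) (nat_lit 5) (nat_lit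 30) (nat_lit 4) (nat_lit 28) (nat_lit 4) (nat_lit 467) (nat_lit 332) (nat_lit 221))) (XT.nd (nat_lit 78) (nat_lit 76) (nat_lit 0) (XT.lf (nat_lit 0) (nat_lit 15844110262) (nat_lit 76) (nat_lit 27708290668) (nat_lit 76) (nat_lit 1705240492) (nat_lit 27) (nat_lit 4) (nat_lit 28) (nat_lit 5) (nat_lit 28) (nat_lit 4) (nat_lit 468) (nat_lit 332) (nat_lit 220)) (XT.lf (nat_lit 0) (nat_lit 6726290499) (nat_lit 152) (nat_lit 12377367459) (nat_lit 76) (nat_lit 27234823574) (nat_lit 26) (nat_lit 5) (nat_lit 28) (nat_lit 5) (nat_lit 27) (nat_lit 4) (nat_lit 469) (nat_lit 332) (nat_lit 219))))))) (XT.nd (nat_lit 1092) (nat_lit 228) (nat_lit 0) (XT.nd (nat_lit 546) (nat_lit 228) (nat_lit 0) (XT.nd (nat_lit 234) (nat_lit 228) (nat_lit 0) (XT.nd (nat_lit 78) (nat_lit 0) (nat_lit 0) (XT.lf (nat_lit 0) (nat_lit 5219884884) (nat_lit 76) (nat_lit 10188722756) (nat_lit 152) (nat_lit 32041669988) (nat_lit 25) (nat_lit 5) (nat_lit 26)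 (nat_lit 5) (nat_lit 27) (nat_lit 4) (nat_lit 470) (nat_lit 332) (nat_lit 218)) (XT.nd (nat_lit 78) (nat_lit 0) (nat_lit 0) (XT.lf (nat_lit 0) (nat_lit 23564150099) (nat_lit 76) (nat_lit 894361709) (nat_lit 152) (nat_lit 24133702960) (nat_lit 25) (nat_lit 5) (nat_lit 26) (nat_lit 5) (nat_lit 27) (nat_lit 4) (nat_lit 471) (nat_lit 332) (nat_lit 217)) (XT.lf (nat_lit 0) (nat_lit 33845833766) (nat_lit 152) (nat_lit 7427077712) (nat_lit 0) (nat_lit 8493521592) (nat_lit 25) (nat_lit 5) (nat_lit 27) (nat_lit 4) (nat_lit 25) (nat_lit 4) (nat_lit 472) (nat_lit 332) (nat_lit 216)))) (XT.nd (nat_lit 156) (nat_lit 76) (nat_lit 0) (XT.nd (nat_lit 78) (nat_lit 76) (nat_lit 0) (XT.lf (nat_lit 0) (nat_lit 10872245573) (nat_lit 76) (nat_lit 32738899860) (nat_lit 76) (nat_lit 7361842030) (nat_lit 24) (nat_lit 4) (nat_lit 25) (nat_lit 5) (nat_lit 25) (nat_lit 4) (nat_lit 473) (nat_lit 332) (nat_lit 215)) (XT.lf (nat_lit 0) (nat_lit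 1484071128) (nat_lit 152) (nat_lit 22388418347) (nat_lit 76) (nat_lit 28341067624) (nat_lit 23) (nat_lit 5) (nat_lit 25) (nat_lit 5) (nat_lit 24) (nat_lit 4) (nat_lit 474) (nat_lit 332) (nat_lit 214))) (XT.nd (nat_lit 78) (nat_lit 76) (nat_lit 0) (XT.lf (nat_lit 0) (nat_lit 10430908736) (nat_lit 152) (nat_lit 4249663155) (nat_lit 76) (nat_lit 38809080455) (nat_lit 23) (nat_lit 5) (nat_lit 25) (nat_lit 5) (nat_lit 24) (nat_lit 4) (nat_lit 475) (nat_lit 332) (nat_lit 213)) (XT.lf (nat_lit 0) (nat_lit 14688770429) (nat_lit 76) (nat_lit 5082571492) (nat_lit 152) (nat_lit 35028933392) (nat_lit 22) (nat_lit 5) (nat_lit 23) (nat_lit 5) (nat_lit 24) (nat_lit 4) (nat_lit 476) (nat_lit 332) (nat_lit 212))))) (XT.nd (nat_lit 234) (nat_lit 152) (nat_lit 0) (XT.nd (nat_lit 78) (nat_lit 76) (nat_lit 0) (XT.lf (nat_lit 0) (nat_lit 29465518300) (nat_lit 152) (nat_lit 21944198190) (nat_lit 0) (nat_lit 4738295129) (nat_lit 22) (nat_lit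 5) (nat_lit 24) (nat_lit 4) (nat_lit 22) (nat_lit 4) (nat_lit 477) (nat_lit 332) (nat_lit 211)) (XT.nd (nat_lit 78) (nat_lit 76) (nat_lit 0) (XT.lf (nat_lit 0) (nat_lit 39485327052) (nat_lit 152) (nat_lit 3312429510) (nat_lit 0) (nat_lit 14737379783) (nat_lit 22) (nat_lit 5) (nat_lit 24) (nat_lit 4) (nat_lit 22) (nat_lit 4) (nat_lit 478) (nat_lit 332) (nat_lit 210)) (XT.lf (nat_lit 0) (nat_lit 16164363075) (nat_lit 76) (nat_lit 33781685233) (nat_lit 76) (nat_lit 9013617482) (nat_lit 21) (nat_lit 4) (nat_lit 22) (nat_lit 5) (nat_lit 22) (nat_lit 4) (nat_lit 479) (nat_lit 332) (nat_lit 209)))) (XT.nd (nat_lit 156) (nat_lit 76) (nat_lit 0) (XT.nd (nat_lit 78) (nat_lit 0) (nat_lit 0) (XT.lf (nat_lit 0) (nat_lit 306657708) (nat_lit 152) (nat_lit 24165087051) (nat_lit 76) (nat_lit 35954540330) (nat_lit 20) (nat_lit 5) (nat_lit 22) (nat_lit 5) (nat_lit 21) (nat_lit 4) (nat_lit 480) (nat_lit 332) (nat_lit 208)) (XT.lf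 (nat_lit 0) (nat_lit 9710762552) (nat_lit 152) (nat_lit 5093719703) (nat_lit 76) (nat_lit 47130182296) (nat_lit 20) (nat_lit 5) (nat_lit 22) (nat_lit 5) (nat_lit 21) (nat_lit 4) (nat_lit 481) (nat_lit 332) (nat_lit 207))) (XT.nd (nat_lit 78) (nat_lit 0) (nat_lit 0) (XT.lf (nat_lit 0) (nat_lit 14811126459) (nat_lit 76) (nat_lit 4714049518) (nat_lit 152) (nat_lit 43959274322) (nat_lit 19) (nat_lit 5) (nat_lit 20) (nat_lit 5) (nat_lit 21) (nat_lit 4) (nat_lit 482) (nat_lit 332) (nat_lit 206)) (XT.lf (nat_lit 0) (nat_lit 29726391682) (nat_lit 152) (nat_lit 29744454805) (nat_lit 0) (nat_lit 5607112493) (nat_lit 19) (nat_lit 5) (nat_lit 21) (nat_lit 4) (nat_lit 19) (nat_lit 4) (nat_lit 483) (nat_lit 332) (nat_lit 205)))))) (XT.nd (nat_lit 42978) (nat_lit 0) (nat_lit 22724) (XT.nd (nat_lit 234) (nat_lit 152) (nat_lit 0) (XT.nd (nat_lit 78) (nat_lit 76) (nat_lit 0) (XT.lf (nat_lit 0) (nat_lit 40266563316) (nat_lit 152)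 (nat_lit 10321288918) (nat_lit 0) (nat_lit 16130433540) (nat_lit 19) (nat_lit 5) (nat_lit 21) (nat_lit 4) (nat_lit 19) (nat_lit 4) (nat_lit 484) (nat_lit 332) (nat_lit 204)) (XT.nd (nat_lit 78) (nat_lit 0) (nat_lit 0) (XT.lf (nat_lit 0) (nat_lit 9850682132) (nat_lit 76) (nat_lit 41353595063) (nat_lit 76) (nat_lit 17201105493) (nat_lit 18) (nat_lit 4) (nat_lit 19) (nat_lit 5) (nat_lit 19) (nat_lit 4) (nat_lit 485) (nat_lit 332) (nat_lit 203)) (XT.lf (nat_lit 0) (nat_lit 30813532519) (nat_lit 76) (nat_lit 31747601463) (nat_lit 76) (nat_lit 7579228598) (nat_lit 18) (nat_lit 4) (nat_lit 19) (nat_lit 5) (nat_lit 19) (nat_lit 4) (nat_lit 486) (nat_lit 332) (nat_lit 202)))) (XT.nd (nat_lit 156) (nat_lit 0) (nat_lit 0) (XT.nd (nat_lit 78) (nat_lit 76) (nat_lit 0) (XT.lf (nat_lit 0) (nat_lit 2272856607) (nat_lit 152) (nat_lit 19569894625) (nat_lit 76) (nat_lit 50084357406) (nat_lit 17) (nat_lit 5) (nat_lit 19) (nat_lit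 5) (nat_lit 18) (nat_lit 4) (nat_lit 487) (nat_lit 332) (nat_lit 201)) (XT.lf (nat_lit 0) (nat_lit 693619450) (nat_lit 76) (nat_lit 11568638932) (nat_lit 152) (nat_lit 61503125148) (nat_lit 16) (nat_lit 5) (nat_lit 17) (nat_lit 5) (nat_lit 18) (nat_lit 4) (nat_lit 488) (nat_lit 332) (nat_lit 200))) (XT.nd (nat_lit 78) (nat_lit 0) (nat_lit 0) (XT.lf (nat_lit 0) (nat_lit 21941821430) (nat_lit 76) (nat_lit 794691851) (nat_lit 152) (nat_lit 52916738626) (nat_lit 16) (nat_lit 5) (nat_lit 17) (nat_lit 5) (nat_lit 18) (nat_lit 4) (nat_lit 489) (nat_lit 332) (nat_lit 199)) (XT.lf (nat_lit 0) (nat_lit 33611834150) (nat_lit 152) (nat_lit 33893243081) (nat_lit 0) (nat_lit 10090074311) (nat_lit 16) (nat_lit 5) (nat_lit 18) (nat_lit 4) (nat_lit 16) (nat_lit 4) (nat_lit 490) (nat_lit 332) (nat_lit 198))))) (XT.nd (nat_lit 312) (nat_lit 2660) (nat_lit 0) (XT.nd (nat_lit 156) (nat_lit 760) (nat_lit 0) (XT.nd (nat_lit 78) (nat_lit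 684) (nat_lit 0) (XT.lf (nat_lit 0) (nat_lit 2950006732) (nat_lit 532) (nat_lit 188269842) (nat_lit 532) (nat_lit 188269842) (nat_lit 369) (nat_lit 4) (nat_lit 376) (nat_lit 5) (nat_lit 376) (nat_lit 4) (nat_lit 354) (nat_lit 333) (nat_lit 333)) (XT.lf (nat_lit 0) (nat_lit 2858223680) (nat_lit 684) (nat_lit 3179802686) (nat_lit 0) (nat_lit 646366302) (nat_lit 360) (nat_lit 5) (nat_lit 369) (nat_lit 4) (nat_lit 360) (nat_lit 4) (nat_lit 355) (nat_lit 333) (nat_lit 332))) (XT.nd (nat_lit 78) (nat_lit 76) (nat_lit 0) (XT.lf (nat_lit 0) (nat_lit 1117178660) (nat_lit 684) (nat_lit 4980614445) (nat_lit 684) (nat_lit 621322719) (nat_lit 351) (nat_lit 4) (nat_lit 360) (nat_lit 5) (nat_lit 360) (nat_lit 4) (nat_lit 356) (nat_lit 333) (nat_lit 331)) (XT.lf (nat_lit 0) (nat_lit 2554194007) (nat_lit 760) (nat_lit 1259165605) (nat_lit 76) (nat_lit 2942996735) (nat_lit 350) (nat_lit 5) (nat_lit 360) (nat_lit 5) (nat_lit 351)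 (nat_lit 4) (nat_lit 357) (nat_lit 333) (nat_lit 330)))) (XT.nd (nat_lit 156) (nat_lit 988) (nat_lit 0) (XT.nd (nat_lit 78) (nat_lit 912) (nat_lit 0) (XT.lf (nat_lit 0) (nat_lit 3185010777) (nat_lit 760) (nat_lit 2555557227) (nat_lit 836) (nat_lit 1056170484) (nat_lit 340) (nat_lit 5) (nat_lit 350) (nat_lit 5) (nat_lit 351) (nat_lit 4) (nat_lit 358) (nat_lit 333) (nat_lit 329)) (XT.lf (nat_lit 0) (nat_lit 859919859) (nat_lit 836) (nat_lit 1201366260) (nat_lit 912) (nat_lit 4778873295) (nat_lit 328) (nat_lit 5) (nat_lit 339) (nat_lit 5) (nat_lit 340) (nat_lit 5) (nat_lit 359) (nat_lit 333) (nat_lit 328))) (XT.nd (nat_lit 78) (nat_lit 988) (nat_lit 0) (XT.lf (nat_lit 0) (nat_lit 5190598362) (nat_lit 912) (nat_lit 1445140187) (nat_lit 76) (nat_lit 250690896) (nat_lit 328) (nat_lit 5) (nat_lit 340) (nat_lit 5) (nat_lit 329) (nat_lit 4) (nat_lit 360) (nat_lit 333) (nat_lit 327)) (XT.lf (nat_lit 0) (nat_lit 1396571063)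 (nat_lit 988) (nat_lit 3758911167) (nat_lit 76) (nat_lit 1779850632) (nat_lit 315) (nat_lit 5) (nat_lit 328) (nat_lit 5) (nat_lit 316) (nat_lit 5) (nat_lit 361) (nat_lit 333) (nat_lit 326))))))))
noncomputable def xc83 : XT := (XT.nd (nat_lit 2262) (nat_lit 5244) (nat_lit 0) (XT.nd (nat_lit 1092) (nat_lit 4636) (nat_lit 0) (XT.nd (nat_lit 546) (nat_lit 2888) (nat_lit 0) (XT.nd (nat_lit 234) (nat_lit 3192) (nat_lit 0) (XT.nd (nat_lit 78) (nat_lit 1140) (nat_lit 0) (XT.lf (nat_lit 0) (nat_lit 894561600) (nat_lit 988) (nat_lit 3581200416) (nat_lit 1064) (nat_lit 2511637616) (nat_lit 302) (nat_lit 5) (nat_lit 315) (nat_lit 5) (nat_lit 316) (nat_lit 5) (nat_lit 362) (nat_lit 333) (nat_lit 325)) (XT.nd (nat_lit 78) (nat_lit 1064) (nat_lit 0) (XT.lf (nat_lit 0) (nat_lit 538548915) (nat_lit 1064) (nat_lit 1369413438) (nat_lit 76) (nat_lit 5134609348) (nat_lit 301) (nat_lit 5) (nat_lit 315) (nat_lit 5) (nat_lit 302) (nat_lit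 5) (nat_lit 363) (nat_lit 333) (nat_lit 324)) (XT.lf (nat_lit 0) (nat_lit 3452773346) (nat_lit 1064) (nat_lit 118667966) (nat_lit 1140) (nat_lit 3529000488) (nat_lit 287) (nat_lit 5) (nat_lit 301) (nat_lit 5) (nat_lit 302) (nat_lit 5) (nat_lit 364) (nat_lit 333) (nat_lit 323)))) (XT.nd (nat_lit 156) (nat_lit 1976) (nat_lit 0) (XT.nd (nat_lit 78) (nat_lit 76) (nat_lit 0) (XT.lf (nat_lit 0) (nat_lit 1207527884) (nat_lit 1140) (nat_lit 5440332467) (nat_lit 1216) (nat_lit 513649662) (nat_lit 272) (nat_lit 5) (nat_lit 287) (nat_lit 5) (nat_lit 288) (nat_lit 5) (nat_lit 365) (nat_lit 333) (nat_lit 322)) (XT.lf (nat_lit 0) (nat_lit 2491217377) (nat_lit 1216) (nat_lit 1054941417) (nat_lit 76) (nat_lit 3679050822) (nat_lit 271) (nat_lit 5) (nat_lit 287) (nat_lit 5) (nat_lit 272) (nat_lit 5) (nat_lit 366) (nat_lit 333) (nat_lit 321))) (XT.nd (nat_lit 78) (nat_lit 760) (nat_lit 0) (XT.lf (nat_lit 0) (nat_lit 3977846953) (nat_lit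 1216) (nat_lit 1550145834) (nat_lit 1292) (nat_lit 1764147228) (nat_lit 255) (nat_lit 5) (nat_lit 271) (nat_lit 5) (nat_lit 272) (nat_lit 5) (nat_lit 367) (nat_lit 333) (nat_lit 320)) (XT.lf (nat_lit 0) (nat_lit 1217098344) (nat_lit 760) (nat_lit 5610134006) (nat_lit 76) (nat_lit 535078402) (nat_lit 245) (nat_lit 5) (nat_lit 255) (nat_lit 5) (nat_lit 246) (nat_lit 5) (nat_lit 368) (nat_lit 333) (nat_lit 319))))) (XT.nd (nat_lit 234) (nat_lit 1596) (nat_lit 0) (XT.nd (nat_lit 78) (nat_lit 1292) (nat_lit 0) (XT.lf (nat_lit 0) (nat_lit 4217783046) (nat_lit 760) (nat_lit 516470715) (nat_lit 76) (nat_lit 2700877063) (nat_lit 245) (nat_lit 5) (nat_lit 255) (nat_lit 5) (nat_lit 246) (nat_lit 5) (nat_lit 369) (nat_lit 333) (nat_lit 318)) (XT.nd (nat_lit 78) (nat_lit 684) (nat_lit 0) (XT.lf (nat_lit 0) (nat_lit 4736682305) (nat_lit 608) (nat_lit 2536087552) (nat_lit 684) (nat_lit 238468257) (nat_lit 237) (nat_lit 5) (nat_lit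 245) (nat_lit 5) (nat_lit 246) (nat_lit 5) (nat_lit 370) (nat_lit 333) (nat_lit 317)) (XT.lf (nat_lit 0) (nat_lit 2503605080) (nat_lit 608) (nat_lit 219767891) (nat_lit 684) (nat_lit 4867004451) (nat_lit 228) (nat_lit 5) (nat_lit 236) (nat_lit 5) (nat_lit 237) (nat_lit 5) (nat_lit 371) (nat_lit 333) (nat_lit 316)))) (XT.nd (nat_lit 156) (nat_lit 988) (nat_lit 0) (XT.nd (nat_lit 78) (nat_lit 76) (nat_lit 0) (XT.lf (nat_lit 0) (nat_lit 218717748) (nat_lit 532) (nat_lit 5522715883) (nat_lit 608) (nat_lit 1931250160) (nat_lit 221) (nat_lit 5) (nat_lit 228) (nat_lit 5) (nat_lit 229) (nat_lit 5) (nat_lit 372) (nat_lit 333) (nat_lit 315)) (XT.lf (nat_lit 0) (nat_lit 1046915556) (nat_lit 608) (nat_lit 2070209452) (nat_lit 76) (nat_lit 4640776298) (nat_lit 220) (nat_lit 5) (nat_lit 228) (nat_lit 5) (nat_lit 221) (nat_lit 5) (nat_lit 373) (nat_lit 333) (nat_lit 314))) (XT.nd (nat_lit 78) (nat_lit 456) (nat_lit 0) (XT.lf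 (nat_lit 0) (nat_lit 3436838137) (nat_lit 532) (nat_lit 595700124) (nat_lit 608) (nat_lit 3813881613) (nat_lit 213) (nat_lit 5) (nat_lit 220) (nat_lit 5) (nat_lit 221) (nat_lit 5) (nat_lit 374) (nat_lit 333) (nat_lit 313)) (XT.lf (nat_lit 0) (nat_lit 1129680975) (nat_lit 456) (nat_lit 5954444136) (nat_lit 532) (nat_lit 854202283) (nat_lit 207) (nat_lit 5) (nat_lit 213) (nat_lit 5) (nat_lit 214) (nat_lit 5) (nat_lit 375) (nat_lit 333) (nat_lit 312)))))) (XT.nd (nat_lit 546) (nat_lit 2052) (nat_lit 0) (XT.nd (nat_lit 234) (nat_lit 1444) (nat_lit 0) (XT.nd (nat_lit 78) (nat_lit 1064) (nat_lit 0) (XT.lf (nat_lit 0) (nat_lit 2128097145) (nat_lit 532) (nat_lit 1221702763) (nat_lit 76) (nat_lit 4683283827) (nat_lit 206) (nat_lit 5) (nat_lit 213) (nat_lit 5) (nat_lit 207) (nat_lit 5) (nat_lit 376) (nat_lit 333) (nat_lit 311)) (XT.nd (nat_lit 78) (nat_lit 532) (nat_lit 0) (XT.lf (nat_lit 0) (nat_lit 4527171421) (nat_lit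 532) (nat_lit 626985940) (nat_lit 608) (nat_lit 2977150985) (nat_lit 199) (nat_lit 5) (nat_lit 206) (nat_lit 5) (nat_lit 207) (nat_lit 5) (nat_lit 377) (nat_lit 333) (nat_lit 310)) (XT.lf (nat_lit 0) (nat_lit 20983174) (nat_lit 532) (nat_lit 6057084069) (nat_lit 76) (nat_lit 2154926676) (nat_lit 192) (nat_lit 5) (nat_lit 199) (nat_lit 5) (nat_lit 193) (nat_lit 5) (nat_lit 378) (nat_lit 333) (nat_lit 309)))) (XT.nd (nat_lit 156) (nat_lit 988) (nat_lit 0) (XT.nd (nat_lit 78) (nat_lit 456) (nat_lit 0) (XT.lf (nat_lit 0) (nat_lit 3021807705) (nat_lit 532) (nat_lit 256749726) (nat_lit 76) (nat_lit 5059131955) (nat_lit 192) (nat_lit 5) (nat_lit 199) (nat_lit 5) (nat_lit 193) (nat_lit 5) (nat_lit 379) (nat_lit 333) (nat_lit 308)) (XT.lf (nat_lit 0) (nat_lit 5744935986) (nat_lit 456) (nat_lit 354615983) (nat_lit 532) (nat_lit 2346387436) (nat_lit 186) (nat_lit 5) (nat_lit 192) (nat_lit 5) (nat_lit 193) (nat_lit 5) (nat_lit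 380) (nat_lit 333) (nat_lit 307))) (XT.nd (nat_lit 78) (nat_lit 456) (nat_lit 0) (XT.lf (nat_lit 0) (nat_lit 691048638) (nat_lit 532) (nat_lit 5236297880) (nat_lit 76) (nat_lit 2630121753) (nat_lit 179) (nat_lit 5) (nat_lit 186) (nat_lit 5) (nat_lit 180) (nat_lit 5) (nat_lit 381) (nat_lit 333) (nat_lit 306)) (XT.lf (nat_lit 0) (nat_lit 810339831) (nat_lit 456) (nat_lit 2934116075) (nat_lit 532) (nat_lit 4928048696) (nat_lit 173) (nat_lit 5) (nat_lit 179) (nat_lit 5) (nat_lit 180) (nat_lit 5) (nat_lit 382) (nat_lit 333) (nat_lit 305))))) (XT.nd (nat_lit 312) (nat_lit 1216) (nat_lit 0) (XT.nd (nat_lit 156) (nat_lit 380) (nat_lit 0) (XT.nd (nat_lit 78) (nat_lit 456) (nat_lit 0) (XT.lf (nat_lit 0) (nat_lit 6878394715) (nat_lit 532) (nat_lit 1732911301) (nat_lit 76) (nat_lit 180036376) (nat_lit 173) (nat_lit 5) (nat_lit 180) (nat_lit 5) (nat_lit 174) (nat_lit 5) (nat_lit 383) (nat_lit 333) (nat_lit 304)) (XT.lf (nat_lit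 0) (nat_lit 1178261474) (nat_lit 456) (nat_lit 4369713307) (nat_lit 76) (nat_lit 3365175996) (nat_lit 167) (nat_lit 5) (nat_lit 173) (nat_lit 5) (nat_lit 168) (nat_lit 5) (nat_lit 384) (nat_lit 333) (nat_lit 303))) (XT.nd (nat_lit 78) (nat_lit 0) (nat_lit 0) (XT.lf (nat_lit 0) (nat_lit 1939060298) (nat_lit 380) (nat_lit 2357444688) (nat_lit 456) (nat_lit 4742374533) (nat_lit 162) (nat_lit 5) (nat_lit 167) (nat_lit 5) (nat_lit 168) (nat_lit 5) (nat_lit 385) (nat_lit 333) (nat_lit 302)) (XT.lf (nat_lit 0) (nat_lit 7499052147) (nat_lit 456) (nat_lit 735772345) (nat_lit 76) (nat_lit 933849151) (nat_lit 162) (nat_lit 5) (nat_lit 168) (nat_lit 5) (nat_lit 163) (nat_lit 5) (nat_lit 386) (nat_lit 333) (nat_lit 301)))) (XT.nd (nat_lit 156) (nat_lit 380) (nat_lit 0) (XT.nd (nat_lit 78) (nat_lit 380) (nat_lit 0) (XT.lf (nat_lit 0) (nat_lit 1484739552) (nat_lit 456) (nat_lit 3490356194) (nat_lit 76) (nat_lit 4326291780) (nat_lit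 156) (nat_lit 5) (nat_lit 162) (nat_lit 5) (nat_lit 157) (nat_lit 5) (nat_lit 387) (nat_lit 333) (nat_lit 300)) (XT.lf (nat_lit 0) (nat_lit 3091260808) (nat_lit 380) (nat_lit 1585595037) (nat_lit 456) (nat_lit 4761445424) (nat_lit 151) (nat_lit 5) (nat_lit 156) (nat_lit 5) (nat_lit 157) (nat_lit 5) (nat_lit 388) (nat_lit 333) (nat_lit 299))) (XT.nd (nat_lit 78) (nat_lit 76) (nat_lit 0) (XT.lf (nat_lit 0) (nat_lit 265452540) (nat_lit 304) (nat_lit 7695949153) (nat_lit 380) (nat_lit 1618035154) (nat_lit 147) (nat_lit 5) (nat_lit 151) (nat_lit 5) (nat_lit 152) (nat_lit 5) (nat_lit 389) (nat_lit 333) (nat_lit 298)) (XT.lf (nat_lit 0) (nat_lit 1609039092) (nat_lit 380) (nat_lit 2633395835) (nat_lit 76) (nat_lit 5481289042) (nat_lit 146) (nat_lit 5) (nat_lit 151) (nat_lit 5) (nat_lit 147) (nat_lit 5) (nat_lit 390) (nat_lit 333) (nat_lit 297))))))) (XT.nd (nat_lit 1092) (nat_lit 2128) (nat_lit 0) (XT.nd (nat_lit 546)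 (nat_lit 1368) (nat_lit 0) (XT.nd (nat_lit 234) (nat_lit 988) (nat_lit 0) (XT.nd (nat_lit 78) (nat_lit 380) (nat_lit 0) (XT.lf (nat_lit 0) (nat_lit 4231603097) (nat_lit 380) (nat_lit 651751335) (nat_lit 456) (nat_lit 4989029355) (nat_lit 141) (nat_lit 5) (nat_lit 146) (nat_lit 5) (nat_lit 147) (nat_lit 5) (nat_lit 391) (nat_lit 333) (nat_lit 296)) (XT.nd (nat_lit 78) (nat_lit 76) (nat_lit 0) (XT.lf (nat_lit 0) (nat_lit 1243310645) (nat_lit 304) (nat_lit 7023610755) (nat_lit 380) (nat_lit 1758264133) (nat_lit 137) (nat_lit 5) (nat_lit 141) (nat_lit 5) (nat_lit 142) (nat_lit 5) (nat_lit 392) (nat_lit 333) (nat_lit 295)) (XT.lf (nat_lit 0) (nat_lit 1546007120) (nat_lit 380) (nat_lit 1836966079) (nat_lit 76) (nat_lit 6798941362) (nat_lit 136) (nat_lit 5) (nat_lit 141) (nat_lit 5) (nat_lit 137) (nat_lit 5) (nat_lit 393) (nat_lit 333) (nat_lit 294)))) (XT.nd (nat_lit 156) (nat_lit 380) (nat_lit 0) (XT.nd (nat_lit 78)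 (nat_lit 304) (nat_lit 0) (XT.lf (nat_lit 0) (nat_lit 4914061114) (nat_lit 380) (nat_lit 5025306142) (nat_lit 76) (nat_lit 403467841) (nat_lit 132) (nat_lit 5) (nat_lit 137) (nat_lit 5) (nat_lit 133) (nat_lit 5) (nat_lit 394) (nat_lit 333) (nat_lit 293)) (XT.lf (nat_lit 0) (nat_lit 2142705452) (nat_lit 304) (nat_lit 6258743197) (nat_lit 380) (nat_lit 2106597212) (nat_lit 128) (nat_lit 5) (nat_lit 132) (nat_lit 5) (nat_lit 133) (nat_lit 5) (nat_lit 395) (nat_lit 333) (nat_lit 292))) (XT.nd (nat_lit 78) (nat_lit 304) (nat_lit 0) (XT.lf (nat_lit 0) (nat_lit 1286562406) (nat_lit 380) (nat_lit 1143070366) (nat_lit 76) (nat_lit 8248302125) (nat_lit 127) (nat_lit 5) (nat_lit 132) (nat_lit 5) (nat_lit 128) (nat_lit 5) (nat_lit 396) (nat_lit 333) (nat_lit 291)) (XT.lf (nat_lit 0) (nat_lit 4762336394) (nat_lit 380) (nat_lit 4548475822) (nat_lit 76) (nat_lit 1540798270) (nat_lit 123) (nat_lit 5) (nat_lit 128) (nat_lit 5)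 (nat_lit 124) (nat_lit 5) (nat_lit 397) (nat_lit 333) (nat_lit 290))))) (XT.nd (nat_lit 234) (nat_lit 760) (nat_lit 0) (XT.nd (nat_lit 78) (nat_lit 380) (nat_lit 0) (XT.lf (nat_lit 0) (nat_lit 2918645759) (nat_lit 228) (nat_lit 5435339394) (nat_lit 304) (nat_lit 2676173245) (nat_lit 120) (nat_lit 5) (nat_lit 123) (nat_lit 5) (nat_lit 124) (nat_lit 5) (nat_lit 398) (nat_lit 333) (nat_lit 289)) (XT.nd (nat_lit 78) (nat_lit 304) (nat_lit 0) (XT.lf (nat_lit 0) (nat_lit 817398770) (nat_lit 304) (nat_lit 598589730) (nat_lit 76) (nat_lit 9798008040) (nat_lit 119) (nat_lit 5) (nat_lit 123) (nat_lit 5) (nat_lit 120) (nat_lit 5) (nat_lit 399) (nat_lit 333) (nat_lit 288)) (XT.lf (nat_lit 0) (nat_lit 4407408784) (nat_lit 380) (nat_lit 4253694110) (nat_lit 76) (nat_lit 2740098695) (nat_lit 115) (nat_lit 5) (nat_lit 120) (nat_lit 5) (nat_lit 116) (nat_lit 5) (nat_lit 400) (nat_lit 333) (nat_lit 287)))) (XT.nd (nat_lit 156) (nat_lit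 456) (nat_lit 0) (XT.nd (nat_lit 78) (nat_lit 76) (nat_lit 0) (XT.lf (nat_lit 0) (nat_lit 3520505244) (nat_lit 228) (nat_lit 4588622677) (nat_lit 304) (nat_lit 3484783582) (nat_lit 112) (nat_lit 5) (nat_lit 115) (nat_lit 5) (nat_lit 116) (nat_lit 5) (nat_lit 401) (nat_lit 333) (nat_lit 286)) (XT.lf (nat_lit 0) (nat_lit 120603110) (nat_lit 304) (nat_lit 256415238) (nat_lit 76) (nat_lit 11415546459) (nat_lit 111) (nat_lit 5) (nat_lit 115) (nat_lit 5) (nat_lit 112) (nat_lit 5) (nat_lit 402) (nat_lit 333) (nat_lit 285))) (XT.nd (nat_lit 78) (nat_lit 228) (nat_lit 0) (XT.lf (nat_lit 0) (nat_lit 3830040605) (nat_lit 304) (nat_lit 4197183889) (nat_lit 76) (nat_lit 3966948449) (nat_lit 108) (nat_lit 5) (nat_lit 112) (nat_lit 5) (nat_lit 109) (nat_lit 5) (nat_lit 403) (nat_lit 333) (nat_lit 284)) (XT.lf (nat_lit 0) (nat_lit 3890783774) (nat_lit 228) (nat_lit 3755838364) (nat_lit 304) (nat_lit 4555339333) (nat_lit 105) (nat_lit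 5) (nat_lit 108) (nat_lit 5) (nat_lit 109) (nat_lit 5) (nat_lit 404) (nat_lit 333) (nat_lit 283)))))) (XT.nd (nat_lit 546) (nat_lit 1140) (nat_lit 0) (XT.nd (nat_lit 234) (nat_lit 456) (nat_lit 0) (XT.nd (nat_lit 78) (nat_lit 532) (nat_lit 0) (XT.lf (nat_lit 0) (nat_lit 11579189324) (nat_lit 304) (nat_lit 191164648) (nat_lit 76) (nat_lit 645592781) (nat_lit 105) (nat_lit 5) (nat_lit 109) (nat_lit 5) (nat_lit 106) (nat_lit 5) (nat_lit 405) (nat_lit 333) (nat_lit 282)) (XT.nd (nat_lit 78) (nat_lit 228) (nat_lit 0) (XT.lf (nat_lit 0) (nat_lit 3005746591) (nat_lit 304) (nat_lit 4443070931) (nat_lit 76) (nat_lit 5184554853) (nat_lit 101) (nat_lit 5) (nat_lit 105) (nat_lit 5) (nat_lit 102) (nat_lit 5) (nat_lit 406) (nat_lit 333) (nat_lit 281)) (XT.lf (nat_lit 0) (nat_lit 3963700338) (nat_lit 228) (nat_lit 2977111296) (nat_lit 304) (nat_lit 5916444559) (nat_lit 98) (nat_lit 5) (nat_lit 101) (nat_lit 5) (nat_lit 102) (nat_lit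 5) (nat_lit 407) (nat_lit 333) (nat_lit 280)))) (XT.nd (nat_lit 156) (nat_lit 152) (nat_lit 0) (XT.nd (nat_lit 78) (nat_lit 304) (nat_lit 0) (XT.lf (nat_lit 0) (nat_lit 11009290758) (nat_lit 304) (nat_lit 464416258) (nat_lit 76) (nat_lit 1613695525) (nat_lit 98) (nat_lit 5) (nat_lit 102) (nat_lit 5) (nat_lit 99) (nat_lit 5) (nat_lit 408) (nat_lit 333) (nat_lit 279)) (XT.lf (nat_lit 0) (nat_lit 1904166587) (nat_lit 304) (nat_lit 5064922301) (nat_lit 76) (nat_lit 6352868334) (nat_lit 94) (nat_lit 5) (nat_lit 98) (nat_lit 5) (nat_lit 95) (nat_lit 5) (nat_lit 409) (nat_lit 333) (nat_lit 278))) (XT.nd (nat_lit 78) (nat_lit 0) (nat_lit 0) (XT.lf (nat_lit 0) (nat_lit 3663586970) (nat_lit 152) (nat_lit 2296386991) (nat_lit 228) (nat_lit 7603088757) (nat_lit 92) (nat_lit 5) (nat_lit 94) (nat_lit 5) (nat_lit 95) (nat_lit 5) (nat_lit 410) (nat_lit 333) (nat_lit 277)) (XT.lf (nat_lit 0) (nat_lit 10169477766) (nat_lit 228)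 (nat_lit 1150619078) (nat_lit 76) (nat_lit 2490349983) (nat_lit 92) (nat_lit 5) (nat_lit 95) (nat_lit 5) (nat_lit 93) (nat_lit 5) (nat_lit 411) (nat_lit 333) (nat_lit 276))))) (XT.nd (nat_lit 312) (nat_lit 456) (nat_lit 0) (XT.nd (nat_lit 156) (nat_lit 228) (nat_lit 0) (XT.nd (nat_lit 78) (nat_lit 152) (nat_lit 0) (XT.lf (nat_lit 0) (nat_lit 488312685) (nat_lit 304) (nat_lit 6147507279) (nat_lit 76) (nat_lit 7427604824) (nat_lit 88) (nat_lit 5) (nat_lit 92) (nat_lit 5) (nat_lit 89) (nat_lit 5) (nat_lit 412) (nat_lit 333) (nat_lit 275)) (XT.lf (nat_lit 0) (nat_lit 2903048541) (nat_lit 152) (nat_lit 1762476104) (nat_lit 228) (nat_lit 9657474611) (nat_lit 86) (nat_lit 5) (nat_lit 88) (nat_lit 5) (nat_lit 89) (nat_lit 5) (nat_lit 413) (nat_lit 333) (nat_lit 274))) (XT.nd (nat_lit 78) (nat_lit 228) (nat_lit 0) (XT.lf (nat_lit 0) (nat_lit 9019916165) (nat_lit 228) (nat_lit 2341388251) (nat_lit 76) (nat_lit 3227506077)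 (nat_lit 86) (nat_lit 5) (nat_lit 89) (nat_lit 5) (nat_lit 87) (nat_lit 5) (nat_lit 414) (nat_lit 333) (nat_lit 273)) (XT.lf (nat_lit 0) (nat_lit 7059838885) (nat_lit 228) (nat_lit 6489503486) (nat_lit 304) (nat_lit 1311926880) (nat_lit 83) (nat_lit 5) (nat_lit 86) (nat_lit 5) (nat_lit 87) (nat_lit 5) (nat_lit 415) (nat_lit 333) (nat_lit 272)))) (XT.nd (nat_lit 156) (nat_lit 228) (nat_lit 0) (XT.nd (nat_lit 78) (nat_lit 0) (nat_lit 0) (XT.lf (nat_lit 0) (nat_lit 1580848040) (nat_lit 152) (nat_lit 1430224300) (nat_lit 228) (nat_lit 12129999792) (nat_lit 80) (nat_lit 5) (nat_lit 82) (nat_lit 5) (nat_lit 83) (nat_lit 5) (nat_lit 416) (nat_lit 333) (nat_lit 271)) (XT.lf (nat_lit 0) (nat_lit 7512745517) (nat_lit 228) (nat_lit 4142882435) (nat_lit 76) (nat_lit 3770995721) (nat_lit 80) (nat_lit 5) (nat_lit 83) (nat_lit 5) (nat_lit 81) (nat_lit 5) (nat_lit 417) (nat_lit 333) (nat_lit 270))) (XT.nd (nat_lit 78) (nat_lit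 76) (nat_lit 0) (XT.lf (nat_lit 0) (nat_lit 5583441666) (nat_lit 152) (nat_lit 6594489979) (nat_lit 228) (nat_lit 3541960916) (nat_lit 78) (nat_lit 5) (nat_lit 80) (nat_lit 5) (nat_lit 81) (nat_lit 5) (nat_lit 418) (nat_lit 333) (nat_lit 269)) (XT.lf (nat_lit 0) (nat_lit 945345856) (nat_lit 228) (nat_lit 412323106) (nat_lit 76) (nat_lit 14663928201) (nat_lit 77) (nat_lit 5) (nat_lit 80) (nat_lit 5) (nat_lit 78) (nat_lit 5) (nat_lit 419) (nat_lit 333) (nat_lit 268))))))))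
noncomputable def xc84 : XT := (XT.nd (nat_lit 2184) (nat_lit 1444) (nat_lit 0) (XT.nd (nat_lit 1092) (nat_lit 1140) (nat_lit 0) (XT.nd (nat_lit 546) (nat_lit 608) (nat_lit 0) (XT.nd (nat_lit 234) (nat_lit 608) (nat_lit 0) (XT.nd (nat_lit 78) (nat_lit 152) (nat_lit 0) (XT.lf (nat_lit 0) (nat_lit 5590916202) (nat_lit 228) (nat_lit 6678334543) (nat_lit 76) (nat_lit 4059209350) (nat_lit 75) (nat_lit 5) (nat_lit 78) (nat_lit 5) (nat_lit 76) (nat_lit 5) (nat_lit 420) (nat_lit 333) (nat_lit 267)) (XT.nd (nat_lit 78) (nat_lit 0) (nat_lit 0) (XT.lf (nat_lit 0) (nat_lit 3363992231) (nat_lit 152) (nat_lit 7023933545) (nat_lit 228) (nat_lit 6256245136) (nat_lit 73) (nat_lit 5) (nat_lit 75) (nat_lit 5) (nat_lit 76) (nat_lit 5) (nat_lit 421) (nat_lit 333) (nat_lit 266)) (XT.lf (nat_lit 0) (nat_lit 13778477917) (nat_lit 152) (nat_lit 1580363723) (nat_lit 228) (nat_lit 1609615575) (nat_lit 73) (nat_lit 5) (nat_lit 75) (nat_lit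 5) (nat_lit 76) (nat_lit 5) (nat_lit 422) (nat_lit 333) (nat_lit 265)))) (XT.nd (nat_lit 156) (nat_lit 228) (nat_lit 0) (XT.nd (nat_lit 78) (nat_lit 152) (nat_lit 0) (XT.lf (nat_lit 0) (nat_lit 3186823741) (nat_lit 228) (nat_lit 10090973331) (nat_lit 76) (nat_lit 4021591012) (nat_lit 70) (nat_lit 5) (nat_lit 73) (nat_lit 5) (nat_lit 71) (nat_lit 5) (nat_lit 423) (nat_lit 333) (nat_lit 264)) (XT.lf (nat_lit 0) (nat_lit 252893806) (nat_lit 152) (nat_lit 7855989017) (nat_lit 228) (nat_lit 9530467302) (nat_lit 68) (nat_lit 5) (nat_lit 70) (nat_lit 5) (nat_lit 71) (nat_lit 5) (nat_lit 424) (nat_lit 333) (nat_lit 263))) (XT.nd (nat_lit 78) (nat_lit 228) (nat_lit 0) (XT.lf (nat_lit 0) (nat_lit 11049559622) (nat_lit 152) (nat_lit 2194856992) (nat_lit 228) (nat_lit 4743123616) (nat_lit 68) (nat_lit 5) (nat_lit 70) (nat_lit 5) (nat_lit 71) (nat_lit 5) (nat_lit 425) (nat_lit 333) (nat_lit 262)) (XT.lf (nat_lit 0) (nat_lit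 220709756) (nat_lit 228) (nat_lit 14547400188) (nat_lit 76) (nat_lit 3576919265) (nat_lit 65) (nat_lit 5) (nat_lit 68) (nat_lit 5) (nat_lit 66) (nat_lit 5) (nat_lit 426) (nat_lit 333) (nat_lit 261))))) (XT.nd (nat_lit 234) (nat_lit 456) (nat_lit 0) (XT.nd (nat_lit 78) (nat_lit 152) (nat_lit 0) (XT.lf (nat_lit 0) (nat_lit 5295389050) (nat_lit 228) (nat_lit 3846370680) (nat_lit 76) (nat_lit 9568359674) (nat_lit 65) (nat_lit 5) (nat_lit 68) (nat_lit 5) (nat_lit 66) (nat_lit 5) (nat_lit 427) (nat_lit 333) (nat_lit 260)) (XT.nd (nat_lit 78) (nat_lit 0) (nat_lit 0) (XT.lf (nat_lit 0) (nat_lit 7255749476) (nat_lit 152) (nat_lit 3302109917) (nat_lit 228) (nat_lit 8527239582) (nat_lit 63) (nat_lit 5) (nat_lit 65) (nat_lit 5) (nat_lit 66) (nat_lit 5) (nat_lit 428) (nat_lit 333) (nat_lit 259)) (XT.lf (nat_lit 0) (nat_lit 16009459108) (nat_lit 228) (nat_lit 788522273) (nat_lit 76) (nat_lit 2672411990) (nat_lit 63) (nat_lit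 5) (nat_lit 66) (nat_lit 5) (nat_lit 64) (nat_lit 4) (nat_lit 429) (nat_lit 333) (nat_lit 258)))) (XT.nd (nat_lit 156) (nat_lit 76) (nat_lit 0) (XT.nd (nat_lit 78) (nat_lit 152) (nat_lit 0) (XT.lf (nat_lit 0) (nat_lit 1826571377) (nat_lit 228) (nat_lit 9182338451) (nat_lit 76) (nat_lit 8854727799) (nat_lit 60) (nat_lit 5) (nat_lit 63) (nat_lit 5) (nat_lit 61) (nat_lit 5) (nat_lit 430) (nat_lit 333) (nat_lit 257)) (XT.lf (nat_lit 0) (nat_lit 2191401008) (nat_lit 152) (nat_lit 5007857942) (nat_lit 228) (nat_lit 13068511551) (nat_lit 58) (nat_lit 5) (nat_lit 60) (nat_lit 5) (nat_lit 61) (nat_lit 5) (nat_lit 431) (nat_lit 333) (nat_lit 256))) (XT.nd (nat_lit 78) (nat_lit 76) (nat_lit 0) (XT.lf (nat_lit 0) (nat_lit 12805191085) (nat_lit 228) (nat_lit 6658949950) (nat_lit 76) (nat_lit 1217727161) (nat_lit 58) (nat_lit 5) (nat_lit 61) (nat_lit 5) (nat_lit 59) (nat_lit 4) (nat_lit 432) (nat_lit 333) (nat_lit 255)) (XT.lf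 (nat_lit 0) (nat_lit 5092441431) (nat_lit 76) (nat_lit 13553495626) (nat_lit 152) (nat_lit 2460455360) (nat_lit 57) (nat_lit 5) (nat_lit 58) (nat_lit 5) (nat_lit 59) (nat_lit 4) (nat_lit 433) (nat_lit 333) (nat_lit 254)))))) (XT.nd (nat_lit 546) (nat_lit 532) (nat_lit 0) (XT.nd (nat_lit 234) (nat_lit 380) (nat_lit 0) (XT.nd (nat_lit 78) (nat_lit 152) (nat_lit 0) (XT.lf (nat_lit 0) (nat_lit 3093473370) (nat_lit 152) (nat_lit 4297803013) (nat_lit 76) (nat_lit 14150397202) (nat_lit 56) (nat_lit 5) (nat_lit 58) (nat_lit 5) (nat_lit 57) (nat_lit 5) (nat_lit 434) (nat_lit 333) (nat_lit 253)) (XT.nd (nat_lit 78) (nat_lit 0) (nat_lit 0) (XT.lf (nat_lit 0) (nat_lit 7841786956) (nat_lit 152) (nat_lit 967248279) (nat_lit 228) (nat_lit 13178915531) (nat_lit 54) (nat_lit 5) (nat_lit 56) (nat_lit 5) (nat_lit 57) (nat_lit 5) (nat_lit 435) (nat_lit 333) (nat_lit 252)) (XT.lf (nat_lit 0) (nat_lit 14763402017) (nat_lit 228) (nat_lit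 2124205030) (nat_lit 76) (nat_lit 5557991445) (nat_lit 54) (nat_lit 5) (nat_lit 57) (nat_lit 5) (nat_lit 55) (nat_lit 4) (nat_lit 436) (nat_lit 333) (nat_lit 251)))) (XT.nd (nat_lit 156) (nat_lit 228) (nat_lit 0) (XT.nd (nat_lit 78) (nat_lit 76) (nat_lit 0) (XT.lf (nat_lit 0) (nat_lit 10396544812) (nat_lit 76) (nat_lit 10579469193) (nat_lit 152) (nat_lit 1938575525) (nat_lit 53) (nat_lit 5) (nat_lit 54) (nat_lit 5) (nat_lit 55) (nat_lit 4) (nat_lit 437) (nat_lit 333) (nat_lit 250)) (XT.lf (nat_lit 0) (nat_lit 3891554765) (nat_lit 152) (nat_lit 154211081) (nat_lit 76) (nat_lit 19350985246) (nat_lit 52) (nat_lit 5) (nat_lit 54) (nat_lit 5) (nat_lit 53) (nat_lit 5) (nat_lit 438) (nat_lit 333) (nat_lit 249))) (XT.nd (nat_lit 78) (nat_lit 76) (nat_lit 0) (XT.lf (nat_lit 0) (nat_lit 9978237393) (nat_lit 228) (nat_lit 11160301502) (nat_lit 76) (nat_lit 2750646544) (nat_lit 50) (nat_lit 5) (nat_lit 53) (nat_lit 5) (nat_lit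 51) (nat_lit 4) (nat_lit 439) (nat_lit 333) (nat_lit 248)) (XT.lf (nat_lit 0) (nat_lit 1541583265) (nat_lit 76) (nat_lit 14733504389) (nat_lit 152) (nat_lit 8120480195) (nat_lit 49) (nat_lit 5) (nat_lit 50) (nat_lit 5) (nat_lit 51) (nat_lit 4) (nat_lit 440) (nat_lit 333) (nat_lit 247))))) (XT.nd (nat_lit 234) (nat_lit 304) (nat_lit 0) (XT.nd (nat_lit 78) (nat_lit 228) (nat_lit 0) (XT.lf (nat_lit 0) (nat_lit 14800113460) (nat_lit 76) (nat_lit 8044875847) (nat_lit 152) (nat_lit 2069630037) (nat_lit 49) (nat_lit 5) (nat_lit 50) (nat_lit 5) (nat_lit 51) (nat_lit 4) (nat_lit 441) (nat_lit 333) (nat_lit 246)) (XT.nd (nat_lit 78) (nat_lit 0) (nat_lit 0) (XT.lf (nat_lit 0) (nat_lit 2972959172) (nat_lit 152) (nat_lit 1109138160) (nat_lit 228) (nat_lit 21365929022) (nat_lit 46) (nat_lit 5) (nat_lit 48) (nat_lit 5) (nat_lit 49) (nat_lit 5) (nat_lit 442) (nat_lit 333) (nat_lit 245)) (XT.lf (nat_lit 0) (nat_lit 10510027685)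 (nat_lit 228) (nat_lit 9465783368) (nat_lit 76) (nat_lit 6017014139) (nat_lit 46) (nat_lit 5) (nat_lit 49) (nat_lit 5) (nat_lit 47) (nat_lit 4) (nat_lit 443) (nat_lit 333) (nat_lit 244)))) (XT.nd (nat_lit 156) (nat_lit 228) (nat_lit 0) (XT.nd (nat_lit 78) (nat_lit 0) (nat_lit 0) (XT.lf (nat_lit 0) (nat_lit 3949095429) (nat_lit 76) (nat_lit 13203547857) (nat_lit 152) (nat_lit 9400671057) (nat_lit 45) (nat_lit 5) (nat_lit 46) (nat_lit 5) (nat_lit 47) (nat_lit 4) (nat_lit 444) (nat_lit 333) (nat_lit 243)) (XT.lf (nat_lit 0) (nat_lit 17910194506) (nat_lit 76) (nat_lit 6153139354) (nat_lit 152) (nat_lit 3065222127) (nat_lit 45) (nat_lit 5) (nat_lit 46) (nat_lit 5) (nat_lit 47) (nat_lit 4) (nat_lit 445) (nat_lit 333) (nat_lit 242))) (XT.nd (nat_lit 78) (nat_lit 0) (nat_lit 0) (XT.lf (nat_lit 0) (nat_lit 3421685924) (nat_lit 228) (nat_lit 23154955248) (nat_lit 76) (nat_lit 1142549899) (nat_lit 42) (nat_lit 5) (nat_lit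 45) (nat_lit 5) (nat_lit 43) (nat_lit 4) (nat_lit 446) (nat_lit 333) (nat_lit 241)) (XT.lf (nat_lit 0) (nat_lit 10170332026) (nat_lit 228) (nat_lit 9517069787) (nat_lit 76) (nat_lit 8635372341) (nat_lit 42) (nat_lit 5) (nat_lit 45) (nat_lit 5) (nat_lit 43) (nat_lit 4) (nat_lit 447) (nat_lit 333) (nat_lit 240))))))) (XT.nd (nat_lit 1092) (nat_lit 608) (nat_lit 0) (XT.nd (nat_lit 546) (nat_lit 380) (nat_lit 0) (XT.nd (nat_lit 234) (nat_lit 152) (nat_lit 0) (XT.nd (nat_lit 78) (nat_lit 228) (nat_lit 0) (XT.lf (nat_lit 0) (nat_lit 4571188457) (nat_lit 76) (nat_lit 12568760537) (nat_lit 152) (nat_lit 11803961914) (nat_lit 41) (nat_lit 5) (nat_lit 42) (nat_lit 5) (nat_lit 43) (nat_lit 4) (nat_lit 448) (nat_lit 333) (nat_lit 239)) (XT.nd (nat_lit 78) (nat_lit 228) (nat_lit 0) (XT.lf (nat_lit 0) (nat_lit 19229691153) (nat_lit 76) (nat_lit 5159921612) (nat_lit 152) (nat_lit 5191941731) (nat_lit 41) (nat_lit 5) (nat_lit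 42) (nat_lit 5) (nat_lit 43) (nat_lit 4) (nat_lit 449) (nat_lit 333) (nat_lit 238)) (XT.lf (nat_lit 0) (nat_lit 1625774746) (nat_lit 228) (nat_lit 26153889917) (nat_lit 76) (nat_lit 2457029882) (nat_lit 38) (nat_lit 5) (nat_lit 41) (nat_lit 5) (nat_lit 39) (nat_lit 4) (nat_lit 450) (nat_lit 333) (nat_lit 237)))) (XT.nd (nat_lit 156) (nat_lit 76) (nat_lit 0) (XT.nd (nat_lit 78) (nat_lit 76) (nat_lit 0) (XT.lf (nat_lit 0) (nat_lit 8675735838) (nat_lit 228) (nat_lit 11895835164) (nat_lit 76) (nat_lit 10334415005) (nat_lit 38) (nat_lit 5) (nat_lit 41) (nat_lit 5) (nat_lit 39) (nat_lit 4) (nat_lit 451) (nat_lit 333) (nat_lit 236)) (XT.lf (nat_lit 0) (nat_lit 2799275091) (nat_lit 76) (nat_lit 13140954423) (nat_lit 152) (nat_lit 15655037001) (nat_lit 37) (nat_lit 5) (nat_lit 38) (nat_lit 5) (nat_lit 39) (nat_lit 4) (nat_lit 452) (nat_lit 333) (nat_lit 235))) (XT.nd (nat_lit 78) (nat_lit 76) (nat_lit 0) (XT.lf (nat_lit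 0) (nat_lit 18134225751) (nat_lit 76) (nat_lit 5384946366) (nat_lit 152) (nat_lit 8783159175) (nat_lit 37) (nat_lit 5) (nat_lit 38) (nat_lit 5) (nat_lit 39) (nat_lit 4) (nat_lit 453) (nat_lit 333) (nat_lit 234)) (XT.lf (nat_lit 0) (nat_lit 846047955) (nat_lit 76) (nat_lit 30489475353) (nat_lit 76) (nat_lit 1694784732) (nat_lit 36) (nat_lit 4) (nat_lit 37) (nat_lit 5) (nat_lit 37) (nat_lit 4) (nat_lit 454) (nat_lit 333) (nat_lit 233))))) (XT.nd (nat_lit 234) (nat_lit 228) (nat_lit 0) (XT.nd (nat_lit 78) (nat_lit 76) (nat_lit 0) (XT.lf (nat_lit 0) (nat_lit 5671551298) (nat_lit 152) (nat_lit 17327475694) (nat_lit 76) (nat_lit 10774240300) (nat_lit 35) (nat_lit 5) (nat_lit 37) (nat_lit 5) (nat_lit 36) (nat_lit 4) (nat_lit 455) (nat_lit 333) (nat_lit 232)) (XT.nd (nat_lit 78) (nat_lit 76) (nat_lit 0) (XT.lf (nat_lit 0) (nat_lit 13202391960) (nat_lit 152) (nat_lit 2084562556) (nat_lit 76) (nat_lit 19251731196) (nat_lit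 35) (nat_lit 5) (nat_lit 37) (nat_lit 5) (nat_lit 36) (nat_lit 4) (nat_lit 456) (nat_lit 333) (nat_lit 231)) (XT.lf (nat_lit 0) (nat_lit 13844240686) (nat_lit 76) (nat_lit 7226227579) (nat_lit 152) (nat_lit 14253260206) (nat_lit 34) (nat_lit 5) (nat_lit 35) (nat_lit 5) (nat_lit 36) (nat_lit 4) (nat_lit 457) (nat_lit 333) (nat_lit 230)))) (XT.nd (nat_lit 156) (nat_lit 76) (nat_lit 0) (XT.nd (nat_lit 78) (nat_lit 152) (nat_lit 0) (XT.lf (nat_lit 0) (nat_lit 29184472704) (nat_lit 152) (nat_lit 5890205596) (nat_lit 0) (nat_lit 1057348708) (nat_lit 34) (nat_lit 5) (nat_lit 36) (nat_lit 4) (nat_lit 34) (nat_lit 4) (nat_lit 458) (nat_lit 333) (nat_lit 229)) (XT.lf (nat_lit 0) (nat_lit 716568968) (nat_lit 152) (nat_lit 26712198503) (nat_lit 76) (nat_lit 9531126194) (nat_lit 32) (nat_lit 5) (nat_lit 34) (nat_lit 5) (nat_lit 33) (nat_lit 4) (nat_lit 459) (nat_lit 333) (nat_lit 228))) (XT.nd (nat_lit 78) (nat_lit 76) (nat_lit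 0) (XT.lf (nat_lit 0) (nat_lit 8509981421) (nat_lit 152) (nat_lit 10930124147) (nat_lit 76) (nat_lit 18369257968) (nat_lit 32) (nat_lit 5) (nat_lit 34) (nat_lit 5) (nat_lit 33) (nat_lit 4) (nat_lit 460) (nat_lit 333) (nat_lit 227)) (XT.lf (nat_lit 0) (nat_lit 5391382761) (nat_lit 76) (nat_lit 11177188282) (nat_lit 152) (nat_lit 22114806165) (nat_lit 31) (nat_lit 5) (nat_lit 32) (nat_lit 5) (nat_lit 33) (nat_lit 4) (nat_lit 461) (nat_lit 333) (nat_lit 226)))))) (XT.nd (nat_lit 546) (nat_lit 380) (nat_lit 0) (XT.nd (nat_lit 234) (nat_lit 76) (nat_lit 0) (XT.nd (nat_lit 78) (nat_lit 152) (nat_lit 0) (XT.lf (nat_lit 0) (nat_lit 22387741390) (nat_lit 76) (nat_lit 2571321505) (nat_lit 152) (nat_lit 14621844983) (nat_lit 31) (nat_lit 5) (nat_lit 32) (nat_lit 5) (nat_lit 33) (nat_lit 4) (nat_lit 462) (nat_lit 333) (nat_lit 225)) (XT.nd (nat_lit 78) (nat_lit 152) (nat_lit 0) (XT.lf (nat_lit 0) (nat_lit 33641946088) (nat_lit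 152) (nat_lit 709998205) (nat_lit 0) (nat_lit 6152200771) (nat_lit 31) (nat_lit 5) (nat_lit 33) (nat_lit 4) (nat_lit 31) (nat_lit 4) (nat_lit 463) (nat_lit 333) (nat_lit 224)) (XT.lf (nat_lit 0) (nat_lit 1274912335) (nat_lit 152) (nat_lit 24934929366) (nat_lit 76) (nat_lit 15239910645) (nat_lit 29) (nat_lit 5) (nat_lit 31) (nat_lit 5) (nat_lit 30) (nat_lit 4) (nat_lit 464) (nat_lit 333) (nat_lit 223)))) (XT.nd (nat_lit 156) (nat_lit 0) (nat_lit 0) (XT.nd (nat_lit 78) (nat_lit 76) (nat_lit 0) (XT.lf (nat_lit 0) (nat_lit 9506236965) (nat_lit 152) (nat_lit 8257627836) (nat_lit 76) (nat_lit 24658184887) (nat_lit 29) (nat_lit 5) (nat_lit 31) (nat_lit 5) (nat_lit 30) (nat_lit 4) (nat_lit 465) (nat_lit 333) (nat_lit 222)) (XT.lf (nat_lit 0) (nat_lit 9060836670) (nat_lit 76) (nat_lit 8992105498) (nat_lit 152) (nat_lit 25368521351) (nat_lit 28) (nat_lit 5) (nat_lit 29) (nat_lit 5) (nat_lit 30) (nat_lit 4) (nat_lit 466)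 (nat_lit 333) (nat_lit 221))) (XT.nd (nat_lit 78) (nat_lit 0) (nat_lit 0) (XT.lf (nat_lit 0) (nat_lit 26922050161) (nat_lit 152) (nat_lit 17417469456) (nat_lit 0) (nat_lit 109360872) (nat_lit 28) (nat_lit 5) (nat_lit 30) (nat_lit 4) (nat_lit 28) (nat_lit 4) (nat_lit 467) (nat_lit 333) (nat_lit 220)) (XT.lf (nat_lit 0) (nat_lit 36128183206) (nat_lit 152) (nat_lit 90002036) (nat_lit 0) (nat_lit 9286806921) (nat_lit 28) (nat_lit 5) (nat_lit 30) (nat_lit 4) (nat_lit 28) (nat_lit 4) (nat_lit 468) (nat_lit 333) (nat_lit 219))))) (XT.nd (nat_lit 312) (nat_lit 152) (nat_lit 0) (XT.nd (nat_lit 156) (nat_lit 76) (nat_lit 0) (XT.nd (nat_lit 78) (nat_lit 76) (nat_lit 0) (XT.lf (nat_lit 0) (nat_lit 18076083021) (nat_lit 76) (nat_lit 27690623227) (nat_lit 76) (nat_lit 821395487) (nat_lit 27) (nat_lit 4) (nat_lit 28) (nat_lit 5) (nat_lit 28) (nat_lit 4) (nat_lit 469) (nat_lit 333) (nat_lit 218)) (XT.lf (nat_lit 0) (nat_lit 7818134514)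 (nat_lit 152) (nat_lit 11025454921) (nat_lit 76) (nat_lit 28858310072) (nat_lit 26) (nat_lit 5) (nat_lit 28) (nat_lit 5) (nat_lit 27) (nat_lit 4) (nat_lit 470) (nat_lit 333) (nat_lit 217))) (XT.nd (nat_lit 78) (nat_lit 0) (nat_lit 0) (XT.lf (nat_lit 0) (nat_lit 7082820545) (nat_lit 76) (nat_lit 9668579058) (nat_lit 152) (nat_lit 32095936544) (nat_lit 25) (nat_lit 5) (nat_lit 26) (nat_lit 5) (nat_lit 27) (nat_lit 4) (nat_lit 471) (nat_lit 333) (nat_lit 216)) (XT.lf (nat_lit 0) (nat_lit 25927714519) (nat_lit 76) (nat_lit 119439764) (nat_lit 152) (nat_lit 23977147502) (nat_lit 25) (nat_lit 5) (nat_lit 26) (nat_lit 5) (nat_lit 27) (nat_lit 4) (nat_lit 472) (nat_lit 333) (nat_lit 215)))) (XT.nd (nat_lit 156) (nat_lit 76) (nat_lit 0) (XT.nd (nat_lit 78) (nat_lit 76) (nat_lit 0) (XT.lf (nat_lit 0) (nat_lit 35698678738) (nat_lit 152) (nat_lit 6024052756) (nat_lit 0) (nat_lit 9511538610) (nat_lit 25) (nat_lit 5) (nat_lit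 27) (nat_lit 4) (nat_lit 25) (nat_lit 4) (nat_lit 473) (nat_lit 333) (nat_lit 214)) (XT.lf (nat_lit 0) (nat_lit 12808310646) (nat_lit 76) (nat_lit 32939722103) (nat_lit 76) (nat_lit 6729256820) (nat_lit 24) (nat_lit 4) (nat_lit 25) (nat_lit 5) (nat_lit 25) (nat_lit 4) (nat_lit 474) (nat_lit 333) (nat_lit 213))) (XT.nd (nat_lit 78) (nat_lit 0) (nat_lit 0) (XT.lf (nat_lit 0) (nat_lit 2341007604) (nat_lit 152) (nat_lit 21480865624) (nat_lit 76) (nat_lit 29933688999) (nat_lit 23) (nat_lit 5) (nat_lit 25) (nat_lit 5) (nat_lit 24) (nat_lit 4) (nat_lit 475) (nat_lit 333) (nat_lit 212)) (XT.lf (nat_lit 0) (nat_lit 11532587788) (nat_lit 152) (nat_lit 2843944046) (nat_lit 76) (nat_lit 40694119225) (nat_lit 23) (nat_lit 5) (nat_lit 25) (nat_lit 5) (nat_lit 24) (nat_lit 4) (nat_lit 476) (nat_lit 333) (nat_lit 211))))))))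
noncomputable def xc85 : XT := (XT.nd (nat_lit 44538) (nat_lit 0) (nat_lit 8816) (XT.nd (nat_lit 43368) (nat_lit 0) (nat_lit 19380) (XT.nd (nat_lit 546) (nat_lit 228) (nat_lit 0) (XT.nd (nat_lit 234) (nat_lit 228) (nat_lit 0) (XT.nd (nat_lit 78) (nat_lit 0) (nat_lit 0) (XT.lf (nat_lit 0) (nat_lit 16647611085) (nat_lit 76) (nat_lit 4497243181) (nat_lit 152) (nat_lit 35275990663) (nat_lit 22) (nat_lit 5) (nat_lit 23) (nat_lit 5) (nat_lit 24) (nat_lit 4) (nat_lit 477) (nat_lit 333) (nat_lit 210)) (XT.nd (nat_lit 78) (nat_lit 0) (nat_lit 0) (XT.lf (nat_lit 0) (nat_lit 31114012320) (nat_lit 152) (nat_lit 21112695060) (nat_lit 0) (nat_lit 5582782054) (nat_lit 22) (nat_lit 5) (nat_lit 24) (nat_lit 4) (nat_lit 22) (nat_lit 4) (nat_lit 478) (nat_lit 333) (nat_lit 209)) (XT.lf (nat_lit 0) (nat_lit 41412147515) (nat_lit 152) (nat_lit 1965366398) (nat_lit 0) (nat_lit 15861382800) (nat_lit 22) (nat_lit 5) (nat_lit 24) (nat_lit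 4) (nat_lit 22) (nat_lit 4) (nat_lit 479) (nat_lit 333) (nat_lit 208)))) (XT.nd (nat_lit 156) (nat_lit 76) (nat_lit 0) (XT.nd (nat_lit 78) (nat_lit 76) (nat_lit 0) (XT.lf (nat_lit 0) (nat_lit 18081549219) (nat_lit 76) (nat_lit 34097289661) (nat_lit 76) (nat_lit 8527559461) (nat_lit 21) (nat_lit 4) (nat_lit 22) (nat_lit 5) (nat_lit 22) (nat_lit 4) (nat_lit 480) (nat_lit 333) (nat_lit 207)) (XT.lf (nat_lit 0) (nat_lit 1035959534) (nat_lit 152) (nat_lit 23485145435) (nat_lit 76) (nat_lit 37696341904) (nat_lit 20) (nat_lit 5) (nat_lit 22) (nat_lit 5) (nat_lit 21) (nat_lit 4) (nat_lit 481) (nat_lit 333) (nat_lit 206))) (XT.nd (nat_lit 78) (nat_lit 76) (nat_lit 0) (XT.lf (nat_lit 0) (nat_lit 10701213676) (nat_lit 152) (nat_lit 3882556316) (nat_lit 76) (nat_lit 49187937633) (nat_lit 20) (nat_lit 5) (nat_lit 22) (nat_lit 5) (nat_lit 21) (nat_lit 4) (nat_lit 482) (nat_lit 333) (nat_lit 205)) (XT.lf (nat_lit 0) (nat_lit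 16606062928) (nat_lit 76) (nat_lit 4196616437) (nat_lit 152) (nat_lit 44565529656) (nat_lit 19) (nat_lit 5) (nat_lit 20) (nat_lit 5) (nat_lit 21) (nat_lit 4) (nat_lit 483) (nat_lit 333) (nat_lit 204))))) (XT.nd (nat_lit 234) (nat_lit 152) (nat_lit 0) (XT.nd (nat_lit 78) (nat_lit 76) (nat_lit 0) (XT.lf (nat_lit 0) (nat_lit 31295932385) (nat_lit 152) (nat_lit 29311502867) (nat_lit 0) (nat_lit 6402508334) (nat_lit 19) (nat_lit 5) (nat_lit 21) (nat_lit 4) (nat_lit 19) (nat_lit 4) (nat_lit 484) (nat_lit 333) (nat_lit 203)) (XT.nd (nat_lit 78) (nat_lit 76) (nat_lit 0) (XT.lf (nat_lit 0) (nat_lit 42132568908) (nat_lit 152) (nat_lit 9344242555) (nat_lit 0) (nat_lit 17223261563) (nat_lit 19) (nat_lit 5) (nat_lit 21) (nat_lit 4) (nat_lit 19) (nat_lit 4) (nat_lit 485) (nat_lit 333) (nat_lit 202)) (XT.lf (nat_lit 0) (nat_lit 11420273068) (nat_lit 76) (nat_lit 41971222978) (nat_lit 76) (nat_lit 17046494959) (nat_lit 18) (nat_lit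 4) (nat_lit 19) (nat_lit 5) (nat_lit 19) (nat_lit 4) (nat_lit 486) (nat_lit 333) (nat_lit 201)))) (XT.nd (nat_lit 156) (nat_lit 76) (nat_lit 0) (XT.nd (nat_lit 78) (nat_lit 76) (nat_lit 0) (XT.lf (nat_lit 0) (nat_lit 32974900118) (nat_lit 76) (nat_lit 32095194617) (nat_lit 76) (nat_lit 7155495069) (nat_lit 18) (nat_lit 4) (nat_lit 19) (nat_lit 5) (nat_lit 19) (nat_lit 4) (nat_lit 487) (nat_lit 333) (nat_lit 200)) (XT.lf (nat_lit 0) (nat_lit 2960852867) (nat_lit 152) (nat_lit 18943703691) (nat_lit 76) (nat_lit 52161752309) (nat_lit 17) (nat_lit 5) (nat_lit 19) (nat_lit 5) (nat_lit 18) (nat_lit 4) (nat_lit 488) (nat_lit 333) (nat_lit 199))) (XT.nd (nat_lit 78) (nat_lit 0) (nat_lit 0) (XT.lf (nat_lit 0) (nat_lit 1915820829) (nat_lit 76) (nat_lit 11327611655) (nat_lit 152) (nat_lit 62716495195) (nat_lit 16) (nat_lit 5) (nat_lit 17) (nat_lit 5) (nat_lit 18) (nat_lit 4) (nat_lit 489) (nat_lit 333) (nat_lit 198)) (XT.lf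 (nat_lit 0) (nat_lit 23766476845) (nat_lit 76) (nat_lit 247574893) (nat_lit 152) (nat_lit 53890916796) (nat_lit 16) (nat_lit 5) (nat_lit 17) (nat_lit 5) (nat_lit 18) (nat_lit 4) (nat_lit 490) (nat_lit 333) (nat_lit 197)))))) (XT.nd (nat_lit 546) (nat_lit 5168) (nat_lit 0) (XT.nd (nat_lit 234) (nat_lit 2204) (nat_lit 0) (XT.nd (nat_lit 78) (nat_lit 608) (nat_lit 0) (XT.lf (nat_lit 0) (nat_lit 1050973162) (nat_lit 532) (nat_lit 1196339751) (nat_lit 0) (nat_lit 1050973162) (nat_lit 376) (nat_lit 5) (nat_lit 383) (nat_lit 4) (nat_lit 376) (nat_lit 4) (nat_lit 352) (nat_lit 334) (nat_lit 334)) (XT.nd (nat_lit 78) (nat_lit 76) (nat_lit 0) (XT.lf (nat_lit 0) (nat_lit 1688523335) (nat_lit 532) (nat_lit 3640990511) (nat_lit 532) (nat_lit 1294431019) (nat_lit 369) (nat_lit 4) (nat_lit 376) (nat_lit 5) (nat_lit 376) (nat_lit 4) (nat_lit 353) (nat_lit 334) (nat_lit 333)) (XT.lf (nat_lit 0) (nat_lit 1877664161) (nat_lit 608)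 (nat_lit 813114343) (nat_lit 76) (nat_lit 3963392090) (nat_lit 368) (nat_lit 5) (nat_lit 376) (nat_lit 5) (nat_lit 369) (nat_lit 4) (nat_lit 354) (nat_lit 334) (nat_lit 332)))) (XT.nd (nat_lit 156) (nat_lit 836) (nat_lit 0) (XT.nd (nat_lit 78) (nat_lit 760) (nat_lit 0) (XT.lf (nat_lit 0) (nat_lit 3405500648) (nat_lit 608) (nat_lit 1639883892) (nat_lit 684) (nat_lit 1641795801) (nat_lit 360) (nat_lit 5) (nat_lit 368) (nat_lit 5) (nat_lit 369) (nat_lit 4) (nat_lit 355) (nat_lit 334) (nat_lit 331)) (XT.lf (nat_lit 0) (nat_lit 967605833) (nat_lit 684) (nat_lit 500961260) (nat_lit 760) (nat_lit 5254831184) (nat_lit 350) (nat_lit 5) (nat_lit 359) (nat_lit 5) (nat_lit 360) (nat_lit 5) (nat_lit 356) (nat_lit 334) (nat_lit 330))) (XT.nd (nat_lit 78) (nat_lit 836) (nat_lit 0) (XT.lf (nat_lit 0) (nat_lit 4576633424) (nat_lit 760) (nat_lit 1455989521) (nat_lit 76) (nat_lit 729521758) (nat_lit 350) (nat_lit 5) (nat_lit 360)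 (nat_lit 5) (nat_lit 351) (nat_lit 4) (nat_lit 357) (nat_lit 334) (nat_lit 329)) (XT.lf (nat_lit 0) (nat_lit 889838430) (nat_lit 836) (nat_lit 3869948367) (nat_lit 76) (nat_lit 2044043896) (nat_lit 339) (nat_lit 5) (nat_lit 350) (nat_lit 5) (nat_lit 340) (nat_lit 5) (nat_lit 358) (nat_lit 334) (nat_lit 328))))) (XT.nd (nat_lit 312) (nat_lit 2356) (nat_lit 0) (XT.nd (nat_lit 156) (nat_lit 1900) (nat_lit 0) (XT.nd (nat_lit 78) (nat_lit 76) (nat_lit 0) (XT.lf (nat_lit 0) (nat_lit 544201682) (nat_lit 836) (nat_lit 3390952710) (nat_lit 912) (nat_lit 2913361726) (nat_lit 328) (nat_lit 5) (nat_lit 339) (nat_lit 5) (nat_lit 340) (nat_lit 5) (nat_lit 359) (nat_lit 334) (nat_lit 327)) (XT.lf (nat_lit 0) (nat_lit 115919654) (nat_lit 912) (nat_lit 1810120922) (nat_lit 76) (nat_lit 4970231951) (nat_lit 327) (nat_lit 5) (nat_lit 339) (nat_lit 5) (nat_lit 328) (nat_lit 5) (nat_lit 360) (nat_lit 334) (nat_lit 326))) (XT.nd (nat_lit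 78) (nat_lit 988) (nat_lit 0) (XT.lf (nat_lit 0) (nat_lit 2761645361) (nat_lit 912) (nat_lit 347886840) (nat_lit 988) (nat_lit 3837146819) (nat_lit 315) (nat_lit 5) (nat_lit 327) (nat_lit 5) (nat_lit 328) (nat_lit 5) (nat_lit 361) (nat_lit 334) (nat_lit 325)) (XT.lf (nat_lit 0) (nat_lit 420957270) (nat_lit 988) (nat_lit 5714321656) (nat_lit 1064) (nat_lit 865090755) (nat_lit 302) (nat_lit 5) (nat_lit 315) (nat_lit 5) (nat_lit 316) (nat_lit 5) (nat_lit 362) (nat_lit 334) (nat_lit 324)))) (XT.nd (nat_lit 156) (nat_lit 1216) (nat_lit 0) (XT.nd (nat_lit 78) (nat_lit 1064) (nat_lit 0) (XT.lf (nat_lit 0) (nat_lit 2107887652) (nat_lit 1064) (nat_lit 1913908483) (nat_lit 76) (nat_lit 3034642513) (nat_lit 301) (nat_lit 5) (nat_lit 315) (nat_lit 5) (nat_lit 302) (nat_lit 5) (nat_lit 363) (nat_lit 334) (nat_lit 323)) (XT.lf (nat_lit 0) (nat_lit 2855761408) (nat_lit 1064) (nat_lit 2235514687) (nat_lit 1140) (nat_lit 2024536592)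 (nat_lit 287) (nat_lit 5) (nat_lit 301) (nat_lit 5) (nat_lit 302) (nat_lit 5) (nat_lit 364) (nat_lit 334) (nat_lit 322))) (XT.nd (nat_lit 78) (nat_lit 0) (nat_lit 0) (XT.lf (nat_lit 0) (nat_lit 548454909) (nat_lit 1140) (nat_lit 356326344) (nat_lit 1216) (nat_lit 6273832614) (nat_lit 271) (nat_lit 5) (nat_lit 286) (nat_lit 5) (nat_lit 287) (nat_lit 5) (nat_lit 365) (nat_lit 334) (nat_lit 321)) (XT.lf (nat_lit 0) (nat_lit 3853760853) (nat_lit 1216) (nat_lit 1774876862) (nat_lit 76) (nat_lit 1614920782) (nat_lit 271) (nat_lit 5) (nat_lit 287) (nat_lit 5) (nat_lit 272) (nat_lit 5) (nat_lit 366) (nat_lit 334) (nat_lit 320))))))) (XT.nd (nat_lit 1092) (nat_lit 4104) (nat_lit 0) (XT.nd (nat_lit 546) (nat_lit 2584) (nat_lit 0) (XT.nd (nat_lit 234) (nat_lit 1900) (nat_lit 0) (XT.nd (nat_lit 78) (nat_lit 760) (nat_lit 0) (XT.lf (nat_lit 0) (nat_lit 3201751233) (nat_lit 1216) (nat_lit 3640121755) (nat_lit 1292) (nat_lit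 470092529) (nat_lit 255) (nat_lit 5) (nat_lit 271) (nat_lit 5) (nat_lit 272) (nat_lit 5) (nat_lit 367) (nat_lit 334) (nat_lit 319)) (XT.nd (nat_lit 78) (nat_lit 0) (nat_lit 0) (XT.lf (nat_lit 0) (nat_lit 890865114) (nat_lit 684) (nat_lit 1540649861) (nat_lit 760) (nat_lit 4951895455) (nat_lit 245) (nat_lit 5) (nat_lit 254) (nat_lit 5) (nat_lit 255) (nat_lit 5) (nat_lit 368) (nat_lit 334) (nat_lit 318)) (XT.lf (nat_lit 0) (nat_lit 5377365222) (nat_lit 760) (nat_lit 1426313687) (nat_lit 76) (nat_lit 654211929) (nat_lit 245) (nat_lit 5) (nat_lit 255) (nat_lit 5) (nat_lit 246) (nat_lit 5) (nat_lit 369) (nat_lit 334) (nat_lit 317)))) (XT.nd (nat_lit 156) (nat_lit 608) (nat_lit 0) (XT.nd (nat_lit 78) (nat_lit 608) (nat_lit 0) (XT.lf (nat_lit 0) (nat_lit 832151060) (nat_lit 684) (nat_lit 3776712289) (nat_lit 76) (nat_lit 2926350319) (nat_lit 236) (nat_lit 5) (nat_lit 245) (nat_lit 5) (nat_lit 237) (nat_lit 5) (nat_lit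 370) (nat_lit 334) (nat_lit 316)) (XT.lf (nat_lit 0) (nat_lit 1436952725) (nat_lit 608) (nat_lit 2303623770) (nat_lit 684) (nat_lit 3875184588) (nat_lit 228) (nat_lit 5) (nat_lit 236) (nat_lit 5) (nat_lit 237) (nat_lit 5) (nat_lit 371) (nat_lit 334) (nat_lit 315))) (XT.nd (nat_lit 78) (nat_lit 608) (nat_lit 0) (XT.lf (nat_lit 0) (nat_lit 6698691191) (nat_lit 684) (nat_lit 899654765) (nat_lit 76) (nat_lit 101533473) (nat_lit 228) (nat_lit 5) (nat_lit 237) (nat_lit 5) (nat_lit 229) (nat_lit 5) (nat_lit 372) (nat_lit 334) (nat_lit 314)) (XT.lf (nat_lit 0) (nat_lit 1912429149) (nat_lit 608) (nat_lit 3285246157) (nat_lit 76) (nat_lit 2588558227) (nat_lit 220) (nat_lit 5) (nat_lit 228) (nat_lit 5) (nat_lit 221) (nat_lit 5) (nat_lit 373) (nat_lit 334) (nat_lit 313))))) (XT.nd (nat_lit 234) (nat_lit 1520) (nat_lit 0) (XT.nd (nat_lit 78) (nat_lit 532) (nat_lit 0) (XT.lf (nat_lit 0) (nat_lit 2155589897) (nat_lit 532) (nat_lit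 2693745817) (nat_lit 608) (nat_lit 3026890313) (nat_lit 213) (nat_lit 5) (nat_lit 220) (nat_lit 5) (nat_lit 221) (nat_lit 5) (nat_lit 374) (nat_lit 334) (nat_lit 312)) (XT.nd (nat_lit 78) (nat_lit 532) (nat_lit 0) (XT.lf (nat_lit 0) (nat_lit 7744159687) (nat_lit 532) (nat_lit 90828265) (nat_lit 608) (nat_lit 135135715) (nat_lit 213) (nat_lit 5) (nat_lit 220) (nat_lit 5) (nat_lit 221) (nat_lit 5) (nat_lit 375) (nat_lit 334) (nat_lit 311)) (XT.lf (nat_lit 0) (nat_lit 2794525457) (nat_lit 532) (nat_lit 2661873301) (nat_lit 76) (nat_lit 2609443472) (nat_lit 206) (nat_lit 5) (nat_lit 213) (nat_lit 5) (nat_lit 207) (nat_lit 5) (nat_lit 376) (nat_lit 334) (nat_lit 310)))) (XT.nd (nat_lit 156) (nat_lit 456) (nat_lit 0) (XT.nd (nat_lit 78) (nat_lit 532) (nat_lit 0) (XT.lf (nat_lit 0) (nat_lit 3016603241) (nat_lit 532) (nat_lit 2754999486) (nat_lit 608) (nat_lit 2393944657) (nat_lit 199) (nat_lit 5) (nat_lit 206) (nat_lit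 5) (nat_lit 207) (nat_lit 5) (nat_lit 377) (nat_lit 334) (nat_lit 309)) (XT.lf (nat_lit 0) (nat_lit 522388843) (nat_lit 532) (nat_lit 7695337644) (nat_lit 76) (nat_lit 51461313) (nat_lit 192) (nat_lit 5) (nat_lit 199) (nat_lit 5) (nat_lit 193) (nat_lit 5) (nat_lit 378) (nat_lit 334) (nat_lit 308))) (XT.nd (nat_lit 78) (nat_lit 456) (nat_lit 0) (XT.lf (nat_lit 0) (nat_lit 3489553846) (nat_lit 532) (nat_lit 1936758500) (nat_lit 76) (nat_lit 2948590824) (nat_lit 192) (nat_lit 5) (nat_lit 199) (nat_lit 5) (nat_lit 193) (nat_lit 5) (nat_lit 379) (nat_lit 334) (nat_lit 307)) (XT.lf (nat_lit 0) (nat_lit 3990145911) (nat_lit 456) (nat_lit 2527604931) (nat_lit 532) (nat_lit 1966898588) (nat_lit 186) (nat_lit 5) (nat_lit 192) (nat_lit 5) (nat_lit 193) (nat_lit 5) (nat_lit 380) (nat_lit 334) (nat_lit 306)))))) (XT.nd (nat_lit 546) (nat_lit 1824) (nat_lit 0) (XT.nd (nat_lit 234) (nat_lit 1292) (nat_lit 0) (XT.nd (nat_lit 78)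 (nat_lit 456) (nat_lit 0) (XT.lf (nat_lit 0) (nat_lit 991562016) (nat_lit 532) (nat_lit 7129833952) (nat_lit 76) (nat_lit 476829255) (nat_lit 179) (nat_lit 5) (nat_lit 186) (nat_lit 5) (nat_lit 180) (nat_lit 5) (nat_lit 381) (nat_lit 334) (nat_lit 305)) (XT.nd (nat_lit 78) (nat_lit 456) (nat_lit 0) (XT.lf (nat_lit 0) (nat_lit 4005214027) (nat_lit 532) (nat_lit 1140289077) (nat_lit 76) (nat_lit 3568960098) (nat_lit 179) (nat_lit 5) (nat_lit 186) (nat_lit 5) (nat_lit 180) (nat_lit 5) (nat_lit 382) (nat_lit 334) (nat_lit 304)) (XT.lf (nat_lit 0) (nat_lit 5046050728) (nat_lit 456) (nat_lit 2048730084) (nat_lit 532) (nat_lit 1739860066) (nat_lit 173) (nat_lit 5) (nat_lit 179) (nat_lit 5) (nat_lit 180) (nat_lit 5) (nat_lit 383) (nat_lit 334) (nat_lit 303)))) (XT.nd (nat_lit 156) (nat_lit 836) (nat_lit 0) (XT.nd (nat_lit 78) (nat_lit 0) (nat_lit 0) (XT.lf (nat_lit 0) (nat_lit 1276611685) (nat_lit 456) (nat_lit 6533936386)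 (nat_lit 76) (nat_lit 1148000301) (nat_lit 167) (nat_lit 5) (nat_lit 173) (nat_lit 5) (nat_lit 168) (nat_lit 5) (nat_lit 384) (nat_lit 334) (nat_lit 302)) (XT.lf (nat_lit 0) (nat_lit 4345814855) (nat_lit 456) (nat_lit 303737194) (nat_lit 76) (nat_lit 4436204260) (nat_lit 167) (nat_lit 5) (nat_lit 173) (nat_lit 5) (nat_lit 168) (nat_lit 5) (nat_lit 385) (nat_lit 334) (nat_lit 301))) (XT.nd (nat_lit 78) (nat_lit 456) (nat_lit 0) (XT.lf (nat_lit 0) (nat_lit 6153151898) (nat_lit 380) (nat_lit 1353173730) (nat_lit 456) (nat_lit 1710493651) (nat_lit 162) (nat_lit 5) (nat_lit 167) (nat_lit 5) (nat_lit 168) (nat_lit 5) (nat_lit 386) (nat_lit 334) (nat_lit 300)) (XT.lf (nat_lit 0) (nat_lit 1378788094) (nat_lit 456) (nat_lit 5941123823) (nat_lit 76) (nat_lit 2031616645) (nat_lit 156) (nat_lit 5) (nat_lit 162) (nat_lit 5) (nat_lit 157) (nat_lit 5) (nat_lit 387) (nat_lit 334) (nat_lit 299))))) (XT.nd (nat_lit 312) (nat_lit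 684) (nat_lit 0) (XT.nd (nat_lit 156) (nat_lit 760) (nat_lit 0) (XT.nd (nat_lit 78) (nat_lit 0) (nat_lit 0) (XT.lf (nat_lit 0) (nat_lit 550784387) (nat_lit 380) (nat_lit 3966747088) (nat_lit 456) (nat_lit 4972519114) (nat_lit 151) (nat_lit 5) (nat_lit 156) (nat_lit 5) (nat_lit 157) (nat_lit 5) (nat_lit 388) (nat_lit 334) (nat_lit 298)) (XT.lf (nat_lit 0) (nat_lit 7278561883) (nat_lit 380) (nat_lit 474032153) (nat_lit 456) (nat_lit 1880083519) (nat_lit 151) (nat_lit 5) (nat_lit 156) (nat_lit 5) (nat_lit 157) (nat_lit 5) (nat_lit 389) (nat_lit 334) (nat_lit 297))) (XT.nd (nat_lit 78) (nat_lit 380) (nat_lit 0) (XT.lf (nat_lit 0) (nat_lit 1295802532) (nat_lit 380) (nat_lit 5387114870) (nat_lit 76) (nat_lit 3095818388) (nat_lit 146) (nat_lit 5) (nat_lit 151) (nat_lit 5) (nat_lit 147) (nat_lit 5) (nat_lit 390) (nat_lit 334) (nat_lit 296)) (XT.lf (nat_lit 0) (nat_lit 1382808007) (nat_lit 380) (nat_lit 3132316825) (nat_lit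 456) (nat_lit 5413926871) (nat_lit 141) (nat_lit 5) (nat_lit 146) (nat_lit 5) (nat_lit 147) (nat_lit 5) (nat_lit 391) (nat_lit 334) (nat_lit 295)))) (XT.nd (nat_lit 156) (nat_lit 304) (nat_lit 0) (XT.nd (nat_lit 78) (nat_lit 380) (nat_lit 0) (XT.lf (nat_lit 0) (nat_lit 7835600676) (nat_lit 456) (nat_lit 1702374769) (nat_lit 76) (nat_lit 545776859) (nat_lit 141) (nat_lit 5) (nat_lit 147) (nat_lit 5) (nat_lit 142) (nat_lit 5) (nat_lit 392) (nat_lit 334) (nat_lit 294)) (XT.lf (nat_lit 0) (nat_lit 1021673109) (nat_lit 380) (nat_lit 4910686739) (nat_lit 76) (nat_lit 4309588706) (nat_lit 136) (nat_lit 5) (nat_lit 141) (nat_lit 5) (nat_lit 137) (nat_lit 5) (nat_lit 393) (nat_lit 334) (nat_lit 293))) (XT.nd (nat_lit 78) (nat_lit 0) (nat_lit 0) (XT.lf (nat_lit 0) (nat_lit 2147139717) (nat_lit 304) (nat_lit 2181756945) (nat_lit 380) (nat_lit 6075802943) (nat_lit 132) (nat_lit 5) (nat_lit 136) (nat_lit 5) (nat_lit 137) (nat_lit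 5) (nat_lit 394) (nat_lit 334) (nat_lit 292)) (XT.lf (nat_lit 0) (nat_lit 7748633575) (nat_lit 380) (nat_lit 1149469591) (nat_lit 76) (nat_lit 1673842159) (nat_lit 132) (nat_lit 5) (nat_lit 137) (nat_lit 5) (nat_lit 133) (nat_lit 5) (nat_lit 395) (nat_lit 334) (nat_lit 291))))))))
noncomputable def xc86 : XT := (XT.nd (nat_lit 2262) (nat_lit 2508) (nat_lit 0) (XT.nd (nat_lit 1092) (nat_lit 1824) (nat_lit 0) (XT.nd (nat_lit 546) (nat_lit 1368) (nat_lit 0) (XT.nd (nat_lit 234) (nat_lit 836) (nat_lit 0) (XT.nd (nat_lit 78) (nat_lit 304) (nat_lit 0) (XT.lf (nat_lit 0) (nat_lit 546499501) (nat_lit 380) (nat_lit 4554578847) (nat_lit 76) (nat_lit 5642087847) (nat_lit 127) (nat_lit 5) (nat_lit 132) (nat_lit 5) (nat_lit 128) (nat_lit 5) (nat_lit 396) (nat_lit 334) (nat_lit 290)) (XT.nd (nat_lit 78) (nat_lit 0) (nat_lit 0) (XT.lf (nat_lit 0) (nat_lit 2800453759) (nat_lit 304) (nat_lit 1147697146) (nat_lit 380) (nat_lit 6970919532)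 (nat_lit 123) (nat_lit 5) (nat_lit 127) (nat_lit 5) (nat_lit 128) (nat_lit 5) (nat_lit 397) (nat_lit 334) (nat_lit 289)) (XT.lf (nat_lit 0) (nat_lit 7475761908) (nat_lit 380) (nat_lit 735746445) (nat_lit 76) (nat_lit 2888035961) (nat_lit 123) (nat_lit 5) (nat_lit 128) (nat_lit 5) (nat_lit 124) (nat_lit 5) (nat_lit 398) (nat_lit 334) (nat_lit 288)))) (XT.nd (nat_lit 156) (nat_lit 228) (nat_lit 0) (XT.nd (nat_lit 78) (nat_lit 380) (nat_lit 0) (XT.lf (nat_lit 0) (nat_lit 6916671297) (nat_lit 228) (nat_lit 4221208080) (nat_lit 304) (nat_lit 146702210) (nat_lit 120) (nat_lit 5) (nat_lit 123) (nat_lit 5) (nat_lit 124) (nat_lit 5) (nat_lit 399) (nat_lit 334) (nat_lit 287)) (XT.lf (nat_lit 0) (nat_lit 3294201454) (nat_lit 304) (nat_lit 63686604) (nat_lit 380) (nat_lit 8116593779) (nat_lit 115) (nat_lit 5) (nat_lit 119) (nat_lit 5) (nat_lit 120) (nat_lit 5) (nat_lit 400) (nat_lit 334) (nat_lit 286))) (XT.nd (nat_lit 78)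 (nat_lit 228) (nat_lit 0) (XT.lf (nat_lit 0) (nat_lit 7001261386) (nat_lit 380) (nat_lit 511724376) (nat_lit 76) (nat_lit 4155960656) (nat_lit 115) (nat_lit 5) (nat_lit 120) (nat_lit 5) (nat_lit 116) (nat_lit 5) (nat_lit 401) (nat_lit 334) (nat_lit 285)) (XT.lf (nat_lit 0) (nat_lit 7457763895) (nat_lit 228) (nat_lit 3321402332) (nat_lit 304) (nat_lit 1089330260) (nat_lit 112) (nat_lit 5) (nat_lit 115) (nat_lit 5) (nat_lit 116) (nat_lit 5) (nat_lit 402) (nat_lit 334) (nat_lit 284))))) (XT.nd (nat_lit 234) (nat_lit 836) (nat_lit 0) (XT.nd (nat_lit 78) (nat_lit 228) (nat_lit 0) (XT.lf (nat_lit 0) (nat_lit 2548339033) (nat_lit 304) (nat_lit 8510028490) (nat_lit 76) (nat_lit 1014845917) (nat_lit 108) (nat_lit 5) (nat_lit 112) (nat_lit 5) (nat_lit 109) (nat_lit 5) (nat_lit 403) (nat_lit 334) (nat_lit 283)) (XT.nd (nat_lit 78) (nat_lit 228) (nat_lit 0) (XT.lf (nat_lit 0) (nat_lit 6304617174) (nat_lit 304) (nat_lit 534753381)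 (nat_lit 76) (nat_lit 5443444330) (nat_lit 108) (nat_lit 5) (nat_lit 112) (nat_lit 5) (nat_lit 109) (nat_lit 5) (nat_lit 404) (nat_lit 334) (nat_lit 282)) (XT.lf (nat_lit 0) (nat_lit 7758712665) (nat_lit 228) (nat_lit 2444313962) (nat_lit 304) (nat_lit 2294801975) (nat_lit 105) (nat_lit 5) (nat_lit 108) (nat_lit 5) (nat_lit 109) (nat_lit 5) (nat_lit 405) (nat_lit 334) (nat_lit 281)))) (XT.nd (nat_lit 156) (nat_lit 532) (nat_lit 0) (XT.nd (nat_lit 78) (nat_lit 0) (nat_lit 0) (XT.lf (nat_lit 0) (nat_lit 1484994237) (nat_lit 304) (nat_lit 9163850418) (nat_lit 76) (nat_lit 2069568312) (nat_lit 101) (nat_lit 5) (nat_lit 105) (nat_lit 5) (nat_lit 102) (nat_lit 5) (nat_lit 406) (nat_lit 334) (nat_lit 280)) (XT.lf (nat_lit 0) (nat_lit 5359982965) (nat_lit 304) (nat_lit 870395014) (nat_lit 76) (nat_lit 6713724484) (nat_lit 101) (nat_lit 5) (nat_lit 105) (nat_lit 5) (nat_lit 102) (nat_lit 5) (nat_lit 407) (nat_lit 334) (nat_lit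 279))) (XT.nd (nat_lit 78) (nat_lit 304) (nat_lit 0) (XT.lf (nat_lit 0) (nat_lit 7752246372) (nat_lit 228) (nat_lit 1630184753) (nat_lit 304) (nat_lit 3793201906) (nat_lit 98) (nat_lit 5) (nat_lit 101) (nat_lit 5) (nat_lit 102) (nat_lit 5) (nat_lit 408) (nat_lit 334) (nat_lit 278)) (XT.lf (nat_lit 0) (nat_lit 136038979) (nat_lit 304) (nat_lit 10215854922) (nat_lit 76) (nat_lit 3061386659) (nat_lit 94) (nat_lit 5) (nat_lit 98) (nat_lit 5) (nat_lit 95) (nat_lit 5) (nat_lit 409) (nat_lit 334) (nat_lit 277)))))) (XT.nd (nat_lit 546) (nat_lit 912) (nat_lit 0) (XT.nd (nat_lit 234) (nat_lit 532) (nat_lit 0) (XT.nd (nat_lit 78) (nat_lit 380) (nat_lit 0) (XT.lf (nat_lit 0) (nat_lit 4135526782) (nat_lit 304) (nat_lit 1593998693) (nat_lit 76) (nat_lit 7926553180) (nat_lit 94) (nat_lit 5) (nat_lit 98) (nat_lit 5) (nat_lit 95) (nat_lit 5) (nat_lit 410) (nat_lit 334) (nat_lit 276)) (XT.nd (nat_lit 78) (nat_lit 228) (nat_lit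 0) (XT.lf (nat_lit 0) (nat_lit 7360847509) (nat_lit 152) (nat_lit 923317461) (nat_lit 228) (nat_lit 5621126685) (nat_lit 92) (nat_lit 5) (nat_lit 94) (nat_lit 5) (nat_lit 95) (nat_lit 5) (nat_lit 411) (nat_lit 334) (nat_lit 275)) (XT.lf (nat_lit 0) (nat_lit 2393762464) (nat_lit 228) (nat_lit 10200171889) (nat_lit 304) (nat_lit 1566952293) (nat_lit 89) (nat_lit 5) (nat_lit 92) (nat_lit 5) (nat_lit 93) (nat_lit 5) (nat_lit 412) (nat_lit 334) (nat_lit 274)))) (XT.nd (nat_lit 156) (nat_lit 304) (nat_lit 0) (XT.nd (nat_lit 78) (nat_lit 152) (nat_lit 0) (XT.lf (nat_lit 0) (nat_lit 2592648362) (nat_lit 304) (nat_lit 2792508128) (nat_lit 76) (nat_lit 9037204819) (nat_lit 88) (nat_lit 5) (nat_lit 92) (nat_lit 5) (nat_lit 89) (nat_lit 5) (nat_lit 413) (nat_lit 334) (nat_lit 273)) (XT.lf (nat_lit 0) (nat_lit 6494864127) (nat_lit 152) (nat_lit 373137457) (nat_lit 228) (nat_lit 7822544709) (nat_lit 86) (nat_lit 5) (nat_lit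 88) (nat_lit 5) (nat_lit 89) (nat_lit 5) (nat_lit 414) (nat_lit 334) (nat_lit 272))) (XT.nd (nat_lit 78) (nat_lit 76) (nat_lit 0) (XT.lf (nat_lit 0) (nat_lit 1058544205) (nat_lit 228) (nat_lit 10258042520) (nat_lit 304) (nat_lit 3648846079) (nat_lit 83) (nat_lit 5) (nat_lit 86) (nat_lit 5) (nat_lit 87) (nat_lit 5) (nat_lit 415) (nat_lit 334) (nat_lit 271)) (XT.lf (nat_lit 0) (nat_lit 685050219) (nat_lit 304) (nat_lit 4566537443) (nat_lit 76) (nat_lit 9995365458) (nat_lit 82) (nat_lit 5) (nat_lit 86) (nat_lit 5) (nat_lit 83) (nat_lit 5) (nat_lit 416) (nat_lit 334) (nat_lit 270))))) (XT.nd (nat_lit 312) (nat_lit 380) (nat_lit 0) (XT.nd (nat_lit 156) (nat_lit 380) (nat_lit 0) (XT.nd (nat_lit 78) (nat_lit 0) (nat_lit 0) (XT.lf (nat_lit 0) (nat_lit 5050338113) (nat_lit 152) (nat_lit 35385139) (nat_lit 228) (nat_lit 10449813720) (nat_lit 80) (nat_lit 5) (nat_lit 82) (nat_lit 5) (nat_lit 83) (nat_lit 5) (nat_lit 417)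 (nat_lit 334) (nat_lit 269)) (XT.lf (nat_lit 0) (nat_lit 9678068886) (nat_lit 228) (nat_lit 900167487) (nat_lit 76) (nat_lit 5252756942) (nat_lit 80) (nat_lit 5) (nat_lit 83) (nat_lit 5) (nat_lit 81) (nat_lit 5) (nat_lit 418) (nat_lit 334) (nat_lit 268))) (XT.nd (nat_lit 78) (nat_lit 228) (nat_lit 0) (XT.lf (nat_lit 0) (nat_lit 9084936520) (nat_lit 152) (nat_lit 5373819310) (nat_lit 228) (nat_lit 1675044807) (nat_lit 78) (nat_lit 5) (nat_lit 80) (nat_lit 5) (nat_lit 81) (nat_lit 5) (nat_lit 419) (nat_lit 334) (nat_lit 267)) (XT.lf (nat_lit 0) (nat_lit 2880221921) (nat_lit 228) (nat_lit 13538598976) (nat_lit 76) (nat_lit 26017460) (nat_lit 75) (nat_lit 5) (nat_lit 78) (nat_lit 5) (nat_lit 76) (nat_lit 5) (nat_lit 420) (nat_lit 334) (nat_lit 266)))) (XT.nd (nat_lit 156) (nat_lit 228) (nat_lit 0) (XT.nd (nat_lit 78) (nat_lit 152) (nat_lit 0) (XT.lf (nat_lit 0) (nat_lit 7626762946) (nat_lit 228) (nat_lit 3593798617)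 (nat_lit 76) (nat_lit 5541503659) (nat_lit 75) (nat_lit 5) (nat_lit 78) (nat_lit 5) (nat_lit 76) (nat_lit 5) (nat_lit 421) (nat_lit 334) (nat_lit 265)) (XT.lf (nat_lit 0) (nat_lit 6717593195) (nat_lit 152) (nat_lit 5826945134) (nat_lit 228) (nat_lit 4543409344) (nat_lit 73) (nat_lit 5) (nat_lit 75) (nat_lit 5) (nat_lit 76) (nat_lit 5) (nat_lit 422) (nat_lit 334) (nat_lit 264))) (XT.nd (nat_lit 78) (nat_lit 152) (nat_lit 0) (XT.lf (nat_lit 0) (nat_lit 183609863) (nat_lit 228) (nat_lit 75605411) (nat_lit 76) (nat_lit 17164311202) (nat_lit 72) (nat_lit 5) (nat_lit 75) (nat_lit 5) (nat_lit 73) (nat_lit 5) (nat_lit 423) (nat_lit 334) (nat_lit 263)) (XT.lf (nat_lit 0) (nat_lit 5082526084) (nat_lit 228) (nat_lit 7190319231) (nat_lit 76) (nat_lit 5491339257) (nat_lit 70) (nat_lit 5) (nat_lit 73) (nat_lit 5) (nat_lit 71) (nat_lit 5) (nat_lit 424) (nat_lit 334) (nat_lit 262))))))) (XT.nd (nat_lit 1092) (nat_lit 1216) (nat_lit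 0) (XT.nd (nat_lit 546) (nat_lit 532) (nat_lit 0) (XT.nd (nat_lit 234) (nat_lit 380) (nat_lit 0) (XT.nd (nat_lit 78) (nat_lit 228) (nat_lit 0) (XT.lf (nat_lit 0) (nat_lit 3432458201) (nat_lit 152) (nat_lit 6697849699) (nat_lit 228) (nat_lit 7984701053) (nat_lit 68) (nat_lit 5) (nat_lit 70) (nat_lit 5) (nat_lit 71) (nat_lit 5) (nat_lit 425) (nat_lit 334) (nat_lit 261)) (XT.nd (nat_lit 78) (nat_lit 228) (nat_lit 0) (XT.lf (nat_lit 0) (nat_lit 14460636295) (nat_lit 152) (nat_lit 907480382) (nat_lit 228) (nat_lit 3107086968) (nat_lit 68) (nat_lit 5) (nat_lit 70) (nat_lit 5) (nat_lit 71) (nat_lit 5) (nat_lit 426) (nat_lit 334) (nat_lit 260)) (XT.lf (nat_lit 0) (nat_lit 1962905999) (nat_lit 228) (nat_lit 11861148236) (nat_lit 76) (nat_lit 5019096696) (nat_lit 65) (nat_lit 5) (nat_lit 68) (nat_lit 5) (nat_lit 66) (nat_lit 5) (nat_lit 427) (nat_lit 334) (nat_lit 259)))) (XT.nd (nat_lit 156) (nat_lit 228) (nat_lit 0) (XT.nd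 (nat_lit 78) (nat_lit 152) (nat_lit 0) (XT.lf (nat_lit 0) (nat_lit 7139274945) (nat_lit 228) (nat_lit 930039511) (nat_lit 76) (nat_lit 11151400613) (nat_lit 65) (nat_lit 5) (nat_lit 68) (nat_lit 5) (nat_lit 66) (nat_lit 5) (nat_lit 428) (nat_lit 334) (nat_lit 258)) (XT.lf (nat_lit 0) (nat_lit 10475421482) (nat_lit 152) (nat_lit 2063976597) (nat_lit 228) (nat_lit 7068157167) (nat_lit 63) (nat_lit 5) (nat_lit 65) (nat_lit 5) (nat_lit 66) (nat_lit 5) (nat_lit 429) (nat_lit 334) (nat_lit 257))) (XT.nd (nat_lit 78) (nat_lit 76) (nat_lit 0) (XT.lf (nat_lit 0) (nat_lit 2181103899) (nat_lit 152) (nat_lit 15958398151) (nat_lit 228) (nat_lit 1865362181) (nat_lit 61) (nat_lit 5) (nat_lit 63) (nat_lit 5) (nat_lit 64) (nat_lit 4) (nat_lit 430) (nat_lit 334) (nat_lit 256)) (XT.lf (nat_lit 0) (nat_lit 3506883139) (nat_lit 228) (nat_lit 6503526001) (nat_lit 76) (nat_lit 10400232517) (nat_lit 60) (nat_lit 5) (nat_lit 63) (nat_lit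 5) (nat_lit 61) (nat_lit 5) (nat_lit 431) (nat_lit 334) (nat_lit 255))))) (XT.nd (nat_lit 234) (nat_lit 304) (nat_lit 0) (XT.nd (nat_lit 78) (nat_lit 76) (nat_lit 0) (XT.lf (nat_lit 0) (nat_lit 5182462088) (nat_lit 152) (nat_lit 3839064122) (nat_lit 228) (nat_lit 11805953129) (nat_lit 58) (nat_lit 5) (nat_lit 60) (nat_lit 5) (nat_lit 61) (nat_lit 5) (nat_lit 432) (nat_lit 334) (nat_lit 254)) (XT.nd (nat_lit 78) (nat_lit 76) (nat_lit 0) (XT.lf (nat_lit 0) (nat_lit 14761161196) (nat_lit 228) (nat_lit 3983996111) (nat_lit 76) (nat_lit 2509880860) (nat_lit 58) (nat_lit 5) (nat_lit 61) (nat_lit 5) (nat_lit 59) (nat_lit 4) (nat_lit 433) (nat_lit 334) (nat_lit 253)) (XT.lf (nat_lit 0) (nat_lit 8091753459) (nat_lit 76) (nat_lit 12666957759) (nat_lit 152) (nat_lit 934143281) (nat_lit 57) (nat_lit 5) (nat_lit 58) (nat_lit 5) (nat_lit 59) (nat_lit 4) (nat_lit 434) (nat_lit 334) (nat_lit 252)))) (XT.nd (nat_lit 156) (nat_lit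 76) (nat_lit 0) (XT.nd (nat_lit 78) (nat_lit 152) (nat_lit 0) (XT.lf (nat_lit 0) (nat_lit 4709482934) (nat_lit 152) (nat_lit 1632671969) (nat_lit 76) (nat_lit 15799952256) (nat_lit 56) (nat_lit 5) (nat_lit 58) (nat_lit 5) (nat_lit 57) (nat_lit 5) (nat_lit 435) (nat_lit 334) (nat_lit 251)) (XT.lf (nat_lit 0) (nat_lit 10581288465) (nat_lit 228) (nat_lit 11761143436) (nat_lit 76) (nat_lit 259800958) (nat_lit 54) (nat_lit 5) (nat_lit 57) (nat_lit 5) (nat_lit 55) (nat_lit 4) (nat_lit 436) (nat_lit 334) (nat_lit 250))) (XT.nd (nat_lit 78) (nat_lit 0) (nat_lit 0) (XT.lf (nat_lit 0) (nat_lit 540903970) (nat_lit 76) (nat_lit 16143957752) (nat_lit 152) (nat_lit 6389634439) (nat_lit 53) (nat_lit 5) (nat_lit 54) (nat_lit 5) (nat_lit 55) (nat_lit 4) (nat_lit 437) (nat_lit 334) (nat_lit 249)) (XT.lf (nat_lit 0) (nat_lit 13400071518) (nat_lit 76) (nat_lit 9661541306) (nat_lit 152) (nat_lit 496614591) (nat_lit 53) (nat_lit 5)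 (nat_lit 54) (nat_lit 5) (nat_lit 55) (nat_lit 4) (nat_lit 438) (nat_lit 334) (nat_lit 248)))))) (XT.nd (nat_lit 546) (nat_lit 608) (nat_lit 0) (XT.nd (nat_lit 234) (nat_lit 304) (nat_lit 0) (XT.nd (nat_lit 78) (nat_lit 76) (nat_lit 0) (XT.lf (nat_lit 0) (nat_lit 2532334950) (nat_lit 152) (nat_lit 2928314142) (nat_lit 228) (nat_lit 18594330183) (nat_lit 50) (nat_lit 5) (nat_lit 52) (nat_lit 5) (nat_lit 53) (nat_lit 5) (nat_lit 439) (nat_lit 334) (nat_lit 247)) (XT.nd (nat_lit 78) (nat_lit 76) (nat_lit 0) (XT.lf (nat_lit 0) (nat_lit 11700719147) (nat_lit 228) (nat_lit 8848381567) (nat_lit 76) (nat_lit 4013965355) (nat_lit 50) (nat_lit 5) (nat_lit 53) (nat_lit 5) (nat_lit 51) (nat_lit 4) (nat_lit 440) (nat_lit 334) (nat_lit 246)) (XT.lf (nat_lit 0) (nat_lit 4208611420) (nat_lit 76) (nat_lit 13961605521) (nat_lit 152) (nat_lit 6914913689) (nat_lit 49) (nat_lit 5) (nat_lit 50) (nat_lit 5) (nat_lit 51) (nat_lit 4) (nat_lit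 441) (nat_lit 334) (nat_lit 245)))) (XT.nd (nat_lit 156) (nat_lit 76) (nat_lit 0) (XT.nd (nat_lit 78) (nat_lit 228) (nat_lit 0) (XT.lf (nat_lit 0) (nat_lit 17788564103) (nat_lit 76) (nat_lit 7107674549) (nat_lit 152) (nat_lit 724747179) (nat_lit 49) (nat_lit 5) (nat_lit 50) (nat_lit 5) (nat_lit 51) (nat_lit 4) (nat_lit 442) (nat_lit 334) (nat_lit 244)) (XT.lf (nat_lit 0) (nat_lit 5568767806) (nat_lit 228) (nat_lit 20561925779) (nat_lit 76) (nat_lit 39757690) (nat_lit 46) (nat_lit 5) (nat_lit 49) (nat_lit 5) (nat_lit 47) (nat_lit 4) (nat_lit 443) (nat_lit 334) (nat_lit 243))) (XT.nd (nat_lit 78) (nat_lit 76) (nat_lit 0) (XT.lf (nat_lit 0) (nat_lit 12160463584) (nat_lit 228) (nat_lit 7248386138) (nat_lit 76) (nat_lit 7323619142) (nat_lit 46) (nat_lit 5) (nat_lit 49) (nat_lit 5) (nat_lit 47) (nat_lit 4) (nat_lit 444) (nat_lit 334) (nat_lit 242)) (XT.lf (nat_lit 0) (nat_lit 6544415780) (nat_lit 76) (nat_lit 12442863416)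 (nat_lit 152) (nat_lit 8322948381) (nat_lit 45) (nat_lit 5) (nat_lit 46) (nat_lit 5) (nat_lit 47) (nat_lit 4) (nat_lit 445) (nat_lit 334) (nat_lit 241))))) (XT.nd (nat_lit 312) (nat_lit 304) (nat_lit 0) (XT.nd (nat_lit 156) (nat_lit 76) (nat_lit 0) (XT.nd (nat_lit 78) (nat_lit 228) (nat_lit 0) (XT.lf (nat_lit 0) (nat_lit 20852206640) (nat_lit 76) (nat_lit 5214635596) (nat_lit 152) (nat_lit 1837040143) (nat_lit 45) (nat_lit 5) (nat_lit 46) (nat_lit 5) (nat_lit 47) (nat_lit 4) (nat_lit 446) (nat_lit 334) (nat_lit 240)) (XT.lf (nat_lit 0) (nat_lit 4814981505) (nat_lit 228) (nat_lit 21415246988) (nat_lit 76) (nat_lit 2281741634) (nat_lit 42) (nat_lit 5) (nat_lit 45) (nat_lit 5) (nat_lit 43) (nat_lit 4) (nat_lit 447) (nat_lit 334) (nat_lit 239))) (XT.nd (nat_lit 78) (nat_lit 76) (nat_lit 0) (XT.lf (nat_lit 0) (nat_lit 11728495389) (nat_lit 228) (nat_lit 7439128563) (nat_lit 76) (nat_lit 9967166751) (nat_lit 42) (nat_lit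 5) (nat_lit 45) (nat_lit 5) (nat_lit 43) (nat_lit 4) (nat_lit 448) (nat_lit 334) (nat_lit 238)) (XT.lf (nat_lit 0) (nat_lit 7048606318) (nat_lit 76) (nat_lit 11844594071) (nat_lit 152) (nat_lit 10881783372) (nat_lit 41) (nat_lit 5) (nat_lit 42) (nat_lit 5) (nat_lit 43) (nat_lit 4) (nat_lit 449) (nat_lit 334) (nat_lit 237)))) (XT.nd (nat_lit 156) (nat_lit 76) (nat_lit 0) (XT.nd (nat_lit 78) (nat_lit 228) (nat_lit 0) (XT.lf (nat_lit 0) (nat_lit 22078700536) (nat_lit 76) (nat_lit 4245564617) (nat_lit 152) (nat_lit 4108576293) (nat_lit 41) (nat_lit 5) (nat_lit 42) (nat_lit 5) (nat_lit 43) (nat_lit 4) (nat_lit 450) (nat_lit 334) (nat_lit 236)) (XT.lf (nat_lit 0) (nat_lit 2886271806) (nat_lit 228) (nat_lit 24638852689) (nat_lit 76) (nat_lit 3582252469) (nat_lit 38) (nat_lit 5) (nat_lit 41) (nat_lit 5) (nat_lit 39) (nat_lit 4) (nat_lit 451) (nat_lit 334) (nat_lit 235))) (XT.nd (nat_lit 78) (nat_lit 76) (nat_lit 0) (XT.lf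 (nat_lit 0) (nat_lit 10112438805) (nat_lit 228) (nat_lit 10020036505) (nat_lit 76) (nat_lit 11665332592) (nat_lit 38) (nat_lit 5) (nat_lit 41) (nat_lit 5) (nat_lit 39) (nat_lit 4) (nat_lit 452) (nat_lit 334) (nat_lit 234)) (XT.lf (nat_lit 0) (nat_lit 5094038100) (nat_lit 76) (nat_lit 12487815629) (nat_lit 152) (nat_lit 14926305388) (nat_lit 37) (nat_lit 5) (nat_lit 38) (nat_lit 5) (nat_lit 39) (nat_lit 4) (nat_lit 453) (nat_lit 334) (nat_lit 233))))))))
noncomputable def xc87 : XT := (XT.nd (nat_lit 2262) (nat_lit 304) (nat_lit 0) (XT.nd (nat_lit 1092) (nat_lit 608) (nat_lit 0) (XT.nd (nat_lit 546) (nat_lit 304) (nat_lit 0) (XT.nd (nat_lit 234) (nat_lit 228) (nat_lit 0) (XT.nd (nat_lit 78) (nat_lit 152) (nat_lit 0) (XT.lf (nat_lit 0) (nat_lit 20824645490) (nat_lit 76) (nat_lit 4529633178) (nat_lit 152) (nat_lit 7883175579) (nat_lit 37) (nat_lit 5) (nat_lit 38) (nat_lit 5) (nat_lit 39) (nat_lit 4) (nat_lit 454)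 (nat_lit 334) (nat_lit 232)) (XT.nd (nat_lit 78) (nat_lit 76) (nat_lit 0) (XT.lf (nat_lit 0) (nat_lit 3020714598) (nat_lit 76) (nat_lit 30381657065) (nat_lit 76) (nat_lit 584982875) (nat_lit 36) (nat_lit 4) (nat_lit 37) (nat_lit 5) (nat_lit 37) (nat_lit 4) (nat_lit 455) (nat_lit 334) (nat_lit 231)) (XT.lf (nat_lit 0) (nat_lit 6946549320) (nat_lit 152) (nat_lit 15738570727) (nat_lit 76) (nat_lit 12068143857) (nat_lit 35) (nat_lit 5) (nat_lit 37) (nat_lit 5) (nat_lit 36) (nat_lit 4) (nat_lit 456) (nat_lit 334) (nat_lit 230)))) (XT.nd (nat_lit 156) (nat_lit 152) (nat_lit 0) (XT.nd (nat_lit 78) (nat_lit 76) (nat_lit 0) (XT.lf (nat_lit 0) (nat_lit 14671135062) (nat_lit 152) (nat_lit 99789493) (nat_lit 76) (nat_lit 20771687353) (nat_lit 35) (nat_lit 5) (nat_lit 37) (nat_lit 5) (nat_lit 36) (nat_lit 4) (nat_lit 457) (nat_lit 334) (nat_lit 229)) (XT.lf (nat_lit 0) (nat_lit 16286806180) (nat_lit 76) (nat_lit 6476691675)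 (nat_lit 152) (nat_lit 13588062348) (nat_lit 34) (nat_lit 5) (nat_lit 35) (nat_lit 5) (nat_lit 36) (nat_lit 4) (nat_lit 458) (nat_lit 334) (nat_lit 228))) (XT.nd (nat_lit 78) (nat_lit 152) (nat_lit 0) (XT.lf (nat_lit 0) (nat_lit 31099040310) (nat_lit 152) (nat_lit 4076786026) (nat_lit 0) (nat_lit 2008939357) (nat_lit 34) (nat_lit 5) (nat_lit 36) (nat_lit 4) (nat_lit 34) (nat_lit 4) (nat_lit 459) (nat_lit 334) (nat_lit 227)) (XT.lf (nat_lit 0) (nat_lit 1776003148) (nat_lit 152) (nat_lit 25522244586) (nat_lit 76) (nat_lit 10739256441) (nat_lit 32) (nat_lit 5) (nat_lit 34) (nat_lit 5) (nat_lit 33) (nat_lit 4) (nat_lit 460) (nat_lit 334) (nat_lit 226))))) (XT.nd (nat_lit 234) (nat_lit 228) (nat_lit 0) (XT.nd (nat_lit 78) (nat_lit 76) (nat_lit 0) (XT.lf (nat_lit 0) (nat_lit 9772986797) (nat_lit 152) (nat_lit 9324707607) (nat_lit 76) (nat_lit 19815672076) (nat_lit 32) (nat_lit 5) (nat_lit 34) (nat_lit 5) (nat_lit 33)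 (nat_lit 4) (nat_lit 461) (nat_lit 334) (nat_lit 225)) (XT.nd (nat_lit 78) (nat_lit 0) (nat_lit 0) (XT.lf (nat_lit 0) (nat_lit 7467490389) (nat_lit 76) (nat_lit 10594895119) (nat_lit 152) (nat_lit 21751544876) (nat_lit 31) (nat_lit 5) (nat_lit 32) (nat_lit 5) (nat_lit 33) (nat_lit 4) (nat_lit 462) (nat_lit 334) (nat_lit 224)) (XT.lf (nat_lit 0) (nat_lit 24917981539) (nat_lit 76) (nat_lit 1757578809) (nat_lit 152) (nat_lit 14063698901) (nat_lit 31) (nat_lit 5) (nat_lit 32) (nat_lit 5) (nat_lit 33) (nat_lit 4) (nat_lit 463) (nat_lit 334) (nat_lit 223)))) (XT.nd (nat_lit 156) (nat_lit 76) (nat_lit 0) (XT.nd (nat_lit 78) (nat_lit 76) (nat_lit 0) (XT.lf (nat_lit 0) (nat_lit 1114844901) (nat_lit 76) (nat_lit 34494929802) (nat_lit 76) (nat_lit 6080694792) (nat_lit 30) (nat_lit 4) (nat_lit 31) (nat_lit 5) (nat_lit 31) (nat_lit 4) (nat_lit 464) (nat_lit 334) (nat_lit 222)) (XT.lf (nat_lit 0) (nat_lit 2260095222) (nat_lit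 152) (nat_lit 23857588764) (nat_lit 76) (nat_lit 16547112509) (nat_lit 29) (nat_lit 5) (nat_lit 31) (nat_lit 5) (nat_lit 30) (nat_lit 4) (nat_lit 465) (nat_lit 334) (nat_lit 221))) (XT.nd (nat_lit 78) (nat_lit 76) (nat_lit 0) (XT.lf (nat_lit 0) (nat_lit 10710778944) (nat_lit 152) (nat_lit 6733134843) (nat_lit 76) (nat_lit 26223177564) (nat_lit 29) (nat_lit 5) (nat_lit 31) (nat_lit 5) (nat_lit 30) (nat_lit 4) (nat_lit 466) (nat_lit 334) (nat_lit 220)) (XT.lf (nat_lit 0) (nat_lit 11087508875) (nat_lit 76) (nat_lit 8416467767) (nat_lit 152) (nat_lit 25192809358) (nat_lit 28) (nat_lit 5) (nat_lit 29) (nat_lit 5) (nat_lit 30) (nat_lit 4) (nat_lit 467) (nat_lit 334) (nat_lit 219)))))) (XT.nd (nat_lit 546) (nat_lit 380) (nat_lit 0) (XT.nd (nat_lit 234) (nat_lit 76) (nat_lit 0) (XT.nd (nat_lit 78) (nat_lit 152) (nat_lit 0) (XT.lf (nat_lit 0) (nat_lit 28620558966) (nat_lit 152) (nat_lit 16217622647) (nat_lit 0) (nat_lit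 917402941) (nat_lit 28) (nat_lit 5) (nat_lit 30) (nat_lit 4) (nat_lit 28) (nat_lit 4) (nat_lit 468) (nat_lit 334) (nat_lit 218)) (XT.nd (nat_lit 78) (nat_lit 76) (nat_lit 0) (XT.lf (nat_lit 0) (nat_lit 1610937852) (nat_lit 76) (nat_lit 36481476461) (nat_lit 76) (nat_lit 8751280190) (nat_lit 27) (nat_lit 4) (nat_lit 28) (nat_lit 5) (nat_lit 28) (nat_lit 4) (nat_lit 469) (nat_lit 334) (nat_lit 217)) (XT.lf (nat_lit 0) (nat_lit 34603242) (nat_lit 152) (nat_lit 27686204355) (nat_lit 76) (nat_lit 20239223430) (nat_lit 26) (nat_lit 5) (nat_lit 28) (nat_lit 5) (nat_lit 27) (nat_lit 4) (nat_lit 470) (nat_lit 334) (nat_lit 216)))) (XT.nd (nat_lit 156) (nat_lit 0) (nat_lit 0) (XT.nd (nat_lit 78) (nat_lit 76) (nat_lit 0) (XT.lf (nat_lit 0) (nat_lit 8891641033) (nat_lit 152) (nat_lit 9731905664) (nat_lit 76) (nat_lit 30484208108) (nat_lit 26) (nat_lit 5) (nat_lit 28) (nat_lit 5) (nat_lit 27) (nat_lit 4) (nat_lit 471) (nat_lit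 334) (nat_lit 215)) (XT.lf (nat_lit 0) (nat_lit 8903693431) (nat_lit 76) (nat_lit 9180235657) (nat_lit 152) (nat_lit 32203895662) (nat_lit 25) (nat_lit 5) (nat_lit 26) (nat_lit 5) (nat_lit 27) (nat_lit 4) (nat_lit 472) (nat_lit 334) (nat_lit 214))) (XT.nd (nat_lit 78) (nat_lit 0) (nat_lit 0) (XT.lf (nat_lit 0) (nat_lit 27640463971) (nat_lit 152) (nat_lit 23239819510) (nat_lit 0) (nat_lit 620359576) (nat_lit 25) (nat_lit 5) (nat_lit 27) (nat_lit 4) (nat_lit 25) (nat_lit 4) (nat_lit 473) (nat_lit 334) (nat_lit 213)) (XT.lf (nat_lit 0) (nat_lit 37559034859) (nat_lit 152) (nat_lit 4672266763) (nat_lit 0) (nat_lit 10516284684) (nat_lit 25) (nat_lit 5) (nat_lit 27) (nat_lit 4) (nat_lit 25) (nat_lit 4) (nat_lit 474) (nat_lit 334) (nat_lit 212))))) (XT.nd (nat_lit 312) (nat_lit 152) (nat_lit 0) (XT.nd (nat_lit 156) (nat_lit 76) (nat_lit 0) (XT.nd (nat_lit 78) (nat_lit 76) (nat_lit 0) (XT.lf (nat_lit 0) (nat_lit 14710042956)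 (nat_lit 76) (nat_lit 33191421398) (nat_lit 76) (nat_lit 6126685028) (nat_lit 24) (nat_lit 4) (nat_lit 25) (nat_lit 5) (nat_lit 25) (nat_lit 4) (nat_lit 475) (nat_lit 334) (nat_lit 211)) (XT.lf (nat_lit 0) (nat_lit 3177016269) (nat_lit 152) (nat_lit 20636739162) (nat_lit 76) (nat_lit 31531472830) (nat_lit 23) (nat_lit 5) (nat_lit 25) (nat_lit 5) (nat_lit 24) (nat_lit 4) (nat_lit 476) (nat_lit 334) (nat_lit 210))) (XT.nd (nat_lit 78) (nat_lit 76) (nat_lit 0) (XT.lf (nat_lit 0) (nat_lit 12622039631) (nat_lit 152) (nat_lit 1484065833) (nat_lit 76) (nat_lit 42594334220) (nat_lit 23) (nat_lit 5) (nat_lit 25) (nat_lit 5) (nat_lit 24) (nat_lit 4) (nat_lit 477) (nat_lit 334) (nat_lit 209)) (XT.lf (nat_lit 0) (nat_lit 18578067359) (nat_lit 76) (nat_lit 3936708073) (nat_lit 152) (nat_lit 35576601676) (nat_lit 22) (nat_lit 5) (nat_lit 23) (nat_lit 5) (nat_lit 24) (nat_lit 4) (nat_lit 478) (nat_lit 334) (nat_lit 208)))) (XT.nd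 (nat_lit 156) (nat_lit 152) (nat_lit 0) (XT.nd (nat_lit 78) (nat_lit 0) (nat_lit 0) (XT.lf (nat_lit 0) (nat_lit 32768074099) (nat_lit 152) (nat_lit 20341769119) (nat_lit 0) (nat_lit 6412286509) (nat_lit 22) (nat_lit 5) (nat_lit 24) (nat_lit 4) (nat_lit 22) (nat_lit 4) (nat_lit 479) (nat_lit 334) (nat_lit 207)) (XT.lf (nat_lit 0) (nat_lit 43354163794) (nat_lit 152) (nat_lit 660922737) (nat_lit 0) (nat_lit 16979963112) (nat_lit 22) (nat_lit 5) (nat_lit 24) (nat_lit 4) (nat_lit 22) (nat_lit 4) (nat_lit 480) (nat_lit 334) (nat_lit 206))) (XT.nd (nat_lit 78) (nat_lit 76) (nat_lit 0) (XT.lf (nat_lit 0) (nat_lit 19974033636) (nat_lit 76) (nat_lit 34462421445) (nat_lit 76) (nat_lit 8070343975) (nat_lit 21) (nat_lit 4) (nat_lit 22) (nat_lit 5) (nat_lit 22) (nat_lit 4) (nat_lit 481) (nat_lit 334) (nat_lit 205)) (XT.lf (nat_lit 0) (nat_lit 1745803610) (nat_lit 152) (nat_lit 22865452246) (nat_lit 76) (nat_lit 39452329122)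 (nat_lit 20) (nat_lit 5) (nat_lit 22) (nat_lit 5) (nat_lit 21) (nat_lit 4) (nat_lit 482) (nat_lit 334) (nat_lit 204))))))) (XT.nd (nat_lit 43212) (nat_lit 0) (nat_lit 16720) (XT.nd (nat_lit 546) (nat_lit 76) (nat_lit 0) (XT.nd (nat_lit 234) (nat_lit 152) (nat_lit 0) (XT.nd (nat_lit 78) (nat_lit 76) (nat_lit 0) (XT.lf (nat_lit 0) (nat_lit 11681245513) (nat_lit 152) (nat_lit 2713355770) (nat_lit 76) (nat_lit 51270466015) (nat_lit 20) (nat_lit 5) (nat_lit 22) (nat_lit 5) (nat_lit 21) (nat_lit 4) (nat_lit 483) (nat_lit 334) (nat_lit 203)) (XT.nd (nat_lit 78) (nat_lit 0) (nat_lit 0) (XT.lf (nat_lit 0) (nat_lit 18377317372) (nat_lit 76) (nat_lit 3701481311) (nat_lit 152) (nat_lit 45230874379) (nat_lit 19) (nat_lit 5) (nat_lit 20) (nat_lit 5) (nat_lit 21) (nat_lit 4) (nat_lit 484) (nat_lit 334) (nat_lit 202)) (XT.lf (nat_lit 0) (nat_lit 32873653747) (nat_lit 152) (nat_lit 28941639185) (nat_lit 0) (nat_lit 7185763212)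 (nat_lit 19) (nat_lit 5) (nat_lit 21) (nat_lit 4) (nat_lit 19) (nat_lit 4) (nat_lit 485) (nat_lit 334) (nat_lit 201)))) (XT.nd (nat_lit 156) (nat_lit 76) (nat_lit 0) (XT.nd (nat_lit 78) (nat_lit 76) (nat_lit 0) (XT.lf (nat_lit 0) (nat_lit 44016782276) (nat_lit 152) (nat_lit 8411745785) (nat_lit 0) (nat_lit 18313920213) (nat_lit 19) (nat_lit 5) (nat_lit 21) (nat_lit 4) (nat_lit 19) (nat_lit 4) (nat_lit 486) (nat_lit 334) (nat_lit 200)) (XT.lf (nat_lit 0) (nat_lit 12963814875) (nat_lit 76) (nat_lit 42643141328) (nat_lit 76) (nat_lit 16925743800) (nat_lit 18) (nat_lit 4) (nat_lit 19) (nat_lit 5) (nat_lit 19) (nat_lit 4) (nat_lit 487) (nat_lit 334) (nat_lit 199))) (XT.nd (nat_lit 78) (nat_lit 76) (nat_lit 0) (XT.lf (nat_lit 0) (nat_lit 35130102087) (nat_lit 76) (nat_lit 32487935562) (nat_lit 76) (nat_lit 6756425933) (nat_lit 18) (nat_lit 4) (nat_lit 19) (nat_lit 5) (nat_lit 19) (nat_lit 4) (nat_lit 488) (nat_lit 334)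 (nat_lit 198)) (XT.lf (nat_lit 0) (nat_lit 3633909354) (nat_lit 152) (nat_lit 18368374710) (nat_lit 76) (nat_lit 54268469504) (nat_lit 17) (nat_lit 5) (nat_lit 19) (nat_lit 5) (nat_lit 18) (nat_lit 4) (nat_lit 489) (nat_lit 334) (nat_lit 197))))) (XT.nd (nat_lit 42354) (nat_lit 0) (nat_lit 26068) (XT.nd (nat_lit 42198) (nat_lit 0) (nat_lit 27360) (XT.lf (nat_lit 0) (nat_lit 3105723387) (nat_lit 76) (nat_lit 11113112127) (nat_lit 152) (nat_lit 64002529867) (nat_lit 16) (nat_lit 5) (nat_lit 17) (nat_lit 5) (nat_lit 18) (nat_lit 4) (nat_lit 490) (nat_lit 334) (nat_lit 196)) (XT.nd (nat_lit 78) (nat_lit 532) (nat_lit 0) (XT.lf (nat_lit 0) (nat_lit 1400771284) (nat_lit 380) (nat_lit 936917361) (nat_lit 380) (nat_lit 936917361) (nat_lit 383) (nat_lit 4) (nat_lit 388) (nat_lit 5) (nat_lit 388) (nat_lit 4) (nat_lit 350) (nat_lit 335) (nat_lit 335)) (XT.lf (nat_lit 0) (nat_lit 158834067) (nat_lit 456) (nat_lit 1145746736)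 (nat_lit 532) (nat_lit 5267898253) (nat_lit 376) (nat_lit 5) (nat_lit 382) (nat_lit 5) (nat_lit 383) (nat_lit 4) (nat_lit 351) (nat_lit 335) (nat_lit 334)))) (XT.nd (nat_lit 156) (nat_lit 684) (nat_lit 0) (XT.nd (nat_lit 78) (nat_lit 608) (nat_lit 0) (XT.lf (nat_lit 0) (nat_lit 4162146119) (nat_lit 456) (nat_lit 305128443) (nat_lit 532) (nat_lit 2130876632) (nat_lit 376) (nat_lit 5) (nat_lit 382) (nat_lit 5) (nat_lit 383) (nat_lit 4) (nat_lit 352) (nat_lit 335) (nat_lit 333)) (XT.lf (nat_lit 0) (nat_lit 991176417) (nat_lit 608) (nat_lit 5029640741) (nat_lit 76) (nat_lit 606145113) (nat_lit 368) (nat_lit 5) (nat_lit 376) (nat_lit 5) (nat_lit 369) (nat_lit 4) (nat_lit 353) (nat_lit 335) (nat_lit 332))) (XT.nd (nat_lit 78) (nat_lit 684) (nat_lit 0) (XT.lf (nat_lit 0) (nat_lit 4085669419) (nat_lit 608) (nat_lit 959677326) (nat_lit 76) (nat_lit 1613065903) (nat_lit 368) (nat_lit 5) (nat_lit 376) (nat_lit 5) (nat_lit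 369) (nat_lit 4) (nat_lit 354) (nat_lit 335) (nat_lit 331)) (XT.lf (nat_lit 0) (nat_lit 497818649) (nat_lit 684) (nat_lit 3481397812) (nat_lit 76) (nat_lit 2713665408) (nat_lit 359) (nat_lit 5) (nat_lit 368) (nat_lit 5) (nat_lit 360) (nat_lit 5) (nat_lit 355) (nat_lit 335) (nat_lit 330)))))) (XT.nd (nat_lit 546) (nat_lit 5928) (nat_lit 0) (XT.nd (nat_lit 234) (nat_lit 1900) (nat_lit 0) (XT.nd (nat_lit 78) (nat_lit 836) (nat_lit 0) (XT.lf (nat_lit 0) (nat_lit 707649258) (nat_lit 684) (nat_lit 2815771196) (nat_lit 760) (nat_lit 3206812898) (nat_lit 350) (nat_lit 5) (nat_lit 359) (nat_lit 5) (nat_lit 360) (nat_lit 5) (nat_lit 356) (nat_lit 335) (nat_lit 329)) (XT.nd (nat_lit 78) (nat_lit 836) (nat_lit 0) (XT.lf (nat_lit 0) (nat_lit 5014567640) (nat_lit 684) (nat_lit 1560630081) (nat_lit 760) (nat_lit 195495284) (nat_lit 350) (nat_lit 5) (nat_lit 359) (nat_lit 5) (nat_lit 360) (nat_lit 5) (nat_lit 357) (nat_lit 335)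 (nat_lit 328)) (XT.lf (nat_lit 0) (nat_lit 2581919948) (nat_lit 760) (nat_lit 194502322) (nat_lit 836) (nat_lit 4037343987) (nat_lit 339) (nat_lit 5) (nat_lit 349) (nat_lit 5) (nat_lit 350) (nat_lit 5) (nat_lit 358) (nat_lit 335) (nat_lit 327)))) (XT.nd (nat_lit 156) (nat_lit 988) (nat_lit 0) (XT.nd (nat_lit 78) (nat_lit 76) (nat_lit 0) (XT.lf (nat_lit 0) (nat_lit 136227744) (nat_lit 836) (nat_lit 5632635548) (nat_lit 912) (nat_lit 1091197111) (nat_lit 328) (nat_lit 5) (nat_lit 339) (nat_lit 5) (nat_lit 340) (nat_lit 5) (nat_lit 359) (nat_lit 335) (nat_lit 326)) (XT.lf (nat_lit 0) (nat_lit 1855956726) (nat_lit 912) (nat_lit 2287695555) (nat_lit 76) (nat_lit 2765057357) (nat_lit 327) (nat_lit 5) (nat_lit 339) (nat_lit 5) (nat_lit 328) (nat_lit 5) (nat_lit 360) (nat_lit 335) (nat_lit 325))) (XT.nd (nat_lit 78) (nat_lit 76) (nat_lit 0) (XT.lf (nat_lit 0) (nat_lit 2234422864) (nat_lit 912) (nat_lit 2564864299) (nat_lit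 988) (nat_lit 2161357997) (nat_lit 315) (nat_lit 5) (nat_lit 327) (nat_lit 5) (nat_lit 328) (nat_lit 5) (nat_lit 361) (nat_lit 335) (nat_lit 324)) (XT.lf (nat_lit 0) (nat_lit 733369017) (nat_lit 988) (nat_lit 163389104) (nat_lit 76) (nat_lit 6119208580) (nat_lit 314) (nat_lit 5) (nat_lit 327) (nat_lit 5) (nat_lit 315) (nat_lit 5) (nat_lit 362) (nat_lit 335) (nat_lit 323))))) (XT.nd (nat_lit 312) (nat_lit 2660) (nat_lit 0) (XT.nd (nat_lit 156) (nat_lit 1216) (nat_lit 0) (XT.nd (nat_lit 78) (nat_lit 1064) (nat_lit 0) (XT.lf (nat_lit 0) (nat_lit 3635463376) (nat_lit 1064) (nat_lit 2557698470) (nat_lit 76) (nat_lit 880263258) (nat_lit 301) (nat_lit 5) (nat_lit 315) (nat_lit 5) (nat_lit 302) (nat_lit 5) (nat_lit 363) (nat_lit 335) (nat_lit 322)) (XT.lf (nat_lit 0) (nat_lit 2158692356) (nat_lit 1064) (nat_lit 4410968409) (nat_lit 1140) (nat_lit 564632382) (nat_lit 287) (nat_lit 5) (nat_lit 301) (nat_lit 5) (nat_lit 302)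 (nat_lit 5) (nat_lit 364) (nat_lit 335) (nat_lit 321))) (XT.nd (nat_lit 78) (nat_lit 1140) (nat_lit 0) (XT.lf (nat_lit 0) (nat_lit 2288865342) (nat_lit 1140) (nat_lit 231972475) (nat_lit 76) (nat_lit 4677272693) (nat_lit 286) (nat_lit 5) (nat_lit 301) (nat_lit 5) (nat_lit 287) (nat_lit 5) (nat_lit 365) (nat_lit 335) (nat_lit 320)) (XT.lf (nat_lit 0) (nat_lit 4660196576) (nat_lit 1140) (nat_lit 518324482) (nat_lit 1216) (nat_lit 2086330520) (nat_lit 271) (nat_lit 5) (nat_lit 286) (nat_lit 5) (nat_lit 287) (nat_lit 5) (nat_lit 366) (nat_lit 335) (nat_lit 319)))) (XT.nd (nat_lit 156) (nat_lit 1368) (nat_lit 0) (XT.nd (nat_lit 78) (nat_lit 0) (nat_lit 0) (XT.lf (nat_lit 0) (nat_lit 763105240) (nat_lit 1292) (nat_lit 5022433356) (nat_lit 76) (nat_lit 1549115651) (nat_lit 254) (nat_lit 5) (nat_lit 271) (nat_lit 5) (nat_lit 255) (nat_lit 5) (nat_lit 367) (nat_lit 335) (nat_lit 318)) (XT.lf (nat_lit 0) (nat_lit 3607355486)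 (nat_lit 1292) (nat_lit 83491401) (nat_lit 76) (nat_lit 3716577535) (nat_lit 254) (nat_lit 5) (nat_lit 271) (nat_lit 5) (nat_lit 255) (nat_lit 5) (nat_lit 368) (nat_lit 335) (nat_lit 317))) (XT.nd (nat_lit 78) (nat_lit 684) (nat_lit 0) (XT.lf (nat_lit 0) (nat_lit 5022325068) (nat_lit 684) (nat_lit 1484798782) (nat_lit 760) (nat_lit 976178292) (nat_lit 245) (nat_lit 5) (nat_lit 254) (nat_lit 5) (nat_lit 255) (nat_lit 5) (nat_lit 369) (nat_lit 335) (nat_lit 316)) (XT.lf (nat_lit 0) (nat_lit 1851922501) (nat_lit 684) (nat_lit 4895314902) (nat_lit 76) (nat_lit 814973886) (nat_lit 236) (nat_lit 5) (nat_lit 245) (nat_lit 5) (nat_lit 237) (nat_lit 5) (nat_lit 370) (nat_lit 335) (nat_lit 315))))))))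
noncomputable def xc88 : XT := (XT.nd (nat_lit 2184) (nat_lit 4180) (nat_lit 0) (XT.nd (nat_lit 1092) (nat_lit 3344) (nat_lit 0) (XT.nd (nat_lit 546) (nat_lit 2432) (nat_lit 0) (XT.nd (nat_lit 234) (nat_lit 1596) (nat_lit 0) (XT.nd (nat_lit 78) (nat_lit 608) (nat_lit 0) (XT.lf (nat_lit 0) (nat_lit 255104162) (nat_lit 608) (nat_lit 4456495644) (nat_lit 684) (nat_lit 2932634939) (nat_lit 228) (nat_lit 5) (nat_lit 236) (nat_lit 5) (nat_lit 237) (nat_lit 5) (nat_lit 371) (nat_lit 335) (nat_lit 314)) (XT.nd (nat_lit 78) (nat_lit 608) (nat_lit 0) (XT.lf (nat_lit 0) (nat_lit 5579611521) (nat_lit 608) (nat_lit 2052426545) (nat_lit 684) (nat_lit 97458517) (nat_lit 228) (nat_lit 5) (nat_lit 236) (nat_lit 5) (nat_lit 237) (nat_lit 5) (nat_lit 372) (nat_lit 335) (nat_lit 313)) (XT.lf (nat_lit 0) (nat_lit 2730016152) (nat_lit 608) (nat_lit 4620389790) (nat_lit 76) (nat_lit 467251801) (nat_lit 220) (nat_lit 5) (nat_lit 228)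 (nat_lit 5) (nat_lit 221) (nat_lit 5) (nat_lit 373) (nat_lit 335) (nat_lit 312)))) (XT.nd (nat_lit 156) (nat_lit 988) (nat_lit 0) (XT.nd (nat_lit 78) (nat_lit 76) (nat_lit 0) (XT.lf (nat_lit 0) (nat_lit 753068538) (nat_lit 532) (nat_lit 4865032483) (nat_lit 608) (nat_lit 2291025950) (nat_lit 213) (nat_lit 5) (nat_lit 220) (nat_lit 5) (nat_lit 221) (nat_lit 5) (nat_lit 374) (nat_lit 335) (nat_lit 311)) (XT.lf (nat_lit 0) (nat_lit 553959976) (nat_lit 608) (nat_lit 1707486962) (nat_lit 76) (nat_lit 5742467208) (nat_lit 212) (nat_lit 5) (nat_lit 220) (nat_lit 5) (nat_lit 213) (nat_lit 5) (nat_lit 375) (nat_lit 335) (nat_lit 310))) (XT.nd (nat_lit 78) (nat_lit 532) (nat_lit 0) (XT.lf (nat_lit 0) (nat_lit 3410987865) (nat_lit 532) (nat_lit 4228318618) (nat_lit 76) (nat_lit 462398202) (nat_lit 206) (nat_lit 5) (nat_lit 213) (nat_lit 5) (nat_lit 207) (nat_lit 5) (nat_lit 376) (nat_lit 335) (nat_lit 309)) (XT.lf (nat_lit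 0) (nat_lit 1378462761) (nat_lit 532) (nat_lit 4960396885) (nat_lit 608) (nat_lit 1864037089) (nat_lit 199) (nat_lit 5) (nat_lit 206) (nat_lit 5) (nat_lit 207) (nat_lit 5) (nat_lit 377) (nat_lit 335) (nat_lit 308))))) (XT.nd (nat_lit 234) (nat_lit 1444) (nat_lit 0) (XT.nd (nat_lit 78) (nat_lit 912) (nat_lit 0) (XT.lf (nat_lit 0) (nat_lit 1002732390) (nat_lit 608) (nat_lit 1157432295) (nat_lit 76) (nat_lit 6147406477) (nat_lit 198) (nat_lit 5) (nat_lit 206) (nat_lit 5) (nat_lit 199) (nat_lit 5) (nat_lit 378) (nat_lit 335) (nat_lit 307)) (XT.nd (nat_lit 78) (nat_lit 456) (nat_lit 0) (XT.lf (nat_lit 0) (nat_lit 3904993690) (nat_lit 532) (nat_lit 3749461762) (nat_lit 76) (nat_lit 760788014) (nat_lit 192) (nat_lit 5) (nat_lit 199) (nat_lit 5) (nat_lit 193) (nat_lit 5) (nat_lit 379) (nat_lit 335) (nat_lit 306)) (XT.lf (nat_lit 0) (nat_lit 2101224713) (nat_lit 456) (nat_lit 4782081173) (nat_lit 532) (nat_lit 1643189920)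 (nat_lit 186) (nat_lit 5) (nat_lit 192) (nat_lit 5) (nat_lit 193) (nat_lit 5) (nat_lit 380) (nat_lit 335) (nat_lit 305)))) (XT.nd (nat_lit 156) (nat_lit 912) (nat_lit 0) (XT.nd (nat_lit 78) (nat_lit 456) (nat_lit 0) (XT.lf (nat_lit 0) (nat_lit 1258622173) (nat_lit 532) (nat_lit 529028735) (nat_lit 76) (nat_lit 6853846284) (nat_lit 185) (nat_lit 5) (nat_lit 192) (nat_lit 5) (nat_lit 186) (nat_lit 5) (nat_lit 381) (nat_lit 335) (nat_lit 304)) (XT.lf (nat_lit 0) (nat_lit 4218817547) (nat_lit 532) (nat_lit 3214507864) (nat_lit 76) (nat_lit 1326022185) (nat_lit 179) (nat_lit 5) (nat_lit 186) (nat_lit 5) (nat_lit 180) (nat_lit 5) (nat_lit 382) (nat_lit 335) (nat_lit 303))) (XT.nd (nat_lit 78) (nat_lit 456) (nat_lit 0) (XT.lf (nat_lit 0) (nat_lit 2890865988) (nat_lit 456) (nat_lit 4366670581) (nat_lit 532) (nat_lit 1623522609) (nat_lit 173) (nat_lit 5) (nat_lit 179) (nat_lit 5) (nat_lit 180) (nat_lit 5) (nat_lit 383)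 (nat_lit 335) (nat_lit 302)) (XT.lf (nat_lit 0) (nat_lit 149733290) (nat_lit 380) (nat_lit 1177786876) (nat_lit 456) (nat_lit 7679315706) (nat_lit 167) (nat_lit 5) (nat_lit 172) (nat_lit 5) (nat_lit 173) (nat_lit 5) (nat_lit 384) (nat_lit 335) (nat_lit 301)))))) (XT.nd (nat_lit 546) (nat_lit 1748) (nat_lit 0) (XT.nd (nat_lit 234) (nat_lit 760) (nat_lit 0) (XT.nd (nat_lit 78) (nat_lit 836) (nat_lit 0) (XT.lf (nat_lit 0) (nat_lit 4355886284) (nat_lit 456) (nat_lit 2655131650) (nat_lit 76) (nat_lit 2124258740) (nat_lit 167) (nat_lit 5) (nat_lit 173) (nat_lit 5) (nat_lit 168) (nat_lit 5) (nat_lit 385) (nat_lit 335) (nat_lit 300)) (XT.nd (nat_lit 78) (nat_lit 456) (nat_lit 0) (XT.lf (nat_lit 0) (nat_lit 3715797958) (nat_lit 380) (nat_lit 3748513990) (nat_lit 456) (nat_lit 1803597778) (nat_lit 162) (nat_lit 5) (nat_lit 167) (nat_lit 5) (nat_lit 168) (nat_lit 5) (nat_lit 386) (nat_lit 335) (nat_lit 299)) (XT.lf (nat_lit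 0) (nat_lit 854500199) (nat_lit 380) (nat_lit 359843767) (nat_lit 456) (nat_lit 8190503693) (nat_lit 156) (nat_lit 5) (nat_lit 161) (nat_lit 5) (nat_lit 162) (nat_lit 5) (nat_lit 387) (nat_lit 335) (nat_lit 298)))) (XT.nd (nat_lit 156) (nat_lit 380) (nat_lit 0) (XT.nd (nat_lit 78) (nat_lit 380) (nat_lit 0) (XT.lf (nat_lit 0) (nat_lit 4316224806) (nat_lit 456) (nat_lit 2104693965) (nat_lit 76) (nat_lit 3123563680) (nat_lit 156) (nat_lit 5) (nat_lit 162) (nat_lit 5) (nat_lit 157) (nat_lit 5) (nat_lit 388) (nat_lit 335) (nat_lit 297)) (XT.lf (nat_lit 0) (nat_lit 4542612046) (nat_lit 380) (nat_lit 2960379855) (nat_lit 456) (nat_lit 2185573068) (nat_lit 151) (nat_lit 5) (nat_lit 156) (nat_lit 5) (nat_lit 157) (nat_lit 5) (nat_lit 389) (nat_lit 335) (nat_lit 296))) (XT.nd (nat_lit 78) (nat_lit 0) (nat_lit 0) (XT.lf (nat_lit 0) (nat_lit 917123258) (nat_lit 380) (nat_lit 8303601653) (nat_lit 76) (nat_lit 616367221) (nat_lit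 146) (nat_lit 5) (nat_lit 151) (nat_lit 5) (nat_lit 147) (nat_lit 5) (nat_lit 390) (nat_lit 335) (nat_lit 295)) (XT.lf (nat_lit 0) (nat_lit 4096348620) (nat_lit 380) (nat_lit 1598998070) (nat_lit 76) (nat_lit 4293270385) (nat_lit 146) (nat_lit 5) (nat_lit 151) (nat_lit 5) (nat_lit 147) (nat_lit 5) (nat_lit 391) (nat_lit 335) (nat_lit 294))))) (XT.nd (nat_lit 234) (nat_lit 988) (nat_lit 0) (XT.nd (nat_lit 78) (nat_lit 380) (nat_lit 0) (XT.lf (nat_lit 0) (nat_lit 5335299648) (nat_lit 380) (nat_lit 2034108889) (nat_lit 456) (nat_lit 2775337560) (nat_lit 141) (nat_lit 5) (nat_lit 146) (nat_lit 5) (nat_lit 147) (nat_lit 5) (nat_lit 392) (nat_lit 335) (nat_lit 293)) (XT.nd (nat_lit 78) (nat_lit 0) (nat_lit 0) (XT.lf (nat_lit 0) (nat_lit 428098300) (nat_lit 380) (nat_lit 8155378139) (nat_lit 76) (nat_lit 1721923823) (nat_lit 136) (nat_lit 5) (nat_lit 141) (nat_lit 5) (nat_lit 137) (nat_lit 5) (nat_lit 393) (nat_lit 335)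 (nat_lit 292)) (XT.lf (nat_lit 0) (nat_lit 3689090010) (nat_lit 380) (nat_lit 1177117681) (nat_lit 76) (nat_lit 5603336015) (nat_lit 136) (nat_lit 5) (nat_lit 141) (nat_lit 5) (nat_lit 137) (nat_lit 5) (nat_lit 394) (nat_lit 335) (nat_lit 291)))) (XT.nd (nat_lit 156) (nat_lit 380) (nat_lit 0) (XT.nd (nat_lit 78) (nat_lit 304) (nat_lit 0) (XT.lf (nat_lit 0) (nat_lit 6054395631) (nat_lit 304) (nat_lit 1001275353) (nat_lit 380) (nat_lit 3582718402) (nat_lit 132) (nat_lit 5) (nat_lit 136) (nat_lit 5) (nat_lit 137) (nat_lit 5) (nat_lit 395) (nat_lit 335) (nat_lit 290)) (XT.lf (nat_lit 0) (nat_lit 2663472938) (nat_lit 304) (nat_lit 7876119765) (nat_lit 380) (nat_lit 272227839) (nat_lit 128) (nat_lit 5) (nat_lit 132) (nat_lit 5) (nat_lit 133) (nat_lit 5) (nat_lit 396) (nat_lit 335) (nat_lit 289))) (XT.nd (nat_lit 78) (nat_lit 304) (nat_lit 0) (XT.lf (nat_lit 0) (nat_lit 3083352693) (nat_lit 380) (nat_lit 882313982) (nat_lit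 76) (nat_lit 7023682936) (nat_lit 127) (nat_lit 5) (nat_lit 132) (nat_lit 5) (nat_lit 128) (nat_lit 5) (nat_lit 397) (nat_lit 335) (nat_lit 288)) (XT.lf (nat_lit 0) (nat_lit 6550916971) (nat_lit 380) (nat_lit 4516652956) (nat_lit 76) (nat_lit 104059654) (nat_lit 123) (nat_lit 5) (nat_lit 128) (nat_lit 5) (nat_lit 124) (nat_lit 5) (nat_lit 398) (nat_lit 335) (nat_lit 287))))))) (XT.nd (nat_lit 1092) (nat_lit 1824) (nat_lit 0) (XT.nd (nat_lit 546) (nat_lit 988) (nat_lit 0) (XT.nd (nat_lit 234) (nat_lit 760) (nat_lit 0) (XT.nd (nat_lit 78) (nat_lit 380) (nat_lit 0) (XT.lf (nat_lit 0) (nat_lit 3023668171) (nat_lit 228) (nat_lit 7128426966) (nat_lit 304) (nat_lit 1206404449) (nat_lit 120) (nat_lit 5) (nat_lit 123) (nat_lit 5) (nat_lit 124) (nat_lit 5) (nat_lit 399) (nat_lit 335) (nat_lit 286)) (XT.nd (nat_lit 78) (nat_lit 304) (nat_lit 0) (XT.lf (nat_lit 0) (nat_lit 2263788442) (nat_lit 304) (nat_lit 763060984) (nat_lit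 76) (nat_lit 8523512578) (nat_lit 119) (nat_lit 5) (nat_lit 123) (nat_lit 5) (nat_lit 120) (nat_lit 5) (nat_lit 400) (nat_lit 335) (nat_lit 285)) (XT.lf (nat_lit 0) (nat_lit 5847926507) (nat_lit 380) (nat_lit 4668183907) (nat_lit 76) (nat_lit 1230497398) (nat_lit 115) (nat_lit 5) (nat_lit 120) (nat_lit 5) (nat_lit 116) (nat_lit 5) (nat_lit 401) (nat_lit 335) (nat_lit 284)))) (XT.nd (nat_lit 156) (nat_lit 456) (nat_lit 0) (XT.nd (nat_lit 78) (nat_lit 76) (nat_lit 0) (XT.lf (nat_lit 0) (nat_lit 3182476270) (nat_lit 228) (nat_lit 6379737552) (nat_lit 304) (nat_lit 2385856631) (nat_lit 112) (nat_lit 5) (nat_lit 115) (nat_lit 5) (nat_lit 116) (nat_lit 5) (nat_lit 402) (nat_lit 335) (nat_lit 283)) (XT.lf (nat_lit 0) (nat_lit 1210387530) (nat_lit 304) (nat_lit 874201110) (nat_lit 76) (nat_lit 10070578222) (nat_lit 111) (nat_lit 5) (nat_lit 115) (nat_lit 5) (nat_lit 112) (nat_lit 5) (nat_lit 403) (nat_lit 335) (nat_lit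 282))) (XT.nd (nat_lit 78) (nat_lit 228) (nat_lit 0) (XT.lf (nat_lit 0) (nat_lit 4915736147) (nat_lit 304) (nat_lit 5087323496) (nat_lit 76) (nat_lit 2363240252) (nat_lit 108) (nat_lit 5) (nat_lit 112) (nat_lit 5) (nat_lit 109) (nat_lit 5) (nat_lit 404) (nat_lit 335) (nat_lit 281)) (XT.lf (nat_lit 0) (nat_lit 3080189065) (nat_lit 228) (nat_lit 5667395619) (nat_lit 304) (nat_lit 3835729351) (nat_lit 105) (nat_lit 5) (nat_lit 108) (nat_lit 5) (nat_lit 109) (nat_lit 5) (nat_lit 405) (nat_lit 335) (nat_lit 280))))) (XT.nd (nat_lit 234) (nat_lit 456) (nat_lit 0) (XT.nd (nat_lit 78) (nat_lit 532) (nat_lit 0) (XT.lf (nat_lit 0) (nat_lit 11527344888) (nat_lit 228) (nat_lit 1175198708) (nat_lit 304) (nat_lit 104057440) (nat_lit 105) (nat_lit 5) (nat_lit 108) (nat_lit 5) (nat_lit 109) (nat_lit 5) (nat_lit 406) (nat_lit 335) (nat_lit 279)) (XT.nd (nat_lit 78) (nat_lit 228) (nat_lit 0) (XT.lf (nat_lit 0) (nat_lit 3727664430)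 (nat_lit 304) (nat_lit 5840738703) (nat_lit 76) (nat_lit 3465279619) (nat_lit 101) (nat_lit 5) (nat_lit 105) (nat_lit 5) (nat_lit 102) (nat_lit 5) (nat_lit 407) (nat_lit 335) (nat_lit 278)) (XT.lf (nat_lit 0) (nat_lit 2648403341) (nat_lit 228) (nat_lit 5031934628) (nat_lit 304) (nat_lit 5586971784) (nat_lit 98) (nat_lit 5) (nat_lit 101) (nat_lit 5) (nat_lit 102) (nat_lit 5) (nat_lit 408) (nat_lit 335) (nat_lit 277)))) (XT.nd (nat_lit 156) (nat_lit 152) (nat_lit 0) (XT.nd (nat_lit 78) (nat_lit 304) (nat_lit 0) (XT.lf (nat_lit 0) (nat_lit 11443796726) (nat_lit 228) (nat_lit 325296457) (nat_lit 304) (nat_lit 1738333631) (nat_lit 98) (nat_lit 5) (nat_lit 101) (nat_lit 5) (nat_lit 102) (nat_lit 5) (nat_lit 409) (nat_lit 335) (nat_lit 276)) (XT.lf (nat_lit 0) (nat_lit 2251028107) (nat_lit 304) (nat_lit 7004979816) (nat_lit 76) (nat_lit 4496042624) (nat_lit 94) (nat_lit 5) (nat_lit 98) (nat_lit 5) (nat_lit 95) (nat_lit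 5) (nat_lit 410) (nat_lit 335) (nat_lit 275))) (XT.nd (nat_lit 78) (nat_lit 0) (nat_lit 0) (XT.lf (nat_lit 0) (nat_lit 1808372857) (nat_lit 152) (nat_lit 4518028117) (nat_lit 228) (nat_lit 7677063371) (nat_lit 92) (nat_lit 5) (nat_lit 94) (nat_lit 5) (nat_lit 95) (nat_lit 5) (nat_lit 411) (nat_lit 335) (nat_lit 274)) (XT.lf (nat_lit 0) (nat_lit 10558851021) (nat_lit 228) (nat_lit 3302325823) (nat_lit 76) (nat_lit 400204826) (nat_lit 92) (nat_lit 5) (nat_lit 95) (nat_lit 5) (nat_lit 93) (nat_lit 5) (nat_lit 412) (nat_lit 335) (nat_lit 273)))))) (XT.nd (nat_lit 546) (nat_lit 760) (nat_lit 0) (XT.nd (nat_lit 234) (nat_lit 608) (nat_lit 0) (XT.nd (nat_lit 78) (nat_lit 152) (nat_lit 0) (XT.lf (nat_lit 0) (nat_lit 446354974) (nat_lit 304) (nat_lit 8668289190) (nat_lit 76) (nat_lit 5410402258) (nat_lit 88) (nat_lit 5) (nat_lit 92) (nat_lit 5) (nat_lit 89) (nat_lit 5) (nat_lit 413) (nat_lit 335) (nat_lit 272)) (XT.nd (nat_lit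 78) (nat_lit 0) (nat_lit 0) (XT.lf (nat_lit 0) (nat_lit 469117734) (nat_lit 152) (nat_lit 4175549280) (nat_lit 228) (nat_lit 10150878149) (nat_lit 86) (nat_lit 5) (nat_lit 88) (nat_lit 5) (nat_lit 89) (nat_lit 5) (nat_lit 414) (nat_lit 335) (nat_lit 271)) (XT.lf (nat_lit 0) (nat_lit 9027529437) (nat_lit 228) (nat_lit 5088811507) (nat_lit 76) (nat_lit 956064861) (nat_lit 86) (nat_lit 5) (nat_lit 89) (nat_lit 5) (nat_lit 87) (nat_lit 5) (nat_lit 415) (nat_lit 335) (nat_lit 270)))) (XT.nd (nat_lit 156) (nat_lit 304) (nat_lit 0) (XT.nd (nat_lit 78) (nat_lit 76) (nat_lit 0) (XT.lf (nat_lit 0) (nat_lit 4406513434) (nat_lit 228) (nat_lit 9181625287) (nat_lit 304) (nat_lit 1768050540) (nat_lit 83) (nat_lit 5) (nat_lit 86) (nat_lit 5) (nat_lit 87) (nat_lit 5) (nat_lit 416) (nat_lit 335) (nat_lit 269)) (XT.lf (nat_lit 0) (nat_lit 2600187903) (nat_lit 304) (nat_lit 1445972571) (nat_lit 76) (nat_lit 11601132816) (nat_lit 82)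 (nat_lit 5) (nat_lit 86) (nat_lit 5) (nat_lit 83) (nat_lit 5) (nat_lit 417) (nat_lit 335) (nat_lit 268))) (XT.nd (nat_lit 78) (nat_lit 152) (nat_lit 0) (XT.lf (nat_lit 0) (nat_lit 7121382470) (nat_lit 228) (nat_lit 7530471058) (nat_lit 76) (nat_lit 1293032812) (nat_lit 80) (nat_lit 5) (nat_lit 83) (nat_lit 5) (nat_lit 81) (nat_lit 5) (nat_lit 418) (nat_lit 335) (nat_lit 267)) (XT.lf (nat_lit 0) (nat_lit 2291259989) (nat_lit 152) (nat_lit 9527756411) (nat_lit 228) (nat_lit 4431170965) (nat_lit 78) (nat_lit 5) (nat_lit 80) (nat_lit 5) (nat_lit 81) (nat_lit 5) (nat_lit 419) (nat_lit 335) (nat_lit 266))))) (XT.nd (nat_lit 312) (nat_lit 380) (nat_lit 0) (XT.nd (nat_lit 156) (nat_lit 152) (nat_lit 0) (XT.nd (nat_lit 78) (nat_lit 152) (nat_lit 0) (XT.lf (nat_lit 0) (nat_lit 131983736) (nat_lit 228) (nat_lit 4064640018) (nat_lit 76) (nat_lit 12366774948) (nat_lit 77) (nat_lit 5) (nat_lit 80) (nat_lit 5) (nat_lit 78) (nat_lit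 5) (nat_lit 420) (nat_lit 335) (nat_lit 265)) (XT.lf (nat_lit 0) (nat_lit 4780336597) (nat_lit 228) (nat_lit 10755547274) (nat_lit 76) (nat_lit 1347689275) (nat_lit 75) (nat_lit 5) (nat_lit 78) (nat_lit 5) (nat_lit 76) (nat_lit 5) (nat_lit 421) (nat_lit 335) (nat_lit 264))) (XT.nd (nat_lit 78) (nat_lit 152) (nat_lit 0) (XT.lf (nat_lit 0) (nat_lit 9616447405) (nat_lit 228) (nat_lit 605292506) (nat_lit 76) (nat_lit 6990167498) (nat_lit 75) (nat_lit 5) (nat_lit 78) (nat_lit 5) (nat_lit 76) (nat_lit 5) (nat_lit 422) (nat_lit 335) (nat_lit 263)) (XT.lf (nat_lit 0) (nat_lit 9985084981) (nat_lit 152) (nat_lit 4674855176) (nat_lit 228) (nat_lit 2888286283) (nat_lit 73) (nat_lit 5) (nat_lit 75) (nat_lit 5) (nat_lit 76) (nat_lit 5) (nat_lit 423) (nat_lit 335) (nat_lit 262)))) (XT.nd (nat_lit 156) (nat_lit 152) (nat_lit 0) (XT.nd (nat_lit 78) (nat_lit 0) (nat_lit 0) (XT.lf (nat_lit 0) (nat_lit 1933448248) (nat_lit 228) (nat_lit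 14913023666) (nat_lit 76) (nat_lit 1047253535) (nat_lit 70) (nat_lit 5) (nat_lit 73) (nat_lit 5) (nat_lit 71) (nat_lit 5) (nat_lit 424) (nat_lit 335) (nat_lit 261)) (XT.lf (nat_lit 0) (nat_lit 6931766530) (nat_lit 228) (nat_lit 4386532815) (nat_lit 76) (nat_lit 6927736060) (nat_lit 70) (nat_lit 5) (nat_lit 73) (nat_lit 5) (nat_lit 71) (nat_lit 5) (nat_lit 425) (nat_lit 335) (nat_lit 260))) (XT.nd (nat_lit 78) (nat_lit 0) (nat_lit 0) (XT.lf (nat_lit 0) (nat_lit 6525325039) (nat_lit 152) (nat_lit 5584977113) (nat_lit 228) (nat_lit 6497707758) (nat_lit 68) (nat_lit 5) (nat_lit 70) (nat_lit 5) (nat_lit 71) (nat_lit 5) (nat_lit 426) (nat_lit 335) (nat_lit 259)) (XT.lf (nat_lit 0) (nat_lit 17459703517) (nat_lit 228) (nat_lit 1186491963) (nat_lit 76) (nat_lit 334186070) (nat_lit 68) (nat_lit 5) (nat_lit 71) (nat_lit 5) (nat_lit 69) (nat_lit 4) (nat_lit 427) (nat_lit 335) (nat_lit 258))))))))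
noncomputable def xc89 : XT := (XT.nd (nat_lit 2262) (nat_lit 1216) (nat_lit 0) (XT.nd (nat_lit 1092) (nat_lit 1140) (nat_lit 0) (XT.nd (nat_lit 546) (nat_lit 608) (nat_lit 0) (XT.nd (nat_lit 234) (nat_lit 380) (nat_lit 0) (XT.nd (nat_lit 78) (nat_lit 152) (nat_lit 0) (XT.lf (nat_lit 0) (nat_lit 3657739028) (nat_lit 228) (nat_lit 9273562984) (nat_lit 76) (nat_lit 6427912460) (nat_lit 65) (nat_lit 5) (nat_lit 68) (nat_lit 5) (nat_lit 66) (nat_lit 5) (nat_lit 428) (nat_lit 335) (nat_lit 257)) (XT.nd (nat_lit 78) (nat_lit 0) (nat_lit 0) (XT.lf (nat_lit 0) (nat_lit 1937557047) (nat_lit 152) (nat_lit 7022818071) (nat_lit 228) (nat_lit 10788605581) (nat_lit 63) (nat_lit 5) (nat_lit 65) (nat_lit 5) (nat_lit 66) (nat_lit 5) (nat_lit 429) (nat_lit 335) (nat_lit 256)) (XT.lf (nat_lit 0) (nat_lit 13619356595) (nat_lit 152) (nat_lit 865459834) (nat_lit 228) (nat_lit 5663744531) (nat_lit 63) (nat_lit 5) (nat_lit 65) (nat_lit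 5) (nat_lit 66) (nat_lit 5) (nat_lit 430) (nat_lit 335) (nat_lit 255)))) (XT.nd (nat_lit 156) (nat_lit 152) (nat_lit 0) (XT.nd (nat_lit 78) (nat_lit 76) (nat_lit 0) (XT.lf (nat_lit 0) (nat_lit 5083228293) (nat_lit 152) (nat_lit 15163020511) (nat_lit 228) (nat_lit 311744844) (nat_lit 61) (nat_lit 5) (nat_lit 63) (nat_lit 5) (nat_lit 64) (nat_lit 4) (nat_lit 431) (nat_lit 335) (nat_lit 254)) (XT.lf (nat_lit 0) (nat_lit 5144293065) (nat_lit 228) (nat_lit 3913937084) (nat_lit 76) (nat_lit 11918633011) (nat_lit 60) (nat_lit 5) (nat_lit 63) (nat_lit 5) (nat_lit 61) (nat_lit 5) (nat_lit 432) (nat_lit 335) (nat_lit 253))) (XT.nd (nat_lit 78) (nat_lit 0) (nat_lit 0) (XT.lf (nat_lit 0) (nat_lit 8095329719) (nat_lit 152) (nat_lit 2710924181) (nat_lit 228) (nat_lit 10600499554) (nat_lit 58) (nat_lit 5) (nat_lit 60) (nat_lit 5) (nat_lit 61) (nat_lit 5) (nat_lit 433) (nat_lit 335) (nat_lit 252)) (XT.lf (nat_lit 0) (nat_lit 16685581836)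 (nat_lit 228) (nat_lit 1393814479) (nat_lit 76) (nat_lit 3768721336) (nat_lit 58) (nat_lit 5) (nat_lit 61) (nat_lit 5) (nat_lit 59) (nat_lit 4) (nat_lit 434) (nat_lit 335) (nat_lit 251))))) (XT.nd (nat_lit 234) (nat_lit 304) (nat_lit 0) (XT.nd (nat_lit 78) (nat_lit 152) (nat_lit 0) (XT.lf (nat_lit 0) (nat_lit 535447933) (nat_lit 152) (nat_lit 11287200531) (nat_lit 76) (nat_lit 10476786969) (nat_lit 56) (nat_lit 5) (nat_lit 58) (nat_lit 5) (nat_lit 57) (nat_lit 5) (nat_lit 435) (nat_lit 335) (nat_lit 250)) (XT.nd (nat_lit 78) (nat_lit 0) (nat_lit 0) (XT.lf (nat_lit 0) (nat_lit 970969346) (nat_lit 152) (nat_lit 5324898771) (nat_lit 228) (nat_lit 16467035679) (nat_lit 54) (nat_lit 5) (nat_lit 56) (nat_lit 5) (nat_lit 57) (nat_lit 5) (nat_lit 436) (nat_lit 335) (nat_lit 249)) (XT.lf (nat_lit 0) (nat_lit 12329171920) (nat_lit 228) (nat_lit 9474870781) (nat_lit 76) (nat_lit 1433233551) (nat_lit 54) (nat_lit 5) (nat_lit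 57) (nat_lit 5) (nat_lit 55) (nat_lit 4) (nat_lit 437) (nat_lit 335) (nat_lit 248)))) (XT.nd (nat_lit 156) (nat_lit 152) (nat_lit 0) (XT.nd (nat_lit 78) (nat_lit 76) (nat_lit 0) (XT.lf (nat_lit 0) (nat_lit 3170364450) (nat_lit 76) (nat_lit 15428944481) (nat_lit 152) (nat_lit 5124898036) (nat_lit 53) (nat_lit 5) (nat_lit 54) (nat_lit 5) (nat_lit 55) (nat_lit 4) (nat_lit 438) (nat_lit 335) (nat_lit 247)) (XT.lf (nat_lit 0) (nat_lit 884881374) (nat_lit 152) (nat_lit 7893170600) (nat_lit 76) (nat_lit 15445376490) (nat_lit 52) (nat_lit 5) (nat_lit 54) (nat_lit 5) (nat_lit 53) (nat_lit 5) (nat_lit 439) (nat_lit 335) (nat_lit 246))) (XT.nd (nat_lit 78) (nat_lit 0) (nat_lit 0) (XT.lf (nat_lit 0) (nat_lit 5147972770) (nat_lit 152) (nat_lit 1846940617) (nat_lit 228) (nat_lit 17740503965) (nat_lit 50) (nat_lit 5) (nat_lit 52) (nat_lit 5) (nat_lit 53) (nat_lit 5) (nat_lit 440) (nat_lit 335) (nat_lit 245)) (XT.lf (nat_lit 0)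 (nat_lit 13393181605) (nat_lit 228) (nat_lit 6619037106) (nat_lit 76) (nat_lit 5247401012) (nat_lit 50) (nat_lit 5) (nat_lit 53) (nat_lit 5) (nat_lit 51) (nat_lit 4) (nat_lit 441) (nat_lit 335) (nat_lit 244)))))) (XT.nd (nat_lit 546) (nat_lit 532) (nat_lit 0) (XT.nd (nat_lit 234) (nat_lit 304) (nat_lit 0) (XT.nd (nat_lit 78) (nat_lit 228) (nat_lit 0) (XT.lf (nat_lit 0) (nat_lit 6805206887) (nat_lit 76) (nat_lit 13236232742) (nat_lit 152) (nat_lit 5756369101) (nat_lit 49) (nat_lit 5) (nat_lit 50) (nat_lit 5) (nat_lit 51) (nat_lit 4) (nat_lit 442) (nat_lit 335) (nat_lit 243)) (XT.nd (nat_lit 78) (nat_lit 152) (nat_lit 0) (XT.lf (nat_lit 0) (nat_lit 568403877) (nat_lit 152) (nat_lit 5635867023) (nat_lit 76) (nat_lit 20146462943) (nat_lit 48) (nat_lit 5) (nat_lit 50) (nat_lit 5) (nat_lit 49) (nat_lit 5) (nat_lit 443) (nat_lit 335) (nat_lit 242)) (XT.lf (nat_lit 0) (nat_lit 7032078479) (nat_lit 228) (nat_lit 18750268280)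 (nat_lit 76) (nat_lit 1134246129) (nat_lit 46) (nat_lit 5) (nat_lit 49) (nat_lit 5) (nat_lit 47) (nat_lit 4) (nat_lit 444) (nat_lit 335) (nat_lit 241)))) (XT.nd (nat_lit 156) (nat_lit 228) (nat_lit 0) (XT.nd (nat_lit 78) (nat_lit 76) (nat_lit 0) (XT.lf (nat_lit 0) (nat_lit 13783770344) (nat_lit 228) (nat_lit 5108055904) (nat_lit 76) (nat_lit 8604779860) (nat_lit 46) (nat_lit 5) (nat_lit 49) (nat_lit 5) (nat_lit 47) (nat_lit 4) (nat_lit 445) (nat_lit 335) (nat_lit 240)) (XT.lf (nat_lit 0) (nat_lit 9075414564) (nat_lit 76) (nat_lit 11725762970) (nat_lit 152) (nat_lit 7290948825) (nat_lit 45) (nat_lit 5) (nat_lit 46) (nat_lit 5) (nat_lit 47) (nat_lit 4) (nat_lit 446) (nat_lit 335) (nat_lit 239))) (XT.nd (nat_lit 78) (nat_lit 228) (nat_lit 0) (XT.lf (nat_lit 0) (nat_lit 23744439160) (nat_lit 76) (nat_lit 4312447141) (nat_lit 152) (nat_lit 647794058) (nat_lit 45) (nat_lit 5) (nat_lit 46) (nat_lit 5) (nat_lit 47) (nat_lit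 4) (nat_lit 447) (nat_lit 335) (nat_lit 238)) (XT.lf (nat_lit 0) (nat_lit 6175987650) (nat_lit 228) (nat_lit 19763089526) (nat_lit 76) (nat_lit 3391682465) (nat_lit 42) (nat_lit 5) (nat_lit 45) (nat_lit 5) (nat_lit 43) (nat_lit 4) (nat_lit 448) (nat_lit 335) (nat_lit 237))))) (XT.nd (nat_lit 312) (nat_lit 228) (nat_lit 0) (XT.nd (nat_lit 156) (nat_lit 228) (nat_lit 0) (XT.nd (nat_lit 78) (nat_lit 76) (nat_lit 0) (XT.lf (nat_lit 0) (nat_lit 13261473260) (nat_lit 228) (nat_lit 5434520991) (nat_lit 76) (nat_lit 11277335717) (nat_lit 42) (nat_lit 5) (nat_lit 45) (nat_lit 5) (nat_lit 43) (nat_lit 4) (nat_lit 449) (nat_lit 335) (nat_lit 236)) (XT.lf (nat_lit 0) (nat_lit 9466004941) (nat_lit 76) (nat_lit 11161917677) (nat_lit 152) (nat_lit 10005204164) (nat_lit 41) (nat_lit 5) (nat_lit 42) (nat_lit 5) (nat_lit 43) (nat_lit 4) (nat_lit 450) (nat_lit 335) (nat_lit 235))) (XT.nd (nat_lit 78) (nat_lit 228) (nat_lit 0) (XT.lf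 (nat_lit 0) (nat_lit 24882751294) (nat_lit 76) (nat_lit 3365150763) (nat_lit 152) (nat_lit 3063840661) (nat_lit 41) (nat_lit 5) (nat_lit 42) (nat_lit 5) (nat_lit 43) (nat_lit 4) (nat_lit 451) (nat_lit 335) (nat_lit 234)) (XT.lf (nat_lit 0) (nat_lit 4115025874) (nat_lit 228) (nat_lit 23210373887) (nat_lit 76) (nat_lit 4680870660) (nat_lit 38) (nat_lit 5) (nat_lit 41) (nat_lit 5) (nat_lit 39) (nat_lit 4) (nat_lit 452) (nat_lit 335) (nat_lit 233)))) (XT.nd (nat_lit 156) (nat_lit 152) (nat_lit 0) (XT.nd (nat_lit 78) (nat_lit 76) (nat_lit 0) (XT.lf (nat_lit 0) (nat_lit 11524710915) (nat_lit 228) (nat_lit 8216128491) (nat_lit 76) (nat_lit 12977574722) (nat_lit 38) (nat_lit 5) (nat_lit 41) (nat_lit 5) (nat_lit 39) (nat_lit 4) (nat_lit 453) (nat_lit 335) (nat_lit 232)) (XT.lf (nat_lit 0) (nat_lit 7330735910) (nat_lit 76) (nat_lit 11875205846) (nat_lit 152) (nat_lit 14244503898) (nat_lit 37) (nat_lit 5) (nat_lit 38) (nat_lit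 5) (nat_lit 39) (nat_lit 4) (nat_lit 454) (nat_lit 335) (nat_lit 231))) (XT.nd (nat_lit 78) (nat_lit 152) (nat_lit 0) (XT.lf (nat_lit 0) (nat_lit 23472566085) (nat_lit 76) (nat_lit 3707032608) (nat_lit 152) (nat_lit 7022980892) (nat_lit 37) (nat_lit 5) (nat_lit 38) (nat_lit 5) (nat_lit 39) (nat_lit 4) (nat_lit 455) (nat_lit 335) (nat_lit 230)) (XT.lf (nat_lit 0) (nat_lit 481896557) (nat_lit 152) (nat_lit 29842537290) (nat_lit 76) (nat_lit 4650480709) (nat_lit 35) (nat_lit 5) (nat_lit 37) (nat_lit 5) (nat_lit 36) (nat_lit 4) (nat_lit 456) (nat_lit 335) (nat_lit 229))))))) (XT.nd (nat_lit 1092) (nat_lit 608) (nat_lit 0) (XT.nd (nat_lit 546) (nat_lit 304) (nat_lit 0) (XT.nd (nat_lit 234) (nat_lit 228) (nat_lit 0) (XT.nd (nat_lit 78) (nat_lit 76) (nat_lit 0) (XT.lf (nat_lit 0) (nat_lit 8196374287) (nat_lit 152) (nat_lit 14223048296) (nat_lit 76) (nat_lit 13345143727) (nat_lit 35) (nat_lit 5) (nat_lit 37) (nat_lit 5)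 (nat_lit 36) (nat_lit 4) (nat_lit 457) (nat_lit 335) (nat_lit 228)) (XT.nd (nat_lit 78) (nat_lit 0) (nat_lit 0) (XT.lf (nat_lit 0) (nat_lit 1863363733) (nat_lit 76) (nat_lit 14276912791) (nat_lit 152) (nat_lit 20437692395) (nat_lit 34) (nat_lit 5) (nat_lit 35) (nat_lit 5) (nat_lit 36) (nat_lit 4) (nat_lit 458) (nat_lit 335) (nat_lit 227)) (XT.lf (nat_lit 0) (nat_lit 18686276869) (nat_lit 76) (nat_lit 5760140572) (nat_lit 152) (nat_lit 12965639496) (nat_lit 34) (nat_lit 5) (nat_lit 35) (nat_lit 5) (nat_lit 36) (nat_lit 4) (nat_lit 459) (nat_lit 335) (nat_lit 226)))) (XT.nd (nat_lit 156) (nat_lit 76) (nat_lit 0) (XT.nd (nat_lit 78) (nat_lit 152) (nat_lit 0) (XT.lf (nat_lit 0) (nat_lit 33011400175) (nat_lit 152) (nat_lit 2323205228) (nat_lit 0) (nat_lit 2936273415) (nat_lit 34) (nat_lit 5) (nat_lit 36) (nat_lit 4) (nat_lit 34) (nat_lit 4) (nat_lit 460) (nat_lit 335) (nat_lit 225)) (XT.lf (nat_lit 0) (nat_lit 2807638517)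 (nat_lit 152) (nat_lit 24410901957) (nat_lit 76) (nat_lit 11930692745) (nat_lit 32) (nat_lit 5) (nat_lit 34) (nat_lit 5) (nat_lit 33) (nat_lit 4) (nat_lit 461) (nat_lit 335) (nat_lit 224))) (XT.nd (nat_lit 78) (nat_lit 76) (nat_lit 0) (XT.lf (nat_lit 0) (nat_lit 11016035891) (nat_lit 152) (nat_lit 7782109063) (nat_lit 76) (nat_lit 21254082638) (nat_lit 32) (nat_lit 5) (nat_lit 34) (nat_lit 5) (nat_lit 33) (nat_lit 4) (nat_lit 462) (nat_lit 335) (nat_lit 223)) (XT.lf (nat_lit 0) (nat_lit 9495988797) (nat_lit 76) (nat_lit 10047807661) (nat_lit 152) (nat_lit 21436322842) (nat_lit 31) (nat_lit 5) (nat_lit 32) (nat_lit 5) (nat_lit 33) (nat_lit 4) (nat_lit 463) (nat_lit 335) (nat_lit 222))))) (XT.nd (nat_lit 234) (nat_lit 152) (nat_lit 0) (XT.nd (nat_lit 78) (nat_lit 152) (nat_lit 0) (XT.lf (nat_lit 0) (nat_lit 27417437196) (nat_lit 76) (nat_lit 970564123) (nat_lit 152) (nat_lit 13546028916) (nat_lit 31) (nat_lit 5)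 (nat_lit 32) (nat_lit 5) (nat_lit 33) (nat_lit 4) (nat_lit 464) (nat_lit 335) (nat_lit 221)) (XT.nd (nat_lit 78) (nat_lit 76) (nat_lit 0) (XT.lf (nat_lit 0) (nat_lit 2902175931) (nat_lit 76) (nat_lit 34686194420) (nat_lit 76) (nat_lit 5325463800) (nat_lit 30) (nat_lit 4) (nat_lit 31) (nat_lit 5) (nat_lit 31) (nat_lit 4) (nat_lit 465) (nat_lit 335) (nat_lit 220)) (XT.lf (nat_lit 0) (nat_lit 3220475623) (nat_lit 152) (nat_lit 22852712710) (nat_lit 76) (nat_lit 17844736690) (nat_lit 29) (nat_lit 5) (nat_lit 31) (nat_lit 5) (nat_lit 30) (nat_lit 4) (nat_lit 466) (nat_lit 335) (nat_lit 219)))) (XT.nd (nat_lit 156) (nat_lit 76) (nat_lit 0) (XT.nd (nat_lit 78) (nat_lit 76) (nat_lit 0) (XT.lf (nat_lit 0) (nat_lit 11898682453) (nat_lit 152) (nat_lit 5264639843) (nat_lit 76) (nat_lit 27787747460) (nat_lit 29) (nat_lit 5) (nat_lit 31) (nat_lit 5) (nat_lit 30) (nat_lit 4) (nat_lit 467) (nat_lit 335) (nat_lit 218)) (XT.lf (nat_lit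 0) (nat_lit 13074245843) (nat_lit 76) (nat_lit 7872090373) (nat_lit 152) (nat_lit 25065600299) (nat_lit 28) (nat_lit 5) (nat_lit 29) (nat_lit 5) (nat_lit 30) (nat_lit 4) (nat_lit 468) (nat_lit 335) (nat_lit 217))) (XT.nd (nat_lit 78) (nat_lit 76) (nat_lit 0) (XT.lf (nat_lit 0) (nat_lit 30318884755) (nat_lit 152) (nat_lit 15080651568) (nat_lit 0) (nat_lit 1703489684) (nat_lit 28) (nat_lit 5) (nat_lit 30) (nat_lit 4) (nat_lit 28) (nat_lit 4) (nat_lit 469) (nat_lit 335) (nat_lit 216)) (XT.lf (nat_lit 0) (nat_lit 3266849081) (nat_lit 76) (nat_lit 36799042210) (nat_lit 76) (nat_lit 8158159113) (nat_lit 27) (nat_lit 4) (nat_lit 28) (nat_lit 5) (nat_lit 28) (nat_lit 4) (nat_lit 470) (nat_lit 335) (nat_lit 215)))))) (XT.nd (nat_lit 546) (nat_lit 304) (nat_lit 0) (XT.nd (nat_lit 234) (nat_lit 152) (nat_lit 0) (XT.nd (nat_lit 78) (nat_lit 76) (nat_lit 0) (XT.lf (nat_lit 0) (nat_lit 850168022) (nat_lit 152) (nat_lit 26939787665)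 (nat_lit 76) (nat_lit 21584408612) (nat_lit 26) (nat_lit 5) (nat_lit 28) (nat_lit 5) (nat_lit 27) (nat_lit 4) (nat_lit 471) (nat_lit 335) (nat_lit 214)) (XT.nd (nat_lit 78) (nat_lit 76) (nat_lit 0) (XT.lf (nat_lit 0) (nat_lit 9949192869) (nat_lit 152) (nat_lit 8492792134) (nat_lit 76) (nat_lit 32115247437) (nat_lit 26) (nat_lit 5) (nat_lit 28) (nat_lit 5) (nat_lit 27) (nat_lit 4) (nat_lit 472) (nat_lit 335) (nat_lit 213)) (XT.lf (nat_lit 0) (nat_lit 10686864436) (nat_lit 76) (nat_lit 8721925342) (nat_lit 152) (nat_lit 32364169401) (nat_lit 25) (nat_lit 5) (nat_lit 26) (nat_lit 5) (nat_lit 27) (nat_lit 4) (nat_lit 473) (nat_lit 335) (nat_lit 212)))) (XT.nd (nat_lit 156) (nat_lit 152) (nat_lit 0) (XT.nd (nat_lit 78) (nat_lit 0) (nat_lit 0) (XT.lf (nat_lit 0) (nat_lit 29236081539) (nat_lit 152) (nat_lit 22449142662) (nat_lit 0) (nat_lit 1337416884) (nat_lit 25) (nat_lit 5) (nat_lit 27) (nat_lit 4) (nat_lit 25) (nat_lit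 4) (nat_lit 474) (nat_lit 335) (nat_lit 211)) (XT.lf (nat_lit 0) (nat_lit 39429887117) (nat_lit 152) (nat_lit 3367899395) (nat_lit 0) (nat_lit 11509876642) (nat_lit 25) (nat_lit 5) (nat_lit 27) (nat_lit 4) (nat_lit 25) (nat_lit 4) (nat_lit 475) (nat_lit 335) (nat_lit 210))) (XT.nd (nat_lit 78) (nat_lit 76) (nat_lit 0) (XT.lf (nat_lit 0) (nat_lit 16581717505) (nat_lit 76) (nat_lit 33492949347) (nat_lit 76) (nat_lit 5552214775) (nat_lit 24) (nat_lit 4) (nat_lit 25) (nat_lit 5) (nat_lit 25) (nat_lit 4) (nat_lit 476) (nat_lit 335) (nat_lit 209)) (XT.lf (nat_lit 0) (nat_lit 3994146378) (nat_lit 152) (nat_lit 19852737905) (nat_lit 76) (nat_lit 33137020334) (nat_lit 23) (nat_lit 5) (nat_lit 25) (nat_lit 5) (nat_lit 24) (nat_lit 4) (nat_lit 477) (nat_lit 335) (nat_lit 208))))) (XT.nd (nat_lit 312) (nat_lit 152) (nat_lit 0) (XT.nd (nat_lit 156) (nat_lit 76) (nat_lit 0) (XT.nd (nat_lit 78) (nat_lit 76) (nat_lit 0) (XT.lf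 (nat_lit 0) (nat_lit 13701496569) (nat_lit 152) (nat_lit 166351467) (nat_lit 76) (nat_lit 44512555818) (nat_lit 23) (nat_lit 5) (nat_lit 25) (nat_lit 5) (nat_lit 24) (nat_lit 4) (nat_lit 478) (nat_lit 335) (nat_lit 207)) (XT.lf (nat_lit 0) (nat_lit 20484290463) (nat_lit 76) (nat_lit 3399278724) (nat_lit 152) (nat_lit 35929724303) (nat_lit 22) (nat_lit 5) (nat_lit 23) (nat_lit 5) (nat_lit 24) (nat_lit 4) (nat_lit 479) (nat_lit 335) (nat_lit 206))) (XT.nd (nat_lit 78) (nat_lit 76) (nat_lit 0) (XT.lf (nat_lit 0) (nat_lit 34430389966) (nat_lit 152) (nat_lit 19628328354) (nat_lit 0) (nat_lit 7228673384) (nat_lit 22) (nat_lit 5) (nat_lit 24) (nat_lit 4) (nat_lit 22) (nat_lit 4) (nat_lit 480) (nat_lit 335) (nat_lit 205)) (XT.lf (nat_lit 0) (nat_lit 616417759) (nat_lit 76) (nat_lit 44703785307) (nat_lit 76) (nat_lit 17484712620) (nat_lit 21) (nat_lit 4) (nat_lit 22) (nat_lit 5) (nat_lit 22) (nat_lit 4) (nat_lit 481) (nat_lit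 335) (nat_lit 204)))) (XT.nd (nat_lit 156) (nat_lit 76) (nat_lit 0) (XT.nd (nat_lit 78) (nat_lit 76) (nat_lit 0) (XT.lf (nat_lit 0) (nat_lit 21845794886) (nat_lit 76) (nat_lit 34876266841) (nat_lit 76) (nat_lit 7640343566) (nat_lit 21) (nat_lit 4) (nat_lit 22) (nat_lit 5) (nat_lit 22) (nat_lit 4) (nat_lit 482) (nat_lit 335) (nat_lit 203)) (XT.lf (nat_lit 0) (nat_lit 2437979103) (nat_lit 152) (nat_lit 22303185488) (nat_lit 76) (nat_lit 41225112832) (nat_lit 20) (nat_lit 5) (nat_lit 22) (nat_lit 5) (nat_lit 21) (nat_lit 4) (nat_lit 483) (nat_lit 335) (nat_lit 202))) (XT.nd (nat_lit 78) (nat_lit 76) (nat_lit 0) (XT.lf (nat_lit 0) (nat_lit 12652849271) (nat_lit 152) (nat_lit 1582882341) (nat_lit 76) (nat_lit 53380632264) (nat_lit 20) (nat_lit 5) (nat_lit 22) (nat_lit 5) (nat_lit 21) (nat_lit 4) (nat_lit 484) (nat_lit 335) (nat_lit 201)) (XT.lf (nat_lit 0) (nat_lit 20128629876) (nat_lit 76) (nat_lit 3227142002) (nat_lit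 152) (nat_lit 45954733247) (nat_lit 19) (nat_lit 5) (nat_lit 20) (nat_lit 5) (nat_lit 21) (nat_lit 4) (nat_lit 485) (nat_lit 335) (nat_lit 200))))))))
noncomputable def xc90 : XT := (XT.nd (nat_lit 44226) (nat_lit 0) (nat_lit 7752) (XT.nd (nat_lit 43056) (nat_lit 0) (nat_lit 16644) (XT.nd (nat_lit 42510) (nat_lit 0) (nat_lit 25308) (XT.nd (nat_lit 234) (nat_lit 76) (nat_lit 0) (XT.nd (nat_lit 78) (nat_lit 76) (nat_lit 0) (XT.lf (nat_lit 0) (nat_lit 34462034525) (nat_lit 152) (nat_lit 28632389287) (nat_lit 0) (nat_lit 7958579607) (nat_lit 19) (nat_lit 5) (nat_lit 21) (nat_lit 4) (nat_lit 19) (nat_lit 4) (nat_lit 486) (nat_lit 335) (nat_lit 199)) (XT.nd (nat_lit 78) (nat_lit 76) (nat_lit 0) (XT.lf (nat_lit 0) (nat_lit 45921917945) (nat_lit 152) (nat_lit 7520895174) (nat_lit 0) (nat_lit 19404350925) (nat_lit 19) (nat_lit 5) (nat_lit 21) (nat_lit 4) (nat_lit 19) (nat_lit 4) (nat_lit 487) (nat_lit 335) (nat_lit 198))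 (XT.lf (nat_lit 0) (nat_lit 14484724433) (nat_lit 76) (nat_lit 43368925963) (nat_lit 76) (nat_lit 16837657874) (nat_lit 18) (nat_lit 4) (nat_lit 19) (nat_lit 5) (nat_lit 19) (nat_lit 4) (nat_lit 488) (nat_lit 335) (nat_lit 197)))) (XT.nd (nat_lit 42120) (nat_lit 0) (nat_lit 28196) (XT.nd (nat_lit 78) (nat_lit 76) (nat_lit 0) (XT.lf (nat_lit 0) (nat_lit 37283029531) (nat_lit 76) (nat_lit 32925185664) (nat_lit 76) (nat_lit 6380615565) (nat_lit 18) (nat_lit 4) (nat_lit 19) (nat_lit 5) (nat_lit 19) (nat_lit 4) (nat_lit 489) (nat_lit 335) (nat_lit 196)) (XT.lf (nat_lit 0) (nat_lit 4293620291) (nat_lit 152) (nat_lit 17841435479) (nat_lit 76) (nat_lit 56407282969) (nat_lit 17) (nat_lit 5) (nat_lit 19) (nat_lit 5) (nat_lit 18) (nat_lit 4) (nat_lit 490) (nat_lit 335) (nat_lit 195))) (XT.nd (nat_lit 78) (nat_lit 0) (nat_lit 0) (XT.lf (nat_lit 0) (nat_lit 421210175) (nat_lit 380) (nat_lit 2412941938) (nat_lit 0) (nat_lit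 421210175) (nat_lit 388) (nat_lit 5) (nat_lit 393) (nat_lit 4) (nat_lit 388) (nat_lit 4) (nat_lit 348) (nat_lit 336) (nat_lit 336)) (XT.lf (nat_lit 0) (nat_lit 4008360968) (nat_lit 380) (nat_lit 1076654918) (nat_lit 0) (nat_lit 1444212054) (nat_lit 388) (nat_lit 5) (nat_lit 393) (nat_lit 4) (nat_lit 388) (nat_lit 4) (nat_lit 349) (nat_lit 336) (nat_lit 335))))) (XT.nd (nat_lit 234) (nat_lit 1900) (nat_lit 0) (XT.nd (nat_lit 78) (nat_lit 532) (nat_lit 0) (XT.lf (nat_lit 0) (nat_lit 620867648) (nat_lit 456) (nat_lit 3793252552) (nat_lit 76) (nat_lit 2136603129) (nat_lit 382) (nat_lit 5) (nat_lit 388) (nat_lit 5) (nat_lit 383) (nat_lit 4) (nat_lit 350) (nat_lit 336) (nat_lit 334)) (XT.nd (nat_lit 78) (nat_lit 76) (nat_lit 0) (XT.lf (nat_lit 0) (nat_lit 55407292) (nat_lit 456) (nat_lit 3651970761) (nat_lit 532) (nat_lit 2867762342) (nat_lit 376) (nat_lit 5) (nat_lit 382) (nat_lit 5) (nat_lit 383) (nat_lit 4) (nat_lit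 351) (nat_lit 336) (nat_lit 333)) (XT.lf (nat_lit 0) (nat_lit 210327651) (nat_lit 532) (nat_lit 2583220506) (nat_lit 76) (nat_lit 3808825516) (nat_lit 375) (nat_lit 5) (nat_lit 382) (nat_lit 5) (nat_lit 376) (nat_lit 5) (nat_lit 352) (nat_lit 336) (nat_lit 332)))) (XT.nd (nat_lit 156) (nat_lit 1368) (nat_lit 0) (XT.nd (nat_lit 78) (nat_lit 0) (nat_lit 0) (XT.lf (nat_lit 0) (nat_lit 1394244956) (nat_lit 532) (nat_lit 1836487146) (nat_lit 608) (nat_lit 3401667815) (nat_lit 368) (nat_lit 5) (nat_lit 375) (nat_lit 5) (nat_lit 376) (nat_lit 5) (nat_lit 353) (nat_lit 336) (nat_lit 331)) (XT.lf (nat_lit 0) (nat_lit 5468776966) (nat_lit 532) (nat_lit 795624116) (nat_lit 608) (nat_lit 401300765) (nat_lit 368) (nat_lit 5) (nat_lit 375) (nat_lit 5) (nat_lit 376) (nat_lit 5) (nat_lit 354) (nat_lit 336) (nat_lit 330))) (XT.nd (nat_lit 78) (nat_lit 684) (nat_lit 0) (XT.lf (nat_lit 0) (nat_lit 2566666559) (nat_lit 684) (nat_lit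 3783312037) (nat_lit 76) (nat_lit 351398225) (nat_lit 359) (nat_lit 5) (nat_lit 368) (nat_lit 5) (nat_lit 360) (nat_lit 5) (nat_lit 355) (nat_lit 336) (nat_lit 329)) (XT.lf (nat_lit 0) (nat_lit 360728643) (nat_lit 684) (nat_lit 5179442889) (nat_lit 760) (nat_lit 1200144232) (nat_lit 350) (nat_lit 5) (nat_lit 359) (nat_lit 5) (nat_lit 360) (nat_lit 5) (nat_lit 356) (nat_lit 336) (nat_lit 328)))))) (XT.nd (nat_lit 546) (nat_lit 4940) (nat_lit 0) (XT.nd (nat_lit 234) (nat_lit 2812) (nat_lit 0) (XT.nd (nat_lit 78) (nat_lit 836) (nat_lit 0) (XT.lf (nat_lit 0) (nat_lit 1727629439) (nat_lit 760) (nat_lit 2169382799) (nat_lit 76) (nat_lit 2884710066) (nat_lit 349) (nat_lit 5) (nat_lit 359) (nat_lit 5) (nat_lit 350) (nat_lit 5) (nat_lit 357) (nat_lit 336) (nat_lit 327)) (XT.nd (nat_lit 78) (nat_lit 76) (nat_lit 0) (XT.lf (nat_lit 0) (nat_lit 2120057788) (nat_lit 760) (nat_lit 2524437186) (nat_lit 836) (nat_lit 2181803795)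 (nat_lit 339) (nat_lit 5) (nat_lit 349) (nat_lit 5) (nat_lit 350) (nat_lit 5) (nat_lit 358) (nat_lit 336) (nat_lit 326)) (XT.lf (nat_lit 0) (nat_lit 689697543) (nat_lit 836) (nat_lit 374305020) (nat_lit 76) (nat_lit 5810183026) (nat_lit 338) (nat_lit 5) (nat_lit 349) (nat_lit 5) (nat_lit 339) (nat_lit 5) (nat_lit 359) (nat_lit 336) (nat_lit 325)))) (XT.nd (nat_lit 156) (nat_lit 1064) (nat_lit 0) (XT.nd (nat_lit 78) (nat_lit 912) (nat_lit 0) (XT.lf (nat_lit 0) (nat_lit 3556410237) (nat_lit 912) (nat_lit 2859497932) (nat_lit 76) (nat_lit 508406982) (nat_lit 327) (nat_lit 5) (nat_lit 339) (nat_lit 5) (nat_lit 328) (nat_lit 5) (nat_lit 360) (nat_lit 336) (nat_lit 324)) (XT.lf (nat_lit 0) (nat_lit 1612266525) (nat_lit 912) (nat_lit 4837596392) (nat_lit 988) (nat_lit 527904053) (nat_lit 315) (nat_lit 5) (nat_lit 327) (nat_lit 5) (nat_lit 328) (nat_lit 5) (nat_lit 361) (nat_lit 336) (nat_lit 323))) (XT.nd (nat_lit 78)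 (nat_lit 988) (nat_lit 0) (XT.lf (nat_lit 0) (nat_lit 2291521437) (nat_lit 988) (nat_lit 857090923) (nat_lit 76) (nat_lit 3885326728) (nat_lit 314) (nat_lit 5) (nat_lit 327) (nat_lit 5) (nat_lit 315) (nat_lit 5) (nat_lit 362) (nat_lit 336) (nat_lit 322)) (XT.lf (nat_lit 0) (nat_lit 3778765438) (nat_lit 988) (nat_lit 1356888667) (nat_lit 1064) (nat_lit 1957500510) (nat_lit 301) (nat_lit 5) (nat_lit 314) (nat_lit 5) (nat_lit 315) (nat_lit 5) (nat_lit 363) (nat_lit 336) (nat_lit 321))))) (XT.nd (nat_lit 312) (nat_lit 1368) (nat_lit 0) (XT.nd (nat_lit 156) (nat_lit 2432) (nat_lit 0) (XT.nd (nat_lit 78) (nat_lit 0) (nat_lit 0) (XT.lf (nat_lit 0) (nat_lit 835362437) (nat_lit 1140) (nat_lit 5803132055) (nat_lit 76) (nat_lit 517159141) (nat_lit 286) (nat_lit 5) (nat_lit 301) (nat_lit 5) (nat_lit 287) (nat_lit 5) (nat_lit 364) (nat_lit 336) (nat_lit 320)) (XT.lf (nat_lit 0) (nat_lit 3637007151) (nat_lit 1140) (nat_lit 1103904195)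 (nat_lit 76) (nat_lit 2479638594) (nat_lit 286) (nat_lit 5) (nat_lit 301) (nat_lit 5) (nat_lit 287) (nat_lit 5) (nat_lit 365) (nat_lit 336) (nat_lit 319))) (XT.nd (nat_lit 78) (nat_lit 1292) (nat_lit 0) (XT.lf (nat_lit 0) (nat_lit 3732320928) (nat_lit 1140) (nat_lit 2745777001) (nat_lit 1216) (nat_lit 810666262) (nat_lit 271) (nat_lit 5) (nat_lit 286) (nat_lit 5) (nat_lit 287) (nat_lit 5) (nat_lit 366) (nat_lit 336) (nat_lit 318)) (XT.lf (nat_lit 0) (nat_lit 1305601930) (nat_lit 1216) (nat_lit 644009573) (nat_lit 1292) (nat_lit 5410530742) (nat_lit 254) (nat_lit 5) (nat_lit 270) (nat_lit 5) (nat_lit 271) (nat_lit 5) (nat_lit 367) (nat_lit 336) (nat_lit 317)))) (XT.nd (nat_lit 156) (nat_lit 608) (nat_lit 0) (XT.nd (nat_lit 78) (nat_lit 760) (nat_lit 0) (XT.lf (nat_lit 0) (nat_lit 4749204608) (nat_lit 1292) (nat_lit 1148470502) (nat_lit 76) (nat_lit 1536591879) (nat_lit 254) (nat_lit 5) (nat_lit 271) (nat_lit 5)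 (nat_lit 255) (nat_lit 5) (nat_lit 368) (nat_lit 336) (nat_lit 316)) (XT.lf (nat_lit 0) (nat_lit 87469331) (nat_lit 760) (nat_lit 3614990440) (nat_lit 76) (nat_lit 3809118405) (nat_lit 244) (nat_lit 5) (nat_lit 254) (nat_lit 5) (nat_lit 245) (nat_lit 5) (nat_lit 369) (nat_lit 336) (nat_lit 315))) (XT.nd (nat_lit 78) (nat_lit 0) (nat_lit 0) (XT.lf (nat_lit 0) (nat_lit 1449509775) (nat_lit 608) (nat_lit 1390244608) (nat_lit 684) (nat_lit 4752168037) (nat_lit 236) (nat_lit 5) (nat_lit 244) (nat_lit 5) (nat_lit 245) (nat_lit 5) (nat_lit 370) (nat_lit 336) (nat_lit 314)) (XT.lf (nat_lit 0) (nat_lit 5647317066) (nat_lit 684) (nat_lit 1022621126) (nat_lit 76) (nat_lit 1005584323) (nat_lit 236) (nat_lit 5) (nat_lit 245) (nat_lit 5) (nat_lit 237) (nat_lit 5) (nat_lit 371) (nat_lit 336) (nat_lit 313))))))) (XT.nd (nat_lit 1092) (nat_lit 3648) (nat_lit 0) (XT.nd (nat_lit 546) (nat_lit 2356) (nat_lit 0) (XT.nd (nat_lit 234)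 (nat_lit 1672) (nat_lit 0) (XT.nd (nat_lit 78) (nat_lit 532) (nat_lit 0) (XT.lf (nat_lit 0) (nat_lit 745121306) (nat_lit 684) (nat_lit 3526568303) (nat_lit 76) (nat_lit 3490257556) (nat_lit 227) (nat_lit 5) (nat_lit 236) (nat_lit 5) (nat_lit 228) (nat_lit 5) (nat_lit 372) (nat_lit 336) (nat_lit 312)) (XT.nd (nat_lit 78) (nat_lit 0) (nat_lit 0) (XT.lf (nat_lit 0) (nat_lit 1757975333) (nat_lit 532) (nat_lit 1759327361) (nat_lit 608) (nat_lit 4334391352) (nat_lit 220) (nat_lit 5) (nat_lit 227) (nat_lit 5) (nat_lit 228) (nat_lit 5) (nat_lit 373) (nat_lit 336) (nat_lit 311)) (XT.lf (nat_lit 0) (nat_lit 6346926386) (nat_lit 608) (nat_lit 756887891) (nat_lit 76) (nat_lit 841114558) (nat_lit 220) (nat_lit 5) (nat_lit 228) (nat_lit 5) (nat_lit 221) (nat_lit 5) (nat_lit 374) (nat_lit 336) (nat_lit 310)))) (XT.nd (nat_lit 156) (nat_lit 608) (nat_lit 0) (XT.nd (nat_lit 78) (nat_lit 456) (nat_lit 0) (XT.lf (nat_lit 0) (nat_lit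 1191940626) (nat_lit 608) (nat_lit 3314271283) (nat_lit 76) (nat_lit 3534560889) (nat_lit 212) (nat_lit 5) (nat_lit 220) (nat_lit 5) (nat_lit 213) (nat_lit 5) (nat_lit 375) (nat_lit 336) (nat_lit 309)) (XT.lf (nat_lit 0) (nat_lit 2200525180) (nat_lit 456) (nat_lit 1794750080) (nat_lit 532) (nat_lit 4144909607) (nat_lit 206) (nat_lit 5) (nat_lit 212) (nat_lit 5) (nat_lit 213) (nat_lit 5) (nat_lit 376) (nat_lit 336) (nat_lit 308))) (XT.nd (nat_lit 78) (nat_lit 608) (nat_lit 0) (XT.lf (nat_lit 0) (nat_lit 6860160024) (nat_lit 532) (nat_lit 381096828) (nat_lit 76) (nat_lit 1002020097) (nat_lit 206) (nat_lit 5) (nat_lit 213) (nat_lit 5) (nat_lit 207) (nat_lit 5) (nat_lit 377) (nat_lit 336) (nat_lit 307)) (XT.lf (nat_lit 0) (nat_lit 1438263865) (nat_lit 608) (nat_lit 3008499773) (nat_lit 76) (nat_lit 3902138999) (nat_lit 198) (nat_lit 5) (nat_lit 206) (nat_lit 5) (nat_lit 199) (nat_lit 5) (nat_lit 378) (nat_lit 336)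 (nat_lit 306))))) (XT.nd (nat_lit 234) (nat_lit 1368) (nat_lit 0) (XT.nd (nat_lit 78) (nat_lit 532) (nat_lit 0) (XT.lf (nat_lit 0) (nat_lit 2747092549) (nat_lit 456) (nat_lit 1536164243) (nat_lit 532) (nat_lit 4175045735) (nat_lit 192) (nat_lit 5) (nat_lit 198) (nat_lit 5) (nat_lit 199) (nat_lit 5) (nat_lit 379) (nat_lit 336) (nat_lit 305)) (XT.nd (nat_lit 78) (nat_lit 76) (nat_lit 0) (XT.lf (nat_lit 0) (nat_lit 76521879) (nat_lit 456) (nat_lit 7120014640) (nat_lit 532) (nat_lit 1374978580) (nat_lit 186) (nat_lit 5) (nat_lit 192) (nat_lit 5) (nat_lit 193) (nat_lit 5) (nat_lit 380) (nat_lit 336) (nat_lit 304)) (XT.lf (nat_lit 0) (nat_lit 1491021460) (nat_lit 532) (nat_lit 2639783663) (nat_lit 76) (nat_lit 4556560092) (nat_lit 185) (nat_lit 5) (nat_lit 192) (nat_lit 5) (nat_lit 186) (nat_lit 5) (nat_lit 381) (nat_lit 336) (nat_lit 303)))) (XT.nd (nat_lit 156) (nat_lit 456) (nat_lit 0) (XT.nd (nat_lit 78) (nat_lit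 456) (nat_lit 0) (XT.lf (nat_lit 0) (nat_lit 3367389282) (nat_lit 456) (nat_lit 1020079978) (nat_lit 532) (nat_lit 4419667258) (nat_lit 179) (nat_lit 5) (nat_lit 185) (nat_lit 5) (nat_lit 186) (nat_lit 5) (nat_lit 382) (nat_lit 336) (nat_lit 302)) (XT.lf (nat_lit 0) (nat_lit 592811713) (nat_lit 456) (nat_lit 6772227420) (nat_lit 532) (nat_lit 1565651668) (nat_lit 173) (nat_lit 5) (nat_lit 179) (nat_lit 5) (nat_lit 180) (nat_lit 5) (nat_lit 383) (nat_lit 336) (nat_lit 301))) (XT.nd (nat_lit 78) (nat_lit 380) (nat_lit 0) (XT.lf (nat_lit 0) (nat_lit 1353769163) (nat_lit 532) (nat_lit 2239423560) (nat_lit 76) (nat_lit 5464180617) (nat_lit 172) (nat_lit 5) (nat_lit 179) (nat_lit 5) (nat_lit 173) (nat_lit 5) (nat_lit 384) (nat_lit 336) (nat_lit 300)) (XT.lf (nat_lit 0) (nat_lit 4030249754) (nat_lit 380) (nat_lit 280535566) (nat_lit 456) (nat_lit 4877176850) (nat_lit 167) (nat_lit 5) (nat_lit 172) (nat_lit 5) (nat_lit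 173) (nat_lit 5) (nat_lit 385) (nat_lit 336) (nat_lit 299)))))) (XT.nd (nat_lit 546) (nat_lit 1672) (nat_lit 0) (XT.nd (nat_lit 234) (nat_lit 1140) (nat_lit 0) (XT.nd (nat_lit 78) (nat_lit 456) (nat_lit 0) (XT.lf (nat_lit 0) (nat_lit 1128139798) (nat_lit 380) (nat_lit 6235679217) (nat_lit 456) (nat_lit 1958445274) (nat_lit 162) (nat_lit 5) (nat_lit 167) (nat_lit 5) (nat_lit 168) (nat_lit 5) (nat_lit 386) (nat_lit 336) (nat_lit 298)) (XT.nd (nat_lit 78) (nat_lit 380) (nat_lit 0) (XT.lf (nat_lit 0) (nat_lit 1026660565) (nat_lit 456) (nat_lit 1840169519) (nat_lit 76) (nat_lit 6593499407) (nat_lit 161) (nat_lit 5) (nat_lit 167) (nat_lit 5) (nat_lit 162) (nat_lit 5) (nat_lit 387) (nat_lit 336) (nat_lit 297)) (XT.lf (nat_lit 0) (nat_lit 4058932901) (nat_lit 456) (nat_lit 4905563450) (nat_lit 76) (nat_lit 637562875) (nat_lit 156) (nat_lit 5) (nat_lit 162) (nat_lit 5) (nat_lit 157) (nat_lit 5) (nat_lit 388) (nat_lit 336)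 (nat_lit 296)))) (XT.nd (nat_lit 156) (nat_lit 684) (nat_lit 0) (XT.nd (nat_lit 78) (nat_lit 76) (nat_lit 0) (XT.lf (nat_lit 0) (nat_lit 1648539622) (nat_lit 380) (nat_lit 5542845326) (nat_lit 456) (nat_lit 2556392741) (nat_lit 151) (nat_lit 5) (nat_lit 156) (nat_lit 5) (nat_lit 157) (nat_lit 5) (nat_lit 389) (nat_lit 336) (nat_lit 295)) (XT.lf (nat_lit 0) (nat_lit 506358441) (nat_lit 456) (nat_lit 1476950758) (nat_lit 76) (nat_lit 7914524146) (nat_lit 150) (nat_lit 5) (nat_lit 156) (nat_lit 5) (nat_lit 151) (nat_lit 5) (nat_lit 390) (nat_lit 336) (nat_lit 294))) (XT.nd (nat_lit 78) (nat_lit 380) (nat_lit 0) (XT.lf (nat_lit 0) (nat_lit 3625871919) (nat_lit 380) (nat_lit 4718020144) (nat_lit 76) (nat_lit 1707263525) (nat_lit 146) (nat_lit 5) (nat_lit 151) (nat_lit 5) (nat_lit 147) (nat_lit 5) (nat_lit 391) (nat_lit 336) (nat_lit 293)) (XT.lf (nat_lit 0) (nat_lit 2117348658) (nat_lit 380) (nat_lit 4725384412) (nat_lit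 456) (nat_lit 3366243271) (nat_lit 141) (nat_lit 5) (nat_lit 146) (nat_lit 5) (nat_lit 147) (nat_lit 5) (nat_lit 392) (nat_lit 336) (nat_lit 292))))) (XT.nd (nat_lit 312) (nat_lit 988) (nat_lit 0) (XT.nd (nat_lit 156) (nat_lit 304) (nat_lit 0) (XT.nd (nat_lit 78) (nat_lit 380) (nat_lit 0) (XT.lf (nat_lit 0) (nat_lit 9181858213) (nat_lit 380) (nat_lit 971390576) (nat_lit 456) (nat_lit 218379836) (nat_lit 141) (nat_lit 5) (nat_lit 146) (nat_lit 5) (nat_lit 147) (nat_lit 5) (nat_lit 393) (nat_lit 336) (nat_lit 291)) (XT.lf (nat_lit 0) (nat_lit 3000908926) (nat_lit 380) (nat_lit 4632185444) (nat_lit 76) (nat_lit 2904124885) (nat_lit 136) (nat_lit 5) (nat_lit 141) (nat_lit 5) (nat_lit 137) (nat_lit 5) (nat_lit 394) (nat_lit 336) (nat_lit 290))) (XT.nd (nat_lit 78) (nat_lit 0) (nat_lit 0) (XT.lf (nat_lit 0) (nat_lit 2494353323) (nat_lit 304) (nat_lit 3814792148) (nat_lit 380) (nat_lit 4398674923) (nat_lit 132) (nat_lit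 5) (nat_lit 136) (nat_lit 5) (nat_lit 137) (nat_lit 5) (nat_lit 395) (nat_lit 336) (nat_lit 289)) (XT.lf (nat_lit 0) (nat_lit 9716550981) (nat_lit 380) (nat_lit 1026694448) (nat_lit 76) (nat_lit 140306584) (nat_lit 132) (nat_lit 5) (nat_lit 137) (nat_lit 5) (nat_lit 133) (nat_lit 5) (nat_lit 396) (nat_lit 336) (nat_lit 288)))) (XT.nd (nat_lit 156) (nat_lit 304) (nat_lit 0) (XT.nd (nat_lit 78) (nat_lit 304) (nat_lit 0) (XT.lf (nat_lit 0) (nat_lit 2172123637) (nat_lit 380) (nat_lit 4692139377) (nat_lit 76) (nat_lit 4198098276) (nat_lit 127) (nat_lit 5) (nat_lit 132) (nat_lit 5) (nat_lit 128) (nat_lit 5) (nat_lit 397) (nat_lit 336) (nat_lit 287)) (XT.lf (nat_lit 0) (nat_lit 2734838814) (nat_lit 304) (nat_lit 2843076998) (nat_lit 380) (nat_lit 5668583166) (nat_lit 123) (nat_lit 5) (nat_lit 127) (nat_lit 5) (nat_lit 128) (nat_lit 5) (nat_lit 398) (nat_lit 336) (nat_lit 286))) (XT.nd (nat_lit 78) (nat_lit 304) (nat_lit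 0) (XT.lf (nat_lit 0) (nat_lit 9099866835) (nat_lit 380) (nat_lit 1038090065) (nat_lit 76) (nat_lit 1297793320) (nat_lit 123) (nat_lit 5) (nat_lit 128) (nat_lit 5) (nat_lit 124) (nat_lit 5) (nat_lit 399) (nat_lit 336) (nat_lit 285)) (XT.lf (nat_lit 0) (nat_lit 1123343331) (nat_lit 304) (nat_lit 4947267568) (nat_lit 76) (nat_lit 5558321815) (nat_lit 119) (nat_lit 5) (nat_lit 123) (nat_lit 5) (nat_lit 120) (nat_lit 5) (nat_lit 400) (nat_lit 336) (nat_lit 284))))))))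
noncomputable def xc91 : XT := (XT.nd (nat_lit 2262) (nat_lit 2280) (nat_lit 0) (XT.nd (nat_lit 1092) (nat_lit 1748) (nat_lit 0) (XT.nd (nat_lit 546) (nat_lit 988) (nat_lit 0) (XT.nd (nat_lit 234) (nat_lit 836) (nat_lit 0) (XT.nd (nat_lit 78) (nat_lit 228) (nat_lit 0) (XT.lf (nat_lit 0) (nat_lit 2788523647) (nat_lit 304) (nat_lit 1843471190) (nat_lit 380) (nat_lit 7195452326) (nat_lit 115) (nat_lit 5) (nat_lit 119) (nat_lit 5) (nat_lit 120) (nat_lit 5) (nat_lit 401) (nat_lit 336) (nat_lit 283)) (XT.nd (nat_lit 78) (nat_lit 228) (nat_lit 0) (XT.lf (nat_lit 0) (nat_lit 8276104774) (nat_lit 380) (nat_lit 1267015052) (nat_lit 76) (nat_lit 2487899229) (nat_lit 115) (nat_lit 5) (nat_lit 120) (nat_lit 5) (nat_lit 116) (nat_lit 5) (nat_lit 402) (nat_lit 336) (nat_lit 282)) (XT.lf (nat_lit 0) (nat_lit 6784447143) (nat_lit 228) (nat_lit 5285466357) (nat_lit 304) (nat_lit 169581083) (nat_lit 112) (nat_lit 5) (nat_lit 115)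 (nat_lit 5) (nat_lit 116) (nat_lit 5) (nat_lit 403) (nat_lit 336) (nat_lit 281)))) (XT.nd (nat_lit 156) (nat_lit 532) (nat_lit 0) (XT.nd (nat_lit 78) (nat_lit 0) (nat_lit 0) (XT.lf (nat_lit 0) (nat_lit 2598356087) (nat_lit 228) (nat_lit 851190958) (nat_lit 304) (nat_lit 9003818959) (nat_lit 108) (nat_lit 5) (nat_lit 111) (nat_lit 5) (nat_lit 112) (nat_lit 5) (nat_lit 404) (nat_lit 336) (nat_lit 280)) (XT.lf (nat_lit 0) (nat_lit 7222645448) (nat_lit 304) (nat_lit 1773069933) (nat_lit 76) (nat_lit 3676430756) (nat_lit 108) (nat_lit 5) (nat_lit 112) (nat_lit 5) (nat_lit 109) (nat_lit 5) (nat_lit 405) (nat_lit 336) (nat_lit 279))) (XT.nd (nat_lit 78) (nat_lit 304) (nat_lit 0) (XT.lf (nat_lit 0) (nat_lit 6605479051) (nat_lit 228) (nat_lit 4534073145) (nat_lit 304) (nat_lit 1757025898) (nat_lit 105) (nat_lit 5) (nat_lit 108) (nat_lit 5) (nat_lit 109) (nat_lit 5) (nat_lit 406) (nat_lit 336) (nat_lit 278)) (XT.lf (nat_lit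 0) (nat_lit 2004328219) (nat_lit 304) (nat_lit 11029019817) (nat_lit 76) (nat_lit 93870342) (nat_lit 101) (nat_lit 5) (nat_lit 105) (nat_lit 5) (nat_lit 102) (nat_lit 5) (nat_lit 407) (nat_lit 336) (nat_lit 277))))) (XT.nd (nat_lit 234) (nat_lit 456) (nat_lit 0) (XT.nd (nat_lit 78) (nat_lit 532) (nat_lit 0) (XT.lf (nat_lit 0) (nat_lit 5911433627) (nat_lit 304) (nat_lit 2624475119) (nat_lit 76) (nat_lit 4826306777) (nat_lit 101) (nat_lit 5) (nat_lit 105) (nat_lit 5) (nat_lit 102) (nat_lit 5) (nat_lit 408) (nat_lit 336) (nat_lit 276)) (XT.nd (nat_lit 78) (nat_lit 304) (nat_lit 0) (XT.lf (nat_lit 0) (nat_lit 6086091326) (nat_lit 228) (nat_lit 3868529718) (nat_lit 304) (nat_lit 3649081586) (nat_lit 98) (nat_lit 5) (nat_lit 101) (nat_lit 5) (nat_lit 102) (nat_lit 5) (nat_lit 409) (nat_lit 336) (nat_lit 275)) (XT.lf (nat_lit 0) (nat_lit 269614649) (nat_lit 304) (nat_lit 12645574216) (nat_lit 76) (nat_lit 936929886) (nat_lit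 94) (nat_lit 5) (nat_lit 98) (nat_lit 5) (nat_lit 95) (nat_lit 5) (nat_lit 410) (nat_lit 336) (nat_lit 274)))) (XT.nd (nat_lit 156) (nat_lit 304) (nat_lit 0) (XT.nd (nat_lit 78) (nat_lit 152) (nat_lit 0) (XT.lf (nat_lit 0) (nat_lit 4308292157) (nat_lit 304) (nat_lit 3899688779) (nat_lit 76) (nat_lit 5896655229) (nat_lit 94) (nat_lit 5) (nat_lit 98) (nat_lit 5) (nat_lit 95) (nat_lit 5) (nat_lit 411) (nat_lit 336) (nat_lit 273)) (XT.lf (nat_lit 0) (nat_lit 5145560156) (nat_lit 152) (nat_lit 3333970250) (nat_lit 228) (nat_lit 5884862115) (nat_lit 92) (nat_lit 5) (nat_lit 94) (nat_lit 5) (nat_lit 95) (nat_lit 5) (nat_lit 412) (nat_lit 336) (nat_lit 272))) (XT.nd (nat_lit 78) (nat_lit 304) (nat_lit 0) (XT.lf (nat_lit 0) (nat_lit 12794084700) (nat_lit 228) (nat_lit 168942124) (nat_lit 76) (nat_lit 1668374647) (nat_lit 92) (nat_lit 5) (nat_lit 95) (nat_lit 5) (nat_lit 93) (nat_lit 5) (nat_lit 413) (nat_lit 336) (nat_lit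 271)) (XT.lf (nat_lit 0) (nat_lit 2372104609) (nat_lit 304) (nat_lit 5689263176) (nat_lit 76) (nat_lit 6841807018) (nat_lit 88) (nat_lit 5) (nat_lit 92) (nat_lit 5) (nat_lit 89) (nat_lit 5) (nat_lit 414) (nat_lit 336) (nat_lit 270)))))) (XT.nd (nat_lit 546) (nat_lit 912) (nat_lit 0) (XT.nd (nat_lit 234) (nat_lit 380) (nat_lit 0) (XT.nd (nat_lit 78) (nat_lit 304) (nat_lit 0) (XT.lf (nat_lit 0) (nat_lit 3690510322) (nat_lit 152) (nat_lit 2980986624) (nat_lit 228) (nat_lit 8511044978) (nat_lit 86) (nat_lit 5) (nat_lit 88) (nat_lit 5) (nat_lit 89) (nat_lit 5) (nat_lit 415) (nat_lit 336) (nat_lit 269)) (XT.nd (nat_lit 78) (nat_lit 304) (nat_lit 0) (XT.lf (nat_lit 0) (nat_lit 11143187287) (nat_lit 228) (nat_lit 2084678140) (nat_lit 76) (nat_lit 2241129830) (nat_lit 86) (nat_lit 5) (nat_lit 89) (nat_lit 5) (nat_lit 87) (nat_lit 5) (nat_lit 416) (nat_lit 336) (nat_lit 268)) (XT.lf (nat_lit 0) (nat_lit 53848064) (nat_lit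 304) (nat_lit 8097980074) (nat_lit 76) (nat_lit 7610165729) (nat_lit 82) (nat_lit 5) (nat_lit 86) (nat_lit 5) (nat_lit 83) (nat_lit 5) (nat_lit 417) (nat_lit 336) (nat_lit 267)))) (XT.nd (nat_lit 156) (nat_lit 228) (nat_lit 0) (XT.nd (nat_lit 78) (nat_lit 0) (nat_lit 0) (XT.lf (nat_lit 0) (nat_lit 1612681136) (nat_lit 152) (nat_lit 2866843661) (nat_lit 228) (nat_lit 11582929767) (nat_lit 80) (nat_lit 5) (nat_lit 82) (nat_lit 5) (nat_lit 83) (nat_lit 5) (nat_lit 418) (nat_lit 336) (nat_lit 266)) (XT.lf (nat_lit 0) (nat_lit 9110344774) (nat_lit 228) (nat_lit 4675101922) (nat_lit 76) (nat_lit 2584315361) (nat_lit 80) (nat_lit 5) (nat_lit 83) (nat_lit 5) (nat_lit 81) (nat_lit 5) (nat_lit 419) (nat_lit 336) (nat_lit 265))) (XT.nd (nat_lit 78) (nat_lit 76) (nat_lit 0) (XT.lf (nat_lit 0) (nat_lit 5411072397) (nat_lit 152) (nat_lit 8515455747) (nat_lit 228) (nat_lit 2758371508) (nat_lit 78) (nat_lit 5) (nat_lit 80) (nat_lit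 5) (nat_lit 81) (nat_lit 5) (nat_lit 420) (nat_lit 336) (nat_lit 264)) (XT.lf (nat_lit 0) (nat_lit 1854873539) (nat_lit 228) (nat_lit 1189967455) (nat_lit 76) (nat_lit 13963698438) (nat_lit 77) (nat_lit 5) (nat_lit 80) (nat_lit 5) (nat_lit 78) (nat_lit 5) (nat_lit 421) (nat_lit 336) (nat_lit 263))))) (XT.nd (nat_lit 312) (nat_lit 380) (nat_lit 0) (XT.nd (nat_lit 156) (nat_lit 228) (nat_lit 0) (XT.nd (nat_lit 78) (nat_lit 152) (nat_lit 0) (XT.lf (nat_lit 0) (nat_lit 6633340453) (nat_lit 228) (nat_lit 8072077702) (nat_lit 76) (nat_lit 2633186680) (nat_lit 75) (nat_lit 5) (nat_lit 78) (nat_lit 5) (nat_lit 76) (nat_lit 5) (nat_lit 422) (nat_lit 336) (nat_lit 262)) (XT.lf (nat_lit 0) (nat_lit 2340804883) (nat_lit 152) (nat_lit 9246436957) (nat_lit 228) (nat_lit 6090371535) (nat_lit 73) (nat_lit 5) (nat_lit 75) (nat_lit 5) (nat_lit 76) (nat_lit 5) (nat_lit 423) (nat_lit 336) (nat_lit 261))) (XT.nd (nat_lit 78) (nat_lit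 228) (nat_lit 0) (XT.lf (nat_lit 0) (nat_lit 13174602646) (nat_lit 152) (nat_lit 3564371912) (nat_lit 228) (nat_lit 1286344672) (nat_lit 73) (nat_lit 5) (nat_lit 75) (nat_lit 5) (nat_lit 76) (nat_lit 5) (nat_lit 424) (nat_lit 336) (nat_lit 260)) (XT.lf (nat_lit 0) (nat_lit 3638796029) (nat_lit 228) (nat_lit 12428864868) (nat_lit 76) (nat_lit 2313289224) (nat_lit 70) (nat_lit 5) (nat_lit 73) (nat_lit 5) (nat_lit 71) (nat_lit 5) (nat_lit 425) (nat_lit 336) (nat_lit 259)))) (XT.nd (nat_lit 156) (nat_lit 228) (nat_lit 0) (XT.nd (nat_lit 78) (nat_lit 152) (nat_lit 0) (XT.lf (nat_lit 0) (nat_lit 8739082956) (nat_lit 228) (nat_lit 1671964228) (nat_lit 76) (nat_lit 8334226474) (nat_lit 70) (nat_lit 5) (nat_lit 73) (nat_lit 5) (nat_lit 71) (nat_lit 5) (nat_lit 426) (nat_lit 336) (nat_lit 258)) (XT.lf (nat_lit 0) (nat_lit 9539345787) (nat_lit 152) (nat_lit 4514136307) (nat_lit 228) (nat_lit 5065214796) (nat_lit 68) (nat_lit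 5) (nat_lit 70) (nat_lit 5) (nat_lit 71) (nat_lit 5) (nat_lit 427) (nat_lit 336) (nat_lit 257))) (XT.nd (nat_lit 78) (nat_lit 0) (nat_lit 0) (XT.lf (nat_lit 0) (nat_lit 40462820) (nat_lit 228) (nat_lit 17923697206) (nat_lit 76) (nat_lit 1538650578) (nat_lit 65) (nat_lit 5) (nat_lit 68) (nat_lit 5) (nat_lit 66) (nat_lit 5) (nat_lit 428) (nat_lit 336) (nat_lit 256)) (XT.lf (nat_lit 0) (nat_lit 5309507063) (nat_lit 228) (nat_lit 6777314507) (nat_lit 76) (nat_lit 7806764410) (nat_lit 65) (nat_lit 5) (nat_lit 68) (nat_lit 5) (nat_lit 66) (nat_lit 5) (nat_lit 429) (nat_lit 336) (nat_lit 255))))))) (XT.nd (nat_lit 1092) (nat_lit 1064) (nat_lit 0) (XT.nd (nat_lit 546) (nat_lit 532) (nat_lit 0) (XT.nd (nat_lit 234) (nat_lit 304) (nat_lit 0) (XT.nd (nat_lit 78) (nat_lit 228) (nat_lit 0) (XT.lf (nat_lit 0) (nat_lit 4742938582) (nat_lit 152) (nat_lit 6009778282) (nat_lit 228) (nat_lit 9542887680) (nat_lit 63) (nat_lit 5) (nat_lit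 65) (nat_lit 5) (nat_lit 66) (nat_lit 5) (nat_lit 430) (nat_lit 336) (nat_lit 254)) (XT.nd (nat_lit 78) (nat_lit 228) (nat_lit 0) (XT.lf (nat_lit 0) (nat_lit 16401368401) (nat_lit 228) (nat_lit 4016184197) (nat_lit 76) (nat_lit 290869374) (nat_lit 63) (nat_lit 5) (nat_lit 66) (nat_lit 5) (nat_lit 64) (nat_lit 4) (nat_lit 431) (nat_lit 336) (nat_lit 253)) (XT.lf (nat_lit 0) (nat_lit 1172744720) (nat_lit 228) (nat_lit 13232334649) (nat_lit 76) (nat_lit 6724991592) (nat_lit 60) (nat_lit 5) (nat_lit 63) (nat_lit 5) (nat_lit 61) (nat_lit 5) (nat_lit 432) (nat_lit 336) (nat_lit 252)))) (XT.nd (nat_lit 156) (nat_lit 152) (nat_lit 0) (XT.nd (nat_lit 78) (nat_lit 152) (nat_lit 0) (XT.lf (nat_lit 0) (nat_lit 6742870544) (nat_lit 228) (nat_lit 1406513367) (nat_lit 76) (nat_lit 13413333597) (nat_lit 60) (nat_lit 5) (nat_lit 63) (nat_lit 5) (nat_lit 61) (nat_lit 5) (nat_lit 433) (nat_lit 336) (nat_lit 251)) (XT.lf (nat_lit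 0) (nat_lit 10937297696) (nat_lit 152) (nat_lit 1620311228) (nat_lit 228) (nat_lit 9448411637) (nat_lit 58) (nat_lit 5) (nat_lit 60) (nat_lit 5) (nat_lit 61) (nat_lit 5) (nat_lit 434) (nat_lit 336) (nat_lit 250))) (XT.nd (nat_lit 78) (nat_lit 76) (nat_lit 0) (XT.lf (nat_lit 0) (nat_lit 1140785483) (nat_lit 76) (nat_lit 17452866453) (nat_lit 152) (nat_lit 3867567202) (nat_lit 57) (nat_lit 5) (nat_lit 58) (nat_lit 5) (nat_lit 59) (nat_lit 4) (nat_lit 435) (nat_lit 336) (nat_lit 249)) (XT.lf (nat_lit 0) (nat_lit 1945460054) (nat_lit 152) (nat_lit 9068851143) (nat_lit 76) (nat_lit 11912178588) (nat_lit 56) (nat_lit 5) (nat_lit 58) (nat_lit 5) (nat_lit 57) (nat_lit 5) (nat_lit 436) (nat_lit 336) (nat_lit 248))))) (XT.nd (nat_lit 234) (nat_lit 304) (nat_lit 0) (XT.nd (nat_lit 78) (nat_lit 76) (nat_lit 0) (XT.lf (nat_lit 0) (nat_lit 3531995542) (nat_lit 152) (nat_lit 4330434999) (nat_lit 228) (nat_lit 15541922739) (nat_lit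 54) (nat_lit 5) (nat_lit 56) (nat_lit 5) (nat_lit 57) (nat_lit 5) (nat_lit 437) (nat_lit 336) (nat_lit 247)) (XT.nd (nat_lit 78) (nat_lit 76) (nat_lit 0) (XT.lf (nat_lit 0) (nat_lit 14047378495) (nat_lit 228) (nat_lit 7271505481) (nat_lit 76) (nat_lit 2574956699) (nat_lit 54) (nat_lit 5) (nat_lit 57) (nat_lit 5) (nat_lit 55) (nat_lit 4) (nat_lit 438) (nat_lit 336) (nat_lit 246)) (XT.lf (nat_lit 0) (nat_lit 5728698459) (nat_lit 76) (nat_lit 14761327376) (nat_lit 152) (nat_lit 3905824318) (nat_lit 53) (nat_lit 5) (nat_lit 54) (nat_lit 5) (nat_lit 55) (nat_lit 4) (nat_lit 439) (nat_lit 336) (nat_lit 245)))) (XT.nd (nat_lit 156) (nat_lit 76) (nat_lit 0) (XT.nd (nat_lit 78) (nat_lit 152) (nat_lit 0) (XT.lf (nat_lit 0) (nat_lit 2218254983) (nat_lit 152) (nat_lit 5712383479) (nat_lit 76) (nat_lit 16980192939) (nat_lit 52) (nat_lit 5) (nat_lit 54) (nat_lit 5) (nat_lit 53) (nat_lit 5) (nat_lit 440) (nat_lit 336) (nat_lit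 244)) (XT.lf (nat_lit 0) (nat_lit 7696292406) (nat_lit 152) (nat_lit 800244067) (nat_lit 228) (nat_lit 16942097797) (nat_lit 50) (nat_lit 5) (nat_lit 52) (nat_lit 5) (nat_lit 53) (nat_lit 5) (nat_lit 441) (nat_lit 336) (nat_lit 243))) (XT.nd (nat_lit 78) (nat_lit 76) (nat_lit 0) (XT.lf (nat_lit 0) (nat_lit 15059413741) (nat_lit 228) (nat_lit 4466023801) (nat_lit 76) (nat_lit 6453948028) (nat_lit 50) (nat_lit 5) (nat_lit 53) (nat_lit 5) (nat_lit 51) (nat_lit 4) (nat_lit 442) (nat_lit 336) (nat_lit 242)) (XT.lf (nat_lit 0) (nat_lit 9337892763) (nat_lit 76) (nat_lit 12554781743) (nat_lit 152) (nat_lit 4641481705) (nat_lit 49) (nat_lit 5) (nat_lit 50) (nat_lit 5) (nat_lit 51) (nat_lit 4) (nat_lit 443) (nat_lit 336) (nat_lit 241)))))) (XT.nd (nat_lit 546) (nat_lit 532) (nat_lit 0) (XT.nd (nat_lit 234) (nat_lit 304) (nat_lit 0) (XT.nd (nat_lit 78) (nat_lit 152) (nat_lit 0) (XT.lf (nat_lit 0) (nat_lit 1811138688) (nat_lit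 152) (nat_lit 3519759093) (nat_lit 76) (nat_lit 21773505560) (nat_lit 48) (nat_lit 5) (nat_lit 50) (nat_lit 5) (nat_lit 49) (nat_lit 5) (nat_lit 444) (nat_lit 336) (nat_lit 240)) (XT.nd (nat_lit 78) (nat_lit 0) (nat_lit 0) (XT.lf (nat_lit 0) (nat_lit 8464878555) (nat_lit 228) (nat_lit 17023667766) (nat_lit 76) (nat_lit 2198809574) (nat_lit 46) (nat_lit 5) (nat_lit 49) (nat_lit 5) (nat_lit 47) (nat_lit 4) (nat_lit 445) (nat_lit 336) (nat_lit 239)) (XT.lf (nat_lit 0) (nat_lit 15383533669) (nat_lit 228) (nat_lit 3038862085) (nat_lit 76) (nat_lit 9863443704) (nat_lit 46) (nat_lit 5) (nat_lit 49) (nat_lit 5) (nat_lit 47) (nat_lit 4) (nat_lit 446) (nat_lit 336) (nat_lit 238)))) (XT.nd (nat_lit 156) (nat_lit 152) (nat_lit 0) (XT.nd (nat_lit 78) (nat_lit 76) (nat_lit 0) (XT.lf (nat_lit 0) (nat_lit 11548323914) (nat_lit 76) (nat_lit 11049742148) (nat_lit 152) (nat_lit 6301563417) (nat_lit 45) (nat_lit 5) (nat_lit 46) (nat_lit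 5) (nat_lit 47) (nat_lit 4) (nat_lit 447) (nat_lit 336) (nat_lit 237)) (XT.lf (nat_lit 0) (nat_lit 495830216) (nat_lit 152) (nat_lit 2943125454) (nat_lit 76) (nat_lit 26092485607) (nat_lit 44) (nat_lit 5) (nat_lit 46) (nat_lit 5) (nat_lit 45) (nat_lit 5) (nat_lit 448) (nat_lit 336) (nat_lit 236))) (XT.nd (nat_lit 78) (nat_lit 0) (nat_lit 0) (XT.lf (nat_lit 0) (nat_lit 7507988649) (nat_lit 228) (nat_lit 18193087621) (nat_lit 76) (nat_lit 4475135816) (nat_lit 42) (nat_lit 5) (nat_lit 45) (nat_lit 5) (nat_lit 43) (nat_lit 4) (nat_lit 449) (nat_lit 336) (nat_lit 235)) (XT.lf (nat_lit 0) (nat_lit 14772639176) (nat_lit 228) (nat_lit 3497658959) (nat_lit 76) (nat_lit 12568765378) (nat_lit 42) (nat_lit 5) (nat_lit 45) (nat_lit 5) (nat_lit 43) (nat_lit 4) (nat_lit 450) (nat_lit 336) (nat_lit 234))))) (XT.nd (nat_lit 312) (nat_lit 228) (nat_lit 0) (XT.nd (nat_lit 156) (nat_lit 228) (nat_lit 0) (XT.nd (nat_lit 78) (nat_lit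 0) (nat_lit 0) (XT.lf (nat_lit 0) (nat_lit 11829295519) (nat_lit 76) (nat_lit 10518347253) (nat_lit 152) (nat_lit 9171386580) (nat_lit 41) (nat_lit 5) (nat_lit 42) (nat_lit 5) (nat_lit 43) (nat_lit 4) (nat_lit 451) (nat_lit 336) (nat_lit 233)) (XT.lf (nat_lit 0) (nat_lit 27647981822) (nat_lit 76) (nat_lit 2516175233) (nat_lit 152) (nat_lit 2054810532) (nat_lit 41) (nat_lit 5) (nat_lit 42) (nat_lit 5) (nat_lit 43) (nat_lit 4) (nat_lit 452) (nat_lit 336) (nat_lit 232))) (XT.nd (nat_lit 78) (nat_lit 0) (nat_lit 0) (XT.lf (nat_lit 0) (nat_lit 5315077569) (nat_lit 228) (nat_lit 21863472376) (nat_lit 76) (nat_lit 5755551298) (nat_lit 38) (nat_lit 5) (nat_lit 41) (nat_lit 5) (nat_lit 39) (nat_lit 4) (nat_lit 453) (nat_lit 336) (nat_lit 231)) (XT.lf (nat_lit 0) (nat_lit 12915695852) (nat_lit 228) (nat_lit 6478910668) (nat_lit 76) (nat_lit 14273945185) (nat_lit 38) (nat_lit 5) (nat_lit 41) (nat_lit 5) (nat_lit 39) (nat_lit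 4) (nat_lit 454) (nat_lit 336) (nat_lit 230)))) (XT.nd (nat_lit 156) (nat_lit 152) (nat_lit 0) (XT.nd (nat_lit 78) (nat_lit 0) (nat_lit 0) (XT.lf (nat_lit 0) (nat_lit 9514911609) (nat_lit 76) (nat_lit 11300889629) (nat_lit 152) (nat_lit 13607091487) (nat_lit 37) (nat_lit 5) (nat_lit 38) (nat_lit 5) (nat_lit 39) (nat_lit 4) (nat_lit 455) (nat_lit 336) (nat_lit 229)) (XT.lf (nat_lit 0) (nat_lit 26083785419) (nat_lit 76) (nat_lit 2914775244) (nat_lit 152) (nat_lit 6199934855) (nat_lit 37) (nat_lit 5) (nat_lit 38) (nat_lit 5) (nat_lit 39) (nat_lit 4) (nat_lit 456) (nat_lit 336) (nat_lit 228))) (XT.nd (nat_lit 78) (nat_lit 0) (nat_lit 0) (XT.lf (nat_lit 0) (nat_lit 1507449073) (nat_lit 152) (nat_lit 28808027435) (nat_lit 76) (nat_lit 5678301494) (nat_lit 35) (nat_lit 5) (nat_lit 37) (nat_lit 5) (nat_lit 36) (nat_lit 4) (nat_lit 457) (nat_lit 336) (nat_lit 227)) (XT.lf (nat_lit 0) (nat_lit 9423911748) (nat_lit 152) (nat_lit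 12776161130) (nat_lit 76) (nat_lit 14607931402) (nat_lit 35) (nat_lit 5) (nat_lit 37) (nat_lit 5) (nat_lit 36) (nat_lit 4) (nat_lit 458) (nat_lit 336) (nat_lit 226))))))))
noncomputable def xc92 : XT := (XT.nd (nat_lit 2184) (nat_lit 76) (nat_lit 0) (XT.nd (nat_lit 1092) (nat_lit 532) (nat_lit 0) (XT.nd (nat_lit 546) (nat_lit 380) (nat_lit 0) (XT.nd (nat_lit 234) (nat_lit 228) (nat_lit 0) (XT.nd (nat_lit 78) (nat_lit 0) (nat_lit 0) (XT.lf (nat_lit 0) (nat_lit 3774474843) (nat_lit 76) (nat_lit 13820897988) (nat_lit 152) (nat_lit 20050760330) (nat_lit 34) (nat_lit 5) (nat_lit 35) (nat_lit 5) (nat_lit 36) (nat_lit 4) (nat_lit 459) (nat_lit 336) (nat_lit 225)) (XT.nd (nat_lit 78) (nat_lit 0) (nat_lit 0) (XT.lf (nat_lit 0) (nat_lit 21048040124) (nat_lit 76) (nat_lit 5074379559) (nat_lit 152) (nat_lit 12383673887) (nat_lit 34) (nat_lit 5) (nat_lit 35) (nat_lit 5) (nat_lit 36) (nat_lit 4) (nat_lit 460) (nat_lit 336) (nat_lit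 224)) (XT.lf (nat_lit 0) (nat_lit 34924909920) (nat_lit 152) (nat_lit 624700442) (nat_lit 0) (nat_lit 3841654365) (nat_lit 34) (nat_lit 5) (nat_lit 36) (nat_lit 4) (nat_lit 34) (nat_lit 4) (nat_lit 461) (nat_lit 336) (nat_lit 223)))) (XT.nd (nat_lit 156) (nat_lit 76) (nat_lit 0) (XT.nd (nat_lit 78) (nat_lit 0) (nat_lit 0) (XT.lf (nat_lit 0) (nat_lit 3814061352) (nat_lit 152) (nat_lit 23373967101) (nat_lit 76) (nat_lit 13107973139) (nat_lit 32) (nat_lit 5) (nat_lit 34) (nat_lit 5) (nat_lit 33) (nat_lit 4) (nat_lit 462) (nat_lit 336) (nat_lit 222)) (XT.lf (nat_lit 0) (nat_lit 12241850637) (nat_lit 152) (nat_lit 6297842320) (nat_lit 76) (nat_lit 22687199885) (nat_lit 32) (nat_lit 5) (nat_lit 34) (nat_lit 5) (nat_lit 33) (nat_lit 4) (nat_lit 463) (nat_lit 336) (nat_lit 221))) (XT.nd (nat_lit 78) (nat_lit 0) (nat_lit 0) (XT.lf (nat_lit 0) (nat_lit 11481757985) (nat_lit 76) (nat_lit 9533958347) (nat_lit 152) (nat_lit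 21167198011) (nat_lit 31) (nat_lit 5) (nat_lit 32) (nat_lit 5) (nat_lit 33) (nat_lit 4) (nat_lit 464) (nat_lit 336) (nat_lit 220)) (XT.lf (nat_lit 0) (nat_lit 29891309364) (nat_lit 76) (nat_lit 208143625) (nat_lit 152) (nat_lit 13066764622) (nat_lit 31) (nat_lit 5) (nat_lit 32) (nat_lit 5) (nat_lit 33) (nat_lit 4) (nat_lit 465) (nat_lit 336) (nat_lit 219))))) (XT.nd (nat_lit 234) (nat_lit 228) (nat_lit 0) (XT.nd (nat_lit 78) (nat_lit 76) (nat_lit 0) (XT.lf (nat_lit 0) (nat_lit 4642446678) (nat_lit 76) (nat_lit 34931622108) (nat_lit 76) (nat_lit 4601400930) (nat_lit 30) (nat_lit 4) (nat_lit 31) (nat_lit 5) (nat_lit 31) (nat_lit 4) (nat_lit 466) (nat_lit 336) (nat_lit 218)) (XT.nd (nat_lit 78) (nat_lit 0) (nat_lit 0) (XT.lf (nat_lit 0) (nat_lit 4158429834) (nat_lit 152) (nat_lit 21916460067) (nat_lit 76) (nat_lit 19135296819) (nat_lit 29) (nat_lit 5) (nat_lit 31) (nat_lit 5) (nat_lit 30) (nat_lit 4) (nat_lit 467)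 (nat_lit 336) (nat_lit 217)) (XT.lf (nat_lit 0) (nat_lit 13072477821) (nat_lit 152) (nat_lit 3847982898) (nat_lit 76) (nat_lit 29354601271) (nat_lit 29) (nat_lit 5) (nat_lit 31) (nat_lit 5) (nat_lit 30) (nat_lit 4) (nat_lit 468) (nat_lit 336) (nat_lit 216)))) (XT.nd (nat_lit 156) (nat_lit 152) (nat_lit 0) (XT.nd (nat_lit 78) (nat_lit 0) (nat_lit 0) (XT.lf (nat_lit 0) (nat_lit 15025632141) (nat_lit 76) (nat_lit 7357125338) (nat_lit 152) (nat_lit 24985262398) (nat_lit 28) (nat_lit 5) (nat_lit 29) (nat_lit 5) (nat_lit 30) (nat_lit 4) (nat_lit 469) (nat_lit 336) (nat_lit 215)) (XT.lf (nat_lit 0) (nat_lit 32019957585) (nat_lit 152) (nat_lit 14002766885) (nat_lit 0) (nat_lit 2469614315) (nat_lit 28) (nat_lit 5) (nat_lit 30) (nat_lit 4) (nat_lit 28) (nat_lit 4) (nat_lit 470) (nat_lit 336) (nat_lit 214))) (XT.nd (nat_lit 78) (nat_lit 76) (nat_lit 0) (XT.lf (nat_lit 0) (nat_lit 4880155801) (nat_lit 76) (nat_lit 37170730938)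 (nat_lit 76) (nat_lit 7596362759) (nat_lit 27) (nat_lit 4) (nat_lit 28) (nat_lit 5) (nat_lit 28) (nat_lit 4) (nat_lit 471) (nat_lit 336) (nat_lit 213)) (XT.lf (nat_lit 0) (nat_lit 1643442583) (nat_lit 152) (nat_lit 26261504888) (nat_lit 76) (nat_lit 22927584644) (nat_lit 26) (nat_lit 5) (nat_lit 28) (nat_lit 5) (nat_lit 27) (nat_lit 4) (nat_lit 472) (nat_lit 336) (nat_lit 212)))))) (XT.nd (nat_lit 546) (nat_lit 228) (nat_lit 0) (XT.nd (nat_lit 234) (nat_lit 228) (nat_lit 0) (XT.nd (nat_lit 78) (nat_lit 76) (nat_lit 0) (XT.lf (nat_lit 0) (nat_lit 10993075956) (nat_lit 152) (nat_lit 7304394920) (nat_lit 76) (nat_lit 33754087165) (nat_lit 26) (nat_lit 5) (nat_lit 28) (nat_lit 5) (nat_lit 27) (nat_lit 4) (nat_lit 473) (nat_lit 336) (nat_lit 211)) (XT.nd (nat_lit 78) (nat_lit 0) (nat_lit 0) (XT.lf (nat_lit 0) (nat_lit 12436502514) (nat_lit 76) (nat_lit 8291984097) (nat_lit 152) (nat_lit 32575510044) (nat_lit 25) (nat_lit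 5) (nat_lit 26) (nat_lit 5) (nat_lit 27) (nat_lit 4) (nat_lit 474) (nat_lit 336) (nat_lit 210)) (XT.lf (nat_lit 0) (nat_lit 30835572929) (nat_lit 152) (nat_lit 21720155417) (nat_lit 0) (nat_lit 2035892223) (nat_lit 25) (nat_lit 5) (nat_lit 27) (nat_lit 4) (nat_lit 25) (nat_lit 4) (nat_lit 475) (nat_lit 336) (nat_lit 209)))) (XT.nd (nat_lit 156) (nat_lit 152) (nat_lit 0) (XT.nd (nat_lit 78) (nat_lit 76) (nat_lit 0) (XT.lf (nat_lit 0) (nat_lit 41314151637) (nat_lit 152) (nat_lit 2107323245) (nat_lit 0) (nat_lit 12494350449) (nat_lit 25) (nat_lit 5) (nat_lit 27) (nat_lit 4) (nat_lit 25) (nat_lit 4) (nat_lit 476) (nat_lit 336) (nat_lit 208)) (XT.lf (nat_lit 0) (nat_lit 18427433014) (nat_lit 76) (nat_lit 33843373897) (nat_lit 76) (nat_lit 5004038260) (nat_lit 24) (nat_lit 4) (nat_lit 25) (nat_lit 5) (nat_lit 25) (nat_lit 4) (nat_lit 477) (nat_lit 336) (nat_lit 207))) (XT.nd (nat_lit 78) (nat_lit 76) (nat_lit 0) (XT.lf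 (nat_lit 0) (nat_lit 4794354992) (nat_lit 152) (nat_lit 19125760487) (nat_lit 76) (nat_lit 34752870334) (nat_lit 23) (nat_lit 5) (nat_lit 25) (nat_lit 5) (nat_lit 24) (nat_lit 4) (nat_lit 478) (nat_lit 336) (nat_lit 206)) (XT.lf (nat_lit 0) (nat_lit 1134841231) (nat_lit 76) (nat_lit 13649176229) (nat_lit 152) (nat_lit 45327630524) (nat_lit 22) (nat_lit 5) (nat_lit 23) (nat_lit 5) (nat_lit 24) (nat_lit 4) (nat_lit 479) (nat_lit 336) (nat_lit 205))))) (XT.nd (nat_lit 234) (nat_lit 152) (nat_lit 0) (XT.nd (nat_lit 78) (nat_lit 76) (nat_lit 0) (XT.lf (nat_lit 0) (nat_lit 22370268968) (nat_lit 76) (nat_lit 2883356633) (nat_lit 152) (nat_lit 36334437200) (nat_lit 22) (nat_lit 5) (nat_lit 23) (nat_lit 5) (nat_lit 24) (nat_lit 4) (nat_lit 480) (nat_lit 336) (nat_lit 204)) (XT.nd (nat_lit 78) (nat_lit 76) (nat_lit 0) (XT.lf (nat_lit 0) (nat_lit 36103582223) (nat_lit 152) (nat_lit 18969469808) (nat_lit 0) (nat_lit 8033730663)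 (nat_lit 22) (nat_lit 5) (nat_lit 24) (nat_lit 4) (nat_lit 22) (nat_lit 4) (nat_lit 481) (nat_lit 336) (nat_lit 203)) (XT.lf (nat_lit 0) (nat_lit 1870386254) (nat_lit 76) (nat_lit 45442930665) (nat_lit 76) (nat_lit 17356719312) (nat_lit 21) (nat_lit 4) (nat_lit 22) (nat_lit 5) (nat_lit 22) (nat_lit 4) (nat_lit 482) (nat_lit 336) (nat_lit 202)))) (XT.nd (nat_lit 156) (nat_lit 76) (nat_lit 0) (XT.nd (nat_lit 78) (nat_lit 76) (nat_lit 0) (XT.lf (nat_lit 0) (nat_lit 23700659957) (nat_lit 76) (nat_lit 35338119700) (nat_lit 76) (nat_lit 7236025051) (nat_lit 21) (nat_lit 4) (nat_lit 22) (nat_lit 5) (nat_lit 22) (nat_lit 4) (nat_lit 483) (nat_lit 336) (nat_lit 201)) (XT.lf (nat_lit 0) (nat_lit 3114192644) (nat_lit 152) (nat_lit 21795704255) (nat_lit 76) (nat_lit 43017256770) (nat_lit 20) (nat_lit 5) (nat_lit 22) (nat_lit 5) (nat_lit 21) (nat_lit 4) (nat_lit 484) (nat_lit 336) (nat_lit 200))) (XT.nd (nat_lit 78) (nat_lit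 76) (nat_lit 0) (XT.lf (nat_lit 0) (nat_lit 13617943650) (nat_lit 152) (nat_lit 488061241) (nat_lit 76) (nat_lit 55521265361) (nat_lit 20) (nat_lit 5) (nat_lit 22) (nat_lit 5) (nat_lit 21) (nat_lit 4) (nat_lit 485) (nat_lit 336) (nat_lit 199)) (XT.lf (nat_lit 0) (nat_lit 21863597250) (nat_lit 76) (nat_lit 2772175935) (nat_lit 152) (nat_lit 46736648536) (nat_lit 19) (nat_lit 5) (nat_lit 20) (nat_lit 5) (nat_lit 21) (nat_lit 4) (nat_lit 486) (nat_lit 336) (nat_lit 198))))))) (XT.nd (nat_lit 42900) (nat_lit 0) (nat_lit 16568) (XT.nd (nat_lit 42354) (nat_lit 0) (nat_lit 25916) (XT.nd (nat_lit 234) (nat_lit 0) (nat_lit 0) (XT.nd (nat_lit 78) (nat_lit 76) (nat_lit 0) (XT.lf (nat_lit 0) (nat_lit 36063499639) (nat_lit 152) (nat_lit 28381455155) (nat_lit 0) (nat_lit 8722592437) (nat_lit 19) (nat_lit 5) (nat_lit 21) (nat_lit 4) (nat_lit 19) (nat_lit 4) (nat_lit 487) (nat_lit 336) (nat_lit 197)) (XT.nd (nat_lit 78) (nat_lit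 76) (nat_lit 0) (XT.lf (nat_lit 0) (nat_lit 47850647404) (nat_lit 152) (nat_lit 6668943573) (nat_lit 0) (nat_lit 20496438193) (nat_lit 19) (nat_lit 5) (nat_lit 21) (nat_lit 4) (nat_lit 19) (nat_lit 4) (nat_lit 488) (nat_lit 336) (nat_lit 196)) (XT.lf (nat_lit 0) (nat_lit 15986280128) (nat_lit 76) (nat_lit 44148257853) (nat_lit 76) (nat_lit 16781134070) (nat_lit 18) (nat_lit 4) (nat_lit 19) (nat_lit 5) (nat_lit 19) (nat_lit 4) (nat_lit 489) (nat_lit 336) (nat_lit 195)))) (XT.nd (nat_lit 41964) (nat_lit 0) (nat_lit 28120) (XT.nd (nat_lit 41886) (nat_lit 0) (nat_lit 28500) (XT.lf (nat_lit 0) (nat_lit 39437456302) (nat_lit 76) (nat_lit 33406401535) (nat_lit 76) (nat_lit 6026739332) (nat_lit 18) (nat_lit 4) (nat_lit 19) (nat_lit 5) (nat_lit 19) (nat_lit 4) (nat_lit 490) (nat_lit 336) (nat_lit 194)) (XT.lf (nat_lit 0) (nat_lit 416893585) (nat_lit 228) (nat_lit 1411673309) (nat_lit 228) (nat_lit 1411673309) (nat_lit 393)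 (nat_lit 4) (nat_lit 396) (nat_lit 5) (nat_lit 396) (nat_lit 4) (nat_lit 346) (nat_lit 337) (nat_lit 337))) (XT.nd (nat_lit 78) (nat_lit 304) (nat_lit 0) (XT.lf (nat_lit 0) (nat_lit 340904314) (nat_lit 304) (nat_lit 2028269825) (nat_lit 76) (nat_lit 4125716871) (nat_lit 392) (nat_lit 5) (nat_lit 396) (nat_lit 5) (nat_lit 393) (nat_lit 4) (nat_lit 347) (nat_lit 337) (nat_lit 336)) (XT.lf (nat_lit 0) (nat_lit 1630439215) (nat_lit 304) (nat_lit 1813806193) (nat_lit 380) (nat_lit 3067689621) (nat_lit 388) (nat_lit 5) (nat_lit 392) (nat_lit 5) (nat_lit 393) (nat_lit 4) (nat_lit 348) (nat_lit 337) (nat_lit 335))))) (XT.nd (nat_lit 234) (nat_lit 1748) (nat_lit 0) (XT.nd (nat_lit 78) (nat_lit 380) (nat_lit 0) (XT.lf (nat_lit 0) (nat_lit 16429519) (nat_lit 380) (nat_lit 1163399940) (nat_lit 76) (nat_lit 5352469900) (nat_lit 387) (nat_lit 5) (nat_lit 392) (nat_lit 5) (nat_lit 388) (nat_lit 5) (nat_lit 349) (nat_lit 337)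 (nat_lit 334)) (XT.nd (nat_lit 78) (nat_lit 0) (nat_lit 0) (XT.lf (nat_lit 0) (nat_lit 2615308062) (nat_lit 380) (nat_lit 431264704) (nat_lit 456) (nat_lit 3508397225) (nat_lit 382) (nat_lit 5) (nat_lit 387) (nat_lit 5) (nat_lit 388) (nat_lit 5) (nat_lit 350) (nat_lit 337) (nat_lit 333)) (XT.lf (nat_lit 0) (nat_lit 6075642209) (nat_lit 456) (nat_lit 124649345) (nat_lit 76) (nat_lit 380848052) (nat_lit 382) (nat_lit 5) (nat_lit 388) (nat_lit 5) (nat_lit 383) (nat_lit 4) (nat_lit 351) (nat_lit 337) (nat_lit 332)))) (XT.nd (nat_lit 156) (nat_lit 684) (nat_lit 0) (XT.nd (nat_lit 78) (nat_lit 532) (nat_lit 0) (XT.lf (nat_lit 0) (nat_lit 2473148158) (nat_lit 532) (nat_lit 2831905756) (nat_lit 76) (nat_lit 1304265828) (nat_lit 375) (nat_lit 5) (nat_lit 382) (nat_lit 5) (nat_lit 376) (nat_lit 5) (nat_lit 352) (nat_lit 337) (nat_lit 331)) (XT.lf (nat_lit 0) (nat_lit 1103560675) (nat_lit 532) (nat_lit 4336601593) (nat_lit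 608) (nat_lit 1200812260) (nat_lit 368) (nat_lit 5) (nat_lit 375) (nat_lit 5) (nat_lit 376) (nat_lit 5) (nat_lit 353) (nat_lit 337) (nat_lit 330))) (XT.nd (nat_lit 78) (nat_lit 608) (nat_lit 0) (XT.lf (nat_lit 0) (nat_lit 1714455463) (nat_lit 608) (nat_lit 1550472847) (nat_lit 76) (nat_lit 3410353994) (nat_lit 367) (nat_lit 5) (nat_lit 375) (nat_lit 5) (nat_lit 368) (nat_lit 5) (nat_lit 354) (nat_lit 337) (nat_lit 329)) (XT.lf (nat_lit 0) (nat_lit 2520466635) (nat_lit 608) (nat_lit 2098296482) (nat_lit 684) (nat_lit 2093777856) (nat_lit 359) (nat_lit 5) (nat_lit 367) (nat_lit 5) (nat_lit 368) (nat_lit 5) (nat_lit 355) (nat_lit 337) (nat_lit 328)))))) (XT.nd (nat_lit 546) (nat_lit 5928) (nat_lit 0) (XT.nd (nat_lit 234) (nat_lit 1900) (nat_lit 0) (XT.nd (nat_lit 78) (nat_lit 1444) (nat_lit 0) (XT.lf (nat_lit 0) (nat_lit 760989482) (nat_lit 684) (nat_lit 87718544) (nat_lit 76) (nat_lit 5904454329) (nat_lit 358) (nat_lit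 5) (nat_lit 367) (nat_lit 5) (nat_lit 359) (nat_lit 5) (nat_lit 356) (nat_lit 337) (nat_lit 327)) (XT.nd (nat_lit 78) (nat_lit 760) (nat_lit 0) (XT.lf (nat_lit 0) (nat_lit 3609519714) (nat_lit 760) (nat_lit 2673530765) (nat_lit 76) (nat_lit 512869521) (nat_lit 349) (nat_lit 5) (nat_lit 359) (nat_lit 5) (nat_lit 350) (nat_lit 5) (nat_lit 357) (nat_lit 337) (nat_lit 326)) (XT.lf (nat_lit 0) (nat_lit 1568533111) (nat_lit 760) (nat_lit 4907116078) (nat_lit 836) (nat_lit 366391175) (nat_lit 339) (nat_lit 5) (nat_lit 349) (nat_lit 5) (nat_lit 350) (nat_lit 5) (nat_lit 358) (nat_lit 337) (nat_lit 325)))) (XT.nd (nat_lit 156) (nat_lit 988) (nat_lit 0) (XT.nd (nat_lit 78) (nat_lit 836) (nat_lit 0) (XT.lf (nat_lit 0) (nat_lit 2424764317) (nat_lit 836) (nat_lit 996192235) (nat_lit 76) (nat_lit 3469815291) (nat_lit 338) (nat_lit 5) (nat_lit 349) (nat_lit 5) (nat_lit 339) (nat_lit 5) (nat_lit 359) (nat_lit 337) (nat_lit 324))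 (XT.lf (nat_lit 0) (nat_lit 3398881470) (nat_lit 836) (nat_lit 1837548186) (nat_lit 912) (nat_lit 1706143135) (nat_lit 327) (nat_lit 5) (nat_lit 338) (nat_lit 5) (nat_lit 339) (nat_lit 5) (nat_lit 360) (nat_lit 337) (nat_lit 323))) (XT.nd (nat_lit 78) (nat_lit 0) (nat_lit 0) (XT.lf (nat_lit 0) (nat_lit 882478282) (nat_lit 912) (nat_lit 162955439) (nat_lit 988) (nat_lit 5952271681) (nat_lit 314) (nat_lit 5) (nat_lit 326) (nat_lit 5) (nat_lit 327) (nat_lit 5) (nat_lit 361) (nat_lit 337) (nat_lit 322)) (XT.lf (nat_lit 0) (nat_lit 3810829386) (nat_lit 988) (nat_lit 1647919795) (nat_lit 76) (nat_lit 1596306230) (nat_lit 314) (nat_lit 5) (nat_lit 327) (nat_lit 5) (nat_lit 315) (nat_lit 5) (nat_lit 362) (nat_lit 337) (nat_lit 321))))) (XT.nd (nat_lit 312) (nat_lit 2584) (nat_lit 0) (XT.nd (nat_lit 156) (nat_lit 1216) (nat_lit 0) (XT.nd (nat_lit 78) (nat_lit 1140) (nat_lit 0) (XT.lf (nat_lit 0) (nat_lit 2934972002) (nat_lit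 988) (nat_lit 3670944923) (nat_lit 1064) (nat_lit 509843105) (nat_lit 301) (nat_lit 5) (nat_lit 314) (nat_lit 5) (nat_lit 315) (nat_lit 5) (nat_lit 363) (nat_lit 337) (nat_lit 320)) (XT.lf (nat_lit 0) (nat_lit 422209514) (nat_lit 1064) (nat_lit 1777995164) (nat_lit 1140) (nat_lit 4979290604) (nat_lit 286) (nat_lit 5) (nat_lit 300) (nat_lit 5) (nat_lit 301) (nat_lit 5) (nat_lit 364) (nat_lit 337) (nat_lit 319))) (XT.nd (nat_lit 78) (nat_lit 1216) (nat_lit 0) (XT.lf (nat_lit 0) (nat_lit 4945112586) (nat_lit 1140) (nat_lit 2078804463) (nat_lit 76) (nat_lit 222192879) (nat_lit 286) (nat_lit 5) (nat_lit 301) (nat_lit 5) (nat_lit 287) (nat_lit 5) (nat_lit 365) (nat_lit 337) (nat_lit 318)) (XT.lf (nat_lit 0) (nat_lit 413767468) (nat_lit 1216) (nat_lit 4619297293) (nat_lit 76) (nat_lit 2282605749) (nat_lit 270) (nat_lit 5) (nat_lit 286) (nat_lit 5) (nat_lit 271) (nat_lit 5) (nat_lit 366) (nat_lit 337) (nat_lit 317))))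 (XT.nd (nat_lit 156) (nat_lit 1368) (nat_lit 0) (XT.nd (nat_lit 78) (nat_lit 0) (nat_lit 0) (XT.lf (nat_lit 0) (nat_lit 175759191) (nat_lit 1216) (nat_lit 2933498349) (nat_lit 1292) (nat_lit 4279041164) (nat_lit 254) (nat_lit 5) (nat_lit 270) (nat_lit 5) (nat_lit 271) (nat_lit 5) (nat_lit 367) (nat_lit 337) (nat_lit 316)) (XT.lf (nat_lit 0) (nat_lit 5134685729) (nat_lit 1216) (nat_lit 721748696) (nat_lit 1292) (nat_lit 1607575934) (nat_lit 254) (nat_lit 5) (nat_lit 270) (nat_lit 5) (nat_lit 271) (nat_lit 5) (nat_lit 368) (nat_lit 337) (nat_lit 315))) (XT.nd (nat_lit 78) (nat_lit 608) (nat_lit 0) (XT.lf (nat_lit 0) (nat_lit 1088304949) (nat_lit 760) (nat_lit 4891044581) (nat_lit 76) (nat_lit 1563343643) (nat_lit 244) (nat_lit 5) (nat_lit 254) (nat_lit 5) (nat_lit 245) (nat_lit 5) (nat_lit 369) (nat_lit 337) (nat_lit 314)) (XT.lf (nat_lit 0) (nat_lit 110132099) (nat_lit 608) (nat_lit 3681664855) (nat_lit 684) (nat_lit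 3832717455) (nat_lit 236) (nat_lit 5) (nat_lit 244) (nat_lit 5) (nat_lit 245) (nat_lit 5) (nat_lit 370) (nat_lit 337) (nat_lit 313))))))))
noncomputable def xc93 : XT := (XT.nd (nat_lit 2262) (nat_lit 4180) (nat_lit 0) (XT.nd (nat_lit 1092) (nat_lit 3724) (nat_lit 0) (XT.nd (nat_lit 546) (nat_lit 2584) (nat_lit 0) (XT.nd (nat_lit 234) (nat_lit 1064) (nat_lit 0) (XT.nd (nat_lit 78) (nat_lit 1216) (nat_lit 0) (XT.lf (nat_lit 0) (nat_lit 5286855275) (nat_lit 608) (nat_lit 1267419758) (nat_lit 684) (nat_lit 1155204825) (nat_lit 236) (nat_lit 5) (nat_lit 244) (nat_lit 5) (nat_lit 245) (nat_lit 5) (nat_lit 371) (nat_lit 337) (nat_lit 312)) (XT.nd (nat_lit 78) (nat_lit 532) (nat_lit 0) (XT.lf (nat_lit 0) (nat_lit 1540112011) (nat_lit 684) (nat_lit 5023089410) (nat_lit 76) (nat_lit 1234292648) (nat_lit 227) (nat_lit 5) (nat_lit 236) (nat_lit 5) (nat_lit 228) (nat_lit 5) (nat_lit 372) (nat_lit 337) (nat_lit 311)) (XT.lf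 (nat_lit 0) (nat_lit 193832137) (nat_lit 532) (nat_lit 4069513237) (nat_lit 608) (nat_lit 3625375744) (nat_lit 220) (nat_lit 5) (nat_lit 227) (nat_lit 5) (nat_lit 228) (nat_lit 5) (nat_lit 373) (nat_lit 337) (nat_lit 310)))) (XT.nd (nat_lit 156) (nat_lit 456) (nat_lit 0) (XT.nd (nat_lit 78) (nat_lit 608) (nat_lit 0) (XT.lf (nat_lit 0) (nat_lit 5595655062) (nat_lit 532) (nat_lit 1455789873) (nat_lit 608) (nat_lit 931768084) (nat_lit 220) (nat_lit 5) (nat_lit 227) (nat_lit 5) (nat_lit 228) (nat_lit 5) (nat_lit 374) (nat_lit 337) (nat_lit 309)) (XT.lf (nat_lit 0) (nat_lit 1782000676) (nat_lit 608) (nat_lit 5046421922) (nat_lit 76) (nat_lit 1252348199) (nat_lit 212) (nat_lit 5) (nat_lit 220) (nat_lit 5) (nat_lit 213) (nat_lit 5) (nat_lit 375) (nat_lit 337) (nat_lit 308))) (XT.nd (nat_lit 78) (nat_lit 0) (nat_lit 0) (XT.lf (nat_lit 0) (nat_lit 396262780) (nat_lit 456) (nat_lit 4139656534) (nat_lit 532) (nat_lit 3645756452)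 (nat_lit 206) (nat_lit 5) (nat_lit 212) (nat_lit 5) (nat_lit 213) (nat_lit 5) (nat_lit 376) (nat_lit 337) (nat_lit 307)) (XT.lf (nat_lit 0) (nat_lit 6031493863) (nat_lit 456) (nat_lit 1327997045) (nat_lit 532) (nat_lit 926526452) (nat_lit 206) (nat_lit 5) (nat_lit 212) (nat_lit 5) (nat_lit 213) (nat_lit 5) (nat_lit 377) (nat_lit 337) (nat_lit 306))))) (XT.nd (nat_lit 234) (nat_lit 1520) (nat_lit 0) (XT.nd (nat_lit 78) (nat_lit 456) (nat_lit 0) (XT.lf (nat_lit 0) (nat_lit 1823338111) (nat_lit 608) (nat_lit 4991658079) (nat_lit 76) (nat_lit 1578402919) (nat_lit 198) (nat_lit 5) (nat_lit 206) (nat_lit 5) (nat_lit 199) (nat_lit 5) (nat_lit 378) (nat_lit 337) (nat_lit 305)) (XT.nd (nat_lit 78) (nat_lit 0) (nat_lit 0) (XT.lf (nat_lit 0) (nat_lit 687121550) (nat_lit 456) (nat_lit 3931027008) (nat_lit 532) (nat_lit 3886165175) (nat_lit 192) (nat_lit 5) (nat_lit 198) (nat_lit 5) (nat_lit 199) (nat_lit 5) (nat_lit 379) (nat_lit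 337) (nat_lit 304)) (XT.lf (nat_lit 0) (nat_lit 6564988445) (nat_lit 456) (nat_lit 921636659) (nat_lit 532) (nat_lit 1132254284) (nat_lit 192) (nat_lit 5) (nat_lit 198) (nat_lit 5) (nat_lit 199) (nat_lit 5) (nat_lit 380) (nat_lit 337) (nat_lit 303)))) (XT.nd (nat_lit 156) (nat_lit 532) (nat_lit 0) (XT.nd (nat_lit 78) (nat_lit 456) (nat_lit 0) (XT.lf (nat_lit 0) (nat_lit 1670126787) (nat_lit 532) (nat_lit 4889650381) (nat_lit 76) (nat_lit 2176657287) (nat_lit 185) (nat_lit 5) (nat_lit 192) (nat_lit 5) (nat_lit 186) (nat_lit 5) (nat_lit 381) (nat_lit 337) (nat_lit 302)) (XT.lf (nat_lit 0) (nat_lit 1035777277) (nat_lit 456) (nat_lit 3479561464) (nat_lit 532) (nat_lit 4342412319) (nat_lit 179) (nat_lit 5) (nat_lit 185) (nat_lit 5) (nat_lit 186) (nat_lit 5) (nat_lit 382) (nat_lit 337) (nat_lit 301))) (XT.nd (nat_lit 78) (nat_lit 532) (nat_lit 0) (XT.lf (nat_lit 0) (nat_lit 7166340502) (nat_lit 456) (nat_lit 271435629)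 (nat_lit 532) (nat_lit 1545191172) (nat_lit 179) (nat_lit 5) (nat_lit 185) (nat_lit 5) (nat_lit 186) (nat_lit 5) (nat_lit 383) (nat_lit 337) (nat_lit 300)) (XT.lf (nat_lit 0) (nat_lit 1325027660) (nat_lit 532) (nat_lit 4772124693) (nat_lit 76) (nat_lit 3013963201) (nat_lit 172) (nat_lit 5) (nat_lit 179) (nat_lit 5) (nat_lit 173) (nat_lit 5) (nat_lit 384) (nat_lit 337) (nat_lit 299)))))) (XT.nd (nat_lit 546) (nat_lit 1748) (nat_lit 0) (XT.nd (nat_lit 234) (nat_lit 1140) (nat_lit 0) (XT.nd (nat_lit 78) (nat_lit 456) (nat_lit 0) (XT.lf (nat_lit 0) (nat_lit 1410618293) (nat_lit 380) (nat_lit 2818858457) (nat_lit 456) (nat_lit 5013811952) (nat_lit 167) (nat_lit 5) (nat_lit 172) (nat_lit 5) (nat_lit 173) (nat_lit 5) (nat_lit 385) (nat_lit 337) (nat_lit 298)) (XT.nd (nat_lit 78) (nat_lit 456) (nat_lit 0) (XT.lf (nat_lit 0) (nat_lit 7220255350) (nat_lit 456) (nat_lit 1580626085) (nat_lit 76) (nat_lit 578584135) (nat_lit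 167) (nat_lit 5) (nat_lit 173) (nat_lit 5) (nat_lit 168) (nat_lit 5) (nat_lit 386) (nat_lit 337) (nat_lit 297)) (XT.lf (nat_lit 0) (nat_lit 787325098) (nat_lit 456) (nat_lit 4672355544) (nat_lit 76) (nat_lit 4059189361) (nat_lit 161) (nat_lit 5) (nat_lit 167) (nat_lit 5) (nat_lit 162) (nat_lit 5) (nat_lit 387) (nat_lit 337) (nat_lit 296)))) (XT.nd (nat_lit 156) (nat_lit 760) (nat_lit 0) (XT.nd (nat_lit 78) (nat_lit 0) (nat_lit 0) (XT.lf (nat_lit 0) (nat_lit 1778358779) (nat_lit 380) (nat_lit 1980818528) (nat_lit 456) (nat_lit 5903241528) (nat_lit 156) (nat_lit 5) (nat_lit 161) (nat_lit 5) (nat_lit 162) (nat_lit 5) (nat_lit 388) (nat_lit 337) (nat_lit 295)) (XT.lf (nat_lit 0) (nat_lit 6831018002) (nat_lit 456) (nat_lit 1378744469) (nat_lit 76) (nat_lit 1600199472) (nat_lit 156) (nat_lit 5) (nat_lit 162) (nat_lit 5) (nat_lit 157) (nat_lit 5) (nat_lit 389) (nat_lit 337) (nat_lit 294))) (XT.nd (nat_lit 78) (nat_lit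 304) (nat_lit 0) (XT.lf (nat_lit 0) (nat_lit 52831241) (nat_lit 456) (nat_lit 4625893307) (nat_lit 76) (nat_lit 5282597492) (nat_lit 150) (nat_lit 5) (nat_lit 156) (nat_lit 5) (nat_lit 151) (nat_lit 5) (nat_lit 390) (nat_lit 337) (nat_lit 293)) (XT.lf (nat_lit 0) (nat_lit 2103289375) (nat_lit 304) (nat_lit 996278702) (nat_lit 380) (nat_lit 7017265275) (nat_lit 146) (nat_lit 5) (nat_lit 150) (nat_lit 5) (nat_lit 151) (nat_lit 5) (nat_lit 391) (nat_lit 337) (nat_lit 292))))) (XT.nd (nat_lit 312) (nat_lit 988) (nat_lit 0) (XT.nd (nat_lit 156) (nat_lit 380) (nat_lit 0) (XT.nd (nat_lit 78) (nat_lit 380) (nat_lit 0) (XT.lf (nat_lit 0) (nat_lit 6261969184) (nat_lit 380) (nat_lit 1244998057) (nat_lit 76) (nat_lit 2769326267) (nat_lit 146) (nat_lit 5) (nat_lit 151) (nat_lit 5) (nat_lit 147) (nat_lit 5) (nat_lit 392) (nat_lit 337) (nat_lit 291)) (XT.lf (nat_lit 0) (nat_lit 5759994919) (nat_lit 380) (nat_lit 3776134702) (nat_lit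 456) (nat_lit 903912268) (nat_lit 141) (nat_lit 5) (nat_lit 146) (nat_lit 5) (nat_lit 147) (nat_lit 5) (nat_lit 393) (nat_lit 337) (nat_lit 290))) (XT.nd (nat_lit 78) (nat_lit 0) (nat_lit 0) (XT.lf (nat_lit 0) (nat_lit 2243112466) (nat_lit 380) (nat_lit 8262980992) (nat_lit 76) (nat_lit 102311116) (nat_lit 136) (nat_lit 5) (nat_lit 141) (nat_lit 5) (nat_lit 137) (nat_lit 5) (nat_lit 394) (nat_lit 337) (nat_lit 289)) (XT.lf (nat_lit 0) (nat_lit 5503951253) (nat_lit 380) (nat_lit 1219587204) (nat_lit 76) (nat_lit 4056894166) (nat_lit 136) (nat_lit 5) (nat_lit 141) (nat_lit 5) (nat_lit 137) (nat_lit 5) (nat_lit 395) (nat_lit 337) (nat_lit 288)))) (XT.nd (nat_lit 156) (nat_lit 304) (nat_lit 0) (XT.nd (nat_lit 78) (nat_lit 380) (nat_lit 0) (XT.lf (nat_lit 0) (nat_lit 6085928473) (nat_lit 304) (nat_lit 2789029529) (nat_lit 380) (nat_lit 2082303035) (nat_lit 132) (nat_lit 5) (nat_lit 136) (nat_lit 5) (nat_lit 137) (nat_lit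 5) (nat_lit 396) (nat_lit 337) (nat_lit 287)) (XT.lf (nat_lit 0) (nat_lit 1186747845) (nat_lit 380) (nat_lit 8686998337) (nat_lit 76) (nat_lit 1265230678) (nat_lit 127) (nat_lit 5) (nat_lit 132) (nat_lit 5) (nat_lit 128) (nat_lit 5) (nat_lit 397) (nat_lit 337) (nat_lit 286))) (XT.nd (nat_lit 78) (nat_lit 304) (nat_lit 0) (XT.lf (nat_lit 0) (nat_lit 4543863652) (nat_lit 380) (nat_lit 1347218450) (nat_lit 76) (nat_lit 5433497158) (nat_lit 127) (nat_lit 5) (nat_lit 132) (nat_lit 5) (nat_lit 128) (nat_lit 5) (nat_lit 398) (nat_lit 337) (nat_lit 285)) (XT.lf (nat_lit 0) (nat_lit 6268395703) (nat_lit 304) (nat_lit 1749430097) (nat_lit 380) (nat_lit 3497448662) (nat_lit 123) (nat_lit 5) (nat_lit 127) (nat_lit 5) (nat_lit 128) (nat_lit 5) (nat_lit 399) (nat_lit 337) (nat_lit 284))))))) (XT.nd (nat_lit 1092) (nat_lit 1824) (nat_lit 0) (XT.nd (nat_lit 546) (nat_lit 988) (nat_lit 0) (XT.nd (nat_lit 234) (nat_lit 760) (nat_lit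 0) (XT.nd (nat_lit 78) (nat_lit 380) (nat_lit 0) (XT.lf (nat_lit 0) (nat_lit 2383885942) (nat_lit 228) (nat_lit 9229275955) (nat_lit 304) (nat_lit 98022430) (nat_lit 120) (nat_lit 5) (nat_lit 123) (nat_lit 5) (nat_lit 124) (nat_lit 5) (nat_lit 400) (nat_lit 337) (nat_lit 283)) (XT.nd (nat_lit 78) (nat_lit 304) (nat_lit 0) (XT.lf (nat_lit 0) (nat_lit 3364313289) (nat_lit 304) (nat_lit 1678149360) (nat_lit 76) (nat_lit 6868715181) (nat_lit 119) (nat_lit 5) (nat_lit 123) (nat_lit 5) (nat_lit 120) (nat_lit 5) (nat_lit 401) (nat_lit 337) (nat_lit 282)) (XT.lf (nat_lit 0) (nat_lit 6256210334) (nat_lit 304) (nat_lit 690253974) (nat_lit 380) (nat_lit 5170147995) (nat_lit 115) (nat_lit 5) (nat_lit 119) (nat_lit 5) (nat_lit 120) (nat_lit 5) (nat_lit 402) (nat_lit 337) (nat_lit 281)))) (XT.nd (nat_lit 156) (nat_lit 456) (nat_lit 0) (XT.nd (nat_lit 78) (nat_lit 76) (nat_lit 0) (XT.lf (nat_lit 0) (nat_lit 2073367545) (nat_lit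 228) (nat_lit 8594374803) (nat_lit 304) (nat_lit 1659525107) (nat_lit 112) (nat_lit 5) (nat_lit 115) (nat_lit 5) (nat_lit 116) (nat_lit 5) (nat_lit 403) (nat_lit 337) (nat_lit 280)) (XT.lf (nat_lit 0) (nat_lit 1943177664) (nat_lit 304) (nat_lit 2269369411) (nat_lit 76) (nat_lit 8330389945) (nat_lit 111) (nat_lit 5) (nat_lit 115) (nat_lit 5) (nat_lit 112) (nat_lit 5) (nat_lit 404) (nat_lit 337) (nat_lit 279))) (XT.nd (nat_lit 78) (nat_lit 228) (nat_lit 0) (XT.lf (nat_lit 0) (nat_lit 5641146811) (nat_lit 304) (nat_lit 6776336206) (nat_lit 76) (nat_lit 346491404) (nat_lit 108) (nat_lit 5) (nat_lit 112) (nat_lit 5) (nat_lit 109) (nat_lit 5) (nat_lit 405) (nat_lit 337) (nat_lit 278)) (XT.lf (nat_lit 0) (nat_lit 1470289164) (nat_lit 228) (nat_lit 8018645652) (nat_lit 304) (nat_lit 3501548412) (nat_lit 105) (nat_lit 5) (nat_lit 108) (nat_lit 5) (nat_lit 109) (nat_lit 5) (nat_lit 406) (nat_lit 337) (nat_lit 277))))) (XT.nd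 (nat_lit 234) (nat_lit 456) (nat_lit 0) (XT.nd (nat_lit 78) (nat_lit 456) (nat_lit 0) (XT.lf (nat_lit 0) (nat_lit 253070382) (nat_lit 304) (nat_lit 3185942396) (nat_lit 76) (nat_lit 9783840235) (nat_lit 104) (nat_lit 5) (nat_lit 108) (nat_lit 5) (nat_lit 105) (nat_lit 5) (nat_lit 407) (nat_lit 337) (nat_lit 276)) (XT.nd (nat_lit 78) (nat_lit 228) (nat_lit 0) (XT.lf (nat_lit 0) (nat_lit 4076049584) (nat_lit 304) (nat_lit 8067185804) (nat_lit 76) (nat_lit 1317141569) (nat_lit 101) (nat_lit 5) (nat_lit 105) (nat_lit 5) (nat_lit 102) (nat_lit 5) (nat_lit 408) (nat_lit 337) (nat_lit 275)) (XT.lf (nat_lit 0) (nat_lit 503414650) (nat_lit 228) (nat_lit 7543202590) (nat_lit 304) (nat_lit 5657428340) (nat_lit 98) (nat_lit 5) (nat_lit 101) (nat_lit 5) (nat_lit 102) (nat_lit 5) (nat_lit 409) (nat_lit 337) (nat_lit 274)))) (XT.nd (nat_lit 156) (nat_lit 152) (nat_lit 0) (XT.nd (nat_lit 78) (nat_lit 304) (nat_lit 0) (XT.lf (nat_lit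 0) (nat_lit 9434133474) (nat_lit 228) (nat_lit 2745672470) (nat_lit 304) (nat_lit 1773918958) (nat_lit 98) (nat_lit 5) (nat_lit 101) (nat_lit 5) (nat_lit 102) (nat_lit 5) (nat_lit 410) (nat_lit 337) (nat_lit 273)) (XT.lf (nat_lit 0) (nat_lit 2209482901) (nat_lit 304) (nat_lit 9806067237) (nat_lit 76) (nat_lit 2193903149) (nat_lit 94) (nat_lit 5) (nat_lit 98) (nat_lit 5) (nat_lit 95) (nat_lit 5) (nat_lit 411) (nat_lit 337) (nat_lit 272))) (XT.nd (nat_lit 78) (nat_lit 152) (nat_lit 0) (XT.lf (nat_lit 0) (nat_lit 6313055303) (nat_lit 304) (nat_lit 891558855) (nat_lit 76) (nat_lit 7266628057) (nat_lit 94) (nat_lit 5) (nat_lit 98) (nat_lit 5) (nat_lit 95) (nat_lit 5) (nat_lit 412) (nat_lit 337) (nat_lit 271)) (XT.lf (nat_lit 0) (nat_lit 8394409111) (nat_lit 152) (nat_lit 2190141011) (nat_lit 228) (nat_lit 4154995350) (nat_lit 92) (nat_lit 5) (nat_lit 94) (nat_lit 5) (nat_lit 95) (nat_lit 5) (nat_lit 413) (nat_lit 337)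 (nat_lit 270)))))) (XT.nd (nat_lit 546) (nat_lit 912) (nat_lit 0) (XT.nd (nat_lit 234) (nat_lit 456) (nat_lit 0) (XT.nd (nat_lit 78) (nat_lit 228) (nat_lit 0) (XT.lf (nat_lit 0) (nat_lit 2930063117) (nat_lit 228) (nat_lit 12084349911) (nat_lit 304) (nat_lit 583071) (nat_lit 89) (nat_lit 5) (nat_lit 92) (nat_lit 5) (nat_lit 93) (nat_lit 5) (nat_lit 414) (nat_lit 337) (nat_lit 269)) (XT.nd (nat_lit 78) (nat_lit 152) (nat_lit 0) (XT.lf (nat_lit 0) (nat_lit 4245849503) (nat_lit 304) (nat_lit 2806802519) (nat_lit 76) (nat_lit 8243302808) (nat_lit 88) (nat_lit 5) (nat_lit 92) (nat_lit 5) (nat_lit 89) (nat_lit 5) (nat_lit 415) (nat_lit 337) (nat_lit 268)) (XT.lf (nat_lit 0) (nat_lit 6824431453) (nat_lit 152) (nat_lit 1826350681) (nat_lit 228) (nat_lit 6933631002) (nat_lit 86) (nat_lit 5) (nat_lit 88) (nat_lit 5) (nat_lit 89) (nat_lit 5) (nat_lit 416) (nat_lit 337) (nat_lit 267)))) (XT.nd (nat_lit 156) (nat_lit 152) (nat_lit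 0) (XT.nd (nat_lit 78) (nat_lit 76) (nat_lit 0) (XT.lf (nat_lit 0) (nat_lit 844852236) (nat_lit 228) (nat_lit 12379682972) (nat_lit 304) (nat_lit 2655894223) (nat_lit 83) (nat_lit 5) (nat_lit 86) (nat_lit 5) (nat_lit 87) (nat_lit 5) (nat_lit 417) (nat_lit 337) (nat_lit 266)) (XT.lf (nat_lit 0) (nat_lit 1789278244) (nat_lit 304) (nat_lit 5359789702) (nat_lit 76) (nat_lit 9033560045) (nat_lit 82) (nat_lit 5) (nat_lit 86) (nat_lit 5) (nat_lit 83) (nat_lit 5) (nat_lit 418) (nat_lit 337) (nat_lit 265))) (XT.nd (nat_lit 78) (nat_lit 0) (nat_lit 0) (XT.lf (nat_lit 0) (nat_lit 4612964582) (nat_lit 152) (nat_lit 1712636736) (nat_lit 228) (nat_lit 10167171063) (nat_lit 80) (nat_lit 5) (nat_lit 82) (nat_lit 5) (nat_lit 83) (nat_lit 5) (nat_lit 419) (nat_lit 337) (nat_lit 264)) (XT.lf (nat_lit 0) (nat_lit 11057065269) (nat_lit 228) (nat_lit 1910949977) (nat_lit 76) (nat_lit 3842438246) (nat_lit 80) (nat_lit 5) (nat_lit 83)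 (nat_lit 5) (nat_lit 81) (nat_lit 5) (nat_lit 420) (nat_lit 337) (nat_lit 263))))) (XT.nd (nat_lit 312) (nat_lit 380) (nat_lit 0) (XT.nd (nat_lit 156) (nat_lit 152) (nat_lit 0) (XT.nd (nat_lit 78) (nat_lit 228) (nat_lit 0) (XT.lf (nat_lit 0) (nat_lit 8449335013) (nat_lit 152) (nat_lit 7547304227) (nat_lit 228) (nat_lit 1139044620) (nat_lit 78) (nat_lit 5) (nat_lit 80) (nat_lit 5) (nat_lit 81) (nat_lit 5) (nat_lit 421) (nat_lit 337) (nat_lit 262)) (XT.lf (nat_lit 0) (nat_lit 1630749303) (nat_lit 152) (nat_lit 1915702862) (nat_lit 228) (nat_lit 13923083251) (nat_lit 75) (nat_lit 5) (nat_lit 77) (nat_lit 5) (nat_lit 78) (nat_lit 5) (nat_lit 422) (nat_lit 337) (nat_lit 261))) (XT.nd (nat_lit 78) (nat_lit 152) (nat_lit 0) (XT.lf (nat_lit 0) (nat_lit 8443796748) (nat_lit 228) (nat_lit 5480668547) (nat_lit 76) (nat_lit 3885777083) (nat_lit 75) (nat_lit 5) (nat_lit 78) (nat_lit 5) (nat_lit 76) (nat_lit 5) (nat_lit 423)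 (nat_lit 337) (nat_lit 260)) (XT.lf (nat_lit 0) (nat_lit 5216820403) (nat_lit 152) (nat_lit 8309530143) (nat_lit 228) (nat_lit 4633674721) (nat_lit 73) (nat_lit 5) (nat_lit 75) (nat_lit 5) (nat_lit 76) (nat_lit 5) (nat_lit 424) (nat_lit 337) (nat_lit 259)))) (XT.nd (nat_lit 156) (nat_lit 152) (nat_lit 0) (XT.nd (nat_lit 78) (nat_lit 152) (nat_lit 0) (XT.lf (nat_lit 0) (nat_lit 261518470) (nat_lit 228) (nat_lit 2228211811) (nat_lit 76) (nat_lit 16029750726) (nat_lit 72) (nat_lit 5) (nat_lit 75) (nat_lit 5) (nat_lit 73) (nat_lit 5) (nat_lit 425) (nat_lit 337) (nat_lit 258)) (XT.lf (nat_lit 0) (nat_lit 5300739939) (nat_lit 228) (nat_lit 10038464240) (nat_lit 76) (nat_lit 3546433855) (nat_lit 70) (nat_lit 5) (nat_lit 73) (nat_lit 5) (nat_lit 71) (nat_lit 5) (nat_lit 426) (nat_lit 337) (nat_lit 257))) (XT.nd (nat_lit 78) (nat_lit 0) (nat_lit 0) (XT.lf (nat_lit 0) (nat_lit 979778942) (nat_lit 152) (nat_lit 9538448163)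 (nat_lit 228) (nat_lit 8743743002) (nat_lit 68) (nat_lit 5) (nat_lit 70) (nat_lit 5) (nat_lit 71) (nat_lit 5) (nat_lit 427) (nat_lit 337) (nat_lit 256)) (XT.lf (nat_lit 0) (nat_lit 12482007447) (nat_lit 152) (nat_lit 3482258937) (nat_lit 228) (nat_lit 3683167853) (nat_lit 68) (nat_lit 5) (nat_lit 70) (nat_lit 5) (nat_lit 71) (nat_lit 5) (nat_lit 428) (nat_lit 337) (nat_lit 255))))))))
noncomputable def xc94 : XT := (XT.nd (nat_lit 2262) (nat_lit 1368) (nat_lit 0) (XT.nd (nat_lit 1092) (nat_lit 988) (nat_lit 0) (XT.nd (nat_lit 546) (nat_lit 608) (nat_lit 0) (XT.nd (nat_lit 234) (nat_lit 380) (nat_lit 0) (XT.nd (nat_lit 78) (nat_lit 152) (nat_lit 0) (XT.lf (nat_lit 0) (nat_lit 1538798903) (nat_lit 228) (nat_lit 15767762135) (nat_lit 76) (nat_lit 2736280557) (nat_lit 65) (nat_lit 5) (nat_lit 68) (nat_lit 5) (nat_lit 66) (nat_lit 5) (nat_lit 429) (nat_lit 337) (nat_lit 254)) (XT.nd (nat_lit 78) (nat_lit 152) (nat_lit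 0) (XT.lf (nat_lit 0) (nat_lit 6922308973) (nat_lit 228) (nat_lit 4365443664) (nat_lit 76) (nat_lit 9158899829) (nat_lit 65) (nat_lit 5) (nat_lit 68) (nat_lit 5) (nat_lit 66) (nat_lit 5) (nat_lit 430) (nat_lit 337) (nat_lit 253)) (XT.lf (nat_lit 0) (nat_lit 7474777897) (nat_lit 152) (nat_lit 5036594082) (nat_lit 228) (nat_lit 8349886849) (nat_lit 63) (nat_lit 5) (nat_lit 65) (nat_lit 5) (nat_lit 66) (nat_lit 5) (nat_lit 431) (nat_lit 337) (nat_lit 252)))) (XT.nd (nat_lit 156) (nat_lit 152) (nat_lit 0) (XT.nd (nat_lit 78) (nat_lit 228) (nat_lit 0) (XT.lf (nat_lit 0) (nat_lit 18298420658) (nat_lit 228) (nat_lit 1591352171) (nat_lit 76) (nat_lit 1397623656) (nat_lit 63) (nat_lit 5) (nat_lit 66) (nat_lit 5) (nat_lit 64) (nat_lit 4) (nat_lit 432) (nat_lit 337) (nat_lit 251)) (XT.lf (nat_lit 0) (nat_lit 2610110253) (nat_lit 228) (nat_lit 11080914563) (nat_lit 76) (nat_lit 8030762306) (nat_lit 60) (nat_lit 5) (nat_lit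 63) (nat_lit 5) (nat_lit 61) (nat_lit 5) (nat_lit 433) (nat_lit 337) (nat_lit 250))) (XT.nd (nat_lit 78) (nat_lit 0) (nat_lit 0) (XT.lf (nat_lit 0) (nat_lit 1045864995) (nat_lit 152) (nat_lit 7270688063) (nat_lit 228) (nat_lit 13851787120) (nat_lit 58) (nat_lit 5) (nat_lit 60) (nat_lit 5) (nat_lit 61) (nat_lit 5) (nat_lit 434) (nat_lit 337) (nat_lit 249)) (XT.lf (nat_lit 0) (nat_lit 13715325277) (nat_lit 152) (nat_lit 564254076) (nat_lit 228) (nat_lit 8346151004) (nat_lit 58) (nat_lit 5) (nat_lit 60) (nat_lit 5) (nat_lit 61) (nat_lit 5) (nat_lit 435) (nat_lit 337) (nat_lit 248))))) (XT.nd (nat_lit 234) (nat_lit 304) (nat_lit 0) (XT.nd (nat_lit 78) (nat_lit 228) (nat_lit 0) (XT.lf (nat_lit 0) (nat_lit 3630458408) (nat_lit 76) (nat_lit 16860976163) (nat_lit 152) (nat_lit 2603311699) (nat_lit 57) (nat_lit 5) (nat_lit 58) (nat_lit 5) (nat_lit 59) (nat_lit 4) (nat_lit 436) (nat_lit 337) (nat_lit 247)) (XT.nd (nat_lit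 78) (nat_lit 152) (nat_lit 0) (XT.lf (nat_lit 0) (nat_lit 3317754182) (nat_lit 152) (nat_lit 6930731548) (nat_lit 76) (nat_lit 13326276918) (nat_lit 56) (nat_lit 5) (nat_lit 58) (nat_lit 5) (nat_lit 57) (nat_lit 5) (nat_lit 437) (nat_lit 337) (nat_lit 246)) (XT.lf (nat_lit 0) (nat_lit 6024511271) (nat_lit 152) (nat_lit 3372393732) (nat_lit 228) (nat_lit 14670519935) (nat_lit 54) (nat_lit 5) (nat_lit 56) (nat_lit 5) (nat_lit 57) (nat_lit 5) (nat_lit 438) (nat_lit 337) (nat_lit 245)))) (XT.nd (nat_lit 156) (nat_lit 228) (nat_lit 0) (XT.nd (nat_lit 78) (nat_lit 76) (nat_lit 0) (XT.lf (nat_lit 0) (nat_lit 15739731528) (nat_lit 228) (nat_lit 5144838295) (nat_lit 76) (nat_lit 3687860167) (nat_lit 54) (nat_lit 5) (nat_lit 57) (nat_lit 5) (nat_lit 55) (nat_lit 4) (nat_lit 439) (nat_lit 337) (nat_lit 244)) (XT.lf (nat_lit 0) (nat_lit 8222383407) (nat_lit 76) (nat_lit 14138576246) (nat_lit 152) (nat_lit 2728983911) (nat_lit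 53) (nat_lit 5) (nat_lit 54) (nat_lit 5) (nat_lit 55) (nat_lit 4) (nat_lit 440) (nat_lit 337) (nat_lit 243))) (XT.nd (nat_lit 78) (nat_lit 152) (nat_lit 0) (XT.lf (nat_lit 0) (nat_lit 3516612575) (nat_lit 152) (nat_lit 3604951855) (nat_lit 76) (nat_lit 18499547972) (nat_lit 52) (nat_lit 5) (nat_lit 54) (nat_lit 5) (nat_lit 53) (nat_lit 5) (nat_lit 441) (nat_lit 337) (nat_lit 242)) (XT.lf (nat_lit 0) (nat_lit 9971117794) (nat_lit 228) (nat_lit 15983597244) (nat_lit 76) (nat_lit 210400671) (nat_lit 50) (nat_lit 5) (nat_lit 53) (nat_lit 5) (nat_lit 51) (nat_lit 4) (nat_lit 442) (nat_lit 337) (nat_lit 241)))))) (XT.nd (nat_lit 546) (nat_lit 532) (nat_lit 0) (XT.nd (nat_lit 234) (nat_lit 304) (nat_lit 0) (XT.nd (nat_lit 78) (nat_lit 152) (nat_lit 0) (XT.lf (nat_lit 0) (nat_lit 16703049004) (nat_lit 228) (nat_lit 2383410663) (nat_lit 76) (nat_lit 7636467389) (nat_lit 50) (nat_lit 5) (nat_lit 53) (nat_lit 5) (nat_lit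 51) (nat_lit 4) (nat_lit 443) (nat_lit 337) (nat_lit 240)) (XT.nd (nat_lit 78) (nat_lit 76) (nat_lit 0) (XT.lf (nat_lit 0) (nat_lit 11812892085) (nat_lit 76) (nat_lit 11914799706) (nat_lit 152) (nat_lit 3567059958) (nat_lit 49) (nat_lit 5) (nat_lit 50) (nat_lit 5) (nat_lit 51) (nat_lit 4) (nat_lit 444) (nat_lit 337) (nat_lit 239)) (XT.lf (nat_lit 0) (nat_lit 3020796343) (nat_lit 152) (nat_lit 1471346832) (nat_lit 76) (nat_lit 23390655235) (nat_lit 48) (nat_lit 5) (nat_lit 50) (nat_lit 5) (nat_lit 49) (nat_lit 5) (nat_lit 445) (nat_lit 337) (nat_lit 238)))) (XT.nd (nat_lit 156) (nat_lit 152) (nat_lit 0) (XT.nd (nat_lit 78) (nat_lit 0) (nat_lit 0) (XT.lf (nat_lit 0) (nat_lit 9870524149) (nat_lit 228) (nat_lit 15376673434) (nat_lit 76) (nat_lit 3236152938) (nat_lit 46) (nat_lit 5) (nat_lit 49) (nat_lit 5) (nat_lit 47) (nat_lit 4) (nat_lit 446) (nat_lit 337) (nat_lit 237)) (XT.lf (nat_lit 0) (nat_lit 16963194279) (nat_lit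 228) (nat_lit 1035169340) (nat_lit 76) (nat_lit 11102433497) (nat_lit 46) (nat_lit 5) (nat_lit 49) (nat_lit 5) (nat_lit 47) (nat_lit 4) (nat_lit 447) (nat_lit 337) (nat_lit 236))) (XT.nd (nat_lit 78) (nat_lit 76) (nat_lit 0) (XT.lf (nat_lit 0) (nat_lit 13969094409) (nat_lit 76) (nat_lit 10412440265) (nat_lit 152) (nat_lit 5351847125) (nat_lit 45) (nat_lit 5) (nat_lit 46) (nat_lit 5) (nat_lit 47) (nat_lit 4) (nat_lit 448) (nat_lit 337) (nat_lit 235)) (XT.lf (nat_lit 0) (nat_lit 1594726309) (nat_lit 152) (nat_lit 995874700) (nat_lit 76) (nat_lit 27794196168) (nat_lit 44) (nat_lit 5) (nat_lit 46) (nat_lit 5) (nat_lit 45) (nat_lit 5) (nat_lit 449) (nat_lit 337) (nat_lit 234))))) (XT.nd (nat_lit 312) (nat_lit 304) (nat_lit 0) (XT.nd (nat_lit 156) (nat_lit 76) (nat_lit 0) (XT.nd (nat_lit 78) (nat_lit 0) (nat_lit 0) (XT.lf (nat_lit 0) (nat_lit 8814123180) (nat_lit 228) (nat_lit 16700144656) (nat_lit 76) (nat_lit 5534739007)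 (nat_lit 42) (nat_lit 5) (nat_lit 45) (nat_lit 5) (nat_lit 43) (nat_lit 4) (nat_lit 450) (nat_lit 337) (nat_lit 233)) (XT.lf (nat_lit 0) (nat_lit 16265230847) (nat_lit 228) (nat_lit 1623233783) (nat_lit 76) (nat_lit 13844225540) (nat_lit 42) (nat_lit 5) (nat_lit 45) (nat_lit 5) (nat_lit 43) (nat_lit 4) (nat_lit 451) (nat_lit 337) (nat_lit 232))) (XT.nd (nat_lit 78) (nat_lit 0) (nat_lit 0) (XT.lf (nat_lit 0) (nat_lit 14144123889) (nat_lit 76) (nat_lit 9911635484) (nat_lit 152) (nat_lit 8377649198) (nat_lit 41) (nat_lit 5) (nat_lit 42) (nat_lit 5) (nat_lit 43) (nat_lit 4) (nat_lit 452) (nat_lit 337) (nat_lit 231)) (XT.lf (nat_lit 0) (nat_lit 30380284873) (nat_lit 76) (nat_lit 1696260309) (nat_lit 152) (nat_lit 1078708266) (nat_lit 41) (nat_lit 5) (nat_lit 42) (nat_lit 5) (nat_lit 43) (nat_lit 4) (nat_lit 453) (nat_lit 337) (nat_lit 230)))) (XT.nd (nat_lit 156) (nat_lit 76) (nat_lit 0) (XT.nd (nat_lit 78) (nat_lit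 0) (nat_lit 0) (XT.lf (nat_lit 0) (nat_lit 6489329517) (nat_lit 228) (nat_lit 20593452589) (nat_lit 76) (nat_lit 6808842323) (nat_lit 38) (nat_lit 5) (nat_lit 41) (nat_lit 5) (nat_lit 39) (nat_lit 4) (nat_lit 454) (nat_lit 337) (nat_lit 229)) (XT.lf (nat_lit 0) (nat_lit 14288409078) (nat_lit 228) (nat_lit 4803448902) (nat_lit 76) (nat_lit 15557138770) (nat_lit 38) (nat_lit 5) (nat_lit 41) (nat_lit 5) (nat_lit 39) (nat_lit 4) (nat_lit 455) (nat_lit 337) (nat_lit 228))) (XT.nd (nat_lit 78) (nat_lit 0) (nat_lit 0) (XT.lf (nat_lit 0) (nat_lit 11651856386) (nat_lit 76) (nat_lit 10762762587) (nat_lit 152) (nat_lit 13011677567) (nat_lit 37) (nat_lit 5) (nat_lit 38) (nat_lit 5) (nat_lit 39) (nat_lit 4) (nat_lit 456) (nat_lit 337) (nat_lit 227)) (XT.lf (nat_lit 0) (nat_lit 28663869300) (nat_lit 76) (nat_lit 2150612937) (nat_lit 152) (nat_lit 5411538081) (nat_lit 37) (nat_lit 5) (nat_lit 38) (nat_lit 5) (nat_lit 39) (nat_lit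 4) (nat_lit 457) (nat_lit 337) (nat_lit 226))))))) (XT.nd (nat_lit 1092) (nat_lit 684) (nat_lit 0) (XT.nd (nat_lit 546) (nat_lit 304) (nat_lit 0) (XT.nd (nat_lit 234) (nat_lit 152) (nat_lit 0) (XT.nd (nat_lit 78) (nat_lit 76) (nat_lit 0) (XT.lf (nat_lit 0) (nat_lit 2505727140) (nat_lit 152) (nat_lit 27853259893) (nat_lit 76) (nat_lit 6685964483) (nat_lit 35) (nat_lit 5) (nat_lit 37) (nat_lit 5) (nat_lit 36) (nat_lit 4) (nat_lit 458) (nat_lit 337) (nat_lit 225)) (XT.nd (nat_lit 78) (nat_lit 76) (nat_lit 0) (XT.lf (nat_lit 0) (nat_lit 10631924823) (nat_lit 152) (nat_lit 11393418425) (nat_lit 76) (nat_lit 15859095504) (nat_lit 35) (nat_lit 5) (nat_lit 37) (nat_lit 5) (nat_lit 36) (nat_lit 4) (nat_lit 459) (nat_lit 337) (nat_lit 224)) (XT.lf (nat_lit 0) (nat_lit 5636422630) (nat_lit 76) (nat_lit 13401966451) (nat_lit 152) (nat_lit 19709628000) (nat_lit 34) (nat_lit 5) (nat_lit 35) (nat_lit 5) (nat_lit 36) (nat_lit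 4) (nat_lit 460) (nat_lit 337) (nat_lit 223)))) (XT.nd (nat_lit 156) (nat_lit 76) (nat_lit 0) (XT.nd (nat_lit 78) (nat_lit 76) (nat_lit 0) (XT.lf (nat_lit 0) (nat_lit 23377261466) (nat_lit 76) (nat_lit 4417330871) (nat_lit 152) (nat_lit 11839984939) (nat_lit 34) (nat_lit 5) (nat_lit 35) (nat_lit 5) (nat_lit 36) (nat_lit 4) (nat_lit 461) (nat_lit 337) (nat_lit 222)) (XT.lf (nat_lit 0) (nat_lit 1043622349) (nat_lit 76) (nat_lit 35809240940) (nat_lit 76) (nat_lit 3693690384) (nat_lit 33) (nat_lit 4) (nat_lit 34) (nat_lit 5) (nat_lit 34) (nat_lit 4) (nat_lit 462) (nat_lit 337) (nat_lit 221))) (XT.nd (nat_lit 78) (nat_lit 0) (nat_lit 0) (XT.lf (nat_lit 0) (nat_lit 4797739182) (nat_lit 152) (nat_lit 22407487071) (nat_lit 76) (nat_lit 14273537351) (nat_lit 32) (nat_lit 5) (nat_lit 34) (nat_lit 5) (nat_lit 33) (nat_lit 4) (nat_lit 463) (nat_lit 337) (nat_lit 220)) (XT.lf (nat_lit 0) (nat_lit 13453044010) (nat_lit 152)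 (nat_lit 4867652305) (nat_lit 76) (nat_lit 24117645996) (nat_lit 32) (nat_lit 5) (nat_lit 34) (nat_lit 5) (nat_lit 33) (nat_lit 4) (nat_lit 464) (nat_lit 337) (nat_lit 219))))) (XT.nd (nat_lit 234) (nat_lit 152) (nat_lit 0) (XT.nd (nat_lit 78) (nat_lit 76) (nat_lit 0) (XT.lf (nat_lit 0) (nat_lit 13429462232) (nat_lit 76) (nat_lit 9051494164) (nat_lit 152) (nat_lit 20942364280) (nat_lit 31) (nat_lit 5) (nat_lit 32) (nat_lit 5) (nat_lit 33) (nat_lit 4) (nat_lit 465) (nat_lit 337) (nat_lit 218)) (XT.nd (nat_lit 78) (nat_lit 76) (nat_lit 0) (XT.lf (nat_lit 0) (nat_lit 31818002647) (nat_lit 152) (nat_lit 12097361195) (nat_lit 0) (nat_lit 521336384) (nat_lit 31) (nat_lit 5) (nat_lit 33) (nat_lit 4) (nat_lit 31) (nat_lit 4) (nat_lit 466) (nat_lit 337) (nat_lit 217)) (XT.lf (nat_lit 0) (nat_lit 6340024791) (nat_lit 76) (nat_lit 35230057957) (nat_lit 76) (nat_lit 3906351447) (nat_lit 30) (nat_lit 4) (nat_lit 31) (nat_lit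 5) (nat_lit 31) (nat_lit 4) (nat_lit 467) (nat_lit 337) (nat_lit 216)))) (XT.nd (nat_lit 156) (nat_lit 76) (nat_lit 0) (XT.nd (nat_lit 78) (nat_lit 0) (nat_lit 0) (XT.lf (nat_lit 0) (nat_lit 5076226316) (nat_lit 152) (nat_lit 21045219752) (nat_lit 76) (nat_lit 20421221148) (nat_lit 29) (nat_lit 5) (nat_lit 31) (nat_lit 5) (nat_lit 30) (nat_lit 4) (nat_lit 468) (nat_lit 337) (nat_lit 215)) (XT.lf (nat_lit 0) (nat_lit 14234597386) (nat_lit 152) (nat_lit 2479214505) (nat_lit 76) (nat_lit 30926370788) (nat_lit 29) (nat_lit 5) (nat_lit 31) (nat_lit 5) (nat_lit 30) (nat_lit 4) (nat_lit 469) (nat_lit 337) (nat_lit 214))) (XT.nd (nat_lit 78) (nat_lit 0) (nat_lit 0) (XT.lf (nat_lit 0) (nat_lit 16946057928) (nat_lit 76) (nat_lit 6869829157) (nat_lit 152) (nat_lit 24950292124) (nat_lit 28) (nat_lit 5) (nat_lit 29) (nat_lit 5) (nat_lit 30) (nat_lit 4) (nat_lit 470) (nat_lit 337) (nat_lit 213)) (XT.lf (nat_lit 0) (nat_lit 33726626902)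 (nat_lit 152) (nat_lit 12980391385) (nat_lit 0) (nat_lit 3217677615) (nat_lit 28) (nat_lit 5) (nat_lit 30) (nat_lit 4) (nat_lit 28) (nat_lit 4) (nat_lit 471) (nat_lit 337) (nat_lit 212)))))) (XT.nd (nat_lit 546) (nat_lit 380) (nat_lit 0) (XT.nd (nat_lit 234) (nat_lit 152) (nat_lit 0) (XT.nd (nat_lit 78) (nat_lit 76) (nat_lit 0) (XT.lf (nat_lit 0) (nat_lit 6454877232) (nat_lit 76) (nat_lit 37595606341) (nat_lit 76) (nat_lit 7064011274) (nat_lit 27) (nat_lit 4) (nat_lit 28) (nat_lit 5) (nat_lit 28) (nat_lit 4) (nat_lit 472) (nat_lit 337) (nat_lit 211)) (XT.nd (nat_lit 78) (nat_lit 0) (nat_lit 0) (XT.lf (nat_lit 0) (nat_lit 2416442269) (nat_lit 152) (nat_lit 25648203454) (nat_lit 76) (nat_lit 24271123158) (nat_lit 26) (nat_lit 5) (nat_lit 28) (nat_lit 5) (nat_lit 27) (nat_lit 4) (nat_lit 473) (nat_lit 337) (nat_lit 210)) (XT.lf (nat_lit 0) (nat_lit 12025486107) (nat_lit 152) (nat_lit 6163190282) (nat_lit 76) (nat_lit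 35403322376) (nat_lit 26) (nat_lit 5) (nat_lit 28) (nat_lit 5) (nat_lit 27) (nat_lit 4) (nat_lit 474) (nat_lit 337) (nat_lit 209)))) (XT.nd (nat_lit 156) (nat_lit 76) (nat_lit 0) (XT.nd (nat_lit 78) (nat_lit 0) (nat_lit 0) (XT.lf (nat_lit 0) (nat_lit 14156597443) (nat_lit 76) (nat_lit 7888845227) (nat_lit 152) (nat_lit 32836794161) (nat_lit 25) (nat_lit 5) (nat_lit 26) (nat_lit 5) (nat_lit 27) (nat_lit 4) (nat_lit 475) (nat_lit 337) (nat_lit 208)) (XT.lf (nat_lit 0) (nat_lit 32441579832) (nat_lit 152) (nat_lit 21049805582) (nat_lit 0) (nat_lit 2717529676) (nat_lit 25) (nat_lit 5) (nat_lit 27) (nat_lit 4) (nat_lit 25) (nat_lit 4) (nat_lit 476) (nat_lit 337) (nat_lit 207))) (XT.nd (nat_lit 78) (nat_lit 76) (nat_lit 0) (XT.lf (nat_lit 0) (nat_lit 43214682706) (nat_lit 152) (nat_lit 887091974) (nat_lit 0) (nat_lit 13471667066) (nat_lit 25) (nat_lit 5) (nat_lit 27) (nat_lit 4) (nat_lit 25) (nat_lit 4) (nat_lit 477)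 (nat_lit 337) (nat_lit 206)) (XT.lf (nat_lit 0) (nat_lit 20251124119) (nat_lit 76) (nat_lit 34241874351) (nat_lit 76) (nat_lit 4480445619) (nat_lit 24) (nat_lit 4) (nat_lit 25) (nat_lit 5) (nat_lit 25) (nat_lit 4) (nat_lit 478) (nat_lit 337) (nat_lit 205))))) (XT.nd (nat_lit 312) (nat_lit 228) (nat_lit 0) (XT.nd (nat_lit 156) (nat_lit 0) (nat_lit 0) (XT.nd (nat_lit 78) (nat_lit 76) (nat_lit 0) (XT.lf (nat_lit 0) (nat_lit 5579513026) (nat_lit 152) (nat_lit 18452894076) (nat_lit 76) (nat_lit 36381505449) (nat_lit 23) (nat_lit 5) (nat_lit 25) (nat_lit 5) (nat_lit 24) (nat_lit 4) (nat_lit 479) (nat_lit 337) (nat_lit 204)) (XT.lf (nat_lit 0) (nat_lit 2403303741) (nat_lit 76) (nat_lit 13458748163) (nat_lit 152) (nat_lit 46033887758) (nat_lit 22) (nat_lit 5) (nat_lit 23) (nat_lit 5) (nat_lit 24) (nat_lit 4) (nat_lit 480) (nat_lit 337) (nat_lit 203))) (XT.nd (nat_lit 78) (nat_lit 0) (nat_lit 0) (XT.lf (nat_lit 0) (nat_lit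 24239840408) (nat_lit 76) (nat_lit 2387426892) (nat_lit 152) (nat_lit 36789934703) (nat_lit 22) (nat_lit 5) (nat_lit 23) (nat_lit 5) (nat_lit 24) (nat_lit 4) (nat_lit 481) (nat_lit 337) (nat_lit 202)) (XT.lf (nat_lit 0) (nat_lit 37790215524) (nat_lit 152) (nat_lit 18362469072) (nat_lit 0) (nat_lit 8829174742) (nat_lit 22) (nat_lit 5) (nat_lit 24) (nat_lit 4) (nat_lit 22) (nat_lit 4) (nat_lit 482) (nat_lit 337) (nat_lit 201)))) (XT.nd (nat_lit 156) (nat_lit 152) (nat_lit 0) (XT.nd (nat_lit 78) (nat_lit 0) (nat_lit 0) (XT.lf (nat_lit 0) (nat_lit 3091052428) (nat_lit 76) (nat_lit 46238805822) (nat_lit 76) (nat_lit 17262344365) (nat_lit 21) (nat_lit 4) (nat_lit 22) (nat_lit 5) (nat_lit 22) (nat_lit 4) (nat_lit 483) (nat_lit 337) (nat_lit 200)) (XT.lf (nat_lit 0) (nat_lit 25542315277) (nat_lit 76) (nat_lit 35847377113) (nat_lit 76) (nat_lit 6855944127) (nat_lit 21) (nat_lit 4) (nat_lit 22) (nat_lit 5) (nat_lit 22) (nat_lit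 4) (nat_lit 484) (nat_lit 337) (nat_lit 199))) (XT.nd (nat_lit 78) (nat_lit 76) (nat_lit 0) (XT.lf (nat_lit 0) (nat_lit 3776073667) (nat_lit 152) (nat_lit 21340538906) (nat_lit 76) (nat_lit 44831283336) (nat_lit 20) (nat_lit 5) (nat_lit 22) (nat_lit 5) (nat_lit 21) (nat_lit 4) (nat_lit 485) (nat_lit 337) (nat_lit 198)) (XT.lf (nat_lit 0) (nat_lit 585455714) (nat_lit 76) (nat_lit 13998552298) (nat_lit 152) (nat_lit 57115336397) (nat_lit 19) (nat_lit 5) (nat_lit 20) (nat_lit 5) (nat_lit 21) (nat_lit 4) (nat_lit 486) (nat_lit 337) (nat_lit 197))))))))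
noncomputable def xc95 : XT := (XT.nd (nat_lit 43914) (nat_lit 0) (nat_lit 8588) (XT.nd (nat_lit 42744) (nat_lit 0) (nat_lit 17936) (XT.nd (nat_lit 42198) (nat_lit 0) (nat_lit 26524) (XT.nd (nat_lit 234) (nat_lit 76) (nat_lit 0) (XT.nd (nat_lit 78) (nat_lit 0) (nat_lit 0) (XT.lf (nat_lit 0) (nat_lit 23585683391) (nat_lit 76) (nat_lit 2335235334) (nat_lit 152) (nat_lit 47576275839) (nat_lit 19) (nat_lit 5) (nat_lit 20) (nat_lit 5) (nat_lit 21) (nat_lit 4) (nat_lit 487) (nat_lit 337) (nat_lit 196)) (XT.nd (nat_lit 78) (nat_lit 0) (nat_lit 0) (XT.lf (nat_lit 0) (nat_lit 37680425910) (nat_lit 152) (nat_lit 28186706133) (nat_lit 0) (nat_lit 9479373841) (nat_lit 19) (nat_lit 5) (nat_lit 21) (nat_lit 4) (nat_lit 19) (nat_lit 4) (nat_lit 488) (nat_lit 337) (nat_lit 195)) (XT.lf (nat_lit 0) (nat_lit 49805604964) (nat_lit 152) (nat_lit 5853290835) (nat_lit 0) (nat_lit 21592014475) (nat_lit 19) (nat_lit 5) (nat_lit 21) (nat_lit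 4) (nat_lit 19) (nat_lit 4) (nat_lit 489) (nat_lit 337) (nat_lit 194)))) (XT.nd (nat_lit 41808) (nat_lit 0) (nat_lit 28500) (XT.nd (nat_lit 41730) (nat_lit 0) (nat_lit 28728) (XT.lf (nat_lit 0) (nat_lit 17471631527) (nat_lit 76) (nat_lit 44980919474) (nat_lit 76) (nat_lit 16755155763) (nat_lit 18) (nat_lit 4) (nat_lit 19) (nat_lit 5) (nat_lit 19) (nat_lit 4) (nat_lit 490) (nat_lit 337) (nat_lit 193)) (XT.lf (nat_lit 0) (nat_lit 71336407) (nat_lit 228) (nat_lit 3087083779) (nat_lit 0) (nat_lit 71336407) (nat_lit 396) (nat_lit 5) (nat_lit 399) (nat_lit 4) (nat_lit 396) (nat_lit 4) (nat_lit 344) (nat_lit 338) (nat_lit 338))) (XT.nd (nat_lit 78) (nat_lit 228) (nat_lit 0) (XT.lf (nat_lit 0) (nat_lit 3279305345) (nat_lit 228) (nat_lit 2712374644) (nat_lit 0) (nat_lit 477390594) (nat_lit 396) (nat_lit 5) (nat_lit 399) (nat_lit 4) (nat_lit 396) (nat_lit 4) (nat_lit 345) (nat_lit 338) (nat_lit 337)) (XT.lf (nat_lit 0) (nat_lit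 798382633) (nat_lit 228) (nat_lit 5603040936) (nat_lit 228) (nat_lit 80820601) (nat_lit 393) (nat_lit 4) (nat_lit 396) (nat_lit 5) (nat_lit 396) (nat_lit 4) (nat_lit 346) (nat_lit 338) (nat_lit 336))))) (XT.nd (nat_lit 234) (nat_lit 1520) (nat_lit 0) (XT.nd (nat_lit 78) (nat_lit 380) (nat_lit 0) (XT.lf (nat_lit 0) (nat_lit 2973379941) (nat_lit 304) (nat_lit 2127332434) (nat_lit 76) (nat_lit 1396880525) (nat_lit 392) (nat_lit 5) (nat_lit 396) (nat_lit 5) (nat_lit 393) (nat_lit 4) (nat_lit 347) (nat_lit 338) (nat_lit 335)) (XT.nd (nat_lit 78) (nat_lit 76) (nat_lit 0) (XT.lf (nat_lit 0) (nat_lit 1494221940) (nat_lit 304) (nat_lit 4526302478) (nat_lit 380) (nat_lit 495830440) (nat_lit 388) (nat_lit 5) (nat_lit 392) (nat_lit 5) (nat_lit 393) (nat_lit 4) (nat_lit 348) (nat_lit 338) (nat_lit 334)) (XT.lf (nat_lit 0) (nat_lit 2483924195) (nat_lit 380) (nat_lit 1364026157) (nat_lit 76) (nat_lit 2689682717) (nat_lit 387)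 (nat_lit 5) (nat_lit 392) (nat_lit 5) (nat_lit 388) (nat_lit 5) (nat_lit 349) (nat_lit 338) (nat_lit 333)))) (XT.nd (nat_lit 156) (nat_lit 1064) (nat_lit 0) (XT.nd (nat_lit 78) (nat_lit 76) (nat_lit 0) (XT.lf (nat_lit 0) (nat_lit 2375767915) (nat_lit 380) (nat_lit 3083396661) (nat_lit 456) (nat_lit 1102815534) (nat_lit 382) (nat_lit 5) (nat_lit 387) (nat_lit 5) (nat_lit 388) (nat_lit 5) (nat_lit 350) (nat_lit 338) (nat_lit 332)) (XT.lf (nat_lit 0) (nat_lit 1807305147) (nat_lit 456) (nat_lit 420658732) (nat_lit 76) (nat_lit 4361336591) (nat_lit 381) (nat_lit 5) (nat_lit 387) (nat_lit 5) (nat_lit 382) (nat_lit 5) (nat_lit 351) (nat_lit 338) (nat_lit 331))) (XT.nd (nat_lit 78) (nat_lit 608) (nat_lit 0) (XT.lf (nat_lit 0) (nat_lit 3445259959) (nat_lit 456) (nat_lit 1268072718) (nat_lit 532) (nat_lit 1905911604) (nat_lit 375) (nat_lit 5) (nat_lit 381) (nat_lit 5) (nat_lit 382) (nat_lit 5) (nat_lit 352) (nat_lit 338)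 (nat_lit 330)) (XT.lf (nat_lit 0) (nat_lit 719361317) (nat_lit 532) (nat_lit 226616608) (nat_lit 608) (nat_lit 5706551011) (nat_lit 367) (nat_lit 5) (nat_lit 374) (nat_lit 5) (nat_lit 375) (nat_lit 5) (nat_lit 353) (nat_lit 338) (nat_lit 329)))))) (XT.nd (nat_lit 546) (nat_lit 5548) (nat_lit 0) (XT.nd (nat_lit 234) (nat_lit 2356) (nat_lit 0) (XT.nd (nat_lit 78) (nat_lit 684) (nat_lit 0) (XT.lf (nat_lit 0) (nat_lit 3787107400) (nat_lit 608) (nat_lit 1991504432) (nat_lit 76) (nat_lit 909424330) (nat_lit 367) (nat_lit 5) (nat_lit 375) (nat_lit 5) (nat_lit 368) (nat_lit 5) (nat_lit 354) (nat_lit 338) (nat_lit 328)) (XT.nd (nat_lit 78) (nat_lit 76) (nat_lit 0) (XT.lf (nat_lit 0) (nat_lit 2035096492) (nat_lit 608) (nat_lit 4604538616) (nat_lit 684) (nat_lit 87236963) (nat_lit 359) (nat_lit 5) (nat_lit 367) (nat_lit 5) (nat_lit 368) (nat_lit 5) (nat_lit 355) (nat_lit 338) (nat_lit 327)) (XT.lf (nat_lit 0) (nat_lit 2681822773)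 (nat_lit 684) (nat_lit 642182248) (nat_lit 76) (nat_lit 3444328844) (nat_lit 358) (nat_lit 5) (nat_lit 367) (nat_lit 5) (nat_lit 359) (nat_lit 5) (nat_lit 356) (nat_lit 338) (nat_lit 326)))) (XT.nd (nat_lit 156) (nat_lit 836) (nat_lit 0) (XT.nd (nat_lit 78) (nat_lit 836) (nat_lit 0) (XT.lf (nat_lit 0) (nat_lit 3526943015) (nat_lit 684) (nat_lit 1947411423) (nat_lit 760) (nat_lit 1338438846) (nat_lit 349) (nat_lit 5) (nat_lit 358) (nat_lit 5) (nat_lit 359) (nat_lit 5) (nat_lit 357) (nat_lit 338) (nat_lit 325)) (XT.lf (nat_lit 0) (nat_lit 908152193) (nat_lit 760) (nat_lit 479412823) (nat_lit 836) (nat_lit 5472894780) (nat_lit 338) (nat_lit 5) (nat_lit 348) (nat_lit 5) (nat_lit 349) (nat_lit 5) (nat_lit 358) (nat_lit 338) (nat_lit 324))) (XT.nd (nat_lit 78) (nat_lit 836) (nat_lit 0) (XT.lf (nat_lit 0) (nat_lit 4123350248) (nat_lit 836) (nat_lit 1709993614) (nat_lit 76) (nat_lit 1077208339) (nat_lit 338) (nat_lit 5)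 (nat_lit 349) (nat_lit 5) (nat_lit 339) (nat_lit 5) (nat_lit 359) (nat_lit 338) (nat_lit 323)) (XT.lf (nat_lit 0) (nat_lit 2635140380) (nat_lit 836) (nat_lit 4250191680) (nat_lit 912) (nat_lit 78530980) (nat_lit 327) (nat_lit 5) (nat_lit 338) (nat_lit 5) (nat_lit 339) (nat_lit 5) (nat_lit 360) (nat_lit 338) (nat_lit 322))))) (XT.nd (nat_lit 312) (nat_lit 3496) (nat_lit 0) (XT.nd (nat_lit 156) (nat_lit 1064) (nat_lit 0) (XT.nd (nat_lit 78) (nat_lit 0) (nat_lit 0) (XT.lf (nat_lit 0) (nat_lit 29614430) (nat_lit 912) (nat_lit 2561601641) (nat_lit 988) (nat_lit 4428830560) (nat_lit 314) (nat_lit 5) (nat_lit 326) (nat_lit 5) (nat_lit 327) (nat_lit 5) (nat_lit 361) (nat_lit 338) (nat_lit 321)) (XT.lf (nat_lit 0) (nat_lit 4535195339) (nat_lit 912) (nat_lit 764776573) (nat_lit 988) (nat_lit 1779141662) (nat_lit 314) (nat_lit 5) (nat_lit 326) (nat_lit 5) (nat_lit 327) (nat_lit 5) (nat_lit 362) (nat_lit 338) (nat_lit 320)))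 (XT.nd (nat_lit 78) (nat_lit 0) (nat_lit 0) (XT.lf (nat_lit 0) (nat_lit 879875252) (nat_lit 1064) (nat_lit 5157648270) (nat_lit 76) (nat_lit 1103737698) (nat_lit 300) (nat_lit 5) (nat_lit 314) (nat_lit 5) (nat_lit 301) (nat_lit 5) (nat_lit 363) (nat_lit 338) (nat_lit 319)) (XT.lf (nat_lit 0) (nat_lit 3536592289) (nat_lit 1064) (nat_lit 603677945) (nat_lit 76) (nat_lit 3065896900) (nat_lit 300) (nat_lit 5) (nat_lit 314) (nat_lit 5) (nat_lit 301) (nat_lit 5) (nat_lit 364) (nat_lit 338) (nat_lit 318)))) (XT.nd (nat_lit 156) (nat_lit 1216) (nat_lit 0) (XT.nd (nat_lit 78) (nat_lit 1216) (nat_lit 0) (XT.lf (nat_lit 0) (nat_lit 4096111712) (nat_lit 1064) (nat_lit 2138772123) (nat_lit 1140) (nat_lit 1039312197) (nat_lit 286) (nat_lit 5) (nat_lit 300) (nat_lit 5) (nat_lit 301) (nat_lit 5) (nat_lit 365) (nat_lit 338) (nat_lit 317)) (XT.lf (nat_lit 0) (nat_lit 1547682891) (nat_lit 1140) (nat_lit 33924725) (nat_lit 1216) (nat_lit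 5763876762) (nat_lit 270) (nat_lit 5) (nat_lit 285) (nat_lit 5) (nat_lit 286) (nat_lit 5) (nat_lit 366) (nat_lit 338) (nat_lit 316))) (XT.nd (nat_lit 78) (nat_lit 1216) (nat_lit 0) (XT.lf (nat_lit 0) (nat_lit 4238084082) (nat_lit 1216) (nat_lit 1041915378) (nat_lit 76) (nat_lit 2139297944) (nat_lit 270) (nat_lit 5) (nat_lit 286) (nat_lit 5) (nat_lit 271) (nat_lit 5) (nat_lit 367) (nat_lit 338) (nat_lit 315)) (XT.lf (nat_lit 0) (nat_lit 3860561812) (nat_lit 1216) (nat_lit 3078220616) (nat_lit 1292) (nat_lit 557634991) (nat_lit 254) (nat_lit 5) (nat_lit 270) (nat_lit 5) (nat_lit 271) (nat_lit 5) (nat_lit 368) (nat_lit 338) (nat_lit 314))))))) (XT.nd (nat_lit 1092) (nat_lit 4104) (nat_lit 0) (XT.nd (nat_lit 546) (nat_lit 2052) (nat_lit 0) (XT.nd (nat_lit 234) (nat_lit 1824) (nat_lit 0) (XT.nd (nat_lit 78) (nat_lit 608) (nat_lit 0) (XT.lf (nat_lit 0) (nat_lit 1288509743) (nat_lit 684) (nat_lit 765096667) (nat_lit 760)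 (nat_lit 5523128784) (nat_lit 244) (nat_lit 5) (nat_lit 253) (nat_lit 5) (nat_lit 254) (nat_lit 5) (nat_lit 369) (nat_lit 338) (nat_lit 313)) (XT.nd (nat_lit 78) (nat_lit 608) (nat_lit 0) (XT.lf (nat_lit 0) (nat_lit 4713813211) (nat_lit 760) (nat_lit 1317947590) (nat_lit 76) (nat_lit 1628107001) (nat_lit 244) (nat_lit 5) (nat_lit 254) (nat_lit 5) (nat_lit 245) (nat_lit 5) (nat_lit 370) (nat_lit 338) (nat_lit 312)) (XT.lf (nat_lit 0) (nat_lit 3796795486) (nat_lit 608) (nat_lit 3632374812) (nat_lit 684) (nat_lit 317089024) (nat_lit 236) (nat_lit 5) (nat_lit 244) (nat_lit 5) (nat_lit 245) (nat_lit 5) (nat_lit 371) (nat_lit 338) (nat_lit 311)))) (XT.nd (nat_lit 156) (nat_lit 1140) (nat_lit 0) (XT.nd (nat_lit 78) (nat_lit 0) (nat_lit 0) (XT.lf (nat_lit 0) (nat_lit 1185332712) (nat_lit 608) (nat_lit 1115500173) (nat_lit 684) (nat_lit 5535041889) (nat_lit 227) (nat_lit 5) (nat_lit 235) (nat_lit 5) (nat_lit 236) (nat_lit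 5) (nat_lit 372) (nat_lit 338) (nat_lit 310)) (XT.lf (nat_lit 0) (nat_lit 4978555368) (nat_lit 684) (nat_lit 1462699445) (nat_lit 76) (nat_lit 1487223724) (nat_lit 227) (nat_lit 5) (nat_lit 236) (nat_lit 5) (nat_lit 228) (nat_lit 5) (nat_lit 373) (nat_lit 338) (nat_lit 309))) (XT.nd (nat_lit 78) (nat_lit 608) (nat_lit 0) (XT.lf (nat_lit 0) (nat_lit 3874346586) (nat_lit 532) (nat_lit 3845659500) (nat_lit 608) (nat_lit 304374872) (nat_lit 220) (nat_lit 5) (nat_lit 227) (nat_lit 5) (nat_lit 228) (nat_lit 5) (nat_lit 374) (nat_lit 338) (nat_lit 308)) (XT.lf (nat_lit 0) (nat_lit 1207320589) (nat_lit 532) (nat_lit 1128179880) (nat_lit 608) (nat_lit 5788117283) (nat_lit 212) (nat_lit 5) (nat_lit 219) (nat_lit 5) (nat_lit 220) (nat_lit 5) (nat_lit 375) (nat_lit 338) (nat_lit 307))))) (XT.nd (nat_lit 234) (nat_lit 988) (nat_lit 0) (XT.nd (nat_lit 78) (nat_lit 1064) (nat_lit 0) (XT.lf (nat_lit 0) (nat_lit 5043627056) (nat_lit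 608) (nat_lit 1506329445) (nat_lit 76) (nat_lit 1675950099) (nat_lit 212) (nat_lit 5) (nat_lit 220) (nat_lit 5) (nat_lit 213) (nat_lit 5) (nat_lit 376) (nat_lit 338) (nat_lit 306)) (XT.nd (nat_lit 78) (nat_lit 608) (nat_lit 0) (XT.lf (nat_lit 0) (nat_lit 4063444768) (nat_lit 456) (nat_lit 3758413670) (nat_lit 532) (nat_lit 509759783) (nat_lit 206) (nat_lit 5) (nat_lit 212) (nat_lit 5) (nat_lit 213) (nat_lit 5) (nat_lit 377) (nat_lit 338) (nat_lit 305)) (XT.lf (nat_lit 0) (nat_lit 1324120102) (nat_lit 532) (nat_lit 842267893) (nat_lit 608) (nat_lit 6274468572) (nat_lit 198) (nat_lit 5) (nat_lit 205) (nat_lit 5) (nat_lit 206) (nat_lit 5) (nat_lit 378) (nat_lit 338) (nat_lit 304)))) (XT.nd (nat_lit 156) (nat_lit 532) (nat_lit 0) (XT.nd (nat_lit 78) (nat_lit 456) (nat_lit 0) (XT.lf (nat_lit 0) (nat_lit 4917001113) (nat_lit 608) (nat_lit 1478817433) (nat_lit 76) (nat_lit 2157287553) (nat_lit 198) (nat_lit 5) (nat_lit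 206) (nat_lit 5) (nat_lit 199) (nat_lit 5) (nat_lit 379) (nat_lit 338) (nat_lit 303)) (XT.lf (nat_lit 0) (nat_lit 4334417836) (nat_lit 456) (nat_lit 3407586447) (nat_lit 532) (nat_lit 926980399) (nat_lit 192) (nat_lit 5) (nat_lit 198) (nat_lit 5) (nat_lit 199) (nat_lit 5) (nat_lit 380) (nat_lit 338) (nat_lit 302))) (XT.nd (nat_lit 78) (nat_lit 0) (nat_lit 0) (XT.lf (nat_lit 0) (nat_lit 1505245352) (nat_lit 456) (nat_lit 293672259) (nat_lit 532) (nat_lit 6989745490) (nat_lit 185) (nat_lit 5) (nat_lit 191) (nat_lit 5) (nat_lit 192) (nat_lit 5) (nat_lit 381) (nat_lit 338) (nat_lit 301)) (XT.lf (nat_lit 0) (nat_lit 4603366623) (nat_lit 532) (nat_lit 1410570276) (nat_lit 76) (nat_lit 2897273683) (nat_lit 185) (nat_lit 5) (nat_lit 192) (nat_lit 5) (nat_lit 186) (nat_lit 5) (nat_lit 382) (nat_lit 338) (nat_lit 300)))))) (XT.nd (nat_lit 546) (nat_lit 1900) (nat_lit 0) (XT.nd (nat_lit 234) (nat_lit 1216) (nat_lit 0) (XT.nd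 (nat_lit 78) (nat_lit 532) (nat_lit 0) (XT.lf (nat_lit 0) (nat_lit 4657073451) (nat_lit 456) (nat_lit 2827398068) (nat_lit 532) (nat_lit 1553203035) (nat_lit 179) (nat_lit 5) (nat_lit 185) (nat_lit 5) (nat_lit 186) (nat_lit 5) (nat_lit 383) (nat_lit 338) (nat_lit 299)) (XT.nd (nat_lit 78) (nat_lit 0) (nat_lit 0) (XT.lf (nat_lit 0) (nat_lit 1239831213) (nat_lit 532) (nat_lit 7453504982) (nat_lit 76) (nat_lit 474816454) (nat_lit 172) (nat_lit 5) (nat_lit 179) (nat_lit 5) (nat_lit 173) (nat_lit 5) (nat_lit 384) (nat_lit 338) (nat_lit 298)) (XT.lf (nat_lit 0) (nat_lit 4104132651) (nat_lit 532) (nat_lit 1333057057) (nat_lit 76) (nat_lit 3864347616) (nat_lit 172) (nat_lit 5) (nat_lit 179) (nat_lit 5) (nat_lit 173) (nat_lit 5) (nat_lit 385) (nat_lit 338) (nat_lit 297)))) (XT.nd (nat_lit 156) (nat_lit 380) (nat_lit 0) (XT.nd (nat_lit 78) (nat_lit 456) (nat_lit 0) (XT.lf (nat_lit 0) (nat_lit 5000048303) (nat_lit 380) (nat_lit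 2049976903) (nat_lit 456) (nat_lit 2389042457) (nat_lit 167) (nat_lit 5) (nat_lit 172) (nat_lit 5) (nat_lit 173) (nat_lit 5) (nat_lit 386) (nat_lit 338) (nat_lit 296)) (XT.lf (nat_lit 0) (nat_lit 487914456) (nat_lit 456) (nat_lit 7661206978) (nat_lit 76) (nat_lit 1431645330) (nat_lit 161) (nat_lit 5) (nat_lit 167) (nat_lit 5) (nat_lit 162) (nat_lit 5) (nat_lit 387) (nat_lit 338) (nat_lit 295))) (XT.nd (nat_lit 78) (nat_lit 380) (nat_lit 0) (XT.lf (nat_lit 0) (nat_lit 3417374222) (nat_lit 456) (nat_lit 1279486211) (nat_lit 76) (nat_lit 5028733242) (nat_lit 161) (nat_lit 5) (nat_lit 167) (nat_lit 5) (nat_lit 162) (nat_lit 5) (nat_lit 388) (nat_lit 338) (nat_lit 294)) (XT.lf (nat_lit 0) (nat_lit 5330111895) (nat_lit 380) (nat_lit 1105983468) (nat_lit 456) (nat_lit 3438641127) (nat_lit 156) (nat_lit 5) (nat_lit 161) (nat_lit 5) (nat_lit 162) (nat_lit 5) (nat_lit 389) (nat_lit 338) (nat_lit 293))))) (XT.nd (nat_lit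 312) (nat_lit 760) (nat_lit 0) (XT.nd (nat_lit 156) (nat_lit 684) (nat_lit 0) (XT.nd (nat_lit 78) (nat_lit 76) (nat_lit 0) (XT.lf (nat_lit 0) (nat_lit 2083636514) (nat_lit 380) (nat_lit 7470519286) (nat_lit 456) (nat_lit 473946524) (nat_lit 151) (nat_lit 5) (nat_lit 156) (nat_lit 5) (nat_lit 157) (nat_lit 5) (nat_lit 390) (nat_lit 338) (nat_lit 292)) (XT.lf (nat_lit 0) (nat_lit 2537717906) (nat_lit 456) (nat_lit 1285538159) (nat_lit 76) (nat_lit 6361829472) (nat_lit 150) (nat_lit 5) (nat_lit 156) (nat_lit 5) (nat_lit 151) (nat_lit 5) (nat_lit 391) (nat_lit 338) (nat_lit 291))) (XT.nd (nat_lit 78) (nat_lit 380) (nat_lit 0) (XT.lf (nat_lit 0) (nat_lit 5611410867) (nat_lit 304) (nat_lit 25232469) (nat_lit 380) (nat_lit 4709812065) (nat_lit 146) (nat_lit 5) (nat_lit 150) (nat_lit 5) (nat_lit 151) (nat_lit 5) (nat_lit 392) (nat_lit 338) (nat_lit 290)) (XT.lf (nat_lit 0) (nat_lit 2167010180) (nat_lit 380) (nat_lit 6685891243)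 (nat_lit 456) (nat_lit 1659044710) (nat_lit 141) (nat_lit 5) (nat_lit 146) (nat_lit 5) (nat_lit 147) (nat_lit 5) (nat_lit 393) (nat_lit 338) (nat_lit 289)))) (XT.nd (nat_lit 156) (nat_lit 380) (nat_lit 0) (XT.nd (nat_lit 78) (nat_lit 304) (nat_lit 0) (XT.lf (nat_lit 0) (nat_lit 1456163204) (nat_lit 456) (nat_lit 1390168412) (nat_lit 76) (nat_lit 7835596508) (nat_lit 140) (nat_lit 5) (nat_lit 146) (nat_lit 5) (nat_lit 141) (nat_lit 5) (nat_lit 394) (nat_lit 338) (nat_lit 288)) (XT.lf (nat_lit 0) (nat_lit 4653138908) (nat_lit 380) (nat_lit 5062750224) (nat_lit 76) (nat_lit 1139987764) (nat_lit 136) (nat_lit 5) (nat_lit 141) (nat_lit 5) (nat_lit 137) (nat_lit 5) (nat_lit 395) (nat_lit 338) (nat_lit 287))) (XT.nd (nat_lit 78) (nat_lit 76) (nat_lit 0) (XT.lf (nat_lit 0) (nat_lit 2133139935) (nat_lit 304) (nat_lit 5830933025) (nat_lit 380) (nat_lit 3070439223) (nat_lit 132) (nat_lit 5) (nat_lit 136) (nat_lit 5) (nat_lit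 137) (nat_lit 5) (nat_lit 396) (nat_lit 338) (nat_lit 286)) (XT.lf (nat_lit 0) (nat_lit 159834705) (nat_lit 380) (nat_lit 1636497820) (nat_lit 76) (nat_lit 9421926632) (nat_lit 131) (nat_lit 5) (nat_lit 136) (nat_lit 5) (nat_lit 132) (nat_lit 5) (nat_lit 397) (nat_lit 338) (nat_lit 285))))))))
noncomputable def xc96 : XT := (XT.nd (nat_lit 2184) (nat_lit 2432) (nat_lit 0) (XT.nd (nat_lit 1092) (nat_lit 1824) (nat_lit 0) (XT.nd (nat_lit 546) (nat_lit 1064) (nat_lit 0) (XT.nd (nat_lit 234) (nat_lit 912) (nat_lit 0) (XT.nd (nat_lit 78) (nat_lit 304) (nat_lit 0) (XT.lf (nat_lit 0) (nat_lit 3461744752) (nat_lit 380) (nat_lit 5563447989) (nat_lit 76) (nat_lit 2380329282) (nat_lit 127) (nat_lit 5) (nat_lit 132) (nat_lit 5) (nat_lit 128) (nat_lit 5) (nat_lit 398) (nat_lit 338) (nat_lit 284)) (XT.nd (nat_lit 78) (nat_lit 0) (nat_lit 0) (XT.lf (nat_lit 0) (nat_lit 1935730594) (nat_lit 304) (nat_lit 4937225784) (nat_lit 380)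 (nat_lit 4725147529) (nat_lit 123) (nat_lit 5) (nat_lit 127) (nat_lit 5) (nat_lit 128) (nat_lit 5) (nat_lit 399) (nat_lit 338) (nat_lit 283)) (XT.lf (nat_lit 0) (nat_lit 9709828406) (nat_lit 304) (nat_lit 690649723) (nat_lit 380) (nat_lit 1395574121) (nat_lit 123) (nat_lit 5) (nat_lit 127) (nat_lit 5) (nat_lit 128) (nat_lit 5) (nat_lit 400) (nat_lit 338) (nat_lit 282)))) (XT.nd (nat_lit 156) (nat_lit 304) (nat_lit 0) (XT.nd (nat_lit 78) (nat_lit 304) (nat_lit 0) (XT.lf (nat_lit 0) (nat_lit 2043987300) (nat_lit 304) (nat_lit 6288150473) (nat_lit 76) (nat_lit 3665728806) (nat_lit 119) (nat_lit 5) (nat_lit 123) (nat_lit 5) (nat_lit 120) (nat_lit 5) (nat_lit 401) (nat_lit 338) (nat_lit 281)) (XT.lf (nat_lit 0) (nat_lit 1522572710) (nat_lit 304) (nat_lit 4037869226) (nat_lit 380) (nat_lit 6644833711) (nat_lit 115) (nat_lit 5) (nat_lit 119) (nat_lit 5) (nat_lit 120) (nat_lit 5) (nat_lit 402) (nat_lit 338) (nat_lit 280)))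 (XT.nd (nat_lit 78) (nat_lit 304) (nat_lit 0) (XT.lf (nat_lit 0) (nat_lit 9209600694) (nat_lit 380) (nat_lit 2788667034) (nat_lit 76) (nat_lit 419830243) (nat_lit 115) (nat_lit 5) (nat_lit 120) (nat_lit 5) (nat_lit 116) (nat_lit 5) (nat_lit 403) (nat_lit 338) (nat_lit 279)) (XT.lf (nat_lit 0) (nat_lit 376896153) (nat_lit 304) (nat_lit 7294939915) (nat_lit 76) (nat_lit 4963807609) (nat_lit 111) (nat_lit 5) (nat_lit 115) (nat_lit 5) (nat_lit 112) (nat_lit 5) (nat_lit 404) (nat_lit 338) (nat_lit 278))))) (XT.nd (nat_lit 234) (nat_lit 608) (nat_lit 0) (XT.nd (nat_lit 78) (nat_lit 228) (nat_lit 0) (XT.lf (nat_lit 0) (nat_lit 834311530) (nat_lit 228) (nat_lit 3168241766) (nat_lit 304) (nat_lit 8856300431) (nat_lit 108) (nat_lit 5) (nat_lit 111) (nat_lit 5) (nat_lit 112) (nat_lit 5) (nat_lit 405) (nat_lit 338) (nat_lit 277)) (XT.nd (nat_lit 78) (nat_lit 228) (nat_lit 0) (XT.lf (nat_lit 0) (nat_lit 7786572173) (nat_lit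 304) (nat_lit 3806946137) (nat_lit 76) (nat_lit 1493760494) (nat_lit 108) (nat_lit 5) (nat_lit 112) (nat_lit 5) (nat_lit 109) (nat_lit 5) (nat_lit 406) (nat_lit 338) (nat_lit 276)) (XT.lf (nat_lit 0) (nat_lit 4655973286) (nat_lit 228) (nat_lit 7066460317) (nat_lit 304) (nat_lit 1598979666) (nat_lit 105) (nat_lit 5) (nat_lit 108) (nat_lit 5) (nat_lit 109) (nat_lit 5) (nat_lit 407) (nat_lit 338) (nat_lit 275)))) (XT.nd (nat_lit 156) (nat_lit 304) (nat_lit 0) (XT.nd (nat_lit 78) (nat_lit 228) (nat_lit 0) (XT.lf (nat_lit 0) (nat_lit 2171768703) (nat_lit 304) (nat_lit 193111466) (nat_lit 76) (nat_lit 11197024058) (nat_lit 104) (nat_lit 5) (nat_lit 108) (nat_lit 5) (nat_lit 105) (nat_lit 5) (nat_lit 408) (nat_lit 338) (nat_lit 274)) (XT.lf (nat_lit 0) (nat_lit 6094449008) (nat_lit 304) (nat_lit 5205511485) (nat_lit 76) (nat_lit 2507051816) (nat_lit 101) (nat_lit 5) (nat_lit 105) (nat_lit 5) (nat_lit 102) (nat_lit 5)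 (nat_lit 409) (nat_lit 338) (nat_lit 273))) (XT.nd (nat_lit 78) (nat_lit 76) (nat_lit 0) (XT.lf (nat_lit 0) (nat_lit 3591778650) (nat_lit 228) (nat_lit 6566670377) (nat_lit 304) (nat_lit 3900321020) (nat_lit 98) (nat_lit 5) (nat_lit 101) (nat_lit 5) (nat_lit 102) (nat_lit 5) (nat_lit 410) (nat_lit 338) (nat_lit 272)) (XT.lf (nat_lit 0) (nat_lit 42722122) (nat_lit 304) (nat_lit 1617094656) (nat_lit 76) (nat_lit 12657753034) (nat_lit 97) (nat_lit 5) (nat_lit 101) (nat_lit 5) (nat_lit 98) (nat_lit 5) (nat_lit 411) (nat_lit 338) (nat_lit 271)))))) (XT.nd (nat_lit 546) (nat_lit 760) (nat_lit 0) (XT.nd (nat_lit 234) (nat_lit 684) (nat_lit 0) (XT.nd (nat_lit 78) (nat_lit 152) (nat_lit 0) (XT.lf (nat_lit 0) (nat_lit 4096655137) (nat_lit 304) (nat_lit 7066151597) (nat_lit 76) (nat_lit 3418043710) (nat_lit 94) (nat_lit 5) (nat_lit 98) (nat_lit 5) (nat_lit 95) (nat_lit 5) (nat_lit 412) (nat_lit 338) (nat_lit 270)) (XT.nd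 (nat_lit 78) (nat_lit 0) (nat_lit 0) (XT.lf (nat_lit 0) (nat_lit 2067769898) (nat_lit 152) (nat_lit 6222405916) (nat_lit 228) (nat_lit 6561319559) (nat_lit 92) (nat_lit 5) (nat_lit 94) (nat_lit 5) (nat_lit 95) (nat_lit 5) (nat_lit 413) (nat_lit 338) (nat_lit 269)) (XT.lf (nat_lit 0) (nat_lit 11563087600) (nat_lit 152) (nat_lit 1083398879) (nat_lit 228) (nat_lit 2482668466) (nat_lit 92) (nat_lit 5) (nat_lit 94) (nat_lit 5) (nat_lit 95) (nat_lit 5) (nat_lit 414) (nat_lit 338) (nat_lit 268)))) (XT.nd (nat_lit 156) (nat_lit 380) (nat_lit 0) (XT.nd (nat_lit 78) (nat_lit 0) (nat_lit 0) (XT.lf (nat_lit 0) (nat_lit 1749490530) (nat_lit 304) (nat_lit 9483263013) (nat_lit 76) (nat_lit 4179959393) (nat_lit 88) (nat_lit 5) (nat_lit 92) (nat_lit 5) (nat_lit 89) (nat_lit 5) (nat_lit 415) (nat_lit 338) (nat_lit 267)) (XT.lf (nat_lit 0) (nat_lit 6072331177) (nat_lit 304) (nat_lit 13130686) (nat_lit 76) (nat_lit 9618174312) (nat_lit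 88) (nat_lit 5) (nat_lit 92) (nat_lit 5) (nat_lit 89) (nat_lit 5) (nat_lit 416) (nat_lit 338) (nat_lit 266))) (XT.nd (nat_lit 78) (nat_lit 228) (nat_lit 0) (XT.lf (nat_lit 0) (nat_lit 9878825836) (nat_lit 152) (nat_lit 708490110) (nat_lit 228) (nat_lit 5414101686) (nat_lit 86) (nat_lit 5) (nat_lit 88) (nat_lit 5) (nat_lit 89) (nat_lit 5) (nat_lit 417) (nat_lit 338) (nat_lit 265)) (XT.lf (nat_lit 0) (nat_lit 3730792183) (nat_lit 228) (nat_lit 11557086173) (nat_lit 304) (nat_lit 1018754495) (nat_lit 83) (nat_lit 5) (nat_lit 86) (nat_lit 5) (nat_lit 87) (nat_lit 5) (nat_lit 418) (nat_lit 338) (nat_lit 264))))) (XT.nd (nat_lit 234) (nat_lit 380) (nat_lit 0) (XT.nd (nat_lit 78) (nat_lit 304) (nat_lit 0) (XT.lf (nat_lit 0) (nat_lit 3477243270) (nat_lit 304) (nat_lit 2710582663) (nat_lit 76) (nat_lit 10431053174) (nat_lit 82) (nat_lit 5) (nat_lit 86) (nat_lit 5) (nat_lit 83) (nat_lit 5) (nat_lit 419) (nat_lit 338) (nat_lit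 263)) (XT.nd (nat_lit 78) (nat_lit 152) (nat_lit 0) (XT.lf (nat_lit 0) (nat_lit 7533805223) (nat_lit 152) (nat_lit 594996860) (nat_lit 228) (nat_lit 8810157165) (nat_lit 80) (nat_lit 5) (nat_lit 82) (nat_lit 5) (nat_lit 83) (nat_lit 5) (nat_lit 420) (nat_lit 338) (nat_lit 262)) (XT.lf (nat_lit 0) (nat_lit 784714402) (nat_lit 152) (nat_lit 12188955542) (nat_lit 228) (nat_lit 4293362678) (nat_lit 78) (nat_lit 5) (nat_lit 80) (nat_lit 5) (nat_lit 81) (nat_lit 5) (nat_lit 421) (nat_lit 338) (nat_lit 261)))) (XT.nd (nat_lit 156) (nat_lit 152) (nat_lit 0) (XT.nd (nat_lit 78) (nat_lit 152) (nat_lit 0) (XT.lf (nat_lit 0) (nat_lit 422742429) (nat_lit 228) (nat_lit 6193337381) (nat_lit 76) (nat_lit 10986644036) (nat_lit 77) (nat_lit 5) (nat_lit 80) (nat_lit 5) (nat_lit 78) (nat_lit 5) (nat_lit 422) (nat_lit 338) (nat_lit 260)) (XT.lf (nat_lit 0) (nat_lit 4395110512) (nat_lit 152) (nat_lit 811084976) (nat_lit 228) (nat_lit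 12740653732) (nat_lit 75) (nat_lit 5) (nat_lit 77) (nat_lit 5) (nat_lit 78) (nat_lit 5) (nat_lit 423) (nat_lit 338) (nat_lit 259))) (XT.nd (nat_lit 78) (nat_lit 152) (nat_lit 0) (XT.lf (nat_lit 0) (nat_lit 10216062562) (nat_lit 228) (nat_lit 2974175712) (nat_lit 76) (nat_lit 5108576057) (nat_lit 75) (nat_lit 5) (nat_lit 78) (nat_lit 5) (nat_lit 76) (nat_lit 5) (nat_lit 424) (nat_lit 338) (nat_lit 258)) (XT.lf (nat_lit 0) (nat_lit 8018052486) (nat_lit 152) (nat_lit 7414221909) (nat_lit 228) (nat_lit 3227385726) (nat_lit 73) (nat_lit 5) (nat_lit 75) (nat_lit 5) (nat_lit 76) (nat_lit 5) (nat_lit 425) (nat_lit 338) (nat_lit 257))))))) (XT.nd (nat_lit 1092) (nat_lit 988) (nat_lit 0) (XT.nd (nat_lit 546) (nat_lit 684) (nat_lit 0) (XT.nd (nat_lit 234) (nat_lit 380) (nat_lit 0) (XT.nd (nat_lit 78) (nat_lit 152) (nat_lit 0) (XT.lf (nat_lit 0) (nat_lit 308078817) (nat_lit 152) (nat_lit 1435261098) (nat_lit 228) (nat_lit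 17287353635) (nat_lit 70) (nat_lit 5) (nat_lit 72) (nat_lit 5) (nat_lit 73) (nat_lit 5) (nat_lit 426) (nat_lit 338) (nat_lit 256)) (XT.nd (nat_lit 78) (nat_lit 152) (nat_lit 0) (XT.lf (nat_lit 0) (nat_lit 6923406241) (nat_lit 228) (nat_lit 7734974399) (nat_lit 76) (nat_lit 4749769046) (nat_lit 70) (nat_lit 5) (nat_lit 73) (nat_lit 5) (nat_lit 71) (nat_lit 5) (nat_lit 427) (nat_lit 338) (nat_lit 255)) (XT.lf (nat_lit 0) (nat_lit 3588280355) (nat_lit 152) (nat_lit 8691299220) (nat_lit 228) (nat_lit 7516731614) (nat_lit 68) (nat_lit 5) (nat_lit 70) (nat_lit 5) (nat_lit 71) (nat_lit 5) (nat_lit 428) (nat_lit 338) (nat_lit 254)))) (XT.nd (nat_lit 156) (nat_lit 152) (nat_lit 0) (XT.nd (nat_lit 78) (nat_lit 228) (nat_lit 0) (XT.lf (nat_lit 0) (nat_lit 15360456064) (nat_lit 152) (nat_lit 2486433124) (nat_lit 228) (nat_lit 2347717571) (nat_lit 68) (nat_lit 5) (nat_lit 70) (nat_lit 5) (nat_lit 71) (nat_lit 5) (nat_lit 429)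 (nat_lit 338) (nat_lit 253)) (XT.lf (nat_lit 0) (nat_lit 2996144130) (nat_lit 228) (nat_lit 13701775312) (nat_lit 76) (nat_lit 3903740320) (nat_lit 65) (nat_lit 5) (nat_lit 68) (nat_lit 5) (nat_lit 66) (nat_lit 5) (nat_lit 430) (nat_lit 338) (nat_lit 252))) (XT.nd (nat_lit 78) (nat_lit 152) (nat_lit 0) (XT.lf (nat_lit 0) (nat_lit 8500057135) (nat_lit 228) (nat_lit 2031339316) (nat_lit 76) (nat_lit 10487425413) (nat_lit 65) (nat_lit 5) (nat_lit 68) (nat_lit 5) (nat_lit 66) (nat_lit 5) (nat_lit 431) (nat_lit 338) (nat_lit 251)) (XT.lf (nat_lit 0) (nat_lit 10139921563) (nat_lit 152) (nat_lit 4100428686) (nat_lit 228) (nat_lit 7206013144) (nat_lit 63) (nat_lit 5) (nat_lit 65) (nat_lit 5) (nat_lit 66) (nat_lit 5) (nat_lit 432) (nat_lit 338) (nat_lit 250))))) (XT.nd (nat_lit 234) (nat_lit 304) (nat_lit 0) (XT.nd (nat_lit 78) (nat_lit 228) (nat_lit 0) (XT.lf (nat_lit 0) (nat_lit 775240917) (nat_lit 152) (nat_lit 19403942265)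 (nat_lit 228) (nat_lit 1706760428) (nat_lit 61) (nat_lit 5) (nat_lit 63) (nat_lit 5) (nat_lit 64) (nat_lit 4) (nat_lit 433) (nat_lit 338) (nat_lit 249)) (XT.nd (nat_lit 78) (nat_lit 152) (nat_lit 0) (XT.lf (nat_lit 0) (nat_lit 4010105700) (nat_lit 228) (nat_lit 9011239892) (nat_lit 76) (nat_lit 9312330821) (nat_lit 60) (nat_lit 5) (nat_lit 63) (nat_lit 5) (nat_lit 61) (nat_lit 5) (nat_lit 434) (nat_lit 338) (nat_lit 248)) (XT.lf (nat_lit 0) (nat_lit 3455793031) (nat_lit 152) (nat_lit 6416316968) (nat_lit 228) (nat_lit 12921988323) (nat_lit 58) (nat_lit 5) (nat_lit 60) (nat_lit 5) (nat_lit 61) (nat_lit 5) (nat_lit 435) (nat_lit 338) (nat_lit 247)))) (XT.nd (nat_lit 156) (nat_lit 228) (nat_lit 0) (XT.nd (nat_lit 78) (nat_lit 76) (nat_lit 0) (XT.lf (nat_lit 0) (nat_lit 15980408988) (nat_lit 228) (nat_lit 6834718229) (nat_lit 76) (nat_lit 451094744) (nat_lit 58) (nat_lit 5) (nat_lit 61) (nat_lit 5) (nat_lit 59) (nat_lit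 4) (nat_lit 436) (nat_lit 338) (nat_lit 246)) (XT.lf (nat_lit 0) (nat_lit 6053868683) (nat_lit 76) (nat_lit 16315362067) (nat_lit 152) (nat_lit 1380362393) (nat_lit 57) (nat_lit 5) (nat_lit 58) (nat_lit 5) (nat_lit 59) (nat_lit 4) (nat_lit 437) (nat_lit 338) (nat_lit 245))) (XT.nd (nat_lit 78) (nat_lit 152) (nat_lit 0) (XT.lf (nat_lit 0) (nat_lit 4655792159) (nat_lit 152) (nat_lit 4866822852) (nat_lit 76) (nat_lit 14722137403) (nat_lit 56) (nat_lit 5) (nat_lit 58) (nat_lit 5) (nat_lit 57) (nat_lit 5) (nat_lit 438) (nat_lit 338) (nat_lit 244)) (XT.lf (nat_lit 0) (nat_lit 8454804403) (nat_lit 152) (nat_lit 2448064255) (nat_lit 228) (nat_lit 13849762231) (nat_lit 54) (nat_lit 5) (nat_lit 56) (nat_lit 5) (nat_lit 57) (nat_lit 5) (nat_lit 439) (nat_lit 338) (nat_lit 243)))))) (XT.nd (nat_lit 546) (nat_lit 380) (nat_lit 0) (XT.nd (nat_lit 234) (nat_lit 456) (nat_lit 0) (XT.nd (nat_lit 78) (nat_lit 152) (nat_lit 0) (XT.lf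 (nat_lit 0) (nat_lit 17409898474) (nat_lit 228) (nat_lit 3088972915) (nat_lit 76) (nat_lit 4774699919) (nat_lit 54) (nat_lit 5) (nat_lit 57) (nat_lit 5) (nat_lit 55) (nat_lit 4) (nat_lit 440) (nat_lit 338) (nat_lit 242)) (XT.nd (nat_lit 78) (nat_lit 76) (nat_lit 0) (XT.lf (nat_lit 0) (nat_lit 10657596708) (nat_lit 76) (nat_lit 13558311862) (nat_lit 152) (nat_lit 1591120054) (nat_lit 53) (nat_lit 5) (nat_lit 54) (nat_lit 5) (nat_lit 55) (nat_lit 4) (nat_lit 441) (nat_lit 338) (nat_lit 241)) (XT.lf (nat_lit 0) (nat_lit 4783209965) (nat_lit 152) (nat_lit 1565109903) (nat_lit 76) (nat_lit 20006508438) (nat_lit 52) (nat_lit 5) (nat_lit 54) (nat_lit 5) (nat_lit 53) (nat_lit 5) (nat_lit 442) (nat_lit 338) (nat_lit 240)))) (XT.nd (nat_lit 156) (nat_lit 304) (nat_lit 0) (XT.nd (nat_lit 78) (nat_lit 0) (nat_lit 0) (XT.lf (nat_lit 0) (nat_lit 11427390017) (nat_lit 228) (nat_lit 14311072295) (nat_lit 76) (nat_lit 1176810671)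 (nat_lit 50) (nat_lit 5) (nat_lit 53) (nat_lit 5) (nat_lit 51) (nat_lit 4) (nat_lit 443) (nat_lit 338) (nat_lit 239)) (XT.lf (nat_lit 0) (nat_lit 18327576094) (nat_lit 228) (nat_lit 365560686) (nat_lit 76) (nat_lit 8797695372) (nat_lit 50) (nat_lit 5) (nat_lit 53) (nat_lit 5) (nat_lit 51) (nat_lit 4) (nat_lit 444) (nat_lit 338) (nat_lit 238))) (XT.nd (nat_lit 78) (nat_lit 228) (nat_lit 0) (XT.lf (nat_lit 0) (nat_lit 14236147299) (nat_lit 76) (nat_lit 11313976670) (nat_lit 152) (nat_lit 2530074963) (nat_lit 49) (nat_lit 5) (nat_lit 50) (nat_lit 5) (nat_lit 51) (nat_lit 4) (nat_lit 445) (nat_lit 338) (nat_lit 237)) (XT.lf (nat_lit 0) (nat_lit 525116000) (nat_lit 152) (nat_lit 3680355168) (nat_lit 228) (nat_lit 24480916777) (nat_lit 46) (nat_lit 5) (nat_lit 48) (nat_lit 5) (nat_lit 49) (nat_lit 5) (nat_lit 446) (nat_lit 338) (nat_lit 236))))) (XT.nd (nat_lit 312) (nat_lit 76) (nat_lit 0) (XT.nd (nat_lit 156) (nat_lit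 228) (nat_lit 0) (XT.nd (nat_lit 78) (nat_lit 76) (nat_lit 0) (XT.lf (nat_lit 0) (nat_lit 11252226864) (nat_lit 228) (nat_lit 13804130329) (nat_lit 76) (nat_lit 4248855469) (nat_lit 46) (nat_lit 5) (nat_lit 49) (nat_lit 5) (nat_lit 47) (nat_lit 4) (nat_lit 447) (nat_lit 338) (nat_lit 235)) (XT.lf (nat_lit 0) (nat_lit 926459290) (nat_lit 76) (nat_lit 17608504462) (nat_lit 152) (nat_lit 11406902365) (nat_lit 45) (nat_lit 5) (nat_lit 46) (nat_lit 5) (nat_lit 47) (nat_lit 4) (nat_lit 448) (nat_lit 338) (nat_lit 234))) (XT.nd (nat_lit 78) (nat_lit 228) (nat_lit 0) (XT.lf (nat_lit 0) (nat_lit 16343413521) (nat_lit 76) (nat_lit 9811632073) (nat_lit 152) (nat_lit 4439009011) (nat_lit 45) (nat_lit 5) (nat_lit 46) (nat_lit 5) (nat_lit 47) (nat_lit 4) (nat_lit 449) (nat_lit 338) (nat_lit 233)) (XT.lf (nat_lit 0) (nat_lit 910716350) (nat_lit 152) (nat_lit 1762400047) (nat_lit 228) (nat_lit 28592245373) (nat_lit 42) (nat_lit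 5) (nat_lit 44) (nat_lit 5) (nat_lit 45) (nat_lit 5) (nat_lit 450) (nat_lit 338) (nat_lit 232)))) (XT.nd (nat_lit 156) (nat_lit 0) (nat_lit 0) (XT.nd (nat_lit 78) (nat_lit 76) (nat_lit 0) (XT.lf (nat_lit 0) (nat_lit 10097393959) (nat_lit 228) (nat_lit 15279445166) (nat_lit 76) (nat_lit 6573011468) (nat_lit 42) (nat_lit 5) (nat_lit 45) (nat_lit 5) (nat_lit 43) (nat_lit 4) (nat_lit 451) (nat_lit 338) (nat_lit 231)) (XT.lf (nat_lit 0) (nat_lit 197658098) (nat_lit 76) (nat_lit 17546601611) (nat_lit 152) (nat_lit 14910619743) (nat_lit 41) (nat_lit 5) (nat_lit 42) (nat_lit 5) (nat_lit 43) (nat_lit 4) (nat_lit 452) (nat_lit 338) (nat_lit 230))) (XT.nd (nat_lit 78) (nat_lit 0) (nat_lit 0) (XT.lf (nat_lit 0) (nat_lit 16415887991) (nat_lit 76) (nat_lit 9339663984) (nat_lit 152) (nat_lit 7621457720) (nat_lit 41) (nat_lit 5) (nat_lit 42) (nat_lit 5) (nat_lit 43) (nat_lit 4) (nat_lit 453) (nat_lit 338) (nat_lit 229)) (XT.lf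 (nat_lit 0) (nat_lit 33085324861) (nat_lit 76) (nat_lit 903147570) (nat_lit 152) (nat_lit 132893831) (nat_lit 41) (nat_lit 5) (nat_lit 42) (nat_lit 5) (nat_lit 43) (nat_lit 4) (nat_lit 454) (nat_lit 338) (nat_lit 228))))))))
noncomputable def xc97 : XT := (XT.nd (nat_lit 2262) (nat_lit 228) (nat_lit 0) (XT.nd (nat_lit 1092) (nat_lit 608) (nat_lit 0) (XT.nd (nat_lit 546) (nat_lit 304) (nat_lit 0) (XT.nd (nat_lit 234) (nat_lit 228) (nat_lit 0) (XT.nd (nat_lit 78) (nat_lit 76) (nat_lit 0) (XT.lf (nat_lit 0) (nat_lit 7640555374) (nat_lit 228) (nat_lit 19395888122) (nat_lit 76) (nat_lit 7843180631) (nat_lit 38) (nat_lit 5) (nat_lit 41) (nat_lit 5) (nat_lit 39) (nat_lit 4) (nat_lit 455) (nat_lit 338) (nat_lit 227)) (XT.nd (nat_lit 78) (nat_lit 76) (nat_lit 0) (XT.lf (nat_lit 0) (nat_lit 15645746759) (nat_lit 228) (nat_lit 3185059122) (nat_lit 76) (nat_lit 16829749086) (nat_lit 38) (nat_lit 5) (nat_lit 41) (nat_lit 5)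 (nat_lit 39) (nat_lit 4) (nat_lit 456) (nat_lit 338) (nat_lit 226)) (XT.lf (nat_lit 0) (nat_lit 13746625979) (nat_lit 76) (nat_lit 10258843946) (nat_lit 152) (nat_lit 12456013506) (nat_lit 37) (nat_lit 5) (nat_lit 38) (nat_lit 5) (nat_lit 39) (nat_lit 4) (nat_lit 457) (nat_lit 338) (nat_lit 225)))) (XT.nd (nat_lit 156) (nat_lit 76) (nat_lit 0) (XT.nd (nat_lit 78) (nat_lit 152) (nat_lit 0) (XT.lf (nat_lit 0) (nat_lit 31218167808) (nat_lit 76) (nat_lit 1412411405) (nat_lit 152) (nat_lit 4655423653) (nat_lit 37) (nat_lit 5) (nat_lit 38) (nat_lit 5) (nat_lit 39) (nat_lit 4) (nat_lit 458) (nat_lit 338) (nat_lit 224)) (XT.lf (nat_lit 0) (nat_lit 3479244316) (nat_lit 152) (nat_lit 26974267847) (nat_lit 76) (nat_lit 7675792116) (nat_lit 35) (nat_lit 5) (nat_lit 37) (nat_lit 5) (nat_lit 36) (nat_lit 4) (nat_lit 459) (nat_lit 338) (nat_lit 223))) (XT.nd (nat_lit 78) (nat_lit 76) (nat_lit 0) (XT.lf (nat_lit 0) (nat_lit 11823062531)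 (nat_lit 152) (nat_lit 10070570645) (nat_lit 76) (nat_lit 17101129241) (nat_lit 35) (nat_lit 5) (nat_lit 37) (nat_lit 5) (nat_lit 36) (nat_lit 4) (nat_lit 460) (nat_lit 338) (nat_lit 222)) (XT.lf (nat_lit 0) (nat_lit 7453845541) (nat_lit 76) (nat_lit 13018316635) (nat_lit 152) (nat_lit 19412373962) (nat_lit 34) (nat_lit 5) (nat_lit 35) (nat_lit 5) (nat_lit 36) (nat_lit 4) (nat_lit 461) (nat_lit 338) (nat_lit 221))))) (XT.nd (nat_lit 234) (nat_lit 152) (nat_lit 0) (XT.nd (nat_lit 78) (nat_lit 152) (nat_lit 0) (XT.lf (nat_lit 0) (nat_lit 25678899923) (nat_lit 76) (nat_lit 3787026710) (nat_lit 152) (nat_lit 11332521499) (nat_lit 34) (nat_lit 5) (nat_lit 35) (nat_lit 5) (nat_lit 36) (nat_lit 4) (nat_lit 462) (nat_lit 338) (nat_lit 220)) (XT.nd (nat_lit 78) (nat_lit 76) (nat_lit 0) (XT.lf (nat_lit 0) (nat_lit 2677221105) (nat_lit 76) (nat_lit 36116852856) (nat_lit 76) (nat_lit 2943767224) (nat_lit 33) (nat_lit 4) (nat_lit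 34) (nat_lit 5) (nat_lit 34) (nat_lit 4) (nat_lit 463) (nat_lit 338) (nat_lit 219)) (XT.lf (nat_lit 0) (nat_lit 5761028498) (nat_lit 152) (nat_lit 21507745387) (nat_lit 76) (nat_lit 15429733873) (nat_lit 32) (nat_lit 5) (nat_lit 34) (nat_lit 5) (nat_lit 33) (nat_lit 4) (nat_lit 464) (nat_lit 338) (nat_lit 218)))) (XT.nd (nat_lit 156) (nat_lit 76) (nat_lit 0) (XT.nd (nat_lit 78) (nat_lit 76) (nat_lit 0) (XT.lf (nat_lit 0) (nat_lit 14652127700) (nat_lit 152) (nat_lit 3487501004) (nat_lit 76) (nat_lit 25547962174) (nat_lit 32) (nat_lit 5) (nat_lit 34) (nat_lit 5) (nat_lit 33) (nat_lit 4) (nat_lit 465) (nat_lit 338) (nat_lit 217)) (XT.lf (nat_lit 0) (nat_lit 15343564411) (nat_lit 76) (nat_lit 8598670120) (nat_lit 152) (nat_lit 20760144426) (nat_lit 31) (nat_lit 5) (nat_lit 32) (nat_lit 5) (nat_lit 33) (nat_lit 4) (nat_lit 466) (nat_lit 338) (nat_lit 216))) (XT.nd (nat_lit 78) (nat_lit 76) (nat_lit 0) (XT.lf (nat_lit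 0) (nat_lit 33543234493) (nat_lit 152) (nat_lit 10976887298) (nat_lit 0) (nat_lit 1226523877) (nat_lit 31) (nat_lit 5) (nat_lit 33) (nat_lit 4) (nat_lit 31) (nat_lit 4) (nat_lit 467) (nat_lit 338) (nat_lit 215)) (XT.lf (nat_lit 0) (nat_lit 7999077182) (nat_lit 76) (nat_lit 35580471982) (nat_lit 76) (nat_lit 3238273340) (nat_lit 30) (nat_lit 4) (nat_lit 31) (nat_lit 5) (nat_lit 31) (nat_lit 4) (nat_lit 468) (nat_lit 338) (nat_lit 214)))))) (XT.nd (nat_lit 546) (nat_lit 304) (nat_lit 0) (XT.nd (nat_lit 234) (nat_lit 152) (nat_lit 0) (XT.nd (nat_lit 78) (nat_lit 76) (nat_lit 0) (XT.lf (nat_lit 0) (nat_lit 5976032747) (nat_lit 152) (nat_lit 20235597820) (nat_lit 76) (nat_lit 21704859219) (nat_lit 29) (nat_lit 5) (nat_lit 31) (nat_lit 5) (nat_lit 30) (nat_lit 4) (nat_lit 469) (nat_lit 338) (nat_lit 213)) (XT.nd (nat_lit 78) (nat_lit 76) (nat_lit 0) (XT.lf (nat_lit 0) (nat_lit 15387382533) (nat_lit 152) (nat_lit 1154582663)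 (nat_lit 76) (nat_lit 32505619618) (nat_lit 29) (nat_lit 5) (nat_lit 31) (nat_lit 5) (nat_lit 30) (nat_lit 4) (nat_lit 470) (nat_lit 338) (nat_lit 212)) (XT.lf (nat_lit 0) (nat_lit 18839732175) (nat_lit 76) (nat_lit 6408556758) (nat_lit 152) (nat_lit 24959307867) (nat_lit 28) (nat_lit 5) (nat_lit 29) (nat_lit 5) (nat_lit 30) (nat_lit 4) (nat_lit 471) (nat_lit 338) (nat_lit 211)))) (XT.nd (nat_lit 156) (nat_lit 76) (nat_lit 0) (XT.nd (nat_lit 78) (nat_lit 76) (nat_lit 0) (XT.lf (nat_lit 0) (nat_lit 35441668793) (nat_lit 152) (nat_lit 12010147639) (nat_lit 0) (nat_lit 3949493900) (nat_lit 28) (nat_lit 5) (nat_lit 30) (nat_lit 4) (nat_lit 28) (nat_lit 4) (nat_lit 472) (nat_lit 338) (nat_lit 210)) (XT.lf (nat_lit 0) (nat_lit 7994849081) (nat_lit 76) (nat_lit 38072850980) (nat_lit 76) (nat_lit 6559330267) (nat_lit 27) (nat_lit 4) (nat_lit 28) (nat_lit 5) (nat_lit 28) (nat_lit 4) (nat_lit 473) (nat_lit 338) (nat_lit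 209))) (XT.nd (nat_lit 78) (nat_lit 0) (nat_lit 0) (XT.lf (nat_lit 0) (nat_lit 3171088811) (nat_lit 152) (nat_lit 25096934523) (nat_lit 76) (nat_lit 25617327335) (nat_lit 26) (nat_lit 5) (nat_lit 28) (nat_lit 5) (nat_lit 27) (nat_lit 4) (nat_lit 474) (nat_lit 338) (nat_lit 208)) (XT.lf (nat_lit 0) (nat_lit 13048535423) (nat_lit 152) (nat_lit 5065838384) (nat_lit 76) (nat_lit 37065490477) (nat_lit 26) (nat_lit 5) (nat_lit 28) (nat_lit 5) (nat_lit 27) (nat_lit 4) (nat_lit 475) (nat_lit 338) (nat_lit 207))))) (XT.nd (nat_lit 312) (nat_lit 152) (nat_lit 0) (XT.nd (nat_lit 156) (nat_lit 76) (nat_lit 0) (XT.nd (nat_lit 78) (nat_lit 0) (nat_lit 0) (XT.lf (nat_lit 0) (nat_lit 15850971918) (nat_lit 76) (nat_lit 7511033825) (nat_lit 152) (nat_lit 33147017050) (nat_lit 25) (nat_lit 5) (nat_lit 26) (nat_lit 5) (nat_lit 27) (nat_lit 4) (nat_lit 476) (nat_lit 338) (nat_lit 206)) (XT.lf (nat_lit 0) (nat_lit 34056678217) (nat_lit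 152) (nat_lit 20435230849) (nat_lit 0) (nat_lit 3383993531) (nat_lit 25) (nat_lit 5) (nat_lit 27) (nat_lit 4) (nat_lit 25) (nat_lit 4) (nat_lit 477) (nat_lit 338) (nat_lit 205))) (XT.nd (nat_lit 78) (nat_lit 0) (nat_lit 0) (XT.lf (nat_lit 0) (nat_lit 301963288) (nat_lit 76) (nat_lit 44835218856) (nat_lit 76) (nat_lit 14144657381) (nat_lit 24) (nat_lit 4) (nat_lit 25) (nat_lit 5) (nat_lit 25) (nat_lit 4) (nat_lit 478) (nat_lit 338) (nat_lit 204)) (XT.lf (nat_lit 0) (nat_lit 22056572929) (nat_lit 76) (nat_lit 34687736705) (nat_lit 76) (nat_lit 3979819126) (nat_lit 24) (nat_lit 4) (nat_lit 25) (nat_lit 5) (nat_lit 25) (nat_lit 4) (nat_lit 479) (nat_lit 338) (nat_lit 203)))) (XT.nd (nat_lit 156) (nat_lit 0) (nat_lit 0) (XT.nd (nat_lit 78) (nat_lit 76) (nat_lit 0) (XT.lf (nat_lit 0) (nat_lit 6351410986) (nat_lit 152) (nat_lit 17831403864) (nat_lit 76) (nat_lit 38025358008) (nat_lit 23) (nat_lit 5) (nat_lit 25) (nat_lit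 5) (nat_lit 24) (nat_lit 4) (nat_lit 480) (nat_lit 338) (nat_lit 202)) (XT.lf (nat_lit 0) (nat_lit 3638959525) (nat_lit 76) (nat_lit 13297044161) (nat_lit 152) (nat_lit 46798850397) (nat_lit 22) (nat_lit 5) (nat_lit 23) (nat_lit 5) (nat_lit 24) (nat_lit 4) (nat_lit 481) (nat_lit 338) (nat_lit 201))) (XT.nd (nat_lit 78) (nat_lit 0) (nat_lit 0) (XT.lf (nat_lit 0) (nat_lit 26096702292) (nat_lit 76) (nat_lit 1910053149) (nat_lit 152) (nat_lit 37295522070) (nat_lit 22) (nat_lit 5) (nat_lit 23) (nat_lit 5) (nat_lit 24) (nat_lit 4) (nat_lit 482) (nat_lit 338) (nat_lit 200)) (XT.lf (nat_lit 0) (nat_lit 39492802973) (nat_lit 152) (nat_lit 17804770394) (nat_lit 0) (nat_lit 9616655469) (nat_lit 22) (nat_lit 5) (nat_lit 24) (nat_lit 4) (nat_lit 22) (nat_lit 4) (nat_lit 483) (nat_lit 338) (nat_lit 199))))))) (XT.nd (nat_lit 42588) (nat_lit 0) (nat_lit 21356) (XT.nd (nat_lit 42042) (nat_lit 0) (nat_lit 27968) (XT.nd (nat_lit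 234) (nat_lit 76) (nat_lit 0) (XT.nd (nat_lit 78) (nat_lit 76) (nat_lit 0) (XT.lf (nat_lit 0) (nat_lit 4281488391) (nat_lit 76) (nat_lit 47091129047) (nat_lit 76) (nat_lit 17200446078) (nat_lit 21) (nat_lit 4) (nat_lit 22) (nat_lit 5) (nat_lit 22) (nat_lit 4) (nat_lit 484) (nat_lit 338) (nat_lit 198)) (XT.nd (nat_lit 78) (nat_lit 76) (nat_lit 0) (XT.lf (nat_lit 0) (nat_lit 27374317153) (nat_lit 76) (nat_lit 36403535368) (nat_lit 76) (nat_lit 6498740298) (nat_lit 21) (nat_lit 4) (nat_lit 22) (nat_lit 5) (nat_lit 22) (nat_lit 4) (nat_lit 485) (nat_lit 338) (nat_lit 197)) (XT.lf (nat_lit 0) (nat_lit 4425179464) (nat_lit 152) (nat_lit 20935381827) (nat_lit 76) (nat_lit 46669679149) (nat_lit 20) (nat_lit 5) (nat_lit 22) (nat_lit 5) (nat_lit 21) (nat_lit 4) (nat_lit 486) (nat_lit 338) (nat_lit 196)))) (XT.nd (nat_lit 156) (nat_lit 0) (nat_lit 0) (XT.nd (nat_lit 78) (nat_lit 0) (nat_lit 0) (XT.lf (nat_lit 0) (nat_lit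 1638143874) (nat_lit 76) (nat_lit 13913551703) (nat_lit 152) (nat_lit 58282707020) (nat_lit 19) (nat_lit 5) (nat_lit 20) (nat_lit 5) (nat_lit 21) (nat_lit 4) (nat_lit 487) (nat_lit 338) (nat_lit 195)) (XT.lf (nat_lit 0) (nat_lit 25298229124) (nat_lit 76) (nat_lit 1915042720) (nat_lit 152) (nat_lit 48473380163) (nat_lit 19) (nat_lit 5) (nat_lit 20) (nat_lit 5) (nat_lit 21) (nat_lit 4) (nat_lit 488) (nat_lit 338) (nat_lit 194))) (XT.nd (nat_lit 78) (nat_lit 0) (nat_lit 0) (XT.lf (nat_lit 0) (nat_lit 39315147559) (nat_lit 152) (nat_lit 28046170380) (nat_lit 0) (nat_lit 10230437714) (nat_lit 19) (nat_lit 5) (nat_lit 21) (nat_lit 4) (nat_lit 19) (nat_lit 4) (nat_lit 489) (nat_lit 338) (nat_lit 193)) (XT.lf (nat_lit 0) (nat_lit 51789393376) (nat_lit 152) (nat_lit 5071475058) (nat_lit 0) (nat_lit 22692864868) (nat_lit 19) (nat_lit 5) (nat_lit 21) (nat_lit 4) (nat_lit 19) (nat_lit 4) (nat_lit 490) (nat_lit 338) (nat_lit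 192))))) (XT.nd (nat_lit 234) (nat_lit 684) (nat_lit 0) (XT.nd (nat_lit 78) (nat_lit 304) (nat_lit 0) (XT.lf (nat_lit 0) (nat_lit 1608481783) (nat_lit 76) (nat_lit 6167734) (nat_lit 0) (nat_lit 1608481783) (nat_lit 400) (nat_lit 5) (nat_lit 401) (nat_lit 0) (nat_lit 400) (nat_lit 4) (nat_lit 342) (nat_lit 339) (nat_lit 339)) (XT.nd (nat_lit 78) (nat_lit 228) (nat_lit 0) (XT.lf (nat_lit 0) (nat_lit 3331060501) (nat_lit 76) (nat_lit 3046728862) (nat_lit 76) (nat_lit 74177503) (nat_lit 399) (nat_lit 4) (nat_lit 400) (nat_lit 5) (nat_lit 400) (nat_lit 4) (nat_lit 343) (nat_lit 339) (nat_lit 338)) (XT.lf (nat_lit 0) (nat_lit 223947762) (nat_lit 152) (nat_lit 2772343525) (nat_lit 228) (nat_lit 3464228573) (nat_lit 396) (nat_lit 5) (nat_lit 398) (nat_lit 5) (nat_lit 399) (nat_lit 4) (nat_lit 344) (nat_lit 339) (nat_lit 337)))) (XT.nd (nat_lit 156) (nat_lit 380) (nat_lit 0) (XT.nd (nat_lit 78) (nat_lit 304) (nat_lit 0)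 (XT.lf (nat_lit 0) (nat_lit 3665963578) (nat_lit 152) (nat_lit 2406155575) (nat_lit 228) (nat_lit 399817253) (nat_lit 396) (nat_lit 5) (nat_lit 398) (nat_lit 5) (nat_lit 399) (nat_lit 4) (nat_lit 345) (nat_lit 339) (nat_lit 336)) (XT.lf (nat_lit 0) (nat_lit 646846193) (nat_lit 228) (nat_lit 1947547388) (nat_lit 304) (nat_lit 3891824229) (nat_lit 392) (nat_lit 5) (nat_lit 395) (nat_lit 5) (nat_lit 396) (nat_lit 5) (nat_lit 346) (nat_lit 339) (nat_lit 335))) (XT.nd (nat_lit 78) (nat_lit 380) (nat_lit 0) (XT.lf (nat_lit 0) (nat_lit 4190564132) (nat_lit 228) (nat_lit 1396266429) (nat_lit 304) (nat_lit 916550308) (nat_lit 392) (nat_lit 5) (nat_lit 395) (nat_lit 5) (nat_lit 396) (nat_lit 5) (nat_lit 347) (nat_lit 339) (nat_lit 334)) (XT.lf (nat_lit 0) (nat_lit 1256928177) (nat_lit 304) (nat_lit 751481769) (nat_lit 380) (nat_lit 4515020459) (nat_lit 387) (nat_lit 5) (nat_lit 391) (nat_lit 5) (nat_lit 392) (nat_lit 5)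 (nat_lit 348) (nat_lit 339) (nat_lit 333)))))) (XT.nd (nat_lit 546) (nat_lit 4408) (nat_lit 0) (XT.nd (nat_lit 234) (nat_lit 1748) (nat_lit 0) (XT.nd (nat_lit 78) (nat_lit 456) (nat_lit 0) (XT.lf (nat_lit 0) (nat_lit 4906086288) (nat_lit 304) (nat_lit 12700983) (nat_lit 380) (nat_lit 1627598735) (nat_lit 387) (nat_lit 5) (nat_lit 391) (nat_lit 5) (nat_lit 392) (nat_lit 5) (nat_lit 349) (nat_lit 339) (nat_lit 332)) (XT.nd (nat_lit 78) (nat_lit 0) (nat_lit 0) (XT.lf (nat_lit 0) (nat_lit 1242684006) (nat_lit 456) (nat_lit 4524354867) (nat_lit 76) (nat_lit 804983852) (nat_lit 381) (nat_lit 5) (nat_lit 387) (nat_lit 5) (nat_lit 382) (nat_lit 5) (nat_lit 350) (nat_lit 339) (nat_lit 331)) (XT.lf (nat_lit 0) (nat_lit 4080866450) (nat_lit 456) (nat_lit 803349062) (nat_lit 76) (nat_lit 1716348929) (nat_lit 381) (nat_lit 5) (nat_lit 387) (nat_lit 5) (nat_lit 382) (nat_lit 5) (nat_lit 351) (nat_lit 339) (nat_lit 330)))) (XT.nd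 (nat_lit 156) (nat_lit 684) (nat_lit 0) (XT.nd (nat_lit 78) (nat_lit 532) (nat_lit 0) (XT.lf (nat_lit 0) (nat_lit 295855994) (nat_lit 532) (nat_lit 3613686166) (nat_lit 76) (nat_lit 2722495872) (nat_lit 374) (nat_lit 5) (nat_lit 381) (nat_lit 5) (nat_lit 375) (nat_lit 5) (nat_lit 352) (nat_lit 339) (nat_lit 329)) (XT.lf (nat_lit 0) (nat_lit 217932600) (nat_lit 532) (nat_lit 2839465422) (nat_lit 608) (nat_lit 3608994287) (nat_lit 367) (nat_lit 5) (nat_lit 374) (nat_lit 5) (nat_lit 375) (nat_lit 5) (nat_lit 353) (nat_lit 339) (nat_lit 328))) (XT.nd (nat_lit 78) (nat_lit 684) (nat_lit 0) (XT.lf (nat_lit 0) (nat_lit 4170994633) (nat_lit 532) (nat_lit 1671368508) (nat_lit 608) (nat_lit 861245165) (nat_lit 367) (nat_lit 5) (nat_lit 374) (nat_lit 5) (nat_lit 375) (nat_lit 5) (nat_lit 354) (nat_lit 339) (nat_lit 327)) (XT.lf (nat_lit 0) (nat_lit 1442395376) (nat_lit 608) (nat_lit 407896445) (nat_lit 684) (nat_lit 4893533490)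 (nat_lit 358) (nat_lit 5) (nat_lit 366) (nat_lit 5) (nat_lit 367) (nat_lit 5) (nat_lit 355) (nat_lit 339) (nat_lit 326))))) (XT.nd (nat_lit 312) (nat_lit 2888) (nat_lit 0) (XT.nd (nat_lit 156) (nat_lit 760) (nat_lit 0) (XT.nd (nat_lit 78) (nat_lit 760) (nat_lit 0) (XT.lf (nat_lit 0) (nat_lit 4568531443) (nat_lit 684) (nat_lit 1283195360) (nat_lit 76) (nat_lit 935030495) (nat_lit 358) (nat_lit 5) (nat_lit 367) (nat_lit 5) (nat_lit 359) (nat_lit 5) (nat_lit 356) (nat_lit 339) (nat_lit 325)) (XT.lf (nat_lit 0) (nat_lit 468493773) (nat_lit 760) (nat_lit 3998276746) (nat_lit 76) (nat_lit 2365844371) (nat_lit 348) (nat_lit 5) (nat_lit 358) (nat_lit 5) (nat_lit 349) (nat_lit 5) (nat_lit 357) (nat_lit 339) (nat_lit 324))) (XT.nd (nat_lit 78) (nat_lit 0) (nat_lit 0) (XT.lf (nat_lit 0) (nat_lit 133755353) (nat_lit 760) (nat_lit 2983814774) (nat_lit 836) (nat_lit 3763869555) (nat_lit 338) (nat_lit 5) (nat_lit 348) (nat_lit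 5) (nat_lit 349) (nat_lit 5) (nat_lit 358) (nat_lit 339) (nat_lit 323)) (XT.lf (nat_lit 0) (nat_lit 4403379509) (nat_lit 760) (nat_lit 1396988737) (nat_lit 836) (nat_lit 1132772840) (nat_lit 338) (nat_lit 5) (nat_lit 348) (nat_lit 5) (nat_lit 349) (nat_lit 5) (nat_lit 359) (nat_lit 339) (nat_lit 322)))) (XT.nd (nat_lit 156) (nat_lit 1976) (nat_lit 0) (XT.nd (nat_lit 78) (nat_lit 0) (nat_lit 0) (XT.lf (nat_lit 0) (nat_lit 1481730480) (nat_lit 912) (nat_lit 5224820284) (nat_lit 76) (nat_lit 281367464) (nat_lit 326) (nat_lit 5) (nat_lit 338) (nat_lit 5) (nat_lit 327) (nat_lit 5) (nat_lit 360) (nat_lit 339) (nat_lit 321)) (XT.lf (nat_lit 0) (nat_lit 4109009002) (nat_lit 912) (nat_lit 902325153) (nat_lit 76) (nat_lit 2033990842) (nat_lit 326) (nat_lit 5) (nat_lit 338) (nat_lit 5) (nat_lit 327) (nat_lit 5) (nat_lit 361) (nat_lit 339) (nat_lit 320))) (XT.nd (nat_lit 78) (nat_lit 1064) (nat_lit 0) (XT.lf (nat_lit 0) (nat_lit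 3551126852) (nat_lit 912) (nat_lit 3217995779) (nat_lit 988) (nat_lit 336745798) (nat_lit 314) (nat_lit 5) (nat_lit 326) (nat_lit 5) (nat_lit 327) (nat_lit 5) (nat_lit 362) (nat_lit 339) (nat_lit 319)) (XT.lf (nat_lit 0) (nat_lit 915031932) (nat_lit 988) (nat_lit 1318857175) (nat_lit 1064) (nat_lit 4935534316) (nat_lit 300) (nat_lit 5) (nat_lit 313) (nat_lit 5) (nat_lit 314) (nat_lit 5) (nat_lit 363) (nat_lit 339) (nat_lit 318))))))))
noncomputable def xc98 : XT := (XT.nd (nat_lit 2184) (nat_lit 5168) (nat_lit 0) (XT.nd (nat_lit 1092) (nat_lit 4256) (nat_lit 0) (XT.nd (nat_lit 546) (nat_lit 2888) (nat_lit 0) (XT.nd (nat_lit 234) (nat_lit 1976) (nat_lit 0) (XT.nd (nat_lit 78) (nat_lit 2280) (nat_lit 0) (XT.lf (nat_lit 0) (nat_lit 4839750486) (nat_lit 1064) (nat_lit 1722585706) (nat_lit 76) (nat_lit 673534577) (nat_lit 300) (nat_lit 5) (nat_lit 314) (nat_lit 5) (nat_lit 301) (nat_lit 5) (nat_lit 364) (nat_lit 339)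 (nat_lit 317)) (XT.nd (nat_lit 78) (nat_lit 1140) (nat_lit 0) (XT.lf (nat_lit 0) (nat_lit 180712175) (nat_lit 1140) (nat_lit 4386702796) (nat_lit 76) (nat_lit 2737897869) (nat_lit 285) (nat_lit 5) (nat_lit 300) (nat_lit 5) (nat_lit 286) (nat_lit 5) (nat_lit 365) (nat_lit 339) (nat_lit 316)) (XT.lf (nat_lit 0) (nat_lit 269899540) (nat_lit 1140) (nat_lit 2462486429) (nat_lit 1216) (nat_lit 4645398885) (nat_lit 270) (nat_lit 5) (nat_lit 285) (nat_lit 5) (nat_lit 286) (nat_lit 5) (nat_lit 366) (nat_lit 339) (nat_lit 315)))) (XT.nd (nat_lit 156) (nat_lit 684) (nat_lit 0) (XT.nd (nat_lit 78) (nat_lit 1292) (nat_lit 0) (XT.lf (nat_lit 0) (nat_lit 5087296862) (nat_lit 1140) (nat_lit 244652111) (nat_lit 1216) (nat_lit 2121370313) (nat_lit 270) (nat_lit 5) (nat_lit 285) (nat_lit 5) (nat_lit 286) (nat_lit 5) (nat_lit 367) (nat_lit 339) (nat_lit 314)) (XT.lf (nat_lit 0) (nat_lit 441377036) (nat_lit 1292) (nat_lit 5058467662)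 (nat_lit 76) (nat_lit 2031993911) (nat_lit 253) (nat_lit 5) (nat_lit 270) (nat_lit 5) (nat_lit 254) (nat_lit 5) (nat_lit 368) (nat_lit 339) (nat_lit 313))) (XT.nd (nat_lit 78) (nat_lit 684) (nat_lit 0) (XT.lf (nat_lit 0) (nat_lit 2994817651) (nat_lit 1292) (nat_lit 198969309) (nat_lit 76) (nat_lit 4419629009) (nat_lit 253) (nat_lit 5) (nat_lit 270) (nat_lit 5) (nat_lit 254) (nat_lit 5) (nat_lit 369) (nat_lit 339) (nat_lit 312)) (XT.lf (nat_lit 0) (nat_lit 4832895660) (nat_lit 684) (nat_lit 770361647) (nat_lit 760) (nat_lit 2094856726) (nat_lit 244) (nat_lit 5) (nat_lit 253) (nat_lit 5) (nat_lit 254) (nat_lit 5) (nat_lit 370) (nat_lit 339) (nat_lit 311))))) (XT.nd (nat_lit 234) (nat_lit 1596) (nat_lit 0) (XT.nd (nat_lit 78) (nat_lit 608) (nat_lit 0) (XT.lf (nat_lit 0) (nat_lit 467417336) (nat_lit 684) (nat_lit 5599196870) (nat_lit 76) (nat_lit 1719437124) (nat_lit 235) (nat_lit 5) (nat_lit 244) (nat_lit 5) (nat_lit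 236) (nat_lit 5) (nat_lit 371) (nat_lit 339) (nat_lit 310)) (XT.nd (nat_lit 78) (nat_lit 608) (nat_lit 0) (XT.lf (nat_lit 0) (nat_lit 3035190160) (nat_lit 684) (nat_lit 524936167) (nat_lit 76) (nat_lit 4316779246) (nat_lit 235) (nat_lit 5) (nat_lit 244) (nat_lit 5) (nat_lit 236) (nat_lit 5) (nat_lit 372) (nat_lit 339) (nat_lit 309)) (XT.lf (nat_lit 0) (nat_lit 4726060154) (nat_lit 608) (nat_lit 935179570) (nat_lit 684) (nat_lit 2309830854) (nat_lit 227) (nat_lit 5) (nat_lit 235) (nat_lit 5) (nat_lit 236) (nat_lit 5) (nat_lit 373) (nat_lit 339) (nat_lit 308)))) (XT.nd (nat_lit 156) (nat_lit 988) (nat_lit 0) (XT.nd (nat_lit 78) (nat_lit 0) (nat_lit 0) (XT.lf (nat_lit 0) (nat_lit 270841508) (nat_lit 608) (nat_lit 6040266252) (nat_lit 76) (nat_lit 1757528592) (nat_lit 219) (nat_lit 5) (nat_lit 227) (nat_lit 5) (nat_lit 220) (nat_lit 5) (nat_lit 374) (nat_lit 339) (nat_lit 307)) (XT.lf (nat_lit 0) (nat_lit 2862406152)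 (nat_lit 608) (nat_lit 743637630) (nat_lit 76) (nat_lit 4563022843) (nat_lit 219) (nat_lit 5) (nat_lit 227) (nat_lit 5) (nat_lit 220) (nat_lit 5) (nat_lit 375) (nat_lit 339) (nat_lit 306))) (XT.nd (nat_lit 78) (nat_lit 456) (nat_lit 0) (XT.lf (nat_lit 0) (nat_lit 4736837268) (nat_lit 532) (nat_lit 779778445) (nat_lit 608) (nat_lit 2756367091) (nat_lit 212) (nat_lit 5) (nat_lit 219) (nat_lit 5) (nat_lit 220) (nat_lit 5) (nat_lit 376) (nat_lit 339) (nat_lit 305)) (XT.lf (nat_lit 0) (nat_lit 1966431622) (nat_lit 456) (nat_lit 6271411276) (nat_lit 532) (nat_lit 142571192) (nat_lit 206) (nat_lit 5) (nat_lit 212) (nat_lit 5) (nat_lit 213) (nat_lit 5) (nat_lit 377) (nat_lit 339) (nat_lit 304)))))) (XT.nd (nat_lit 546) (nat_lit 2128) (nat_lit 0) (XT.nd (nat_lit 234) (nat_lit 1064) (nat_lit 0) (XT.nd (nat_lit 78) (nat_lit 988) (nat_lit 0) (XT.lf (nat_lit 0) (nat_lit 2484571463) (nat_lit 532) (nat_lit 885086652) (nat_lit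 76) (nat_lit 5121152617) (nat_lit 205) (nat_lit 5) (nat_lit 212) (nat_lit 5) (nat_lit 206) (nat_lit 5) (nat_lit 378) (nat_lit 339) (nat_lit 303)) (XT.nd (nat_lit 78) (nat_lit 456) (nat_lit 0) (XT.lf (nat_lit 0) (nat_lit 4835555203) (nat_lit 532) (nat_lit 341214486) (nat_lit 608) (nat_lit 3428051749) (nat_lit 198) (nat_lit 5) (nat_lit 205) (nat_lit 5) (nat_lit 206) (nat_lit 5) (nat_lit 379) (nat_lit 339) (nat_lit 302)) (XT.lf (nat_lit 0) (nat_lit 1967554843) (nat_lit 456) (nat_lit 5980383602) (nat_lit 532) (nat_lit 774385081) (nat_lit 192) (nat_lit 5) (nat_lit 198) (nat_lit 5) (nat_lit 199) (nat_lit 5) (nat_lit 380) (nat_lit 339) (nat_lit 301)))) (XT.nd (nat_lit 156) (nat_lit 532) (nat_lit 0) (XT.nd (nat_lit 78) (nat_lit 456) (nat_lit 0) (XT.lf (nat_lit 0) (nat_lit 1906475553) (nat_lit 532) (nat_lit 979532791) (nat_lit 76) (nat_lit 5957219373) (nat_lit 191) (nat_lit 5) (nat_lit 198) (nat_lit 5) (nat_lit 192) (nat_lit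 5) (nat_lit 381) (nat_lit 339) (nat_lit 300)) (XT.lf (nat_lit 0) (nat_lit 4649138691) (nat_lit 532) (nat_lit 3978847960) (nat_lit 76) (nat_lit 339649877) (nat_lit 185) (nat_lit 5) (nat_lit 192) (nat_lit 5) (nat_lit 186) (nat_lit 5) (nat_lit 382) (nat_lit 339) (nat_lit 299))) (XT.nd (nat_lit 78) (nat_lit 76) (nat_lit 0) (XT.lf (nat_lit 0) (nat_lit 2003850565) (nat_lit 456) (nat_lit 5474511523) (nat_lit 532) (nat_lit 1617302384) (nat_lit 179) (nat_lit 5) (nat_lit 185) (nat_lit 5) (nat_lit 186) (nat_lit 5) (nat_lit 383) (nat_lit 339) (nat_lit 298)) (XT.lf (nat_lit 0) (nat_lit 1129610865) (nat_lit 532) (nat_lit 1058081127) (nat_lit 76) (nat_lit 7039897311) (nat_lit 178) (nat_lit 5) (nat_lit 185) (nat_lit 5) (nat_lit 179) (nat_lit 5) (nat_lit 384) (nat_lit 339) (nat_lit 297))))) (XT.nd (nat_lit 234) (nat_lit 1216) (nat_lit 0) (XT.nd (nat_lit 78) (nat_lit 456) (nat_lit 0) (XT.lf (nat_lit 0) (nat_lit 3936593297) (nat_lit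 532) (nat_lit 4199215591) (nat_lit 76) (nat_lit 1226891549) (nat_lit 172) (nat_lit 5) (nat_lit 179) (nat_lit 5) (nat_lit 173) (nat_lit 5) (nat_lit 385) (nat_lit 339) (nat_lit 296)) (XT.nd (nat_lit 78) (nat_lit 76) (nat_lit 0) (XT.lf (nat_lit 0) (nat_lit 2043422402) (nat_lit 380) (nat_lit 4785580881) (nat_lit 456) (nat_lit 2672838658) (nat_lit 167) (nat_lit 5) (nat_lit 172) (nat_lit 5) (nat_lit 173) (nat_lit 5) (nat_lit 386) (nat_lit 339) (nat_lit 295)) (XT.lf (nat_lit 0) (nat_lit 152135423) (nat_lit 456) (nat_lit 1153348575) (nat_lit 76) (nat_lit 8339870811) (nat_lit 166) (nat_lit 5) (nat_lit 172) (nat_lit 5) (nat_lit 167) (nat_lit 5) (nat_lit 387) (nat_lit 339) (nat_lit 294)))) (XT.nd (nat_lit 156) (nat_lit 456) (nat_lit 0) (XT.nd (nat_lit 78) (nat_lit 380) (nat_lit 0) (XT.lf (nat_lit 0) (nat_lit 3033065843) (nat_lit 456) (nat_lit 4460907266) (nat_lit 76) (nat_lit 2297670612) (nat_lit 161) (nat_lit 5) (nat_lit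 167) (nat_lit 5) (nat_lit 162) (nat_lit 5) (nat_lit 388) (nat_lit 339) (nat_lit 293)) (XT.lf (nat_lit 0) (nat_lit 2052408127) (nat_lit 380) (nat_lit 3944025987) (nat_lit 456) (nat_lit 3946018951) (nat_lit 156) (nat_lit 5) (nat_lit 161) (nat_lit 5) (nat_lit 162) (nat_lit 5) (nat_lit 389) (nat_lit 339) (nat_lit 292))) (XT.nd (nat_lit 78) (nat_lit 456) (nat_lit 0) (XT.lf (nat_lit 0) (nat_lit 8787594997) (nat_lit 380) (nat_lit 258533681) (nat_lit 456) (nat_lit 1051746967) (nat_lit 156) (nat_lit 5) (nat_lit 161) (nat_lit 5) (nat_lit 162) (nat_lit 5) (nat_lit 390) (nat_lit 339) (nat_lit 291)) (XT.lf (nat_lit 0) (nat_lit 1932333486) (nat_lit 456) (nat_lit 4800309238) (nat_lit 76) (nat_lit 3523553965) (nat_lit 150) (nat_lit 5) (nat_lit 156) (nat_lit 5) (nat_lit 151) (nat_lit 5) (nat_lit 391) (nat_lit 339) (nat_lit 290))))))) (XT.nd (nat_lit 1092) (nat_lit 2204) (nat_lit 0) (XT.nd (nat_lit 546) (nat_lit 1216) (nat_lit 0)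 (XT.nd (nat_lit 234) (nat_lit 988) (nat_lit 0) (XT.nd (nat_lit 78) (nat_lit 456) (nat_lit 0) (XT.lf (nat_lit 0) (nat_lit 1994225764) (nat_lit 304) (nat_lit 2979543446) (nat_lit 380) (nat_lit 5445527315) (nat_lit 146) (nat_lit 5) (nat_lit 150) (nat_lit 5) (nat_lit 151) (nat_lit 5) (nat_lit 392) (nat_lit 339) (nat_lit 289)) (XT.nd (nat_lit 78) (nat_lit 456) (nat_lit 0) (XT.lf (nat_lit 0) (nat_lit 8118349643) (nat_lit 380) (nat_lit 1569009145) (nat_lit 76) (nat_lit 899583924) (nat_lit 146) (nat_lit 5) (nat_lit 151) (nat_lit 5) (nat_lit 147) (nat_lit 5) (nat_lit 393) (nat_lit 339) (nat_lit 288)) (XT.lf (nat_lit 0) (nat_lit 624553473) (nat_lit 456) (nat_lit 5257177903) (nat_lit 76) (nat_lit 4876567372) (nat_lit 140) (nat_lit 5) (nat_lit 146) (nat_lit 5) (nat_lit 141) (nat_lit 5) (nat_lit 394) (nat_lit 339) (nat_lit 287)))) (XT.nd (nat_lit 156) (nat_lit 684) (nat_lit 0) (XT.nd (nat_lit 78) (nat_lit 0) (nat_lit 0) (XT.lf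 (nat_lit 0) (nat_lit 1828743899) (nat_lit 304) (nat_lit 1921716574) (nat_lit 380) (nat_lit 7183923800) (nat_lit 136) (nat_lit 5) (nat_lit 140) (nat_lit 5) (nat_lit 141) (nat_lit 5) (nat_lit 395) (nat_lit 339) (nat_lit 286)) (XT.lf (nat_lit 0) (nat_lit 7000983681) (nat_lit 380) (nat_lit 1964448739) (nat_lit 76) (nat_lit 2149404020) (nat_lit 136) (nat_lit 5) (nat_lit 141) (nat_lit 5) (nat_lit 137) (nat_lit 5) (nat_lit 396) (nat_lit 339) (nat_lit 285))) (XT.nd (nat_lit 78) (nat_lit 380) (nat_lit 0) (XT.lf (nat_lit 0) (nat_lit 5415453576) (nat_lit 304) (nat_lit 4962410654) (nat_lit 380) (nat_lit 921981667) (nat_lit 132) (nat_lit 5) (nat_lit 136) (nat_lit 5) (nat_lit 137) (nat_lit 5) (nat_lit 397) (nat_lit 339) (nat_lit 284)) (XT.lf (nat_lit 0) (nat_lit 1511358870) (nat_lit 304) (nat_lit 800662212) (nat_lit 380) (nat_lit 9177934682) (nat_lit 127) (nat_lit 5) (nat_lit 131) (nat_lit 5) (nat_lit 132) (nat_lit 5) (nat_lit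 398) (nat_lit 339) (nat_lit 283))))) (XT.nd (nat_lit 234) (nat_lit 608) (nat_lit 0) (XT.nd (nat_lit 78) (nat_lit 608) (nat_lit 0) (XT.lf (nat_lit 0) (nat_lit 5676441163) (nat_lit 380) (nat_lit 2540455775) (nat_lit 76) (nat_lit 3467048504) (nat_lit 127) (nat_lit 5) (nat_lit 132) (nat_lit 5) (nat_lit 128) (nat_lit 5) (nat_lit 399) (nat_lit 339) (nat_lit 282)) (XT.nd (nat_lit 78) (nat_lit 304) (nat_lit 0) (XT.lf (nat_lit 0) (nat_lit 5152424679) (nat_lit 304) (nat_lit 4006446172) (nat_lit 380) (nat_lit 2724379625) (nat_lit 123) (nat_lit 5) (nat_lit 127) (nat_lit 5) (nat_lit 128) (nat_lit 5) (nat_lit 400) (nat_lit 339) (nat_lit 281)) (XT.lf (nat_lit 0) (nat_lit 643058193) (nat_lit 304) (nat_lit 11099921988) (nat_lit 76) (nat_lit 345413127) (nat_lit 119) (nat_lit 5) (nat_lit 123) (nat_lit 5) (nat_lit 120) (nat_lit 5) (nat_lit 401) (nat_lit 339) (nat_lit 280)))) (XT.nd (nat_lit 156) (nat_lit 304) (nat_lit 0) (XT.nd (nat_lit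 78) (nat_lit 304) (nat_lit 0) (XT.lf (nat_lit 0) (nat_lit 4125271335) (nat_lit 304) (nat_lit 3349265206) (nat_lit 76) (nat_lit 4822296674) (nat_lit 119) (nat_lit 5) (nat_lit 123) (nat_lit 5) (nat_lit 120) (nat_lit 5) (nat_lit 402) (nat_lit 339) (nat_lit 279)) (XT.lf (nat_lit 0) (nat_lit 4665117616) (nat_lit 304) (nat_lit 3053037068) (nat_lit 380) (nat_lit 4793192611) (nat_lit 115) (nat_lit 5) (nat_lit 119) (nat_lit 5) (nat_lit 120) (nat_lit 5) (nat_lit 403) (nat_lit 339) (nat_lit 278))) (XT.nd (nat_lit 78) (nat_lit 76) (nat_lit 0) (XT.lf (nat_lit 0) (nat_lit 185984812) (nat_lit 228) (nat_lit 11244925423) (nat_lit 304) (nat_lit 1301030867) (nat_lit 112) (nat_lit 5) (nat_lit 115) (nat_lit 5) (nat_lit 116) (nat_lit 5) (nat_lit 404) (nat_lit 339) (nat_lit 277)) (XT.lf (nat_lit 0) (nat_lit 2323213125) (nat_lit 304) (nat_lit 4450213742) (nat_lit 76) (nat_lit 6182906697) (nat_lit 111) (nat_lit 5) (nat_lit 115) (nat_lit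 5) (nat_lit 112) (nat_lit 5) (nat_lit 405) (nat_lit 339) (nat_lit 276)))))) (XT.nd (nat_lit 546) (nat_lit 912) (nat_lit 0) (XT.nd (nat_lit 234) (nat_lit 760) (nat_lit 0) (XT.nd (nat_lit 78) (nat_lit 304) (nat_lit 0) (XT.lf (nat_lit 0) (nat_lit 3892880204) (nat_lit 228) (nat_lit 2137560498) (nat_lit 304) (nat_lit 7156624780) (nat_lit 108) (nat_lit 5) (nat_lit 111) (nat_lit 5) (nat_lit 112) (nat_lit 5) (nat_lit 406) (nat_lit 339) (nat_lit 275)) (XT.nd (nat_lit 78) (nat_lit 304) (nat_lit 0) (XT.lf (nat_lit 0) (nat_lit 9882918850) (nat_lit 304) (nat_lit 930599187) (nat_lit 76) (nat_lit 2610186419) (nat_lit 108) (nat_lit 5) (nat_lit 112) (nat_lit 5) (nat_lit 109) (nat_lit 5) (nat_lit 407) (nat_lit 339) (nat_lit 274)) (XT.lf (nat_lit 0) (nat_lit 240631773) (nat_lit 304) (nat_lit 5911116165) (nat_lit 76) (nat_lit 7513826967) (nat_lit 104) (nat_lit 5) (nat_lit 108) (nat_lit 5) (nat_lit 105) (nat_lit 5) (nat_lit 408) (nat_lit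 339) (nat_lit 273)))) (XT.nd (nat_lit 156) (nat_lit 532) (nat_lit 0) (XT.nd (nat_lit 78) (nat_lit 0) (nat_lit 0) (XT.lf (nat_lit 0) (nat_lit 2766195506) (nat_lit 228) (nat_lit 1298717515) (nat_lit 304) (nat_lit 9848724693) (nat_lit 101) (nat_lit 5) (nat_lit 104) (nat_lit 5) (nat_lit 105) (nat_lit 5) (nat_lit 409) (nat_lit 339) (nat_lit 272)) (XT.lf (nat_lit 0) (nat_lit 8064555488) (nat_lit 304) (nat_lit 2436151433) (nat_lit 76) (nat_lit 3666621934) (nat_lit 101) (nat_lit 5) (nat_lit 105) (nat_lit 5) (nat_lit 102) (nat_lit 5) (nat_lit 410) (nat_lit 339) (nat_lit 271))) (XT.nd (nat_lit 78) (nat_lit 304) (nat_lit 0) (XT.lf (nat_lit 0) (nat_lit 6596375785) (nat_lit 228) (nat_lit 5629889462) (nat_lit 304) (nat_lit 2201108414) (nat_lit 98) (nat_lit 5) (nat_lit 101) (nat_lit 5) (nat_lit 102) (nat_lit 5) (nat_lit 411) (nat_lit 339) (nat_lit 270)) (XT.lf (nat_lit 0) (nat_lit 1205037833) (nat_lit 228) (nat_lit 579463297)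 (nat_lit 304) (nat_lit 12910128613) (nat_lit 94) (nat_lit 5) (nat_lit 97) (nat_lit 5) (nat_lit 98) (nat_lit 5) (nat_lit 412) (nat_lit 339) (nat_lit 269))))) (XT.nd (nat_lit 312) (nat_lit 456) (nat_lit 0) (XT.nd (nat_lit 156) (nat_lit 304) (nat_lit 0) (XT.nd (nat_lit 78) (nat_lit 152) (nat_lit 0) (XT.lf (nat_lit 0) (nat_lit 5935916133) (nat_lit 304) (nat_lit 4418208104) (nat_lit 76) (nat_lit 4612415982) (nat_lit 94) (nat_lit 5) (nat_lit 98) (nat_lit 5) (nat_lit 95) (nat_lit 5) (nat_lit 413) (nat_lit 339) (nat_lit 268)) (XT.lf (nat_lit 0) (nat_lit 4961692525) (nat_lit 152) (nat_lit 5270780653) (nat_lit 228) (nat_lit 5013521530) (nat_lit 92) (nat_lit 5) (nat_lit 94) (nat_lit 5) (nat_lit 95) (nat_lit 5) (nat_lit 414) (nat_lit 339) (nat_lit 267))) (XT.nd (nat_lit 78) (nat_lit 304) (nat_lit 0) (XT.lf (nat_lit 0) (nat_lit 14659387538) (nat_lit 152) (nat_lit 10757700) (nat_lit 228) (nat_lit 863325592) (nat_lit 92) (nat_lit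 5) (nat_lit 94) (nat_lit 5) (nat_lit 95) (nat_lit 5) (nat_lit 415) (nat_lit 339) (nat_lit 266)) (XT.lf (nat_lit 0) (nat_lit 3451592905) (nat_lit 304) (nat_lit 6973706623) (nat_lit 76) (nat_lit 5400088679) (nat_lit 88) (nat_lit 5) (nat_lit 92) (nat_lit 5) (nat_lit 89) (nat_lit 5) (nat_lit 416) (nat_lit 339) (nat_lit 265)))) (XT.nd (nat_lit 156) (nat_lit 304) (nat_lit 0) (XT.nd (nat_lit 78) (nat_lit 0) (nat_lit 0) (XT.lf (nat_lit 0) (nat_lit 2752867818) (nat_lit 152) (nat_lit 5129666087) (nat_lit 228) (nat_lit 8243159122) (nat_lit 86) (nat_lit 5) (nat_lit 88) (nat_lit 5) (nat_lit 89) (nat_lit 5) (nat_lit 417) (nat_lit 339) (nat_lit 264)) (XT.lf (nat_lit 0) (nat_lit 12489288932) (nat_lit 228) (nat_lit 3576173359) (nat_lit 76) (nat_lit 368262167) (nat_lit 86) (nat_lit 5) (nat_lit 89) (nat_lit 5) (nat_lit 87) (nat_lit 5) (nat_lit 418) (nat_lit 339) (nat_lit 263))) (XT.nd (nat_lit 78) (nat_lit 0) (nat_lit 0) (XT.lf (nat_lit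 0) (nat_lit 557844922) (nat_lit 304) (nat_lit 10214873162) (nat_lit 76) (nat_lit 5975622447) (nat_lit 82) (nat_lit 5) (nat_lit 86) (nat_lit 5) (nat_lit 83) (nat_lit 5) (nat_lit 419) (nat_lit 339) (nat_lit 262)) (XT.lf (nat_lit 0) (nat_lit 5122032507) (nat_lit 304) (nat_lit 143204950) (nat_lit 76) (nat_lit 11805806173) (nat_lit 82) (nat_lit 5) (nat_lit 86) (nat_lit 5) (nat_lit 83) (nat_lit 5) (nat_lit 420) (nat_lit 339) (nat_lit 261))))))))
noncomputable def xc99 : XT := (XT.nd (nat_lit 2262) (nat_lit 1520) (nat_lit 0) (XT.nd (nat_lit 1092) (nat_lit 1216) (nat_lit 0) (XT.nd (nat_lit 546) (nat_lit 684) (nat_lit 0) (XT.nd (nat_lit 234) (nat_lit 532) (nat_lit 0) (XT.nd (nat_lit 78) (nat_lit 228) (nat_lit 0) (XT.lf (nat_lit 0) (nat_lit 9898182430) (nat_lit 228) (nat_lit 7023475574) (nat_lit 76) (nat_lit 479522307) (nat_lit 80) (nat_lit 5) (nat_lit 83) (nat_lit 5) (nat_lit 81) (nat_lit 5) (nat_lit 421) (nat_lit 339)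 (nat_lit 260)) (XT.nd (nat_lit 78) (nat_lit 76) (nat_lit 0) (XT.lf (nat_lit 0) (nat_lit 3440139593) (nat_lit 152) (nat_lit 11434842972) (nat_lit 228) (nat_lit 2864521042) (nat_lit 78) (nat_lit 5) (nat_lit 80) (nat_lit 5) (nat_lit 81) (nat_lit 5) (nat_lit 422) (nat_lit 339) (nat_lit 259)) (XT.lf (nat_lit 0) (nat_lit 1918189071) (nat_lit 228) (nat_lit 3794233872) (nat_lit 76) (nat_lit 12373732926) (nat_lit 77) (nat_lit 5) (nat_lit 80) (nat_lit 5) (nat_lit 78) (nat_lit 5) (nat_lit 423) (nat_lit 339) (nat_lit 258)))) (XT.nd (nat_lit 156) (nat_lit 380) (nat_lit 0) (XT.nd (nat_lit 78) (nat_lit 0) (nat_lit 0) (XT.lf (nat_lit 0) (nat_lit 6829061403) (nat_lit 228) (nat_lit 11357141014) (nat_lit 76) (nat_lit 254889974) (nat_lit 75) (nat_lit 5) (nat_lit 78) (nat_lit 5) (nat_lit 76) (nat_lit 5) (nat_lit 424) (nat_lit 339) (nat_lit 257)) (XT.lf (nat_lit 0) (nat_lit 11954302296) (nat_lit 228) (nat_lit 545809418) (nat_lit 76)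 (nat_lit 6304557121) (nat_lit 75) (nat_lit 5) (nat_lit 78) (nat_lit 5) (nat_lit 76) (nat_lit 5) (nat_lit 425) (nat_lit 339) (nat_lit 256))) (XT.nd (nat_lit 78) (nat_lit 228) (nat_lit 0) (XT.lf (nat_lit 0) (nat_lit 10751503355) (nat_lit 152) (nat_lit 6557758813) (nat_lit 228) (nat_lit 1867614559) (nat_lit 73) (nat_lit 5) (nat_lit 75) (nat_lit 5) (nat_lit 76) (nat_lit 5) (nat_lit 426) (nat_lit 339) (nat_lit 255)) (XT.lf (nat_lit 0) (nat_lit 2814081613) (nat_lit 152) (nat_lit 392131090) (nat_lit 228) (nat_lit 16352940625) (nat_lit 70) (nat_lit 5) (nat_lit 72) (nat_lit 5) (nat_lit 73) (nat_lit 5) (nat_lit 427) (nat_lit 339) (nat_lit 254))))) (XT.nd (nat_lit 234) (nat_lit 532) (nat_lit 0) (XT.nd (nat_lit 78) (nat_lit 152) (nat_lit 0) (XT.lf (nat_lit 0) (nat_lit 8510733372) (nat_lit 228) (nat_lit 5511897070) (nat_lit 76) (nat_lit 5926235325) (nat_lit 70) (nat_lit 5) (nat_lit 73) (nat_lit 5) (nat_lit 71) (nat_lit 5) (nat_lit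 428) (nat_lit 339) (nat_lit 253)) (XT.nd (nat_lit 78) (nat_lit 0) (nat_lit 0) (XT.lf (nat_lit 0) (nat_lit 6126985458) (nat_lit 152) (nat_lit 7883792002) (nat_lit 228) (nat_lit 6338403157) (nat_lit 68) (nat_lit 5) (nat_lit 70) (nat_lit 5) (nat_lit 71) (nat_lit 5) (nat_lit 429) (nat_lit 339) (nat_lit 252)) (XT.lf (nat_lit 0) (nat_lit 18181518962) (nat_lit 152) (nat_lit 1523893890) (nat_lit 228) (nat_lit 1055206956) (nat_lit 68) (nat_lit 5) (nat_lit 70) (nat_lit 5) (nat_lit 71) (nat_lit 5) (nat_lit 430) (nat_lit 339) (nat_lit 251)))) (XT.nd (nat_lit 156) (nat_lit 152) (nat_lit 0) (XT.nd (nat_lit 78) (nat_lit 152) (nat_lit 0) (XT.lf (nat_lit 0) (nat_lit 4416202137) (nat_lit 228) (nat_lit 11719559000) (nat_lit 76) (nat_lit 5043919121) (nat_lit 65) (nat_lit 5) (nat_lit 68) (nat_lit 5) (nat_lit 66) (nat_lit 5) (nat_lit 431) (nat_lit 339) (nat_lit 250)) (XT.lf (nat_lit 0) (nat_lit 235886183) (nat_lit 152) (nat_lit 9812870908)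 (nat_lit 228) (nat_lit 11561698009) (nat_lit 63) (nat_lit 5) (nat_lit 65) (nat_lit 5) (nat_lit 66) (nat_lit 5) (nat_lit 432) (nat_lit 339) (nat_lit 249))) (XT.nd (nat_lit 78) (nat_lit 152) (nat_lit 0) (XT.lf (nat_lit 0) (nat_lit 12744901873) (nat_lit 152) (nat_lit 3198591684) (nat_lit 228) (nat_lit 6107865789) (nat_lit 63) (nat_lit 5) (nat_lit 65) (nat_lit 5) (nat_lit 66) (nat_lit 5) (nat_lit 433) (nat_lit 339) (nat_lit 248)) (XT.lf (nat_lit 0) (nat_lit 3104987742) (nat_lit 152) (nat_lit 18950076583) (nat_lit 228) (nat_lit 449228867) (nat_lit 61) (nat_lit 5) (nat_lit 63) (nat_lit 5) (nat_lit 64) (nat_lit 4) (nat_lit 434) (nat_lit 339) (nat_lit 247)))))) (XT.nd (nat_lit 546) (nat_lit 684) (nat_lit 0) (XT.nd (nat_lit 234) (nat_lit 304) (nat_lit 0) (XT.nd (nat_lit 78) (nat_lit 152) (nat_lit 0) (XT.lf (nat_lit 0) (nat_lit 5376230475) (nat_lit 228) (nat_lit 7017365469) (nat_lit 76) (nat_lit 10572609075) (nat_lit 60)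 (nat_lit 5) (nat_lit 63) (nat_lit 5) (nat_lit 61) (nat_lit 5) (nat_lit 435) (nat_lit 339) (nat_lit 246)) (XT.nd (nat_lit 78) (nat_lit 0) (nat_lit 0) (XT.lf (nat_lit 0) (nat_lit 5801480289) (nat_lit 152) (nat_lit 5597880154) (nat_lit 228) (nat_lit 12041524295) (nat_lit 58) (nat_lit 5) (nat_lit 60) (nat_lit 5) (nat_lit 61) (nat_lit 5) (nat_lit 436) (nat_lit 339) (nat_lit 245)) (XT.lf (nat_lit 0) (nat_lit 17664486098) (nat_lit 228) (nat_lit 4836524476) (nat_lit 76) (nat_lit 1426957208) (nat_lit 58) (nat_lit 5) (nat_lit 61) (nat_lit 5) (nat_lit 59) (nat_lit 4) (nat_lit 437) (nat_lit 339) (nat_lit 244)))) (XT.nd (nat_lit 156) (nat_lit 152) (nat_lit 0) (XT.nd (nat_lit 78) (nat_lit 76) (nat_lit 0) (XT.lf (nat_lit 0) (nat_lit 8417119698) (nat_lit 76) (nat_lit 15813736699) (nat_lit 152) (nat_lit 195410124) (nat_lit 57) (nat_lit 5) (nat_lit 58) (nat_lit 5) (nat_lit 59) (nat_lit 4) (nat_lit 438) (nat_lit 339) (nat_lit 243))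 (XT.lf (nat_lit 0) (nat_lit 5962876000) (nat_lit 152) (nat_lit 2871409267) (nat_lit 76) (nat_lit 16102695084) (nat_lit 56) (nat_lit 5) (nat_lit 58) (nat_lit 5) (nat_lit 57) (nat_lit 5) (nat_lit 439) (nat_lit 339) (nat_lit 242))) (XT.nd (nat_lit 78) (nat_lit 0) (nat_lit 0) (XT.lf (nat_lit 0) (nat_lit 10828872509) (nat_lit 152) (nat_lit 1554872863) (nat_lit 228) (nat_lit 13076761081) (nat_lit 54) (nat_lit 5) (nat_lit 56) (nat_lit 5) (nat_lit 57) (nat_lit 5) (nat_lit 440) (nat_lit 339) (nat_lit 241)) (XT.lf (nat_lit 0) (nat_lit 19061401764) (nat_lit 228) (nat_lit 1098306699) (nat_lit 76) (nat_lit 5838106763) (nat_lit 54) (nat_lit 5) (nat_lit 57) (nat_lit 5) (nat_lit 55) (nat_lit 4) (nat_lit 441) (nat_lit 339) (nat_lit 240))))) (XT.nd (nat_lit 312) (nat_lit 304) (nat_lit 0) (XT.nd (nat_lit 156) (nat_lit 76) (nat_lit 0) (XT.nd (nat_lit 78) (nat_lit 228) (nat_lit 0) (XT.lf (nat_lit 0) (nat_lit 13040235155) (nat_lit 76)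 (nat_lit 13018297460) (nat_lit 152) (nat_lit 489137967) (nat_lit 53) (nat_lit 5) (nat_lit 54) (nat_lit 5) (nat_lit 55) (nat_lit 4) (nat_lit 442) (nat_lit 339) (nat_lit 239)) (XT.lf (nat_lit 0) (nat_lit 420835887) (nat_lit 152) (nat_lit 5604362887) (nat_lit 228) (nat_lit 21087239960) (nat_lit 50) (nat_lit 5) (nat_lit 52) (nat_lit 5) (nat_lit 53) (nat_lit 5) (nat_lit 443) (nat_lit 339) (nat_lit 238))) (XT.nd (nat_lit 78) (nat_lit 76) (nat_lit 0) (XT.lf (nat_lit 0) (nat_lit 12860925913) (nat_lit 228) (nat_lit 12711907088) (nat_lit 76) (nat_lit 2117099420) (nat_lit 50) (nat_lit 5) (nat_lit 53) (nat_lit 5) (nat_lit 51) (nat_lit 4) (nat_lit 444) (nat_lit 339) (nat_lit 237)) (XT.lf (nat_lit 0) (nat_lit 1624589004) (nat_lit 76) (nat_lit 18327376737) (nat_lit 152) (nat_lit 8331279431) (nat_lit 49) (nat_lit 5) (nat_lit 50) (nat_lit 5) (nat_lit 51) (nat_lit 4) (nat_lit 445) (nat_lit 339) (nat_lit 236)))) (XT.nd (nat_lit 156)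 (nat_lit 76) (nat_lit 0) (XT.nd (nat_lit 78) (nat_lit 228) (nat_lit 0) (XT.lf (nat_lit 0) (nat_lit 16613338656) (nat_lit 76) (nat_lit 10750137391) (nat_lit 152) (nat_lit 1527650514) (nat_lit 49) (nat_lit 5) (nat_lit 50) (nat_lit 5) (nat_lit 51) (nat_lit 4) (nat_lit 446) (nat_lit 339) (nat_lit 235)) (XT.lf (nat_lit 0) (nat_lit 2492763538) (nat_lit 152) (nat_lit 2884124526) (nat_lit 228) (nat_lit 24138665233) (nat_lit 46) (nat_lit 5) (nat_lit 48) (nat_lit 5) (nat_lit 49) (nat_lit 5) (nat_lit 447) (nat_lit 339) (nat_lit 234))) (XT.nd (nat_lit 78) (nat_lit 76) (nat_lit 0) (XT.lf (nat_lit 0) (nat_lit 12613063525) (nat_lit 228) (nat_lit 12301161857) (nat_lit 76) (nat_lit 5239378861) (nat_lit 46) (nat_lit 5) (nat_lit 49) (nat_lit 5) (nat_lit 47) (nat_lit 4) (nat_lit 448) (nat_lit 339) (nat_lit 233)) (XT.lf (nat_lit 0) (nat_lit 2852550427) (nat_lit 76) (nat_lit 17250175712) (nat_lit 152) (nat_lit 10706979797) (nat_lit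 45) (nat_lit 5) (nat_lit 46) (nat_lit 5) (nat_lit 47) (nat_lit 4) (nat_lit 449) (nat_lit 339) (nat_lit 232))))))) (XT.nd (nat_lit 1092) (nat_lit 684) (nat_lit 0) (XT.nd (nat_lit 546) (nat_lit 304) (nat_lit 0) (XT.nd (nat_lit 234) (nat_lit 304) (nat_lit 0) (XT.nd (nat_lit 78) (nat_lit 228) (nat_lit 0) (XT.lf (nat_lit 0) (nat_lit 18676723071) (nat_lit 76) (nat_lit 9245219983) (nat_lit 152) (nat_lit 3560402932) (nat_lit 45) (nat_lit 5) (nat_lit 46) (nat_lit 5) (nat_lit 47) (nat_lit 4) (nat_lit 450) (nat_lit 339) (nat_lit 231)) (XT.nd (nat_lit 78) (nat_lit 0) (nat_lit 0) (XT.lf (nat_lit 0) (nat_lit 2782586569) (nat_lit 152) (nat_lit 951593035) (nat_lit 228) (nat_lit 28439657663) (nat_lit 42) (nat_lit 5) (nat_lit 44) (nat_lit 5) (nat_lit 45) (nat_lit 5) (nat_lit 451) (nat_lit 339) (nat_lit 230)) (XT.lf (nat_lit 0) (nat_lit 11360676871) (nat_lit 228) (nat_lit 13926438352) (nat_lit 76) (nat_lit 7592362516) (nat_lit 42)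 (nat_lit 5) (nat_lit 45) (nat_lit 5) (nat_lit 43) (nat_lit 4) (nat_lit 452) (nat_lit 339) (nat_lit 229)))) (XT.nd (nat_lit 156) (nat_lit 228) (nat_lit 0) (XT.nd (nat_lit 78) (nat_lit 0) (nat_lit 0) (XT.lf (nat_lit 0) (nat_lit 1997219283) (nat_lit 76) (nat_lit 17228999111) (nat_lit 152) (nat_lit 14379762652) (nat_lit 41) (nat_lit 5) (nat_lit 42) (nat_lit 5) (nat_lit 43) (nat_lit 4) (nat_lit 453) (nat_lit 339) (nat_lit 228)) (XT.lf (nat_lit 0) (nat_lit 18649754380) (nat_lit 76) (nat_lit 8800435896) (nat_lit 152) (nat_lit 6900416323) (nat_lit 41) (nat_lit 5) (nat_lit 42) (nat_lit 5) (nat_lit 43) (nat_lit 4) (nat_lit 454) (nat_lit 339) (nat_lit 227))) (XT.nd (nat_lit 78) (nat_lit 0) (nat_lit 0) (XT.lf (nat_lit 0) (nat_lit 655701023) (nat_lit 152) (nat_lit 120424743) (nat_lit 228) (nat_lit 34341559774) (nat_lit 38) (nat_lit 5) (nat_lit 40) (nat_lit 5) (nat_lit 41) (nat_lit 5) (nat_lit 455) (nat_lit 339) (nat_lit 226))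 (XT.lf (nat_lit 0) (nat_lit 8771408355) (nat_lit 228) (nat_lit 18266606274) (nat_lit 76) (nat_lit 8860899500) (nat_lit 38) (nat_lit 5) (nat_lit 41) (nat_lit 5) (nat_lit 39) (nat_lit 4) (nat_lit 456) (nat_lit 339) (nat_lit 225))))) (XT.nd (nat_lit 234) (nat_lit 228) (nat_lit 0) (XT.nd (nat_lit 78) (nat_lit 76) (nat_lit 0) (XT.lf (nat_lit 0) (nat_lit 16990494230) (nat_lit 228) (nat_lit 1619291971) (nat_lit 76) (nat_lit 18094275976) (nat_lit 38) (nat_lit 5) (nat_lit 41) (nat_lit 5) (nat_lit 39) (nat_lit 4) (nat_lit 457) (nat_lit 339) (nat_lit 224)) (XT.nd (nat_lit 78) (nat_lit 0) (nat_lit 0) (XT.lf (nat_lit 0) (nat_lit 15804056242) (nat_lit 76) (nat_lit 9787269536) (nat_lit 152) (nat_lit 11937984619) (nat_lit 37) (nat_lit 5) (nat_lit 38) (nat_lit 5) (nat_lit 39) (nat_lit 4) (nat_lit 458) (nat_lit 339) (nat_lit 223)) (XT.lf (nat_lit 0) (nat_lit 33751830788) (nat_lit 76) (nat_lit 698143233) (nat_lit 152) (nat_lit 3929349186)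 (nat_lit 37) (nat_lit 5) (nat_lit 38) (nat_lit 5) (nat_lit 39) (nat_lit 4) (nat_lit 459) (nat_lit 339) (nat_lit 222)))) (XT.nd (nat_lit 156) (nat_lit 76) (nat_lit 0) (XT.nd (nat_lit 78) (nat_lit 0) (nat_lit 0) (XT.lf (nat_lit 0) (nat_lit 4430398309) (nat_lit 152) (nat_lit 26167330511) (nat_lit 76) (nat_lit 8650008474) (nat_lit 35) (nat_lit 5) (nat_lit 37) (nat_lit 5) (nat_lit 36) (nat_lit 4) (nat_lit 460) (nat_lit 339) (nat_lit 221)) (XT.lf (nat_lit 0) (nat_lit 12999867672) (nat_lit 152) (nat_lit 8803595171) (nat_lit 76) (nat_lit 18336437482) (nat_lit 35) (nat_lit 5) (nat_lit 37) (nat_lit 5) (nat_lit 36) (nat_lit 4) (nat_lit 461) (nat_lit 339) (nat_lit 220))) (XT.nd (nat_lit 78) (nat_lit 0) (nat_lit 0) (XT.lf (nat_lit 0) (nat_lit 9231170240) (nat_lit 76) (nat_lit 12668260224) (nat_lit 152) (nat_lit 19157208298) (nat_lit 34) (nat_lit 5) (nat_lit 35) (nat_lit 5) (nat_lit 36) (nat_lit 4) (nat_lit 462) (nat_lit 339)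 (nat_lit 219)) (XT.lf (nat_lit 0) (nat_lit 27957722584) (nat_lit 76) (nat_lit 3181602648) (nat_lit 152) (nat_lit 10859354539) (nat_lit 34) (nat_lit 5) (nat_lit 35) (nat_lit 5) (nat_lit 36) (nat_lit 4) (nat_lit 463) (nat_lit 339) (nat_lit 218)))))) (XT.nd (nat_lit 546) (nat_lit 304) (nat_lit 0) (XT.nd (nat_lit 234) (nat_lit 228) (nat_lit 0) (XT.nd (nat_lit 78) (nat_lit 76) (nat_lit 0) (XT.lf (nat_lit 0) (nat_lit 4267849818) (nat_lit 76) (nat_lit 36477702854) (nat_lit 76) (nat_lit 2220756014) (nat_lit 33) (nat_lit 4) (nat_lit 34) (nat_lit 5) (nat_lit 34) (nat_lit 4) (nat_lit 464) (nat_lit 339) (nat_lit 217)) (XT.nd (nat_lit 78) (nat_lit 0) (nat_lit 0) (XT.lf (nat_lit 0) (nat_lit 6706182041) (nat_lit 152) (nat_lit 20671248749) (nat_lit 76) (nat_lit 16578826664) (nat_lit 32) (nat_lit 5) (nat_lit 34) (nat_lit 5) (nat_lit 33) (nat_lit 4) (nat_lit 465) (nat_lit 339) (nat_lit 216)) (XT.lf (nat_lit 0) (nat_lit 15841519383)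 (nat_lit 152) (nat_lit 2153554190) (nat_lit 76) (nat_lit 26980615384) (nat_lit 32) (nat_lit 5) (nat_lit 34) (nat_lit 5) (nat_lit 33) (nat_lit 4) (nat_lit 466) (nat_lit 339) (nat_lit 215)))) (XT.nd (nat_lit 156) (nat_lit 152) (nat_lit 0) (XT.nd (nat_lit 78) (nat_lit 0) (nat_lit 0) (XT.lf (nat_lit 0) (nat_lit 17228339543) (nat_lit 76) (nat_lit 8173843091) (nat_lit 152) (nat_lit 20618983463) (nat_lit 31) (nat_lit 5) (nat_lit 32) (nat_lit 5) (nat_lit 33) (nat_lit 4) (nat_lit 467) (nat_lit 339) (nat_lit 214)) (XT.lf (nat_lit 0) (nat_lit 35275982435) (nat_lit 152) (nat_lit 9907952111) (nat_lit 0) (nat_lit 1913284153) (nat_lit 31) (nat_lit 5) (nat_lit 33) (nat_lit 4) (nat_lit 31) (nat_lit 4) (nat_lit 468) (nat_lit 339) (nat_lit 213))) (XT.nd (nat_lit 78) (nat_lit 76) (nat_lit 0) (XT.lf (nat_lit 0) (nat_lit 9623583052) (nat_lit 76) (nat_lit 35981953714) (nat_lit 76) (nat_lit 2595230523) (nat_lit 30) (nat_lit 4) (nat_lit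 31) (nat_lit 5) (nat_lit 31) (nat_lit 4) (nat_lit 469) (nat_lit 339) (nat_lit 212)) (XT.lf (nat_lit 0) (nat_lit 6859922685) (nat_lit 152) (nat_lit 19484405292) (nat_lit 76) (nat_lit 22988488205) (nat_lit 29) (nat_lit 5) (nat_lit 31) (nat_lit 5) (nat_lit 30) (nat_lit 4) (nat_lit 470) (nat_lit 339) (nat_lit 211))))) (XT.nd (nat_lit 312) (nat_lit 152) (nat_lit 0) (XT.nd (nat_lit 156) (nat_lit 76) (nat_lit 0) (XT.nd (nat_lit 78) (nat_lit 0) (nat_lit 0) (XT.lf (nat_lit 0) (nat_lit 132056226) (nat_lit 76) (nat_lit 16402303552) (nat_lit 152) (nat_lit 33964062753) (nat_lit 28) (nat_lit 5) (nat_lit 29) (nat_lit 5) (nat_lit 30) (nat_lit 4) (nat_lit 471) (nat_lit 339) (nat_lit 210)) (XT.lf (nat_lit 0) (nat_lit 20710695192) (nat_lit 76) (nat_lit 5971755798) (nat_lit 152) (nat_lit 25011044007) (nat_lit 28) (nat_lit 5) (nat_lit 29) (nat_lit 5) (nat_lit 30) (nat_lit 4) (nat_lit 472) (nat_lit 339) (nat_lit 209))) (XT.nd (nat_lit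 78) (nat_lit 76) (nat_lit 0) (XT.lf (nat_lit 0) (nat_lit 37167792912) (nat_lit 152) (nat_lit 11088846367) (nat_lit 0) (nat_lit 4666796660) (nat_lit 28) (nat_lit 5) (nat_lit 30) (nat_lit 4) (nat_lit 28) (nat_lit 4) (nat_lit 473) (nat_lit 339) (nat_lit 208)) (XT.lf (nat_lit 0) (nat_lit 9503735492) (nat_lit 76) (nat_lit 38601761412) (nat_lit 76) (nat_lit 6080644678) (nat_lit 27) (nat_lit 4) (nat_lit 28) (nat_lit 5) (nat_lit 28) (nat_lit 4) (nat_lit 474) (nat_lit 339) (nat_lit 207)))) (XT.nd (nat_lit 156) (nat_lit 76) (nat_lit 0) (XT.nd (nat_lit 78) (nat_lit 0) (nat_lit 0) (XT.lf (nat_lit 0) (nat_lit 3909216361) (nat_lit 152) (nat_lit 24604941969) (nat_lit 76) (nat_lit 26968437863) (nat_lit 26) (nat_lit 5) (nat_lit 28) (nat_lit 5) (nat_lit 27) (nat_lit 4) (nat_lit 475) (nat_lit 339) (nat_lit 206)) (XT.lf (nat_lit 0) (nat_lit 14064258364) (nat_lit 152) (nat_lit 4009172186) (nat_lit 76) (nat_lit 38743077238) (nat_lit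 26) (nat_lit 5) (nat_lit 28) (nat_lit 5) (nat_lit 27) (nat_lit 4) (nat_lit 476) (nat_lit 339) (nat_lit 205))) (XT.nd (nat_lit 78) (nat_lit 0) (nat_lit 0) (XT.lf (nat_lit 0) (nat_lit 17523292999) (nat_lit 76) (nat_lit 7157161561) (nat_lit 152) (nat_lit 33505287552) (nat_lit 25) (nat_lit 5) (nat_lit 26) (nat_lit 5) (nat_lit 27) (nat_lit 4) (nat_lit 477) (nat_lit 339) (nat_lit 204)) (XT.lf (nat_lit 0) (nat_lit 35683384681) (nat_lit 152) (nat_lit 19873748326) (nat_lit 0) (nat_lit 4036873470) (nat_lit 25) (nat_lit 5) (nat_lit 27) (nat_lit 4) (nat_lit 25) (nat_lit 4) (nat_lit 478) (nat_lit 339) (nat_lit 203))))))))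
noncomputable def xc100 : XT := (XT.nd (nat_lit 43524) (nat_lit 0) (nat_lit 12084) (XT.nd (nat_lit 42432) (nat_lit 0) (nat_lit 25764) (XT.nd (nat_lit 546) (nat_lit 152) (nat_lit 0) (XT.nd (nat_lit 234) (nat_lit 152) (nat_lit 0) (XT.nd (nat_lit 78) (nat_lit 76) (nat_lit 0) (XT.lf (nat_lit 0) (nat_lit 1474046543) (nat_lit 76) (nat_lit 45615815347) (nat_lit 76) (nat_lit 13952453549) (nat_lit 24) (nat_lit 4) (nat_lit 25) (nat_lit 5) (nat_lit 25) (nat_lit 4) (nat_lit 479) (nat_lit 339) (nat_lit 202)) (XT.nd (nat_lit 78) (nat_lit 76) (nat_lit 0) (XT.lf (nat_lit 0) (nat_lit 23847419977) (nat_lit 76) (nat_lit 35180349317) (nat_lit 76) (nat_lit 3500627725) (nat_lit 24) (nat_lit 4) (nat_lit 25) (nat_lit 5) (nat_lit 25) (nat_lit 4) (nat_lit 480) (nat_lit 339) (nat_lit 201)) (XT.lf (nat_lit 0) (nat_lit 7111764390) (nat_lit 152) (nat_lit 17258723174) (nat_lit 76) (nat_lit 39686815699) (nat_lit 23) (nat_lit 5) (nat_lit 25) (nat_lit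 5) (nat_lit 24) (nat_lit 4) (nat_lit 481) (nat_lit 339) (nat_lit 200)))) (XT.nd (nat_lit 156) (nat_lit 76) (nat_lit 0) (XT.nd (nat_lit 78) (nat_lit 0) (nat_lit 0) (XT.lf (nat_lit 0) (nat_lit 4844892069) (nat_lit 76) (nat_lit 13162949127) (nat_lit 152) (nat_lit 47622125935) (nat_lit 22) (nat_lit 5) (nat_lit 23) (nat_lit 5) (nat_lit 24) (nat_lit 4) (nat_lit 482) (nat_lit 339) (nat_lit 199)) (XT.lf (nat_lit 0) (nat_lit 27944422544) (nat_lit 76) (nat_lit 1449872842) (nat_lit 152) (nat_lit 37850611058) (nat_lit 22) (nat_lit 5) (nat_lit 23) (nat_lit 5) (nat_lit 24) (nat_lit 4) (nat_lit 483) (nat_lit 339) (nat_lit 198))) (XT.nd (nat_lit 78) (nat_lit 76) (nat_lit 0) (XT.lf (nat_lit 0) (nat_lit 41213811950) (nat_lit 152) (nat_lit 17293977367) (nat_lit 0) (nat_lit 10397760925) (nat_lit 22) (nat_lit 5) (nat_lit 24) (nat_lit 4) (nat_lit 22) (nat_lit 4) (nat_lit 484) (nat_lit 339) (nat_lit 197)) (XT.lf (nat_lit 0) (nat_lit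 5444624710) (nat_lit 76) (nat_lit 47999724027) (nat_lit 76) (nat_lit 17169971933) (nat_lit 21) (nat_lit 4) (nat_lit 22) (nat_lit 5) (nat_lit 22) (nat_lit 4) (nat_lit 485) (nat_lit 339) (nat_lit 196))))) (XT.nd (nat_lit 234) (nat_lit 0) (nat_lit 0) (XT.nd (nat_lit 78) (nat_lit 152) (nat_lit 0) (XT.lf (nat_lit 0) (nat_lit 29200101684) (nat_lit 76) (nat_lit 37006186195) (nat_lit 76) (nat_lit 6163132092) (nat_lit 21) (nat_lit 4) (nat_lit 22) (nat_lit 5) (nat_lit 22) (nat_lit 4) (nat_lit 486) (nat_lit 339) (nat_lit 195)) (XT.nd (nat_lit 78) (nat_lit 76) (nat_lit 0) (XT.lf (nat_lit 0) (nat_lit 5062999969) (nat_lit 152) (nat_lit 20578078736) (nat_lit 76) (nat_lit 48534900367) (nat_lit 20) (nat_lit 5) (nat_lit 22) (nat_lit 5) (nat_lit 21) (nat_lit 4) (nat_lit 487) (nat_lit 339) (nat_lit 194)) (XT.lf (nat_lit 0) (nat_lit 2662992299) (nat_lit 76) (nat_lit 13854987697) (nat_lit 152) (nat_lit 59516446530) (nat_lit 19) (nat_lit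 5) (nat_lit 20) (nat_lit 5) (nat_lit 21) (nat_lit 4) (nat_lit 488) (nat_lit 339) (nat_lit 193)))) (XT.nd (nat_lit 41496) (nat_lit 0) (nat_lit 28956) (XT.nd (nat_lit 78) (nat_lit 0) (nat_lit 0) (XT.lf (nat_lit 0) (nat_lit 27004461540) (nat_lit 76) (nat_lit 1510386665) (nat_lit 152) (nat_lit 49427832345) (nat_lit 19) (nat_lit 5) (nat_lit 20) (nat_lit 5) (nat_lit 21) (nat_lit 4) (nat_lit 489) (nat_lit 339) (nat_lit 192)) (XT.lf (nat_lit 0) (nat_lit 40969961465) (nat_lit 152) (nat_lit 27958026849) (nat_lit 0) (nat_lit 10977244009) (nat_lit 19) (nat_lit 5) (nat_lit 21) (nat_lit 4) (nat_lit 19) (nat_lit 4) (nat_lit 490) (nat_lit 339) (nat_lit 191))) (XT.nd (nat_lit 78) (nat_lit 76) (nat_lit 0) (XT.lf (nat_lit 0) (nat_lit 1073741823) (nat_lit 0) (nat_lit 0) (nat_lit 0) (nat_lit 0) (nat_lit 401) (nat_lit 0) (nat_lit 1) (nat_lit 0) (nat_lit 1) (nat_lit 0) (nat_lit 340) (nat_lit 340) (nat_lit 340)) (XT.lf (nat_lit 0) (nat_lit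 3123265599) (nat_lit 76) (nat_lit 3258596474) (nat_lit 0) (nat_lit 61537699) (nat_lit 400) (nat_lit 5) (nat_lit 401) (nat_lit 0) (nat_lit 400) (nat_lit 4) (nat_lit 341) (nat_lit 340) (nat_lit 339)))))) (XT.nd (nat_lit 546) (nat_lit 2204) (nat_lit 0) (XT.nd (nat_lit 234) (nat_lit 684) (nat_lit 0) (XT.nd (nat_lit 78) (nat_lit 304) (nat_lit 0) (XT.lf (nat_lit 0) (nat_lit 6218946128) (nat_lit 76) (nat_lit 44480224) (nat_lit 0) (nat_lit 184666868) (nat_lit 400) (nat_lit 5) (nat_lit 401) (nat_lit 0) (nat_lit 400) (nat_lit 4) (nat_lit 342) (nat_lit 340) (nat_lit 338)) (XT.nd (nat_lit 78) (nat_lit 152) (nat_lit 0) (XT.lf (nat_lit 0) (nat_lit 2809634968) (nat_lit 152) (nat_lit 3216692466) (nat_lit 76) (nat_lit 428439619) (nat_lit 398) (nat_lit 5) (nat_lit 400) (nat_lit 5) (nat_lit 399) (nat_lit 4) (nat_lit 343) (nat_lit 340) (nat_lit 337)) (XT.lf (nat_lit 0) (nat_lit 92813612) (nat_lit 152) (nat_lit 5727373488) (nat_lit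 228) (nat_lit 644900641) (nat_lit 396) (nat_lit 5) (nat_lit 398) (nat_lit 5) (nat_lit 399) (nat_lit 4) (nat_lit 344) (nat_lit 340) (nat_lit 336)))) (XT.nd (nat_lit 156) (nat_lit 380) (nat_lit 0) (XT.nd (nat_lit 78) (nat_lit 228) (nat_lit 0) (XT.lf (nat_lit 0) (nat_lit 2315863346) (nat_lit 228) (nat_lit 2997850463) (nat_lit 76) (nat_lit 1163818765) (nat_lit 395) (nat_lit 5) (nat_lit 398) (nat_lit 5) (nat_lit 396) (nat_lit 5) (nat_lit 345) (nat_lit 340) (nat_lit 335)) (XT.lf (nat_lit 0) (nat_lit 414634978) (nat_lit 228) (nat_lit 4830614918) (nat_lit 304) (nat_lit 1248191497) (nat_lit 392) (nat_lit 5) (nat_lit 395) (nat_lit 5) (nat_lit 396) (nat_lit 5) (nat_lit 346) (nat_lit 340) (nat_lit 334))) (XT.nd (nat_lit 78) (nat_lit 304) (nat_lit 0) (XT.lf (nat_lit 0) (nat_lit 1639322015) (nat_lit 304) (nat_lit 2601605077) (nat_lit 76) (nat_lit 2270831270) (nat_lit 391) (nat_lit 5) (nat_lit 395) (nat_lit 5) (nat_lit 392) (nat_lit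 5) (nat_lit 347) (nat_lit 340) (nat_lit 333)) (XT.lf (nat_lit 0) (nat_lit 920975923) (nat_lit 304) (nat_lit 3569707489) (nat_lit 380) (nat_lit 2042560904) (nat_lit 387) (nat_lit 5) (nat_lit 391) (nat_lit 5) (nat_lit 392) (nat_lit 5) (nat_lit 348) (nat_lit 340) (nat_lit 332))))) (XT.nd (nat_lit 234) (nat_lit 1748) (nat_lit 0) (XT.nd (nat_lit 78) (nat_lit 380) (nat_lit 0) (XT.lf (nat_lit 0) (nat_lit 776580845) (nat_lit 380) (nat_lit 2026731728) (nat_lit 76) (nat_lit 3754225154) (nat_lit 386) (nat_lit 5) (nat_lit 391) (nat_lit 5) (nat_lit 387) (nat_lit 5) (nat_lit 349) (nat_lit 340) (nat_lit 331)) (XT.nd (nat_lit 78) (nat_lit 0) (nat_lit 0) (XT.lf (nat_lit 0) (nat_lit 1613491542) (nat_lit 380) (nat_lit 1939182885) (nat_lit 456) (nat_lit 3031930354) (nat_lit 381) (nat_lit 5) (nat_lit 386) (nat_lit 5) (nat_lit 387) (nat_lit 5) (nat_lit 350) (nat_lit 340) (nat_lit 330)) (XT.lf (nat_lit 0) (nat_lit 5340955208) (nat_lit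 380) (nat_lit 991845437) (nat_lit 456) (nat_lit 282113589) (nat_lit 381) (nat_lit 5) (nat_lit 386) (nat_lit 5) (nat_lit 387) (nat_lit 5) (nat_lit 351) (nat_lit 340) (nat_lit 329)))) (XT.nd (nat_lit 156) (nat_lit 1216) (nat_lit 0) (XT.nd (nat_lit 78) (nat_lit 0) (nat_lit 0) (XT.lf (nat_lit 0) (nat_lit 2427247072) (nat_lit 532) (nat_lit 4153700928) (nat_lit 76) (nat_lit 66695009) (nat_lit 374) (nat_lit 5) (nat_lit 381) (nat_lit 5) (nat_lit 375) (nat_lit 5) (nat_lit 352) (nat_lit 340) (nat_lit 328)) (XT.lf (nat_lit 0) (nat_lit 5139765789) (nat_lit 532) (nat_lit 358976953) (nat_lit 76) (nat_lit 1184749085) (nat_lit 374) (nat_lit 5) (nat_lit 381) (nat_lit 5) (nat_lit 375) (nat_lit 5) (nat_lit 353) (nat_lit 340) (nat_lit 327))) (XT.nd (nat_lit 78) (nat_lit 608) (nat_lit 0) (XT.lf (nat_lit 0) (nat_lit 1130624888) (nat_lit 608) (nat_lit 3178678665) (nat_lit 76) (nat_lit 2412576630) (nat_lit 366) (nat_lit 5) (nat_lit 374)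 (nat_lit 5) (nat_lit 367) (nat_lit 5) (nat_lit 354) (nat_lit 340) (nat_lit 326)) (XT.lf (nat_lit 0) (nat_lit 742087960) (nat_lit 608) (nat_lit 3031536972) (nat_lit 684) (nat_lit 2989797637) (nat_lit 358) (nat_lit 5) (nat_lit 366) (nat_lit 5) (nat_lit 367) (nat_lit 5) (nat_lit 355) (nat_lit 340) (nat_lit 325))))))) (XT.nd (nat_lit 1092) (nat_lit 5700) (nat_lit 0) (XT.nd (nat_lit 546) (nat_lit 4560) (nat_lit 0) (XT.nd (nat_lit 234) (nat_lit 2660) (nat_lit 0) (XT.nd (nat_lit 78) (nat_lit 760) (nat_lit 0) (XT.lf (nat_lit 0) (nat_lit 4780715058) (nat_lit 608) (nat_lit 1657986597) (nat_lit 684) (nat_lit 369268972) (nat_lit 358) (nat_lit 5) (nat_lit 366) (nat_lit 5) (nat_lit 367) (nat_lit 5) (nat_lit 356) (nat_lit 340) (nat_lit 324)) (XT.nd (nat_lit 78) (nat_lit 0) (nat_lit 0) (XT.lf (nat_lit 0) (nat_lit 2039226788) (nat_lit 684) (nat_lit 177176910) (nat_lit 760) (nat_lit 4638860302) (nat_lit 348) (nat_lit 5) (nat_lit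 357) (nat_lit 5) (nat_lit 358) (nat_lit 5) (nat_lit 357) (nat_lit 340) (nat_lit 323)) (XT.lf (nat_lit 0) (nat_lit 4820388495) (nat_lit 760) (nat_lit 717915133) (nat_lit 76) (nat_lit 1367157297) (nat_lit 348) (nat_lit 5) (nat_lit 358) (nat_lit 5) (nat_lit 349) (nat_lit 5) (nat_lit 358) (nat_lit 340) (nat_lit 322)))) (XT.nd (nat_lit 156) (nat_lit 988) (nat_lit 0) (XT.nd (nat_lit 78) (nat_lit 836) (nat_lit 0) (XT.lf (nat_lit 0) (nat_lit 486644501) (nat_lit 836) (nat_lit 3458657483) (nat_lit 76) (nat_lit 3013182901) (nat_lit 337) (nat_lit 5) (nat_lit 348) (nat_lit 5) (nat_lit 338) (nat_lit 5) (nat_lit 359) (nat_lit 340) (nat_lit 321)) (XT.lf (nat_lit 0) (nat_lit 774253447) (nat_lit 836) (nat_lit 2252094031) (nat_lit 912) (nat_lit 3988186498) (nat_lit 326) (nat_lit 5) (nat_lit 337) (nat_lit 5) (nat_lit 338) (nat_lit 5) (nat_lit 360) (nat_lit 340) (nat_lit 320))) (XT.nd (nat_lit 78) (nat_lit 988) (nat_lit 0) (XT.lf (nat_lit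 0) (nat_lit 5139622934) (nat_lit 836) (nat_lit 457282828) (nat_lit 912) (nat_lit 1476753812) (nat_lit 326) (nat_lit 5) (nat_lit 337) (nat_lit 5) (nat_lit 338) (nat_lit 5) (nat_lit 361) (nat_lit 340) (nat_lit 319)) (XT.lf (nat_lit 0) (nat_lit 1047259826) (nat_lit 988) (nat_lit 4675890254) (nat_lit 76) (nat_lit 1412354756) (nat_lit 313) (nat_lit 5) (nat_lit 326) (nat_lit 5) (nat_lit 314) (nat_lit 5) (nat_lit 362) (nat_lit 340) (nat_lit 318))))) (XT.nd (nat_lit 234) (nat_lit 2432) (nat_lit 0) (XT.nd (nat_lit 78) (nat_lit 2128) (nat_lit 0) (XT.lf (nat_lit 0) (nat_lit 3564629005) (nat_lit 988) (nat_lit 260188656) (nat_lit 76) (nat_lit 3375561659) (nat_lit 313) (nat_lit 5) (nat_lit 326) (nat_lit 5) (nat_lit 314) (nat_lit 5) (nat_lit 363) (nat_lit 340) (nat_lit 317)) (XT.nd (nat_lit 78) (nat_lit 1140) (nat_lit 0) (XT.lf (nat_lit 0) (nat_lit 4307031579) (nat_lit 988) (nat_lit 1817195836) (nat_lit 1064) (nat_lit 1144002442)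 (nat_lit 300) (nat_lit 5) (nat_lit 313) (nat_lit 5) (nat_lit 314) (nat_lit 5) (nat_lit 364) (nat_lit 340) (nat_lit 316)) (XT.lf (nat_lit 0) (nat_lit 1341982736) (nat_lit 1140) (nat_lit 5711377684) (nat_lit 76) (nat_lit 285957266) (nat_lit 285) (nat_lit 5) (nat_lit 300) (nat_lit 5) (nat_lit 286) (nat_lit 5) (nat_lit 365) (nat_lit 340) (nat_lit 315)))) (XT.nd (nat_lit 156) (nat_lit 1292) (nat_lit 0) (XT.nd (nat_lit 78) (nat_lit 1140) (nat_lit 0) (XT.lf (nat_lit 0) (nat_lit 3855448051) (nat_lit 1140) (nat_lit 1093284988) (nat_lit 76) (nat_lit 2464216919) (nat_lit 285) (nat_lit 5) (nat_lit 300) (nat_lit 5) (nat_lit 286) (nat_lit 5) (nat_lit 366) (nat_lit 340) (nat_lit 314)) (XT.lf (nat_lit 0) (nat_lit 3669436801) (nat_lit 1140) (nat_lit 2739962618) (nat_lit 1216) (nat_lit 1080466917) (nat_lit 270) (nat_lit 5) (nat_lit 285) (nat_lit 5) (nat_lit 286) (nat_lit 5) (nat_lit 367) (nat_lit 340) (nat_lit 313))) (XT.nd (nat_lit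 78) (nat_lit 0) (nat_lit 0) (XT.lf (nat_lit 0) (nat_lit 967030425) (nat_lit 1216) (nat_lit 426114406) (nat_lit 1292) (nat_lit 6177018184) (nat_lit 253) (nat_lit 5) (nat_lit 269) (nat_lit 5) (nat_lit 270) (nat_lit 5) (nat_lit 368) (nat_lit 340) (nat_lit 312)) (XT.lf (nat_lit 0) (nat_lit 3908961824) (nat_lit 1292) (nat_lit 1772900499) (nat_lit 76) (nat_lit 1971019204) (nat_lit 253) (nat_lit 5) (nat_lit 270) (nat_lit 5) (nat_lit 254) (nat_lit 5) (nat_lit 369) (nat_lit 340) (nat_lit 311)))))) (XT.nd (nat_lit 546) (nat_lit 2584) (nat_lit 0) (XT.nd (nat_lit 234) (nat_lit 1748) (nat_lit 0) (XT.nd (nat_lit 78) (nat_lit 684) (nat_lit 0) (XT.lf (nat_lit 0) (nat_lit 3194604901) (nat_lit 684) (nat_lit 3274497306) (nat_lit 760) (nat_lit 1269938441) (nat_lit 244) (nat_lit 5) (nat_lit 253) (nat_lit 5) (nat_lit 254) (nat_lit 5) (nat_lit 370) (nat_lit 340) (nat_lit 310)) (XT.nd (nat_lit 78) (nat_lit 0) (nat_lit 0) (XT.lf (nat_lit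 0) (nat_lit 450115505) (nat_lit 608) (nat_lit 760165572) (nat_lit 684) (nat_lit 6618449090) (nat_lit 235) (nat_lit 5) (nat_lit 243) (nat_lit 5) (nat_lit 244) (nat_lit 5) (nat_lit 371) (nat_lit 340) (nat_lit 309)) (XT.lf (nat_lit 0) (nat_lit 3739127894) (nat_lit 684) (nat_lit 2330403757) (nat_lit 76) (nat_lit 1851231593) (nat_lit 235) (nat_lit 5) (nat_lit 244) (nat_lit 5) (nat_lit 236) (nat_lit 5) (nat_lit 372) (nat_lit 340) (nat_lit 308)))) (XT.nd (nat_lit 156) (nat_lit 532) (nat_lit 0) (XT.nd (nat_lit 78) (nat_lit 608) (nat_lit 0) (XT.lf (nat_lit 0) (nat_lit 2851630275) (nat_lit 608) (nat_lit 3464831125) (nat_lit 684) (nat_lit 1699939065) (nat_lit 227) (nat_lit 5) (nat_lit 235) (nat_lit 5) (nat_lit 236) (nat_lit 5) (nat_lit 373) (nat_lit 340) (nat_lit 307)) (XT.lf (nat_lit 0) (nat_lit 48837698) (nat_lit 532) (nat_lit 753144271) (nat_lit 608) (nat_lit 7313824011) (nat_lit 219) (nat_lit 5) (nat_lit 226) (nat_lit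 5) (nat_lit 227) (nat_lit 5) (nat_lit 374) (nat_lit 340) (nat_lit 306))) (XT.nd (nat_lit 78) (nat_lit 532) (nat_lit 0) (XT.lf (nat_lit 0) (nat_lit 3356437276) (nat_lit 608) (nat_lit 2796343986) (nat_lit 76) (nat_lit 2064578093) (nat_lit 219) (nat_lit 5) (nat_lit 227) (nat_lit 5) (nat_lit 220) (nat_lit 5) (nat_lit 375) (nat_lit 340) (nat_lit 305)) (XT.lf (nat_lit 0) (nat_lit 2610359944) (nat_lit 532) (nat_lit 3350846228) (nat_lit 608) (nat_lit 2361562120) (nat_lit 212) (nat_lit 5) (nat_lit 219) (nat_lit 5) (nat_lit 220) (nat_lit 5) (nat_lit 376) (nat_lit 340) (nat_lit 304))))) (XT.nd (nat_lit 312) (nat_lit 1520) (nat_lit 0) (XT.nd (nat_lit 156) (nat_lit 532) (nat_lit 0) (XT.nd (nat_lit 78) (nat_lit 456) (nat_lit 0) (XT.lf (nat_lit 0) (nat_lit 178774921) (nat_lit 608) (nat_lit 262287301) (nat_lit 76) (nat_lit 7991129709) (nat_lit 211) (nat_lit 5) (nat_lit 219) (nat_lit 5) (nat_lit 212) (nat_lit 5) (nat_lit 377) (nat_lit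 340) (nat_lit 303)) (XT.lf (nat_lit 0) (nat_lit 2768035050) (nat_lit 532) (nat_lit 3201024445) (nat_lit 76) (nat_lit 2574549705) (nat_lit 205) (nat_lit 5) (nat_lit 212) (nat_lit 5) (nat_lit 206) (nat_lit 5) (nat_lit 378) (nat_lit 340) (nat_lit 302))) (XT.nd (nat_lit 78) (nat_lit 0) (nat_lit 0) (XT.lf (nat_lit 0) (nat_lit 2440811025) (nat_lit 532) (nat_lit 2968961936) (nat_lit 608) (nat_lit 3249369227) (nat_lit 198) (nat_lit 5) (nat_lit 205) (nat_lit 5) (nat_lit 206) (nat_lit 5) (nat_lit 379) (nat_lit 340) (nat_lit 301)) (XT.lf (nat_lit 0) (nat_lit 8109775931) (nat_lit 608) (nat_lit 527176815) (nat_lit 76) (nat_lit 141834729) (nat_lit 198) (nat_lit 5) (nat_lit 206) (nat_lit 5) (nat_lit 199) (nat_lit 5) (nat_lit 380) (nat_lit 340) (nat_lit 300)))) (XT.nd (nat_lit 156) (nat_lit 532) (nat_lit 0) (XT.nd (nat_lit 78) (nat_lit 456) (nat_lit 0) (XT.lf (nat_lit 0) (nat_lit 1977786551) (nat_lit 532) (nat_lit 3575091132)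 (nat_lit 76) (nat_lit 3347751540) (nat_lit 191) (nat_lit 5) (nat_lit 198) (nat_lit 5) (nat_lit 192) (nat_lit 5) (nat_lit 381) (nat_lit 340) (nat_lit 299)) (XT.lf (nat_lit 0) (nat_lit 2312570358) (nat_lit 456) (nat_lit 2352784460) (nat_lit 532) (nat_lit 4361343589) (nat_lit 185) (nat_lit 5) (nat_lit 191) (nat_lit 5) (nat_lit 192) (nat_lit 5) (nat_lit 382) (nat_lit 340) (nat_lit 298))) (XT.nd (nat_lit 78) (nat_lit 532) (nat_lit 0) (XT.lf (nat_lit 0) (nat_lit 7427090744) (nat_lit 532) (nat_lit 780120575) (nat_lit 76) (nat_lit 949546965) (nat_lit 185) (nat_lit 5) (nat_lit 192) (nat_lit 5) (nat_lit 186) (nat_lit 5) (nat_lit 383) (nat_lit 340) (nat_lit 297)) (XT.lf (nat_lit 0) (nat_lit 986288748) (nat_lit 532) (nat_lit 3950147895) (nat_lit 76) (nat_lit 4353280252) (nat_lit 178) (nat_lit 5) (nat_lit 185) (nat_lit 5) (nat_lit 179) (nat_lit 5) (nat_lit 384) (nat_lit 340) (nat_lit 296))))))))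
noncomputable def xc101 : XT := (XT.nd (nat_lit 2262) (nat_lit 3116) (nat_lit 0) (XT.nd (nat_lit 1092) (nat_lit 2812) (nat_lit 0) (XT.nd (nat_lit 546) (nat_lit 1444) (nat_lit 0) (XT.nd (nat_lit 234) (nat_lit 1292) (nat_lit 0) (XT.nd (nat_lit 78) (nat_lit 380) (nat_lit 0) (XT.lf (nat_lit 0) (nat_lit 2194164862) (nat_lit 456) (nat_lit 1533730866) (nat_lit 532) (nat_lit 5698900255) (nat_lit 172) (nat_lit 5) (nat_lit 178) (nat_lit 5) (nat_lit 179) (nat_lit 5) (nat_lit 385) (nat_lit 340) (nat_lit 295)) (XT.nd (nat_lit 78) (nat_lit 380) (nat_lit 0) (XT.lf (nat_lit 0) (nat_lit 6561588209) (nat_lit 532) (nat_lit 1046942893) (nat_lit 76) (nat_lit 1959174402) (nat_lit 172) (nat_lit 5) (nat_lit 179) (nat_lit 5) (nat_lit 173) (nat_lit 5) (nat_lit 386) (nat_lit 340) (nat_lit 294)) (XT.lf (nat_lit 0) (nat_lit 5350834543) (nat_lit 380) (nat_lit 4148123121) (nat_lit 456) (nat_lit 213337460) (nat_lit 167) (nat_lit 5) (nat_lit 172)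 (nat_lit 5) (nat_lit 173) (nat_lit 5) (nat_lit 387) (nat_lit 340) (nat_lit 293)))) (XT.nd (nat_lit 156) (nat_lit 836) (nat_lit 0) (XT.nd (nat_lit 78) (nat_lit 0) (nat_lit 0) (XT.lf (nat_lit 0) (nat_lit 2052390324) (nat_lit 380) (nat_lit 541637924) (nat_lit 456) (nat_lit 7266955083) (nat_lit 161) (nat_lit 5) (nat_lit 166) (nat_lit 5) (nat_lit 167) (nat_lit 5) (nat_lit 388) (nat_lit 340) (nat_lit 292)) (XT.lf (nat_lit 0) (nat_lit 5509309918) (nat_lit 456) (nat_lit 1361502397) (nat_lit 76) (nat_lit 3142428728) (nat_lit 161) (nat_lit 5) (nat_lit 167) (nat_lit 5) (nat_lit 162) (nat_lit 5) (nat_lit 389) (nat_lit 340) (nat_lit 291))) (XT.nd (nat_lit 78) (nat_lit 456) (nat_lit 0) (XT.lf (nat_lit 0) (nat_lit 5315514104) (nat_lit 380) (nat_lit 3207366872) (nat_lit 456) (nat_lit 1646871952) (nat_lit 156) (nat_lit 5) (nat_lit 161) (nat_lit 5) (nat_lit 162) (nat_lit 5) (nat_lit 390) (nat_lit 340) (nat_lit 290)) (XT.lf (nat_lit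 0) (nat_lit 1262667738) (nat_lit 456) (nat_lit 8485137770) (nat_lit 76) (nat_lit 583029980) (nat_lit 150) (nat_lit 5) (nat_lit 156) (nat_lit 5) (nat_lit 151) (nat_lit 5) (nat_lit 391) (nat_lit 340) (nat_lit 289))))) (XT.nd (nat_lit 234) (nat_lit 760) (nat_lit 0) (XT.nd (nat_lit 78) (nat_lit 684) (nat_lit 0) (XT.lf (nat_lit 0) (nat_lit 4262876354) (nat_lit 456) (nat_lit 1760419931) (nat_lit 76) (nat_lit 4471880978) (nat_lit 150) (nat_lit 5) (nat_lit 156) (nat_lit 5) (nat_lit 151) (nat_lit 5) (nat_lit 392) (nat_lit 340) (nat_lit 288)) (XT.nd (nat_lit 78) (nat_lit 380) (nat_lit 0) (XT.lf (nat_lit 0) (nat_lit 5206736428) (nat_lit 304) (nat_lit 2152932805) (nat_lit 380) (nat_lit 3304592821) (nat_lit 146) (nat_lit 5) (nat_lit 150) (nat_lit 5) (nat_lit 151) (nat_lit 5) (nat_lit 393) (nat_lit 340) (nat_lit 287)) (XT.lf (nat_lit 0) (nat_lit 1531764348) (nat_lit 380) (nat_lit 9024949428) (nat_lit 456) (nat_lit 281494985)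 (nat_lit 141) (nat_lit 5) (nat_lit 146) (nat_lit 5) (nat_lit 147) (nat_lit 5) (nat_lit 394) (nat_lit 340) (nat_lit 286)))) (XT.nd (nat_lit 156) (nat_lit 380) (nat_lit 0) (XT.nd (nat_lit 78) (nat_lit 304) (nat_lit 0) (XT.lf (nat_lit 0) (nat_lit 2811283638) (nat_lit 456) (nat_lit 2283891314) (nat_lit 76) (nat_lit 5920363706) (nat_lit 140) (nat_lit 5) (nat_lit 146) (nat_lit 5) (nat_lit 141) (nat_lit 5) (nat_lit 395) (nat_lit 340) (nat_lit 285)) (XT.lf (nat_lit 0) (nat_lit 4983912045) (nat_lit 304) (nat_lit 1013712396) (nat_lit 380) (nat_lit 5200296277) (nat_lit 136) (nat_lit 5) (nat_lit 140) (nat_lit 5) (nat_lit 141) (nat_lit 5) (nat_lit 396) (nat_lit 340) (nat_lit 284))) (XT.nd (nat_lit 78) (nat_lit 76) (nat_lit 0) (XT.lf (nat_lit 0) (nat_lit 1060930509) (nat_lit 304) (nat_lit 8241768982) (nat_lit 380) (nat_lit 2082389143) (nat_lit 132) (nat_lit 5) (nat_lit 136) (nat_lit 5) (nat_lit 137) (nat_lit 5) (nat_lit 397)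 (nat_lit 340) (nat_lit 283)) (XT.lf (nat_lit 0) (nat_lit 1139630802) (nat_lit 380) (nat_lit 2976592093) (nat_lit 76) (nat_lit 7460353086) (nat_lit 131) (nat_lit 5) (nat_lit 136) (nat_lit 5) (nat_lit 132) (nat_lit 5) (nat_lit 398) (nat_lit 340) (nat_lit 282)))))) (XT.nd (nat_lit 546) (nat_lit 1292) (nat_lit 0) (XT.nd (nat_lit 234) (nat_lit 912) (nat_lit 0) (XT.nd (nat_lit 78) (nat_lit 304) (nat_lit 0) (XT.lf (nat_lit 0) (nat_lit 4422817539) (nat_lit 380) (nat_lit 7173041382) (nat_lit 76) (nat_lit 177147666) (nat_lit 127) (nat_lit 5) (nat_lit 132) (nat_lit 5) (nat_lit 128) (nat_lit 5) (nat_lit 399) (nat_lit 340) (nat_lit 281)) (XT.nd (nat_lit 78) (nat_lit 0) (nat_lit 0) (XT.lf (nat_lit 0) (nat_lit 397877161) (nat_lit 304) (nat_lit 7442354859) (nat_lit 380) (nat_lit 4134033872) (nat_lit 123) (nat_lit 5) (nat_lit 127) (nat_lit 5) (nat_lit 128) (nat_lit 5) (nat_lit 400) (nat_lit 340) (nat_lit 280)) (XT.lf (nat_lit 0)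 (nat_lit 8284301752) (nat_lit 304) (nat_lit 3109676238) (nat_lit 380) (nat_lit 786578229) (nat_lit 123) (nat_lit 5) (nat_lit 127) (nat_lit 5) (nat_lit 128) (nat_lit 5) (nat_lit 401) (nat_lit 340) (nat_lit 279)))) (XT.nd (nat_lit 156) (nat_lit 608) (nat_lit 0) (XT.nd (nat_lit 78) (nat_lit 0) (nat_lit 0) (XT.lf (nat_lit 0) (nat_lit 2623480441) (nat_lit 304) (nat_lit 8396482967) (nat_lit 76) (nat_lit 1371888146) (nat_lit 119) (nat_lit 5) (nat_lit 123) (nat_lit 5) (nat_lit 120) (nat_lit 5) (nat_lit 402) (nat_lit 340) (nat_lit 278)) (XT.lf (nat_lit 0) (nat_lit 6153039671) (nat_lit 304) (nat_lit 501746386) (nat_lit 76) (nat_lit 5953482687) (nat_lit 119) (nat_lit 5) (nat_lit 123) (nat_lit 5) (nat_lit 120) (nat_lit 5) (nat_lit 403) (nat_lit 340) (nat_lit 277))) (XT.nd (nat_lit 78) (nat_lit 304) (nat_lit 0) (XT.lf (nat_lit 0) (nat_lit 7724165992) (nat_lit 304) (nat_lit 2102147045) (nat_lit 380) (nat_lit 3003737271) (nat_lit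 115) (nat_lit 5) (nat_lit 119) (nat_lit 5) (nat_lit 120) (nat_lit 5) (nat_lit 404) (nat_lit 340) (nat_lit 276)) (XT.lf (nat_lit 0) (nat_lit 564738209) (nat_lit 304) (nat_lit 9935109436) (nat_lit 76) (nat_lit 2557759084) (nat_lit 111) (nat_lit 5) (nat_lit 115) (nat_lit 5) (nat_lit 112) (nat_lit 5) (nat_lit 405) (nat_lit 340) (nat_lit 275))))) (XT.nd (nat_lit 312) (nat_lit 760) (nat_lit 0) (XT.nd (nat_lit 156) (nat_lit 304) (nat_lit 0) (XT.nd (nat_lit 78) (nat_lit 228) (nat_lit 0) (XT.lf (nat_lit 0) (nat_lit 4216842112) (nat_lit 304) (nat_lit 1696007485) (nat_lit 76) (nat_lit 7377145770) (nat_lit 111) (nat_lit 5) (nat_lit 115) (nat_lit 5) (nat_lit 112) (nat_lit 5) (nat_lit 406) (nat_lit 340) (nat_lit 274)) (XT.lf (nat_lit 0) (nat_lit 6869068371) (nat_lit 228) (nat_lit 1140580213) (nat_lit 304) (nat_lit 5518778831) (nat_lit 108) (nat_lit 5) (nat_lit 111) (nat_lit 5) (nat_lit 112) (nat_lit 5) (nat_lit 407) (nat_lit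 340) (nat_lit 273))) (XT.nd (nat_lit 78) (nat_lit 76) (nat_lit 0) (XT.lf (nat_lit 0) (nat_lit 1897393034) (nat_lit 228) (nat_lit 10056072354) (nat_lit 304) (nat_lit 1819436014) (nat_lit 105) (nat_lit 5) (nat_lit 108) (nat_lit 5) (nat_lit 109) (nat_lit 5) (nat_lit 408) (nat_lit 340) (nat_lit 272)) (XT.lf (nat_lit 0) (nat_lit 1996783633) (nat_lit 304) (nat_lit 3262117728) (nat_lit 76) (nat_lit 8763897171) (nat_lit 104) (nat_lit 5) (nat_lit 108) (nat_lit 5) (nat_lit 105) (nat_lit 5) (nat_lit 409) (nat_lit 340) (nat_lit 271)))) (XT.nd (nat_lit 156) (nat_lit 304) (nat_lit 0) (XT.nd (nat_lit 78) (nat_lit 228) (nat_lit 0) (XT.lf (nat_lit 0) (nat_lit 5647804157) (nat_lit 228) (nat_lit 263951443) (nat_lit 304) (nat_lit 8367276785) (nat_lit 101) (nat_lit 5) (nat_lit 104) (nat_lit 5) (nat_lit 105) (nat_lit 5) (nat_lit 410) (nat_lit 340) (nat_lit 270)) (XT.lf (nat_lit 0) (nat_lit 253294992) (nat_lit 228) (nat_lit 9740308215)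 (nat_lit 304) (nat_lit 4547872372) (nat_lit 98) (nat_lit 5) (nat_lit 101) (nat_lit 5) (nat_lit 102) (nat_lit 5) (nat_lit 411) (nat_lit 340) (nat_lit 269))) (XT.nd (nat_lit 78) (nat_lit 304) (nat_lit 0) (XT.lf (nat_lit 0) (nat_lit 9524820150) (nat_lit 228) (nat_lit 4730088789) (nat_lit 304) (nat_lit 555178017) (nat_lit 98) (nat_lit 5) (nat_lit 101) (nat_lit 5) (nat_lit 102) (nat_lit 5) (nat_lit 412) (nat_lit 340) (nat_lit 268)) (XT.lf (nat_lit 0) (nat_lit 3498669140) (nat_lit 304) (nat_lit 11111913242) (nat_lit 76) (nat_lit 474829501) (nat_lit 94) (nat_lit 5) (nat_lit 98) (nat_lit 5) (nat_lit 95) (nat_lit 5) (nat_lit 413) (nat_lit 340) (nat_lit 267))))))) (XT.nd (nat_lit 1092) (nat_lit 1520) (nat_lit 0) (XT.nd (nat_lit 546) (nat_lit 684) (nat_lit 0) (XT.nd (nat_lit 234) (nat_lit 456) (nat_lit 0) (XT.nd (nat_lit 78) (nat_lit 456) (nat_lit 0) (XT.lf (nat_lit 0) (nat_lit 7731828798) (nat_lit 304) (nat_lit 1854997877)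 (nat_lit 76) (nat_lit 5779943859) (nat_lit 94) (nat_lit 5) (nat_lit 98) (nat_lit 5) (nat_lit 95) (nat_lit 5) (nat_lit 414) (nat_lit 340) (nat_lit 266)) (XT.nd (nat_lit 78) (nat_lit 304) (nat_lit 0) (XT.lf (nat_lit 0) (nat_lit 7779870786) (nat_lit 152) (nat_lit 4355949563) (nat_lit 228) (nat_lit 3519438896) (nat_lit 92) (nat_lit 5) (nat_lit 94) (nat_lit 5) (nat_lit 95) (nat_lit 5) (nat_lit 415) (nat_lit 340) (nat_lit 265)) (XT.lf (nat_lit 0) (nat_lit 720676742) (nat_lit 304) (nat_lit 14196547653) (nat_lit 76) (nat_lit 1034519241) (nat_lit 88) (nat_lit 5) (nat_lit 92) (nat_lit 5) (nat_lit 89) (nat_lit 5) (nat_lit 416) (nat_lit 340) (nat_lit 264)))) (XT.nd (nat_lit 156) (nat_lit 304) (nat_lit 0) (XT.nd (nat_lit 78) (nat_lit 152) (nat_lit 0) (XT.lf (nat_lit 0) (nat_lit 5110063550) (nat_lit 304) (nat_lit 4549253687) (nat_lit 76) (nat_lit 6593979835) (nat_lit 88) (nat_lit 5) (nat_lit 92) (nat_lit 5) (nat_lit 89) (nat_lit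 5) (nat_lit 417) (nat_lit 340) (nat_lit 263)) (XT.lf (nat_lit 0) (nat_lit 5443297751) (nat_lit 152) (nat_lit 4210414204) (nat_lit 228) (nat_lit 6909511679) (nat_lit 86) (nat_lit 5) (nat_lit 88) (nat_lit 5) (nat_lit 89) (nat_lit 5) (nat_lit 418) (nat_lit 340) (nat_lit 262))) (XT.nd (nat_lit 78) (nat_lit 304) (nat_lit 0) (XT.lf (nat_lit 0) (nat_lit 14363984813) (nat_lit 228) (nat_lit 1116693137) (nat_lit 76) (nat_lit 1400864403) (nat_lit 86) (nat_lit 5) (nat_lit 89) (nat_lit 5) (nat_lit 87) (nat_lit 5) (nat_lit 419) (nat_lit 340) (nat_lit 261)) (XT.lf (nat_lit 0) (nat_lit 2070184093) (nat_lit 304) (nat_lit 7949770626) (nat_lit 76) (nat_lit 7185785688) (nat_lit 82) (nat_lit 5) (nat_lit 86) (nat_lit 5) (nat_lit 83) (nat_lit 5) (nat_lit 420) (nat_lit 340) (nat_lit 260))))) (XT.nd (nat_lit 234) (nat_lit 380) (nat_lit 0) (XT.nd (nat_lit 78) (nat_lit 152) (nat_lit 0) (XT.lf (nat_lit 0) (nat_lit 2395900808) (nat_lit 152)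 (nat_lit 4354866085) (nat_lit 228) (nat_lit 10787978926) (nat_lit 80) (nat_lit 5) (nat_lit 82) (nat_lit 5) (nat_lit 83) (nat_lit 5) (nat_lit 421) (nat_lit 340) (nat_lit 259)) (XT.nd (nat_lit 78) (nat_lit 152) (nat_lit 0) (XT.lf (nat_lit 0) (nat_lit 11638626199) (nat_lit 228) (nat_lit 4728814572) (nat_lit 76) (nat_lit 1512298235) (nat_lit 80) (nat_lit 5) (nat_lit 83) (nat_lit 5) (nat_lit 81) (nat_lit 5) (nat_lit 422) (nat_lit 340) (nat_lit 258)) (XT.lf (nat_lit 0) (nat_lit 6024146645) (nat_lit 152) (nat_lit 10722387048) (nat_lit 228) (nat_lit 1482229210) (nat_lit 78) (nat_lit 5) (nat_lit 80) (nat_lit 5) (nat_lit 81) (nat_lit 5) (nat_lit 423) (nat_lit 340) (nat_lit 257)))) (XT.nd (nat_lit 156) (nat_lit 152) (nat_lit 0) (XT.nd (nat_lit 78) (nat_lit 152) (nat_lit 0) (XT.lf (nat_lit 0) (nat_lit 3373382371) (nat_lit 228) (nat_lit 1471541300) (nat_lit 76) (nat_lit 13741730255) (nat_lit 77) (nat_lit 5) (nat_lit 80) (nat_lit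 5) (nat_lit 78) (nat_lit 5) (nat_lit 424) (nat_lit 340) (nat_lit 256)) (XT.lf (nat_lit 0) (nat_lit 8423989417) (nat_lit 228) (nat_lit 9253591590) (nat_lit 76) (nat_lit 1274889860) (nat_lit 75) (nat_lit 5) (nat_lit 78) (nat_lit 5) (nat_lit 76) (nat_lit 5) (nat_lit 425) (nat_lit 340) (nat_lit 255))) (XT.nd (nat_lit 78) (nat_lit 0) (nat_lit 0) (XT.lf (nat_lit 0) (nat_lit 1846928026) (nat_lit 152) (nat_lit 11833326240) (nat_lit 228) (nat_lit 5647386781) (nat_lit 73) (nat_lit 5) (nat_lit 75) (nat_lit 5) (nat_lit 76) (nat_lit 5) (nat_lit 426) (nat_lit 340) (nat_lit 254)) (XT.lf (nat_lit 0) (nat_lit 13423854559) (nat_lit 152) (nat_lit 5737534509) (nat_lit 228) (nat_lit 550664639) (nat_lit 73) (nat_lit 5) (nat_lit 75) (nat_lit 5) (nat_lit 76) (nat_lit 5) (nat_lit 427) (nat_lit 340) (nat_lit 253)))))) (XT.nd (nat_lit 546) (nat_lit 760) (nat_lit 0) (XT.nd (nat_lit 234) (nat_lit 380) (nat_lit 0) (XT.nd (nat_lit 78) (nat_lit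 152) (nat_lit 0) (XT.lf (nat_lit 0) (nat_lit 4637958292) (nat_lit 228) (nat_lit 14859923360) (nat_lit 76) (nat_lit 607843906) (nat_lit 70) (nat_lit 5) (nat_lit 73) (nat_lit 5) (nat_lit 71) (nat_lit 5) (nat_lit 428) (nat_lit 340) (nat_lit 252)) (XT.nd (nat_lit 78) (nat_lit 152) (nat_lit 0) (XT.lf (nat_lit 0) (nat_lit 10066484202) (nat_lit 228) (nat_lit 3363061729) (nat_lit 76) (nat_lit 7078641300) (nat_lit 70) (nat_lit 5) (nat_lit 73) (nat_lit 5) (nat_lit 71) (nat_lit 5) (nat_lit 429) (nat_lit 340) (nat_lit 251)) (XT.lf (nat_lit 0) (nat_lit 8602299115) (nat_lit 152) (nat_lit 7113381269) (nat_lit 228) (nat_lit 5205310455) (nat_lit 68) (nat_lit 5) (nat_lit 70) (nat_lit 5) (nat_lit 71) (nat_lit 5) (nat_lit 430) (nat_lit 340) (nat_lit 250)))) (XT.nd (nat_lit 156) (nat_lit 152) (nat_lit 0) (XT.nd (nat_lit 78) (nat_lit 152) (nat_lit 0) (XT.lf (nat_lit 0) (nat_lit 193979940) (nat_lit 228) (nat_lit 396075354) (nat_lit 76)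 (nat_lit 20755787029) (nat_lit 67) (nat_lit 5) (nat_lit 70) (nat_lit 5) (nat_lit 68) (nat_lit 5) (nat_lit 431) (nat_lit 340) (nat_lit 249)) (XT.lf (nat_lit 0) (nat_lit 5802504473) (nat_lit 228) (nat_lit 9815259663) (nat_lit 76) (nat_lit 6159575078) (nat_lit 65) (nat_lit 5) (nat_lit 68) (nat_lit 5) (nat_lit 66) (nat_lit 5) (nat_lit 432) (nat_lit 340) (nat_lit 248))) (XT.nd (nat_lit 78) (nat_lit 0) (nat_lit 0) (XT.lf (nat_lit 0) (nat_lit 2476732345) (nat_lit 152) (nat_lit 9112257169) (nat_lit 228) (nat_lit 10632502590) (nat_lit 63) (nat_lit 5) (nat_lit 65) (nat_lit 5) (nat_lit 66) (nat_lit 5) (nat_lit 433) (nat_lit 340) (nat_lit 247)) (XT.lf (nat_lit 0) (nat_lit 15295957257) (nat_lit 152) (nat_lit 2328530148) (nat_lit 228) (nat_lit 5052221802) (nat_lit 63) (nat_lit 5) (nat_lit 65) (nat_lit 5) (nat_lit 66) (nat_lit 5) (nat_lit 434) (nat_lit 340) (nat_lit 246))))) (XT.nd (nat_lit 312) (nat_lit 380) (nat_lit 0) (XT.nd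 (nat_lit 156) (nat_lit 152) (nat_lit 0) (XT.nd (nat_lit 78) (nat_lit 0) (nat_lit 0) (XT.lf (nat_lit 0) (nat_lit 755858859) (nat_lit 228) (nat_lit 17778573095) (nat_lit 76) (nat_lit 4608733481) (nat_lit 60) (nat_lit 5) (nat_lit 63) (nat_lit 5) (nat_lit 61) (nat_lit 5) (nat_lit 435) (nat_lit 340) (nat_lit 245)) (XT.lf (nat_lit 0) (nat_lit 6711823737) (nat_lit 228) (nat_lit 5093649823) (nat_lit 76) (nat_lit 11814387526) (nat_lit 60) (nat_lit 5) (nat_lit 63) (nat_lit 5) (nat_lit 61) (nat_lit 5) (nat_lit 436) (nat_lit 340) (nat_lit 244))) (XT.nd (nat_lit 78) (nat_lit 0) (nat_lit 0) (XT.lf (nat_lit 0) (nat_lit 8088837419) (nat_lit 152) (nat_lit 4812921541) (nat_lit 228) (nat_lit 11207441833) (nat_lit 58) (nat_lit 5) (nat_lit 60) (nat_lit 5) (nat_lit 61) (nat_lit 5) (nat_lit 437) (nat_lit 340) (nat_lit 243)) (XT.lf (nat_lit 0) (nat_lit 19329932831) (nat_lit 228) (nat_lit 2904859629) (nat_lit 76) (nat_lit 2376853888) (nat_lit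 58) (nat_lit 5) (nat_lit 61) (nat_lit 5) (nat_lit 59) (nat_lit 4) (nat_lit 438) (nat_lit 340) (nat_lit 242)))) (XT.nd (nat_lit 156) (nat_lit 228) (nat_lit 0) (XT.nd (nat_lit 78) (nat_lit 0) (nat_lit 0) (XT.lf (nat_lit 0) (nat_lit 936062963) (nat_lit 152) (nat_lit 14408439609) (nat_lit 76) (nat_lit 9780518108) (nat_lit 56) (nat_lit 5) (nat_lit 58) (nat_lit 5) (nat_lit 57) (nat_lit 5) (nat_lit 439) (nat_lit 340) (nat_lit 241)) (XT.lf (nat_lit 0) (nat_lit 7242158243) (nat_lit 152) (nat_lit 939059443) (nat_lit 76) (nat_lit 17470773164) (nat_lit 56) (nat_lit 5) (nat_lit 58) (nat_lit 5) (nat_lit 57) (nat_lit 5) (nat_lit 440) (nat_lit 340) (nat_lit 240))) (XT.nd (nat_lit 78) (nat_lit 76) (nat_lit 0) (XT.lf (nat_lit 0) (nat_lit 13152441647) (nat_lit 152) (nat_lit 690374436) (nat_lit 228) (nat_lit 12348794316) (nat_lit 54) (nat_lit 5) (nat_lit 56) (nat_lit 5) (nat_lit 57) (nat_lit 5) (nat_lit 441) (nat_lit 340) (nat_lit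 239)) (XT.lf (nat_lit 0) (nat_lit 849055662) (nat_lit 76) (nat_lit 19856735068) (nat_lit 152) (nat_lit 6039700508) (nat_lit 53) (nat_lit 5) (nat_lit 54) (nat_lit 5) (nat_lit 55) (nat_lit 4) (nat_lit 442) (nat_lit 340) (nat_lit 238))))))))
noncomputable def xc102 : XT := (XT.nd (nat_lit 2262) (nat_lit 760) (nat_lit 0) (XT.nd (nat_lit 1092) (nat_lit 684) (nat_lit 0) (XT.nd (nat_lit 546) (nat_lit 608) (nat_lit 0) (XT.nd (nat_lit 234) (nat_lit 304) (nat_lit 0) (XT.nd (nat_lit 78) (nat_lit 152) (nat_lit 0) (XT.lf (nat_lit 0) (nat_lit 568589159) (nat_lit 152) (nat_lit 11942099943) (nat_lit 76) (nat_lit 14801602457) (nat_lit 52) (nat_lit 5) (nat_lit 54) (nat_lit 5) (nat_lit 53) (nat_lit 5) (nat_lit 443) (nat_lit 340) (nat_lit 237)) (XT.nd (nat_lit 78) (nat_lit 0) (nat_lit 0) (XT.lf (nat_lit 0) (nat_lit 2379904839) (nat_lit 152) (nat_lit 4876381742) (nat_lit 228) (nat_lit 20637940285) (nat_lit 50) (nat_lit 5) (nat_lit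 52) (nat_lit 5) (nat_lit 53) (nat_lit 5) (nat_lit 444) (nat_lit 340) (nat_lit 236)) (XT.lf (nat_lit 0) (nat_lit 14274856428) (nat_lit 228) (nat_lit 11181210973) (nat_lit 76) (nat_lit 3033647023) (nat_lit 50) (nat_lit 5) (nat_lit 53) (nat_lit 5) (nat_lit 51) (nat_lit 4) (nat_lit 445) (nat_lit 340) (nat_lit 235)))) (XT.nd (nat_lit 156) (nat_lit 228) (nat_lit 0) (XT.nd (nat_lit 78) (nat_lit 0) (nat_lit 0) (XT.lf (nat_lit 0) (nat_lit 3566634381) (nat_lit 76) (nat_lit 18000247962) (nat_lit 152) (nat_lit 7534298690) (nat_lit 49) (nat_lit 5) (nat_lit 50) (nat_lit 5) (nat_lit 51) (nat_lit 4) (nat_lit 446) (nat_lit 340) (nat_lit 234)) (XT.lf (nat_lit 0) (nat_lit 18949901639) (nat_lit 76) (nat_lit 10221233671) (nat_lit 152) (nat_lit 557053696) (nat_lit 49) (nat_lit 5) (nat_lit 50) (nat_lit 5) (nat_lit 51) (nat_lit 4) (nat_lit 447) (nat_lit 340) (nat_lit 233))) (XT.nd (nat_lit 78) (nat_lit 0) (nat_lit 0) (XT.lf (nat_lit 0)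 (nat_lit 4407393798) (nat_lit 152) (nat_lit 2116051885) (nat_lit 228) (nat_lit 23847951925) (nat_lit 46) (nat_lit 5) (nat_lit 48) (nat_lit 5) (nat_lit 49) (nat_lit 5) (nat_lit 448) (nat_lit 340) (nat_lit 232)) (XT.lf (nat_lit 0) (nat_lit 13955985411) (nat_lit 228) (nat_lit 10863153276) (nat_lit 76) (nat_lit 6210074911) (nat_lit 46) (nat_lit 5) (nat_lit 49) (nat_lit 5) (nat_lit 47) (nat_lit 4) (nat_lit 449) (nat_lit 340) (nat_lit 231))))) (XT.nd (nat_lit 234) (nat_lit 304) (nat_lit 0) (XT.nd (nat_lit 78) (nat_lit 228) (nat_lit 0) (XT.lf (nat_lit 0) (nat_lit 4727454265) (nat_lit 76) (nat_lit 16931990641) (nat_lit 152) (nat_lit 10045882056) (nat_lit 45) (nat_lit 5) (nat_lit 46) (nat_lit 5) (nat_lit 47) (nat_lit 4) (nat_lit 450) (nat_lit 340) (nat_lit 230)) (XT.nd (nat_lit 78) (nat_lit 228) (nat_lit 0) (XT.lf (nat_lit 0) (nat_lit 20974235758) (nat_lit 76) (nat_lit 8711226736) (nat_lit 152) (nat_lit 2713518773) (nat_lit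 45) (nat_lit 5) (nat_lit 46) (nat_lit 5) (nat_lit 47) (nat_lit 4) (nat_lit 451) (nat_lit 340) (nat_lit 229)) (XT.lf (nat_lit 0) (nat_lit 4604728252) (nat_lit 152) (nat_lit 166040521) (nat_lit 228) (nat_lit 28340490836) (nat_lit 42) (nat_lit 5) (nat_lit 44) (nat_lit 5) (nat_lit 45) (nat_lit 5) (nat_lit 452) (nat_lit 340) (nat_lit 228)))) (XT.nd (nat_lit 156) (nat_lit 228) (nat_lit 0) (XT.nd (nat_lit 78) (nat_lit 76) (nat_lit 0) (XT.lf (nat_lit 0) (nat_lit 12606729615) (nat_lit 228) (nat_lit 12636822539) (nat_lit 76) (nat_lit 8595098708) (nat_lit 42) (nat_lit 5) (nat_lit 45) (nat_lit 5) (nat_lit 43) (nat_lit 4) (nat_lit 453) (nat_lit 340) (nat_lit 227)) (XT.lf (nat_lit 0) (nat_lit 3747805521) (nat_lit 76) (nat_lit 16950317620) (nat_lit 152) (nat_lit 13889131135) (nat_lit 41) (nat_lit 5) (nat_lit 42) (nat_lit 5) (nat_lit 43) (nat_lit 4) (nat_lit 454) (nat_lit 340) (nat_lit 226))) (XT.nd (nat_lit 78) (nat_lit 228)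 (nat_lit 0) (XT.lf (nat_lit 0) (nat_lit 20850673865) (nat_lit 76) (nat_lit 8292068910) (nat_lit 152) (nat_lit 6212259495) (nat_lit 41) (nat_lit 5) (nat_lit 42) (nat_lit 5) (nat_lit 43) (nat_lit 4) (nat_lit 455) (nat_lit 340) (nat_lit 225)) (XT.lf (nat_lit 0) (nat_lit 1673592283) (nat_lit 228) (nat_lit 33833332805) (nat_lit 76) (nat_lit 638017349) (nat_lit 38) (nat_lit 5) (nat_lit 41) (nat_lit 5) (nat_lit 39) (nat_lit 4) (nat_lit 456) (nat_lit 340) (nat_lit 224)))))) (XT.nd (nat_lit 546) (nat_lit 380) (nat_lit 0) (XT.nd (nat_lit 234) (nat_lit 228) (nat_lit 0) (XT.nd (nat_lit 78) (nat_lit 76) (nat_lit 0) (XT.lf (nat_lit 0) (nat_lit 9884429312) (nat_lit 228) (nat_lit 17201673467) (nat_lit 76) (nat_lit 9864235628) (nat_lit 38) (nat_lit 5) (nat_lit 41) (nat_lit 5) (nat_lit 39) (nat_lit 4) (nat_lit 457) (nat_lit 340) (nat_lit 223)) (XT.nd (nat_lit 78) (nat_lit 76) (nat_lit 0) (XT.lf (nat_lit 0) (nat_lit 18325334014)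 (nat_lit 228) (nat_lit 101918308) (nat_lit 76) (nat_lit 19353132550) (nat_lit 38) (nat_lit 5) (nat_lit 41) (nat_lit 5) (nat_lit 39) (nat_lit 4) (nat_lit 458) (nat_lit 340) (nat_lit 222)) (XT.lf (nat_lit 0) (nat_lit 17828777877) (nat_lit 76) (nat_lit 9346285182) (nat_lit 152) (nat_lit 11455602627) (nat_lit 37) (nat_lit 5) (nat_lit 38) (nat_lit 5) (nat_lit 39) (nat_lit 4) (nat_lit 459) (nat_lit 340) (nat_lit 221)))) (XT.nd (nat_lit 156) (nat_lit 76) (nat_lit 0) (XT.nd (nat_lit 78) (nat_lit 152) (nat_lit 0) (XT.lf (nat_lit 0) (nat_lit 36269822554) (nat_lit 76) (nat_lit 5881278) (nat_lit 152) (nat_lit 3231189340) (nat_lit 37) (nat_lit 5) (nat_lit 38) (nat_lit 5) (nat_lit 39) (nat_lit 4) (nat_lit 460) (nat_lit 340) (nat_lit 220)) (XT.lf (nat_lit 0) (nat_lit 5361478476) (nat_lit 152) (nat_lit 25428959559) (nat_lit 76) (nat_lit 9610745975) (nat_lit 35) (nat_lit 5) (nat_lit 37) (nat_lit 5) (nat_lit 36) (nat_lit 4) (nat_lit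 461) (nat_lit 340) (nat_lit 219))) (XT.nd (nat_lit 78) (nat_lit 76) (nat_lit 0) (XT.lf (nat_lit 0) (nat_lit 14164784303) (nat_lit 152) (nat_lit 7588682766) (nat_lit 76) (nat_lit 19567343467) (nat_lit 35) (nat_lit 5) (nat_lit 37) (nat_lit 5) (nat_lit 36) (nat_lit 4) (nat_lit 462) (nat_lit 340) (nat_lit 218)) (XT.lf (nat_lit 0) (nat_lit 10972625409) (nat_lit 76) (nat_lit 12350215929) (nat_lit 152) (nat_lit 18942465708) (nat_lit 34) (nat_lit 5) (nat_lit 35) (nat_lit 5) (nat_lit 36) (nat_lit 4) (nat_lit 463) (nat_lit 340) (nat_lit 217))))) (XT.nd (nat_lit 312) (nat_lit 228) (nat_lit 0) (XT.nd (nat_lit 156) (nat_lit 76) (nat_lit 0) (XT.nd (nat_lit 78) (nat_lit 76) (nat_lit 0) (XT.lf (nat_lit 0) (nat_lit 30218318399) (nat_lit 76) (nat_lit 2599291406) (nat_lit 152) (nat_lit 10418670283) (nat_lit 34) (nat_lit 5) (nat_lit 35) (nat_lit 5) (nat_lit 36) (nat_lit 4) (nat_lit 464) (nat_lit 340) (nat_lit 216)) (XT.lf (nat_lit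 0) (nat_lit 5819499301) (nat_lit 76) (nat_lit 36890861738) (nat_lit 76) (nat_lit 1522627797) (nat_lit 33) (nat_lit 4) (nat_lit 34) (nat_lit 5) (nat_lit 34) (nat_lit 4) (nat_lit 465) (nat_lit 340) (nat_lit 215))) (XT.nd (nat_lit 78) (nat_lit 0) (nat_lit 0) (XT.lf (nat_lit 0) (nat_lit 7635355709) (nat_lit 152) (nat_lit 19894714518) (nat_lit 76) (nat_lit 17723001508) (nat_lit 32) (nat_lit 5) (nat_lit 34) (nat_lit 5) (nat_lit 33) (nat_lit 4) (nat_lit 466) (nat_lit 340) (nat_lit 214)) (XT.lf (nat_lit 0) (nat_lit 17023549631) (nat_lit 152) (nat_lit 862168880) (nat_lit 76) (nat_lit 28418004761) (nat_lit 32) (nat_lit 5) (nat_lit 34) (nat_lit 5) (nat_lit 33) (nat_lit 4) (nat_lit 467) (nat_lit 340) (nat_lit 213)))) (XT.nd (nat_lit 156) (nat_lit 152) (nat_lit 0) (XT.nd (nat_lit 78) (nat_lit 0) (nat_lit 0) (XT.lf (nat_lit 0) (nat_lit 19087887626) (nat_lit 76) (nat_lit 7775466026) (nat_lit 152) (nat_lit 20517442404) (nat_lit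 31) (nat_lit 5) (nat_lit 32) (nat_lit 5) (nat_lit 33) (nat_lit 4) (nat_lit 468) (nat_lit 340) (nat_lit 212)) (XT.lf (nat_lit 0) (nat_lit 37019011561) (nat_lit 152) (nat_lit 8887213667) (nat_lit 0) (nat_lit 2583336612) (nat_lit 31) (nat_lit 5) (nat_lit 33) (nat_lit 4) (nat_lit 31) (nat_lit 4) (nat_lit 469) (nat_lit 340) (nat_lit 211))) (XT.nd (nat_lit 78) (nat_lit 76) (nat_lit 0) (XT.lf (nat_lit 0) (nat_lit 11217346207) (nat_lit 76) (nat_lit 36433707143) (nat_lit 76) (nat_lit 1975386414) (nat_lit 30) (nat_lit 4) (nat_lit 31) (nat_lit 5) (nat_lit 31) (nat_lit 4) (nat_lit 470) (nat_lit 340) (nat_lit 210)) (XT.lf (nat_lit 0) (nat_lit 7729881885) (nat_lit 152) (nat_lit 18788646696) (nat_lit 76) (nat_lit 24274318937) (nat_lit 29) (nat_lit 5) (nat_lit 31) (nat_lit 5) (nat_lit 30) (nat_lit 4) (nat_lit 471) (nat_lit 340) (nat_lit 209))))))) (XT.nd (nat_lit 1092) (nat_lit 228) (nat_lit 0) (XT.nd (nat_lit 546) (nat_lit 228)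 (nat_lit 0) (XT.nd (nat_lit 234) (nat_lit 228) (nat_lit 0) (XT.nd (nat_lit 78) (nat_lit 0) (nat_lit 0) (XT.lf (nat_lit 0) (nat_lit 1403756799) (nat_lit 76) (nat_lit 16283637064) (nat_lit 152) (nat_lit 34306243765) (nat_lit 28) (nat_lit 5) (nat_lit 29) (nat_lit 5) (nat_lit 30) (nat_lit 4) (nat_lit 472) (nat_lit 340) (nat_lit 208)) (XT.nd (nat_lit 78) (nat_lit 0) (nat_lit 0) (XT.lf (nat_lit 0) (nat_lit 22562830500) (nat_lit 76) (nat_lit 5557961293) (nat_lit 152) (nat_lit 25104345356) (nat_lit 28) (nat_lit 5) (nat_lit 29) (nat_lit 5) (nat_lit 30) (nat_lit 4) (nat_lit 473) (nat_lit 340) (nat_lit 207)) (XT.lf (nat_lit 0) (nat_lit 38907649072) (nat_lit 152) (nat_lit 10213475468) (nat_lit 0) (nat_lit 5371243904) (nat_lit 28) (nat_lit 5) (nat_lit 30) (nat_lit 4) (nat_lit 28) (nat_lit 4) (nat_lit 474) (nat_lit 340) (nat_lit 206)))) (XT.nd (nat_lit 156) (nat_lit 76) (nat_lit 0) (XT.nd (nat_lit 78) (nat_lit 76) (nat_lit 0)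 (XT.lf (nat_lit 0) (nat_lit 10985040354) (nat_lit 76) (nat_lit 39181743656) (nat_lit 76) (nat_lit 5626373004) (nat_lit 27) (nat_lit 4) (nat_lit 28) (nat_lit 5) (nat_lit 28) (nat_lit 4) (nat_lit 475) (nat_lit 340) (nat_lit 205)) (XT.lf (nat_lit 0) (nat_lit 4632577200) (nat_lit 152) (nat_lit 24169652026) (nat_lit 76) (nat_lit 28326638617) (nat_lit 26) (nat_lit 5) (nat_lit 28) (nat_lit 5) (nat_lit 27) (nat_lit 4) (nat_lit 476) (nat_lit 340) (nat_lit 204))) (XT.nd (nat_lit 78) (nat_lit 76) (nat_lit 0) (XT.lf (nat_lit 0) (nat_lit 15074617522) (nat_lit 152) (nat_lit 2990186961) (nat_lit 76) (nat_lit 40438522583) (nat_lit 26) (nat_lit 5) (nat_lit 28) (nat_lit 5) (nat_lit 27) (nat_lit 4) (nat_lit 477) (nat_lit 340) (nat_lit 203)) (XT.lf (nat_lit 0) (nat_lit 19177082961) (nat_lit 76) (nat_lit 6825921767) (nat_lit 152) (nat_lit 33910823208) (nat_lit 25) (nat_lit 5) (nat_lit 26) (nat_lit 5) (nat_lit 27) (nat_lit 4) (nat_lit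 478) (nat_lit 340) (nat_lit 202))))) (XT.nd (nat_lit 234) (nat_lit 152) (nat_lit 0) (XT.nd (nat_lit 78) (nat_lit 76) (nat_lit 0) (XT.lf (nat_lit 0) (nat_lit 37324162513) (nat_lit 152) (nat_lit 19362844697) (nat_lit 0) (nat_lit 4677689480) (nat_lit 25) (nat_lit 5) (nat_lit 27) (nat_lit 4) (nat_lit 25) (nat_lit 4) (nat_lit 479) (nat_lit 340) (nat_lit 201)) (XT.nd (nat_lit 78) (nat_lit 0) (nat_lit 0) (XT.lf (nat_lit 0) (nat_lit 2614529939) (nat_lit 76) (nat_lit 46452232051) (nat_lit 76) (nat_lit 13789875723) (nat_lit 24) (nat_lit 4) (nat_lit 25) (nat_lit 5) (nat_lit 25) (nat_lit 4) (nat_lit 480) (nat_lit 340) (nat_lit 200)) (XT.lf (nat_lit 0) (nat_lit 25627174615) (nat_lit 76) (nat_lit 35719198868) (nat_lit 76) (nat_lit 3041421865) (nat_lit 24) (nat_lit 4) (nat_lit 25) (nat_lit 5) (nat_lit 25) (nat_lit 4) (nat_lit 481) (nat_lit 340) (nat_lit 199)))) (XT.nd (nat_lit 156) (nat_lit 0) (nat_lit 0) (XT.nd (nat_lit 78)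 (nat_lit 76) (nat_lit 0) (XT.lf (nat_lit 0) (nat_lit 7862218910) (nat_lit 152) (nat_lit 16732444143) (nat_lit 76) (nat_lit 41368226985) (nat_lit 23) (nat_lit 5) (nat_lit 25) (nat_lit 5) (nat_lit 24) (nat_lit 4) (nat_lit 482) (nat_lit 340) (nat_lit 198)) (XT.lf (nat_lit 0) (nat_lit 6024043864) (nat_lit 76) (nat_lit 13055427988) (nat_lit 152) (nat_lit 48503433718) (nat_lit 22) (nat_lit 5) (nat_lit 23) (nat_lit 5) (nat_lit 24) (nat_lit 4) (nat_lit 483) (nat_lit 340) (nat_lit 197))) (XT.nd (nat_lit 78) (nat_lit 0) (nat_lit 0) (XT.lf (nat_lit 0) (nat_lit 29786449426) (nat_lit 76) (nat_lit 1005592703) (nat_lit 152) (nat_lit 38454715803) (nat_lit 22) (nat_lit 5) (nat_lit 23) (nat_lit 5) (nat_lit 24) (nat_lit 4) (nat_lit 484) (nat_lit 340) (nat_lit 196)) (XT.lf (nat_lit 0) (nat_lit 42955669693) (nat_lit 152) (nat_lit 16827844157) (nat_lit 0) (nat_lit 11174021958) (nat_lit 22) (nat_lit 5) (nat_lit 24) (nat_lit 4) (nat_lit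 22) (nat_lit 4) (nat_lit 485) (nat_lit 340) (nat_lit 195)))))) (XT.nd (nat_lit 41964) (nat_lit 0) (nat_lit 27512) (XT.nd (nat_lit 234) (nat_lit 76) (nat_lit 0) (XT.nd (nat_lit 78) (nat_lit 76) (nat_lit 0) (XT.lf (nat_lit 0) (nat_lit 6583259584) (nat_lit 76) (nat_lit 48964516491) (nat_lit 76) (nat_lit 17169954184) (nat_lit 21) (nat_lit 4) (nat_lit 22) (nat_lit 5) (nat_lit 22) (nat_lit 4) (nat_lit 486) (nat_lit 340) (nat_lit 194)) (XT.nd (nat_lit 78) (nat_lit 76) (nat_lit 0) (XT.lf (nat_lit 0) (nat_lit 31022994184) (nat_lit 76) (nat_lit 37655013279) (nat_lit 76) (nat_lit 5847912552) (nat_lit 21) (nat_lit 4) (nat_lit 22) (nat_lit 5) (nat_lit 22) (nat_lit 4) (nat_lit 487) (nat_lit 340) (nat_lit 193)) (XT.lf (nat_lit 0) (nat_lit 5690962285) (nat_lit 152) (nat_lit 20266620509) (nat_lit 76) (nat_lit 50429377809) (nat_lit 20) (nat_lit 5) (nat_lit 22) (nat_lit 5) (nat_lit 21) (nat_lit 4) (nat_lit 488) (nat_lit 340) (nat_lit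 192)))) (XT.nd (nat_lit 41574) (nat_lit 0) (nat_lit 28728) (XT.nd (nat_lit 78) (nat_lit 0) (nat_lit 0) (XT.lf (nat_lit 0) (nat_lit 3662576769) (nat_lit 76) (nat_lit 13821989428) (nat_lit 152) (nat_lit 60816746506) (nat_lit 19) (nat_lit 5) (nat_lit 20) (nat_lit 5) (nat_lit 21) (nat_lit 4) (nat_lit 489) (nat_lit 340) (nat_lit 191)) (XT.lf (nat_lit 0) (nat_lit 28707502863) (nat_lit 76) (nat_lit 1120117779) (nat_lit 152) (nat_lit 50439605741) (nat_lit 19) (nat_lit 5) (nat_lit 20) (nat_lit 5) (nat_lit 21) (nat_lit 4) (nat_lit 490) (nat_lit 340) (nat_lit 190))) (XT.nd (nat_lit 78) (nat_lit 228) (nat_lit 0) (XT.lf (nat_lit 0) (nat_lit 1546322674) (nat_lit 0) (nat_lit 1546322674) (nat_lit 76) (nat_lit 130466689) (nat_lit 400) (nat_lit 5) (nat_lit 400) (nat_lit 3) (nat_lit 401) (nat_lit 0) (nat_lit 341) (nat_lit 341) (nat_lit 338)) (XT.lf (nat_lit 0) (nat_lit 2714711238) (nat_lit 228) (nat_lit 195798507) (nat_lit 228) (nat_lit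 3541431250) (nat_lit 397) (nat_lit 3) (nat_lit 400) (nat_lit 3) (nat_lit 400) (nat_lit 5) (nat_lit 342) (nat_lit 341) (nat_lit 337))))) (XT.nd (nat_lit 312) (nat_lit 684) (nat_lit 0) (XT.nd (nat_lit 156) (nat_lit 304) (nat_lit 0) (XT.nd (nat_lit 78) (nat_lit 228) (nat_lit 0) (XT.lf (nat_lit 76) (nat_lit 3053906495) (nat_lit 0) (nat_lit 2633748070) (nat_lit 228) (nat_lit 772770211) (nat_lit 398) (nat_lit 5) (nat_lit 397) (nat_lit 3) (nat_lit 400) (nat_lit 5) (nat_lit 343) (nat_lit 341) (nat_lit 336)) (XT.lf (nat_lit 0) (nat_lit 2123657083) (nat_lit 228) (nat_lit 147506104) (nat_lit 304) (nat_lit 4200783078) (nat_lit 394) (nat_lit 5) (nat_lit 397) (nat_lit 3) (nat_lit 398) (nat_lit 5) (nat_lit 344) (nat_lit 341) (nat_lit 335))) (XT.nd (nat_lit 78) (nat_lit 304) (nat_lit 0) (XT.lf (nat_lit 76) (nat_lit 3204371202) (nat_lit 0) (nat_lit 1806750604) (nat_lit 304) (nat_lit 1474936803) (nat_lit 395) (nat_lit 5) (nat_lit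 394) (nat_lit 5) (nat_lit 398) (nat_lit 5) (nat_lit 345) (nat_lit 341) (nat_lit 334)) (XT.lf (nat_lit 76) (nat_lit 85216816) (nat_lit 0) (nat_lit 1263158581) (nat_lit 380) (nat_lit 5155070220) (nat_lit 391) (nat_lit 5) (nat_lit 390) (nat_lit 5) (nat_lit 395) (nat_lit 5) (nat_lit 346) (nat_lit 341) (nat_lit 333)))) (XT.nd (nat_lit 156) (nat_lit 380) (nat_lit 0) (XT.nd (nat_lit 78) (nat_lit 304) (nat_lit 0) (XT.lf (nat_lit 76) (nat_lit 3544668713) (nat_lit 0) (nat_lit 608082209) (nat_lit 380) (nat_lit 2370444473) (nat_lit 391) (nat_lit 5) (nat_lit 390) (nat_lit 5) (nat_lit 395) (nat_lit 5) (nat_lit 347) (nat_lit 341) (nat_lit 332)) (XT.lf (nat_lit 0) (nat_lit 389094966) (nat_lit 380) (nat_lit 6039318382) (nat_lit 76) (nat_lit 118004276) (nat_lit 386) (nat_lit 5) (nat_lit 391) (nat_lit 5) (nat_lit 387) (nat_lit 5) (nat_lit 348) (nat_lit 341) (nat_lit 331))) (XT.nd (nat_lit 78) (nat_lit 380) (nat_lit 0) (XT.lf (nat_lit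 0) (nat_lit 3118093854) (nat_lit 380) (nat_lit 2505012687) (nat_lit 76) (nat_lit 948550850) (nat_lit 386) (nat_lit 5) (nat_lit 391) (nat_lit 5) (nat_lit 387) (nat_lit 5) (nat_lit 349) (nat_lit 341) (nat_lit 330)) (XT.lf (nat_lit 0) (nat_lit 1094404998) (nat_lit 380) (nat_lit 4745972133) (nat_lit 456) (nat_lit 759987673) (nat_lit 381) (nat_lit 5) (nat_lit 386) (nat_lit 5) (nat_lit 387) (nat_lit 5) (nat_lit 350) (nat_lit 341) (nat_lit 329))))))))
noncomputable def xc103 : XT := (XT.nd (nat_lit 2262) (nat_lit 7372) (nat_lit 0) (XT.nd (nat_lit 1092) (nat_lit 7144) (nat_lit 0) (XT.nd (nat_lit 546) (nat_lit 3724) (nat_lit 0) (XT.nd (nat_lit 234) (nat_lit 1900) (nat_lit 0) (XT.nd (nat_lit 78) (nat_lit 532) (nat_lit 0) (XT.lf (nat_lit 0) (nat_lit 1902812818) (nat_lit 456) (nat_lit 1859292219) (nat_lit 76) (nat_lit 2869465580) (nat_lit 380) (nat_lit 5) (nat_lit 386) (nat_lit 5) (nat_lit 381) (nat_lit 5) (nat_lit 351) (nat_lit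 341) (nat_lit 328)) (XT.nd (nat_lit 78) (nat_lit 76) (nat_lit 0) (XT.lf (nat_lit 0) (nat_lit 1863815554) (nat_lit 456) (nat_lit 2689351346) (nat_lit 532) (nat_lit 2112680024) (nat_lit 374) (nat_lit 5) (nat_lit 380) (nat_lit 5) (nat_lit 381) (nat_lit 5) (nat_lit 352) (nat_lit 341) (nat_lit 327)) (XT.lf (nat_lit 0) (nat_lit 495728105) (nat_lit 532) (nat_lit 1032747950) (nat_lit 76) (nat_lit 5174797205) (nat_lit 373) (nat_lit 5) (nat_lit 380) (nat_lit 5) (nat_lit 374) (nat_lit 5) (nat_lit 353) (nat_lit 341) (nat_lit 326)))) (XT.nd (nat_lit 156) (nat_lit 1368) (nat_lit 0) (XT.nd (nat_lit 78) (nat_lit 0) (nat_lit 0) (XT.lf (nat_lit 0) (nat_lit 2822501052) (nat_lit 532) (nat_lit 253528586) (nat_lit 608) (nat_lit 3667126391) (nat_lit 366) (nat_lit 5) (nat_lit 373) (nat_lit 5) (nat_lit 374) (nat_lit 5) (nat_lit 354) (nat_lit 341) (nat_lit 325)) (XT.lf (nat_lit 0) (nat_lit 5665770699) (nat_lit 608) (nat_lit 43289455) (nat_lit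 76) (nat_lit 1077257212) (nat_lit 366) (nat_lit 5) (nat_lit 374) (nat_lit 5) (nat_lit 367) (nat_lit 5) (nat_lit 355) (nat_lit 341) (nat_lit 324))) (XT.nd (nat_lit 78) (nat_lit 684) (nat_lit 0) (XT.lf (nat_lit 0) (nat_lit 1427125757) (nat_lit 684) (nat_lit 2882745433) (nat_lit 76) (nat_lit 2521889224) (nat_lit 357) (nat_lit 5) (nat_lit 366) (nat_lit 5) (nat_lit 358) (nat_lit 5) (nat_lit 356) (nat_lit 341) (nat_lit 323)) (XT.lf (nat_lit 0) (nat_lit 1131474914) (nat_lit 684) (nat_lit 2823491318) (nat_lit 760) (nat_lit 2925519243) (nat_lit 348) (nat_lit 5) (nat_lit 357) (nat_lit 5) (nat_lit 358) (nat_lit 5) (nat_lit 357) (nat_lit 341) (nat_lit 322))))) (XT.nd (nat_lit 234) (nat_lit 2888) (nat_lit 0) (XT.nd (nat_lit 78) (nat_lit 836) (nat_lit 0) (XT.lf (nat_lit 0) (nat_lit 5262904573) (nat_lit 684) (nat_lit 1241667736) (nat_lit 760) (nat_lit 427760272) (nat_lit 348) (nat_lit 5) (nat_lit 357) (nat_lit 5) (nat_lit 358)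 (nat_lit 5) (nat_lit 358) (nat_lit 341) (nat_lit 321)) (XT.nd (nat_lit 78) (nat_lit 0) (nat_lit 0) (XT.lf (nat_lit 0) (nat_lit 2049855269) (nat_lit 836) (nat_lit 4492711497) (nat_lit 76) (nat_lit 444182421) (nat_lit 337) (nat_lit 5) (nat_lit 348) (nat_lit 5) (nat_lit 338) (nat_lit 5) (nat_lit 359) (nat_lit 341) (nat_lit 320)) (XT.lf (nat_lit 0) (nat_lit 4542887811) (nat_lit 836) (nat_lit 306510579) (nat_lit 76) (nat_lit 2194817222) (nat_lit 337) (nat_lit 5) (nat_lit 348) (nat_lit 5) (nat_lit 338) (nat_lit 5) (nat_lit 360) (nat_lit 341) (nat_lit 319)))) (XT.nd (nat_lit 156) (nat_lit 1064) (nat_lit 0) (XT.nd (nat_lit 78) (nat_lit 988) (nat_lit 0) (XT.lf (nat_lit 0) (nat_lit 4021467025) (nat_lit 836) (nat_lit 3050587991) (nat_lit 912) (nat_lit 32544650) (nat_lit 326) (nat_lit 5) (nat_lit 337) (nat_lit 5) (nat_lit 338) (nat_lit 5) (nat_lit 361) (nat_lit 341) (nat_lit 318)) (XT.lf (nat_lit 0) (nat_lit 1255987123) (nat_lit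 912) (nat_lit 1144093488) (nat_lit 988) (nat_lit 4767859799) (nat_lit 313) (nat_lit 5) (nat_lit 325) (nat_lit 5) (nat_lit 326) (nat_lit 5) (nat_lit 362) (nat_lit 341) (nat_lit 317))) (XT.nd (nat_lit 78) (nat_lit 1064) (nat_lit 0) (XT.lf (nat_lit 0) (nat_lit 4869657155) (nat_lit 988) (nat_lit 1517272737) (nat_lit 76) (nat_lit 847334084) (nat_lit 313) (nat_lit 5) (nat_lit 326) (nat_lit 5) (nat_lit 314) (nat_lit 5) (nat_lit 363) (nat_lit 341) (nat_lit 316)) (XT.lf (nat_lit 0) (nat_lit 75814434) (nat_lit 1064) (nat_lit 4311099023) (nat_lit 76) (nat_lit 2916644184) (nat_lit 299) (nat_lit 5) (nat_lit 313) (nat_lit 5) (nat_lit 300) (nat_lit 5) (nat_lit 364) (nat_lit 341) (nat_lit 315)))))) (XT.nd (nat_lit 546) (nat_lit 2888) (nat_lit 0) (XT.nd (nat_lit 234) (nat_lit 2052) (nat_lit 0) (XT.nd (nat_lit 78) (nat_lit 1140) (nat_lit 0) (XT.lf (nat_lit 0) (nat_lit 210719855) (nat_lit 1064) (nat_lit 2276962617) (nat_lit 1140)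 (nat_lit 4888200903) (nat_lit 285) (nat_lit 5) (nat_lit 299) (nat_lit 5) (nat_lit 300) (nat_lit 5) (nat_lit 365) (nat_lit 341) (nat_lit 314)) (XT.nd (nat_lit 78) (nat_lit 1140) (nat_lit 0) (XT.lf (nat_lit 0) (nat_lit 4893251044) (nat_lit 1064) (nat_lit 51931646) (nat_lit 1140) (nat_lit 2506025506) (nat_lit 285) (nat_lit 5) (nat_lit 299) (nat_lit 5) (nat_lit 300) (nat_lit 5) (nat_lit 366) (nat_lit 341) (nat_lit 313)) (XT.lf (nat_lit 0) (nat_lit 2144165653) (nat_lit 1140) (nat_lit 5306237720) (nat_lit 1216) (nat_lit 79196322) (nat_lit 270) (nat_lit 5) (nat_lit 285) (nat_lit 5) (nat_lit 286) (nat_lit 5) (nat_lit 367) (nat_lit 341) (nat_lit 312)))) (XT.nd (nat_lit 156) (nat_lit 760) (nat_lit 0) (XT.nd (nat_lit 78) (nat_lit 1216) (nat_lit 0) (XT.lf (nat_lit 0) (nat_lit 2332352986) (nat_lit 1216) (nat_lit 658170351) (nat_lit 76) (nat_lit 4620372457) (nat_lit 269) (nat_lit 5) (nat_lit 285) (nat_lit 5) (nat_lit 270) (nat_lit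 5) (nat_lit 368) (nat_lit 341) (nat_lit 311)) (XT.lf (nat_lit 0) (nat_lit 4230194399) (nat_lit 1216) (nat_lit 559636926) (nat_lit 1292) (nat_lit 2905545218) (nat_lit 253) (nat_lit 5) (nat_lit 269) (nat_lit 5) (nat_lit 270) (nat_lit 5) (nat_lit 369) (nat_lit 341) (nat_lit 310))) (XT.nd (nat_lit 78) (nat_lit 76) (nat_lit 0) (XT.lf (nat_lit 0) (nat_lit 1442057109) (nat_lit 684) (nat_lit 5854085535) (nat_lit 760) (nat_lit 487019622) (nat_lit 244) (nat_lit 5) (nat_lit 253) (nat_lit 5) (nat_lit 254) (nat_lit 5) (nat_lit 370) (nat_lit 341) (nat_lit 309)) (XT.lf (nat_lit 0) (nat_lit 1942295846) (nat_lit 760) (nat_lit 1394636047) (nat_lit 76) (nat_lit 4536773964) (nat_lit 243) (nat_lit 5) (nat_lit 253) (nat_lit 5) (nat_lit 244) (nat_lit 5) (nat_lit 371) (nat_lit 341) (nat_lit 308))))) (XT.nd (nat_lit 312) (nat_lit 1064) (nat_lit 0) (XT.nd (nat_lit 156) (nat_lit 608) (nat_lit 0) (XT.nd (nat_lit 78) (nat_lit 608) (nat_lit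 0) (XT.lf (nat_lit 0) (nat_lit 3705084379) (nat_lit 608) (nat_lit 703545569) (nat_lit 684) (nat_lit 3558995101) (nat_lit 235) (nat_lit 5) (nat_lit 243) (nat_lit 5) (nat_lit 244) (nat_lit 5) (nat_lit 372) (nat_lit 341) (nat_lit 307)) (XT.lf (nat_lit 0) (nat_lit 855869646) (nat_lit 608) (nat_lit 6074342646) (nat_lit 684) (nat_lit 1134732932) (nat_lit 227) (nat_lit 5) (nat_lit 235) (nat_lit 5) (nat_lit 236) (nat_lit 5) (nat_lit 373) (nat_lit 341) (nat_lit 306))) (XT.nd (nat_lit 78) (nat_lit 532) (nat_lit 0) (XT.lf (nat_lit 0) (nat_lit 1326155077) (nat_lit 684) (nat_lit 2033585300) (nat_lit 76) (nat_lit 4805357306) (nat_lit 226) (nat_lit 5) (nat_lit 235) (nat_lit 5) (nat_lit 227) (nat_lit 5) (nat_lit 374) (nat_lit 341) (nat_lit 305)) (XT.lf (nat_lit 0) (nat_lit 3287547815) (nat_lit 532) (nat_lit 523908325) (nat_lit 608) (nat_lit 4457279080) (nat_lit 219) (nat_lit 5) (nat_lit 226) (nat_lit 5) (nat_lit 227) (nat_lit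 5) (nat_lit 375) (nat_lit 341) (nat_lit 304)))) (XT.nd (nat_lit 156) (nat_lit 456) (nat_lit 0) (XT.nd (nat_lit 78) (nat_lit 76) (nat_lit 0) (XT.lf (nat_lit 0) (nat_lit 355210903) (nat_lit 532) (nat_lit 6006145119) (nat_lit 608) (nat_lit 2014443463) (nat_lit 212) (nat_lit 5) (nat_lit 219) (nat_lit 5) (nat_lit 220) (nat_lit 5) (nat_lit 376) (nat_lit 341) (nat_lit 303)) (XT.lf (nat_lit 0) (nat_lit 491204403) (nat_lit 608) (nat_lit 2605397010) (nat_lit 76) (nat_lit 5389367807) (nat_lit 211) (nat_lit 5) (nat_lit 219) (nat_lit 5) (nat_lit 212) (nat_lit 5) (nat_lit 377) (nat_lit 341) (nat_lit 302))) (XT.nd (nat_lit 78) (nat_lit 0) (nat_lit 0) (XT.lf (nat_lit 0) (nat_lit 2947557449) (nat_lit 456) (nat_lit 57291461) (nat_lit 532) (nat_lit 5594814520) (nat_lit 205) (nat_lit 5) (nat_lit 211) (nat_lit 5) (nat_lit 212) (nat_lit 5) (nat_lit 378) (nat_lit 341) (nat_lit 301)) (XT.lf (nat_lit 0) (nat_lit 5595932204) (nat_lit 532)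 (nat_lit 88490845) (nat_lit 76) (nat_lit 3032301234) (nat_lit 205) (nat_lit 5) (nat_lit 212) (nat_lit 5) (nat_lit 206) (nat_lit 5) (nat_lit 379) (nat_lit 341) (nat_lit 300))))))) (XT.nd (nat_lit 1092) (nat_lit 2888) (nat_lit 0) (XT.nd (nat_lit 546) (nat_lit 1976) (nat_lit 0) (XT.nd (nat_lit 234) (nat_lit 1444) (nat_lit 0) (XT.nd (nat_lit 78) (nat_lit 532) (nat_lit 0) (XT.lf (nat_lit 0) (nat_lit 5691143176) (nat_lit 532) (nat_lit 2576372115) (nat_lit 608) (nat_lit 569714863) (nat_lit 198) (nat_lit 5) (nat_lit 205) (nat_lit 5) (nat_lit 206) (nat_lit 5) (nat_lit 380) (nat_lit 341) (nat_lit 299)) (XT.nd (nat_lit 78) (nat_lit 0) (nat_lit 0) (XT.lf (nat_lit 0) (nat_lit 1998443575) (nat_lit 532) (nat_lit 6313070392) (nat_lit 76) (nat_lit 649837886) (nat_lit 191) (nat_lit 5) (nat_lit 198) (nat_lit 5) (nat_lit 192) (nat_lit 5) (nat_lit 381) (nat_lit 341) (nat_lit 298)) (XT.lf (nat_lit 0) (nat_lit 4638532921) (nat_lit 532)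 (nat_lit 501409345) (nat_lit 76) (nat_lit 3948910447) (nat_lit 191) (nat_lit 5) (nat_lit 198) (nat_lit 5) (nat_lit 192) (nat_lit 5) (nat_lit 382) (nat_lit 341) (nat_lit 297)))) (XT.nd (nat_lit 156) (nat_lit 456) (nat_lit 0) (XT.nd (nat_lit 78) (nat_lit 532) (nat_lit 0) (XT.lf (nat_lit 0) (nat_lit 5531696357) (nat_lit 456) (nat_lit 1829539889) (nat_lit 532) (nat_lit 1858854420) (nat_lit 185) (nat_lit 5) (nat_lit 191) (nat_lit 5) (nat_lit 192) (nat_lit 5) (nat_lit 383) (nat_lit 341) (nat_lit 296)) (XT.lf (nat_lit 0) (nat_lit 788556234) (nat_lit 532) (nat_lit 6992837483) (nat_lit 76) (nat_lit 1573831499) (nat_lit 178) (nat_lit 5) (nat_lit 185) (nat_lit 5) (nat_lit 179) (nat_lit 5) (nat_lit 384) (nat_lit 341) (nat_lit 295))) (XT.nd (nat_lit 78) (nat_lit 456) (nat_lit 0) (XT.lf (nat_lit 0) (nat_lit 3485105452) (nat_lit 532) (nat_lit 921883046) (nat_lit 76) (nat_lit 5086674031) (nat_lit 178) (nat_lit 5) (nat_lit 185)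 (nat_lit 5) (nat_lit 179) (nat_lit 5) (nat_lit 385) (nat_lit 341) (nat_lit 294)) (XT.lf (nat_lit 0) (nat_lit 5375908414) (nat_lit 456) (nat_lit 891085079) (nat_lit 532) (nat_lit 3369138996) (nat_lit 172) (nat_lit 5) (nat_lit 178) (nat_lit 5) (nat_lit 179) (nat_lit 5) (nat_lit 386) (nat_lit 341) (nat_lit 293))))) (XT.nd (nat_lit 234) (nat_lit 1140) (nat_lit 0) (XT.nd (nat_lit 78) (nat_lit 456) (nat_lit 0) (XT.lf (nat_lit 0) (nat_lit 2051750107) (nat_lit 380) (nat_lit 7089399389) (nat_lit 456) (nat_lit 641475137) (nat_lit 167) (nat_lit 5) (nat_lit 172) (nat_lit 5) (nat_lit 173) (nat_lit 5) (nat_lit 387) (nat_lit 341) (nat_lit 292)) (XT.nd (nat_lit 78) (nat_lit 380) (nat_lit 0) (XT.lf (nat_lit 0) (nat_lit 2131734686) (nat_lit 456) (nat_lit 1383114643) (nat_lit 76) (nat_lit 6417868057) (nat_lit 166) (nat_lit 5) (nat_lit 172) (nat_lit 5) (nat_lit 167) (nat_lit 5) (nat_lit 388) (nat_lit 341) (nat_lit 291)) (XT.lf (nat_lit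 0) (nat_lit 4982265082) (nat_lit 456) (nat_lit 4898427767) (nat_lit 76) (nat_lit 206230388) (nat_lit 161) (nat_lit 5) (nat_lit 167) (nat_lit 5) (nat_lit 162) (nat_lit 5) (nat_lit 389) (nat_lit 341) (nat_lit 290)))) (XT.nd (nat_lit 156) (nat_lit 684) (nat_lit 0) (XT.nd (nat_lit 78) (nat_lit 76) (nat_lit 0) (XT.lf (nat_lit 0) (nat_lit 1678028244) (nat_lit 380) (nat_lit 6261020077) (nat_lit 456) (nat_lit 2306095875) (nat_lit 156) (nat_lit 5) (nat_lit 161) (nat_lit 5) (nat_lit 162) (nat_lit 5) (nat_lit 390) (nat_lit 341) (nat_lit 289)) (XT.lf (nat_lit 0) (nat_lit 571107328) (nat_lit 456) (nat_lit 1920812935) (nat_lit 76) (nat_lit 7915857735) (nat_lit 155) (nat_lit 5) (nat_lit 161) (nat_lit 5) (nat_lit 156) (nat_lit 5) (nat_lit 391) (nat_lit 341) (nat_lit 288))) (XT.nd (nat_lit 78) (nat_lit 304) (nat_lit 0) (XT.lf (nat_lit 0) (nat_lit 3506929191) (nat_lit 456) (nat_lit 5648528230) (nat_lit 76) (nat_lit 1418598931) (nat_lit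 150) (nat_lit 5) (nat_lit 156) (nat_lit 5) (nat_lit 151) (nat_lit 5) (nat_lit 392) (nat_lit 341) (nat_lit 287)) (XT.lf (nat_lit 0) (nat_lit 1211538734) (nat_lit 304) (nat_lit 5332987846) (nat_lit 380) (nat_lit 4200395260) (nat_lit 146) (nat_lit 5) (nat_lit 150) (nat_lit 5) (nat_lit 151) (nat_lit 5) (nat_lit 393) (nat_lit 341) (nat_lit 286)))))) (XT.nd (nat_lit 546) (nat_lit 1444) (nat_lit 0) (XT.nd (nat_lit 234) (nat_lit 684) (nat_lit 0) (XT.nd (nat_lit 78) (nat_lit 760) (nat_lit 0) (XT.lf (nat_lit 0) (nat_lit 8334645460) (nat_lit 304) (nat_lit 1354105816) (nat_lit 380) (nat_lit 1231706557) (nat_lit 146) (nat_lit 5) (nat_lit 150) (nat_lit 5) (nat_lit 151) (nat_lit 5) (nat_lit 394) (nat_lit 341) (nat_lit 285)) (XT.nd (nat_lit 78) (nat_lit 304) (nat_lit 0) (XT.lf (nat_lit 0) (nat_lit 1820566052) (nat_lit 456) (nat_lit 6543042972) (nat_lit 76) (nat_lit 2736228590) (nat_lit 140) (nat_lit 5) (nat_lit 146) (nat_lit 5)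 (nat_lit 141) (nat_lit 5) (nat_lit 395) (nat_lit 341) (nat_lit 284)) (XT.lf (nat_lit 0) (nat_lit 610780072) (nat_lit 304) (nat_lit 4334255128) (nat_lit 380) (nat_lit 6339044917) (nat_lit 136) (nat_lit 5) (nat_lit 140) (nat_lit 5) (nat_lit 141) (nat_lit 5) (nat_lit 396) (nat_lit 341) (nat_lit 283)))) (XT.nd (nat_lit 156) (nat_lit 380) (nat_lit 0) (XT.nd (nat_lit 78) (nat_lit 304) (nat_lit 0) (XT.lf (nat_lit 0) (nat_lit 8055764998) (nat_lit 304) (nat_lit 133900679) (nat_lit 380) (nat_lit 3283399862) (nat_lit 136) (nat_lit 5) (nat_lit 140) (nat_lit 5) (nat_lit 141) (nat_lit 5) (nat_lit 397) (nat_lit 341) (nat_lit 282)) (XT.lf (nat_lit 0) (nat_lit 4037976620) (nat_lit 304) (nat_lit 7534117156) (nat_lit 380) (nat_lit 94421199) (nat_lit 132) (nat_lit 5) (nat_lit 136) (nat_lit 5) (nat_lit 137) (nat_lit 5) (nat_lit 398) (nat_lit 341) (nat_lit 281))) (XT.nd (nat_lit 78) (nat_lit 304) (nat_lit 0) (XT.lf (nat_lit 0) (nat_lit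 3125691723) (nat_lit 380) (nat_lit 167215648) (nat_lit 76) (nat_lit 8572016744) (nat_lit 131) (nat_lit 5) (nat_lit 136) (nat_lit 5) (nat_lit 132) (nat_lit 5) (nat_lit 399) (nat_lit 341) (nat_lit 280)) (XT.lf (nat_lit 0) (nat_lit 6487223409) (nat_lit 380) (nat_lit 4469026222) (nat_lit 76) (nat_lit 1111613974) (nat_lit 127) (nat_lit 5) (nat_lit 132) (nat_lit 5) (nat_lit 128) (nat_lit 5) (nat_lit 400) (nat_lit 341) (nat_lit 279))))) (XT.nd (nat_lit 312) (nat_lit 532) (nat_lit 0) (XT.nd (nat_lit 156) (nat_lit 532) (nat_lit 0) (XT.nd (nat_lit 78) (nat_lit 76) (nat_lit 0) (XT.lf (nat_lit 0) (nat_lit 3300400206) (nat_lit 304) (nat_lit 6678282476) (nat_lit 380) (nat_lit 2297343447) (nat_lit 123) (nat_lit 5) (nat_lit 127) (nat_lit 5) (nat_lit 128) (nat_lit 5) (nat_lit 401) (nat_lit 341) (nat_lit 278)) (XT.lf (nat_lit 0) (nat_lit 1072091049) (nat_lit 380) (nat_lit 1161463993) (nat_lit 76) (nat_lit 10256308622) (nat_lit 122)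 (nat_lit 5) (nat_lit 127) (nat_lit 5) (nat_lit 123) (nat_lit 5) (nat_lit 402) (nat_lit 341) (nat_lit 277))) (XT.nd (nat_lit 78) (nat_lit 304) (nat_lit 0) (XT.lf (nat_lit 0) (nat_lit 4550738442) (nat_lit 304) (nat_lit 5786244663) (nat_lit 76) (nat_lit 2370828395) (nat_lit 119) (nat_lit 5) (nat_lit 123) (nat_lit 5) (nat_lit 120) (nat_lit 5) (nat_lit 403) (nat_lit 341) (nat_lit 276)) (XT.lf (nat_lit 0) (nat_lit 2306988581) (nat_lit 304) (nat_lit 5847530687) (nat_lit 380) (nat_lit 4777161766) (nat_lit 115) (nat_lit 5) (nat_lit 119) (nat_lit 5) (nat_lit 120) (nat_lit 5) (nat_lit 404) (nat_lit 341) (nat_lit 275)))) (XT.nd (nat_lit 156) (nat_lit 228) (nat_lit 0) (XT.nd (nat_lit 78) (nat_lit 304) (nat_lit 0) (XT.lf (nat_lit 0) (nat_lit 10707417834) (nat_lit 304) (nat_lit 1182573004) (nat_lit 380) (nat_lit 1271574793) (nat_lit 115) (nat_lit 5) (nat_lit 119) (nat_lit 5) (nat_lit 120) (nat_lit 5) (nat_lit 405) (nat_lit 341)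 (nat_lit 274)) (XT.lf (nat_lit 0) (nat_lit 2352488697) (nat_lit 304) (nat_lit 7429558186) (nat_lit 76) (nat_lit 3613862606) (nat_lit 111) (nat_lit 5) (nat_lit 115) (nat_lit 5) (nat_lit 112) (nat_lit 5) (nat_lit 406) (nat_lit 341) (nat_lit 273))) (XT.nd (nat_lit 78) (nat_lit 0) (nat_lit 0) (XT.lf (nat_lit 0) (nat_lit 994464013) (nat_lit 228) (nat_lit 5077674159) (nat_lit 304) (nat_lit 7564400913) (nat_lit 108) (nat_lit 5) (nat_lit 111) (nat_lit 5) (nat_lit 112) (nat_lit 5) (nat_lit 407) (nat_lit 341) (nat_lit 272)) (XT.lf (nat_lit 0) (nat_lit 9770400824) (nat_lit 228) (nat_lit 174602409) (nat_lit 304) (nat_lit 3938141147) (nat_lit 108) (nat_lit 5) (nat_lit 111) (nat_lit 5) (nat_lit 112) (nat_lit 5) (nat_lit 408) (nat_lit 341) (nat_lit 271))))))))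
noncomputable def xc104 : XT := (XT.nd (nat_lit 2184) (nat_lit 1976) (nat_lit 0) (XT.nd (nat_lit 1092) (nat_lit 1520) (nat_lit 0) (XT.nd (nat_lit 546) (nat_lit 912) (nat_lit 0) (XT.nd (nat_lit 234) (nat_lit 684) (nat_lit 0) (XT.nd (nat_lit 78) (nat_lit 304) (nat_lit 0) (XT.lf (nat_lit 0) (nat_lit 4664265402) (nat_lit 228) (nat_lit 9328882465) (nat_lit 304) (nat_lit 142232588) (nat_lit 105) (nat_lit 5) (nat_lit 108) (nat_lit 5) (nat_lit 109) (nat_lit 5) (nat_lit 409) (nat_lit 341) (nat_lit 270)) (XT.nd (nat_lit 78) (nat_lit 228) (nat_lit 0) (XT.lf (nat_lit 0) (nat_lit 3705224146) (nat_lit 304) (nat_lit 695892353) (nat_lit 76) (nat_lit 9992650069) (nat_lit 104) (nat_lit 5) (nat_lit 108) (nat_lit 5) (nat_lit 105) (nat_lit 5) (nat_lit 410) (nat_lit 341) (nat_lit 269)) (XT.lf (nat_lit 0) (nat_lit 7722102876) (nat_lit 304) (nat_lit 6210281530) (nat_lit 76) (nat_lit 725776870) (nat_lit 101) (nat_lit 5) (nat_lit 105) (nat_lit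 5) (nat_lit 102) (nat_lit 5) (nat_lit 411) (nat_lit 341) (nat_lit 268)))) (XT.nd (nat_lit 156) (nat_lit 380) (nat_lit 0) (XT.nd (nat_lit 78) (nat_lit 76) (nat_lit 0) (XT.lf (nat_lit 0) (nat_lit 2911916261) (nat_lit 228) (nat_lit 8994947212) (nat_lit 304) (nat_lit 3022207912) (nat_lit 98) (nat_lit 5) (nat_lit 101) (nat_lit 5) (nat_lit 102) (nat_lit 5) (nat_lit 412) (nat_lit 341) (nat_lit 267)) (XT.lf (nat_lit 0) (nat_lit 1021526200) (nat_lit 304) (nat_lit 2832800085) (nat_lit 76) (nat_lit 11352531316) (nat_lit 97) (nat_lit 5) (nat_lit 101) (nat_lit 5) (nat_lit 98) (nat_lit 5) (nat_lit 413) (nat_lit 341) (nat_lit 266))) (XT.nd (nat_lit 78) (nat_lit 152) (nat_lit 0) (XT.lf (nat_lit 0) (nat_lit 5174342982) (nat_lit 304) (nat_lit 8828031347) (nat_lit 76) (nat_lit 1488254383) (nat_lit 94) (nat_lit 5) (nat_lit 98) (nat_lit 5) (nat_lit 95) (nat_lit 5) (nat_lit 414) (nat_lit 341) (nat_lit 265)) (XT.lf (nat_lit 0) (nat_lit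 642906632) (nat_lit 152) (nat_lit 8852021864) (nat_lit 228) (nat_lit 6286693222) (nat_lit 92) (nat_lit 5) (nat_lit 94) (nat_lit 5) (nat_lit 95) (nat_lit 5) (nat_lit 415) (nat_lit 341) (nat_lit 264))))) (XT.nd (nat_lit 234) (nat_lit 608) (nat_lit 0) (XT.nd (nat_lit 78) (nat_lit 304) (nat_lit 0) (XT.lf (nat_lit 0) (nat_lit 10529364078) (nat_lit 152) (nat_lit 3475265518) (nat_lit 228) (nat_lit 2074934138) (nat_lit 92) (nat_lit 5) (nat_lit 94) (nat_lit 5) (nat_lit 95) (nat_lit 5) (nat_lit 416) (nat_lit 341) (nat_lit 263)) (XT.nd (nat_lit 78) (nat_lit 0) (nat_lit 0) (XT.lf (nat_lit 0) (nat_lit 2251930886) (nat_lit 304) (nat_lit 12065488611) (nat_lit 76) (nat_lit 2067388308) (nat_lit 88) (nat_lit 5) (nat_lit 92) (nat_lit 5) (nat_lit 89) (nat_lit 5) (nat_lit 417) (nat_lit 341) (nat_lit 262)) (XT.lf (nat_lit 0) (nat_lit 6729029381) (nat_lit 304) (nat_lit 2203250257) (nat_lit 76) (nat_lit 7764453104) (nat_lit 88) (nat_lit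 5) (nat_lit 92) (nat_lit 5) (nat_lit 89) (nat_lit 5) (nat_lit 418) (nat_lit 341) (nat_lit 261)))) (XT.nd (nat_lit 156) (nat_lit 228) (nat_lit 0) (XT.nd (nat_lit 78) (nat_lit 228) (nat_lit 0) (XT.lf (nat_lit 0) (nat_lit 8064739674) (nat_lit 152) (nat_lit 3325187498) (nat_lit 228) (nat_lit 5626607363) (nat_lit 86) (nat_lit 5) (nat_lit 88) (nat_lit 5) (nat_lit 89) (nat_lit 5) (nat_lit 419) (nat_lit 341) (nat_lit 260)) (XT.lf (nat_lit 0) (nat_lit 1294488795) (nat_lit 228) (nat_lit 14926769069) (nat_lit 304) (nat_lit 1123757929) (nat_lit 83) (nat_lit 5) (nat_lit 86) (nat_lit 5) (nat_lit 87) (nat_lit 5) (nat_lit 420) (nat_lit 341) (nat_lit 259))) (XT.nd (nat_lit 78) (nat_lit 152) (nat_lit 0) (XT.lf (nat_lit 0) (nat_lit 3542039662) (nat_lit 304) (nat_lit 5764332431) (nat_lit 76) (nat_lit 8373076260) (nat_lit 82) (nat_lit 5) (nat_lit 86) (nat_lit 5) (nat_lit 83) (nat_lit 5) (nat_lit 421) (nat_lit 341) (nat_lit 258)) (XT.lf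 (nat_lit 0) (nat_lit 4867945114) (nat_lit 152) (nat_lit 3477106027) (nat_lit 228) (nat_lit 9677937453) (nat_lit 80) (nat_lit 5) (nat_lit 82) (nat_lit 5) (nat_lit 83) (nat_lit 5) (nat_lit 422) (nat_lit 341) (nat_lit 257)))))) (XT.nd (nat_lit 546) (nat_lit 760) (nat_lit 0) (XT.nd (nat_lit 234) (nat_lit 380) (nat_lit 0) (XT.nd (nat_lit 78) (nat_lit 380) (nat_lit 0) (XT.lf (nat_lit 0) (nat_lit 13348420574) (nat_lit 228) (nat_lit 2509131956) (nat_lit 76) (nat_lit 2517597673) (nat_lit 80) (nat_lit 5) (nat_lit 83) (nat_lit 5) (nat_lit 81) (nat_lit 5) (nat_lit 423) (nat_lit 341) (nat_lit 256)) (XT.nd (nat_lit 78) (nat_lit 228) (nat_lit 0) (XT.lf (nat_lit 0) (nat_lit 8543265676) (nat_lit 152) (nat_lit 10049147534) (nat_lit 228) (nat_lit 142750886) (nat_lit 78) (nat_lit 5) (nat_lit 80) (nat_lit 5) (nat_lit 81) (nat_lit 5) (nat_lit 424) (nat_lit 341) (nat_lit 255)) (XT.lf (nat_lit 0) (nat_lit 796508608) (nat_lit 152) (nat_lit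 4003148698) (nat_lit 228) (nat_lit 14304695867) (nat_lit 75) (nat_lit 5) (nat_lit 77) (nat_lit 5) (nat_lit 78) (nat_lit 5) (nat_lit 425) (nat_lit 341) (nat_lit 254)))) (XT.nd (nat_lit 156) (nat_lit 228) (nat_lit 0) (XT.nd (nat_lit 78) (nat_lit 152) (nat_lit 0) (XT.lf (nat_lit 0) (nat_lit 9986970361) (nat_lit 228) (nat_lit 7227246415) (nat_lit 76) (nat_lit 2267376528) (nat_lit 75) (nat_lit 5) (nat_lit 78) (nat_lit 5) (nat_lit 76) (nat_lit 5) (nat_lit 426) (nat_lit 341) (nat_lit 253)) (XT.lf (nat_lit 0) (nat_lit 4183701015) (nat_lit 152) (nat_lit 11200989068) (nat_lit 228) (nat_lit 4483819689) (nat_lit 73) (nat_lit 5) (nat_lit 75) (nat_lit 5) (nat_lit 76) (nat_lit 5) (nat_lit 427) (nat_lit 341) (nat_lit 252))) (XT.nd (nat_lit 78) (nat_lit 152) (nat_lit 0) (XT.lf (nat_lit 0) (nat_lit 712793221) (nat_lit 228) (nat_lit 4231089938) (nat_lit 76) (nat_lit 15321496781) (nat_lit 72) (nat_lit 5) (nat_lit 75) (nat_lit 5) (nat_lit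 73) (nat_lit 5) (nat_lit 428) (nat_lit 341) (nat_lit 251)) (XT.lf (nat_lit 0) (nat_lit 6039649302) (nat_lit 228) (nat_lit 13058932466) (nat_lit 76) (nat_lit 1572311180) (nat_lit 70) (nat_lit 5) (nat_lit 73) (nat_lit 5) (nat_lit 71) (nat_lit 5) (nat_lit 429) (nat_lit 341) (nat_lit 250))))) (XT.nd (nat_lit 234) (nat_lit 380) (nat_lit 0) (XT.nd (nat_lit 78) (nat_lit 380) (nat_lit 0) (XT.lf (nat_lit 0) (nat_lit 11594257622) (nat_lit 228) (nat_lit 1282605431) (nat_lit 76) (nat_lit 8209672342) (nat_lit 70) (nat_lit 5) (nat_lit 73) (nat_lit 5) (nat_lit 71) (nat_lit 5) (nat_lit 430) (nat_lit 341) (nat_lit 249)) (XT.nd (nat_lit 78) (nat_lit 228) (nat_lit 0) (XT.lf (nat_lit 0) (nat_lit 11020330473) (nat_lit 152) (nat_lit 6377659799) (nat_lit 228) (nat_lit 4114184635) (nat_lit 68) (nat_lit 5) (nat_lit 70) (nat_lit 5) (nat_lit 71) (nat_lit 5) (nat_lit 431) (nat_lit 341) (nat_lit 248)) (XT.lf (nat_lit 0) (nat_lit 1407215373)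 (nat_lit 228) (nat_lit 20206351934) (nat_lit 76) (nat_lit 336314247) (nat_lit 65) (nat_lit 5) (nat_lit 68) (nat_lit 5) (nat_lit 66) (nat_lit 5) (nat_lit 432) (nat_lit 341) (nat_lit 247)))) (XT.nd (nat_lit 156) (nat_lit 228) (nat_lit 0) (XT.nd (nat_lit 78) (nat_lit 152) (nat_lit 0) (XT.lf (nat_lit 0) (nat_lit 7158421695) (nat_lit 228) (nat_lit 7983328437) (nat_lit 76) (nat_lit 7253343746) (nat_lit 65) (nat_lit 5) (nat_lit 68) (nat_lit 5) (nat_lit 66) (nat_lit 5) (nat_lit 433) (nat_lit 341) (nat_lit 246)) (XT.lf (nat_lit 0) (nat_lit 4656576381) (nat_lit 152) (nat_lit 8447742081) (nat_lit 228) (nat_lit 9748681590) (nat_lit 63) (nat_lit 5) (nat_lit 65) (nat_lit 5) (nat_lit 66) (nat_lit 5) (nat_lit 434) (nat_lit 341) (nat_lit 245))) (XT.nd (nat_lit 78) (nat_lit 228) (nat_lit 0) (XT.lf (nat_lit 0) (nat_lit 17799051571) (nat_lit 152) (nat_lit 1487820224) (nat_lit 228) (nat_lit 4036025274) (nat_lit 63) (nat_lit 5) (nat_lit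 65) (nat_lit 5) (nat_lit 66) (nat_lit 5) (nat_lit 435) (nat_lit 341) (nat_lit 244)) (XT.lf (nat_lit 0) (nat_lit 1918637875) (nat_lit 228) (nat_lit 16239855909) (nat_lit 76) (nat_lit 5644665562) (nat_lit 60) (nat_lit 5) (nat_lit 63) (nat_lit 5) (nat_lit 61) (nat_lit 5) (nat_lit 436) (nat_lit 341) (nat_lit 243))))))) (XT.nd (nat_lit 1092) (nat_lit 912) (nat_lit 0) (XT.nd (nat_lit 546) (nat_lit 532) (nat_lit 0) (XT.nd (nat_lit 234) (nat_lit 380) (nat_lit 0) (XT.nd (nat_lit 78) (nat_lit 152) (nat_lit 0) (XT.lf (nat_lit 0) (nat_lit 8020074808) (nat_lit 228) (nat_lit 3234736620) (nat_lit 76) (nat_lit 13040343497) (nat_lit 60) (nat_lit 5) (nat_lit 63) (nat_lit 5) (nat_lit 61) (nat_lit 5) (nat_lit 437) (nat_lit 341) (nat_lit 242)) (XT.nd (nat_lit 78) (nat_lit 0) (nat_lit 0) (XT.lf (nat_lit 0) (nat_lit 10323502468) (nat_lit 152) (nat_lit 4059114242) (nat_lit 228) (nat_lit 10416953625) (nat_lit 58) (nat_lit 5) (nat_lit 60)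 (nat_lit 5) (nat_lit 61) (nat_lit 5) (nat_lit 438) (nat_lit 341) (nat_lit 241)) (XT.lf (nat_lit 0) (nat_lit 20980159923) (nat_lit 228) (nat_lit 1034459390) (nat_lit 76) (nat_lit 3303176910) (nat_lit 58) (nat_lit 5) (nat_lit 61) (nat_lit 5) (nat_lit 59) (nat_lit 4) (nat_lit 439) (nat_lit 341) (nat_lit 240)))) (XT.nd (nat_lit 156) (nat_lit 76) (nat_lit 0) (XT.nd (nat_lit 78) (nat_lit 152) (nat_lit 0) (XT.lf (nat_lit 0) (nat_lit 2032490447) (nat_lit 152) (nat_lit 12880991728) (nat_lit 76) (nat_lit 10933154261) (nat_lit 56) (nat_lit 5) (nat_lit 58) (nat_lit 5) (nat_lit 57) (nat_lit 5) (nat_lit 440) (nat_lit 341) (nat_lit 239)) (XT.lf (nat_lit 0) (nat_lit 954007288) (nat_lit 152) (nat_lit 7551814936) (nat_lit 228) (nat_lit 17884254338) (nat_lit 54) (nat_lit 5) (nat_lit 56) (nat_lit 5) (nat_lit 57) (nat_lit 5) (nat_lit 441) (nat_lit 341) (nat_lit 238))) (XT.nd (nat_lit 78) (nat_lit 76) (nat_lit 0) (XT.lf (nat_lit 0)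 (nat_lit 15284648935) (nat_lit 228) (nat_lit 11516961406) (nat_lit 76) (nat_lit 144872272) (nat_lit 54) (nat_lit 5) (nat_lit 57) (nat_lit 5) (nat_lit 55) (nat_lit 4) (nat_lit 442) (nat_lit 341) (nat_lit 237)) (XT.lf (nat_lit 0) (nat_lit 2762382712) (nat_lit 76) (nat_lit 19586014164) (nat_lit 152) (nat_lit 5168738800) (nat_lit 53) (nat_lit 5) (nat_lit 54) (nat_lit 5) (nat_lit 55) (nat_lit 4) (nat_lit 443) (nat_lit 341) (nat_lit 236))))) (XT.nd (nat_lit 234) (nat_lit 304) (nat_lit 0) (XT.nd (nat_lit 78) (nat_lit 152) (nat_lit 0) (XT.lf (nat_lit 0) (nat_lit 1587221041) (nat_lit 152) (nat_lit 10447487462) (nat_lit 76) (nat_lit 16066831689) (nat_lit 52) (nat_lit 5) (nat_lit 54) (nat_lit 5) (nat_lit 53) (nat_lit 5) (nat_lit 444) (nat_lit 341) (nat_lit 235)) (XT.nd (nat_lit 78) (nat_lit 0) (nat_lit 0) (XT.lf (nat_lit 0) (nat_lit 4286012018) (nat_lit 152) (nat_lit 4178001659) (nat_lit 228) (nat_lit 20237268075) (nat_lit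 50) (nat_lit 5) (nat_lit 52) (nat_lit 5) (nat_lit 53) (nat_lit 5) (nat_lit 445) (nat_lit 341) (nat_lit 234)) (XT.lf (nat_lit 0) (nat_lit 15672187556) (nat_lit 228) (nat_lit 9714353657) (nat_lit 76) (nat_lit 3928723376) (nat_lit 50) (nat_lit 5) (nat_lit 53) (nat_lit 5) (nat_lit 51) (nat_lit 4) (nat_lit 446) (nat_lit 341) (nat_lit 233)))) (XT.nd (nat_lit 156) (nat_lit 152) (nat_lit 0) (XT.nd (nat_lit 78) (nat_lit 76) (nat_lit 0) (XT.lf (nat_lit 0) (nat_lit 5458257512) (nat_lit 76) (nat_lit 17713645845) (nat_lit 152) (nat_lit 6773505967) (nat_lit 49) (nat_lit 5) (nat_lit 50) (nat_lit 5) (nat_lit 51) (nat_lit 4) (nat_lit 447) (nat_lit 341) (nat_lit 232)) (XT.lf (nat_lit 0) (nat_lit 376814646) (nat_lit 152) (nat_lit 9344717396) (nat_lit 76) (nat_lit 20870423709) (nat_lit 48) (nat_lit 5) (nat_lit 50) (nat_lit 5) (nat_lit 49) (nat_lit 5) (nat_lit 448) (nat_lit 341) (nat_lit 231))) (XT.nd (nat_lit 78) (nat_lit 0) (nat_lit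 0) (XT.lf (nat_lit 0) (nat_lit 6273848201) (nat_lit 152) (nat_lit 1373994392) (nat_lit 228) (nat_lit 23606775094) (nat_lit 46) (nat_lit 5) (nat_lit 48) (nat_lit 5) (nat_lit 49) (nat_lit 5) (nat_lit 449) (nat_lit 341) (nat_lit 230)) (XT.lf (nat_lit 0) (nat_lit 15283826987) (nat_lit 228) (nat_lit 9485736123) (nat_lit 76) (nat_lit 7163192771) (nat_lit 46) (nat_lit 5) (nat_lit 49) (nat_lit 5) (nat_lit 47) (nat_lit 4) (nat_lit 450) (nat_lit 341) (nat_lit 229)))))) (XT.nd (nat_lit 546) (nat_lit 304) (nat_lit 0) (XT.nd (nat_lit 234) (nat_lit 304) (nat_lit 0) (XT.nd (nat_lit 78) (nat_lit 228) (nat_lit 0) (XT.lf (nat_lit 0) (nat_lit 6555890509) (nat_lit 76) (nat_lit 16652232063) (nat_lit 152) (nat_lit 9421339831) (nat_lit 45) (nat_lit 5) (nat_lit 46) (nat_lit 5) (nat_lit 47) (nat_lit 4) (nat_lit 451) (nat_lit 341) (nat_lit 228)) (XT.nd (nat_lit 78) (nat_lit 228) (nat_lit 0) (XT.lf (nat_lit 0) (nat_lit 23240950808) (nat_lit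 76) (nat_lit 8207788491) (nat_lit 152) (nat_lit 1895974155) (nat_lit 45) (nat_lit 5) (nat_lit 46) (nat_lit 5) (nat_lit 47) (nat_lit 4) (nat_lit 452) (nat_lit 341) (nat_lit 227)) (XT.lf (nat_lit 0) (nat_lit 5791114316) (nat_lit 228) (nat_lit 27702404727) (nat_lit 76) (nat_lit 584709024) (nat_lit 42) (nat_lit 5) (nat_lit 45) (nat_lit 5) (nat_lit 43) (nat_lit 4) (nat_lit 453) (nat_lit 341) (nat_lit 226)))) (XT.nd (nat_lit 156) (nat_lit 228) (nat_lit 0) (XT.nd (nat_lit 78) (nat_lit 76) (nat_lit 0) (XT.lf (nat_lit 0) (nat_lit 13838199896) (nat_lit 228) (nat_lit 11406530512) (nat_lit 76) (nat_lit 9583430807) (nat_lit 42) (nat_lit 5) (nat_lit 45) (nat_lit 5) (nat_lit 43) (nat_lit 4) (nat_lit 454) (nat_lit 341) (nat_lit 225)) (XT.lf (nat_lit 0) (nat_lit 5453857991) (nat_lit 76) (nat_lit 16708943594) (nat_lit 152) (nat_lit 13436708644) (nat_lit 41) (nat_lit 5) (nat_lit 42) (nat_lit 5) (nat_lit 43) (nat_lit 4) (nat_lit 455)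 (nat_lit 341) (nat_lit 224))) (XT.nd (nat_lit 78) (nat_lit 228) (nat_lit 0) (XT.lf (nat_lit 0) (nat_lit 23023396319) (nat_lit 76) (nat_lit 7812788691) (nat_lit 152) (nat_lit 5554844343) (nat_lit 41) (nat_lit 5) (nat_lit 42) (nat_lit 5) (nat_lit 43) (nat_lit 4) (nat_lit 456) (nat_lit 341) (nat_lit 223)) (XT.lf (nat_lit 0) (nat_lit 2548925009) (nat_lit 228) (nat_lit 33282380367) (nat_lit 76) (nat_lit 1373186164) (nat_lit 38) (nat_lit 5) (nat_lit 41) (nat_lit 5) (nat_lit 39) (nat_lit 4) (nat_lit 457) (nat_lit 341) (nat_lit 222))))) (XT.nd (nat_lit 312) (nat_lit 228) (nat_lit 0) (XT.nd (nat_lit 156) (nat_lit 0) (nat_lit 0) (XT.nd (nat_lit 78) (nat_lit 76) (nat_lit 0) (XT.lf (nat_lit 0) (nat_lit 10982054383) (nat_lit 228) (nat_lit 16197381514) (nat_lit 76) (nat_lit 10855335798) (nat_lit 38) (nat_lit 5) (nat_lit 41) (nat_lit 5) (nat_lit 39) (nat_lit 4) (nat_lit 458) (nat_lit 341) (nat_lit 221)) (XT.lf (nat_lit 0) (nat_lit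 1398371758) (nat_lit 76) (nat_lit 18267923690) (nat_lit 152) (nat_lit 19223722114) (nat_lit 37) (nat_lit 5) (nat_lit 38) (nat_lit 5) (nat_lit 39) (nat_lit 4) (nat_lit 459) (nat_lit 341) (nat_lit 220))) (XT.nd (nat_lit 78) (nat_lit 0) (nat_lit 0) (XT.lf (nat_lit 0) (nat_lit 19825230381) (nat_lit 76) (nat_lit 8934240482) (nat_lit 152) (nat_lit 11006998550) (nat_lit 37) (nat_lit 5) (nat_lit 38) (nat_lit 5) (nat_lit 39) (nat_lit 4) (nat_lit 460) (nat_lit 341) (nat_lit 219)) (XT.lf (nat_lit 0) (nat_lit 38117132254) (nat_lit 152) (nat_lit 1899125167) (nat_lit 0) (nat_lit 653207470) (nat_lit 37) (nat_lit 5) (nat_lit 39) (nat_lit 4) (nat_lit 37) (nat_lit 4) (nat_lit 461) (nat_lit 341) (nat_lit 218)))) (XT.nd (nat_lit 156) (nat_lit 76) (nat_lit 0) (XT.nd (nat_lit 78) (nat_lit 0) (nat_lit 0) (XT.lf (nat_lit 0) (nat_lit 6274672928) (nat_lit 152) (nat_lit 24755886345) (nat_lit 76) (nat_lit 10560051714) (nat_lit 35) (nat_lit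 5) (nat_lit 37) (nat_lit 5) (nat_lit 36) (nat_lit 4) (nat_lit 462) (nat_lit 341) (nat_lit 217)) (XT.lf (nat_lit 0) (nat_lit 15320164820) (nat_lit 152) (nat_lit 6422224802) (nat_lit 76) (nat_lit 20796095189) (nat_lit 35) (nat_lit 5) (nat_lit 37) (nat_lit 5) (nat_lit 36) (nat_lit 4) (nat_lit 463) (nat_lit 341) (nat_lit 216))) (XT.nd (nat_lit 78) (nat_lit 0) (nat_lit 0) (XT.lf (nat_lit 0) (nat_lit 12682254790) (nat_lit 76) (nat_lit 12062703649) (nat_lit 152) (nat_lit 18766599008) (nat_lit 34) (nat_lit 5) (nat_lit 35) (nat_lit 5) (nat_lit 36) (nat_lit 4) (nat_lit 464) (nat_lit 341) (nat_lit 215)) (XT.lf (nat_lit 0) (nat_lit 32465111270) (nat_lit 76) (nat_lit 2038416984) (nat_lit 152) (nat_lit 10008763720) (nat_lit 34) (nat_lit 5) (nat_lit 35) (nat_lit 5) (nat_lit 36) (nat_lit 4) (nat_lit 465) (nat_lit 341) (nat_lit 214))))))))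
noncomputable def xc105 : XT := (XT.nd (nat_lit 43758) (nat_lit 0) (nat_lit 15732) (XT.nd (nat_lit 1092) (nat_lit 456) (nat_lit 0) (XT.nd (nat_lit 546) (nat_lit 304) (nat_lit 0) (XT.nd (nat_lit 234) (nat_lit 152) (nat_lit 0) (XT.nd (nat_lit 78) (nat_lit 152) (nat_lit 0) (XT.lf (nat_lit 0) (nat_lit 7335977002) (nat_lit 76) (nat_lit 37355517461) (nat_lit 76) (nat_lit 847455564) (nat_lit 33) (nat_lit 4) (nat_lit 34) (nat_lit 5) (nat_lit 34) (nat_lit 4) (nat_lit 466) (nat_lit 341) (nat_lit 213)) (XT.nd (nat_lit 78) (nat_lit 76) (nat_lit 0) (XT.lf (nat_lit 0) (nat_lit 8550615085) (nat_lit 152) (nat_lit 19175058928) (nat_lit 76) (nat_lit 18864372054) (nat_lit 32) (nat_lit 5) (nat_lit 34) (nat_lit 5) (nat_lit 33) (nat_lit 4) (nat_lit 467) (nat_lit 341) (nat_lit 212)) (XT.lf (nat_lit 0) (nat_lit 397882627) (nat_lit 76) (nat_lit 17806410519) (nat_lit 152) (nat_lit 29468409784) (nat_lit 31) (nat_lit 5) (nat_lit 32) (nat_lit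 5) (nat_lit 33) (nat_lit 4) (nat_lit 468) (nat_lit 341) (nat_lit 211)))) (XT.nd (nat_lit 156) (nat_lit 152) (nat_lit 0) (XT.nd (nat_lit 78) (nat_lit 0) (nat_lit 0) (XT.lf (nat_lit 0) (nat_lit 20926145800) (nat_lit 76) (nat_lit 7402082483) (nat_lit 152) (nat_lit 20454192406) (nat_lit 31) (nat_lit 5) (nat_lit 32) (nat_lit 5) (nat_lit 33) (nat_lit 4) (nat_lit 469) (nat_lit 341) (nat_lit 210)) (XT.lf (nat_lit 0) (nat_lit 38775024129) (nat_lit 152) (nat_lit 7911510342) (nat_lit 0) (nat_lit 3238321804) (nat_lit 31) (nat_lit 5) (nat_lit 33) (nat_lit 4) (nat_lit 31) (nat_lit 4) (nat_lit 470) (nat_lit 341) (nat_lit 209))) (XT.nd (nat_lit 78) (nat_lit 76) (nat_lit 0) (XT.lf (nat_lit 0) (nat_lit 12784006723) (nat_lit 76) (nat_lit 36935046020) (nat_lit 76) (nat_lit 1376997875) (nat_lit 30) (nat_lit 4) (nat_lit 31) (nat_lit 5) (nat_lit 31) (nat_lit 4) (nat_lit 471) (nat_lit 341) (nat_lit 208)) (XT.lf (nat_lit 0) (nat_lit 8587814272)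 (nat_lit 152) (nat_lit 18145509268) (nat_lit 76) (nat_lit 25564501644) (nat_lit 29) (nat_lit 5) (nat_lit 31) (nat_lit 5) (nat_lit 30) (nat_lit 4) (nat_lit 472) (nat_lit 341) (nat_lit 207))))) (XT.nd (nat_lit 234) (nat_lit 228) (nat_lit 0) (XT.nd (nat_lit 78) (nat_lit 0) (nat_lit 0) (XT.lf (nat_lit 0) (nat_lit 2640834990) (nat_lit 76) (nat_lit 16196469303) (nat_lit 152) (nat_lit 34697537902) (nat_lit 28) (nat_lit 5) (nat_lit 29) (nat_lit 5) (nat_lit 30) (nat_lit 4) (nat_lit 473) (nat_lit 341) (nat_lit 206)) (XT.nd (nat_lit 78) (nat_lit 0) (nat_lit 0) (XT.lf (nat_lit 0) (nat_lit 24399876082) (nat_lit 76) (nat_lit 5165790546) (nat_lit 152) (nat_lit 25238161954) (nat_lit 28) (nat_lit 5) (nat_lit 29) (nat_lit 5) (nat_lit 30) (nat_lit 4) (nat_lit 474) (nat_lit 341) (nat_lit 205)) (XT.lf (nat_lit 0) (nat_lit 40663833556) (nat_lit 152) (nat_lit 9381189667) (nat_lit 0) (nat_lit 6064423208) (nat_lit 28) (nat_lit 5) (nat_lit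 30) (nat_lit 4) (nat_lit 28) (nat_lit 4) (nat_lit 475) (nat_lit 341) (nat_lit 204)))) (XT.nd (nat_lit 156) (nat_lit 76) (nat_lit 0) (XT.nd (nat_lit 78) (nat_lit 76) (nat_lit 0) (XT.lf (nat_lit 0) (nat_lit 12442118002) (nat_lit 76) (nat_lit 39812308985) (nat_lit 76) (nat_lit 5195021849) (nat_lit 27) (nat_lit 4) (nat_lit 28) (nat_lit 5) (nat_lit 28) (nat_lit 4) (nat_lit 476) (nat_lit 341) (nat_lit 203)) (XT.lf (nat_lit 0) (nat_lit 5342847144) (nat_lit 152) (nat_lit 23788663537) (nat_lit 76) (nat_lit 29694062074) (nat_lit 26) (nat_lit 5) (nat_lit 28) (nat_lit 5) (nat_lit 27) (nat_lit 4) (nat_lit 477) (nat_lit 341) (nat_lit 202))) (XT.nd (nat_lit 78) (nat_lit 76) (nat_lit 0) (XT.lf (nat_lit 0) (nat_lit 16081509084) (nat_lit 152) (nat_lit 2006030386) (nat_lit 76) (nat_lit 42154226123) (nat_lit 26) (nat_lit 5) (nat_lit 28) (nat_lit 5) (nat_lit 27) (nat_lit 4) (nat_lit 478) (nat_lit 341) (nat_lit 201)) (XT.lf (nat_lit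 0) (nat_lit 20815729573) (nat_lit 76) (nat_lit 6516084808) (nat_lit 152) (nat_lit 34362945746) (nat_lit 25) (nat_lit 5) (nat_lit 26) (nat_lit 5) (nat_lit 27) (nat_lit 4) (nat_lit 479) (nat_lit 341) (nat_lit 200)))))) (XT.nd (nat_lit 546) (nat_lit 228) (nat_lit 0) (XT.nd (nat_lit 234) (nat_lit 152) (nat_lit 0) (XT.nd (nat_lit 78) (nat_lit 76) (nat_lit 0) (XT.lf (nat_lit 0) (nat_lit 38981427488) (nat_lit 152) (nat_lit 18900166951) (nat_lit 0) (nat_lit 5307896501) (nat_lit 25) (nat_lit 5) (nat_lit 27) (nat_lit 4) (nat_lit 25) (nat_lit 4) (nat_lit 480) (nat_lit 341) (nat_lit 199)) (XT.nd (nat_lit 78) (nat_lit 0) (nat_lit 0) (XT.lf (nat_lit 0) (nat_lit 3726297914) (nat_lit 76) (nat_lit 47344283548) (nat_lit 76) (nat_lit 13655781032) (nat_lit 24) (nat_lit 4) (nat_lit 25) (nat_lit 5) (nat_lit 25) (nat_lit 4) (nat_lit 481) (nat_lit 341) (nat_lit 198)) (XT.lf (nat_lit 0) (nat_lit 27399224879) (nat_lit 76) (nat_lit 36303866616)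 (nat_lit 76) (nat_lit 2600828635) (nat_lit 24) (nat_lit 4) (nat_lit 25) (nat_lit 5) (nat_lit 25) (nat_lit 4) (nat_lit 482) (nat_lit 341) (nat_lit 197)))) (XT.nd (nat_lit 156) (nat_lit 0) (nat_lit 0) (XT.nd (nat_lit 78) (nat_lit 76) (nat_lit 0) (XT.lf (nat_lit 0) (nat_lit 8604355236) (nat_lit 152) (nat_lit 16250308951) (nat_lit 76) (nat_lit 43071906292) (nat_lit 23) (nat_lit 5) (nat_lit 25) (nat_lit 5) (nat_lit 24) (nat_lit 4) (nat_lit 483) (nat_lit 341) (nat_lit 196)) (XT.lf (nat_lit 0) (nat_lit 7179225574) (nat_lit 76) (nat_lit 12973521581) (nat_lit 152) (nat_lit 49442601209) (nat_lit 22) (nat_lit 5) (nat_lit 23) (nat_lit 5) (nat_lit 24) (nat_lit 4) (nat_lit 484) (nat_lit 341) (nat_lit 195))) (XT.nd (nat_lit 78) (nat_lit 0) (nat_lit 0) (XT.lf (nat_lit 0) (nat_lit 31626120962) (nat_lit 76) (nat_lit 575984517) (nat_lit 152) (nat_lit 39107449005) (nat_lit 22) (nat_lit 5) (nat_lit 23) (nat_lit 5) (nat_lit 24) (nat_lit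 4) (nat_lit 485) (nat_lit 341) (nat_lit 194)) (XT.lf (nat_lit 0) (nat_lit 44720768651) (nat_lit 152) (nat_lit 16404267257) (nat_lit 0) (nat_lit 11946916483) (nat_lit 22) (nat_lit 5) (nat_lit 24) (nat_lit 4) (nat_lit 22) (nat_lit 4) (nat_lit 486) (nat_lit 341) (nat_lit 193))))) (XT.nd (nat_lit 41808) (nat_lit 0) (nat_lit 28196) (XT.nd (nat_lit 156) (nat_lit 152) (nat_lit 0) (XT.nd (nat_lit 78) (nat_lit 0) (nat_lit 0) (XT.lf (nat_lit 0) (nat_lit 7700067516) (nat_lit 76) (nat_lit 49985531110) (nat_lit 76) (nat_lit 17199505719) (nat_lit 21) (nat_lit 4) (nat_lit 22) (nat_lit 5) (nat_lit 22) (nat_lit 4) (nat_lit 487) (nat_lit 341) (nat_lit 192)) (XT.lf (nat_lit 0) (nat_lit 32846218131) (nat_lit 76) (nat_lit 38349789041) (nat_lit 76) (nat_lit 5551944987) (nat_lit 21) (nat_lit 4) (nat_lit 22) (nat_lit 5) (nat_lit 22) (nat_lit 4) (nat_lit 488) (nat_lit 341) (nat_lit 191))) (XT.nd (nat_lit 78) (nat_lit 76) (nat_lit 0) (XT.lf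 (nat_lit 0) (nat_lit 6310434972) (nat_lit 152) (nat_lit 19999135489) (nat_lit 76) (nat_lit 52355521874) (nat_lit 20) (nat_lit 5) (nat_lit 22) (nat_lit 5) (nat_lit 21) (nat_lit 4) (nat_lit 489) (nat_lit 341) (nat_lit 190)) (XT.lf (nat_lit 0) (nat_lit 4639354536) (nat_lit 76) (nat_lit 13813755436) (nat_lit 152) (nat_lit 62183907567) (nat_lit 19) (nat_lit 5) (nat_lit 20) (nat_lit 5) (nat_lit 21) (nat_lit 4) (nat_lit 490) (nat_lit 341) (nat_lit 189)))) (XT.nd (nat_lit 156) (nat_lit 304) (nat_lit 0) (XT.nd (nat_lit 78) (nat_lit 228) (nat_lit 0) (XT.lf (nat_lit 0) (nat_lit 2814040391) (nat_lit 228) (nat_lit 207813099) (nat_lit 228) (nat_lit 207813099) (nat_lit 397) (nat_lit 3) (nat_lit 400) (nat_lit 3) (nat_lit 400) (nat_lit 5) (nat_lit 342) (nat_lit 342) (nat_lit 336)) (XT.lf (nat_lit 0) (nat_lit 2033020031) (nat_lit 228) (nat_lit 3688995347) (nat_lit 304) (nat_lit 746976229) (nat_lit 394) (nat_lit 5) (nat_lit 397)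 (nat_lit 3) (nat_lit 398) (nat_lit 5) (nat_lit 343) (nat_lit 342) (nat_lit 335))) (XT.nd (nat_lit 78) (nat_lit 304) (nat_lit 0) (XT.lf (nat_lit 0) (nat_lit 4859625998) (nat_lit 228) (nat_lit 466861199) (nat_lit 304) (nat_lit 1155477344) (nat_lit 394) (nat_lit 5) (nat_lit 397) (nat_lit 3) (nat_lit 398) (nat_lit 5) (nat_lit 344) (nat_lit 342) (nat_lit 334)) (XT.lf (nat_lit 0) (nat_lit 1169452942) (nat_lit 304) (nat_lit 3659770627) (nat_lit 380) (nat_lit 1668237225) (nat_lit 390) (nat_lit 5) (nat_lit 394) (nat_lit 5) (nat_lit 395) (nat_lit 5) (nat_lit 345) (nat_lit 342) (nat_lit 333))))))) (XT.nd (nat_lit 1092) (nat_lit 8436) (nat_lit 0) (XT.nd (nat_lit 546) (nat_lit 2812) (nat_lit 0) (XT.nd (nat_lit 234) (nat_lit 836) (nat_lit 0) (XT.nd (nat_lit 78) (nat_lit 380) (nat_lit 0) (XT.lf (nat_lit 0) (nat_lit 3910749923) (nat_lit 304) (nat_lit 338091380) (nat_lit 380) (nat_lit 2267207496) (nat_lit 390) (nat_lit 5) (nat_lit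 394) (nat_lit 5) (nat_lit 395) (nat_lit 5) (nat_lit 346) (nat_lit 342) (nat_lit 332)) (XT.nd (nat_lit 78) (nat_lit 0) (nat_lit 0) (XT.lf (nat_lit 0) (nat_lit 120777813) (nat_lit 380) (nat_lit 3453109795) (nat_lit 456) (nat_lit 2963538386) (nat_lit 385) (nat_lit 5) (nat_lit 390) (nat_lit 5) (nat_lit 391) (nat_lit 5) (nat_lit 347) (nat_lit 342) (nat_lit 331)) (XT.lf (nat_lit 0) (nat_lit 2777822024) (nat_lit 380) (nat_lit 28271404) (nat_lit 456) (nat_lit 3755585221) (nat_lit 385) (nat_lit 5) (nat_lit 390) (nat_lit 5) (nat_lit 391) (nat_lit 5) (nat_lit 348) (nat_lit 342) (nat_lit 330)))) (XT.nd (nat_lit 156) (nat_lit 380) (nat_lit 0) (XT.nd (nat_lit 78) (nat_lit 456) (nat_lit 0) (XT.lf (nat_lit 76) (nat_lit 3510110898) (nat_lit 0) (nat_lit 1939277206) (nat_lit 456) (nat_lit 1139279350) (nat_lit 386) (nat_lit 5) (nat_lit 385) (nat_lit 5) (nat_lit 391) (nat_lit 5) (nat_lit 349) (nat_lit 342) (nat_lit 329)) (XT.lf (nat_lit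 76) (nat_lit 473651298) (nat_lit 0) (nat_lit 987298094) (nat_lit 532) (nat_lit 5157892321) (nat_lit 380) (nat_lit 5) (nat_lit 379) (nat_lit 5) (nat_lit 386) (nat_lit 5) (nat_lit 350) (nat_lit 342) (nat_lit 328))) (XT.nd (nat_lit 78) (nat_lit 456) (nat_lit 0) (XT.lf (nat_lit 0) (nat_lit 4052645255) (nat_lit 456) (nat_lit 2526783577) (nat_lit 76) (nat_lit 72111607) (nat_lit 380) (nat_lit 5) (nat_lit 386) (nat_lit 5) (nat_lit 381) (nat_lit 5) (nat_lit 351) (nat_lit 342) (nat_lit 327)) (XT.lf (nat_lit 0) (nat_lit 1152892500) (nat_lit 456) (nat_lit 5497851630) (nat_lit 532) (nat_lit 36663418) (nat_lit 374) (nat_lit 5) (nat_lit 380) (nat_lit 5) (nat_lit 381) (nat_lit 5) (nat_lit 352) (nat_lit 342) (nat_lit 326))))) (XT.nd (nat_lit 234) (nat_lit 2128) (nat_lit 0) (XT.nd (nat_lit 78) (nat_lit 608) (nat_lit 0) (XT.lf (nat_lit 0) (nat_lit 2486392933) (nat_lit 532) (nat_lit 1815371046) (nat_lit 76) (nat_lit 2423838281) (nat_lit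 373) (nat_lit 5) (nat_lit 380) (nat_lit 5) (nat_lit 374) (nat_lit 5) (nat_lit 353) (nat_lit 342) (nat_lit 325)) (XT.nd (nat_lit 78) (nat_lit 76) (nat_lit 0) (XT.lf (nat_lit 0) (nat_lit 1994414661) (nat_lit 532) (nat_lit 3020784570) (nat_lit 608) (nat_lit 1751851838) (nat_lit 366) (nat_lit 5) (nat_lit 373) (nat_lit 5) (nat_lit 374) (nat_lit 5) (nat_lit 354) (nat_lit 342) (nat_lit 324)) (XT.lf (nat_lit 0) (nat_lit 725566478) (nat_lit 608) (nat_lit 922136935) (nat_lit 76) (nat_lit 5163909380) (nat_lit 365) (nat_lit 5) (nat_lit 373) (nat_lit 5) (nat_lit 366) (nat_lit 5) (nat_lit 355) (nat_lit 342) (nat_lit 323)))) (XT.nd (nat_lit 156) (nat_lit 836) (nat_lit 0) (XT.nd (nat_lit 78) (nat_lit 684) (nat_lit 0) (XT.lf (nat_lit 0) (nat_lit 3026679427) (nat_lit 608) (nat_lit 159788808) (nat_lit 684) (nat_lit 3672230992) (nat_lit 357) (nat_lit 5) (nat_lit 365) (nat_lit 5) (nat_lit 366) (nat_lit 5) (nat_lit 356) (nat_lit 342)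 (nat_lit 322)) (XT.lf (nat_lit 0) (nat_lit 134179730) (nat_lit 684) (nat_lit 5528326223) (nat_lit 760) (nat_lit 1246491237) (nat_lit 348) (nat_lit 5) (nat_lit 357) (nat_lit 5) (nat_lit 358) (nat_lit 5) (nat_lit 357) (nat_lit 342) (nat_lit 321))) (XT.nd (nat_lit 78) (nat_lit 760) (nat_lit 0) (XT.lf (nat_lit 0) (nat_lit 1186657435) (nat_lit 760) (nat_lit 2737881454) (nat_lit 76) (nat_lit 3037168115) (nat_lit 347) (nat_lit 5) (nat_lit 357) (nat_lit 5) (nat_lit 348) (nat_lit 5) (nat_lit 358) (nat_lit 342) (nat_lit 320)) (XT.lf (nat_lit 0) (nat_lit 1374293156) (nat_lit 760) (nat_lit 2227448290) (nat_lit 836) (nat_lit 3415901561) (nat_lit 337) (nat_lit 5) (nat_lit 347) (nat_lit 5) (nat_lit 348) (nat_lit 5) (nat_lit 359) (nat_lit 342) (nat_lit 319)))))) (XT.nd (nat_lit 546) (nat_lit 4484) (nat_lit 0) (XT.nd (nat_lit 234) (nat_lit 3040) (nat_lit 0) (XT.nd (nat_lit 78) (nat_lit 912) (nat_lit 0) (XT.lf (nat_lit 0) (nat_lit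 5606203126) (nat_lit 760) (nat_lit 433238543) (nat_lit 836) (nat_lit 1037344456) (nat_lit 337) (nat_lit 5) (nat_lit 347) (nat_lit 5) (nat_lit 348) (nat_lit 5) (nat_lit 360) (nat_lit 342) (nat_lit 318)) (XT.nd (nat_lit 78) (nat_lit 0) (nat_lit 0) (XT.lf (nat_lit 0) (nat_lit 1350163207) (nat_lit 912) (nat_lit 4343913027) (nat_lit 76) (nat_lit 1444297198) (nat_lit 325) (nat_lit 5) (nat_lit 337) (nat_lit 5) (nat_lit 326) (nat_lit 5) (nat_lit 361) (nat_lit 342) (nat_lit 317)) (XT.lf (nat_lit 0) (nat_lit 3733523837) (nat_lit 912) (nat_lit 59853225) (nat_lit 76) (nat_lit 3409801919) (nat_lit 325) (nat_lit 5) (nat_lit 337) (nat_lit 5) (nat_lit 326) (nat_lit 5) (nat_lit 362) (nat_lit 342) (nat_lit 316)))) (XT.nd (nat_lit 156) (nat_lit 1064) (nat_lit 0) (XT.nd (nat_lit 78) (nat_lit 1064) (nat_lit 0) (XT.lf (nat_lit 0) (nat_lit 4378574269) (nat_lit 912) (nat_lit 1779852791) (nat_lit 988) (nat_lit 1112430543) (nat_lit 313)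 (nat_lit 5) (nat_lit 325) (nat_lit 5) (nat_lit 326) (nat_lit 5) (nat_lit 363) (nat_lit 342) (nat_lit 315)) (XT.lf (nat_lit 0) (nat_lit 1237494156) (nat_lit 1064) (nat_lit 5776765993) (nat_lit 76) (nat_lit 327525886) (nat_lit 299) (nat_lit 5) (nat_lit 313) (nat_lit 5) (nat_lit 300) (nat_lit 5) (nat_lit 364) (nat_lit 342) (nat_lit 314))) (XT.nd (nat_lit 78) (nat_lit 1064) (nat_lit 0) (XT.lf (nat_lit 0) (nat_lit 3613026833) (nat_lit 1064) (nat_lit 1289640321) (nat_lit 76) (nat_lit 2512548272) (nat_lit 299) (nat_lit 5) (nat_lit 313) (nat_lit 5) (nat_lit 300) (nat_lit 5) (nat_lit 365) (nat_lit 342) (nat_lit 313)) (XT.lf (nat_lit 0) (nat_lit 3336943009) (nat_lit 1064) (nat_lit 2687338946) (nat_lit 1140) (nat_lit 1467658844) (nat_lit 285) (nat_lit 5) (nat_lit 299) (nat_lit 5) (nat_lit 300) (nat_lit 5) (nat_lit 366) (nat_lit 342) (nat_lit 312))))) (XT.nd (nat_lit 312) (nat_lit 1976) (nat_lit 0) (XT.nd (nat_lit 156) (nat_lit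 1292) (nat_lit 0) (XT.nd (nat_lit 78) (nat_lit 0) (nat_lit 0) (XT.lf (nat_lit 0) (nat_lit 497722449) (nat_lit 1140) (nat_lit 371932476) (nat_lit 1216) (nat_lit 6702537168) (nat_lit 269) (nat_lit 5) (nat_lit 284) (nat_lit 5) (nat_lit 285) (nat_lit 5) (nat_lit 367) (nat_lit 342) (nat_lit 311)) (XT.lf (nat_lit 0) (nat_lit 3243823046) (nat_lit 1216) (nat_lit 2375169856) (nat_lit 76) (nat_lit 2035559605) (nat_lit 269) (nat_lit 5) (nat_lit 285) (nat_lit 5) (nat_lit 270) (nat_lit 5) (nat_lit 368) (nat_lit 342) (nat_lit 310))) (XT.nd (nat_lit 78) (nat_lit 76) (nat_lit 0) (XT.lf (nat_lit 0) (nat_lit 2448547119) (nat_lit 1216) (nat_lit 3204307069) (nat_lit 1292) (nat_lit 2087644212) (nat_lit 253) (nat_lit 5) (nat_lit 269) (nat_lit 5) (nat_lit 270) (nat_lit 5) (nat_lit 369) (nat_lit 342) (nat_lit 309)) (XT.lf (nat_lit 0) (nat_lit 260454858) (nat_lit 1292) (nat_lit 427149262) (nat_lit 76) (nat_lit 7142514734) (nat_lit 252)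 (nat_lit 5) (nat_lit 269) (nat_lit 5) (nat_lit 253) (nat_lit 5) (nat_lit 370) (nat_lit 342) (nat_lit 308)))) (XT.nd (nat_lit 156) (nat_lit 684) (nat_lit 0) (XT.nd (nat_lit 78) (nat_lit 608) (nat_lit 0) (XT.lf (nat_lit 0) (nat_lit 2639039891) (nat_lit 760) (nat_lit 3348303592) (nat_lit 76) (nat_lit 1934426055) (nat_lit 243) (nat_lit 5) (nat_lit 253) (nat_lit 5) (nat_lit 244) (nat_lit 5) (nat_lit 371) (nat_lit 342) (nat_lit 307)) (XT.lf (nat_lit 0) (nat_lit 1681989994) (nat_lit 608) (nat_lit 3374433811) (nat_lit 684) (nat_lit 2960743852) (nat_lit 235) (nat_lit 5) (nat_lit 243) (nat_lit 5) (nat_lit 244) (nat_lit 5) (nat_lit 372) (nat_lit 342) (nat_lit 306))) (XT.nd (nat_lit 78) (nat_lit 684) (nat_lit 0) (XT.lf (nat_lit 0) (nat_lit 6871628944) (nat_lit 608) (nat_lit 649786285) (nat_lit 684) (nat_lit 594780448) (nat_lit 235) (nat_lit 5) (nat_lit 243) (nat_lit 5) (nat_lit 244) (nat_lit 5) (nat_lit 373) (nat_lit 342)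 (nat_lit 305)) (XT.lf (nat_lit 0) (nat_lit 1808328420) (nat_lit 684) (nat_lit 4240038189) (nat_lit 76) (nat_lit 2169252634) (nat_lit 226) (nat_lit 5) (nat_lit 235) (nat_lit 5) (nat_lit 227) (nat_lit 5) (nat_lit 374) (nat_lit 342) (nat_lit 304))))))))
noncomputable def xc106 : XT := (XT.nd (nat_lit 2262) (nat_lit 3876) (nat_lit 0) (XT.nd (nat_lit 1092) (nat_lit 3572) (nat_lit 0) (XT.nd (nat_lit 546) (nat_lit 2356) (nat_lit 0) (XT.nd (nat_lit 234) (nat_lit 1064) (nat_lit 0) (XT.nd (nat_lit 78) (nat_lit 608) (nat_lit 0) (XT.lf (nat_lit 0) (nat_lit 1006676933) (nat_lit 532) (nat_lit 3237188456) (nat_lit 608) (nat_lit 4078893573) (nat_lit 219) (nat_lit 5) (nat_lit 226) (nat_lit 5) (nat_lit 227) (nat_lit 5) (nat_lit 375) (nat_lit 342) (nat_lit 303)) (XT.nd (nat_lit 78) (nat_lit 608) (nat_lit 0) (XT.lf (nat_lit 0) (nat_lit 6437588131) (nat_lit 532) (nat_lit 302251388) (nat_lit 608) (nat_lit 1691610470) (nat_lit 219) (nat_lit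 5) (nat_lit 226) (nat_lit 5) (nat_lit 227) (nat_lit 5) (nat_lit 376) (nat_lit 342) (nat_lit 302)) (XT.lf (nat_lit 0) (nat_lit 757988568) (nat_lit 608) (nat_lit 5081065348) (nat_lit 76) (nat_lit 2703973658) (nat_lit 211) (nat_lit 5) (nat_lit 219) (nat_lit 5) (nat_lit 212) (nat_lit 5) (nat_lit 377) (nat_lit 342) (nat_lit 301)))) (XT.nd (nat_lit 156) (nat_lit 608) (nat_lit 0) (XT.nd (nat_lit 78) (nat_lit 0) (nat_lit 0) (XT.lf (nat_lit 0) (nat_lit 392246589) (nat_lit 456) (nat_lit 2828510107) (nat_lit 532) (nat_lit 5437499605) (nat_lit 205) (nat_lit 5) (nat_lit 211) (nat_lit 5) (nat_lit 212) (nat_lit 5) (nat_lit 378) (nat_lit 342) (nat_lit 300)) (XT.lf (nat_lit 0) (nat_lit 5759335973) (nat_lit 532) (nat_lit 2705990916) (nat_lit 76) (nat_lit 311573371) (nat_lit 205) (nat_lit 5) (nat_lit 212) (nat_lit 5) (nat_lit 206) (nat_lit 5) (nat_lit 379) (nat_lit 342) (nat_lit 299))) (XT.nd (nat_lit 78) (nat_lit 76) (nat_lit 0)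 (XT.lf (nat_lit 0) (nat_lit 2991611152) (nat_lit 532) (nat_lit 5388246347) (nat_lit 608) (nat_lit 519088232) (nat_lit 198) (nat_lit 5) (nat_lit 205) (nat_lit 5) (nat_lit 206) (nat_lit 5) (nat_lit 380) (nat_lit 342) (nat_lit 298)) (XT.lf (nat_lit 0) (nat_lit 1991279824) (nat_lit 608) (nat_lit 188265932) (nat_lit 76) (nat_lit 6845218460) (nat_lit 197) (nat_lit 5) (nat_lit 205) (nat_lit 5) (nat_lit 198) (nat_lit 5) (nat_lit 381) (nat_lit 342) (nat_lit 297))))) (XT.nd (nat_lit 234) (nat_lit 1368) (nat_lit 0) (XT.nd (nat_lit 78) (nat_lit 532) (nat_lit 0) (XT.lf (nat_lit 0) (nat_lit 4584040353) (nat_lit 532) (nat_lit 3414176561) (nat_lit 76) (nat_lit 1155475121) (nat_lit 191) (nat_lit 5) (nat_lit 198) (nat_lit 5) (nat_lit 192) (nat_lit 5) (nat_lit 382) (nat_lit 342) (nat_lit 296)) (XT.nd (nat_lit 78) (nat_lit 76) (nat_lit 0) (XT.lf (nat_lit 0) (nat_lit 2531278603) (nat_lit 456) (nat_lit 4722823543) (nat_lit 532) (nat_lit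 2032413976) (nat_lit 185) (nat_lit 5) (nat_lit 191) (nat_lit 5) (nat_lit 192) (nat_lit 5) (nat_lit 383) (nat_lit 342) (nat_lit 295)) (XT.lf (nat_lit 0) (nat_lit 556470681) (nat_lit 532) (nat_lit 762596198) (nat_lit 76) (nat_lit 8104497720) (nat_lit 184) (nat_lit 5) (nat_lit 191) (nat_lit 5) (nat_lit 185) (nat_lit 5) (nat_lit 384) (nat_lit 342) (nat_lit 294)))) (XT.nd (nat_lit 156) (nat_lit 456) (nat_lit 0) (XT.nd (nat_lit 78) (nat_lit 456) (nat_lit 0) (XT.lf (nat_lit 0) (nat_lit 3209521698) (nat_lit 532) (nat_lit 4147506796) (nat_lit 76) (nat_lit 2206284669) (nat_lit 178) (nat_lit 5) (nat_lit 185) (nat_lit 5) (nat_lit 179) (nat_lit 5) (nat_lit 385) (nat_lit 342) (nat_lit 293)) (XT.lf (nat_lit 0) (nat_lit 2056726458) (nat_lit 456) (nat_lit 3880186919) (nat_lit 532) (nat_lit 3770510757) (nat_lit 172) (nat_lit 5) (nat_lit 178) (nat_lit 5) (nat_lit 179) (nat_lit 5) (nat_lit 386) (nat_lit 342) (nat_lit 292))) (XT.nd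 (nat_lit 78) (nat_lit 456) (nat_lit 0) (XT.lf (nat_lit 0) (nat_lit 8474237798) (nat_lit 456) (nat_lit 268691688) (nat_lit 532) (nat_lit 1113036932) (nat_lit 172) (nat_lit 5) (nat_lit 178) (nat_lit 5) (nat_lit 179) (nat_lit 5) (nat_lit 387) (nat_lit 342) (nat_lit 291)) (XT.lf (nat_lit 0) (nat_lit 1630993428) (nat_lit 456) (nat_lit 4939869422) (nat_lit 76) (nat_lit 3436489351) (nat_lit 166) (nat_lit 5) (nat_lit 172) (nat_lit 5) (nat_lit 167) (nat_lit 5) (nat_lit 388) (nat_lit 342) (nat_lit 290)))))) (XT.nd (nat_lit 546) (nat_lit 1596) (nat_lit 0) (XT.nd (nat_lit 234) (nat_lit 1216) (nat_lit 0) (XT.nd (nat_lit 78) (nat_lit 380) (nat_lit 0) (XT.lf (nat_lit 0) (nat_lit 1534045209) (nat_lit 380) (nat_lit 2888834111) (nat_lit 456) (nat_lit 5740443506) (nat_lit 161) (nat_lit 5) (nat_lit 166) (nat_lit 5) (nat_lit 167) (nat_lit 5) (nat_lit 389) (nat_lit 342) (nat_lit 289)) (XT.nd (nat_lit 78) (nat_lit 380) (nat_lit 0) (XT.lf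 (nat_lit 0) (nat_lit 7314576599) (nat_lit 456) (nat_lit 2086515223) (nat_lit 76) (nat_lit 922409821) (nat_lit 161) (nat_lit 5) (nat_lit 167) (nat_lit 5) (nat_lit 162) (nat_lit 5) (nat_lit 390) (nat_lit 342) (nat_lit 288)) (XT.lf (nat_lit 0) (nat_lit 4658225985) (nat_lit 380) (nat_lit 5666422959) (nat_lit 456) (nat_lit 162898562) (nat_lit 156) (nat_lit 5) (nat_lit 161) (nat_lit 5) (nat_lit 162) (nat_lit 5) (nat_lit 391) (nat_lit 342) (nat_lit 287)))) (XT.nd (nat_lit 156) (nat_lit 760) (nat_lit 0) (XT.nd (nat_lit 78) (nat_lit 0) (nat_lit 0) (XT.lf (nat_lit 0) (nat_lit 926576688) (nat_lit 380) (nat_lit 1776598529) (nat_lit 456) (nat_lit 7952890257) (nat_lit 150) (nat_lit 5) (nat_lit 155) (nat_lit 5) (nat_lit 156) (nat_lit 5) (nat_lit 392) (nat_lit 342) (nat_lit 286)) (XT.lf (nat_lit 0) (nat_lit 5691863168) (nat_lit 456) (nat_lit 2904265844) (nat_lit 76) (nat_lit 2232273924) (nat_lit 150) (nat_lit 5) (nat_lit 156)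 (nat_lit 5) (nat_lit 151) (nat_lit 5) (nat_lit 393) (nat_lit 342) (nat_lit 285))) (XT.nd (nat_lit 78) (nat_lit 456) (nat_lit 0) (XT.lf (nat_lit 0) (nat_lit 4133037264) (nat_lit 304) (nat_lit 4654710517) (nat_lit 380) (nat_lit 2217645905) (nat_lit 146) (nat_lit 5) (nat_lit 150) (nat_lit 5) (nat_lit 151) (nat_lit 5) (nat_lit 394) (nat_lit 342) (nat_lit 284)) (XT.lf (nat_lit 0) (nat_lit 194108229) (nat_lit 380) (nat_lit 571245971) (nat_lit 456) (nat_lit 10422363236) (nat_lit 140) (nat_lit 5) (nat_lit 145) (nat_lit 5) (nat_lit 146) (nat_lit 5) (nat_lit 395) (nat_lit 342) (nat_lit 283))))) (XT.nd (nat_lit 312) (nat_lit 912) (nat_lit 0) (XT.nd (nat_lit 156) (nat_lit 380) (nat_lit 0) (XT.nd (nat_lit 78) (nat_lit 304) (nat_lit 0) (XT.lf (nat_lit 0) (nat_lit 3859204258) (nat_lit 456) (nat_lit 3874023963) (nat_lit 76) (nat_lit 3639654458) (nat_lit 140) (nat_lit 5) (nat_lit 146) (nat_lit 5) (nat_lit 141) (nat_lit 5) (nat_lit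 396) (nat_lit 342) (nat_lit 282)) (XT.lf (nat_lit 0) (nat_lit 3466322494) (nat_lit 304) (nat_lit 3580571045) (nat_lit 380) (nat_lit 4516686843) (nat_lit 136) (nat_lit 5) (nat_lit 140) (nat_lit 5) (nat_lit 141) (nat_lit 5) (nat_lit 397) (nat_lit 342) (nat_lit 281))) (XT.nd (nat_lit 78) (nat_lit 380) (nat_lit 0) (XT.lf (nat_lit 0) (nat_lit 10338886268) (nat_lit 380) (nat_lit 714856545) (nat_lit 76) (nat_lit 706003996) (nat_lit 136) (nat_lit 5) (nat_lit 141) (nat_lit 5) (nat_lit 137) (nat_lit 5) (nat_lit 398) (nat_lit 342) (nat_lit 280)) (XT.lf (nat_lit 0) (nat_lit 1799665293) (nat_lit 380) (nat_lit 5042212839) (nat_lit 76) (nat_lit 5117428157) (nat_lit 131) (nat_lit 5) (nat_lit 136) (nat_lit 5) (nat_lit 132) (nat_lit 5) (nat_lit 399) (nat_lit 342) (nat_lit 279)))) (XT.nd (nat_lit 156) (nat_lit 608) (nat_lit 0) (XT.nd (nat_lit 78) (nat_lit 0) (nat_lit 0) (XT.lf (nat_lit 0) (nat_lit 2610996274) (nat_lit 304) (nat_lit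 2473391253) (nat_lit 380) (nat_lit 7080166132) (nat_lit 127) (nat_lit 5) (nat_lit 131) (nat_lit 5) (nat_lit 132) (nat_lit 5) (nat_lit 400) (nat_lit 342) (nat_lit 278)) (XT.lf (nat_lit 0) (nat_lit 8502672746) (nat_lit 380) (nat_lit 1851464997) (nat_lit 76) (nat_lit 2020777152) (nat_lit 127) (nat_lit 5) (nat_lit 132) (nat_lit 5) (nat_lit 128) (nat_lit 5) (nat_lit 401) (nat_lit 342) (nat_lit 277))) (XT.nd (nat_lit 78) (nat_lit 304) (nat_lit 0) (XT.lf (nat_lit 0) (nat_lit 6124067440) (nat_lit 304) (nat_lit 5947965451) (nat_lit 380) (nat_lit 518105167) (nat_lit 123) (nat_lit 5) (nat_lit 127) (nat_lit 5) (nat_lit 128) (nat_lit 5) (nat_lit 402) (nat_lit 342) (nat_lit 276)) (XT.lf (nat_lit 0) (nat_lit 1513872464) (nat_lit 228) (nat_lit 1364248490) (nat_lit 304) (nat_lit 9932893485) (nat_lit 119) (nat_lit 5) (nat_lit 122) (nat_lit 5) (nat_lit 123) (nat_lit 5) (nat_lit 403) (nat_lit 342) (nat_lit 275))))))) (XT.nd (nat_lit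 1092) (nat_lit 1824) (nat_lit 0) (XT.nd (nat_lit 546) (nat_lit 912) (nat_lit 0) (XT.nd (nat_lit 234) (nat_lit 532) (nat_lit 0) (XT.nd (nat_lit 78) (nat_lit 608) (nat_lit 0) (XT.lf (nat_lit 0) (nat_lit 6429699646) (nat_lit 304) (nat_lit 3261997340) (nat_lit 76) (nat_lit 3344756154) (nat_lit 119) (nat_lit 5) (nat_lit 123) (nat_lit 5) (nat_lit 120) (nat_lit 5) (nat_lit 404) (nat_lit 342) (nat_lit 274)) (XT.nd (nat_lit 78) (nat_lit 304) (nat_lit 0) (XT.lf (nat_lit 0) (nat_lit 5047583541) (nat_lit 304) (nat_lit 5068938693) (nat_lit 380) (nat_lit 3151277983) (nat_lit 115) (nat_lit 5) (nat_lit 119) (nat_lit 5) (nat_lit 120) (nat_lit 5) (nat_lit 405) (nat_lit 342) (nat_lit 273)) (XT.lf (nat_lit 0) (nat_lit 114439018) (nat_lit 228) (nat_lit 286647074) (nat_lit 304) (nat_lit 13104854263) (nat_lit 111) (nat_lit 5) (nat_lit 114) (nat_lit 5) (nat_lit 115) (nat_lit 5) (nat_lit 406) (nat_lit 342) (nat_lit 272)))) (XT.nd (nat_lit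 156) (nat_lit 304) (nat_lit 0) (XT.nd (nat_lit 78) (nat_lit 228) (nat_lit 0) (XT.lf (nat_lit 0) (nat_lit 4092220058) (nat_lit 304) (nat_lit 5009778768) (nat_lit 76) (nat_lit 4645429346) (nat_lit 111) (nat_lit 5) (nat_lit 115) (nat_lit 5) (nat_lit 112) (nat_lit 5) (nat_lit 407) (nat_lit 342) (nat_lit 271)) (XT.lf (nat_lit 0) (nat_lit 3641055605) (nat_lit 228) (nat_lit 4258941072) (nat_lit 304) (nat_lit 6095992117) (nat_lit 108) (nat_lit 5) (nat_lit 111) (nat_lit 5) (nat_lit 112) (nat_lit 5) (nat_lit 408) (nat_lit 342) (nat_lit 270))) (XT.nd (nat_lit 78) (nat_lit 304) (nat_lit 0) (XT.lf (nat_lit 0) (nat_lit 11848448687) (nat_lit 304) (nat_lit 1654717824) (nat_lit 76) (nat_lit 748051736) (nat_lit 108) (nat_lit 5) (nat_lit 112) (nat_lit 5) (nat_lit 109) (nat_lit 5) (nat_lit 409) (nat_lit 342) (nat_lit 269)) (XT.lf (nat_lit 0) (nat_lit 1456880530) (nat_lit 304) (nat_lit 7167346178) (nat_lit 76) (nat_lit 5886989525)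 (nat_lit 104) (nat_lit 5) (nat_lit 108) (nat_lit 5) (nat_lit 105) (nat_lit 5) (nat_lit 410) (nat_lit 342) (nat_lit 268))))) (XT.nd (nat_lit 234) (nat_lit 456) (nat_lit 0) (XT.nd (nat_lit 78) (nat_lit 228) (nat_lit 0) (XT.lf (nat_lit 0) (nat_lit 1830102064) (nat_lit 228) (nat_lit 3557775102) (nat_lit 304) (nat_lit 9390312614) (nat_lit 101) (nat_lit 5) (nat_lit 104) (nat_lit 5) (nat_lit 105) (nat_lit 5) (nat_lit 411) (nat_lit 342) (nat_lit 267)) (XT.nd (nat_lit 78) (nat_lit 228) (nat_lit 0) (XT.lf (nat_lit 0) (nat_lit 9495483361) (nat_lit 304) (nat_lit 3873006070) (nat_lit 76) (nat_lit 1682927399) (nat_lit 101) (nat_lit 5) (nat_lit 105) (nat_lit 5) (nat_lit 102) (nat_lit 5) (nat_lit 412) (nat_lit 342) (nat_lit 266)) (XT.lf (nat_lit 0) (nat_lit 5498116636) (nat_lit 228) (nat_lit 8286786156) (nat_lit 304) (nat_lit 1546184895) (nat_lit 98) (nat_lit 5) (nat_lit 101) (nat_lit 5) (nat_lit 102) (nat_lit 5) (nat_lit 413)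 (nat_lit 342) (nat_lit 265)))) (XT.nd (nat_lit 156) (nat_lit 152) (nat_lit 0) (XT.nd (nat_lit 78) (nat_lit 228) (nat_lit 0) (XT.lf (nat_lit 0) (nat_lit 2543548204) (nat_lit 304) (nat_lit 461824134) (nat_lit 76) (nat_lit 12612732117) (nat_lit 97) (nat_lit 5) (nat_lit 101) (nat_lit 5) (nat_lit 98) (nat_lit 5) (nat_lit 414) (nat_lit 342) (nat_lit 264)) (XT.lf (nat_lit 0) (nat_lit 6810121642) (nat_lit 304) (nat_lit 6625873238) (nat_lit 76) (nat_lit 2474724993) (nat_lit 94) (nat_lit 5) (nat_lit 98) (nat_lit 5) (nat_lit 95) (nat_lit 5) (nat_lit 415) (nat_lit 342) (nat_lit 263))) (XT.nd (nat_lit 78) (nat_lit 0) (nat_lit 0) (XT.lf (nat_lit 0) (nat_lit 3105006616) (nat_lit 152) (nat_lit 8135677149) (nat_lit 228) (nat_lit 4970354286) (nat_lit 92) (nat_lit 5) (nat_lit 94) (nat_lit 5) (nat_lit 95) (nat_lit 5) (nat_lit 416) (nat_lit 342) (nat_lit 262)) (XT.lf (nat_lit 0) (nat_lit 13216907899) (nat_lit 152) (nat_lit 2626217298)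 (nat_lit 228) (nat_lit 676075625) (nat_lit 92) (nat_lit 5) (nat_lit 94) (nat_lit 5) (nat_lit 95) (nat_lit 5) (nat_lit 417) (nat_lit 342) (nat_lit 261)))))) (XT.nd (nat_lit 546) (nat_lit 912) (nat_lit 0) (XT.nd (nat_lit 234) (nat_lit 456) (nat_lit 0) (XT.nd (nat_lit 78) (nat_lit 152) (nat_lit 0) (XT.lf (nat_lit 0) (nat_lit 3742463497) (nat_lit 304) (nat_lit 10017277503) (nat_lit 76) (nat_lit 3073734107) (nat_lit 88) (nat_lit 5) (nat_lit 92) (nat_lit 5) (nat_lit 89) (nat_lit 5) (nat_lit 418) (nat_lit 342) (nat_lit 260)) (XT.nd (nat_lit 78) (nat_lit 0) (nat_lit 0) (XT.lf (nat_lit 0) (nat_lit 72034356) (nat_lit 152) (nat_lit 8241087164) (nat_lit 228) (nat_lit 8842864342) (nat_lit 86) (nat_lit 5) (nat_lit 88) (nat_lit 5) (nat_lit 89) (nat_lit 5) (nat_lit 419) (nat_lit 342) (nat_lit 259)) (XT.lf (nat_lit 0) (nat_lit 10623717391) (nat_lit 152) (nat_lit 2471470475) (nat_lit 228) (nat_lit 4390758901) (nat_lit 86) (nat_lit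 5) (nat_lit 88) (nat_lit 5) (nat_lit 89) (nat_lit 5) (nat_lit 420) (nat_lit 342) (nat_lit 258)))) (XT.nd (nat_lit 156) (nat_lit 152) (nat_lit 0) (XT.nd (nat_lit 78) (nat_lit 0) (nat_lit 0) (XT.lf (nat_lit 0) (nat_lit 233805118) (nat_lit 304) (nat_lit 14167585120) (nat_lit 76) (nat_lit 3423082375) (nat_lit 82) (nat_lit 5) (nat_lit 86) (nat_lit 5) (nat_lit 83) (nat_lit 5) (nat_lit 421) (nat_lit 342) (nat_lit 257)) (XT.lf (nat_lit 0) (nat_lit 4977125478) (nat_lit 304) (nat_lit 3652474663) (nat_lit 76) (nat_lit 9540205018) (nat_lit 82) (nat_lit 5) (nat_lit 86) (nat_lit 5) (nat_lit 83) (nat_lit 5) (nat_lit 422) (nat_lit 342) (nat_lit 256))) (XT.nd (nat_lit 78) (nat_lit 0) (nat_lit 0) (XT.lf (nat_lit 0) (nat_lit 7276371328) (nat_lit 152) (nat_lit 2630899799) (nat_lit 228) (nat_lit 8616893881) (nat_lit 80) (nat_lit 5) (nat_lit 82) (nat_lit 5) (nat_lit 83) (nat_lit 5) (nat_lit 423) (nat_lit 342) (nat_lit 255)) (XT.lf (nat_lit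 0) (nat_lit 15031402732) (nat_lit 228) (nat_lit 358421323) (nat_lit 76) (nat_lit 3497952158) (nat_lit 80) (nat_lit 5) (nat_lit 83) (nat_lit 5) (nat_lit 81) (nat_lit 5) (nat_lit 424) (nat_lit 342) (nat_lit 254))))) (XT.nd (nat_lit 312) (nat_lit 380) (nat_lit 0) (XT.nd (nat_lit 156) (nat_lit 152) (nat_lit 0) (XT.nd (nat_lit 78) (nat_lit 152) (nat_lit 0) (XT.lf (nat_lit 0) (nat_lit 1134881308) (nat_lit 228) (nat_lit 8266481419) (nat_lit 76) (nat_lit 9857383475) (nat_lit 77) (nat_lit 5) (nat_lit 80) (nat_lit 5) (nat_lit 78) (nat_lit 5) (nat_lit 425) (nat_lit 342) (nat_lit 253)) (XT.lf (nat_lit 0) (nat_lit 3028304048) (nat_lit 152) (nat_lit 3178358481) (nat_lit 228) (nat_lit 13432791115) (nat_lit 75) (nat_lit 5) (nat_lit 77) (nat_lit 5) (nat_lit 78) (nat_lit 5) (nat_lit 426) (nat_lit 342) (nat_lit 252))) (XT.nd (nat_lit 78) (nat_lit 152) (nat_lit 0) (XT.lf (nat_lit 0) (nat_lit 11521626377) (nat_lit 228) (nat_lit 5272367208)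 (nat_lit 76) (nat_lit 3234860518) (nat_lit 75) (nat_lit 5) (nat_lit 78) (nat_lit 5) (nat_lit 76) (nat_lit 5) (nat_lit 427) (nat_lit 342) (nat_lit 251)) (XT.lf (nat_lit 0) (nat_lit 6459617502) (nat_lit 152) (nat_lit 10606358962) (nat_lit 228) (nat_lit 3361864587) (nat_lit 73) (nat_lit 5) (nat_lit 75) (nat_lit 5) (nat_lit 76) (nat_lit 5) (nat_lit 428) (nat_lit 342) (nat_lit 250)))) (XT.nd (nat_lit 156) (nat_lit 152) (nat_lit 0) (XT.nd (nat_lit 78) (nat_lit 152) (nat_lit 0) (XT.lf (nat_lit 0) (nat_lit 1930246379) (nat_lit 228) (nat_lit 2246322136) (nat_lit 76) (nat_lit 16660766655) (nat_lit 72) (nat_lit 5) (nat_lit 75) (nat_lit 5) (nat_lit 73) (nat_lit 5) (nat_lit 429) (nat_lit 342) (nat_lit 249)) (XT.lf (nat_lit 0) (nat_lit 7410915377) (nat_lit 228) (nat_lit 11332886702) (nat_lit 76) (nat_lit 2511394886) (nat_lit 70) (nat_lit 5) (nat_lit 73) (nat_lit 5) (nat_lit 71) (nat_lit 5) (nat_lit 430) (nat_lit 342) (nat_lit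 248))) (XT.nd (nat_lit 78) (nat_lit 0) (nat_lit 0) (XT.lf (nat_lit 0) (nat_lit 749675109) (nat_lit 152) (nat_lit 12355030748) (nat_lit 228) (nat_lit 8579430021) (nat_lit 68) (nat_lit 5) (nat_lit 70) (nat_lit 5) (nat_lit 71) (nat_lit 5) (nat_lit 431) (nat_lit 342) (nat_lit 247)) (XT.lf (nat_lit 0) (nat_lit 13386912094) (nat_lit 152) (nat_lit 5674350222) (nat_lit 228) (nat_lit 3061924311) (nat_lit 68) (nat_lit 5) (nat_lit 70) (nat_lit 5) (nat_lit 71) (nat_lit 5) (nat_lit 432) (nat_lit 342) (nat_lit 246))))))))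
noncomputable def xc107 : XT := (XT.nd (nat_lit 2262) (nat_lit 1216) (nat_lit 0) (XT.nd (nat_lit 1092) (nat_lit 988) (nat_lit 0) (XT.nd (nat_lit 546) (nat_lit 608) (nat_lit 0) (XT.nd (nat_lit 234) (nat_lit 380) (nat_lit 0) (XT.nd (nat_lit 78) (nat_lit 152) (nat_lit 0) (XT.lf (nat_lit 0) (nat_lit 2596851338) (nat_lit 228) (nat_lit 18748087137) (nat_lit 76) (nat_lit 1228909903) (nat_lit 65) (nat_lit 5) (nat_lit 68) (nat_lit 5) (nat_lit 66) (nat_lit 5) (nat_lit 433) (nat_lit 342) (nat_lit 245)) (XT.nd (nat_lit 78) (nat_lit 152) (nat_lit 0) (XT.lf (nat_lit 0) (nat_lit 8487173864) (nat_lit 228) (nat_lit 6218502702) (nat_lit 76) (nat_lit 8327746222) (nat_lit 65) (nat_lit 5) (nat_lit 68) (nat_lit 5) (nat_lit 66) (nat_lit 5) (nat_lit 434) (nat_lit 342) (nat_lit 244)) (XT.lf (nat_lit 0) (nat_lit 6780949009) (nat_lit 152) (nat_lit 7817129850) (nat_lit 228) (nat_lit 8907391375) (nat_lit 63) (nat_lit 5) (nat_lit 65) (nat_lit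 5) (nat_lit 66) (nat_lit 5) (nat_lit 435) (nat_lit 342) (nat_lit 243)))) (XT.nd (nat_lit 156) (nat_lit 152) (nat_lit 0) (XT.nd (nat_lit 78) (nat_lit 228) (nat_lit 0) (XT.lf (nat_lit 0) (nat_lit 20259892378) (nat_lit 152) (nat_lit 674159206) (nat_lit 228) (nat_lit 3056377233) (nat_lit 63) (nat_lit 5) (nat_lit 65) (nat_lit 5) (nat_lit 66) (nat_lit 5) (nat_lit 436) (nat_lit 342) (nat_lit 242)) (XT.lf (nat_lit 0) (nat_lit 3050853670) (nat_lit 228) (nat_lit 14773922754) (nat_lit 76) (nat_lit 6660145670) (nat_lit 60) (nat_lit 5) (nat_lit 63) (nat_lit 5) (nat_lit 61) (nat_lit 5) (nat_lit 437) (nat_lit 342) (nat_lit 241))) (XT.nd (nat_lit 78) (nat_lit 152) (nat_lit 0) (XT.lf (nat_lit 0) (nat_lit 9304033032) (nat_lit 228) (nat_lit 1435537133) (nat_lit 76) (nat_lit 14253049085) (nat_lit 60) (nat_lit 5) (nat_lit 63) (nat_lit 5) (nat_lit 61) (nat_lit 5) (nat_lit 438) (nat_lit 342) (nat_lit 240)) (XT.lf (nat_lit 0) (nat_lit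 12510858524) (nat_lit 152) (nat_lit 3334252789) (nat_lit 228) (nat_lit 9667428618) (nat_lit 58) (nat_lit 5) (nat_lit 60) (nat_lit 5) (nat_lit 61) (nat_lit 5) (nat_lit 439) (nat_lit 342) (nat_lit 239))))) (XT.nd (nat_lit 234) (nat_lit 304) (nat_lit 0) (XT.nd (nat_lit 78) (nat_lit 228) (nat_lit 0) (XT.lf (nat_lit 0) (nat_lit 795198900) (nat_lit 76) (nat_lit 21830897597) (nat_lit 152) (nat_lit 3420653162) (nat_lit 57) (nat_lit 5) (nat_lit 58) (nat_lit 5) (nat_lit 59) (nat_lit 4) (nat_lit 440) (nat_lit 342) (nat_lit 238)) (XT.nd (nat_lit 78) (nat_lit 152) (nat_lit 0) (XT.lf (nat_lit 0) (nat_lit 3100483348) (nat_lit 152) (nat_lit 11420215269) (nat_lit 76) (nat_lit 12071046720) (nat_lit 56) (nat_lit 5) (nat_lit 58) (nat_lit 5) (nat_lit 57) (nat_lit 5) (nat_lit 441) (nat_lit 342) (nat_lit 237)) (XT.lf (nat_lit 0) (nat_lit 2811723853) (nat_lit 152) (nat_lit 6944542992) (nat_lit 228) (nat_lit 17395576590) (nat_lit 54) (nat_lit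 5) (nat_lit 56) (nat_lit 5) (nat_lit 57) (nat_lit 5) (nat_lit 442) (nat_lit 342) (nat_lit 236)))) (XT.nd (nat_lit 156) (nat_lit 228) (nat_lit 0) (XT.nd (nat_lit 78) (nat_lit 76) (nat_lit 0) (XT.lf (nat_lit 0) (nat_lit 16717251707) (nat_lit 228) (nat_lit 10065366829) (nat_lit 76) (nat_lit 942961583) (nat_lit 54) (nat_lit 5) (nat_lit 57) (nat_lit 5) (nat_lit 55) (nat_lit 4) (nat_lit 443) (nat_lit 342) (nat_lit 235)) (XT.lf (nat_lit 0) (nat_lit 4624738952) (nat_lit 76) (nat_lit 19356907854) (nat_lit 152) (nat_lit 4332046112) (nat_lit 53) (nat_lit 5) (nat_lit 54) (nat_lit 5) (nat_lit 55) (nat_lit 4) (nat_lit 444) (nat_lit 342) (nat_lit 234))) (XT.nd (nat_lit 78) (nat_lit 152) (nat_lit 0) (XT.lf (nat_lit 0) (nat_lit 2578917423) (nat_lit 152) (nat_lit 9014399238) (nat_lit 76) (nat_lit 17322878640) (nat_lit 52) (nat_lit 5) (nat_lit 54) (nat_lit 5) (nat_lit 53) (nat_lit 5) (nat_lit 445) (nat_lit 342) (nat_lit 233)) (XT.lf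 (nat_lit 0) (nat_lit 6143982552) (nat_lit 152) (nat_lit 3507157774) (nat_lit 228) (nat_lit 19883116989) (nat_lit 50) (nat_lit 5) (nat_lit 52) (nat_lit 5) (nat_lit 53) (nat_lit 5) (nat_lit 446) (nat_lit 342) (nat_lit 232)))))) (XT.nd (nat_lit 546) (nat_lit 608) (nat_lit 0) (XT.nd (nat_lit 234) (nat_lit 228) (nat_lit 0) (XT.nd (nat_lit 78) (nat_lit 152) (nat_lit 0) (XT.lf (nat_lit 0) (nat_lit 17055809149) (nat_lit 228) (nat_lit 8306949649) (nat_lit 76) (nat_lit 4804495289) (nat_lit 50) (nat_lit 5) (nat_lit 53) (nat_lit 5) (nat_lit 51) (nat_lit 4) (nat_lit 447) (nat_lit 342) (nat_lit 231)) (XT.nd (nat_lit 78) (nat_lit 76) (nat_lit 0) (XT.lf (nat_lit 0) (nat_lit 7304184613) (nat_lit 76) (nat_lit 17465896435) (nat_lit 152) (nat_lit 6046537064) (nat_lit 49) (nat_lit 5) (nat_lit 50) (nat_lit 5) (nat_lit 51) (nat_lit 4) (nat_lit 448) (nat_lit 342) (nat_lit 230)) (XT.lf (nat_lit 0) (nat_lit 1273578343) (nat_lit 152) (nat_lit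 7974193418) (nat_lit 76) (nat_lit 22235319621) (nat_lit 48) (nat_lit 5) (nat_lit 50) (nat_lit 5) (nat_lit 49) (nat_lit 5) (nat_lit 449) (nat_lit 342) (nat_lit 229)))) (XT.nd (nat_lit 156) (nat_lit 76) (nat_lit 0) (XT.nd (nat_lit 78) (nat_lit 0) (nat_lit 0) (XT.lf (nat_lit 0) (nat_lit 8096744191) (nat_lit 152) (nat_lit 655916411) (nat_lit 228) (nat_lit 23413276595) (nat_lit 46) (nat_lit 5) (nat_lit 48) (nat_lit 5) (nat_lit 49) (nat_lit 5) (nat_lit 450) (nat_lit 342) (nat_lit 228)) (XT.lf (nat_lit 0) (nat_lit 16599314191) (nat_lit 228) (nat_lit 8164773518) (nat_lit 76) (nat_lit 8100885814) (nat_lit 46) (nat_lit 5) (nat_lit 49) (nat_lit 5) (nat_lit 47) (nat_lit 4) (nat_lit 451) (nat_lit 342) (nat_lit 227))) (XT.nd (nat_lit 78) (nat_lit 0) (nat_lit 0) (XT.lf (nat_lit 0) (nat_lit 8342361377) (nat_lit 76) (nat_lit 16409298980) (nat_lit 152) (nat_lit 8831212860) (nat_lit 45) (nat_lit 5) (nat_lit 46) (nat_lit 5) (nat_lit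 47) (nat_lit 4) (nat_lit 452) (nat_lit 342) (nat_lit 226)) (XT.lf (nat_lit 0) (nat_lit 25481668800) (nat_lit 76) (nat_lit 7733148316) (nat_lit 152) (nat_lit 1105506617) (nat_lit 45) (nat_lit 5) (nat_lit 46) (nat_lit 5) (nat_lit 47) (nat_lit 4) (nat_lit 453) (nat_lit 342) (nat_lit 225))))) (XT.nd (nat_lit 312) (nat_lit 304) (nat_lit 0) (XT.nd (nat_lit 156) (nat_lit 76) (nat_lit 0) (XT.nd (nat_lit 78) (nat_lit 0) (nat_lit 0) (XT.lf (nat_lit 0) (nat_lit 6793263661) (nat_lit 228) (nat_lit 26970955797) (nat_lit 76) (nat_lit 1311453341) (nat_lit 42) (nat_lit 5) (nat_lit 45) (nat_lit 5) (nat_lit 43) (nat_lit 4) (nat_lit 454) (nat_lit 342) (nat_lit 224)) (XT.lf (nat_lit 0) (nat_lit 15057633190) (nat_lit 228) (nat_lit 10231715678) (nat_lit 76) (nat_lit 10559480377) (nat_lit 42) (nat_lit 5) (nat_lit 45) (nat_lit 5) (nat_lit 43) (nat_lit 4) (nat_lit 455) (nat_lit 342) (nat_lit 223))) (XT.nd (nat_lit 78) (nat_lit 0) (nat_lit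 0) (XT.lf (nat_lit 0) (nat_lit 7119611826) (nat_lit 76) (nat_lit 16503374730) (nat_lit 152) (nat_lit 13020603168) (nat_lit 41) (nat_lit 5) (nat_lit 42) (nat_lit 5) (nat_lit 43) (nat_lit 4) (nat_lit 456) (nat_lit 342) (nat_lit 222)) (XT.lf (nat_lit 0) (nat_lit 25172484708) (nat_lit 76) (nat_lit 7360922670) (nat_lit 152) (nat_lit 4926143329) (nat_lit 41) (nat_lit 5) (nat_lit 42) (nat_lit 5) (nat_lit 43) (nat_lit 4) (nat_lit 457) (nat_lit 342) (nat_lit 221)))) (XT.nd (nat_lit 156) (nat_lit 76) (nat_lit 0) (XT.nd (nat_lit 78) (nat_lit 0) (nat_lit 0) (XT.lf (nat_lit 0) (nat_lit 3403152169) (nat_lit 228) (nat_lit 32804791431) (nat_lit 76) (nat_lit 2089307090) (nat_lit 38) (nat_lit 5) (nat_lit 41) (nat_lit 5) (nat_lit 39) (nat_lit 4) (nat_lit 458) (nat_lit 342) (nat_lit 220)) (XT.lf (nat_lit 0) (nat_lit 12066622237) (nat_lit 228) (nat_lit 15250234661) (nat_lit 76) (nat_lit 11836263193) (nat_lit 38) (nat_lit 5) (nat_lit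 41) (nat_lit 5) (nat_lit 39) (nat_lit 4) (nat_lit 459) (nat_lit 342) (nat_lit 219))) (XT.nd (nat_lit 78) (nat_lit 0) (nat_lit 0) (XT.lf (nat_lit 0) (nat_lit 2859341520) (nat_lit 76) (nat_lit 18143696105) (nat_lit 152) (nat_lit 19031237509) (nat_lit 37) (nat_lit 5) (nat_lit 38) (nat_lit 5) (nat_lit 39) (nat_lit 4) (nat_lit 460) (nat_lit 342) (nat_lit 218)) (XT.lf (nat_lit 0) (nat_lit 21797675262) (nat_lit 76) (nat_lit 8549582943) (nat_lit 152) (nat_lit 10590416013) (nat_lit 37) (nat_lit 5) (nat_lit 38) (nat_lit 5) (nat_lit 39) (nat_lit 4) (nat_lit 461) (nat_lit 342) (nat_lit 217))))))) (XT.nd (nat_lit 1092) (nat_lit 532) (nat_lit 0) (XT.nd (nat_lit 546) (nat_lit 304) (nat_lit 0) (XT.nd (nat_lit 234) (nat_lit 228) (nat_lit 0) (XT.nd (nat_lit 78) (nat_lit 152) (nat_lit 0) (XT.lf (nat_lit 0) (nat_lit 39970624107) (nat_lit 152) (nat_lit 603474416) (nat_lit 0) (nat_lit 1294112939) (nat_lit 37) (nat_lit 5) (nat_lit 39)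 (nat_lit 4) (nat_lit 37) (nat_lit 4) (nat_lit 462) (nat_lit 342) (nat_lit 216)) (XT.nd (nat_lit 78) (nat_lit 0) (nat_lit 0) (XT.lf (nat_lit 0) (nat_lit 7172075241) (nat_lit 152) (nat_lit 24145049881) (nat_lit 76) (nat_lit 11499893477) (nat_lit 35) (nat_lit 5) (nat_lit 37) (nat_lit 5) (nat_lit 36) (nat_lit 4) (nat_lit 463) (nat_lit 342) (nat_lit 215)) (XT.lf (nat_lit 0) (nat_lit 16468276682) (nat_lit 152) (nat_lit 5300801202) (nat_lit 76) (nat_lit 22024871453) (nat_lit 35) (nat_lit 5) (nat_lit 37) (nat_lit 5) (nat_lit 36) (nat_lit 4) (nat_lit 464) (nat_lit 342) (nat_lit 214)))) (XT.nd (nat_lit 156) (nat_lit 152) (nat_lit 0) (XT.nd (nat_lit 78) (nat_lit 0) (nat_lit 0) (XT.lf (nat_lit 0) (nat_lit 14363929540) (nat_lit 76) (nat_lit 11804338968) (nat_lit 152) (nat_lit 18628173025) (nat_lit 34) (nat_lit 5) (nat_lit 35) (nat_lit 5) (nat_lit 36) (nat_lit 4) (nat_lit 465) (nat_lit 342) (nat_lit 213)) (XT.lf (nat_lit 0)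 (nat_lit 34702372478) (nat_lit 76) (nat_lit 1497389115) (nat_lit 152) (nat_lit 9628032502) (nat_lit 34) (nat_lit 5) (nat_lit 35) (nat_lit 5) (nat_lit 36) (nat_lit 4) (nat_lit 466) (nat_lit 342) (nat_lit 212))) (XT.nd (nat_lit 78) (nat_lit 76) (nat_lit 0) (XT.lf (nat_lit 0) (nat_lit 8820918902) (nat_lit 76) (nat_lit 37870970307) (nat_lit 76) (nat_lit 193407963) (nat_lit 33) (nat_lit 4) (nat_lit 34) (nat_lit 5) (nat_lit 34) (nat_lit 4) (nat_lit 467) (nat_lit 342) (nat_lit 211)) (XT.lf (nat_lit 0) (nat_lit 9453941630) (nat_lit 152) (nat_lit 18509385986) (nat_lit 76) (nat_lit 20004985561) (nat_lit 32) (nat_lit 5) (nat_lit 34) (nat_lit 5) (nat_lit 33) (nat_lit 4) (nat_lit 468) (nat_lit 342) (nat_lit 210))))) (XT.nd (nat_lit 234) (nat_lit 228) (nat_lit 0) (XT.nd (nat_lit 78) (nat_lit 0) (nat_lit 0) (XT.lf (nat_lit 0) (nat_lit 1638577888) (nat_lit 76) (nat_lit 17751624656) (nat_lit 152) (nat_lit 29693458902) (nat_lit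 31) (nat_lit 5) (nat_lit 32) (nat_lit 5) (nat_lit 33) (nat_lit 4) (nat_lit 469) (nat_lit 342) (nat_lit 209)) (XT.nd (nat_lit 78) (nat_lit 0) (nat_lit 0) (XT.lf (nat_lit 0) (nat_lit 22746899864) (nat_lit 76) (nat_lit 7052321483) (nat_lit 152) (nat_lit 20428009270) (nat_lit 31) (nat_lit 5) (nat_lit 32) (nat_lit 5) (nat_lit 33) (nat_lit 4) (nat_lit 470) (nat_lit 342) (nat_lit 208)) (XT.lf (nat_lit 0) (nat_lit 40546666051) (nat_lit 152) (nat_lit 6977850152) (nat_lit 0) (nat_lit 3879806544) (nat_lit 31) (nat_lit 5) (nat_lit 33) (nat_lit 4) (nat_lit 31) (nat_lit 4) (nat_lit 471) (nat_lit 342) (nat_lit 207)))) (XT.nd (nat_lit 156) (nat_lit 76) (nat_lit 0) (XT.nd (nat_lit 78) (nat_lit 76) (nat_lit 0) (XT.lf (nat_lit 0) (nat_lit 14327051979) (nat_lit 76) (nat_lit 37485389476) (nat_lit 76) (nat_lit 798409487) (nat_lit 30) (nat_lit 4) (nat_lit 31) (nat_lit 5) (nat_lit 31) (nat_lit 4) (nat_lit 472) (nat_lit 342) (nat_lit 206))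 (XT.lf (nat_lit 0) (nat_lit 9435547608) (nat_lit 152) (nat_lit 17552352792) (nat_lit 76) (nat_lit 26861131424) (nat_lit 29) (nat_lit 5) (nat_lit 31) (nat_lit 5) (nat_lit 30) (nat_lit 4) (nat_lit 473) (nat_lit 342) (nat_lit 205))) (XT.nd (nat_lit 78) (nat_lit 0) (nat_lit 0) (XT.lf (nat_lit 0) (nat_lit 3846429619) (nat_lit 76) (nat_lit 16139732716) (nat_lit 152) (nat_lit 35137188542) (nat_lit 28) (nat_lit 5) (nat_lit 29) (nat_lit 5) (nat_lit 30) (nat_lit 4) (nat_lit 474) (nat_lit 342) (nat_lit 204)) (XT.lf (nat_lit 0) (nat_lit 26225435063) (nat_lit 76) (nat_lit 4793938373) (nat_lit 152) (nat_lit 25411544194) (nat_lit 28) (nat_lit 5) (nat_lit 29) (nat_lit 5) (nat_lit 30) (nat_lit 4) (nat_lit 475) (nat_lit 342) (nat_lit 203)))))) (XT.nd (nat_lit 546) (nat_lit 228) (nat_lit 0) (XT.nd (nat_lit 234) (nat_lit 152) (nat_lit 0) (XT.nd (nat_lit 78) (nat_lit 152) (nat_lit 0) (XT.lf (nat_lit 0) (nat_lit 42438895148) (nat_lit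 152) (nat_lit 8589300759) (nat_lit 0) (nat_lit 6747856504) (nat_lit 28) (nat_lit 5) (nat_lit 30) (nat_lit 4) (nat_lit 28) (nat_lit 4) (nat_lit 476) (nat_lit 342) (nat_lit 202)) (XT.nd (nat_lit 78) (nat_lit 76) (nat_lit 0) (XT.lf (nat_lit 0) (nat_lit 13878183350) (nat_lit 76) (nat_lit 40493070016) (nat_lit 76) (nat_lit 4785180785) (nat_lit 27) (nat_lit 4) (nat_lit 28) (nat_lit 5) (nat_lit 28) (nat_lit 4) (nat_lit 477) (nat_lit 342) (nat_lit 201)) (XT.lf (nat_lit 0) (nat_lit 6041630652) (nat_lit 152) (nat_lit 23459738799) (nat_lit 76) (nat_lit 31072794483) (nat_lit 26) (nat_lit 5) (nat_lit 28) (nat_lit 5) (nat_lit 27) (nat_lit 4) (nat_lit 478) (nat_lit 342) (nat_lit 200)))) (XT.nd (nat_lit 156) (nat_lit 76) (nat_lit 0) (XT.nd (nat_lit 78) (nat_lit 76) (nat_lit 0) (XT.lf (nat_lit 0) (nat_lit 17086768040) (nat_lit 152) (nat_lit 1053993197) (nat_lit 76) (nat_lit 43892552466) (nat_lit 26) (nat_lit 5) (nat_lit 28) (nat_lit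 5) (nat_lit 27) (nat_lit 4) (nat_lit 479) (nat_lit 342) (nat_lit 199)) (XT.lf (nat_lit 0) (nat_lit 22442495854) (nat_lit 76) (nat_lit 6226493725) (nat_lit 152) (nat_lit 34861076875) (nat_lit 25) (nat_lit 5) (nat_lit 26) (nat_lit 5) (nat_lit 27) (nat_lit 4) (nat_lit 480) (nat_lit 342) (nat_lit 198))) (XT.nd (nat_lit 78) (nat_lit 76) (nat_lit 0) (XT.lf (nat_lit 0) (nat_lit 40657553411) (nat_lit 152) (nat_lit 18483513663) (nat_lit 0) (nat_lit 5928888827) (nat_lit 25) (nat_lit 5) (nat_lit 27) (nat_lit 4) (nat_lit 25) (nat_lit 4) (nat_lit 481) (nat_lit 342) (nat_lit 197)) (XT.lf (nat_lit 0) (nat_lit 4812101439) (nat_lit 76) (nat_lit 48291885629) (nat_lit 76) (nat_lit 13549108942) (nat_lit 24) (nat_lit 4) (nat_lit 25) (nat_lit 5) (nat_lit 25) (nat_lit 4) (nat_lit 482) (nat_lit 342) (nat_lit 196))))) (XT.nd (nat_lit 312) (nat_lit 76) (nat_lit 0) (XT.nd (nat_lit 156) (nat_lit 76) (nat_lit 0) (XT.nd (nat_lit 78) (nat_lit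 76) (nat_lit 0) (XT.lf (nat_lit 0) (nat_lit 29166846857) (nat_lit 76) (nat_lit 36934024920) (nat_lit 76) (nat_lit 2177547164) (nat_lit 24) (nat_lit 4) (nat_lit 25) (nat_lit 5) (nat_lit 25) (nat_lit 4) (nat_lit 483) (nat_lit 342) (nat_lit 195)) (XT.lf (nat_lit 0) (nat_lit 9339693698) (nat_lit 152) (nat_lit 15810201557) (nat_lit 76) (nat_lit 44800138979) (nat_lit 23) (nat_lit 5) (nat_lit 25) (nat_lit 5) (nat_lit 24) (nat_lit 4) (nat_lit 484) (nat_lit 342) (nat_lit 194))) (XT.nd (nat_lit 78) (nat_lit 0) (nat_lit 0) (XT.lf (nat_lit 0) (nat_lit 8313124722) (nat_lit 76) (nat_lit 12916342794) (nat_lit 152) (nat_lit 50439560534) (nat_lit 22) (nat_lit 5) (nat_lit 23) (nat_lit 5) (nat_lit 24) (nat_lit 4) (nat_lit 485) (nat_lit 342) (nat_lit 193)) (XT.lf (nat_lit 0) (nat_lit 33466673893) (nat_lit 76) (nat_lit 159881106) (nat_lit 152) (nat_lit 39808518386) (nat_lit 22) (nat_lit 5) (nat_lit 23) (nat_lit 5) (nat_lit 24) (nat_lit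 4) (nat_lit 486) (nat_lit 342) (nat_lit 192)))) (XT.nd (nat_lit 156) (nat_lit 0) (nat_lit 0) (XT.nd (nat_lit 78) (nat_lit 76) (nat_lit 0) (XT.lf (nat_lit 0) (nat_lit 46511471612) (nat_lit 152) (nat_lit 16021277709) (nat_lit 0) (nat_lit 12717873573) (nat_lit 22) (nat_lit 5) (nat_lit 24) (nat_lit 4) (nat_lit 22) (nat_lit 4) (nat_lit 487) (nat_lit 342) (nat_lit 191)) (XT.lf (nat_lit 0) (nat_lit 8797607524) (nat_lit 76) (nat_lit 51062888659) (nat_lit 76) (nat_lit 17257816191) (nat_lit 21) (nat_lit 4) (nat_lit 22) (nat_lit 5) (nat_lit 22) (nat_lit 4) (nat_lit 488) (nat_lit 342) (nat_lit 190))) (XT.nd (nat_lit 41730) (nat_lit 0) (nat_lit 28348) (XT.lf (nat_lit 0) (nat_lit 34672903686) (nat_lit 76) (nat_lit 39090371659) (nat_lit 76) (nat_lit 5274158967) (nat_lit 21) (nat_lit 4) (nat_lit 22) (nat_lit 5) (nat_lit 22) (nat_lit 4) (nat_lit 489) (nat_lit 342) (nat_lit 189)) (XT.lf (nat_lit 0) (nat_lit 1204872540) (nat_lit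 0) (nat_lit 1204872540) (nat_lit 228) (nat_lit 830399823) (nat_lit 394) (nat_lit 5) (nat_lit 394) (nat_lit 3) (nat_lit 397) (nat_lit 3) (nat_lit 343) (nat_lit 343) (nat_lit 334))))))))
noncomputable def xc108 : XT := (XT.nd (nat_lit 2184) (nat_lit 8512) (nat_lit 0) (XT.nd (nat_lit 1092) (nat_lit 8588) (nat_lit 0) (XT.nd (nat_lit 546) (nat_lit 1748) (nat_lit 0) (XT.nd (nat_lit 234) (nat_lit 760) (nat_lit 0) (XT.nd (nat_lit 78) (nat_lit 0) (nat_lit 0) (XT.lf (nat_lit 0) (nat_lit 1072329582) (nat_lit 380) (nat_lit 883253956) (nat_lit 380) (nat_lit 4539117187) (nat_lit 389) (nat_lit 3) (nat_lit 394) (nat_lit 3) (nat_lit 394) (nat_lit 5) (nat_lit 344) (nat_lit 343) (nat_lit 333)) (XT.nd (nat_lit 78) (nat_lit 0) (nat_lit 0) (XT.lf (nat_lit 76) (nat_lit 2374749374) (nat_lit 0) (nat_lit 1395795566) (nat_lit 380) (nat_lit 2741071066) (nat_lit 390) (nat_lit 5) (nat_lit 389) (nat_lit 3) (nat_lit 394) (nat_lit 5) (nat_lit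 345) (nat_lit 343) (nat_lit 332)) (XT.lf (nat_lit 76) (nat_lit 5694333409) (nat_lit 0) (nat_lit 760513703) (nat_lit 380) (nat_lit 77095211) (nat_lit 390) (nat_lit 5) (nat_lit 389) (nat_lit 3) (nat_lit 394) (nat_lit 5) (nat_lit 346) (nat_lit 343) (nat_lit 331)))) (XT.nd (nat_lit 156) (nat_lit 380) (nat_lit 0) (XT.nd (nat_lit 78) (nat_lit 0) (nat_lit 76) (XT.lf (nat_lit 76) (nat_lit 2529587628) (nat_lit 0) (nat_lit 7680670) (nat_lit 456) (nat_lit 4017220338) (nat_lit 385) (nat_lit 5) (nat_lit 384) (nat_lit 5) (nat_lit 390) (nat_lit 5) (nat_lit 347) (nat_lit 343) (nat_lit 330)) (XT.lf (nat_lit 0) (nat_lit 5145504298) (nat_lit 380) (nat_lit 628410534) (nat_lit 456) (nat_lit 806316758) (nat_lit 385) (nat_lit 5) (nat_lit 390) (nat_lit 5) (nat_lit 391) (nat_lit 5) (nat_lit 348) (nat_lit 343) (nat_lit 329))) (XT.nd (nat_lit 78) (nat_lit 0) (nat_lit 0) (XT.lf (nat_lit 0) (nat_lit 1132218078) (nat_lit 456) (nat_lit 3750065218)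 (nat_lit 532) (nat_lit 1726233460) (nat_lit 379) (nat_lit 5) (nat_lit 385) (nat_lit 5) (nat_lit 386) (nat_lit 5) (nat_lit 349) (nat_lit 343) (nat_lit 328)) (XT.lf (nat_lit 0) (nat_lit 3658981378) (nat_lit 456) (nat_lit 246327739) (nat_lit 532) (nat_lit 2734614216) (nat_lit 379) (nat_lit 5) (nat_lit 385) (nat_lit 5) (nat_lit 386) (nat_lit 5) (nat_lit 350) (nat_lit 343) (nat_lit 327))))) (XT.nd (nat_lit 234) (nat_lit 1216) (nat_lit 0) (XT.nd (nat_lit 78) (nat_lit 532) (nat_lit 0) (XT.lf (nat_lit 76) (nat_lit 3372604539) (nat_lit 0) (nat_lit 2829360269) (nat_lit 532) (nat_lit 472141770) (nat_lit 380) (nat_lit 5) (nat_lit 379) (nat_lit 5) (nat_lit 386) (nat_lit 5) (nat_lit 351) (nat_lit 343) (nat_lit 326)) (XT.nd (nat_lit 78) (nat_lit 0) (nat_lit 0) (XT.lf (nat_lit 76) (nat_lit 324893936) (nat_lit 0) (nat_lit 1660664964) (nat_lit 608) (nat_lit 4725746247) (nat_lit 373) (nat_lit 5) (nat_lit 372) (nat_lit 5) (nat_lit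 380) (nat_lit 5) (nat_lit 352) (nat_lit 343) (nat_lit 325)) (XT.lf (nat_lit 76) (nat_lit 4066517032) (nat_lit 0) (nat_lit 385590828) (nat_lit 608) (nat_lit 2299076365) (nat_lit 373) (nat_lit 5) (nat_lit 372) (nat_lit 5) (nat_lit 380) (nat_lit 5) (nat_lit 353) (nat_lit 343) (nat_lit 324)))) (XT.nd (nat_lit 156) (nat_lit 684) (nat_lit 0) (XT.nd (nat_lit 78) (nat_lit 0) (nat_lit 0) (XT.lf (nat_lit 0) (nat_lit 129306164) (nat_lit 608) (nat_lit 5712982403) (nat_lit 76) (nat_lit 951969165) (nat_lit 365) (nat_lit 5) (nat_lit 373) (nat_lit 5) (nat_lit 366) (nat_lit 5) (nat_lit 354) (nat_lit 343) (nat_lit 323)) (XT.lf (nat_lit 0) (nat_lit 2530804115) (nat_lit 608) (nat_lit 1908344695) (nat_lit 76) (nat_lit 2400436898) (nat_lit 365) (nat_lit 5) (nat_lit 373) (nat_lit 5) (nat_lit 366) (nat_lit 5) (nat_lit 355) (nat_lit 343) (nat_lit 322))) (XT.nd (nat_lit 78) (nat_lit 76) (nat_lit 0) (XT.lf (nat_lit 0) (nat_lit 1992106833)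 (nat_lit 608) (nat_lit 2949134262) (nat_lit 684) (nat_lit 1946963810) (nat_lit 357) (nat_lit 5) (nat_lit 365) (nat_lit 5) (nat_lit 366) (nat_lit 5) (nat_lit 356) (nat_lit 343) (nat_lit 321)) (XT.lf (nat_lit 0) (nat_lit 414455563) (nat_lit 684) (nat_lit 952163679) (nat_lit 76) (nat_lit 5573412630) (nat_lit 356) (nat_lit 5) (nat_lit 365) (nat_lit 5) (nat_lit 357) (nat_lit 5) (nat_lit 357) (nat_lit 343) (nat_lit 320)))))) (XT.nd (nat_lit 546) (nat_lit 4256) (nat_lit 0) (XT.nd (nat_lit 234) (nat_lit 2812) (nat_lit 0) (XT.nd (nat_lit 78) (nat_lit 836) (nat_lit 0) (XT.lf (nat_lit 0) (nat_lit 2761693688) (nat_lit 760) (nat_lit 3902969141) (nat_lit 76) (nat_lit 329584229) (nat_lit 347) (nat_lit 5) (nat_lit 357) (nat_lit 5) (nat_lit 348) (nat_lit 5) (nat_lit 358) (nat_lit 343) (nat_lit 319)) (XT.nd (nat_lit 78) (nat_lit 76) (nat_lit 0) (XT.lf (nat_lit 0) (nat_lit 156582588) (nat_lit 760) (nat_lit 4970603450) (nat_lit 836)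 (nat_lit 1924501495) (nat_lit 337) (nat_lit 5) (nat_lit 347) (nat_lit 5) (nat_lit 348) (nat_lit 5) (nat_lit 359) (nat_lit 343) (nat_lit 318)) (XT.lf (nat_lit 0) (nat_lit 407755017) (nat_lit 836) (nat_lit 2756041663) (nat_lit 76) (nat_lit 3948042002) (nat_lit 336) (nat_lit 5) (nat_lit 347) (nat_lit 5) (nat_lit 337) (nat_lit 5) (nat_lit 360) (nat_lit 343) (nat_lit 317)))) (XT.nd (nat_lit 156) (nat_lit 1976) (nat_lit 0) (XT.nd (nat_lit 78) (nat_lit 0) (nat_lit 0) (XT.lf (nat_lit 0) (nat_lit 1458781846) (nat_lit 836) (nat_lit 1252749339) (nat_lit 912) (nat_lit 4463515634) (nat_lit 325) (nat_lit 5) (nat_lit 336) (nat_lit 5) (nat_lit 337) (nat_lit 5) (nat_lit 361) (nat_lit 343) (nat_lit 316)) (XT.lf (nat_lit 0) (nat_lit 5047358115) (nat_lit 912) (nat_lit 1449520543) (nat_lit 76) (nat_lit 744414578) (nat_lit 325) (nat_lit 5) (nat_lit 337) (nat_lit 5) (nat_lit 326) (nat_lit 5) (nat_lit 362) (nat_lit 343) (nat_lit 315)))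 (XT.nd (nat_lit 78) (nat_lit 988) (nat_lit 0) (XT.lf (nat_lit 0) (nat_lit 111248745) (nat_lit 988) (nat_lit 4379347698) (nat_lit 76) (nat_lit 2819807962) (nat_lit 312) (nat_lit 5) (nat_lit 325) (nat_lit 5) (nat_lit 313) (nat_lit 5) (nat_lit 363) (nat_lit 343) (nat_lit 314)) (XT.lf (nat_lit 0) (nat_lit 11271138) (nat_lit 988) (nat_lit 2375943271) (nat_lit 1064) (nat_lit 4995378767) (nat_lit 299) (nat_lit 5) (nat_lit 312) (nat_lit 5) (nat_lit 313) (nat_lit 5) (nat_lit 364) (nat_lit 343) (nat_lit 313))))) (XT.nd (nat_lit 234) (nat_lit 3116) (nat_lit 0) (XT.nd (nat_lit 78) (nat_lit 1140) (nat_lit 0) (XT.lf (nat_lit 0) (nat_lit 4565259350) (nat_lit 988) (nat_lit 142710054) (nat_lit 1064) (nat_lit 2749709694) (nat_lit 299) (nat_lit 5) (nat_lit 312) (nat_lit 5) (nat_lit 313) (nat_lit 5) (nat_lit 365) (nat_lit 343) (nat_lit 312)) (XT.nd (nat_lit 78) (nat_lit 76) (nat_lit 0) (XT.lf (nat_lit 0) (nat_lit 1674264746) (nat_lit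 1064) (nat_lit 5395265014) (nat_lit 1140) (nat_lit 466378371) (nat_lit 285) (nat_lit 5) (nat_lit 299) (nat_lit 5) (nat_lit 300) (nat_lit 5) (nat_lit 366) (nat_lit 343) (nat_lit 311)) (XT.lf (nat_lit 0) (nat_lit 1814613911) (nat_lit 1140) (nat_lit 1257452541) (nat_lit 76) (nat_lit 4544919791) (nat_lit 284) (nat_lit 5) (nat_lit 299) (nat_lit 5) (nat_lit 285) (nat_lit 5) (nat_lit 367) (nat_lit 343) (nat_lit 310)))) (XT.nd (nat_lit 156) (nat_lit 760) (nat_lit 0) (XT.nd (nat_lit 78) (nat_lit 1216) (nat_lit 0) (XT.lf (nat_lit 0) (nat_lit 3490831130) (nat_lit 1140) (nat_lit 634322116) (nat_lit 1216) (nat_lit 3576114002) (nat_lit 269) (nat_lit 5) (nat_lit 284) (nat_lit 5) (nat_lit 285) (nat_lit 5) (nat_lit 368) (nat_lit 343) (nat_lit 309)) (XT.lf (nat_lit 0) (nat_lit 553385839) (nat_lit 1216) (nat_lit 5926074954) (nat_lit 1292) (nat_lit 1309405443) (nat_lit 253) (nat_lit 5) (nat_lit 269) (nat_lit 5) (nat_lit 270) (nat_lit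 5) (nat_lit 369) (nat_lit 343) (nat_lit 308))) (XT.nd (nat_lit 78) (nat_lit 684) (nat_lit 0) (XT.lf (nat_lit 0) (nat_lit 993402403) (nat_lit 1292) (nat_lit 2407495830) (nat_lit 76) (nat_lit 4478277912) (nat_lit 252) (nat_lit 5) (nat_lit 269) (nat_lit 5) (nat_lit 253) (nat_lit 5) (nat_lit 370) (nat_lit 343) (nat_lit 307)) (XT.lf (nat_lit 0) (nat_lit 2544191577) (nat_lit 684) (nat_lit 759908360) (nat_lit 760) (nat_lit 4668773938) (nat_lit 243) (nat_lit 5) (nat_lit 252) (nat_lit 5) (nat_lit 253) (nat_lit 5) (nat_lit 371) (nat_lit 343) (nat_lit 306))))))) (XT.nd (nat_lit 1092) (nat_lit 3572) (nat_lit 0) (XT.nd (nat_lit 546) (nat_lit 2508) (nat_lit 0) (XT.nd (nat_lit 234) (nat_lit 1140) (nat_lit 0) (XT.nd (nat_lit 78) (nat_lit 1292) (nat_lit 0) (XT.lf (nat_lit 0) (nat_lit 5669367174) (nat_lit 760) (nat_lit 452982370) (nat_lit 76) (nat_lit 1947496068) (nat_lit 243) (nat_lit 5) (nat_lit 253) (nat_lit 5) (nat_lit 244)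 (nat_lit 5) (nat_lit 372) (nat_lit 343) (nat_lit 305)) (XT.nd (nat_lit 78) (nat_lit 684) (nat_lit 0) (XT.lf (nat_lit 0) (nat_lit 4698849727) (nat_lit 608) (nat_lit 3402981727) (nat_lit 684) (nat_lit 68027813) (nat_lit 235) (nat_lit 5) (nat_lit 243) (nat_lit 5) (nat_lit 244) (nat_lit 5) (nat_lit 373) (nat_lit 343) (nat_lit 304)) (XT.lf (nat_lit 0) (nat_lit 1694490681) (nat_lit 608) (nat_lit 559339894) (nat_lit 684) (nat_lit 6019438761) (nat_lit 226) (nat_lit 5) (nat_lit 234) (nat_lit 5) (nat_lit 235) (nat_lit 5) (nat_lit 374) (nat_lit 343) (nat_lit 303)))) (XT.nd (nat_lit 156) (nat_lit 608) (nat_lit 0) (XT.nd (nat_lit 78) (nat_lit 532) (nat_lit 0) (XT.lf (nat_lit 0) (nat_lit 4647285910) (nat_lit 684) (nat_lit 1375369529) (nat_lit 76) (nat_lit 2357025054) (nat_lit 226) (nat_lit 5) (nat_lit 235) (nat_lit 5) (nat_lit 227) (nat_lit 5) (nat_lit 375) (nat_lit 343) (nat_lit 302)) (XT.lf (nat_lit 0) (nat_lit 3999414990)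 (nat_lit 532) (nat_lit 3103843735) (nat_lit 608) (nat_lit 1386321561) (nat_lit 219) (nat_lit 5) (nat_lit 226) (nat_lit 5) (nat_lit 227) (nat_lit 5) (nat_lit 376) (nat_lit 343) (nat_lit 301))) (XT.nd (nat_lit 78) (nat_lit 0) (nat_lit 0) (XT.lf (nat_lit 0) (nat_lit 911280729) (nat_lit 532) (nat_lit 68740574) (nat_lit 608) (nat_lit 7623375721) (nat_lit 211) (nat_lit 5) (nat_lit 218) (nat_lit 5) (nat_lit 219) (nat_lit 5) (nat_lit 377) (nat_lit 343) (nat_lit 300)) (XT.lf (nat_lit 0) (nat_lit 3412811378) (nat_lit 608) (nat_lit 2254709573) (nat_lit 76) (nat_lit 3052012129) (nat_lit 211) (nat_lit 5) (nat_lit 219) (nat_lit 5) (nat_lit 212) (nat_lit 5) (nat_lit 378) (nat_lit 343) (nat_lit 299))))) (XT.nd (nat_lit 234) (nat_lit 1444) (nat_lit 0) (XT.nd (nat_lit 78) (nat_lit 608) (nat_lit 0) (XT.lf (nat_lit 0) (nat_lit 3353597921) (nat_lit 456) (nat_lit 2547555218) (nat_lit 532) (nat_lit 2938538779) (nat_lit 205) (nat_lit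 5) (nat_lit 211) (nat_lit 5) (nat_lit 212) (nat_lit 5) (nat_lit 379) (nat_lit 343) (nat_lit 298)) (XT.nd (nat_lit 78) (nat_lit 76) (nat_lit 0) (XT.lf (nat_lit 0) (nat_lit 152088029) (nat_lit 532) (nat_lit 8293422154) (nat_lit 608) (nat_lit 518519668) (nat_lit 198) (nat_lit 5) (nat_lit 205) (nat_lit 5) (nat_lit 206) (nat_lit 5) (nat_lit 380) (nat_lit 343) (nat_lit 297)) (XT.lf (nat_lit 0) (nat_lit 1967651336) (nat_lit 608) (nat_lit 3121587057) (nat_lit 76) (nat_lit 4001342452) (nat_lit 197) (nat_lit 5) (nat_lit 205) (nat_lit 5) (nat_lit 198) (nat_lit 5) (nat_lit 381) (nat_lit 343) (nat_lit 296)))) (XT.nd (nat_lit 156) (nat_lit 988) (nat_lit 0) (XT.nd (nat_lit 78) (nat_lit 0) (nat_lit 0) (XT.lf (nat_lit 0) (nat_lit 2731056580) (nat_lit 456) (nat_lit 1765514280) (nat_lit 532) (nat_lit 4724859926) (nat_lit 191) (nat_lit 5) (nat_lit 197) (nat_lit 5) (nat_lit 198) (nat_lit 5) (nat_lit 382) (nat_lit 343) (nat_lit 295))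 (XT.lf (nat_lit 0) (nat_lit 7102222766) (nat_lit 532) (nat_lit 605596162) (nat_lit 76) (nat_lit 1648374928) (nat_lit 191) (nat_lit 5) (nat_lit 198) (nat_lit 5) (nat_lit 192) (nat_lit 5) (nat_lit 383) (nat_lit 343) (nat_lit 294))) (XT.nd (nat_lit 78) (nat_lit 456) (nat_lit 0) (XT.lf (nat_lit 0) (nat_lit 310307386) (nat_lit 532) (nat_lit 4007630529) (nat_lit 76) (nat_lit 5176242502) (nat_lit 184) (nat_lit 5) (nat_lit 191) (nat_lit 5) (nat_lit 185) (nat_lit 5) (nat_lit 384) (nat_lit 343) (nat_lit 293)) (XT.lf (nat_lit 0) (nat_lit 2100307771) (nat_lit 456) (nat_lit 787070040) (nat_lit 532) (nat_lit 6748836709) (nat_lit 178) (nat_lit 5) (nat_lit 184) (nat_lit 5) (nat_lit 185) (nat_lit 5) (nat_lit 385) (nat_lit 343) (nat_lit 292)))))) (XT.nd (nat_lit 546) (nat_lit 1824) (nat_lit 0) (XT.nd (nat_lit 234) (nat_lit 836) (nat_lit 0) (XT.nd (nat_lit 78) (nat_lit 912) (nat_lit 0) (XT.lf (nat_lit 0) (nat_lit 5565500796) (nat_lit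 532) (nat_lit 1392192334) (nat_lit 76) (nat_lit 2824116365) (nat_lit 178) (nat_lit 5) (nat_lit 185) (nat_lit 5) (nat_lit 179) (nat_lit 5) (nat_lit 386) (nat_lit 343) (nat_lit 291)) (XT.nd (nat_lit 78) (nat_lit 456) (nat_lit 0) (XT.lf (nat_lit 0) (nat_lit 4969935176) (nat_lit 456) (nat_lit 3366373164) (nat_lit 532) (nat_lit 1595105464) (nat_lit 172) (nat_lit 5) (nat_lit 178) (nat_lit 5) (nat_lit 179) (nat_lit 5) (nat_lit 387) (nat_lit 343) (nat_lit 290)) (XT.lf (nat_lit 0) (nat_lit 1071638102) (nat_lit 456) (nat_lit 8661031383) (nat_lit 76) (nat_lit 352875370) (nat_lit 166) (nat_lit 5) (nat_lit 172) (nat_lit 5) (nat_lit 167) (nat_lit 5) (nat_lit 388) (nat_lit 343) (nat_lit 289)))) (XT.nd (nat_lit 156) (nat_lit 456) (nat_lit 0) (XT.nd (nat_lit 78) (nat_lit 380) (nat_lit 0) (XT.lf (nat_lit 0) (nat_lit 3827929456) (nat_lit 456) (nat_lit 2244649442) (nat_lit 76) (nat_lit 4170009697) (nat_lit 166) (nat_lit 5) (nat_lit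 172) (nat_lit 5) (nat_lit 167) (nat_lit 5) (nat_lit 389) (nat_lit 343) (nat_lit 288)) (XT.lf (nat_lit 0) (nat_lit 4395606000) (nat_lit 380) (nat_lit 2272467324) (nat_lit 456) (nat_lit 3736245817) (nat_lit 161) (nat_lit 5) (nat_lit 166) (nat_lit 5) (nat_lit 167) (nat_lit 5) (nat_lit 390) (nat_lit 343) (nat_lit 287))) (XT.nd (nat_lit 78) (nat_lit 76) (nat_lit 0) (XT.lf (nat_lit 0) (nat_lit 652639058) (nat_lit 380) (nat_lit 8945187819) (nat_lit 456) (nat_lit 972952668) (nat_lit 156) (nat_lit 5) (nat_lit 161) (nat_lit 5) (nat_lit 162) (nat_lit 5) (nat_lit 391) (nat_lit 343) (nat_lit 286)) (XT.lf (nat_lit 0) (nat_lit 1880175811) (nat_lit 456) (nat_lit 3199740580) (nat_lit 76) (nat_lit 5660481986) (nat_lit 155) (nat_lit 5) (nat_lit 161) (nat_lit 5) (nat_lit 156) (nat_lit 5) (nat_lit 392) (nat_lit 343) (nat_lit 285))))) (XT.nd (nat_lit 312) (nat_lit 684) (nat_lit 0) (XT.nd (nat_lit 156) (nat_lit 760) (nat_lit 0) (XT.nd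 (nat_lit 78) (nat_lit 0) (nat_lit 0) (XT.lf (nat_lit 0) (nat_lit 3729742819) (nat_lit 380) (nat_lit 1066339431) (nat_lit 456) (nat_lit 6118841588) (nat_lit 150) (nat_lit 5) (nat_lit 155) (nat_lit 5) (nat_lit 156) (nat_lit 5) (nat_lit 393) (nat_lit 343) (nat_lit 284)) (XT.lf (nat_lit 0) (nat_lit 7822960378) (nat_lit 456) (nat_lit 244934932) (nat_lit 76) (nat_lit 3026093895) (nat_lit 150) (nat_lit 5) (nat_lit 156) (nat_lit 5) (nat_lit 151) (nat_lit 5) (nat_lit 394) (nat_lit 343) (nat_lit 283))) (XT.nd (nat_lit 78) (nat_lit 456) (nat_lit 0) (XT.lf (nat_lit 0) (nat_lit 6976561201) (nat_lit 304) (nat_lit 4004204822) (nat_lit 380) (nat_lit 296465590) (nat_lit 146) (nat_lit 5) (nat_lit 150) (nat_lit 5) (nat_lit 151) (nat_lit 5) (nat_lit 395) (nat_lit 343) (nat_lit 282)) (XT.lf (nat_lit 0) (nat_lit 2708893125) (nat_lit 456) (nat_lit 8535906924) (nat_lit 76) (nat_lit 220514642) (nat_lit 140) (nat_lit 5) (nat_lit 146) (nat_lit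 5) (nat_lit 141) (nat_lit 5) (nat_lit 396) (nat_lit 343) (nat_lit 281)))) (XT.nd (nat_lit 156) (nat_lit 380) (nat_lit 0) (XT.nd (nat_lit 78) (nat_lit 304) (nat_lit 0) (XT.lf (nat_lit 0) (nat_lit 5845110676) (nat_lit 456) (nat_lit 1289414916) (nat_lit 76) (nat_lit 4523034882) (nat_lit 140) (nat_lit 5) (nat_lit 146) (nat_lit 5) (nat_lit 141) (nat_lit 5) (nat_lit 397) (nat_lit 343) (nat_lit 280)) (XT.lf (nat_lit 0) (nat_lit 6244663212) (nat_lit 304) (nat_lit 2855005108) (nat_lit 380) (nat_lit 2755185449) (nat_lit 136) (nat_lit 5) (nat_lit 140) (nat_lit 5) (nat_lit 141) (nat_lit 5) (nat_lit 398) (nat_lit 343) (nat_lit 279))) (XT.nd (nat_lit 78) (nat_lit 0) (nat_lit 0) (XT.lf (nat_lit 0) (nat_lit 397607969) (nat_lit 380) (nat_lit 10117294026) (nat_lit 76) (nat_lit 1542712736) (nat_lit 131) (nat_lit 5) (nat_lit 136) (nat_lit 5) (nat_lit 132) (nat_lit 5) (nat_lit 399) (nat_lit 343) (nat_lit 278)) (XT.lf (nat_lit 0) (nat_lit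 3639894629) (nat_lit 380) (nat_lit 2540781700) (nat_lit 76) (nat_lit 6083462329) (nat_lit 131) (nat_lit 5) (nat_lit 136) (nat_lit 5) (nat_lit 132) (nat_lit 5) (nat_lit 400) (nat_lit 343) (nat_lit 277))))))))
noncomputable def xc109 : XT := (XT.nd (nat_lit 2262) (nat_lit 2432) (nat_lit 0) (XT.nd (nat_lit 1092) (nat_lit 1900) (nat_lit 0) (XT.nd (nat_lit 546) (nat_lit 988) (nat_lit 0) (XT.nd (nat_lit 234) (nat_lit 836) (nat_lit 0) (XT.nd (nat_lit 78) (nat_lit 380) (nat_lit 0) (XT.lf (nat_lit 0) (nat_lit 5316016848) (nat_lit 304) (nat_lit 1680364650) (nat_lit 380) (nat_lit 5479975737) (nat_lit 127) (nat_lit 5) (nat_lit 131) (nat_lit 5) (nat_lit 132) (nat_lit 5) (nat_lit 401) (nat_lit 343) (nat_lit 276)) (XT.nd (nat_lit 78) (nat_lit 76) (nat_lit 0) (XT.lf (nat_lit 0) (nat_lit 700334172) (nat_lit 304) (nat_lit 9780460190) (nat_lit 380) (nat_lit 2213337744) (nat_lit 123) (nat_lit 5) (nat_lit 127) (nat_lit 5) (nat_lit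 128) (nat_lit 5) (nat_lit 402) (nat_lit 343) (nat_lit 275)) (XT.lf (nat_lit 0) (nat_lit 1184837801) (nat_lit 380) (nat_lit 4052360582) (nat_lit 76) (nat_lit 7679235994) (nat_lit 122) (nat_lit 5) (nat_lit 127) (nat_lit 5) (nat_lit 123) (nat_lit 5) (nat_lit 403) (nat_lit 343) (nat_lit 274)))) (XT.nd (nat_lit 156) (nat_lit 608) (nat_lit 0) (XT.nd (nat_lit 78) (nat_lit 0) (nat_lit 0) (XT.lf (nat_lit 0) (nat_lit 4136335721) (nat_lit 228) (nat_lit 511224046) (nat_lit 304) (nat_lit 8496982022) (nat_lit 119) (nat_lit 5) (nat_lit 122) (nat_lit 5) (nat_lit 123) (nat_lit 5) (nat_lit 404) (nat_lit 343) (nat_lit 273)) (XT.lf (nat_lit 0) (nat_lit 8265006556) (nat_lit 304) (nat_lit 816889344) (nat_lit 76) (nat_lit 4296077165) (nat_lit 119) (nat_lit 5) (nat_lit 123) (nat_lit 5) (nat_lit 120) (nat_lit 5) (nat_lit 405) (nat_lit 343) (nat_lit 272))) (XT.nd (nat_lit 78) (nat_lit 304) (nat_lit 0) (XT.lf (nat_lit 0) (nat_lit 7717047906)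 (nat_lit 304) (nat_lit 4321753470) (nat_lit 380) (nat_lit 1578176925) (nat_lit 115) (nat_lit 5) (nat_lit 119) (nat_lit 5) (nat_lit 120) (nat_lit 5) (nat_lit 406) (nat_lit 343) (nat_lit 271)) (XT.lf (nat_lit 0) (nat_lit 2030821071) (nat_lit 304) (nat_lit 11224712983) (nat_lit 76) (nat_lit 606777807) (nat_lit 111) (nat_lit 5) (nat_lit 115) (nat_lit 5) (nat_lit 112) (nat_lit 5) (nat_lit 407) (nat_lit 343) (nat_lit 270))))) (XT.nd (nat_lit 234) (nat_lit 532) (nat_lit 0) (XT.nd (nat_lit 78) (nat_lit 456) (nat_lit 0) (XT.lf (nat_lit 0) (nat_lit 5788326937) (nat_lit 304) (nat_lit 2669105815) (nat_lit 76) (nat_lit 5654950452) (nat_lit 111) (nat_lit 5) (nat_lit 115) (nat_lit 5) (nat_lit 112) (nat_lit 5) (nat_lit 408) (nat_lit 343) (nat_lit 269)) (XT.nd (nat_lit 78) (nat_lit 228) (nat_lit 0) (XT.lf (nat_lit 0) (nat_lit 6216832351) (nat_lit 228) (nat_lit 3471389000) (nat_lit 304) (nat_lit 4680850555) (nat_lit 108) (nat_lit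 5) (nat_lit 111) (nat_lit 5) (nat_lit 112) (nat_lit 5) (nat_lit 409) (nat_lit 343) (nat_lit 268)) (XT.lf (nat_lit 0) (nat_lit 741709215) (nat_lit 228) (nat_lit 12983908510) (nat_lit 304) (nat_lit 907233358) (nat_lit 105) (nat_lit 5) (nat_lit 108) (nat_lit 5) (nat_lit 109) (nat_lit 5) (nat_lit 410) (nat_lit 343) (nat_lit 267)))) (XT.nd (nat_lit 156) (nat_lit 228) (nat_lit 0) (XT.nd (nat_lit 78) (nat_lit 228) (nat_lit 0) (XT.lf (nat_lit 0) (nat_lit 3009231835) (nat_lit 304) (nat_lit 4944347820) (nat_lit 76) (nat_lit 6947475955) (nat_lit 104) (nat_lit 5) (nat_lit 108) (nat_lit 5) (nat_lit 105) (nat_lit 5) (nat_lit 411) (nat_lit 343) (nat_lit 266)) (XT.lf (nat_lit 0) (nat_lit 4299121725) (nat_lit 228) (nat_lit 2738301498) (nat_lit 304) (nat_lit 8139244121) (nat_lit 101) (nat_lit 5) (nat_lit 104) (nat_lit 5) (nat_lit 105) (nat_lit 5) (nat_lit 412) (nat_lit 343) (nat_lit 265))) (XT.nd (nat_lit 78) (nat_lit 228) (nat_lit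 0) (XT.lf (nat_lit 0) (nat_lit 11233564374) (nat_lit 304) (nat_lit 1610476386) (nat_lit 76) (nat_lit 2615097964) (nat_lit 101) (nat_lit 5) (nat_lit 105) (nat_lit 5) (nat_lit 102) (nat_lit 5) (nat_lit 413) (nat_lit 343) (nat_lit 264)) (XT.lf (nat_lit 0) (nat_lit 8018459218) (nat_lit 228) (nat_lit 7613522013) (nat_lit 304) (nat_lit 115815559) (nat_lit 98) (nat_lit 5) (nat_lit 101) (nat_lit 5) (nat_lit 102) (nat_lit 5) (nat_lit 414) (nat_lit 343) (nat_lit 263)))))) (XT.nd (nat_lit 546) (nat_lit 988) (nat_lit 0) (XT.nd (nat_lit 234) (nat_lit 456) (nat_lit 0) (XT.nd (nat_lit 78) (nat_lit 152) (nat_lit 0) (XT.lf (nat_lit 0) (nat_lit 1875904602) (nat_lit 228) (nat_lit 2167747513) (nat_lit 304) (nat_lit 12000076453) (nat_lit 94) (nat_lit 5) (nat_lit 97) (nat_lit 5) (nat_lit 98) (nat_lit 5) (nat_lit 415) (nat_lit 343) (nat_lit 262)) (XT.nd (nat_lit 78) (nat_lit 152) (nat_lit 0) (XT.lf (nat_lit 0) (nat_lit 8409984130) (nat_lit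 304) (nat_lit 4499266222) (nat_lit 76) (nat_lit 3436725229) (nat_lit 94) (nat_lit 5) (nat_lit 98) (nat_lit 5) (nat_lit 95) (nat_lit 5) (nat_lit 416) (nat_lit 343) (nat_lit 261)) (XT.lf (nat_lit 0) (nat_lit 5500742152) (nat_lit 152) (nat_lit 7454207478) (nat_lit 228) (nat_lit 3700914878) (nat_lit 92) (nat_lit 5) (nat_lit 94) (nat_lit 5) (nat_lit 95) (nat_lit 5) (nat_lit 417) (nat_lit 343) (nat_lit 260)))) (XT.nd (nat_lit 156) (nat_lit 152) (nat_lit 0) (XT.nd (nat_lit 78) (nat_lit 228) (nat_lit 0) (XT.lf (nat_lit 0) (nat_lit 667588823) (nat_lit 228) (nat_lit 1132091145) (nat_lit 76) (nat_lit 15174604719) (nat_lit 91) (nat_lit 5) (nat_lit 94) (nat_lit 5) (nat_lit 92) (nat_lit 5) (nat_lit 418) (nat_lit 343) (nat_lit 259)) (XT.lf (nat_lit 0) (nat_lit 5196027518) (nat_lit 304) (nat_lit 8045974010) (nat_lit 76) (nat_lit 4056062211) (nat_lit 88) (nat_lit 5) (nat_lit 92) (nat_lit 5) (nat_lit 89) (nat_lit 5) (nat_lit 419)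 (nat_lit 343) (nat_lit 258))) (XT.nd (nat_lit 78) (nat_lit 0) (nat_lit 0) (XT.lf (nat_lit 0) (nat_lit 2323744442) (nat_lit 152) (nat_lit 7562618179) (nat_lit 228) (nat_lit 7744415628) (nat_lit 86) (nat_lit 5) (nat_lit 88) (nat_lit 5) (nat_lit 89) (nat_lit 5) (nat_lit 420) (nat_lit 343) (nat_lit 257)) (XT.lf (nat_lit 0) (nat_lit 13126457121) (nat_lit 152) (nat_lit 1646875172) (nat_lit 228) (nat_lit 3198467450) (nat_lit 86) (nat_lit 5) (nat_lit 88) (nat_lit 5) (nat_lit 89) (nat_lit 5) (nat_lit 421) (nat_lit 343) (nat_lit 256))))) (XT.nd (nat_lit 312) (nat_lit 380) (nat_lit 0) (XT.nd (nat_lit 156) (nat_lit 304) (nat_lit 0) (XT.nd (nat_lit 78) (nat_lit 0) (nat_lit 0) (XT.lf (nat_lit 0) (nat_lit 1530940268) (nat_lit 304) (nat_lit 12374372149) (nat_lit 76) (nat_lit 4415033555) (nat_lit 82) (nat_lit 5) (nat_lit 86) (nat_lit 5) (nat_lit 83) (nat_lit 5) (nat_lit 422) (nat_lit 343) (nat_lit 255)) (XT.lf (nat_lit 0) (nat_lit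 6378983898) (nat_lit 304) (nat_lit 1608417326) (nat_lit 76) (nat_lit 10689769139) (nat_lit 82) (nat_lit 5) (nat_lit 86) (nat_lit 5) (nat_lit 83) (nat_lit 5) (nat_lit 423) (nat_lit 343) (nat_lit 254))) (XT.nd (nat_lit 78) (nat_lit 152) (nat_lit 0) (XT.lf (nat_lit 0) (nat_lit 9627180010) (nat_lit 152) (nat_lit 1813871088) (nat_lit 228) (nat_lit 7601593840) (nat_lit 80) (nat_lit 5) (nat_lit 82) (nat_lit 5) (nat_lit 83) (nat_lit 5) (nat_lit 424) (nat_lit 343) (nat_lit 253)) (XT.lf (nat_lit 0) (nat_lit 1763441094) (nat_lit 152) (nat_lit 14944762092) (nat_lit 228) (nat_lit 2709286712) (nat_lit 78) (nat_lit 5) (nat_lit 80) (nat_lit 5) (nat_lit 81) (nat_lit 5) (nat_lit 425) (nat_lit 343) (nat_lit 252)))) (XT.nd (nat_lit 156) (nat_lit 152) (nat_lit 0) (XT.nd (nat_lit 78) (nat_lit 152) (nat_lit 0) (XT.lf (nat_lit 0) (nat_lit 2374550869) (nat_lit 228) (nat_lit 6412712661) (nat_lit 76) (nat_lit 11012940771) (nat_lit 77) (nat_lit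 5) (nat_lit 80) (nat_lit 5) (nat_lit 78) (nat_lit 5) (nat_lit 426) (nat_lit 343) (nat_lit 251)) (XT.lf (nat_lit 0) (nat_lit 5200310848) (nat_lit 152) (nat_lit 2383064803) (nat_lit 228) (nat_lit 12609414561) (nat_lit 75) (nat_lit 5) (nat_lit 77) (nat_lit 5) (nat_lit 78) (nat_lit 5) (nat_lit 427) (nat_lit 343) (nat_lit 250))) (XT.nd (nat_lit 78) (nat_lit 152) (nat_lit 0) (XT.lf (nat_lit 0) (nat_lit 13031425329) (nat_lit 228) (nat_lit 3383505894) (nat_lit 76) (nat_lit 4179736190) (nat_lit 75) (nat_lit 5) (nat_lit 78) (nat_lit 5) (nat_lit 76) (nat_lit 5) (nat_lit 428) (nat_lit 343) (nat_lit 249)) (XT.lf (nat_lit 0) (nat_lit 8680369413) (nat_lit 152) (nat_lit 10047313631) (nat_lit 228) (nat_lit 2278377334) (nat_lit 73) (nat_lit 5) (nat_lit 75) (nat_lit 5) (nat_lit 76) (nat_lit 5) (nat_lit 429) (nat_lit 343) (nat_lit 248))))))) (XT.nd (nat_lit 1092) (nat_lit 988) (nat_lit 0) (XT.nd (nat_lit 546) (nat_lit 684) (nat_lit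 0) (XT.nd (nat_lit 234) (nat_lit 380) (nat_lit 0) (XT.nd (nat_lit 78) (nat_lit 304) (nat_lit 0) (XT.lf (nat_lit 0) (nat_lit 3115563858) (nat_lit 228) (nat_lit 323231547) (nat_lit 76) (nat_lit 17989720553) (nat_lit 72) (nat_lit 5) (nat_lit 75) (nat_lit 5) (nat_lit 73) (nat_lit 5) (nat_lit 430) (nat_lit 343) (nat_lit 247)) (XT.nd (nat_lit 78) (nat_lit 152) (nat_lit 0) (XT.lf (nat_lit 0) (nat_lit 8755004169) (nat_lit 228) (nat_lit 9676630737) (nat_lit 76) (nat_lit 3427451571) (nat_lit 70) (nat_lit 5) (nat_lit 73) (nat_lit 5) (nat_lit 71) (nat_lit 5) (nat_lit 431) (nat_lit 343) (nat_lit 246)) (XT.lf (nat_lit 0) (nat_lit 2748836923) (nat_lit 152) (nat_lit 11857099757) (nat_lit 228) (nat_lit 7695370335) (nat_lit 68) (nat_lit 5) (nat_lit 70) (nat_lit 5) (nat_lit 71) (nat_lit 5) (nat_lit 432) (nat_lit 343) (nat_lit 245)))) (XT.nd (nat_lit 156) (nat_lit 152) (nat_lit 0) (XT.nd (nat_lit 78) (nat_lit 228) (nat_lit 0) (XT.lf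 (nat_lit 0) (nat_lit 15707618059) (nat_lit 152) (nat_lit 5001297318) (nat_lit 228) (nat_lit 2045585354) (nat_lit 68) (nat_lit 5) (nat_lit 70) (nat_lit 5) (nat_lit 71) (nat_lit 5) (nat_lit 433) (nat_lit 343) (nat_lit 244)) (XT.lf (nat_lit 0) (nat_lit 3756309808) (nat_lit 228) (nat_lit 17364582578) (nat_lit 76) (nat_lit 2097623961) (nat_lit 65) (nat_lit 5) (nat_lit 68) (nat_lit 5) (nat_lit 66) (nat_lit 5) (nat_lit 434) (nat_lit 343) (nat_lit 243))) (XT.nd (nat_lit 78) (nat_lit 152) (nat_lit 0) (XT.lf (nat_lit 0) (nat_lit 9791840468) (nat_lit 228) (nat_lit 4515788683) (nat_lit 76) (nat_lit 9385196823) (nat_lit 65) (nat_lit 5) (nat_lit 68) (nat_lit 5) (nat_lit 66) (nat_lit 5) (nat_lit 435) (nat_lit 343) (nat_lit 242)) (XT.lf (nat_lit 0) (nat_lit 8855124333) (nat_lit 152) (nat_lit 7218347023) (nat_lit 228) (nat_lit 8105944380) (nat_lit 63) (nat_lit 5) (nat_lit 65) (nat_lit 5) (nat_lit 66) (nat_lit 5) (nat_lit 436) (nat_lit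 343) (nat_lit 241))))) (XT.nd (nat_lit 234) (nat_lit 304) (nat_lit 0) (XT.nd (nat_lit 78) (nat_lit 380) (nat_lit 0) (XT.lf (nat_lit 0) (nat_lit 22570408277) (nat_lit 228) (nat_lit 1996986134) (nat_lit 76) (nat_lit 112404884) (nat_lit 63) (nat_lit 5) (nat_lit 66) (nat_lit 5) (nat_lit 64) (nat_lit 4) (nat_lit 437) (nat_lit 343) (nat_lit 240)) (XT.nd (nat_lit 78) (nat_lit 152) (nat_lit 0) (XT.lf (nat_lit 0) (nat_lit 4155346251) (nat_lit 228) (nat_lit 13376129188) (nat_lit 76) (nat_lit 7657518276) (nat_lit 60) (nat_lit 5) (nat_lit 63) (nat_lit 5) (nat_lit 61) (nat_lit 5) (nat_lit 438) (nat_lit 343) (nat_lit 239)) (XT.lf (nat_lit 0) (nat_lit 314931766) (nat_lit 152) (nat_lit 10254712652) (nat_lit 228) (nat_lit 15143074201) (nat_lit 58) (nat_lit 5) (nat_lit 60) (nat_lit 5) (nat_lit 61) (nat_lit 5) (nat_lit 439) (nat_lit 343) (nat_lit 238)))) (XT.nd (nat_lit 156) (nat_lit 228) (nat_lit 0) (XT.nd (nat_lit 78) (nat_lit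 76) (nat_lit 0) (XT.lf (nat_lit 0) (nat_lit 14656050413) (nat_lit 152) (nat_lit 2636245797) (nat_lit 228) (nat_lit 8956382935) (nat_lit 58) (nat_lit 5) (nat_lit 60) (nat_lit 5) (nat_lit 61) (nat_lit 5) (nat_lit 440) (nat_lit 343) (nat_lit 237)) (XT.lf (nat_lit 0) (nat_lit 2592923729) (nat_lit 76) (nat_lit 21679980724) (nat_lit 152) (nat_lit 2526127297) (nat_lit 57) (nat_lit 5) (nat_lit 58) (nat_lit 5) (nat_lit 59) (nat_lit 4) (nat_lit 441) (nat_lit 343) (nat_lit 236))) (XT.nd (nat_lit 78) (nat_lit 152) (nat_lit 0) (XT.lf (nat_lit 0) (nat_lit 4142709072) (nat_lit 152) (nat_lit 10021652709) (nat_lit 76) (nat_lit 13196584505) (nat_lit 56) (nat_lit 5) (nat_lit 58) (nat_lit 5) (nat_lit 57) (nat_lit 5) (nat_lit 442) (nat_lit 343) (nat_lit 235)) (XT.lf (nat_lit 0) (nat_lit 4620174302) (nat_lit 152) (nat_lit 6366917935) (nat_lit 228) (nat_lit 16951089491) (nat_lit 54) (nat_lit 5) (nat_lit 56) (nat_lit 5) (nat_lit 57) (nat_lit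 5) (nat_lit 443) (nat_lit 343) (nat_lit 234)))))) (XT.nd (nat_lit 546) (nat_lit 532) (nat_lit 0) (XT.nd (nat_lit 234) (nat_lit 304) (nat_lit 0) (XT.nd (nat_lit 78) (nat_lit 152) (nat_lit 0) (XT.lf (nat_lit 0) (nat_lit 18136917343) (nat_lit 228) (nat_lit 8673385502) (nat_lit 76) (nat_lit 1719429469) (nat_lit 54) (nat_lit 5) (nat_lit 57) (nat_lit 5) (nat_lit 55) (nat_lit 4) (nat_lit 444) (nat_lit 343) (nat_lit 233)) (XT.nd (nat_lit 78) (nat_lit 76) (nat_lit 0) (XT.lf (nat_lit 0) (nat_lit 6440816175) (nat_lit 76) (nat_lit 19167809514) (nat_lit 152) (nat_lit 3527183428) (nat_lit 53) (nat_lit 5) (nat_lit 54) (nat_lit 5) (nat_lit 55) (nat_lit 4) (nat_lit 445) (nat_lit 343) (nat_lit 232)) (XT.lf (nat_lit 0) (nat_lit 3546170657) (nat_lit 152) (nat_lit 7638575350) (nat_lit 76) (nat_lit 18572173822) (nat_lit 52) (nat_lit 5) (nat_lit 54) (nat_lit 5) (nat_lit 53) (nat_lit 5) (nat_lit 446) (nat_lit 343) (nat_lit 231)))) (XT.nd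 (nat_lit 156) (nat_lit 152) (nat_lit 0) (XT.nd (nat_lit 78) (nat_lit 0) (nat_lit 0) (XT.lf (nat_lit 0) (nat_lit 7958418130) (nat_lit 152) (nat_lit 2861892788) (nat_lit 228) (nat_lit 19573522151) (nat_lit 50) (nat_lit 5) (nat_lit 52) (nat_lit 5) (nat_lit 53) (nat_lit 5) (nat_lit 447) (nat_lit 343) (nat_lit 230)) (XT.lf (nat_lit 0) (nat_lit 18428503281) (nat_lit 228) (nat_lit 6954843578) (nat_lit 76) (nat_lit 5663033213) (nat_lit 50) (nat_lit 5) (nat_lit 53) (nat_lit 5) (nat_lit 51) (nat_lit 4) (nat_lit 448) (nat_lit 343) (nat_lit 229))) (XT.nd (nat_lit 78) (nat_lit 76) (nat_lit 0) (XT.lf (nat_lit 0) (nat_lit 9108925550) (nat_lit 76) (nat_lit 17255441445) (nat_lit 152) (nat_lit 5351154892) (nat_lit 49) (nat_lit 5) (nat_lit 50) (nat_lit 5) (nat_lit 51) (nat_lit 4) (nat_lit 449) (nat_lit 343) (nat_lit 228)) (XT.lf (nat_lit 0) (nat_lit 2146415967) (nat_lit 152) (nat_lit 6657320154) (nat_lit 76) (nat_lit 23598753231)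 (nat_lit 48) (nat_lit 5) (nat_lit 50) (nat_lit 5) (nat_lit 49) (nat_lit 5) (nat_lit 450) (nat_lit 343) (nat_lit 227))))) (XT.nd (nat_lit 312) (nat_lit 304) (nat_lit 0) (XT.nd (nat_lit 156) (nat_lit 76) (nat_lit 0) (XT.nd (nat_lit 78) (nat_lit 0) (nat_lit 0) (XT.lf (nat_lit 0) (nat_lit 9840758232) (nat_lit 228) (nat_lit 23226003033) (nat_lit 76) (nat_lit 39334278) (nat_lit 46) (nat_lit 5) (nat_lit 49) (nat_lit 5) (nat_lit 47) (nat_lit 4) (nat_lit 451) (nat_lit 343) (nat_lit 226)) (XT.lf (nat_lit 0) (nat_lit 17905072290) (nat_lit 228) (nat_lit 6896346294) (nat_lit 76) (nat_lit 9025218128) (nat_lit 46) (nat_lit 5) (nat_lit 49) (nat_lit 5) (nat_lit 47) (nat_lit 4) (nat_lit 452) (nat_lit 343) (nat_lit 225))) (XT.nd (nat_lit 78) (nat_lit 0) (nat_lit 0) (XT.lf (nat_lit 0) (nat_lit 10091165683) (nat_lit 76) (nat_lit 16201700445) (nat_lit 152) (nat_lit 8273482485) (nat_lit 45) (nat_lit 5) (nat_lit 46) (nat_lit 5) (nat_lit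 47) (nat_lit 4) (nat_lit 453) (nat_lit 343) (nat_lit 224)) (XT.lf (nat_lit 0) (nat_lit 27701005723) (nat_lit 76) (nat_lit 7285650043) (nat_lit 152) (nat_lit 339966222) (nat_lit 45) (nat_lit 5) (nat_lit 46) (nat_lit 5) (nat_lit 47) (nat_lit 4) (nat_lit 454) (nat_lit 343) (nat_lit 223)))) (XT.nd (nat_lit 156) (nat_lit 76) (nat_lit 0) (XT.nd (nat_lit 78) (nat_lit 0) (nat_lit 0) (XT.lf (nat_lit 0) (nat_lit 7777923023) (nat_lit 228) (nat_lit 26307258501) (nat_lit 76) (nat_lit 2019288830) (nat_lit 42) (nat_lit 5) (nat_lit 45) (nat_lit 5) (nat_lit 43) (nat_lit 4) (nat_lit 455) (nat_lit 343) (nat_lit 222)) (XT.lf (nat_lit 0) (nat_lit 16267480101) (nat_lit 228) (nat_lit 9108739022) (nat_lit 76) (nat_lit 11525286041) (nat_lit 42) (nat_lit 5) (nat_lit 45) (nat_lit 5) (nat_lit 43) (nat_lit 4) (nat_lit 456) (nat_lit 343) (nat_lit 221))) (XT.nd (nat_lit 78) (nat_lit 0) (nat_lit 0) (XT.lf (nat_lit 0) (nat_lit 8749109404) (nat_lit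 76) (nat_lit 16332214145) (nat_lit 152) (nat_lit 12639040347) (nat_lit 41) (nat_lit 5) (nat_lit 42) (nat_lit 5) (nat_lit 43) (nat_lit 4) (nat_lit 457) (nat_lit 343) (nat_lit 220)) (XT.lf (nat_lit 0) (nat_lit 27302328398) (nat_lit 76) (nat_lit 6934894208) (nat_lit 152) (nat_lit 4324237418) (nat_lit 41) (nat_lit 5) (nat_lit 42) (nat_lit 5) (nat_lit 43) (nat_lit 4) (nat_lit 458) (nat_lit 343) (nat_lit 219))))))))
noncomputable def xc110 : XT := (XT.nd (nat_lit 2262) (nat_lit 76) (nat_lit 0) (XT.nd (nat_lit 1092) (nat_lit 684) (nat_lit 0) (XT.nd (nat_lit 546) (nat_lit 304) (nat_lit 0) (XT.nd (nat_lit 234) (nat_lit 152) (nat_lit 0) (XT.nd (nat_lit 78) (nat_lit 76) (nat_lit 0) (XT.lf (nat_lit 0) (nat_lit 4238359572) (nat_lit 228) (nat_lit 32397606729) (nat_lit 76) (nat_lit 2788168168) (nat_lit 38) (nat_lit 5) (nat_lit 41) (nat_lit 5) (nat_lit 39) (nat_lit 4) (nat_lit 459) (nat_lit 343) (nat_lit 218)) (XT.nd (nat_lit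 78) (nat_lit 76) (nat_lit 0) (XT.lf (nat_lit 0) (nat_lit 13140380941) (nat_lit 228) (nat_lit 14356937386) (nat_lit 76) (nat_lit 12809003386) (nat_lit 38) (nat_lit 5) (nat_lit 41) (nat_lit 5) (nat_lit 39) (nat_lit 4) (nat_lit 460) (nat_lit 343) (nat_lit 217)) (XT.lf (nat_lit 0) (nat_lit 4282682901) (nat_lit 76) (nat_lit 18054332470) (nat_lit 152) (nat_lit 18877133378) (nat_lit 37) (nat_lit 5) (nat_lit 38) (nat_lit 5) (nat_lit 39) (nat_lit 4) (nat_lit 461) (nat_lit 343) (nat_lit 216)))) (XT.nd (nat_lit 156) (nat_lit 76) (nat_lit 0) (XT.nd (nat_lit 78) (nat_lit 76) (nat_lit 0) (XT.lf (nat_lit 0) (nat_lit 23750208564) (nat_lit 76) (nat_lit 8190852453) (nat_lit 152) (nat_lit 10204204944) (nat_lit 37) (nat_lit 5) (nat_lit 38) (nat_lit 5) (nat_lit 39) (nat_lit 4) (nat_lit 462) (nat_lit 343) (nat_lit 215)) (XT.lf (nat_lit 0) (nat_lit 666403612) (nat_lit 76) (nat_lit 41178967346) (nat_lit 76) (nat_lit 1258582147) (nat_lit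 36) (nat_lit 4) (nat_lit 37) (nat_lit 5) (nat_lit 37) (nat_lit 4) (nat_lit 463) (nat_lit 343) (nat_lit 214))) (XT.nd (nat_lit 78) (nat_lit 0) (nat_lit 0) (XT.lf (nat_lit 0) (nat_lit 8055690815) (nat_lit 152) (nat_lit 23593585509) (nat_lit 76) (nat_lit 12432165435) (nat_lit 35) (nat_lit 5) (nat_lit 37) (nat_lit 5) (nat_lit 36) (nat_lit 4) (nat_lit 464) (nat_lit 343) (nat_lit 213)) (XT.lf (nat_lit 0) (nat_lit 17611308785) (nat_lit 152) (nat_lit 4221169055) (nat_lit 76) (nat_lit 23255787649) (nat_lit 35) (nat_lit 5) (nat_lit 37) (nat_lit 5) (nat_lit 36) (nat_lit 4) (nat_lit 465) (nat_lit 343) (nat_lit 212))))) (XT.nd (nat_lit 234) (nat_lit 76) (nat_lit 0) (XT.nd (nat_lit 78) (nat_lit 152) (nat_lit 0) (XT.lf (nat_lit 0) (nat_lit 16021359921) (nat_lit 76) (nat_lit 11573827993) (nat_lit 152) (nat_lit 18525858866) (nat_lit 34) (nat_lit 5) (nat_lit 35) (nat_lit 5) (nat_lit 36) (nat_lit 4) (nat_lit 466) (nat_lit 343) (nat_lit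 211)) (XT.nd (nat_lit 78) (nat_lit 152) (nat_lit 0) (XT.lf (nat_lit 0) (nat_lit 36934232483) (nat_lit 76) (nat_lit 974698027) (nat_lit 152) (nat_lit 9274971197) (nat_lit 34) (nat_lit 5) (nat_lit 35) (nat_lit 5) (nat_lit 36) (nat_lit 4) (nat_lit 467) (nat_lit 343) (nat_lit 210)) (XT.lf (nat_lit 0) (nat_lit 432646127) (nat_lit 152) (nat_lit 37999613417) (nat_lit 76) (nat_lit 9840785766) (nat_lit 32) (nat_lit 5) (nat_lit 34) (nat_lit 5) (nat_lit 33) (nat_lit 4) (nat_lit 468) (nat_lit 343) (nat_lit 209)))) (XT.nd (nat_lit 156) (nat_lit 0) (nat_lit 0) (XT.nd (nat_lit 78) (nat_lit 76) (nat_lit 0) (XT.lf (nat_lit 0) (nat_lit 10347238541) (nat_lit 152) (nat_lit 17894977011) (nat_lit 76) (nat_lit 21146828356) (nat_lit 32) (nat_lit 5) (nat_lit 34) (nat_lit 5) (nat_lit 33) (nat_lit 4) (nat_lit 469) (nat_lit 343) (nat_lit 208)) (XT.lf (nat_lit 0) (nat_lit 2845958225) (nat_lit 76) (nat_lit 17729004974) (nat_lit 152) (nat_lit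 29963088972) (nat_lit 31) (nat_lit 5) (nat_lit 32) (nat_lit 5) (nat_lit 33) (nat_lit 4) (nat_lit 470) (nat_lit 343) (nat_lit 207))) (XT.nd (nat_lit 78) (nat_lit 0) (nat_lit 0) (XT.lf (nat_lit 0) (nat_lit 24553795211) (nat_lit 76) (nat_lit 6724892660) (nat_lit 152) (nat_lit 20437768289) (nat_lit 31) (nat_lit 5) (nat_lit 32) (nat_lit 5) (nat_lit 33) (nat_lit 4) (nat_lit 471) (nat_lit 343) (nat_lit 206)) (XT.lf (nat_lit 0) (nat_lit 42336533086) (nat_lit 152) (nat_lit 6083400662) (nat_lit 0) (nat_lit 4509288765) (nat_lit 31) (nat_lit 5) (nat_lit 33) (nat_lit 4) (nat_lit 31) (nat_lit 4) (nat_lit 472) (nat_lit 343) (nat_lit 205)))))) (XT.nd (nat_lit 546) (nat_lit 304) (nat_lit 0) (XT.nd (nat_lit 234) (nat_lit 152) (nat_lit 0) (XT.nd (nat_lit 78) (nat_lit 152) (nat_lit 0) (XT.lf (nat_lit 0) (nat_lit 15849827111) (nat_lit 76) (nat_lit 38084257953) (nat_lit 76) (nat_lit 238048148) (nat_lit 30) (nat_lit 4) (nat_lit 31) (nat_lit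 5) (nat_lit 31) (nat_lit 4) (nat_lit 473) (nat_lit 343) (nat_lit 204)) (XT.nd (nat_lit 78) (nat_lit 76) (nat_lit 0) (XT.lf (nat_lit 0) (nat_lit 10274838853) (nat_lit 152) (nat_lit 17006700024) (nat_lit 76) (nat_lit 28166253452) (nat_lit 29) (nat_lit 5) (nat_lit 31) (nat_lit 5) (nat_lit 30) (nat_lit 4) (nat_lit 474) (nat_lit 343) (nat_lit 203)) (XT.lf (nat_lit 0) (nat_lit 5023533866) (nat_lit 76) (nat_lit 16112443252) (nat_lit 152) (nat_lit 35624544373) (nat_lit 28) (nat_lit 5) (nat_lit 29) (nat_lit 5) (nat_lit 30) (nat_lit 4) (nat_lit 475) (nat_lit 343) (nat_lit 202)))) (XT.nd (nat_lit 156) (nat_lit 152) (nat_lit 0) (XT.nd (nat_lit 78) (nat_lit 0) (nat_lit 0) (XT.lf (nat_lit 0) (nat_lit 28042985841) (nat_lit 76) (nat_lit 4441172597) (nat_lit 152) (nat_lit 25623638263) (nat_lit 28) (nat_lit 5) (nat_lit 29) (nat_lit 5) (nat_lit 30) (nat_lit 4) (nat_lit 476) (nat_lit 343) (nat_lit 201)) (XT.lf (nat_lit 0) (nat_lit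 44235340903) (nat_lit 152) (nat_lit 7835268407) (nat_lit 0) (nat_lit 7423004614) (nat_lit 28) (nat_lit 5) (nat_lit 30) (nat_lit 4) (nat_lit 28) (nat_lit 4) (nat_lit 477) (nat_lit 343) (nat_lit 200))) (XT.nd (nat_lit 78) (nat_lit 76) (nat_lit 0) (XT.lf (nat_lit 0) (nat_lit 15296321486) (nat_lit 76) (nat_lit 41223737091) (nat_lit 76) (nat_lit 4395517508) (nat_lit 27) (nat_lit 4) (nat_lit 28) (nat_lit 5) (nat_lit 28) (nat_lit 4) (nat_lit 478) (nat_lit 343) (nat_lit 199)) (XT.lf (nat_lit 0) (nat_lit 6730465672) (nat_lit 152) (nat_lit 23180794942) (nat_lit 76) (nat_lit 32464880802) (nat_lit 26) (nat_lit 5) (nat_lit 28) (nat_lit 5) (nat_lit 27) (nat_lit 4) (nat_lit 479) (nat_lit 343) (nat_lit 198))))) (XT.nd (nat_lit 312) (nat_lit 152) (nat_lit 0) (XT.nd (nat_lit 156) (nat_lit 76) (nat_lit 0) (XT.nd (nat_lit 78) (nat_lit 76) (nat_lit 0) (XT.lf (nat_lit 0) (nat_lit 18092173120) (nat_lit 152) (nat_lit 131500351) (nat_lit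 76) (nat_lit 45655836307) (nat_lit 26) (nat_lit 5) (nat_lit 28) (nat_lit 5) (nat_lit 27) (nat_lit 4) (nat_lit 480) (nat_lit 343) (nat_lit 197)) (XT.lf (nat_lit 0) (nat_lit 24060529326) (nat_lit 76) (nat_lit 5956060120) (nat_lit 152) (nat_lit 35404734384) (nat_lit 25) (nat_lit 5) (nat_lit 26) (nat_lit 5) (nat_lit 27) (nat_lit 4) (nat_lit 481) (nat_lit 343) (nat_lit 196))) (XT.nd (nat_lit 78) (nat_lit 76) (nat_lit 0) (XT.lf (nat_lit 0) (nat_lit 42354877430) (nat_lit 152) (nat_lit 18110826786) (nat_lit 0) (nat_lit 6542004271) (nat_lit 25) (nat_lit 5) (nat_lit 27) (nat_lit 4) (nat_lit 25) (nat_lit 4) (nat_lit 482) (nat_lit 343) (nat_lit 195)) (XT.lf (nat_lit 0) (nat_lit 5874566648) (nat_lit 76) (nat_lit 49295052203) (nat_lit 76) (nat_lit 13468877035) (nat_lit 24) (nat_lit 4) (nat_lit 25) (nat_lit 5) (nat_lit 25) (nat_lit 4) (nat_lit 483) (nat_lit 343) (nat_lit 194)))) (XT.nd (nat_lit 156) (nat_lit 76) (nat_lit 0) (XT.nd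 (nat_lit 78) (nat_lit 76) (nat_lit 0) (XT.lf (nat_lit 0) (nat_lit 30933213589) (nat_lit 76) (nat_lit 37609434022) (nat_lit 76) (nat_lit 1770344282) (nat_lit 24) (nat_lit 4) (nat_lit 25) (nat_lit 5) (nat_lit 25) (nat_lit 4) (nat_lit 484) (nat_lit 343) (nat_lit 193)) (XT.lf (nat_lit 0) (nat_lit 10069698633) (nat_lit 152) (nat_lit 15410139933) (nat_lit 76) (nat_lit 46555186130) (nat_lit 23) (nat_lit 5) (nat_lit 25) (nat_lit 5) (nat_lit 24) (nat_lit 4) (nat_lit 485) (nat_lit 343) (nat_lit 192))) (XT.nd (nat_lit 78) (nat_lit 0) (nat_lit 0) (XT.lf (nat_lit 0) (nat_lit 9428313903) (nat_lit 76) (nat_lit 12883072936) (nat_lit 152) (nat_lit 51494345322) (nat_lit 22) (nat_lit 5) (nat_lit 23) (nat_lit 5) (nat_lit 24) (nat_lit 4) (nat_lit 486) (nat_lit 343) (nat_lit 191)) (XT.lf (nat_lit 0) (nat_lit 35069768572) (nat_lit 152) (nat_lit 40316239792) (nat_lit 0) (nat_lit 239069500) (nat_lit 22) (nat_lit 5) (nat_lit 24) (nat_lit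 4) (nat_lit 22) (nat_lit 4) (nat_lit 487) (nat_lit 343) (nat_lit 190))))))) (XT.nd (nat_lit 42822) (nat_lit 0) (nat_lit 17556) (XT.nd (nat_lit 42276) (nat_lit 0) (nat_lit 26068) (XT.nd (nat_lit 41964) (nat_lit 0) (nat_lit 27132) (XT.nd (nat_lit 78) (nat_lit 76) (nat_lit 0) (XT.lf (nat_lit 0) (nat_lit 48330116638) (nat_lit 152) (nat_lit 15677033802) (nat_lit 0) (nat_lit 13488277342) (nat_lit 22) (nat_lit 5) (nat_lit 24) (nat_lit 4) (nat_lit 22) (nat_lit 4) (nat_lit 488) (nat_lit 343) (nat_lit 189)) (XT.nd (nat_lit 41808) (nat_lit 0) (nat_lit 27968) (XT.lf (nat_lit 0) (nat_lit 9878330906) (nat_lit 76) (nat_lit 52196803423) (nat_lit 76) (nat_lit 17344148376) (nat_lit 21) (nat_lit 4) (nat_lit 22) (nat_lit 5) (nat_lit 22) (nat_lit 4) (nat_lit 489) (nat_lit 343) (nat_lit 188)) (XT.lf (nat_lit 0) (nat_lit 1860329535) (nat_lit 380) (nat_lit 697393675) (nat_lit 380) (nat_lit 697393675) (nat_lit 389) (nat_lit 3) (nat_lit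 394) (nat_lit 3) (nat_lit 394) (nat_lit 5) (nat_lit 344) (nat_lit 344) (nat_lit 332)))) (XT.nd (nat_lit 156) (nat_lit 456) (nat_lit 0) (XT.nd (nat_lit 78) (nat_lit 380) (nat_lit 0) (XT.lf (nat_lit 76) (nat_lit 1826303818) (nat_lit 0) (nat_lit 4536433026) (nat_lit 380) (nat_lit 166124805) (nat_lit 390) (nat_lit 5) (nat_lit 389) (nat_lit 3) (nat_lit 394) (nat_lit 5) (nat_lit 345) (nat_lit 344) (nat_lit 331)) (XT.lf (nat_lit 0) (nat_lit 2398956913) (nat_lit 380) (nat_lit 1454288995) (nat_lit 456) (nat_lit 2696753126) (nat_lit 384) (nat_lit 5) (nat_lit 389) (nat_lit 3) (nat_lit 390) (nat_lit 5) (nat_lit 346) (nat_lit 344) (nat_lit 330))) (XT.nd (nat_lit 78) (nat_lit 456) (nat_lit 0) (XT.lf (nat_lit 76) (nat_lit 1873165050) (nat_lit 0) (nat_lit 3083649706) (nat_lit 456) (nat_lit 1617384448) (nat_lit 385) (nat_lit 5) (nat_lit 384) (nat_lit 5) (nat_lit 390) (nat_lit 5) (nat_lit 347) (nat_lit 344) (nat_lit 329)) (XT.lf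 (nat_lit 0) (nat_lit 890274761) (nat_lit 456) (nat_lit 1332753218) (nat_lit 532) (nat_lit 4378340451) (nat_lit 378) (nat_lit 5) (nat_lit 384) (nat_lit 5) (nat_lit 385) (nat_lit 5) (nat_lit 348) (nat_lit 344) (nat_lit 328))))) (XT.nd (nat_lit 234) (nat_lit 608) (nat_lit 0) (XT.nd (nat_lit 78) (nat_lit 456) (nat_lit 0) (XT.lf (nat_lit 76) (nat_lit 2108662674) (nat_lit 0) (nat_lit 1257626063) (nat_lit 532) (nat_lit 3264862998) (nat_lit 379) (nat_lit 5) (nat_lit 378) (nat_lit 5) (nat_lit 385) (nat_lit 5) (nat_lit 349) (nat_lit 344) (nat_lit 327)) (XT.nd (nat_lit 78) (nat_lit 456) (nat_lit 0) (XT.lf (nat_lit 76) (nat_lit 5628113884) (nat_lit 0) (nat_lit 209541994) (nat_lit 532) (nat_lit 826587465) (nat_lit 379) (nat_lit 5) (nat_lit 378) (nat_lit 5) (nat_lit 385) (nat_lit 5) (nat_lit 350) (nat_lit 344) (nat_lit 326)) (XT.lf (nat_lit 0) (nat_lit 1594829748) (nat_lit 532) (nat_lit 4173749663) (nat_lit 608) (nat_lit 931020589)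 (nat_lit 372) (nat_lit 5) (nat_lit 379) (nat_lit 5) (nat_lit 380) (nat_lit 5) (nat_lit 351) (nat_lit 344) (nat_lit 325)))) (XT.nd (nat_lit 156) (nat_lit 608) (nat_lit 0) (XT.nd (nat_lit 78) (nat_lit 0) (nat_lit 0) (XT.lf (nat_lit 0) (nat_lit 3996773885) (nat_lit 532) (nat_lit 585509188) (nat_lit 608) (nat_lit 2155796822) (nat_lit 372) (nat_lit 5) (nat_lit 379) (nat_lit 5) (nat_lit 380) (nat_lit 5) (nat_lit 352) (nat_lit 344) (nat_lit 324)) (XT.lf (nat_lit 76) (nat_lit 3117451414) (nat_lit 0) (nat_lit 3297715910) (nat_lit 608) (nat_lit 364256882) (nat_lit 373) (nat_lit 5) (nat_lit 372) (nat_lit 5) (nat_lit 380) (nat_lit 5) (nat_lit 353) (nat_lit 344) (nat_lit 323))) (XT.nd (nat_lit 78) (nat_lit 0) (nat_lit 0) (XT.lf (nat_lit 76) (nat_lit 47554412) (nat_lit 0) (nat_lit 1917846605) (nat_lit 684) (nat_lit 4858387200) (nat_lit 365) (nat_lit 5) (nat_lit 364) (nat_lit 5) (nat_lit 373) (nat_lit 5) (nat_lit 354) (nat_lit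 344) (nat_lit 322)) (XT.lf (nat_lit 76) (nat_lit 3885341706) (nat_lit 0) (nat_lit 426703652) (nat_lit 684) (nat_lit 2558735263) (nat_lit 365) (nat_lit 5) (nat_lit 364) (nat_lit 5) (nat_lit 373) (nat_lit 5) (nat_lit 355) (nat_lit 344) (nat_lit 321)))))) (XT.nd (nat_lit 546) (nat_lit 5548) (nat_lit 0) (XT.nd (nat_lit 234) (nat_lit 1672) (nat_lit 0) (XT.nd (nat_lit 78) (nat_lit 760) (nat_lit 0) (XT.lf (nat_lit 0) (nat_lit 869859340) (nat_lit 608) (nat_lit 5798393890) (nat_lit 684) (nat_lit 252791733) (nat_lit 357) (nat_lit 5) (nat_lit 365) (nat_lit 5) (nat_lit 366) (nat_lit 5) (nat_lit 356) (nat_lit 344) (nat_lit 320)) (XT.nd (nat_lit 78) (nat_lit 684) (nat_lit 0) (XT.lf (nat_lit 0) (nat_lit 2036715901) (nat_lit 684) (nat_lit 2151414832) (nat_lit 76) (nat_lit 2785435427) (nat_lit 356) (nat_lit 5) (nat_lit 365) (nat_lit 5) (nat_lit 357) (nat_lit 5) (nat_lit 357) (nat_lit 344) (nat_lit 319)) (XT.lf (nat_lit 0) (nat_lit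 1843882601) (nat_lit 684) (nat_lit 2487096769) (nat_lit 760) (nat_lit 2698407939) (nat_lit 347) (nat_lit 5) (nat_lit 356) (nat_lit 5) (nat_lit 357) (nat_lit 5) (nat_lit 358) (nat_lit 344) (nat_lit 318)))) (XT.nd (nat_lit 156) (nat_lit 836) (nat_lit 0) (XT.nd (nat_lit 78) (nat_lit 836) (nat_lit 0) (XT.lf (nat_lit 0) (nat_lit 5948735142) (nat_lit 684) (nat_lit 692194917) (nat_lit 760) (nat_lit 447580208) (nat_lit 347) (nat_lit 5) (nat_lit 356) (nat_lit 5) (nat_lit 357) (nat_lit 5) (nat_lit 359) (nat_lit 344) (nat_lit 317)) (XT.lf (nat_lit 0) (nat_lit 1801567710) (nat_lit 836) (nat_lit 4148158113) (nat_lit 76) (nat_lit 1200153641) (nat_lit 336) (nat_lit 5) (nat_lit 347) (nat_lit 5) (nat_lit 337) (nat_lit 5) (nat_lit 360) (nat_lit 344) (nat_lit 316))) (XT.nd (nat_lit 78) (nat_lit 0) (nat_lit 0) (XT.lf (nat_lit 0) (nat_lit 10754430) (nat_lit 836) (nat_lit 4045379019) (nat_lit 912) (nat_lit 3158445321) (nat_lit 325)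 (nat_lit 5) (nat_lit 336) (nat_lit 5) (nat_lit 337) (nat_lit 5) (nat_lit 361) (nat_lit 344) (nat_lit 315)) (XT.lf (nat_lit 0) (nat_lit 4323878794) (nat_lit 836) (nat_lit 2026256968) (nat_lit 912) (nat_lit 931958589) (nat_lit 325) (nat_lit 5) (nat_lit 336) (nat_lit 5) (nat_lit 337) (nat_lit 5) (nat_lit 362) (nat_lit 344) (nat_lit 314))))) (XT.nd (nat_lit 312) (nat_lit 3496) (nat_lit 0) (XT.nd (nat_lit 156) (nat_lit 1064) (nat_lit 0) (XT.nd (nat_lit 78) (nat_lit 0) (nat_lit 0) (XT.lf (nat_lit 0) (nat_lit 1280111281) (nat_lit 988) (nat_lit 5980735141) (nat_lit 76) (nat_lit 92063413) (nat_lit 312) (nat_lit 5) (nat_lit 325) (nat_lit 5) (nat_lit 313) (nat_lit 5) (nat_lit 363) (nat_lit 344) (nat_lit 313)) (XT.lf (nat_lit 0) (nat_lit 3522887928) (nat_lit 988) (nat_lit 1618408838) (nat_lit 76) (nat_lit 2284810712) (nat_lit 312) (nat_lit 5) (nat_lit 325) (nat_lit 5) (nat_lit 313) (nat_lit 5) (nat_lit 364) (nat_lit 344) (nat_lit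 312))) (XT.nd (nat_lit 78) (nat_lit 76) (nat_lit 0) (XT.lf (nat_lit 0) (nat_lit 2875572492) (nat_lit 988) (nat_lit 2919819314) (nat_lit 1064) (nat_lit 1707261943) (nat_lit 299) (nat_lit 5) (nat_lit 312) (nat_lit 5) (nat_lit 313) (nat_lit 5) (nat_lit 365) (nat_lit 344) (nat_lit 311)) (XT.lf (nat_lit 0) (nat_lit 495775020) (nat_lit 1064) (nat_lit 105042741) (nat_lit 76) (nat_lit 6981982570) (nat_lit 298) (nat_lit 5) (nat_lit 312) (nat_lit 5) (nat_lit 299) (nat_lit 5) (nat_lit 366) (nat_lit 344) (nat_lit 310)))) (XT.nd (nat_lit 156) (nat_lit 1292) (nat_lit 0) (XT.nd (nat_lit 78) (nat_lit 1140) (nat_lit 0) (XT.lf (nat_lit 0) (nat_lit 2729784634) (nat_lit 1140) (nat_lit 3112813032) (nat_lit 76) (nat_lit 1822294470) (nat_lit 284) (nat_lit 5) (nat_lit 299) (nat_lit 5) (nat_lit 285) (nat_lit 5) (nat_lit 367) (nat_lit 344) (nat_lit 309)) (XT.lf (nat_lit 0) (nat_lit 1570481326) (nat_lit 1140) (nat_lit 3421221424) (nat_lit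 1216) (nat_lit 2758940415) (nat_lit 269) (nat_lit 5) (nat_lit 284) (nat_lit 5) (nat_lit 285) (nat_lit 5) (nat_lit 368) (nat_lit 344) (nat_lit 308))) (XT.nd (nat_lit 78) (nat_lit 1292) (nat_lit 0) (XT.lf (nat_lit 0) (nat_lit 6402773528) (nat_lit 1140) (nat_lit 890161720) (nat_lit 1216) (nat_lit 546910212) (nat_lit 269) (nat_lit 5) (nat_lit 284) (nat_lit 5) (nat_lit 285) (nat_lit 5) (nat_lit 369) (nat_lit 344) (nat_lit 307)) (XT.lf (nat_lit 0) (nat_lit 1689005253) (nat_lit 1292) (nat_lit 4505071423) (nat_lit 76) (nat_lit 1737429625) (nat_lit 252) (nat_lit 5) (nat_lit 269) (nat_lit 5) (nat_lit 253) (nat_lit 5) (nat_lit 370) (nat_lit 344) (nat_lit 306))))))))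
noncomputable def xc111 : XT := (XT.nd (nat_lit 2262) (nat_lit 4636) (nat_lit 0) (XT.nd (nat_lit 1092) (nat_lit 3648) (nat_lit 0) (XT.nd (nat_lit 546) (nat_lit 2584) (nat_lit 0) (XT.nd (nat_lit 234) (nat_lit 1216) (nat_lit 0) (XT.nd (nat_lit 78) (nat_lit 684) (nat_lit 0) (XT.lf (nat_lit 0) (nat_lit 376667271) (nat_lit 684) (nat_lit 3573823114) (nat_lit 760) (nat_lit 4076200136) (nat_lit 243) (nat_lit 5) (nat_lit 252) (nat_lit 5) (nat_lit 253) (nat_lit 5) (nat_lit 371) (nat_lit 344) (nat_lit 305)) (XT.nd (nat_lit 78) (nat_lit 684) (nat_lit 0) (XT.lf (nat_lit 0) (nat_lit 5441623423) (nat_lit 684) (nat_lit 827227568) (nat_lit 760) (nat_lit 1856228287) (nat_lit 243) (nat_lit 5) (nat_lit 252) (nat_lit 5) (nat_lit 253) (nat_lit 5) (nat_lit 372) (nat_lit 344) (nat_lit 304)) (XT.lf (nat_lit 0) (nat_lit 409346384) (nat_lit 684) (nat_lit 5826683454) (nat_lit 76) (nat_lit 1990662516) (nat_lit 234) (nat_lit 5) (nat_lit 243)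 (nat_lit 5) (nat_lit 235) (nat_lit 5) (nat_lit 373) (nat_lit 344) (nat_lit 303)))) (XT.nd (nat_lit 156) (nat_lit 608) (nat_lit 0) (XT.nd (nat_lit 78) (nat_lit 608) (nat_lit 0) (XT.lf (nat_lit 0) (nat_lit 2686843749) (nat_lit 684) (nat_lit 722582899) (nat_lit 76) (nat_lit 4921956152) (nat_lit 234) (nat_lit 5) (nat_lit 243) (nat_lit 5) (nat_lit 235) (nat_lit 5) (nat_lit 374) (nat_lit 344) (nat_lit 302)) (XT.lf (nat_lit 0) (nat_lit 4569249145) (nat_lit 608) (nat_lit 454628141) (nat_lit 684) (nat_lit 3415618052) (nat_lit 226) (nat_lit 5) (nat_lit 234) (nat_lit 5) (nat_lit 235) (nat_lit 5) (nat_lit 375) (nat_lit 344) (nat_lit 301))) (XT.nd (nat_lit 78) (nat_lit 76) (nat_lit 0) (XT.lf (nat_lit 0) (nat_lit 1431425898) (nat_lit 532) (nat_lit 5993892357) (nat_lit 608) (nat_lit 1125721303) (nat_lit 219) (nat_lit 5) (nat_lit 226) (nat_lit 5) (nat_lit 227) (nat_lit 5) (nat_lit 376) (nat_lit 344) (nat_lit 300)) (XT.lf (nat_lit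 0) (nat_lit 1201525885) (nat_lit 608) (nat_lit 1766069099) (nat_lit 76) (nat_lit 5698214461) (nat_lit 218) (nat_lit 5) (nat_lit 226) (nat_lit 5) (nat_lit 219) (nat_lit 5) (nat_lit 377) (nat_lit 344) (nat_lit 299))))) (XT.nd (nat_lit 234) (nat_lit 1596) (nat_lit 0) (XT.nd (nat_lit 78) (nat_lit 456) (nat_lit 0) (XT.lf (nat_lit 0) (nat_lit 3564161880) (nat_lit 608) (nat_lit 5030172257) (nat_lit 76) (nat_lit 189723740) (nat_lit 211) (nat_lit 5) (nat_lit 219) (nat_lit 5) (nat_lit 212) (nat_lit 5) (nat_lit 378) (nat_lit 344) (nat_lit 298)) (XT.nd (nat_lit 78) (nat_lit 0) (nat_lit 0) (XT.lf (nat_lit 0) (nat_lit 495103525) (nat_lit 456) (nat_lit 5505842244) (nat_lit 532) (nat_lit 2904825210) (nat_lit 205) (nat_lit 5) (nat_lit 211) (nat_lit 5) (nat_lit 212) (nat_lit 5) (nat_lit 379) (nat_lit 344) (nat_lit 297)) (XT.lf (nat_lit 0) (nat_lit 6234471608) (nat_lit 456) (nat_lit 2279170685) (nat_lit 532) (nat_lit 517423744) (nat_lit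 205) (nat_lit 5) (nat_lit 211) (nat_lit 5) (nat_lit 212) (nat_lit 5) (nat_lit 380) (nat_lit 344) (nat_lit 296)))) (XT.nd (nat_lit 156) (nat_lit 988) (nat_lit 0) (XT.nd (nat_lit 78) (nat_lit 0) (nat_lit 0) (XT.lf (nat_lit 0) (nat_lit 1895646528) (nat_lit 608) (nat_lit 6199488480) (nat_lit 76) (nat_lit 1064680976) (nat_lit 197) (nat_lit 5) (nat_lit 205) (nat_lit 5) (nat_lit 198) (nat_lit 5) (nat_lit 381) (nat_lit 344) (nat_lit 295)) (XT.lf (nat_lit 0) (nat_lit 4375515881) (nat_lit 608) (nat_lit 427198028) (nat_lit 76) (nat_lit 4489430208) (nat_lit 197) (nat_lit 5) (nat_lit 205) (nat_lit 5) (nat_lit 198) (nat_lit 5) (nat_lit 382) (nat_lit 344) (nat_lit 294))) (XT.nd (nat_lit 78) (nat_lit 532) (nat_lit 0) (XT.lf (nat_lit 0) (nat_lit 5573691225) (nat_lit 456) (nat_lit 1364736660) (nat_lit 532) (nat_lit 2489767993) (nat_lit 191) (nat_lit 5) (nat_lit 197) (nat_lit 5) (nat_lit 198) (nat_lit 5) (nat_lit 383) (nat_lit 344)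 (nat_lit 293)) (XT.lf (nat_lit 0) (nat_lit 11560047) (nat_lit 532) (nat_lit 7406066929) (nat_lit 76) (nat_lit 2150656134) (nat_lit 184) (nat_lit 5) (nat_lit 191) (nat_lit 5) (nat_lit 185) (nat_lit 5) (nat_lit 384) (nat_lit 344) (nat_lit 292)))))) (XT.nd (nat_lit 546) (nat_lit 1900) (nat_lit 0) (XT.nd (nat_lit 234) (nat_lit 836) (nat_lit 0) (XT.nd (nat_lit 78) (nat_lit 912) (nat_lit 0) (XT.lf (nat_lit 0) (nat_lit 2546823953) (nat_lit 532) (nat_lit 1365920332) (nat_lit 76) (nat_lit 5798833064) (nat_lit 184) (nat_lit 5) (nat_lit 191) (nat_lit 5) (nat_lit 185) (nat_lit 5) (nat_lit 385) (nat_lit 344) (nat_lit 291)) (XT.nd (nat_lit 78) (nat_lit 456) (nat_lit 0) (XT.lf (nat_lit 0) (nat_lit 4898178282) (nat_lit 456) (nat_lit 264447252) (nat_lit 532) (nat_lit 4696422203) (nat_lit 178) (nat_lit 5) (nat_lit 184) (nat_lit 5) (nat_lit 185) (nat_lit 5) (nat_lit 386) (nat_lit 344) (nat_lit 290)) (XT.lf (nat_lit 0) (nat_lit 1305956641)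 (nat_lit 456) (nat_lit 6569040631) (nat_lit 532) (nat_lit 2135413450) (nat_lit 172) (nat_lit 5) (nat_lit 178) (nat_lit 5) (nat_lit 179) (nat_lit 5) (nat_lit 387) (nat_lit 344) (nat_lit 289)))) (XT.nd (nat_lit 156) (nat_lit 380) (nat_lit 0) (XT.nd (nat_lit 78) (nat_lit 380) (nat_lit 0) (XT.lf (nat_lit 0) (nat_lit 504157812) (nat_lit 532) (nat_lit 2364073349) (nat_lit 76) (nat_lit 7297603175) (nat_lit 171) (nat_lit 5) (nat_lit 178) (nat_lit 5) (nat_lit 172) (nat_lit 5) (nat_lit 388) (nat_lit 344) (nat_lit 288)) (XT.lf (nat_lit 0) (nat_lit 3189230183) (nat_lit 456) (nat_lit 6160264205) (nat_lit 76) (nat_lit 975525384) (nat_lit 166) (nat_lit 5) (nat_lit 172) (nat_lit 5) (nat_lit 167) (nat_lit 5) (nat_lit 389) (nat_lit 344) (nat_lit 287))) (XT.nd (nat_lit 78) (nat_lit 0) (nat_lit 0) (XT.lf (nat_lit 0) (nat_lit 375531393) (nat_lit 380) (nat_lit 5595547665) (nat_lit 456) (nat_lit 4517425086) (nat_lit 161) (nat_lit 5)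 (nat_lit 166) (nat_lit 5) (nat_lit 167) (nat_lit 5) (nat_lit 390) (nat_lit 344) (nat_lit 286)) (XT.lf (nat_lit 0) (nat_lit 7181390133) (nat_lit 380) (nat_lit 1677966436) (nat_lit 456) (nat_lit 1796857092) (nat_lit 161) (nat_lit 5) (nat_lit 166) (nat_lit 5) (nat_lit 167) (nat_lit 5) (nat_lit 391) (nat_lit 344) (nat_lit 285))))) (XT.nd (nat_lit 312) (nat_lit 760) (nat_lit 0) (XT.nd (nat_lit 156) (nat_lit 684) (nat_lit 0) (XT.nd (nat_lit 78) (nat_lit 0) (nat_lit 0) (XT.lf (nat_lit 0) (nat_lit 1002547371) (nat_lit 456) (nat_lit 7484840118) (nat_lit 76) (nat_lit 2340781196) (nat_lit 155) (nat_lit 5) (nat_lit 161) (nat_lit 5) (nat_lit 156) (nat_lit 5) (nat_lit 392) (nat_lit 344) (nat_lit 284)) (XT.lf (nat_lit 0) (nat_lit 3863894905) (nat_lit 456) (nat_lit 653779992) (nat_lit 76) (nat_lit 6486660438) (nat_lit 155) (nat_lit 5) (nat_lit 161) (nat_lit 5) (nat_lit 156) (nat_lit 5) (nat_lit 393) (nat_lit 344) (nat_lit 283)))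 (XT.nd (nat_lit 78) (nat_lit 304) (nat_lit 0) (XT.lf (nat_lit 0) (nat_lit 6457686411) (nat_lit 380) (nat_lit 378603858) (nat_lit 456) (nat_lit 4348749209) (nat_lit 150) (nat_lit 5) (nat_lit 155) (nat_lit 5) (nat_lit 156) (nat_lit 5) (nat_lit 394) (nat_lit 344) (nat_lit 282)) (XT.lf (nat_lit 0) (nat_lit 2383019218) (nat_lit 304) (nat_lit 7545346713) (nat_lit 380) (nat_lit 1441892021) (nat_lit 146) (nat_lit 5) (nat_lit 150) (nat_lit 5) (nat_lit 151) (nat_lit 5) (nat_lit 395) (nat_lit 344) (nat_lit 281)))) (XT.nd (nat_lit 156) (nat_lit 304) (nat_lit 0) (XT.nd (nat_lit 78) (nat_lit 380) (nat_lit 0) (XT.lf (nat_lit 0) (nat_lit 1537645309) (nat_lit 380) (nat_lit 1826369115) (nat_lit 76) (nat_lit 8196106035) (nat_lit 145) (nat_lit 5) (nat_lit 150) (nat_lit 5) (nat_lit 146) (nat_lit 5) (nat_lit 396) (nat_lit 344) (nat_lit 280)) (XT.lf (nat_lit 0) (nat_lit 4605820395) (nat_lit 456) (nat_lit 6169819311) (nat_lit 76) (nat_lit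 978771625) (nat_lit 140) (nat_lit 5) (nat_lit 146) (nat_lit 5) (nat_lit 141) (nat_lit 5) (nat_lit 397) (nat_lit 344) (nat_lit 279))) (XT.nd (nat_lit 78) (nat_lit 0) (nat_lit 0) (XT.lf (nat_lit 0) (nat_lit 1241928216) (nat_lit 304) (nat_lit 6553251115) (nat_lit 380) (nat_lit 4158484958) (nat_lit 136) (nat_lit 5) (nat_lit 140) (nat_lit 5) (nat_lit 141) (nat_lit 5) (nat_lit 398) (nat_lit 344) (nat_lit 278)) (XT.lf (nat_lit 0) (nat_lit 8952835460) (nat_lit 304) (nat_lit 2155488829) (nat_lit 380) (nat_lit 1049734688) (nat_lit 136) (nat_lit 5) (nat_lit 140) (nat_lit 5) (nat_lit 141) (nat_lit 5) (nat_lit 399) (nat_lit 344) (nat_lit 277))))))) (XT.nd (nat_lit 1092) (nat_lit 1976) (nat_lit 0) (XT.nd (nat_lit 546) (nat_lit 1064) (nat_lit 0) (XT.nd (nat_lit 234) (nat_lit 912) (nat_lit 0) (XT.nd (nat_lit 78) (nat_lit 304) (nat_lit 0) (XT.lf (nat_lit 0) (nat_lit 2143749196) (nat_lit 380) (nat_lit 7845378357) (nat_lit 76) (nat_lit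 2377840067) (nat_lit 131) (nat_lit 5) (nat_lit 136) (nat_lit 5) (nat_lit 132) (nat_lit 5) (nat_lit 400) (nat_lit 344) (nat_lit 276)) (XT.nd (nat_lit 78) (nat_lit 304) (nat_lit 0) (XT.lf (nat_lit 0) (nat_lit 5432793398) (nat_lit 380) (nat_lit 116583316) (nat_lit 76) (nat_lit 7031836052) (nat_lit 131) (nat_lit 5) (nat_lit 136) (nat_lit 5) (nat_lit 132) (nat_lit 5) (nat_lit 401) (nat_lit 344) (nat_lit 275)) (XT.lf (nat_lit 0) (nat_lit 7951405249) (nat_lit 304) (nat_lit 913329704) (nat_lit 380) (nat_lit 3935830019) (nat_lit 127) (nat_lit 5) (nat_lit 131) (nat_lit 5) (nat_lit 132) (nat_lit 5) (nat_lit 402) (nat_lit 344) (nat_lit 274)))) (XT.nd (nat_lit 156) (nat_lit 532) (nat_lit 0) (XT.nd (nat_lit 78) (nat_lit 76) (nat_lit 0) (XT.lf (nat_lit 0) (nat_lit 3214789704) (nat_lit 304) (nat_lit 9222183226) (nat_lit 380) (nat_lit 588410964) (nat_lit 123) (nat_lit 5) (nat_lit 127) (nat_lit 5) (nat_lit 128) (nat_lit 5) (nat_lit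 403) (nat_lit 344) (nat_lit 273)) (XT.lf (nat_lit 0) (nat_lit 2830405297) (nat_lit 380) (nat_lit 1720766726) (nat_lit 76) (nat_lit 8704153523) (nat_lit 122) (nat_lit 5) (nat_lit 127) (nat_lit 5) (nat_lit 123) (nat_lit 5) (nat_lit 404) (nat_lit 344) (nat_lit 272))) (XT.nd (nat_lit 78) (nat_lit 304) (nat_lit 0) (XT.lf (nat_lit 0) (nat_lit 6376503501) (nat_lit 304) (nat_lit 6804489737) (nat_lit 76) (nat_lit 309906879) (nat_lit 119) (nat_lit 5) (nat_lit 123) (nat_lit 5) (nat_lit 120) (nat_lit 5) (nat_lit 405) (nat_lit 344) (nat_lit 271)) (XT.lf (nat_lit 0) (nat_lit 1586554523) (nat_lit 304) (nat_lit 8489787689) (nat_lit 380) (nat_lit 3655784579) (nat_lit 115) (nat_lit 5) (nat_lit 119) (nat_lit 5) (nat_lit 120) (nat_lit 5) (nat_lit 406) (nat_lit 344) (nat_lit 270))))) (XT.nd (nat_lit 234) (nat_lit 760) (nat_lit 0) (XT.nd (nat_lit 78) (nat_lit 304) (nat_lit 0) (XT.lf (nat_lit 0) (nat_lit 10322050585) (nat_lit 304) (nat_lit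 3603773513) (nat_lit 380) (nat_lit 53612159) (nat_lit 115) (nat_lit 5) (nat_lit 119) (nat_lit 5) (nat_lit 120) (nat_lit 5) (nat_lit 407) (nat_lit 344) (nat_lit 269)) (XT.nd (nat_lit 78) (nat_lit 0) (nat_lit 0) (XT.lf (nat_lit 0) (nat_lit 3619260535) (nat_lit 304) (nat_lit 9143040474) (nat_lit 76) (nat_lit 1469794953) (nat_lit 111) (nat_lit 5) (nat_lit 115) (nat_lit 5) (nat_lit 112) (nat_lit 5) (nat_lit 408) (nat_lit 344) (nat_lit 268)) (XT.lf (nat_lit 0) (nat_lit 7445000853) (nat_lit 304) (nat_lit 401204331) (nat_lit 76) (nat_lit 6644806549) (nat_lit 111) (nat_lit 5) (nat_lit 115) (nat_lit 5) (nat_lit 112) (nat_lit 5) (nat_lit 409) (nat_lit 344) (nat_lit 267)))) (XT.nd (nat_lit 156) (nat_lit 228) (nat_lit 0) (XT.nd (nat_lit 78) (nat_lit 304) (nat_lit 0) (XT.lf (nat_lit 0) (nat_lit 8728292620) (nat_lit 228) (nat_lit 2712753495) (nat_lit 304) (nat_lit 3314987708) (nat_lit 108) (nat_lit 5) (nat_lit 111) (nat_lit 5)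 (nat_lit 112) (nat_lit 5) (nat_lit 410) (nat_lit 344) (nat_lit 266)) (XT.lf (nat_lit 0) (nat_lit 548487909) (nat_lit 304) (nat_lit 11931885128) (nat_lit 76) (nat_lit 2547561104) (nat_lit 104) (nat_lit 5) (nat_lit 108) (nat_lit 5) (nat_lit 105) (nat_lit 5) (nat_lit 411) (nat_lit 344) (nat_lit 265))) (XT.nd (nat_lit 78) (nat_lit 228) (nat_lit 0) (XT.lf (nat_lit 0) (nat_lit 4521551291) (nat_lit 304) (nat_lit 2794611760) (nat_lit 76) (nat_lit 7989038837) (nat_lit 104) (nat_lit 5) (nat_lit 108) (nat_lit 5) (nat_lit 105) (nat_lit 5) (nat_lit 412) (nat_lit 344) (nat_lit 264)) (XT.lf (nat_lit 0) (nat_lit 6703631807) (nat_lit 228) (nat_lit 1947411748) (nat_lit 304) (nat_lit 6938631293) (nat_lit 101) (nat_lit 5) (nat_lit 104) (nat_lit 5) (nat_lit 105) (nat_lit 5) (nat_lit 413) (nat_lit 344) (nat_lit 263)))))) (XT.nd (nat_lit 546) (nat_lit 988) (nat_lit 0) (XT.nd (nat_lit 234) (nat_lit 456) (nat_lit 0) (XT.nd (nat_lit 78)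 (nat_lit 304) (nat_lit 0) (XT.lf (nat_lit 0) (nat_lit 594991361) (nat_lit 228) (nat_lit 12351095305) (nat_lit 304) (nat_lit 2935349509) (nat_lit 98) (nat_lit 5) (nat_lit 101) (nat_lit 5) (nat_lit 102) (nat_lit 5) (nat_lit 414) (nat_lit 344) (nat_lit 262)) (XT.nd (nat_lit 78) (nat_lit 228) (nat_lit 0) (XT.lf (nat_lit 0) (nat_lit 1247858259) (nat_lit 304) (nat_lit 5712519743) (nat_lit 76) (nat_lit 9218743353) (nat_lit 97) (nat_lit 5) (nat_lit 101) (nat_lit 5) (nat_lit 98) (nat_lit 5) (nat_lit 415) (nat_lit 344) (nat_lit 261)) (XT.lf (nat_lit 0) (nat_lit 4157698191) (nat_lit 228) (nat_lit 1353724966) (nat_lit 304) (nat_lit 10973030100) (nat_lit 94) (nat_lit 5) (nat_lit 97) (nat_lit 5) (nat_lit 98) (nat_lit 5) (nat_lit 416) (nat_lit 344) (nat_lit 260)))) (XT.nd (nat_lit 156) (nat_lit 304) (nat_lit 0) (XT.nd (nat_lit 78) (nat_lit 152) (nat_lit 0) (XT.lf (nat_lit 0) (nat_lit 9977731705) (nat_lit 304) (nat_lit 2442347506)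 (nat_lit 76) (nat_lit 4376624503) (nat_lit 94) (nat_lit 5) (nat_lit 98) (nat_lit 5) (nat_lit 95) (nat_lit 5) (nat_lit 417) (nat_lit 344) (nat_lit 259)) (XT.lf (nat_lit 0) (nat_lit 7836171936) (nat_lit 152) (nat_lit 6805423498) (nat_lit 228) (nat_lit 2474822864) (nat_lit 92) (nat_lit 5) (nat_lit 94) (nat_lit 5) (nat_lit 95) (nat_lit 5) (nat_lit 418) (nat_lit 344) (nat_lit 258))) (XT.nd (nat_lit 78) (nat_lit 0) (nat_lit 0) (XT.lf (nat_lit 0) (nat_lit 985879772) (nat_lit 228) (nat_lit 984055774) (nat_lit 304) (nat_lit 15474936346) (nat_lit 88) (nat_lit 5) (nat_lit 91) (nat_lit 5) (nat_lit 92) (nat_lit 5) (nat_lit 419) (nat_lit 344) (nat_lit 257)) (XT.lf (nat_lit 0) (nat_lit 6616202920) (nat_lit 304) (nat_lit 6145943279) (nat_lit 76) (nat_lit 5016763853) (nat_lit 88) (nat_lit 5) (nat_lit 92) (nat_lit 5) (nat_lit 89) (nat_lit 5) (nat_lit 420) (nat_lit 344) (nat_lit 256))))) (XT.nd (nat_lit 312) (nat_lit 380) (nat_lit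 0) (XT.nd (nat_lit 156) (nat_lit 456) (nat_lit 0) (XT.nd (nat_lit 78) (nat_lit 0) (nat_lit 0) (XT.lf (nat_lit 0) (nat_lit 4513872512) (nat_lit 152) (nat_lit 6916934183) (nat_lit 228) (nat_lit 6691297401) (nat_lit 86) (nat_lit 5) (nat_lit 88) (nat_lit 5) (nat_lit 89) (nat_lit 5) (nat_lit 421) (nat_lit 344) (nat_lit 255)) (XT.lf (nat_lit 0) (nat_lit 15578906890) (nat_lit 152) (nat_lit 849133329) (nat_lit 228) (nat_lit 2046411089) (nat_lit 86) (nat_lit 5) (nat_lit 88) (nat_lit 5) (nat_lit 89) (nat_lit 5) (nat_lit 422) (nat_lit 344) (nat_lit 254))) (XT.nd (nat_lit 78) (nat_lit 152) (nat_lit 0) (XT.lf (nat_lit 0) (nat_lit 2792931249) (nat_lit 304) (nat_lit 10654698869) (nat_lit 76) (nat_lit 5385696183) (nat_lit 82) (nat_lit 5) (nat_lit 86) (nat_lit 5) (nat_lit 83) (nat_lit 5) (nat_lit 423) (nat_lit 344) (nat_lit 253)) (XT.lf (nat_lit 0) (nat_lit 380764556) (nat_lit 152) (nat_lit 7373892470) (nat_lit 228) (nat_lit 11447155489)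 (nat_lit 80) (nat_lit 5) (nat_lit 82) (nat_lit 5) (nat_lit 83) (nat_lit 5) (nat_lit 424) (nat_lit 344) (nat_lit 252)))) (XT.nd (nat_lit 156) (nat_lit 228) (nat_lit 0) (XT.nd (nat_lit 78) (nat_lit 152) (nat_lit 0) (XT.lf (nat_lit 0) (nat_lit 11926097722) (nat_lit 152) (nat_lit 1023763037) (nat_lit 228) (nat_lit 6628956522) (nat_lit 80) (nat_lit 5) (nat_lit 82) (nat_lit 5) (nat_lit 83) (nat_lit 5) (nat_lit 425) (nat_lit 344) (nat_lit 251)) (XT.lf (nat_lit 0) (nat_lit 3833464077) (nat_lit 152) (nat_lit 14534885878) (nat_lit 228) (nat_lit 1596762026) (nat_lit 78) (nat_lit 5) (nat_lit 80) (nat_lit 5) (nat_lit 81) (nat_lit 5) (nat_lit 426) (nat_lit 344) (nat_lit 250))) (XT.nd (nat_lit 78) (nat_lit 152) (nat_lit 0) (XT.lf (nat_lit 0) (nat_lit 3582202818) (nat_lit 228) (nat_lit 4623980647) (nat_lit 76) (nat_lit 12153806694) (nat_lit 77) (nat_lit 5) (nat_lit 80) (nat_lit 5) (nat_lit 78) (nat_lit 5) (nat_lit 427) (nat_lit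 344) (nat_lit 249)) (XT.lf (nat_lit 0) (nat_lit 7318010887) (nat_lit 152) (nat_lit 1615038948) (nat_lit 228) (nat_lit 11831734808) (nat_lit 75) (nat_lit 5) (nat_lit 77) (nat_lit 5) (nat_lit 78) (nat_lit 5) (nat_lit 428) (nat_lit 344) (nat_lit 248))))))))
noncomputable def xc112 : XT := (XT.nd (nat_lit 2184) (nat_lit 1368) (nat_lit 0) (XT.nd (nat_lit 1092) (nat_lit 1140) (nat_lit 0) (XT.nd (nat_lit 546) (nat_lit 608) (nat_lit 0) (XT.nd (nat_lit 234) (nat_lit 380) (nat_lit 0) (XT.nd (nat_lit 78) (nat_lit 380) (nat_lit 0) (XT.lf (nat_lit 0) (nat_lit 14519691267) (nat_lit 228) (nat_lit 1555486770) (nat_lit 76) (nat_lit 5104289230) (nat_lit 75) (nat_lit 5) (nat_lit 78) (nat_lit 5) (nat_lit 76) (nat_lit 5) (nat_lit 429) (nat_lit 344) (nat_lit 247)) (XT.nd (nat_lit 78) (nat_lit 228) (nat_lit 0) (XT.lf (nat_lit 0) (nat_lit 10851387891) (nat_lit 152) (nat_lit 9521853880) (nat_lit 228) (nat_lit 1230371606) (nat_lit 73) (nat_lit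 5) (nat_lit 75) (nat_lit 5) (nat_lit 76) (nat_lit 5) (nat_lit 430) (nat_lit 344) (nat_lit 246)) (XT.lf (nat_lit 0) (nat_lit 1574004547) (nat_lit 152) (nat_lit 2712848657) (nat_lit 228) (nat_lit 17752073311) (nat_lit 70) (nat_lit 5) (nat_lit 72) (nat_lit 5) (nat_lit 73) (nat_lit 5) (nat_lit 431) (nat_lit 344) (nat_lit 245)))) (XT.nd (nat_lit 156) (nat_lit 228) (nat_lit 0) (XT.nd (nat_lit 78) (nat_lit 152) (nat_lit 0) (XT.lf (nat_lit 0) (nat_lit 10075021936) (nat_lit 228) (nat_lit 8085279583) (nat_lit 76) (nat_lit 4322729485) (nat_lit 70) (nat_lit 5) (nat_lit 73) (nat_lit 5) (nat_lit 71) (nat_lit 5) (nat_lit 432) (nat_lit 344) (nat_lit 244)) (XT.lf (nat_lit 0) (nat_lit 4694504557) (nat_lit 152) (nat_lit 11394090992) (nat_lit 228) (nat_lit 6850312333) (nat_lit 68) (nat_lit 5) (nat_lit 70) (nat_lit 5) (nat_lit 71) (nat_lit 5) (nat_lit 433) (nat_lit 344) (nat_lit 243))) (XT.nd (nat_lit 78) (nat_lit 228) (nat_lit 0)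 (XT.lf (nat_lit 0) (nat_lit 17987781093) (nat_lit 152) (nat_lit 4356460744) (nat_lit 228) (nat_lit 1062371253) (nat_lit 68) (nat_lit 5) (nat_lit 70) (nat_lit 5) (nat_lit 71) (nat_lit 5) (nat_lit 434) (nat_lit 344) (nat_lit 242)) (XT.lf (nat_lit 0) (nat_lit 4888466469) (nat_lit 228) (nat_lit 16051278212) (nat_lit 76) (nat_lit 2944648033) (nat_lit 65) (nat_lit 5) (nat_lit 68) (nat_lit 5) (nat_lit 66) (nat_lit 5) (nat_lit 435) (nat_lit 344) (nat_lit 241))))) (XT.nd (nat_lit 234) (nat_lit 456) (nat_lit 0) (XT.nd (nat_lit 78) (nat_lit 152) (nat_lit 0) (XT.lf (nat_lit 0) (nat_lit 11075369825) (nat_lit 228) (nat_lit 2870445019) (nat_lit 76) (nat_lit 10428010353) (nat_lit 65) (nat_lit 5) (nat_lit 68) (nat_lit 5) (nat_lit 66) (nat_lit 5) (nat_lit 436) (nat_lit 344) (nat_lit 240)) (XT.nd (nat_lit 78) (nat_lit 0) (nat_lit 0) (XT.lf (nat_lit 0) (nat_lit 10884136394) (nat_lit 152) (nat_lit 6649435351) (nat_lit 228) (nat_lit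 7341799932) (nat_lit 63) (nat_lit 5) (nat_lit 65) (nat_lit 5) (nat_lit 66) (nat_lit 5) (nat_lit 437) (nat_lit 344) (nat_lit 239)) (XT.lf (nat_lit 0) (nat_lit 24204264788) (nat_lit 228) (nat_lit 323658321) (nat_lit 76) (nat_lit 863480805) (nat_lit 63) (nat_lit 5) (nat_lit 66) (nat_lit 5) (nat_lit 64) (nat_lit 4) (nat_lit 438) (nat_lit 344) (nat_lit 238)))) (XT.nd (nat_lit 156) (nat_lit 76) (nat_lit 0) (XT.nd (nat_lit 78) (nat_lit 152) (nat_lit 0) (XT.lf (nat_lit 0) (nat_lit 5234825162) (nat_lit 228) (nat_lit 12042083393) (nat_lit 76) (nat_lit 8639028381) (nat_lit 60) (nat_lit 5) (nat_lit 63) (nat_lit 5) (nat_lit 61) (nat_lit 5) (nat_lit 439) (nat_lit 344) (nat_lit 237)) (XT.lf (nat_lit 0) (nat_lit 2042696354) (nat_lit 152) (nat_lit 9787563182) (nat_lit 228) (nat_lit 14625455222) (nat_lit 58) (nat_lit 5) (nat_lit 60) (nat_lit 5) (nat_lit 61) (nat_lit 5) (nat_lit 440) (nat_lit 344) (nat_lit 236))) (XT.nd (nat_lit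 78) (nat_lit 76) (nat_lit 0) (XT.lf (nat_lit 0) (nat_lit 16764000503) (nat_lit 152) (nat_lit 1963109045) (nat_lit 228) (nat_lit 8281471311) (nat_lit 58) (nat_lit 5) (nat_lit 60) (nat_lit 5) (nat_lit 61) (nat_lit 5) (nat_lit 441) (nat_lit 344) (nat_lit 235)) (XT.lf (nat_lit 0) (nat_lit 4342752974) (nat_lit 76) (nat_lit 21570795076) (nat_lit 152) (nat_lit 1662005885) (nat_lit 57) (nat_lit 5) (nat_lit 58) (nat_lit 5) (nat_lit 59) (nat_lit 4) (nat_lit 442) (nat_lit 344) (nat_lit 234)))))) (XT.nd (nat_lit 546) (nat_lit 608) (nat_lit 0) (XT.nd (nat_lit 234) (nat_lit 304) (nat_lit 0) (XT.nd (nat_lit 78) (nat_lit 152) (nat_lit 0) (XT.lf (nat_lit 0) (nat_lit 5161712961) (nat_lit 152) (nat_lit 8681083497) (nat_lit 76) (nat_lit 14312065773) (nat_lit 56) (nat_lit 5) (nat_lit 58) (nat_lit 5) (nat_lit 57) (nat_lit 5) (nat_lit 443) (nat_lit 344) (nat_lit 233)) (XT.nd (nat_lit 78) (nat_lit 0) (nat_lit 0) (XT.lf (nat_lit 0) (nat_lit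 6383907944) (nat_lit 152) (nat_lit 5817081523) (nat_lit 228) (nat_lit 16548740475) (nat_lit 54) (nat_lit 5) (nat_lit 56) (nat_lit 5) (nat_lit 57) (nat_lit 5) (nat_lit 444) (nat_lit 344) (nat_lit 232)) (XT.lf (nat_lit 0) (nat_lit 19546467493) (nat_lit 228) (nat_lit 7336883955) (nat_lit 76) (nat_lit 2476242854) (nat_lit 54) (nat_lit 5) (nat_lit 57) (nat_lit 5) (nat_lit 55) (nat_lit 4) (nat_lit 445) (nat_lit 344) (nat_lit 231)))) (XT.nd (nat_lit 156) (nat_lit 152) (nat_lit 0) (XT.nd (nat_lit 78) (nat_lit 76) (nat_lit 0) (XT.lf (nat_lit 0) (nat_lit 8215089820) (nat_lit 76) (nat_lit 19017228214) (nat_lit 152) (nat_lit 2751837590) (nat_lit 53) (nat_lit 5) (nat_lit 54) (nat_lit 5) (nat_lit 55) (nat_lit 4) (nat_lit 446) (nat_lit 344) (nat_lit 230)) (XT.lf (nat_lit 0) (nat_lit 4491358407) (nat_lit 152) (nat_lit 6315978566) (nat_lit 76) (nat_lit 19817065329) (nat_lit 52) (nat_lit 5) (nat_lit 54) (nat_lit 5) (nat_lit 53)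 (nat_lit 5) (nat_lit 447) (nat_lit 344) (nat_lit 229))) (XT.nd (nat_lit 78) (nat_lit 0) (nat_lit 0) (XT.lf (nat_lit 0) (nat_lit 9733711443) (nat_lit 152) (nat_lit 2240350459) (nat_lit 228) (nat_lit 19306652645) (nat_lit 50) (nat_lit 5) (nat_lit 52) (nat_lit 5) (nat_lit 53) (nat_lit 5) (nat_lit 448) (nat_lit 344) (nat_lit 228)) (XT.lf (nat_lit 0) (nat_lit 19792952175) (nat_lit 228) (nat_lit 5654096332) (nat_lit 76) (nat_lit 6506317615) (nat_lit 50) (nat_lit 5) (nat_lit 53) (nat_lit 5) (nat_lit 51) (nat_lit 4) (nat_lit 449) (nat_lit 344) (nat_lit 227))))) (XT.nd (nat_lit 234) (nat_lit 304) (nat_lit 0) (XT.nd (nat_lit 78) (nat_lit 228) (nat_lit 0) (XT.lf (nat_lit 0) (nat_lit 10876787904) (nat_lit 76) (nat_lit 17080832199) (nat_lit 152) (nat_lit 4685241915) (nat_lit 49) (nat_lit 5) (nat_lit 50) (nat_lit 5) (nat_lit 51) (nat_lit 4) (nat_lit 450) (nat_lit 344) (nat_lit 226)) (XT.nd (nat_lit 78) (nat_lit 152) (nat_lit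 0) (XT.lf (nat_lit 0) (nat_lit 2997527528) (nat_lit 152) (nat_lit 5390267144) (nat_lit 76) (nat_lit 24963115133) (nat_lit 48) (nat_lit 5) (nat_lit 50) (nat_lit 5) (nat_lit 49) (nat_lit 5) (nat_lit 451) (nat_lit 344) (nat_lit 225)) (XT.lf (nat_lit 0) (nat_lit 10920232119) (nat_lit 228) (nat_lit 22453491445) (nat_lit 76) (nat_lit 701976190) (nat_lit 46) (nat_lit 5) (nat_lit 49) (nat_lit 5) (nat_lit 47) (nat_lit 4) (nat_lit 452) (nat_lit 344) (nat_lit 224)))) (XT.nd (nat_lit 156) (nat_lit 228) (nat_lit 0) (XT.nd (nat_lit 78) (nat_lit 76) (nat_lit 0) (XT.lf (nat_lit 0) (nat_lit 19203633332) (nat_lit 228) (nat_lit 5676739907) (nat_lit 76) (nat_lit 9938170675) (nat_lit 46) (nat_lit 5) (nat_lit 49) (nat_lit 5) (nat_lit 47) (nat_lit 4) (nat_lit 453) (nat_lit 344) (nat_lit 223)) (XT.lf (nat_lit 0) (nat_lit 11806412166) (nat_lit 76) (nat_lit 16028049785) (nat_lit 152) (nat_lit 7746244636) (nat_lit 45) (nat_lit 5) (nat_lit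 46) (nat_lit 5) (nat_lit 47) (nat_lit 4) (nat_lit 454) (nat_lit 344) (nat_lit 222))) (XT.nd (nat_lit 78) (nat_lit 152) (nat_lit 0) (XT.lf (nat_lit 0) (nat_lit 394833454) (nat_lit 152) (nat_lit 6464911984) (nat_lit 76) (nat_lit 29504585797) (nat_lit 44) (nat_lit 5) (nat_lit 46) (nat_lit 5) (nat_lit 45) (nat_lit 5) (nat_lit 455) (nat_lit 344) (nat_lit 221)) (XT.lf (nat_lit 0) (nat_lit 8747297525) (nat_lit 228) (nat_lit 25708196522) (nat_lit 76) (nat_lit 2709985216) (nat_lit 42) (nat_lit 5) (nat_lit 45) (nat_lit 5) (nat_lit 43) (nat_lit 4) (nat_lit 456) (nat_lit 344) (nat_lit 220))))))) (XT.nd (nat_lit 1092) (nat_lit 608) (nat_lit 0) (XT.nd (nat_lit 546) (nat_lit 380) (nat_lit 0) (XT.nd (nat_lit 234) (nat_lit 304) (nat_lit 0) (XT.nd (nat_lit 78) (nat_lit 76) (nat_lit 0) (XT.lf (nat_lit 0) (nat_lit 17470103349) (nat_lit 228) (nat_lit 8034156791) (nat_lit 76) (nat_lit 12482809399) (nat_lit 42) (nat_lit 5) (nat_lit 45)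 (nat_lit 5) (nat_lit 43) (nat_lit 4) (nat_lit 457) (nat_lit 344) (nat_lit 219)) (XT.nd (nat_lit 78) (nat_lit 0) (nat_lit 0) (XT.lf (nat_lit 0) (nat_lit 10346212927) (nat_lit 76) (nat_lit 16194164898) (nat_lit 152) (nat_lit 12290356984) (nat_lit 41) (nat_lit 5) (nat_lit 42) (nat_lit 5) (nat_lit 43) (nat_lit 4) (nat_lit 458) (nat_lit 344) (nat_lit 218)) (XT.lf (nat_lit 0) (nat_lit 29417155766) (nat_lit 76) (nat_lit 6533217081) (nat_lit 152) (nat_lit 3747309615) (nat_lit 41) (nat_lit 5) (nat_lit 42) (nat_lit 5) (nat_lit 43) (nat_lit 4) (nat_lit 459) (nat_lit 344) (nat_lit 217)))) (XT.nd (nat_lit 156) (nat_lit 76) (nat_lit 0) (XT.nd (nat_lit 78) (nat_lit 0) (nat_lit 0) (XT.lf (nat_lit 0) (nat_lit 5056539521) (nat_lit 228) (nat_lit 32058074431) (nat_lit 76) (nat_lit 3471475637) (nat_lit 38) (nat_lit 5) (nat_lit 41) (nat_lit 5) (nat_lit 39) (nat_lit 4) (nat_lit 460) (nat_lit 344) (nat_lit 216)) (XT.lf (nat_lit 0) (nat_lit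 14205494468) (nat_lit 228) (nat_lit 13514382886) (nat_lit 76) (nat_lit 13775470015) (nat_lit 38) (nat_lit 5) (nat_lit 41) (nat_lit 5) (nat_lit 39) (nat_lit 4) (nat_lit 461) (nat_lit 344) (nat_lit 215))) (XT.nd (nat_lit 78) (nat_lit 0) (nat_lit 0) (XT.lf (nat_lit 0) (nat_lit 5671943043) (nat_lit 76) (nat_lit 17998663436) (nat_lit 152) (nat_lit 18760026458) (nat_lit 37) (nat_lit 5) (nat_lit 38) (nat_lit 5) (nat_lit 39) (nat_lit 4) (nat_lit 462) (nat_lit 344) (nat_lit 214)) (XT.lf (nat_lit 0) (nat_lit 25686772738) (nat_lit 76) (nat_lit 7856676076) (nat_lit 152) (nat_lit 9846815634) (nat_lit 37) (nat_lit 5) (nat_lit 38) (nat_lit 5) (nat_lit 39) (nat_lit 4) (nat_lit 463) (nat_lit 344) (nat_lit 213))))) (XT.nd (nat_lit 234) (nat_lit 228) (nat_lit 0) (XT.nd (nat_lit 78) (nat_lit 76) (nat_lit 0) (XT.lf (nat_lit 0) (nat_lit 1912103040) (nat_lit 76) (nat_lit 41831217451) (nat_lit 76) (nat_lit 634439758) (nat_lit 36) (nat_lit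 4) (nat_lit 37) (nat_lit 5) (nat_lit 37) (nat_lit 4) (nat_lit 464) (nat_lit 344) (nat_lit 212)) (XT.nd (nat_lit 78) (nat_lit 0) (nat_lit 0) (XT.lf (nat_lit 0) (nat_lit 8927442902) (nat_lit 152) (nat_lit 23098814255) (nat_lit 76) (nat_lit 13358693556) (nat_lit 35) (nat_lit 5) (nat_lit 37) (nat_lit 5) (nat_lit 36) (nat_lit 4) (nat_lit 465) (nat_lit 344) (nat_lit 211)) (XT.lf (nat_lit 0) (nat_lit 18751377527) (nat_lit 152) (nat_lit 3180251875) (nat_lit 76) (nat_lit 24490901238) (nat_lit 35) (nat_lit 5) (nat_lit 37) (nat_lit 5) (nat_lit 36) (nat_lit 4) (nat_lit 466) (nat_lit 344) (nat_lit 210)))) (XT.nd (nat_lit 156) (nat_lit 152) (nat_lit 0) (XT.nd (nat_lit 78) (nat_lit 0) (nat_lit 0) (XT.lf (nat_lit 0) (nat_lit 17658106379) (nat_lit 76) (nat_lit 11369962482) (nat_lit 152) (nat_lit 18458428535) (nat_lit 34) (nat_lit 5) (nat_lit 35) (nat_lit 5) (nat_lit 36) (nat_lit 4) (nat_lit 467) (nat_lit 344) (nat_lit 209)) (XT.lf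 (nat_lit 0) (nat_lit 39164692137) (nat_lit 76) (nat_lit 468909501) (nat_lit 152) (nat_lit 8948165869) (nat_lit 34) (nat_lit 5) (nat_lit 35) (nat_lit 5) (nat_lit 36) (nat_lit 4) (nat_lit 468) (nat_lit 344) (nat_lit 208))) (XT.nd (nat_lit 78) (nat_lit 0) (nat_lit 0) (XT.lf (nat_lit 0) (nat_lit 1037546542) (nat_lit 152) (nat_lit 38003979921) (nat_lit 76) (nat_lit 10661925095) (nat_lit 32) (nat_lit 5) (nat_lit 34) (nat_lit 5) (nat_lit 33) (nat_lit 4) (nat_lit 469) (nat_lit 344) (nat_lit 207)) (XT.lf (nat_lit 0) (nat_lit 11232336310) (nat_lit 152) (nat_lit 17329280789) (nat_lit 76) (nat_lit 22291831028) (nat_lit 32) (nat_lit 5) (nat_lit 34) (nat_lit 5) (nat_lit 33) (nat_lit 4) (nat_lit 470) (nat_lit 344) (nat_lit 206)))))) (XT.nd (nat_lit 546) (nat_lit 304) (nat_lit 0) (XT.nd (nat_lit 234) (nat_lit 228) (nat_lit 0) (XT.nd (nat_lit 78) (nat_lit 0) (nat_lit 0) (XT.lf (nat_lit 0) (nat_lit 4023073234) (nat_lit 76) (nat_lit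 17737575640) (nat_lit 152) (nat_lit 30276465855) (nat_lit 31) (nat_lit 5) (nat_lit 32) (nat_lit 5) (nat_lit 33) (nat_lit 4) (nat_lit 471) (nat_lit 344) (nat_lit 205)) (XT.nd (nat_lit 78) (nat_lit 0) (nat_lit 0) (XT.lf (nat_lit 0) (nat_lit 26350347186) (nat_lit 76) (nat_lit 6418581689) (nat_lit 152) (nat_lit 20482439410) (nat_lit 31) (nat_lit 5) (nat_lit 32) (nat_lit 5) (nat_lit 33) (nat_lit 4) (nat_lit 472) (nat_lit 344) (nat_lit 204)) (XT.lf (nat_lit 0) (nat_lit 44147176778) (nat_lit 152) (nat_lit 5225479462) (nat_lit 0) (nat_lit 5128202102) (nat_lit 31) (nat_lit 5) (nat_lit 33) (nat_lit 4) (nat_lit 31) (nat_lit 4) (nat_lit 473) (nat_lit 344) (nat_lit 203)))) (XT.nd (nat_lit 156) (nat_lit 76) (nat_lit 0) (XT.nd (nat_lit 78) (nat_lit 0) (nat_lit 0) (XT.lf (nat_lit 0) (nat_lit 299619033) (nat_lit 152) (nat_lit 38428624826) (nat_lit 76) (nat_lit 17052900319) (nat_lit 29) (nat_lit 5) (nat_lit 31) (nat_lit 5) (nat_lit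 30) (nat_lit 4) (nat_lit 474) (nat_lit 344) (nat_lit 202)) (XT.lf (nat_lit 0) (nat_lit 11107379255) (nat_lit 152) (nat_lit 16506227680) (nat_lit 76) (nat_lit 29481867963) (nat_lit 29) (nat_lit 5) (nat_lit 31) (nat_lit 5) (nat_lit 30) (nat_lit 4) (nat_lit 475) (nat_lit 344) (nat_lit 201))) (XT.nd (nat_lit 78) (nat_lit 0) (nat_lit 0) (XT.lf (nat_lit 0) (nat_lit 6175004665) (nat_lit 76) (nat_lit 16113696232) (nat_lit 152) (nat_lit 36159055212) (nat_lit 28) (nat_lit 5) (nat_lit 29) (nat_lit 5) (nat_lit 30) (nat_lit 4) (nat_lit 476) (nat_lit 344) (nat_lit 200)) (XT.lf (nat_lit 0) (nat_lit 29855891711) (nat_lit 76) (nat_lit 4106329796) (nat_lit 152) (nat_lit 25873681884) (nat_lit 28) (nat_lit 5) (nat_lit 29) (nat_lit 5) (nat_lit 30) (nat_lit 4) (nat_lit 477) (nat_lit 344) (nat_lit 199))))) (XT.nd (nat_lit 312) (nat_lit 76) (nat_lit 0) (XT.nd (nat_lit 156) (nat_lit 152) (nat_lit 0) (XT.nd (nat_lit 78) (nat_lit 76) (nat_lit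 0) (XT.lf (nat_lit 0) (nat_lit 46055641680) (nat_lit 152) (nat_lit 7116691456) (nat_lit 0) (nat_lit 8091271540) (nat_lit 28) (nat_lit 5) (nat_lit 30) (nat_lit 4) (nat_lit 28) (nat_lit 4) (nat_lit 478) (nat_lit 344) (nat_lit 198)) (XT.lf (nat_lit 0) (nat_lit 16699496771) (nat_lit 76) (nat_lit 42004114936) (nat_lit 76) (nat_lit 4024773267) (nat_lit 27) (nat_lit 4) (nat_lit 28) (nat_lit 5) (nat_lit 28) (nat_lit 4) (nat_lit 479) (nat_lit 344) (nat_lit 197))) (XT.nd (nat_lit 78) (nat_lit 76) (nat_lit 0) (XT.lf (nat_lit 0) (nat_lit 7410828224) (nat_lit 152) (nat_lit 22949895837) (nat_lit 76) (nat_lit 33872329427) (nat_lit 26) (nat_lit 5) (nat_lit 28) (nat_lit 5) (nat_lit 27) (nat_lit 4) (nat_lit 480) (nat_lit 344) (nat_lit 196)) (XT.lf (nat_lit 0) (nat_lit 779100365) (nat_lit 76) (nat_lit 18327840324) (nat_lit 152) (nat_lit 46674776144) (nat_lit 25) (nat_lit 5) (nat_lit 26) (nat_lit 5) (nat_lit 27) (nat_lit 4) (nat_lit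 481) (nat_lit 344) (nat_lit 195)))) (XT.nd (nat_lit 156) (nat_lit 76) (nat_lit 0) (XT.nd (nat_lit 78) (nat_lit 0) (nat_lit 0) (XT.lf (nat_lit 0) (nat_lit 25672870794) (nat_lit 76) (nat_lit 5703760288) (nat_lit 152) (nat_lit 35993528506) (nat_lit 25) (nat_lit 5) (nat_lit 26) (nat_lit 5) (nat_lit 27) (nat_lit 4) (nat_lit 482) (nat_lit 344) (nat_lit 194)) (XT.lf (nat_lit 0) (nat_lit 44075705123) (nat_lit 152) (nat_lit 17780183933) (nat_lit 0) (nat_lit 7148528119) (nat_lit 25) (nat_lit 5) (nat_lit 27) (nat_lit 4) (nat_lit 25) (nat_lit 4) (nat_lit 483) (nat_lit 344) (nat_lit 193))) (XT.nd (nat_lit 78) (nat_lit 0) (nat_lit 0) (XT.lf (nat_lit 0) (nat_lit 6916202994) (nat_lit 76) (nat_lit 50353892463) (nat_lit 76) (nat_lit 13414177039) (nat_lit 24) (nat_lit 4) (nat_lit 25) (nat_lit 5) (nat_lit 25) (nat_lit 4) (nat_lit 484) (nat_lit 344) (nat_lit 192)) (XT.lf (nat_lit 0) (nat_lit 32701403536) (nat_lit 76) (nat_lit 38329939075)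 (nat_lit 76) (nat_lit 1378050429) (nat_lit 24) (nat_lit 4) (nat_lit 25) (nat_lit 5) (nat_lit 25) (nat_lit 4) (nat_lit 485) (nat_lit 344) (nat_lit 191))))))))
noncomputable def xc113 : XT := (XT.nd (nat_lit 44070) (nat_lit 0) (nat_lit 8968) (XT.nd (nat_lit 42900) (nat_lit 0) (nat_lit 18696) (XT.nd (nat_lit 42354) (nat_lit 0) (nat_lit 25992) (XT.nd (nat_lit 234) (nat_lit 0) (nat_lit 0) (XT.nd (nat_lit 78) (nat_lit 76) (nat_lit 0) (XT.lf (nat_lit 0) (nat_lit 10795782545) (nat_lit 152) (nat_lit 15048268741) (nat_lit 76) (nat_lit 48339289146) (nat_lit 23) (nat_lit 5) (nat_lit 25) (nat_lit 5) (nat_lit 24) (nat_lit 4) (nat_lit 486) (nat_lit 344) (nat_lit 190)) (XT.nd (nat_lit 78) (nat_lit 0) (nat_lit 0) (XT.lf (nat_lit 0) (nat_lit 10527258559) (nat_lit 76) (nat_lit 12872958336) (nat_lit 152) (nat_lit 52607087805) (nat_lit 22) (nat_lit 5) (nat_lit 23) (nat_lit 5) (nat_lit 24) (nat_lit 4) (nat_lit 487) (nat_lit 344) (nat_lit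 189)) (XT.lf (nat_lit 0) (nat_lit 36532833355) (nat_lit 152) (nat_lit 40724870444) (nat_lit 0) (nat_lit 623782906) (nat_lit 22) (nat_lit 5) (nat_lit 24) (nat_lit 4) (nat_lit 22) (nat_lit 4) (nat_lit 488) (nat_lit 344) (nat_lit 188)))) (XT.nd (nat_lit 41964) (nat_lit 0) (nat_lit 27056) (XT.nd (nat_lit 41886) (nat_lit 0) (nat_lit 27512) (XT.lf (nat_lit 0) (nat_lit 50179021812) (nat_lit 152) (nat_lit 15369814194) (nat_lit 0) (nat_lit 14259470635) (nat_lit 22) (nat_lit 5) (nat_lit 24) (nat_lit 4) (nat_lit 22) (nat_lit 4) (nat_lit 489) (nat_lit 344) (nat_lit 187)) (XT.lf (nat_lit 0) (nat_lit 586757378) (nat_lit 0) (nat_lit 586757378) (nat_lit 380) (nat_lit 2100824266) (nat_lit 384) (nat_lit 5) (nat_lit 384) (nat_lit 3) (nat_lit 389) (nat_lit 3) (nat_lit 345) (nat_lit 345) (nat_lit 330))) (XT.nd (nat_lit 78) (nat_lit 456) (nat_lit 0) (XT.lf (nat_lit 0) (nat_lit 4423941361) (nat_lit 0) (nat_lit 429080900) (nat_lit 380)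 (nat_lit 1718446735) (nat_lit 384) (nat_lit 5) (nat_lit 384) (nat_lit 3) (nat_lit 389) (nat_lit 3) (nat_lit 346) (nat_lit 345) (nat_lit 329)) (XT.lf (nat_lit 0) (nat_lit 740297141) (nat_lit 456) (nat_lit 5460303545) (nat_lit 532) (nat_lit 396628129) (nat_lit 378) (nat_lit 5) (nat_lit 384) (nat_lit 5) (nat_lit 385) (nat_lit 5) (nat_lit 347) (nat_lit 345) (nat_lit 328))))) (XT.nd (nat_lit 234) (nat_lit 532) (nat_lit 0) (XT.nd (nat_lit 78) (nat_lit 532) (nat_lit 0) (XT.lf (nat_lit 0) (nat_lit 3169776173) (nat_lit 456) (nat_lit 2133701606) (nat_lit 532) (nat_lit 1321876261) (nat_lit 378) (nat_lit 5) (nat_lit 384) (nat_lit 5) (nat_lit 385) (nat_lit 5) (nat_lit 348) (nat_lit 345) (nat_lit 327)) (XT.nd (nat_lit 78) (nat_lit 532) (nat_lit 0) (XT.lf (nat_lit 76) (nat_lit 1265898328) (nat_lit 0) (nat_lit 4326529312) (nat_lit 532) (nat_lit 1064333725) (nat_lit 379) (nat_lit 5) (nat_lit 378) (nat_lit 5) (nat_lit 385) (nat_lit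 5) (nat_lit 349) (nat_lit 345) (nat_lit 326)) (XT.lf (nat_lit 0) (nat_lit 1302487212) (nat_lit 532) (nat_lit 1943742786) (nat_lit 608) (nat_lit 3444587899) (nat_lit 371) (nat_lit 5) (nat_lit 378) (nat_lit 5) (nat_lit 379) (nat_lit 5) (nat_lit 350) (nat_lit 345) (nat_lit 325)))) (XT.nd (nat_lit 156) (nat_lit 532) (nat_lit 0) (XT.nd (nat_lit 78) (nat_lit 0) (nat_lit 0) (XT.lf (nat_lit 76) (nat_lit 1575694447) (nat_lit 0) (nat_lit 2070385045) (nat_lit 608) (nat_lit 3081728732) (nat_lit 372) (nat_lit 5) (nat_lit 371) (nat_lit 5) (nat_lit 379) (nat_lit 5) (nat_lit 351) (nat_lit 345) (nat_lit 324)) (XT.lf (nat_lit 76) (nat_lit 5189756477) (nat_lit 0) (nat_lit 803937683) (nat_lit 608) (nat_lit 774244408) (nat_lit 372) (nat_lit 5) (nat_lit 371) (nat_lit 5) (nat_lit 379) (nat_lit 5) (nat_lit 352) (nat_lit 345) (nat_lit 323))) (XT.nd (nat_lit 78) (nat_lit 0) (nat_lit 0) (XT.lf (nat_lit 0) (nat_lit 1512364704) (nat_lit 608)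 (nat_lit 4739205781) (nat_lit 684) (nat_lit 559044471) (nat_lit 364) (nat_lit 5) (nat_lit 372) (nat_lit 5) (nat_lit 373) (nat_lit 5) (nat_lit 353) (nat_lit 345) (nat_lit 322)) (XT.lf (nat_lit 0) (nat_lit 3794062239) (nat_lit 608) (nat_lit 1060390003) (nat_lit 684) (nat_lit 2001666073) (nat_lit 364) (nat_lit 5) (nat_lit 372) (nat_lit 5) (nat_lit 373) (nat_lit 5) (nat_lit 354) (nat_lit 345) (nat_lit 321)))))) (XT.nd (nat_lit 546) (nat_lit 5168) (nat_lit 0) (XT.nd (nat_lit 234) (nat_lit 1444) (nat_lit 0) (XT.nd (nat_lit 78) (nat_lit 684) (nat_lit 0) (XT.lf (nat_lit 76) (nat_lit 2730269106) (nat_lit 0) (nat_lit 3360572613) (nat_lit 684) (nat_lit 813783217) (nat_lit 365) (nat_lit 5) (nat_lit 364) (nat_lit 5) (nat_lit 373) (nat_lit 5) (nat_lit 355) (nat_lit 345) (nat_lit 320)) (XT.nd (nat_lit 78) (nat_lit 0) (nat_lit 0) (XT.lf (nat_lit 0) (nat_lit 1404849819) (nat_lit 684) (nat_lit 365313966) (nat_lit 760) (nat_lit 5186058203)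 (nat_lit 355) (nat_lit 5) (nat_lit 364) (nat_lit 5) (nat_lit 365) (nat_lit 5) (nat_lit 356) (nat_lit 345) (nat_lit 319)) (XT.lf (nat_lit 76) (nat_lit 3568221400) (nat_lit 0) (nat_lit 63459603) (nat_lit 760) (nat_lit 3378738312) (nat_lit 356) (nat_lit 5) (nat_lit 355) (nat_lit 5) (nat_lit 365) (nat_lit 5) (nat_lit 357) (nat_lit 345) (nat_lit 318)))) (XT.nd (nat_lit 156) (nat_lit 760) (nat_lit 0) (XT.nd (nat_lit 78) (nat_lit 76) (nat_lit 0) (XT.lf (nat_lit 0) (nat_lit 501231714) (nat_lit 684) (nat_lit 5374574308) (nat_lit 760) (nat_lit 1191954829) (nat_lit 347) (nat_lit 5) (nat_lit 356) (nat_lit 5) (nat_lit 357) (nat_lit 5) (nat_lit 358) (nat_lit 345) (nat_lit 317)) (XT.lf (nat_lit 0) (nat_lit 1002034995) (nat_lit 760) (nat_lit 2557733591) (nat_lit 76) (nat_lit 3567910434) (nat_lit 346) (nat_lit 5) (nat_lit 356) (nat_lit 5) (nat_lit 347) (nat_lit 5) (nat_lit 359) (nat_lit 345) (nat_lit 316))) (XT.nd (nat_lit 78)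 (nat_lit 0) (nat_lit 0) (XT.lf (nat_lit 0) (nat_lit 1536780697) (nat_lit 760) (nat_lit 1644581873) (nat_lit 836) (nat_lit 4009404024) (nat_lit 336) (nat_lit 5) (nat_lit 346) (nat_lit 5) (nat_lit 347) (nat_lit 5) (nat_lit 360) (nat_lit 345) (nat_lit 315)) (XT.lf (nat_lit 0) (nat_lit 5385752998) (nat_lit 836) (nat_lit 1506323743) (nat_lit 76) (nat_lit 364908844) (nat_lit 336) (nat_lit 5) (nat_lit 347) (nat_lit 5) (nat_lit 337) (nat_lit 5) (nat_lit 361) (nat_lit 345) (nat_lit 314))))) (XT.nd (nat_lit 312) (nat_lit 2356) (nat_lit 0) (XT.nd (nat_lit 156) (nat_lit 1900) (nat_lit 0) (XT.nd (nat_lit 78) (nat_lit 0) (nat_lit 0) (XT.lf (nat_lit 0) (nat_lit 299541329) (nat_lit 912) (nat_lit 4578664716) (nat_lit 76) (nat_lit 2447669683) (nat_lit 324) (nat_lit 5) (nat_lit 336) (nat_lit 5) (nat_lit 325) (nat_lit 5) (nat_lit 362) (nat_lit 345) (nat_lit 313)) (XT.lf (nat_lit 0) (nat_lit 2446443599) (nat_lit 912) (nat_lit 309576828)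 (nat_lit 76) (nat_lit 4641824682) (nat_lit 324) (nat_lit 5) (nat_lit 336) (nat_lit 5) (nat_lit 325) (nat_lit 5) (nat_lit 363) (nat_lit 345) (nat_lit 312))) (XT.nd (nat_lit 78) (nat_lit 988) (nat_lit 0) (XT.lf (nat_lit 0) (nat_lit 4115708723) (nat_lit 912) (nat_lit 516804535) (nat_lit 988) (nat_lit 2840243519) (nat_lit 312) (nat_lit 5) (nat_lit 324) (nat_lit 5) (nat_lit 325) (nat_lit 5) (nat_lit 364) (nat_lit 345) (nat_lit 311)) (XT.lf (nat_lit 0) (nat_lit 1080409917) (nat_lit 988) (nat_lit 5771201470) (nat_lit 1064) (nat_lit 699306276) (nat_lit 299) (nat_lit 5) (nat_lit 312) (nat_lit 5) (nat_lit 313) (nat_lit 5) (nat_lit 365) (nat_lit 345) (nat_lit 310)))) (XT.nd (nat_lit 156) (nat_lit 1216) (nat_lit 0) (XT.nd (nat_lit 78) (nat_lit 1064) (nat_lit 0) (XT.lf (nat_lit 0) (nat_lit 1453222397) (nat_lit 1064) (nat_lit 1984985499) (nat_lit 76) (nat_lit 4193502587) (nat_lit 298) (nat_lit 5) (nat_lit 312) (nat_lit 5) (nat_lit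 299) (nat_lit 5) (nat_lit 366) (nat_lit 345) (nat_lit 309)) (XT.lf (nat_lit 0) (nat_lit 2626559230) (nat_lit 1064) (nat_lit 994179779) (nat_lit 1140) (nat_lit 4095069456) (nat_lit 284) (nat_lit 5) (nat_lit 298) (nat_lit 5) (nat_lit 299) (nat_lit 5) (nat_lit 367) (nat_lit 345) (nat_lit 308))) (XT.nd (nat_lit 78) (nat_lit 1216) (nat_lit 0) (XT.lf (nat_lit 0) (nat_lit 5828720886) (nat_lit 1140) (nat_lit 453758883) (nat_lit 76) (nat_lit 1520708866) (nat_lit 284) (nat_lit 5) (nat_lit 299) (nat_lit 5) (nat_lit 285) (nat_lit 5) (nat_lit 368) (nat_lit 345) (nat_lit 307)) (XT.lf (nat_lit 0) (nat_lit 199455039) (nat_lit 1216) (nat_lit 3552301486) (nat_lit 76) (nat_lit 4141580470) (nat_lit 268) (nat_lit 5) (nat_lit 284) (nat_lit 5) (nat_lit 269) (nat_lit 5) (nat_lit 369) (nat_lit 345) (nat_lit 306))))))) (XT.nd (nat_lit 1092) (nat_lit 3876) (nat_lit 0) (XT.nd (nat_lit 546) (nat_lit 2660) (nat_lit 0) (XT.nd (nat_lit 234) (nat_lit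 1292) (nat_lit 0) (XT.nd (nat_lit 78) (nat_lit 684) (nat_lit 0) (XT.lf (nat_lit 0) (nat_lit 1254515805) (nat_lit 1216) (nat_lit 1103967422) (nat_lit 1292) (nat_lit 5628353462) (nat_lit 252) (nat_lit 5) (nat_lit 268) (nat_lit 5) (nat_lit 269) (nat_lit 5) (nat_lit 370) (nat_lit 345) (nat_lit 305)) (XT.nd (nat_lit 78) (nat_lit 684) (nat_lit 0) (XT.lf (nat_lit 0) (nat_lit 4578185269) (nat_lit 1292) (nat_lit 1874167409) (nat_lit 76) (nat_lit 1630931545) (nat_lit 252) (nat_lit 5) (nat_lit 269) (nat_lit 5) (nat_lit 253) (nat_lit 5) (nat_lit 371) (nat_lit 345) (nat_lit 304)) (XT.lf (nat_lit 0) (nat_lit 3126905248) (nat_lit 684) (nat_lit 3724263009) (nat_lit 760) (nat_lit 1331875588) (nat_lit 243) (nat_lit 5) (nat_lit 252) (nat_lit 5) (nat_lit 253) (nat_lit 5) (nat_lit 372) (nat_lit 345) (nat_lit 303)))) (XT.nd (nat_lit 156) (nat_lit 608) (nat_lit 0) (XT.nd (nat_lit 78) (nat_lit 608) (nat_lit 0) (XT.lf (nat_lit 0) (nat_lit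 854201618) (nat_lit 760) (nat_lit 31183231) (nat_lit 76) (nat_lit 7401207812) (nat_lit 242) (nat_lit 5) (nat_lit 252) (nat_lit 5) (nat_lit 243) (nat_lit 5) (nat_lit 373) (nat_lit 345) (nat_lit 302)) (XT.lf (nat_lit 0) (nat_lit 3096913286) (nat_lit 684) (nat_lit 3232665138) (nat_lit 76) (nat_lit 2062756982) (nat_lit 234) (nat_lit 5) (nat_lit 243) (nat_lit 5) (nat_lit 235) (nat_lit 5) (nat_lit 374) (nat_lit 345) (nat_lit 301))) (XT.nd (nat_lit 78) (nat_lit 0) (nat_lit 0) (XT.lf (nat_lit 0) (nat_lit 1982600909) (nat_lit 608) (nat_lit 3401271669) (nat_lit 684) (nat_lit 3118086065) (nat_lit 226) (nat_lit 5) (nat_lit 234) (nat_lit 5) (nat_lit 235) (nat_lit 5) (nat_lit 375) (nat_lit 345) (nat_lit 300)) (XT.lf (nat_lit 0) (nat_lit 7368145588) (nat_lit 608) (nat_lit 353749169) (nat_lit 684) (nat_lit 893518896) (nat_lit 226) (nat_lit 5) (nat_lit 234) (nat_lit 5) (nat_lit 235) (nat_lit 5) (nat_lit 376) (nat_lit 345) (nat_lit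 299))))) (XT.nd (nat_lit 234) (nat_lit 1520) (nat_lit 0) (XT.nd (nat_lit 78) (nat_lit 532) (nat_lit 0) (XT.lf (nat_lit 0) (nat_lit 1388932361) (nat_lit 608) (nat_lit 4559847383) (nat_lit 76) (nat_lit 2782552532) (nat_lit 218) (nat_lit 5) (nat_lit 226) (nat_lit 5) (nat_lit 219) (nat_lit 5) (nat_lit 377) (nat_lit 345) (nat_lit 298)) (XT.nd (nat_lit 78) (nat_lit 0) (nat_lit 0) (XT.lf (nat_lit 0) (nat_lit 879874595) (nat_lit 532) (nat_lit 2818387406) (nat_lit 608) (nat_lit 5152925425) (nat_lit 211) (nat_lit 5) (nat_lit 218) (nat_lit 5) (nat_lit 219) (nat_lit 5) (nat_lit 378) (nat_lit 345) (nat_lit 297)) (XT.lf (nat_lit 0) (nat_lit 6079815680) (nat_lit 608) (nat_lit 2455064674) (nat_lit 76) (nat_lit 439684388) (nat_lit 211) (nat_lit 5) (nat_lit 219) (nat_lit 5) (nat_lit 212) (nat_lit 5) (nat_lit 379) (nat_lit 345) (nat_lit 296)))) (XT.nd (nat_lit 156) (nat_lit 988) (nat_lit 0) (XT.nd (nat_lit 78) (nat_lit 76) (nat_lit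 0) (XT.lf (nat_lit 0) (nat_lit 3209243766) (nat_lit 456) (nat_lit 5336249365) (nat_lit 532) (nat_lit 555784337) (nat_lit 205) (nat_lit 5) (nat_lit 211) (nat_lit 5) (nat_lit 212) (nat_lit 5) (nat_lit 380) (nat_lit 345) (nat_lit 295)) (XT.lf (nat_lit 0) (nat_lit 1796527882) (nat_lit 532) (nat_lit 207858897) (nat_lit 76) (nat_lit 7227503586) (nat_lit 204) (nat_lit 5) (nat_lit 211) (nat_lit 5) (nat_lit 205) (nat_lit 5) (nat_lit 381) (nat_lit 345) (nat_lit 294))) (XT.nd (nat_lit 78) (nat_lit 456) (nat_lit 0) (XT.lf (nat_lit 0) (nat_lit 4232938258) (nat_lit 608) (nat_lit 3678641444) (nat_lit 76) (nat_lit 1453949058) (nat_lit 197) (nat_lit 5) (nat_lit 205) (nat_lit 5) (nat_lit 198) (nat_lit 5) (nat_lit 382) (nat_lit 345) (nat_lit 293)) (XT.lf (nat_lit 0) (nat_lit 2231523014) (nat_lit 456) (nat_lit 4510711375) (nat_lit 532) (nat_lit 2760960915) (nat_lit 191) (nat_lit 5) (nat_lit 197) (nat_lit 5) (nat_lit 198) (nat_lit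 5) (nat_lit 383) (nat_lit 345) (nat_lit 292)))))) (XT.nd (nat_lit 546) (nat_lit 1976) (nat_lit 0) (XT.nd (nat_lit 234) (nat_lit 912) (nat_lit 0) (XT.nd (nat_lit 78) (nat_lit 988) (nat_lit 0) (XT.lf (nat_lit 0) (nat_lit 8343129267) (nat_lit 456) (nat_lit 977982420) (nat_lit 532) (nat_lit 324063512) (nat_lit 191) (nat_lit 5) (nat_lit 197) (nat_lit 5) (nat_lit 198) (nat_lit 5) (nat_lit 384) (nat_lit 345) (nat_lit 291)) (XT.nd (nat_lit 78) (nat_lit 456) (nat_lit 0) (XT.lf (nat_lit 0) (nat_lit 2174244078) (nat_lit 532) (nat_lit 4946754653) (nat_lit 76) (nat_lit 2668868329) (nat_lit 184) (nat_lit 5) (nat_lit 191) (nat_lit 5) (nat_lit 185) (nat_lit 5) (nat_lit 385) (nat_lit 345) (nat_lit 290)) (XT.lf (nat_lit 0) (nat_lit 1220307153) (nat_lit 456) (nat_lit 3514008390) (nat_lit 532) (nat_lit 5204699408) (nat_lit 178) (nat_lit 5) (nat_lit 184) (nat_lit 5) (nat_lit 185) (nat_lit 5) (nat_lit 386) (nat_lit 345) (nat_lit 289))))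 (XT.nd (nat_lit 156) (nat_lit 456) (nat_lit 0) (XT.nd (nat_lit 78) (nat_lit 456) (nat_lit 0) (XT.lf (nat_lit 0) (nat_lit 7382825621) (nat_lit 532) (nat_lit 2471707513) (nat_lit 76) (nat_lit 237766091) (nat_lit 178) (nat_lit 5) (nat_lit 185) (nat_lit 5) (nat_lit 179) (nat_lit 5) (nat_lit 387) (nat_lit 345) (nat_lit 288)) (XT.lf (nat_lit 0) (nat_lit 3954668119) (nat_lit 456) (nat_lit 6189371856) (nat_lit 532) (nat_lit 105155300) (nat_lit 172) (nat_lit 5) (nat_lit 178) (nat_lit 5) (nat_lit 179) (nat_lit 5) (nat_lit 388) (nat_lit 345) (nat_lit 287))) (XT.nd (nat_lit 78) (nat_lit 0) (nat_lit 0) (XT.lf (nat_lit 0) (nat_lit 141482423) (nat_lit 380) (nat_lit 2372803649) (nat_lit 456) (nat_lit 7896160430) (nat_lit 166) (nat_lit 5) (nat_lit 171) (nat_lit 5) (nat_lit 172) (nat_lit 5) (nat_lit 389) (nat_lit 345) (nat_lit 286)) (XT.lf (nat_lit 0) (nat_lit 5250637070) (nat_lit 456) (nat_lit 3742943637) (nat_lit 76) (nat_lit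 1581719935) (nat_lit 166) (nat_lit 5) (nat_lit 172) (nat_lit 5) (nat_lit 167) (nat_lit 5) (nat_lit 390) (nat_lit 345) (nat_lit 285))))) (XT.nd (nat_lit 312) (nat_lit 760) (nat_lit 0) (XT.nd (nat_lit 156) (nat_lit 760) (nat_lit 0) (XT.nd (nat_lit 78) (nat_lit 76) (nat_lit 0) (XT.lf (nat_lit 0) (nat_lit 2963414765) (nat_lit 380) (nat_lit 5120040398) (nat_lit 456) (nat_lit 2661223469) (nat_lit 161) (nat_lit 5) (nat_lit 166) (nat_lit 5) (nat_lit 167) (nat_lit 5) (nat_lit 391) (nat_lit 345) (nat_lit 284)) (XT.lf (nat_lit 0) (nat_lit 81331518) (nat_lit 456) (nat_lit 1021517965) (nat_lit 76) (nat_lit 9816249351) (nat_lit 160) (nat_lit 5) (nat_lit 166) (nat_lit 5) (nat_lit 161) (nat_lit 5) (nat_lit 392) (nat_lit 345) (nat_lit 283))) (XT.nd (nat_lit 78) (nat_lit 380) (nat_lit 0) (XT.lf (nat_lit 0) (nat_lit 2903802257) (nat_lit 456) (nat_lit 5144382598) (nat_lit 76) (nat_lit 3048251226) (nat_lit 155) (nat_lit 5) (nat_lit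 161) (nat_lit 5) (nat_lit 156) (nat_lit 5) (nat_lit 393) (nat_lit 345) (nat_lit 282)) (XT.lf (nat_lit 0) (nat_lit 1853060396) (nat_lit 380) (nat_lit 3961242228) (nat_lit 456) (nat_lit 5464698619) (nat_lit 150) (nat_lit 5) (nat_lit 155) (nat_lit 5) (nat_lit 156) (nat_lit 5) (nat_lit 394) (nat_lit 345) (nat_lit 281)))) (XT.nd (nat_lit 156) (nat_lit 380) (nat_lit 0) (XT.nd (nat_lit 78) (nat_lit 380) (nat_lit 0) (XT.lf (nat_lit 0) (nat_lit 8831620429) (nat_lit 456) (nat_lit 2352026163) (nat_lit 76) (nat_lit 282819907) (nat_lit 150) (nat_lit 5) (nat_lit 156) (nat_lit 5) (nat_lit 151) (nat_lit 5) (nat_lit 395) (nat_lit 345) (nat_lit 280)) (XT.lf (nat_lit 0) (nat_lit 327371822) (nat_lit 380) (nat_lit 6717933033) (nat_lit 76) (nat_lit 4612589936) (nat_lit 145) (nat_lit 5) (nat_lit 150) (nat_lit 5) (nat_lit 146) (nat_lit 5) (nat_lit 396) (nat_lit 345) (nat_lit 279))) (XT.nd (nat_lit 78) (nat_lit 0) (nat_lit 0) (XT.lf (nat_lit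 0) (nat_lit 581296303) (nat_lit 380) (nat_lit 2739658377) (nat_lit 456) (nat_lit 8533472453) (nat_lit 140) (nat_lit 5) (nat_lit 145) (nat_lit 5) (nat_lit 146) (nat_lit 5) (nat_lit 397) (nat_lit 345) (nat_lit 278)) (XT.lf (nat_lit 0) (nat_lit 6455429143) (nat_lit 456) (nat_lit 3883272057) (nat_lit 76) (nat_lit 1716629019) (nat_lit 140) (nat_lit 5) (nat_lit 146) (nat_lit 5) (nat_lit 141) (nat_lit 5) (nat_lit 398) (nat_lit 345) (nat_lit 277))))))))
noncomputable def xc114 : XT := (XT.nd (nat_lit 2262) (nat_lit 2584) (nat_lit 0) (XT.nd (nat_lit 1092) (nat_lit 1976) (nat_lit 0) (XT.nd (nat_lit 546) (nat_lit 1140) (nat_lit 0) (XT.nd (nat_lit 234) (nat_lit 912) (nat_lit 0) (XT.nd (nat_lit 78) (nat_lit 380) (nat_lit 0) (XT.lf (nat_lit 0) (nat_lit 3726596113) (nat_lit 304) (nat_lit 5987551141) (nat_lit 380) (nat_lit 2547213949) (nat_lit 136) (nat_lit 5) (nat_lit 140) (nat_lit 5) (nat_lit 141) (nat_lit 5) (nat_lit 399) (nat_lit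 345) (nat_lit 276)) (XT.nd (nat_lit 78) (nat_lit 304) (nat_lit 0) (XT.lf (nat_lit 0) (nat_lit 592444176) (nat_lit 380) (nat_lit 881632126) (nat_lit 76) (nat_lit 10999120085) (nat_lit 135) (nat_lit 5) (nat_lit 140) (nat_lit 5) (nat_lit 136) (nat_lit 5) (nat_lit 400) (nat_lit 345) (nat_lit 275)) (XT.lf (nat_lit 0) (nat_lit 3842723740) (nat_lit 380) (nat_lit 5653145694) (nat_lit 76) (nat_lit 3192738233) (nat_lit 131) (nat_lit 5) (nat_lit 136) (nat_lit 5) (nat_lit 132) (nat_lit 5) (nat_lit 401) (nat_lit 345) (nat_lit 274)))) (XT.nd (nat_lit 156) (nat_lit 608) (nat_lit 0) (XT.nd (nat_lit 78) (nat_lit 0) (nat_lit 0) (XT.lf (nat_lit 0) (nat_lit 2281323413) (nat_lit 304) (nat_lit 4923433815) (nat_lit 380) (nat_lit 5705302988) (nat_lit 127) (nat_lit 5) (nat_lit 131) (nat_lit 5) (nat_lit 132) (nat_lit 5) (nat_lit 402) (nat_lit 345) (nat_lit 273)) (XT.lf (nat_lit 0) (nat_lit 10523728059) (nat_lit 304) (nat_lit 170208447)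 (nat_lit 380) (nat_lit 2443437402) (nat_lit 127) (nat_lit 5) (nat_lit 131) (nat_lit 5) (nat_lit 132) (nat_lit 5) (nat_lit 403) (nat_lit 345) (nat_lit 272))) (XT.nd (nat_lit 78) (nat_lit 228) (nat_lit 0) (XT.lf (nat_lit 0) (nat_lit 968891691) (nat_lit 380) (nat_lit 7717372890) (nat_lit 76) (nat_lit 4682869331) (nat_lit 122) (nat_lit 5) (nat_lit 127) (nat_lit 5) (nat_lit 123) (nat_lit 5) (nat_lit 404) (nat_lit 345) (nat_lit 271)) (XT.lf (nat_lit 0) (nat_lit 550699385) (nat_lit 228) (nat_lit 3887512222) (nat_lit 304) (nat_lit 9168802980) (nat_lit 119) (nat_lit 5) (nat_lit 122) (nat_lit 5) (nat_lit 123) (nat_lit 5) (nat_lit 405) (nat_lit 345) (nat_lit 270))))) (XT.nd (nat_lit 234) (nat_lit 760) (nat_lit 0) (XT.nd (nat_lit 78) (nat_lit 380) (nat_lit 0) (XT.lf (nat_lit 0) (nat_lit 8070841837) (nat_lit 304) (nat_lit 4681448551) (nat_lit 76) (nat_lit 1097969803) (nat_lit 119) (nat_lit 5) (nat_lit 123) (nat_lit 5) (nat_lit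 120) (nat_lit 5) (nat_lit 406) (nat_lit 345) (nat_lit 269)) (XT.nd (nat_lit 78) (nat_lit 76) (nat_lit 0) (XT.lf (nat_lit 0) (nat_lit 3938511588) (nat_lit 304) (nat_lit 7921537086) (nat_lit 380) (nat_lit 2239331831) (nat_lit 115) (nat_lit 5) (nat_lit 119) (nat_lit 5) (nat_lit 120) (nat_lit 5) (nat_lit 407) (nat_lit 345) (nat_lit 268)) (XT.lf (nat_lit 0) (nat_lit 1398620196) (nat_lit 380) (nat_lit 1500168215) (nat_lit 76) (nat_lit 11456211719) (nat_lit 114) (nat_lit 5) (nat_lit 119) (nat_lit 5) (nat_lit 115) (nat_lit 5) (nat_lit 408) (nat_lit 345) (nat_lit 267)))) (XT.nd (nat_lit 156) (nat_lit 304) (nat_lit 0) (XT.nd (nat_lit 78) (nat_lit 228) (nat_lit 0) (XT.lf (nat_lit 0) (nat_lit 5167667582) (nat_lit 304) (nat_lit 7137744641) (nat_lit 76) (nat_lit 2310206844) (nat_lit 111) (nat_lit 5) (nat_lit 115) (nat_lit 5) (nat_lit 112) (nat_lit 5) (nat_lit 409) (nat_lit 345) (nat_lit 266)) (XT.lf (nat_lit 0) (nat_lit 1835773397)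 (nat_lit 228) (nat_lit 7248116516) (nat_lit 304) (nat_lit 5799148239) (nat_lit 108) (nat_lit 5) (nat_lit 111) (nat_lit 5) (nat_lit 112) (nat_lit 5) (nat_lit 410) (nat_lit 345) (nat_lit 265))) (XT.nd (nat_lit 78) (nat_lit 304) (nat_lit 0) (XT.lf (nat_lit 0) (nat_lit 11181634753) (nat_lit 228) (nat_lit 1980885864) (nat_lit 304) (nat_lit 1994616089) (nat_lit 108) (nat_lit 5) (nat_lit 111) (nat_lit 5) (nat_lit 112) (nat_lit 5) (nat_lit 411) (nat_lit 345) (nat_lit 264)) (XT.lf (nat_lit 0) (nat_lit 1945566333) (nat_lit 304) (nat_lit 10058709163) (nat_lit 76) (nat_lit 3432860367) (nat_lit 104) (nat_lit 5) (nat_lit 108) (nat_lit 5) (nat_lit 105) (nat_lit 5) (nat_lit 412) (nat_lit 345) (nat_lit 263)))))) (XT.nd (nat_lit 546) (nat_lit 1064) (nat_lit 0) (XT.nd (nat_lit 234) (nat_lit 456) (nat_lit 0) (XT.nd (nat_lit 78) (nat_lit 456) (nat_lit 0) (XT.lf (nat_lit 0) (nat_lit 5997609273) (nat_lit 304) (nat_lit 712302037) (nat_lit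 76) (nat_lit 9014023042) (nat_lit 104) (nat_lit 5) (nat_lit 108) (nat_lit 5) (nat_lit 105) (nat_lit 5) (nat_lit 413) (nat_lit 345) (nat_lit 262)) (XT.nd (nat_lit 78) (nat_lit 228) (nat_lit 0) (XT.lf (nat_lit 0) (nat_lit 9049652091) (nat_lit 228) (nat_lit 1182911304) (nat_lit 304) (nat_lit 5784936946) (nat_lit 101) (nat_lit 5) (nat_lit 104) (nat_lit 5) (nat_lit 105) (nat_lit 5) (nat_lit 414) (nat_lit 345) (nat_lit 261)) (XT.lf (nat_lit 0) (nat_lit 2768364927) (nat_lit 228) (nat_lit 11877988602) (nat_lit 304) (nat_lit 1671970080) (nat_lit 98) (nat_lit 5) (nat_lit 101) (nat_lit 5) (nat_lit 102) (nat_lit 5) (nat_lit 415) (nat_lit 345) (nat_lit 260)))) (XT.nd (nat_lit 156) (nat_lit 152) (nat_lit 0) (XT.nd (nat_lit 78) (nat_lit 228) (nat_lit 0) (XT.lf (nat_lit 0) (nat_lit 2571768234) (nat_lit 304) (nat_lit 3765362705) (nat_lit 76) (nat_lit 10288582138) (nat_lit 97) (nat_lit 5) (nat_lit 101) (nat_lit 5) (nat_lit 98) (nat_lit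 5) (nat_lit 416) (nat_lit 345) (nat_lit 259)) (XT.lf (nat_lit 0) (nat_lit 6380191839) (nat_lit 228) (nat_lit 565743095) (nat_lit 304) (nat_lit 9994794623) (nat_lit 94) (nat_lit 5) (nat_lit 97) (nat_lit 5) (nat_lit 98) (nat_lit 5) (nat_lit 417) (nat_lit 345) (nat_lit 258))) (XT.nd (nat_lit 78) (nat_lit 152) (nat_lit 0) (XT.lf (nat_lit 0) (nat_lit 11516999609) (nat_lit 304) (nat_lit 449545065) (nat_lit 76) (nat_lit 5296685155) (nat_lit 94) (nat_lit 5) (nat_lit 98) (nat_lit 5) (nat_lit 95) (nat_lit 5) (nat_lit 418) (nat_lit 345) (nat_lit 257)) (XT.lf (nat_lit 0) (nat_lit 10117074344) (nat_lit 152) (nat_lit 6187255913) (nat_lit 228) (nat_lit 1288704216) (nat_lit 92) (nat_lit 5) (nat_lit 94) (nat_lit 5) (nat_lit 95) (nat_lit 5) (nat_lit 419) (nat_lit 345) (nat_lit 256))))) (XT.nd (nat_lit 312) (nat_lit 608) (nat_lit 0) (XT.nd (nat_lit 156) (nat_lit 152) (nat_lit 0) (XT.nd (nat_lit 78) (nat_lit 0) (nat_lit 0) (XT.lf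 (nat_lit 0) (nat_lit 3065734619) (nat_lit 228) (nat_lit 182783355) (nat_lit 304) (nat_lit 14682953639) (nat_lit 88) (nat_lit 5) (nat_lit 91) (nat_lit 5) (nat_lit 92) (nat_lit 5) (nat_lit 420) (nat_lit 345) (nat_lit 255)) (XT.lf (nat_lit 0) (nat_lit 8006407903) (nat_lit 304) (nat_lit 4311837317) (nat_lit 76) (nat_lit 5958123377) (nat_lit 88) (nat_lit 5) (nat_lit 92) (nat_lit 5) (nat_lit 89) (nat_lit 5) (nat_lit 421) (nat_lit 345) (nat_lit 254))) (XT.nd (nat_lit 78) (nat_lit 0) (nat_lit 0) (XT.lf (nat_lit 0) (nat_lit 6647983886) (nat_lit 152) (nat_lit 6301968327) (nat_lit 228) (nat_lit 5680375755) (nat_lit 86) (nat_lit 5) (nat_lit 88) (nat_lit 5) (nat_lit 89) (nat_lit 5) (nat_lit 422) (nat_lit 345) (nat_lit 253)) (XT.lf (nat_lit 0) (nat_lit 17986754872) (nat_lit 152) (nat_lit 76088998) (nat_lit 228) (nat_lit 931433938) (nat_lit 86) (nat_lit 5) (nat_lit 88) (nat_lit 5) (nat_lit 89) (nat_lit 5) (nat_lit 423) (nat_lit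 345) (nat_lit 252)))) (XT.nd (nat_lit 156) (nat_lit 152) (nat_lit 0) (XT.nd (nat_lit 78) (nat_lit 152) (nat_lit 0) (XT.lf (nat_lit 0) (nat_lit 4022974982) (nat_lit 304) (nat_lit 9003461860) (nat_lit 76) (nat_lit 6337361914) (nat_lit 82) (nat_lit 5) (nat_lit 86) (nat_lit 5) (nat_lit 83) (nat_lit 5) (nat_lit 424) (nat_lit 345) (nat_lit 251)) (XT.lf (nat_lit 0) (nat_lit 2343743135) (nat_lit 152) (nat_lit 6775182853) (nat_lit 228) (nat_lit 10624856433) (nat_lit 80) (nat_lit 5) (nat_lit 82) (nat_lit 5) (nat_lit 83) (nat_lit 5) (nat_lit 425) (nat_lit 345) (nat_lit 250))) (XT.nd (nat_lit 78) (nat_lit 152) (nat_lit 0) (XT.lf (nat_lit 0) (nat_lit 14178594869) (nat_lit 152) (nat_lit 258430888) (nat_lit 228) (nat_lit 5696064324) (nat_lit 80) (nat_lit 5) (nat_lit 82) (nat_lit 5) (nat_lit 83) (nat_lit 5) (nat_lit 426) (nat_lit 345) (nat_lit 249)) (XT.lf (nat_lit 0) (nat_lit 5849796824) (nat_lit 152) (nat_lit 14161978664) (nat_lit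 228) (nat_lit 519390792) (nat_lit 78) (nat_lit 5) (nat_lit 80) (nat_lit 5) (nat_lit 81) (nat_lit 5) (nat_lit 427) (nat_lit 345) (nat_lit 248))))))) (XT.nd (nat_lit 1092) (nat_lit 1064) (nat_lit 0) (XT.nd (nat_lit 546) (nat_lit 760) (nat_lit 0) (XT.nd (nat_lit 234) (nat_lit 380) (nat_lit 0) (XT.nd (nat_lit 78) (nat_lit 304) (nat_lit 0) (XT.lf (nat_lit 0) (nat_lit 4760849430) (nat_lit 228) (nat_lit 2895310685) (nat_lit 76) (nat_lit 13282373859) (nat_lit 77) (nat_lit 5) (nat_lit 80) (nat_lit 5) (nat_lit 78) (nat_lit 5) (nat_lit 428) (nat_lit 345) (nat_lit 247)) (XT.nd (nat_lit 78) (nat_lit 152) (nat_lit 0) (XT.lf (nat_lit 0) (nat_lit 9386632856) (nat_lit 152) (nat_lit 872164074) (nat_lit 228) (nat_lit 11097081621) (nat_lit 75) (nat_lit 5) (nat_lit 77) (nat_lit 5) (nat_lit 78) (nat_lit 5) (nat_lit 429) (nat_lit 345) (nat_lit 246)) (XT.lf (nat_lit 0) (nat_lit 220921309) (nat_lit 152) (nat_lit 15770816666) (nat_lit 228)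 (nat_lit 5791906074) (nat_lit 73) (nat_lit 5) (nat_lit 75) (nat_lit 5) (nat_lit 76) (nat_lit 5) (nat_lit 430) (nat_lit 345) (nat_lit 245)))) (XT.nd (nat_lit 156) (nat_lit 152) (nat_lit 0) (XT.nd (nat_lit 78) (nat_lit 228) (nat_lit 0) (XT.lf (nat_lit 0) (nat_lit 12977860243) (nat_lit 152) (nat_lit 9028096584) (nat_lit 228) (nat_lit 215009169) (nat_lit 73) (nat_lit 5) (nat_lit 75) (nat_lit 5) (nat_lit 76) (nat_lit 5) (nat_lit 431) (nat_lit 345) (nat_lit 244)) (XT.lf (nat_lit 0) (nat_lit 3424937541) (nat_lit 152) (nat_lit 2009548910) (nat_lit 228) (nat_lit 17234933108) (nat_lit 70) (nat_lit 5) (nat_lit 72) (nat_lit 5) (nat_lit 73) (nat_lit 5) (nat_lit 432) (nat_lit 345) (nat_lit 243))) (XT.nd (nat_lit 78) (nat_lit 152) (nat_lit 0) (XT.lf (nat_lit 0) (nat_lit 11373943008) (nat_lit 228) (nat_lit 6554202307) (nat_lit 76) (nat_lit 5199375614) (nat_lit 70) (nat_lit 5) (nat_lit 73) (nat_lit 5) (nat_lit 71) (nat_lit 5) (nat_lit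 433) (nat_lit 345) (nat_lit 242)) (XT.lf (nat_lit 0) (nat_lit 6591586773) (nat_lit 152) (nat_lit 10964189942) (nat_lit 228) (nat_lit 6041664749) (nat_lit 68) (nat_lit 5) (nat_lit 70) (nat_lit 5) (nat_lit 71) (nat_lit 5) (nat_lit 434) (nat_lit 345) (nat_lit 241))))) (XT.nd (nat_lit 234) (nat_lit 532) (nat_lit 0) (XT.nd (nat_lit 78) (nat_lit 228) (nat_lit 0) (XT.lf (nat_lit 0) (nat_lit 20232508778) (nat_lit 152) (nat_lit 3737908178) (nat_lit 228) (nat_lit 109623989) (nat_lit 68) (nat_lit 5) (nat_lit 70) (nat_lit 5) (nat_lit 71) (nat_lit 5) (nat_lit 435) (nat_lit 345) (nat_lit 240)) (XT.nd (nat_lit 78) (nat_lit 0) (nat_lit 0) (XT.lf (nat_lit 0) (nat_lit 5996066233) (nat_lit 228) (nat_lit 14803867699) (nat_lit 76) (nat_lit 3772072547) (nat_lit 65) (nat_lit 5) (nat_lit 68) (nat_lit 5) (nat_lit 66) (nat_lit 5) (nat_lit 436) (nat_lit 345) (nat_lit 239)) (XT.lf (nat_lit 0) (nat_lit 12340587978) (nat_lit 228) (nat_lit 1277967245)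 (nat_lit 76) (nat_lit 11458408986) (nat_lit 65) (nat_lit 5) (nat_lit 68) (nat_lit 5) (nat_lit 66) (nat_lit 5) (nat_lit 437) (nat_lit 345) (nat_lit 238)))) (XT.nd (nat_lit 156) (nat_lit 228) (nat_lit 0) (XT.nd (nat_lit 78) (nat_lit 152) (nat_lit 0) (XT.lf (nat_lit 0) (nat_lit 12872794835) (nat_lit 152) (nat_lit 6108545066) (nat_lit 228) (nat_lit 6612555599) (nat_lit 63) (nat_lit 5) (nat_lit 65) (nat_lit 5) (nat_lit 66) (nat_lit 5) (nat_lit 438) (nat_lit 345) (nat_lit 237)) (XT.lf (nat_lit 0) (nat_lit 1326254410) (nat_lit 152) (nat_lit 24518710318) (nat_lit 228) (nat_lit 280662107) (nat_lit 61) (nat_lit 5) (nat_lit 63) (nat_lit 5) (nat_lit 64) (nat_lit 4) (nat_lit 439) (nat_lit 345) (nat_lit 236))) (XT.nd (nat_lit 78) (nat_lit 152) (nat_lit 0) (XT.lf (nat_lit 0) (nat_lit 6291877950) (nat_lit 228) (nat_lit 10767631246) (nat_lit 76) (nat_lit 9606828280) (nat_lit 60) (nat_lit 5) (nat_lit 63) (nat_lit 5) (nat_lit 61)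 (nat_lit 5) (nat_lit 440) (nat_lit 345) (nat_lit 235)) (XT.lf (nat_lit 0) (nat_lit 3723655475) (nat_lit 152) (nat_lit 9350875392) (nat_lit 228) (nat_lit 14148099352) (nat_lit 58) (nat_lit 5) (nat_lit 60) (nat_lit 5) (nat_lit 61) (nat_lit 5) (nat_lit 441) (nat_lit 345) (nat_lit 234)))))) (XT.nd (nat_lit 546) (nat_lit 608) (nat_lit 0) (XT.nd (nat_lit 234) (nat_lit 304) (nat_lit 0) (XT.nd (nat_lit 78) (nat_lit 152) (nat_lit 0) (XT.lf (nat_lit 0) (nat_lit 18839423655) (nat_lit 152) (nat_lit 1312958933) (nat_lit 228) (nat_lit 7640479017) (nat_lit 58) (nat_lit 5) (nat_lit 60) (nat_lit 5) (nat_lit 61) (nat_lit 5) (nat_lit 442) (nat_lit 345) (nat_lit 233)) (XT.nd (nat_lit 78) (nat_lit 76) (nat_lit 0) (XT.lf (nat_lit 0) (nat_lit 6049095072) (nat_lit 76) (nat_lit 21501937149) (nat_lit 152) (nat_lit 825915235) (nat_lit 57) (nat_lit 5) (nat_lit 58) (nat_lit 5) (nat_lit 59) (nat_lit 4) (nat_lit 443) (nat_lit 345) (nat_lit 232))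 (XT.lf (nat_lit 0) (nat_lit 6159926228) (nat_lit 152) (nat_lit 7394509881) (nat_lit 76) (nat_lit 15419704430) (nat_lit 56) (nat_lit 5) (nat_lit 58) (nat_lit 5) (nat_lit 57) (nat_lit 5) (nat_lit 444) (nat_lit 345) (nat_lit 231)))) (XT.nd (nat_lit 156) (nat_lit 152) (nat_lit 0) (XT.nd (nat_lit 78) (nat_lit 0) (nat_lit 0) (XT.lf (nat_lit 0) (nat_lit 8107264576) (nat_lit 152) (nat_lit 5293277492) (nat_lit 228) (nat_lit 16186609325) (nat_lit 54) (nat_lit 5) (nat_lit 56) (nat_lit 5) (nat_lit 57) (nat_lit 5) (nat_lit 445) (nat_lit 345) (nat_lit 230)) (XT.lf (nat_lit 0) (nat_lit 20948624200) (nat_lit 228) (nat_lit 6051944652) (nat_lit 76) (nat_lit 3215277525) (nat_lit 54) (nat_lit 5) (nat_lit 57) (nat_lit 5) (nat_lit 55) (nat_lit 4) (nat_lit 446) (nat_lit 345) (nat_lit 229))) (XT.nd (nat_lit 78) (nat_lit 76) (nat_lit 0) (XT.lf (nat_lit 0) (nat_lit 9951832985) (nat_lit 76) (nat_lit 18903782777) (nat_lit 152) (nat_lit 2003813642)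 (nat_lit 53) (nat_lit 5) (nat_lit 54) (nat_lit 5) (nat_lit 55) (nat_lit 4) (nat_lit 447) (nat_lit 345) (nat_lit 228)) (XT.lf (nat_lit 0) (nat_lit 5416751088) (nat_lit 152) (nat_lit 5042780909) (nat_lit 76) (nat_lit 21059825278) (nat_lit 52) (nat_lit 5) (nat_lit 54) (nat_lit 5) (nat_lit 53) (nat_lit 5) (nat_lit 448) (nat_lit 345) (nat_lit 227))))) (XT.nd (nat_lit 312) (nat_lit 304) (nat_lit 0) (XT.nd (nat_lit 156) (nat_lit 152) (nat_lit 0) (XT.nd (nat_lit 78) (nat_lit 0) (nat_lit 0) (XT.lf (nat_lit 0) (nat_lit 11474059830) (nat_lit 152) (nat_lit 1640769463) (nat_lit 228) (nat_lit 19080804462) (nat_lit 50) (nat_lit 5) (nat_lit 52) (nat_lit 5) (nat_lit 53) (nat_lit 5) (nat_lit 449) (nat_lit 345) (nat_lit 226)) (XT.lf (nat_lit 0) (nat_lit 21151745732) (nat_lit 228) (nat_lit 4400971976) (nat_lit 76) (nat_lit 7336245014) (nat_lit 50) (nat_lit 5) (nat_lit 53) (nat_lit 5) (nat_lit 51) (nat_lit 4) (nat_lit 450) (nat_lit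 345) (nat_lit 225))) (XT.nd (nat_lit 78) (nat_lit 76) (nat_lit 0) (XT.lf (nat_lit 0) (nat_lit 12611890285) (nat_lit 76) (nat_lit 16940723949) (nat_lit 152) (nat_lit 4046793023) (nat_lit 49) (nat_lit 5) (nat_lit 50) (nat_lit 5) (nat_lit 51) (nat_lit 4) (nat_lit 451) (nat_lit 345) (nat_lit 224)) (XT.lf (nat_lit 0) (nat_lit 3829011542) (nat_lit 152) (nat_lit 4169401292) (nat_lit 76) (nat_lit 26330727886) (nat_lit 48) (nat_lit 5) (nat_lit 50) (nat_lit 5) (nat_lit 49) (nat_lit 5) (nat_lit 452) (nat_lit 345) (nat_lit 223)))) (XT.nd (nat_lit 156) (nat_lit 152) (nat_lit 0) (XT.nd (nat_lit 78) (nat_lit 0) (nat_lit 0) (XT.lf (nat_lit 0) (nat_lit 11987070998) (nat_lit 228) (nat_lit 21742147862) (nat_lit 76) (nat_lit 1346526742) (nat_lit 46) (nat_lit 5) (nat_lit 49) (nat_lit 5) (nat_lit 47) (nat_lit 4) (nat_lit 453) (nat_lit 345) (nat_lit 222)) (XT.lf (nat_lit 0) (nat_lit 20497443221) (nat_lit 228) (nat_lit 4502432079) (nat_lit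 76) (nat_lit 10841647121) (nat_lit 46) (nat_lit 5) (nat_lit 49) (nat_lit 5) (nat_lit 47) (nat_lit 4) (nat_lit 454) (nat_lit 345) (nat_lit 221))) (XT.nd (nat_lit 78) (nat_lit 76) (nat_lit 0) (XT.lf (nat_lit 0) (nat_lit 13492032106) (nat_lit 76) (nat_lit 15887059180) (nat_lit 152) (nat_lit 7247703214) (nat_lit 45) (nat_lit 5) (nat_lit 46) (nat_lit 5) (nat_lit 47) (nat_lit 4) (nat_lit 455) (nat_lit 345) (nat_lit 220)) (XT.lf (nat_lit 0) (nat_lit 1102470408) (nat_lit 152) (nat_lit 5352320775) (nat_lit 76) (nat_lit 30979553417) (nat_lit 44) (nat_lit 5) (nat_lit 46) (nat_lit 5) (nat_lit 45) (nat_lit 5) (nat_lit 456) (nat_lit 345) (nat_lit 219))))))))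
noncomputable def xc115 : XT := (XT.nd (nat_lit 2262) (nat_lit 152) (nat_lit 0) (XT.nd (nat_lit 1092) (nat_lit 608) (nat_lit 0) (XT.nd (nat_lit 546) (nat_lit 380) (nat_lit 0) (XT.nd (nat_lit 234) (nat_lit 304) (nat_lit 0) (XT.nd (nat_lit 78) (nat_lit 76) (nat_lit 0) (XT.lf (nat_lit 0) (nat_lit 9703501738) (nat_lit 228) (nat_lit 25170855619) (nat_lit 76) (nat_lit 3385231158) (nat_lit 42) (nat_lit 5) (nat_lit 45) (nat_lit 5) (nat_lit 43) (nat_lit 4) (nat_lit 457) (nat_lit 345) (nat_lit 218)) (XT.nd (nat_lit 78) (nat_lit 76) (nat_lit 0) (XT.lf (nat_lit 0) (nat_lit 18667784398) (nat_lit 228) (nat_lit 7004708875) (nat_lit 76) (nat_lit 13433940658) (nat_lit 42) (nat_lit 5) (nat_lit 45) (nat_lit 5) (nat_lit 43) (nat_lit 4) (nat_lit 458) (nat_lit 345) (nat_lit 217)) (XT.lf (nat_lit 0) (nat_lit 11914616321) (nat_lit 76) (nat_lit 16088024841) (nat_lit 152) (nat_lit 11972994950) (nat_lit 41) (nat_lit 5) (nat_lit 42) (nat_lit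 5) (nat_lit 43) (nat_lit 4) (nat_lit 459) (nat_lit 345) (nat_lit 216)))) (XT.nd (nat_lit 156) (nat_lit 76) (nat_lit 0) (XT.nd (nat_lit 78) (nat_lit 228) (nat_lit 0) (XT.lf (nat_lit 0) (nat_lit 31521046172) (nat_lit 76) (nat_lit 6154490290) (nat_lit 152) (nat_lit 3193638861) (nat_lit 41) (nat_lit 5) (nat_lit 42) (nat_lit 5) (nat_lit 43) (nat_lit 4) (nat_lit 460) (nat_lit 345) (nat_lit 215)) (XT.lf (nat_lit 0) (nat_lit 5859596968) (nat_lit 228) (nat_lit 31783639361) (nat_lit 76) (nat_lit 4140859254) (nat_lit 38) (nat_lit 5) (nat_lit 41) (nat_lit 5) (nat_lit 39) (nat_lit 4) (nat_lit 461) (nat_lit 345) (nat_lit 214))) (XT.nd (nat_lit 78) (nat_lit 76) (nat_lit 0) (XT.lf (nat_lit 0) (nat_lit 15264048876) (nat_lit 228) (nat_lit 12719642234) (nat_lit 76) (nat_lit 14737510182) (nat_lit 38) (nat_lit 5) (nat_lit 41) (nat_lit 5) (nat_lit 39) (nat_lit 4) (nat_lit 462) (nat_lit 345) (nat_lit 213)) (XT.lf (nat_lit 0) (nat_lit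 7030507079) (nat_lit 76) (nat_lit 17975611737) (nat_lit 152) (nat_lit 18678637487) (nat_lit 37) (nat_lit 5) (nat_lit 38) (nat_lit 5) (nat_lit 39) (nat_lit 4) (nat_lit 463) (nat_lit 345) (nat_lit 212))))) (XT.nd (nat_lit 234) (nat_lit 228) (nat_lit 0) (XT.nd (nat_lit 78) (nat_lit 152) (nat_lit 0) (XT.lf (nat_lit 0) (nat_lit 27611167906) (nat_lit 76) (nat_lit 7545763153) (nat_lit 152) (nat_lit 9516793147) (nat_lit 37) (nat_lit 5) (nat_lit 38) (nat_lit 5) (nat_lit 39) (nat_lit 4) (nat_lit 464) (nat_lit 345) (nat_lit 211)) (XT.nd (nat_lit 78) (nat_lit 76) (nat_lit 0) (XT.lf (nat_lit 0) (nat_lit 3124812837) (nat_lit 76) (nat_lit 42536508469) (nat_lit 76) (nat_lit 29568857) (nat_lit 36) (nat_lit 4) (nat_lit 37) (nat_lit 5) (nat_lit 37) (nat_lit 4) (nat_lit 465) (nat_lit 345) (nat_lit 210)) (XT.lf (nat_lit 0) (nat_lit 9789178304) (nat_lit 152) (nat_lit 22658232808) (nat_lit 76) (nat_lit 14281240730) (nat_lit 35) (nat_lit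 5) (nat_lit 37) (nat_lit 5) (nat_lit 36) (nat_lit 4) (nat_lit 466) (nat_lit 345) (nat_lit 209)))) (XT.nd (nat_lit 156) (nat_lit 152) (nat_lit 0) (XT.nd (nat_lit 78) (nat_lit 76) (nat_lit 0) (XT.lf (nat_lit 0) (nat_lit 19890532556) (nat_lit 152) (nat_lit 2175129456) (nat_lit 76) (nat_lit 25732216981) (nat_lit 35) (nat_lit 5) (nat_lit 37) (nat_lit 5) (nat_lit 36) (nat_lit 4) (nat_lit 467) (nat_lit 345) (nat_lit 208)) (XT.lf (nat_lit 0) (nat_lit 19277590036) (nat_lit 76) (nat_lit 11191615272) (nat_lit 152) (nat_lit 18424749873) (nat_lit 34) (nat_lit 5) (nat_lit 35) (nat_lit 5) (nat_lit 36) (nat_lit 4) (nat_lit 468) (nat_lit 345) (nat_lit 207))) (XT.nd (nat_lit 78) (nat_lit 152) (nat_lit 0) (XT.lf (nat_lit 0) (nat_lit 41376498685) (nat_lit 152) (nat_lit 8625154314) (nat_lit 0) (nat_lit 20923383) (nat_lit 34) (nat_lit 5) (nat_lit 36) (nat_lit 4) (nat_lit 34) (nat_lit 4) (nat_lit 469) (nat_lit 345) (nat_lit 206)) (XT.lf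 (nat_lit 0) (nat_lit 1626615281) (nat_lit 152) (nat_lit 38073666763) (nat_lit 76) (nat_lit 11477508888) (nat_lit 32) (nat_lit 5) (nat_lit 34) (nat_lit 5) (nat_lit 33) (nat_lit 4) (nat_lit 470) (nat_lit 345) (nat_lit 205)))))) (XT.nd (nat_lit 546) (nat_lit 304) (nat_lit 0) (XT.nd (nat_lit 234) (nat_lit 228) (nat_lit 0) (XT.nd (nat_lit 78) (nat_lit 76) (nat_lit 0) (XT.lf (nat_lit 0) (nat_lit 12110997994) (nat_lit 152) (nat_lit 16809904304) (nat_lit 76) (nat_lit 23441873376) (nat_lit 32) (nat_lit 5) (nat_lit 34) (nat_lit 5) (nat_lit 33) (nat_lit 4) (nat_lit 471) (nat_lit 345) (nat_lit 204)) (XT.nd (nat_lit 78) (nat_lit 0) (nat_lit 0) (XT.lf (nat_lit 0) (nat_lit 5172831566) (nat_lit 76) (nat_lit 17776442957) (nat_lit 152) (nat_lit 30632855046) (nat_lit 31) (nat_lit 5) (nat_lit 32) (nat_lit 5) (nat_lit 33) (nat_lit 4) (nat_lit 472) (nat_lit 345) (nat_lit 203)) (XT.lf (nat_lit 0) (nat_lit 28139950936) (nat_lit 76) (nat_lit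 6132245982) (nat_lit 152) (nat_lit 20561082704) (nat_lit 31) (nat_lit 5) (nat_lit 32) (nat_lit 5) (nat_lit 33) (nat_lit 4) (nat_lit 473) (nat_lit 345) (nat_lit 202)))) (XT.nd (nat_lit 156) (nat_lit 76) (nat_lit 0) (XT.nd (nat_lit 78) (nat_lit 152) (nat_lit 0) (XT.lf (nat_lit 0) (nat_lit 45981110131) (nat_lit 152) (nat_lit 4401545175) (nat_lit 0) (nat_lit 5737920230) (nat_lit 31) (nat_lit 5) (nat_lit 33) (nat_lit 4) (nat_lit 31) (nat_lit 4) (nat_lit 474) (nat_lit 345) (nat_lit 201)) (XT.lf (nat_lit 0) (nat_lit 817632105) (nat_lit 152) (nat_lit 38600247314) (nat_lit 76) (nat_lit 18021406656) (nat_lit 29) (nat_lit 5) (nat_lit 31) (nat_lit 5) (nat_lit 30) (nat_lit 4) (nat_lit 475) (nat_lit 345) (nat_lit 200))) (XT.nd (nat_lit 78) (nat_lit 76) (nat_lit 0) (XT.lf (nat_lit 0) (nat_lit 11934799177) (nat_lit 152) (nat_lit 16048757950) (nat_lit 76) (nat_lit 30809935000) (nat_lit 29) (nat_lit 5) (nat_lit 31) (nat_lit 5) (nat_lit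 30) (nat_lit 4) (nat_lit 476) (nat_lit 345) (nat_lit 199)) (XT.lf (nat_lit 0) (nat_lit 7303571595) (nat_lit 76) (nat_lit 16142662479) (nat_lit 152) (nat_lit 36740268105) (nat_lit 28) (nat_lit 5) (nat_lit 29) (nat_lit 5) (nat_lit 30) (nat_lit 4) (nat_lit 477) (nat_lit 345) (nat_lit 198))))) (XT.nd (nat_lit 312) (nat_lit 152) (nat_lit 0) (XT.nd (nat_lit 156) (nat_lit 152) (nat_lit 0) (XT.nd (nat_lit 78) (nat_lit 0) (nat_lit 0) (XT.lf (nat_lit 0) (nat_lit 31667410006) (nat_lit 76) (nat_lit 3788311302) (nat_lit 152) (nat_lit 26161000337) (nat_lit 28) (nat_lit 5) (nat_lit 29) (nat_lit 5) (nat_lit 30) (nat_lit 4) (nat_lit 478) (nat_lit 345) (nat_lit 197)) (XT.lf (nat_lit 0) (nat_lit 47902237456) (nat_lit 152) (nat_lit 6431299747) (nat_lit 0) (nat_lit 8754008544) (nat_lit 28) (nat_lit 5) (nat_lit 30) (nat_lit 4) (nat_lit 28) (nat_lit 4) (nat_lit 479) (nat_lit 345) (nat_lit 196))) (XT.nd (nat_lit 78) (nat_lit 76) (nat_lit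 0) (XT.lf (nat_lit 0) (nat_lit 18090561456) (nat_lit 76) (nat_lit 42834099569) (nat_lit 76) (nat_lit 3671758556) (nat_lit 27) (nat_lit 4) (nat_lit 28) (nat_lit 5) (nat_lit 28) (nat_lit 4) (nat_lit 480) (nat_lit 345) (nat_lit 195)) (XT.lf (nat_lit 0) (nat_lit 8084136746) (nat_lit 152) (nat_lit 22765244486) (nat_lit 76) (nat_lit 35297116711) (nat_lit 26) (nat_lit 5) (nat_lit 28) (nat_lit 5) (nat_lit 27) (nat_lit 4) (nat_lit 481) (nat_lit 345) (nat_lit 194)))) (XT.nd (nat_lit 156) (nat_lit 76) (nat_lit 0) (XT.nd (nat_lit 78) (nat_lit 0) (nat_lit 0) (XT.lf (nat_lit 0) (nat_lit 1667061325) (nat_lit 76) (nat_lit 18459246762) (nat_lit 152) (nat_lit 47615458351) (nat_lit 25) (nat_lit 5) (nat_lit 26) (nat_lit 5) (nat_lit 27) (nat_lit 4) (nat_lit 482) (nat_lit 345) (nat_lit 193)) (XT.lf (nat_lit 0) (nat_lit 27282462694) (nat_lit 76) (nat_lit 5468631571) (nat_lit 152) (nat_lit 36627158558) (nat_lit 25) (nat_lit 5) (nat_lit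 26) (nat_lit 5) (nat_lit 27) (nat_lit 4) (nat_lit 483) (nat_lit 345) (nat_lit 192))) (XT.nd (nat_lit 78) (nat_lit 76) (nat_lit 0) (XT.lf (nat_lit 0) (nat_lit 45822315395) (nat_lit 152) (nat_lit 17489791114) (nat_lit 0) (nat_lit 7749696867) (nat_lit 25) (nat_lit 5) (nat_lit 27) (nat_lit 4) (nat_lit 25) (nat_lit 4) (nat_lit 484) (nat_lit 345) (nat_lit 191)) (XT.lf (nat_lit 0) (nat_lit 7939410967) (nat_lit 76) (nat_lit 51468608297) (nat_lit 76) (nat_lit 13384171106) (nat_lit 24) (nat_lit 4) (nat_lit 25) (nat_lit 5) (nat_lit 25) (nat_lit 4) (nat_lit 485) (nat_lit 345) (nat_lit 190))))))) (XT.nd (nat_lit 42978) (nat_lit 0) (nat_lit 18696) (XT.nd (nat_lit 42432) (nat_lit 0) (nat_lit 25308) (XT.nd (nat_lit 234) (nat_lit 0) (nat_lit 0) (XT.nd (nat_lit 78) (nat_lit 152) (nat_lit 0) (XT.lf (nat_lit 0) (nat_lit 34474408636) (nat_lit 76) (nat_lit 39095467404) (nat_lit 76) (nat_lit 999555783) (nat_lit 24) (nat_lit 4) (nat_lit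 25) (nat_lit 5) (nat_lit 25) (nat_lit 4) (nat_lit 486) (nat_lit 345) (nat_lit 189)) (XT.nd (nat_lit 78) (nat_lit 76) (nat_lit 0) (XT.lf (nat_lit 0) (nat_lit 11519310045) (nat_lit 152) (nat_lit 14722852453) (nat_lit 76) (nat_lit 50154674185) (nat_lit 23) (nat_lit 5) (nat_lit 25) (nat_lit 5) (nat_lit 24) (nat_lit 4) (nat_lit 487) (nat_lit 345) (nat_lit 188)) (XT.lf (nat_lit 0) (nat_lit 11612324349) (nat_lit 76) (nat_lit 12885307150) (nat_lit 152) (nat_lit 53778016175) (nat_lit 22) (nat_lit 5) (nat_lit 23) (nat_lit 5) (nat_lit 24) (nat_lit 4) (nat_lit 488) (nat_lit 345) (nat_lit 187)))) (XT.nd (nat_lit 42042) (nat_lit 0) (nat_lit 26980) (XT.nd (nat_lit 41964) (nat_lit 0) (nat_lit 26980) (XT.lf (nat_lit 0) (nat_lit 38016198623) (nat_lit 152) (nat_lit 41191732458) (nat_lit 0) (nat_lit 998365299) (nat_lit 22) (nat_lit 5) (nat_lit 24) (nat_lit 4) (nat_lit 22) (nat_lit 4) (nat_lit 489) (nat_lit 345) (nat_lit 186)) (XT.lf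 (nat_lit 0) (nat_lit 350917693) (nat_lit 532) (nat_lit 1473417118) (nat_lit 532) (nat_lit 1473417118) (nat_lit 377) (nat_lit 3) (nat_lit 384) (nat_lit 3) (nat_lit 384) (nat_lit 5) (nat_lit 346) (nat_lit 346) (nat_lit 328))) (XT.nd (nat_lit 78) (nat_lit 0) (nat_lit 0) (XT.lf (nat_lit 76) (nat_lit 284380507) (nat_lit 0) (nat_lit 2783944887) (nat_lit 532) (nat_lit 3554228186) (nat_lit 378) (nat_lit 5) (nat_lit 377) (nat_lit 3) (nat_lit 384) (nat_lit 5) (nat_lit 347) (nat_lit 346) (nat_lit 327)) (XT.lf (nat_lit 76) (nat_lit 3624676061) (nat_lit 0) (nat_lit 1818587416) (nat_lit 532) (nat_lit 1209074701) (nat_lit 378) (nat_lit 5) (nat_lit 377) (nat_lit 3) (nat_lit 384) (nat_lit 5) (nat_lit 348) (nat_lit 346) (nat_lit 326))))) (XT.nd (nat_lit 234) (nat_lit 1140) (nat_lit 0) (XT.nd (nat_lit 78) (nat_lit 0) (nat_lit 76) (XT.lf (nat_lit 76) (nat_lit 328269416) (nat_lit 0) (nat_lit 767230216) (nat_lit 608) (nat_lit 5589834822)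 (nat_lit 371) (nat_lit 5) (nat_lit 370) (nat_lit 5) (nat_lit 378) (nat_lit 5) (nat_lit 349) (nat_lit 346) (nat_lit 325)) (XT.nd (nat_lit 78) (nat_lit 0) (nat_lit 0) (XT.lf (nat_lit 0) (nat_lit 3390832770) (nat_lit 532) (nat_lit 2938074689) (nat_lit 608) (nat_lit 391719343) (nat_lit 371) (nat_lit 5) (nat_lit 378) (nat_lit 5) (nat_lit 379) (nat_lit 5) (nat_lit 350) (nat_lit 346) (nat_lit 324)) (XT.lf (nat_lit 76) (nat_lit 536547211) (nat_lit 0) (nat_lit 5145807629) (nat_lit 608) (nat_lit 1076844959) (nat_lit 372) (nat_lit 5) (nat_lit 371) (nat_lit 5) (nat_lit 379) (nat_lit 5) (nat_lit 351) (nat_lit 346) (nat_lit 323)))) (XT.nd (nat_lit 156) (nat_lit 608) (nat_lit 0) (XT.nd (nat_lit 78) (nat_lit 0) (nat_lit 0) (XT.lf (nat_lit 0) (nat_lit 1165109574) (nat_lit 608) (nat_lit 2685693447) (nat_lit 684) (nat_lit 2949437085) (nat_lit 363) (nat_lit 5) (nat_lit 371) (nat_lit 5) (nat_lit 372) (nat_lit 5) (nat_lit 352) (nat_lit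 346) (nat_lit 322)) (XT.lf (nat_lit 76) (nat_lit 915014407) (nat_lit 0) (nat_lit 2464638524) (nat_lit 684) (nat_lit 3464767831) (nat_lit 364) (nat_lit 5) (nat_lit 363) (nat_lit 5) (nat_lit 372) (nat_lit 5) (nat_lit 353) (nat_lit 346) (nat_lit 321))) (XT.nd (nat_lit 78) (nat_lit 608) (nat_lit 0) (XT.lf (nat_lit 76) (nat_lit 4629729943) (nat_lit 0) (nat_lit 978112407) (nat_lit 684) (nat_lit 1283705287) (nat_lit 364) (nat_lit 5) (nat_lit 363) (nat_lit 5) (nat_lit 372) (nat_lit 5) (nat_lit 354) (nat_lit 346) (nat_lit 320)) (XT.lf (nat_lit 0) (nat_lit 885731752) (nat_lit 684) (nat_lit 5461284251) (nat_lit 760) (nat_lit 594577727) (nat_lit 355) (nat_lit 5) (nat_lit 364) (nat_lit 5) (nat_lit 365) (nat_lit 5) (nat_lit 355) (nat_lit 346) (nat_lit 319)))))) (XT.nd (nat_lit 546) (nat_lit 4256) (nat_lit 0) (XT.nd (nat_lit 234) (nat_lit 1596) (nat_lit 0) (XT.nd (nat_lit 78) (nat_lit 760) (nat_lit 0) (XT.lf (nat_lit 0) (nat_lit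 3050896507) (nat_lit 684) (nat_lit 1685360213) (nat_lit 760) (nat_lit 2257843758) (nat_lit 355) (nat_lit 5) (nat_lit 364) (nat_lit 5) (nat_lit 365) (nat_lit 5) (nat_lit 356) (nat_lit 346) (nat_lit 318)) (XT.nd (nat_lit 78) (nat_lit 760) (nat_lit 0) (XT.lf (nat_lit 76) (nat_lit 2196856392) (nat_lit 0) (nat_lit 3031195269) (nat_lit 760) (nat_lit 1821752660) (nat_lit 356) (nat_lit 5) (nat_lit 355) (nat_lit 5) (nat_lit 365) (nat_lit 5) (nat_lit 357) (nat_lit 346) (nat_lit 317)) (XT.lf (nat_lit 0) (nat_lit 300292352) (nat_lit 760) (nat_lit 931093962) (nat_lit 836) (nat_lit 5877398040) (nat_lit 345) (nat_lit 5) (nat_lit 355) (nat_lit 5) (nat_lit 356) (nat_lit 5) (nat_lit 358) (nat_lit 346) (nat_lit 316)))) (XT.nd (nat_lit 156) (nat_lit 1672) (nat_lit 0) (XT.nd (nat_lit 78) (nat_lit 0) (nat_lit 0) (XT.lf (nat_lit 0) (nat_lit 2414845428) (nat_lit 760) (nat_lit 4075394015) (nat_lit 76) (nat_lit 679819527) (nat_lit 346)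 (nat_lit 5) (nat_lit 356) (nat_lit 5) (nat_lit 347) (nat_lit 5) (nat_lit 359) (nat_lit 346) (nat_lit 315)) (XT.lf (nat_lit 0) (nat_lit 4545301667) (nat_lit 760) (nat_lit 36087479) (nat_lit 76) (nat_lit 2653237962) (nat_lit 346) (nat_lit 5) (nat_lit 356) (nat_lit 5) (nat_lit 347) (nat_lit 5) (nat_lit 360) (nat_lit 346) (nat_lit 314))) (XT.nd (nat_lit 78) (nat_lit 912) (nat_lit 0) (XT.lf (nat_lit 0) (nat_lit 4155787942) (nat_lit 760) (nat_lit 2556627075) (nat_lit 836) (nat_lit 589563397) (nat_lit 336) (nat_lit 5) (nat_lit 346) (nat_lit 5) (nat_lit 347) (nat_lit 5) (nat_lit 361) (nat_lit 346) (nat_lit 313)) (XT.lf (nat_lit 0) (nat_lit 1057769209) (nat_lit 836) (nat_lit 428861609) (nat_lit 912) (nat_lit 5885968425) (nat_lit 324) (nat_lit 5) (nat_lit 335) (nat_lit 5) (nat_lit 336) (nat_lit 5) (nat_lit 362) (nat_lit 346) (nat_lit 312))))) (XT.nd (nat_lit 312) (nat_lit 2280) (nat_lit 0) (XT.nd (nat_lit 156) (nat_lit 1064)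 (nat_lit 0) (XT.nd (nat_lit 78) (nat_lit 912) (nat_lit 0) (XT.lf (nat_lit 0) (nat_lit 3597488250) (nat_lit 912) (nat_lit 2067327683) (nat_lit 76) (nat_lit 1780846852) (nat_lit 324) (nat_lit 5) (nat_lit 336) (nat_lit 5) (nat_lit 325) (nat_lit 5) (nat_lit 363) (nat_lit 346) (nat_lit 311)) (XT.lf (nat_lit 0) (nat_lit 2297519201) (nat_lit 912) (nat_lit 3437568576) (nat_lit 988) (nat_lit 1786953223) (nat_lit 312) (nat_lit 5) (nat_lit 324) (nat_lit 5) (nat_lit 325) (nat_lit 5) (nat_lit 364) (nat_lit 346) (nat_lit 310))) (XT.nd (nat_lit 78) (nat_lit 988) (nat_lit 0) (XT.lf (nat_lit 0) (nat_lit 288430430) (nat_lit 988) (nat_lit 819264331) (nat_lit 76) (nat_lit 6494176153) (nat_lit 311) (nat_lit 5) (nat_lit 324) (nat_lit 5) (nat_lit 312) (nat_lit 5) (nat_lit 365) (nat_lit 346) (nat_lit 309)) (XT.lf (nat_lit 0) (nat_lit 2378612544) (nat_lit 1064) (nat_lit 3974199530) (nat_lit 76) (nat_lit 1331122400) (nat_lit 298) (nat_lit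 5) (nat_lit 312) (nat_lit 5) (nat_lit 299) (nat_lit 5) (nat_lit 366) (nat_lit 346) (nat_lit 308)))) (XT.nd (nat_lit 156) (nat_lit 1216) (nat_lit 0) (XT.nd (nat_lit 78) (nat_lit 0) (nat_lit 0) (XT.lf (nat_lit 0) (nat_lit 571965482) (nat_lit 1064) (nat_lit 3925344528) (nat_lit 1140) (nat_lit 3272198075) (nat_lit 284) (nat_lit 5) (nat_lit 298) (nat_lit 5) (nat_lit 299) (nat_lit 5) (nat_lit 367) (nat_lit 346) (nat_lit 307)) (XT.lf (nat_lit 0) (nat_lit 5285152904) (nat_lit 1064) (nat_lit 1376766920) (nat_lit 1140) (nat_lit 1196280327) (nat_lit 284) (nat_lit 5) (nat_lit 298) (nat_lit 5) (nat_lit 299) (nat_lit 5) (nat_lit 368) (nat_lit 346) (nat_lit 306))) (XT.nd (nat_lit 78) (nat_lit 0) (nat_lit 0) (XT.lf (nat_lit 0) (nat_lit 900104841) (nat_lit 1216) (nat_lit 5789695645) (nat_lit 76) (nat_lit 1260204299) (nat_lit 268) (nat_lit 5) (nat_lit 284) (nat_lit 5) (nat_lit 269) (nat_lit 5) (nat_lit 369) (nat_lit 346) (nat_lit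 305)) (XT.lf (nat_lit 0) (nat_lit 3019758321) (nat_lit 1216) (nat_lit 1032846431) (nat_lit 76) (nat_lit 3992090791) (nat_lit 268) (nat_lit 5) (nat_lit 284) (nat_lit 5) (nat_lit 269) (nat_lit 5) (nat_lit 370) (nat_lit 346) (nat_lit 304))))))))
noncomputable def xc116 : XT := (XT.nd (nat_lit 2184) (nat_lit 4560) (nat_lit 0) (XT.nd (nat_lit 1092) (nat_lit 3876) (nat_lit 0) (XT.nd (nat_lit 546) (nat_lit 2052) (nat_lit 0) (XT.nd (nat_lit 234) (nat_lit 1824) (nat_lit 0) (XT.nd (nat_lit 78) (nat_lit 760) (nat_lit 0) (XT.lf (nat_lit 0) (nat_lit 3892430044) (nat_lit 1216) (nat_lit 1294152306) (nat_lit 1292) (nat_lit 2956156603) (nat_lit 252) (nat_lit 5) (nat_lit 268) (nat_lit 5) (nat_lit 269) (nat_lit 5) (nat_lit 371) (nat_lit 346) (nat_lit 303)) (XT.nd (nat_lit 78) (nat_lit 76) (nat_lit 0) (XT.lf (nat_lit 0) (nat_lit 690352040) (nat_lit 684) (nat_lit 6707382652) (nat_lit 760) (nat_lit 846628060) (nat_lit 243) (nat_lit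 5) (nat_lit 252) (nat_lit 5) (nat_lit 253) (nat_lit 5) (nat_lit 372) (nat_lit 346) (nat_lit 302)) (XT.lf (nat_lit 0) (nat_lit 1304266072) (nat_lit 760) (nat_lit 2559298195) (nat_lit 76) (nat_lit 4484987519) (nat_lit 242) (nat_lit 5) (nat_lit 252) (nat_lit 5) (nat_lit 243) (nat_lit 5) (nat_lit 373) (nat_lit 346) (nat_lit 301)))) (XT.nd (nat_lit 156) (nat_lit 1216) (nat_lit 0) (XT.nd (nat_lit 78) (nat_lit 0) (nat_lit 0) (XT.lf (nat_lit 0) (nat_lit 2576743074) (nat_lit 608) (nat_lit 900017460) (nat_lit 684) (nat_lit 4979648984) (nat_lit 234) (nat_lit 5) (nat_lit 242) (nat_lit 5) (nat_lit 243) (nat_lit 5) (nat_lit 374) (nat_lit 346) (nat_lit 300)) (XT.lf (nat_lit 0) (nat_lit 5711534805) (nat_lit 684) (nat_lit 719767799) (nat_lit 76) (nat_lit 2136303929) (nat_lit 234) (nat_lit 5) (nat_lit 243) (nat_lit 5) (nat_lit 235) (nat_lit 5) (nat_lit 375) (nat_lit 346) (nat_lit 299))) (XT.nd (nat_lit 78) (nat_lit 608) (nat_lit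 0) (XT.lf (nat_lit 0) (nat_lit 4626369197) (nat_lit 608) (nat_lit 3392127474) (nat_lit 684) (nat_lit 663504668) (nat_lit 226) (nat_lit 5) (nat_lit 234) (nat_lit 5) (nat_lit 235) (nat_lit 5) (nat_lit 376) (nat_lit 346) (nat_lit 298)) (XT.lf (nat_lit 0) (nat_lit 1307749613) (nat_lit 532) (nat_lit 228087601) (nat_lit 608) (nat_lit 7264382573) (nat_lit 218) (nat_lit 5) (nat_lit 225) (nat_lit 5) (nat_lit 226) (nat_lit 5) (nat_lit 377) (nat_lit 346) (nat_lit 297))))) (XT.nd (nat_lit 234) (nat_lit 1064) (nat_lit 0) (XT.nd (nat_lit 78) (nat_lit 988) (nat_lit 0) (XT.lf (nat_lit 0) (nat_lit 3811408532) (nat_lit 608) (nat_lit 2092995965) (nat_lit 76) (nat_lit 3016690498) (nat_lit 218) (nat_lit 5) (nat_lit 226) (nat_lit 5) (nat_lit 219) (nat_lit 5) (nat_lit 378) (nat_lit 346) (nat_lit 296)) (XT.nd (nat_lit 78) (nat_lit 456) (nat_lit 0) (XT.lf (nat_lit 0) (nat_lit 3484391723) (nat_lit 532) (nat_lit 2661064885) (nat_lit 608)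 (nat_lit 2900447967) (nat_lit 211) (nat_lit 5) (nat_lit 218) (nat_lit 5) (nat_lit 219) (nat_lit 5) (nat_lit 379) (nat_lit 346) (nat_lit 295)) (XT.lf (nat_lit 0) (nat_lit 41624087) (nat_lit 456) (nat_lit 8491444228) (nat_lit 532) (nat_lit 641897848) (nat_lit 205) (nat_lit 5) (nat_lit 211) (nat_lit 5) (nat_lit 212) (nat_lit 5) (nat_lit 380) (nat_lit 346) (nat_lit 294)))) (XT.nd (nat_lit 156) (nat_lit 456) (nat_lit 0) (XT.nd (nat_lit 78) (nat_lit 532) (nat_lit 0) (XT.lf (nat_lit 0) (nat_lit 1690241618) (nat_lit 532) (nat_lit 3473476017) (nat_lit 76) (nat_lit 4142548346) (nat_lit 204) (nat_lit 5) (nat_lit 211) (nat_lit 5) (nat_lit 205) (nat_lit 5) (nat_lit 381) (nat_lit 346) (nat_lit 293)) (XT.lf (nat_lit 0) (nat_lit 2346069962) (nat_lit 532) (nat_lit 1712855878) (nat_lit 608) (nat_lit 5383016625) (nat_lit 197) (nat_lit 5) (nat_lit 204) (nat_lit 5) (nat_lit 205) (nat_lit 5) (nat_lit 382) (nat_lit 346) (nat_lit 292)))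 (XT.nd (nat_lit 78) (nat_lit 456) (nat_lit 0) (XT.lf (nat_lit 0) (nat_lit 6509443170) (nat_lit 608) (nat_lit 1237552210) (nat_lit 76) (nat_lit 1834383113) (nat_lit 197) (nat_lit 5) (nat_lit 205) (nat_lit 5) (nat_lit 198) (nat_lit 5) (nat_lit 383) (nat_lit 346) (nat_lit 291)) (XT.lf (nat_lit 0) (nat_lit 4824902981) (nat_lit 456) (nat_lit 4230793551) (nat_lit 532) (nat_lit 668646518) (nat_lit 191) (nat_lit 5) (nat_lit 197) (nat_lit 5) (nat_lit 198) (nat_lit 5) (nat_lit 384) (nat_lit 346) (nat_lit 290)))))) (XT.nd (nat_lit 546) (nat_lit 1976) (nat_lit 0) (XT.nd (nat_lit 234) (nat_lit 912) (nat_lit 0) (XT.nd (nat_lit 78) (nat_lit 456) (nat_lit 0) (XT.lf (nat_lit 0) (nat_lit 1179757095) (nat_lit 456) (nat_lit 574892307) (nat_lit 532) (nat_lit 8116942552) (nat_lit 184) (nat_lit 5) (nat_lit 190) (nat_lit 5) (nat_lit 191) (nat_lit 5) (nat_lit 385) (nat_lit 346) (nat_lit 289)) (XT.nd (nat_lit 78) (nat_lit 456) (nat_lit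 0) (XT.lf (nat_lit 0) (nat_lit 4277681626) (nat_lit 532) (nat_lit 2567591749) (nat_lit 76) (nat_lit 3176583085) (nat_lit 184) (nat_lit 5) (nat_lit 191) (nat_lit 5) (nat_lit 185) (nat_lit 5) (nat_lit 386) (nat_lit 346) (nat_lit 288)) (XT.lf (nat_lit 0) (nat_lit 3759701857) (nat_lit 456) (nat_lit 3119546338) (nat_lit 532) (nat_lit 3297306124) (nat_lit 178) (nat_lit 5) (nat_lit 184) (nat_lit 5) (nat_lit 185) (nat_lit 5) (nat_lit 387) (nat_lit 346) (nat_lit 287)))) (XT.nd (nat_lit 156) (nat_lit 380) (nat_lit 0) (XT.nd (nat_lit 78) (nat_lit 532) (nat_lit 0) (XT.lf (nat_lit 0) (nat_lit 9553541806) (nat_lit 532) (nat_lit 61770006) (nat_lit 76) (nat_lit 720751306) (nat_lit 178) (nat_lit 5) (nat_lit 185) (nat_lit 5) (nat_lit 179) (nat_lit 5) (nat_lit 388) (nat_lit 346) (nat_lit 286)) (XT.lf (nat_lit 0) (nat_lit 1829379781) (nat_lit 532) (nat_lit 3983567324) (nat_lit 76) (nat_lit 4685190153) (nat_lit 171) (nat_lit 5) (nat_lit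 178) (nat_lit 5) (nat_lit 172) (nat_lit 5) (nat_lit 389) (nat_lit 346) (nat_lit 285))) (XT.nd (nat_lit 78) (nat_lit 0) (nat_lit 0) (XT.lf (nat_lit 0) (nat_lit 2619983810) (nat_lit 380) (nat_lit 1872715133) (nat_lit 456) (nat_lit 6172488102) (nat_lit 166) (nat_lit 5) (nat_lit 171) (nat_lit 5) (nat_lit 172) (nat_lit 5) (nat_lit 390) (nat_lit 346) (nat_lit 284)) (XT.lf (nat_lit 0) (nat_lit 7261045222) (nat_lit 456) (nat_lit 1402476273) (nat_lit 76) (nat_lit 2172982250) (nat_lit 166) (nat_lit 5) (nat_lit 172) (nat_lit 5) (nat_lit 167) (nat_lit 5) (nat_lit 391) (nat_lit 346) (nat_lit 283))))) (XT.nd (nat_lit 234) (nat_lit 1140) (nat_lit 0) (XT.nd (nat_lit 78) (nat_lit 456) (nat_lit 0) (XT.lf (nat_lit 0) (nat_lit 5481026258) (nat_lit 380) (nat_lit 4667200195) (nat_lit 456) (nat_lit 863668931) (nat_lit 161) (nat_lit 5) (nat_lit 166) (nat_lit 5) (nat_lit 167) (nat_lit 5) (nat_lit 392) (nat_lit 346) (nat_lit 282)) (XT.nd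 (nat_lit 78) (nat_lit 0) (nat_lit 0) (XT.lf (nat_lit 0) (nat_lit 1368508029) (nat_lit 380) (nat_lit 515560677) (nat_lit 456) (nat_lit 9308164748) (nat_lit 155) (nat_lit 5) (nat_lit 160) (nat_lit 5) (nat_lit 161) (nat_lit 5) (nat_lit 393) (nat_lit 346) (nat_lit 281)) (XT.lf (nat_lit 0) (nat_lit 4754681492) (nat_lit 456) (nat_lit 2880953003) (nat_lit 76) (nat_lit 3740364795) (nat_lit 155) (nat_lit 5) (nat_lit 161) (nat_lit 5) (nat_lit 156) (nat_lit 5) (nat_lit 394) (nat_lit 346) (nat_lit 280)))) (XT.nd (nat_lit 156) (nat_lit 760) (nat_lit 0) (XT.nd (nat_lit 78) (nat_lit 0) (nat_lit 0) (XT.lf (nat_lit 0) (nat_lit 4302709741) (nat_lit 380) (nat_lit 3421428472) (nat_lit 456) (nat_lit 3840766094) (nat_lit 150) (nat_lit 5) (nat_lit 155) (nat_lit 5) (nat_lit 156) (nat_lit 5) (nat_lit 395) (nat_lit 346) (nat_lit 279)) (XT.lf (nat_lit 0) (nat_lit 10787576680) (nat_lit 456) (nat_lit 53467387) (nat_lit 76) (nat_lit 918293212)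 (nat_lit 150) (nat_lit 5) (nat_lit 156) (nat_lit 5) (nat_lit 151) (nat_lit 5) (nat_lit 396) (nat_lit 346) (nat_lit 278))) (XT.nd (nat_lit 78) (nat_lit 380) (nat_lit 0) (XT.lf (nat_lit 0) (nat_lit 2018350487) (nat_lit 380) (nat_lit 4539749366) (nat_lit 76) (nat_lit 5398726628) (nat_lit 145) (nat_lit 5) (nat_lit 150) (nat_lit 5) (nat_lit 146) (nat_lit 5) (nat_lit 397) (nat_lit 346) (nat_lit 277)) (XT.lf (nat_lit 0) (nat_lit 2955126245) (nat_lit 380) (nat_lit 2120299905) (nat_lit 456) (nat_lit 7084628873) (nat_lit 140) (nat_lit 5) (nat_lit 145) (nat_lit 5) (nat_lit 146) (nat_lit 5) (nat_lit 398) (nat_lit 346) (nat_lit 276))))))) (XT.nd (nat_lit 1092) (nat_lit 2128) (nat_lit 0) (XT.nd (nat_lit 546) (nat_lit 1064) (nat_lit 0) (XT.nd (nat_lit 234) (nat_lit 684) (nat_lit 0) (XT.nd (nat_lit 78) (nat_lit 684) (nat_lit 0) (XT.lf (nat_lit 0) (nat_lit 8262282834) (nat_lit 456) (nat_lit 1670010738) (nat_lit 76) (nat_lit 2435951666)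 (nat_lit 140) (nat_lit 5) (nat_lit 146) (nat_lit 5) (nat_lit 141) (nat_lit 5) (nat_lit 399) (nat_lit 346) (nat_lit 275)) (XT.nd (nat_lit 78) (nat_lit 380) (nat_lit 0) (XT.lf (nat_lit 0) (nat_lit 6145312698) (nat_lit 304) (nat_lit 5448639163) (nat_lit 380) (nat_lit 987259779) (nat_lit 136) (nat_lit 5) (nat_lit 140) (nat_lit 5) (nat_lit 141) (nat_lit 5) (nat_lit 400) (nat_lit 346) (nat_lit 274)) (XT.lf (nat_lit 0) (nat_lit 1390092490) (nat_lit 304) (nat_lit 791195299) (nat_lit 380) (nat_lit 10618652847) (nat_lit 131) (nat_lit 5) (nat_lit 135) (nat_lit 5) (nat_lit 136) (nat_lit 5) (nat_lit 401) (nat_lit 346) (nat_lit 273)))) (XT.nd (nat_lit 156) (nat_lit 380) (nat_lit 0) (XT.nd (nat_lit 78) (nat_lit 304) (nat_lit 0) (XT.lf (nat_lit 0) (nat_lit 5498831231) (nat_lit 380) (nat_lit 3534499878) (nat_lit 76) (nat_lit 3989399788) (nat_lit 131) (nat_lit 5) (nat_lit 136) (nat_lit 5) (nat_lit 132) (nat_lit 5) (nat_lit 402)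 (nat_lit 346) (nat_lit 272)) (XT.lf (nat_lit 0) (nat_lit 4615569574) (nat_lit 304) (nat_lit 4323058045) (nat_lit 380) (nat_lit 4312901380) (nat_lit 127) (nat_lit 5) (nat_lit 131) (nat_lit 5) (nat_lit 132) (nat_lit 5) (nat_lit 403) (nat_lit 346) (nat_lit 271))) (XT.nd (nat_lit 78) (nat_lit 380) (nat_lit 0) (XT.lf (nat_lit 0) (nat_lit 12493572930) (nat_lit 380) (nat_lit 453041362) (nat_lit 76) (nat_lit 540223866) (nat_lit 127) (nat_lit 5) (nat_lit 132) (nat_lit 5) (nat_lit 128) (nat_lit 5) (nat_lit 404) (nat_lit 346) (nat_lit 270)) (XT.lf (nat_lit 0) (nat_lit 2471356977) (nat_lit 380) (nat_lit 5703900888) (nat_lit 76) (nat_lit 5550472476) (nat_lit 122) (nat_lit 5) (nat_lit 127) (nat_lit 5) (nat_lit 123) (nat_lit 5) (nat_lit 405) (nat_lit 346) (nat_lit 269))))) (XT.nd (nat_lit 234) (nat_lit 532) (nat_lit 0) (XT.nd (nat_lit 78) (nat_lit 304) (nat_lit 0) (XT.lf (nat_lit 0) (nat_lit 2790203818) (nat_lit 228) (nat_lit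 3233006828) (nat_lit 304) (nat_lit 7948191192) (nat_lit 119) (nat_lit 5) (nat_lit 122) (nat_lit 5) (nat_lit 123) (nat_lit 5) (nat_lit 406) (nat_lit 346) (nat_lit 268)) (XT.nd (nat_lit 78) (nat_lit 304) (nat_lit 0) (XT.lf (nat_lit 0) (nat_lit 9729729492) (nat_lit 304) (nat_lit 2628305544) (nat_lit 76) (nat_lit 1864970278) (nat_lit 119) (nat_lit 5) (nat_lit 123) (nat_lit 5) (nat_lit 120) (nat_lit 5) (nat_lit 407) (nat_lit 346) (nat_lit 267)) (XT.lf (nat_lit 0) (nat_lit 6228747649) (nat_lit 304) (nat_lit 7383479330) (nat_lit 380) (nat_lit 867991393) (nat_lit 115) (nat_lit 5) (nat_lit 119) (nat_lit 5) (nat_lit 120) (nat_lit 5) (nat_lit 408) (nat_lit 346) (nat_lit 266)))) (XT.nd (nat_lit 156) (nat_lit 228) (nat_lit 0) (XT.nd (nat_lit 78) (nat_lit 0) (nat_lit 0) (XT.lf (nat_lit 0) (nat_lit 602898570) (nat_lit 228) (nat_lit 2212844282) (nat_lit 304) (nat_lit 11928414598) (nat_lit 111) (nat_lit 5) (nat_lit 114) (nat_lit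 5) (nat_lit 115) (nat_lit 5) (nat_lit 409) (nat_lit 346) (nat_lit 265)) (XT.lf (nat_lit 0) (nat_lit 6679874753) (nat_lit 304) (nat_lit 5203147555) (nat_lit 76) (nat_lit 3130119179) (nat_lit 111) (nat_lit 5) (nat_lit 115) (nat_lit 5) (nat_lit 112) (nat_lit 5) (nat_lit 410) (nat_lit 346) (nat_lit 264))) (XT.nd (nat_lit 78) (nat_lit 0) (nat_lit 0) (XT.lf (nat_lit 0) (nat_lit 4018510049) (nat_lit 228) (nat_lit 6675996676) (nat_lit 304) (nat_lit 4594655453) (nat_lit 108) (nat_lit 5) (nat_lit 111) (nat_lit 5) (nat_lit 112) (nat_lit 5) (nat_lit 411) (nat_lit 346) (nat_lit 263)) (XT.lf (nat_lit 0) (nat_lit 13582776466) (nat_lit 228) (nat_lit 1273746095) (nat_lit 304) (nat_lit 716136870) (nat_lit 108) (nat_lit 5) (nat_lit 111) (nat_lit 5) (nat_lit 112) (nat_lit 5) (nat_lit 412) (nat_lit 346) (nat_lit 262)))))) (XT.nd (nat_lit 546) (nat_lit 912) (nat_lit 0) (XT.nd (nat_lit 234) (nat_lit 684) (nat_lit 0) (XT.nd (nat_lit 78)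 (nat_lit 228) (nat_lit 0) (XT.lf (nat_lit 0) (nat_lit 3305303657) (nat_lit 304) (nat_lit 8257414054) (nat_lit 76) (nat_lit 4298286022) (nat_lit 104) (nat_lit 5) (nat_lit 108) (nat_lit 5) (nat_lit 105) (nat_lit 5) (nat_lit 413) (nat_lit 346) (nat_lit 261)) (XT.nd (nat_lit 78) (nat_lit 0) (nat_lit 0) (XT.lf (nat_lit 0) (nat_lit 1334165592) (nat_lit 228) (nat_lit 6119663119) (nat_lit 304) (nat_lit 8703335815) (nat_lit 101) (nat_lit 5) (nat_lit 104) (nat_lit 5) (nat_lit 105) (nat_lit 5) (nat_lit 414) (nat_lit 346) (nat_lit 260)) (XT.lf (nat_lit 0) (nat_lit 11342926299) (nat_lit 228) (nat_lit 442714982) (nat_lit 304) (nat_lit 4674807717) (nat_lit 101) (nat_lit 5) (nat_lit 104) (nat_lit 5) (nat_lit 105) (nat_lit 5) (nat_lit 415) (nat_lit 346) (nat_lit 259)))) (XT.nd (nat_lit 156) (nat_lit 380) (nat_lit 0) (XT.nd (nat_lit 78) (nat_lit 76) (nat_lit 0) (XT.lf (nat_lit 0) (nat_lit 4883203815) (nat_lit 228) (nat_lit 11439117060)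 (nat_lit 304) (nat_lit 448267448) (nat_lit 98) (nat_lit 5) (nat_lit 101) (nat_lit 5) (nat_lit 102) (nat_lit 5) (nat_lit 416) (nat_lit 346) (nat_lit 258)) (XT.lf (nat_lit 0) (nat_lit 3861546624) (nat_lit 304) (nat_lit 1881403396) (nat_lit 76) (nat_lit 11344978771) (nat_lit 97) (nat_lit 5) (nat_lit 101) (nat_lit 5) (nat_lit 98) (nat_lit 5) (nat_lit 417) (nat_lit 346) (nat_lit 257))) (XT.nd (nat_lit 78) (nat_lit 152) (nat_lit 0) (XT.lf (nat_lit 0) (nat_lit 8352532879) (nat_lit 304) (nat_lit 8865856447) (nat_lit 76) (nat_lit 194443756) (nat_lit 94) (nat_lit 5) (nat_lit 98) (nat_lit 5) (nat_lit 95) (nat_lit 5) (nat_lit 418) (nat_lit 346) (nat_lit 256)) (XT.lf (nat_lit 0) (nat_lit 1513983688) (nat_lit 152) (nat_lit 11531837802) (nat_lit 228) (nat_lit 4699639115) (nat_lit 92) (nat_lit 5) (nat_lit 94) (nat_lit 5) (nat_lit 95) (nat_lit 5) (nat_lit 419) (nat_lit 346) (nat_lit 255))))) (XT.nd (nat_lit 312) (nat_lit 456) (nat_lit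 0) (XT.nd (nat_lit 156) (nat_lit 152) (nat_lit 0) (XT.nd (nat_lit 78) (nat_lit 304) (nat_lit 0) (XT.lf (nat_lit 0) (nat_lit 12348965544) (nat_lit 152) (nat_lit 5597748424) (nat_lit 228) (nat_lit 139352020) (nat_lit 92) (nat_lit 5) (nat_lit 94) (nat_lit 5) (nat_lit 95) (nat_lit 5) (nat_lit 420) (nat_lit 346) (nat_lit 254)) (XT.lf (nat_lit 0) (nat_lit 4501172413) (nat_lit 304) (nat_lit 13350205911) (nat_lit 76) (nat_lit 583228858) (nat_lit 88) (nat_lit 5) (nat_lit 92) (nat_lit 5) (nat_lit 89) (nat_lit 5) (nat_lit 421) (nat_lit 346) (nat_lit 253))) (XT.nd (nat_lit 78) (nat_lit 152) (nat_lit 0) (XT.lf (nat_lit 0) (nat_lit 9369909495) (nat_lit 304) (nat_lit 2538577430) (nat_lit 76) (nat_lit 6882325283) (nat_lit 88) (nat_lit 5) (nat_lit 92) (nat_lit 5) (nat_lit 89) (nat_lit 5) (nat_lit 422) (nat_lit 346) (nat_lit 252)) (XT.lf (nat_lit 0) (nat_lit 8731385321) (nat_lit 152) (nat_lit 5715766860) (nat_lit 228) (nat_lit 4708680733)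 (nat_lit 86) (nat_lit 5) (nat_lit 88) (nat_lit 5) (nat_lit 89) (nat_lit 5) (nat_lit 423) (nat_lit 346) (nat_lit 251)))) (XT.nd (nat_lit 156) (nat_lit 152) (nat_lit 0) (XT.nd (nat_lit 78) (nat_lit 0) (nat_lit 0) (XT.lf (nat_lit 0) (nat_lit 161185552) (nat_lit 304) (nat_lit 18699263251) (nat_lit 76) (nat_lit 670743162) (nat_lit 82) (nat_lit 5) (nat_lit 86) (nat_lit 5) (nat_lit 83) (nat_lit 5) (nat_lit 424) (nat_lit 346) (nat_lit 250)) (XT.lf (nat_lit 0) (nat_lit 5224120255) (nat_lit 304) (nat_lit 7415824199) (nat_lit 76) (nat_lit 7272222941) (nat_lit 82) (nat_lit 5) (nat_lit 86) (nat_lit 5) (nat_lit 83) (nat_lit 5) (nat_lit 425) (nat_lit 346) (nat_lit 249))) (XT.nd (nat_lit 78) (nat_lit 0) (nat_lit 0) (XT.lf (nat_lit 0) (nat_lit 4253583794) (nat_lit 152) (nat_lit 6205579076) (nat_lit 228) (nat_lit 9844805140) (nat_lit 80) (nat_lit 5) (nat_lit 82) (nat_lit 5) (nat_lit 83) (nat_lit 5) (nat_lit 426) (nat_lit 346) (nat_lit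 248)) (XT.lf (nat_lit 0) (nat_lit 15910391691) (nat_lit 228) (nat_lit 4320642171) (nat_lit 76) (nat_lit 474717180) (nat_lit 80) (nat_lit 5) (nat_lit 83) (nat_lit 5) (nat_lit 81) (nat_lit 5) (nat_lit 427) (nat_lit 346) (nat_lit 247))))))))
noncomputable def xc117 : XT := (XT.nd (nat_lit 2262) (nat_lit 1520) (nat_lit 0) (XT.nd (nat_lit 1092) (nat_lit 1140) (nat_lit 0) (XT.nd (nat_lit 546) (nat_lit 760) (nat_lit 0) (XT.nd (nat_lit 234) (nat_lit 380) (nat_lit 0) (XT.nd (nat_lit 78) (nat_lit 152) (nat_lit 0) (XT.lf (nat_lit 0) (nat_lit 515447820) (nat_lit 228) (nat_lit 13303668657) (nat_lit 76) (nat_lit 7296822669) (nat_lit 77) (nat_lit 5) (nat_lit 80) (nat_lit 5) (nat_lit 78) (nat_lit 5) (nat_lit 428) (nat_lit 346) (nat_lit 246)) (XT.nd (nat_lit 78) (nat_lit 152) (nat_lit 0) (XT.lf (nat_lit 0) (nat_lit 5913365297) (nat_lit 228) (nat_lit 1221976414) (nat_lit 76) (nat_lit 14400944014) (nat_lit 77) (nat_lit 5) (nat_lit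 80) (nat_lit 5) (nat_lit 78) (nat_lit 5) (nat_lit 429) (nat_lit 346) (nat_lit 245)) (XT.lf (nat_lit 0) (nat_lit 11411168633) (nat_lit 152) (nat_lit 152428306) (nat_lit 228) (nat_lit 10402936637) (nat_lit 75) (nat_lit 5) (nat_lit 77) (nat_lit 5) (nat_lit 78) (nat_lit 5) (nat_lit 430) (nat_lit 346) (nat_lit 244)))) (XT.nd (nat_lit 156) (nat_lit 152) (nat_lit 0) (XT.nd (nat_lit 78) (nat_lit 76) (nat_lit 0) (XT.lf (nat_lit 0) (nat_lit 1976025370) (nat_lit 152) (nat_lit 15487229600) (nat_lit 228) (nat_lit 4944038416) (nat_lit 73) (nat_lit 5) (nat_lit 75) (nat_lit 5) (nat_lit 76) (nat_lit 5) (nat_lit 431) (nat_lit 346) (nat_lit 243)) (XT.lf (nat_lit 0) (nat_lit 755375872) (nat_lit 228) (nat_lit 7801264371) (nat_lit 76) (nat_lit 14301742288) (nat_lit 72) (nat_lit 5) (nat_lit 75) (nat_lit 5) (nat_lit 73) (nat_lit 5) (nat_lit 432) (nat_lit 346) (nat_lit 242))) (XT.nd (nat_lit 78) (nat_lit 0) (nat_lit 0) (XT.lf (nat_lit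 0) (nat_lit 5227858029) (nat_lit 152) (nat_lit 1330194312) (nat_lit 228) (nat_lit 16762535912) (nat_lit 70) (nat_lit 5) (nat_lit 72) (nat_lit 5) (nat_lit 73) (nat_lit 5) (nat_lit 433) (nat_lit 346) (nat_lit 241)) (XT.lf (nat_lit 0) (nat_lit 12654618753) (nat_lit 228) (nat_lit 5079006654) (nat_lit 76) (nat_lit 6059442323) (nat_lit 70) (nat_lit 5) (nat_lit 73) (nat_lit 5) (nat_lit 71) (nat_lit 5) (nat_lit 434) (nat_lit 346) (nat_lit 240))))) (XT.nd (nat_lit 234) (nat_lit 380) (nat_lit 0) (XT.nd (nat_lit 78) (nat_lit 228) (nat_lit 0) (XT.lf (nat_lit 0) (nat_lit 8444765689) (nat_lit 152) (nat_lit 10565691962) (nat_lit 228) (nat_lit 5266974496) (nat_lit 68) (nat_lit 5) (nat_lit 70) (nat_lit 5) (nat_lit 71) (nat_lit 5) (nat_lit 435) (nat_lit 346) (nat_lit 239)) (XT.nd (nat_lit 78) (nat_lit 152) (nat_lit 0) (XT.lf (nat_lit 0) (nat_lit 799277381) (nat_lit 228) (nat_lit 2336460327) (nat_lit 76) (nat_lit 21639350391) (nat_lit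 67) (nat_lit 5) (nat_lit 70) (nat_lit 5) (nat_lit 68) (nat_lit 5) (nat_lit 436) (nat_lit 346) (nat_lit 238)) (XT.lf (nat_lit 0) (nat_lit 7081731772) (nat_lit 228) (nat_lit 13618283609) (nat_lit 76) (nat_lit 4581893290) (nat_lit 65) (nat_lit 5) (nat_lit 68) (nat_lit 5) (nat_lit 66) (nat_lit 5) (nat_lit 437) (nat_lit 346) (nat_lit 237)))) (XT.nd (nat_lit 156) (nat_lit 228) (nat_lit 0) (XT.nd (nat_lit 78) (nat_lit 0) (nat_lit 0) (XT.lf (nat_lit 0) (nat_lit 271219330) (nat_lit 152) (nat_lit 13321594919) (nat_lit 228) (nat_lit 12209916591) (nat_lit 63) (nat_lit 5) (nat_lit 65) (nat_lit 5) (nat_lit 66) (nat_lit 5) (nat_lit 438) (nat_lit 346) (nat_lit 236)) (XT.lf (nat_lit 0) (nat_lit 14825699718) (nat_lit 152) (nat_lit 5593928531) (nat_lit 228) (nat_lit 5915939024) (nat_lit 63) (nat_lit 5) (nat_lit 65) (nat_lit 5) (nat_lit 66) (nat_lit 5) (nat_lit 439) (nat_lit 346) (nat_lit 235))) (XT.nd (nat_lit 78) (nat_lit 0) (nat_lit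 0) (XT.lf (nat_lit 0) (nat_lit 590353267) (nat_lit 228) (nat_lit 23952502291) (nat_lit 76) (nat_lit 2340334547) (nat_lit 60) (nat_lit 5) (nat_lit 63) (nat_lit 5) (nat_lit 61) (nat_lit 5) (nat_lit 440) (nat_lit 346) (nat_lit 234)) (XT.lf (nat_lit 0) (nat_lit 7328978179) (nat_lit 228) (nat_lit 9548842247) (nat_lit 76) (nat_lit 10562983969) (nat_lit 60) (nat_lit 5) (nat_lit 63) (nat_lit 5) (nat_lit 61) (nat_lit 5) (nat_lit 441) (nat_lit 346) (nat_lit 233)))))) (XT.nd (nat_lit 546) (nat_lit 608) (nat_lit 0) (XT.nd (nat_lit 234) (nat_lit 304) (nat_lit 0) (XT.nd (nat_lit 78) (nat_lit 76) (nat_lit 0) (XT.lf (nat_lit 0) (nat_lit 5362067214) (nat_lit 152) (nat_lit 8943010019) (nat_lit 228) (nat_lit 13709011815) (nat_lit 58) (nat_lit 5) (nat_lit 60) (nat_lit 5) (nat_lit 61) (nat_lit 5) (nat_lit 442) (nat_lit 346) (nat_lit 232)) (XT.nd (nat_lit 78) (nat_lit 76) (nat_lit 0) (XT.lf (nat_lit 0) (nat_lit 20886841388) (nat_lit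 152) (nat_lit 684006308) (nat_lit 228) (nat_lit 7031314244) (nat_lit 58) (nat_lit 5) (nat_lit 60) (nat_lit 5) (nat_lit 61) (nat_lit 5) (nat_lit 443) (nat_lit 346) (nat_lit 231)) (XT.lf (nat_lit 0) (nat_lit 7716155169) (nat_lit 76) (nat_lit 21472113767) (nat_lit 152) (nat_lit 15599068) (nat_lit 57) (nat_lit 5) (nat_lit 58) (nat_lit 5) (nat_lit 59) (nat_lit 4) (nat_lit 444) (nat_lit 346) (nat_lit 230)))) (XT.nd (nat_lit 156) (nat_lit 76) (nat_lit 0) (XT.nd (nat_lit 78) (nat_lit 152) (nat_lit 0) (XT.lf (nat_lit 0) (nat_lit 7139673471) (nat_lit 152) (nat_lit 6158143537) (nat_lit 76) (nat_lit 16521636390) (nat_lit 56) (nat_lit 5) (nat_lit 58) (nat_lit 5) (nat_lit 57) (nat_lit 5) (nat_lit 445) (nat_lit 346) (nat_lit 229)) (XT.lf (nat_lit 0) (nat_lit 9794388060) (nat_lit 152) (nat_lit 4793845562) (nat_lit 228) (nat_lit 15862901011) (nat_lit 54) (nat_lit 5) (nat_lit 56) (nat_lit 5) (nat_lit 57) (nat_lit 5) (nat_lit 446)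 (nat_lit 346) (nat_lit 228))) (XT.nd (nat_lit 78) (nat_lit 76) (nat_lit 0) (XT.lf (nat_lit 0) (nat_lit 22346017493) (nat_lit 228) (nat_lit 4814852957) (nat_lit 76) (nat_lit 3938324017) (nat_lit 54) (nat_lit 5) (nat_lit 57) (nat_lit 5) (nat_lit 55) (nat_lit 4) (nat_lit 447) (nat_lit 346) (nat_lit 227)) (XT.lf (nat_lit 0) (nat_lit 11655129676) (nat_lit 76) (nat_lit 18826196211) (nat_lit 152) (nat_lit 1281027612) (nat_lit 53) (nat_lit 5) (nat_lit 54) (nat_lit 5) (nat_lit 55) (nat_lit 4) (nat_lit 448) (nat_lit 346) (nat_lit 226))))) (XT.nd (nat_lit 312) (nat_lit 304) (nat_lit 0) (XT.nd (nat_lit 156) (nat_lit 76) (nat_lit 0) (XT.nd (nat_lit 78) (nat_lit 152) (nat_lit 0) (XT.lf (nat_lit 0) (nat_lit 6324518894) (nat_lit 152) (nat_lit 3815350967) (nat_lit 76) (nat_lit 22302655939) (nat_lit 52) (nat_lit 5) (nat_lit 54) (nat_lit 5) (nat_lit 53) (nat_lit 5) (nat_lit 449) (nat_lit 346) (nat_lit 225)) (XT.lf (nat_lit 0) (nat_lit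 13183478197) (nat_lit 152) (nat_lit 1061477597) (nat_lit 228) (nat_lit 18894393870) (nat_lit 50) (nat_lit 5) (nat_lit 52) (nat_lit 5) (nat_lit 53) (nat_lit 5) (nat_lit 450) (nat_lit 346) (nat_lit 224))) (XT.nd (nat_lit 78) (nat_lit 76) (nat_lit 0) (XT.lf (nat_lit 0) (nat_lit 22507388679) (nat_lit 228) (nat_lit 3191925401) (nat_lit 76) (nat_lit 8154633684) (nat_lit 50) (nat_lit 5) (nat_lit 53) (nat_lit 5) (nat_lit 51) (nat_lit 4) (nat_lit 451) (nat_lit 346) (nat_lit 223)) (XT.lf (nat_lit 0) (nat_lit 14318174926) (nat_lit 76) (nat_lit 16833870527) (nat_lit 152) (nat_lit 3433908804) (nat_lit 49) (nat_lit 5) (nat_lit 50) (nat_lit 5) (nat_lit 51) (nat_lit 4) (nat_lit 452) (nat_lit 346) (nat_lit 222)))) (XT.nd (nat_lit 156) (nat_lit 76) (nat_lit 0) (XT.nd (nat_lit 78) (nat_lit 152) (nat_lit 0) (XT.lf (nat_lit 0) (nat_lit 4642871602) (nat_lit 152) (nat_lit 2991274861) (nat_lit 76) (nat_lit 27703852003) (nat_lit 48) (nat_lit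 5) (nat_lit 50) (nat_lit 5) (nat_lit 49) (nat_lit 5) (nat_lit 453) (nat_lit 346) (nat_lit 221)) (XT.lf (nat_lit 0) (nat_lit 13043480107) (nat_lit 228) (nat_lit 21088965671) (nat_lit 76) (nat_lit 1974622860) (nat_lit 46) (nat_lit 5) (nat_lit 49) (nat_lit 5) (nat_lit 47) (nat_lit 4) (nat_lit 454) (nat_lit 346) (nat_lit 220))) (XT.nd (nat_lit 78) (nat_lit 76) (nat_lit 0) (XT.lf (nat_lit 0) (nat_lit 21788868439) (nat_lit 228) (nat_lit 3370081132) (nat_lit 76) (nat_lit 11737479366) (nat_lit 46) (nat_lit 5) (nat_lit 49) (nat_lit 5) (nat_lit 47) (nat_lit 4) (nat_lit 455) (nat_lit 346) (nat_lit 219)) (XT.lf (nat_lit 0) (nat_lit 15151791253) (nat_lit 76) (nat_lit 15777534564) (nat_lit 152) (nat_lit 6776163850) (nat_lit 45) (nat_lit 5) (nat_lit 46) (nat_lit 5) (nat_lit 47) (nat_lit 4) (nat_lit 456) (nat_lit 346) (nat_lit 218))))))) (XT.nd (nat_lit 1092) (nat_lit 684) (nat_lit 0) (XT.nd (nat_lit 546) (nat_lit 304) (nat_lit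 0) (XT.nd (nat_lit 234) (nat_lit 304) (nat_lit 0) (XT.nd (nat_lit 78) (nat_lit 152) (nat_lit 0) (XT.lf (nat_lit 0) (nat_lit 1791395166) (nat_lit 152) (nat_lit 4281352489) (nat_lit 76) (nat_lit 32464911408) (nat_lit 44) (nat_lit 5) (nat_lit 46) (nat_lit 5) (nat_lit 45) (nat_lit 5) (nat_lit 457) (nat_lit 346) (nat_lit 217)) (XT.nd (nat_lit 78) (nat_lit 0) (nat_lit 0) (XT.lf (nat_lit 0) (nat_lit 10648565963) (nat_lit 228) (nat_lit 24692512725) (nat_lit 76) (nat_lit 4046639526) (nat_lit 42) (nat_lit 5) (nat_lit 45) (nat_lit 5) (nat_lit 43) (nat_lit 4) (nat_lit 458) (nat_lit 346) (nat_lit 216)) (XT.lf (nat_lit 0) (nat_lit 19862729749) (nat_lit 228) (nat_lit 6017307847) (nat_lit 76) (nat_lit 14380503958) (nat_lit 42) (nat_lit 5) (nat_lit 45) (nat_lit 5) (nat_lit 43) (nat_lit 4) (nat_lit 459) (nat_lit 346) (nat_lit 215)))) (XT.nd (nat_lit 156) (nat_lit 228) (nat_lit 0) (XT.nd (nat_lit 78) (nat_lit 0) (nat_lit 0) (XT.lf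 (nat_lit 0) (nat_lit 13457856494) (nat_lit 76) (nat_lit 16012681796) (nat_lit 152) (nat_lit 11685495437) (nat_lit 41) (nat_lit 5) (nat_lit 42) (nat_lit 5) (nat_lit 43) (nat_lit 4) (nat_lit 460) (nat_lit 346) (nat_lit 214)) (XT.lf (nat_lit 0) (nat_lit 33617941328) (nat_lit 76) (nat_lit 5797393163) (nat_lit 152) (nat_lit 2661594278) (nat_lit 41) (nat_lit 5) (nat_lit 42) (nat_lit 5) (nat_lit 43) (nat_lit 4) (nat_lit 461) (nat_lit 346) (nat_lit 213))) (XT.nd (nat_lit 78) (nat_lit 0) (nat_lit 0) (XT.lf (nat_lit 0) (nat_lit 6649355337) (nat_lit 228) (nat_lit 31571932874) (nat_lit 76) (nat_lit 4797877328) (nat_lit 38) (nat_lit 5) (nat_lit 41) (nat_lit 5) (nat_lit 39) (nat_lit 4) (nat_lit 462) (nat_lit 346) (nat_lit 212)) (XT.lf (nat_lit 0) (nat_lit 16318058168) (nat_lit 228) (nat_lit 11969954153) (nat_lit 76) (nat_lit 15696909562) (nat_lit 38) (nat_lit 5) (nat_lit 41) (nat_lit 5) (nat_lit 39) (nat_lit 4) (nat_lit 463)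 (nat_lit 346) (nat_lit 211))))) (XT.nd (nat_lit 234) (nat_lit 76) (nat_lit 0) (XT.nd (nat_lit 78) (nat_lit 152) (nat_lit 0) (XT.lf (nat_lit 0) (nat_lit 8361608685) (nat_lit 76) (nat_lit 17984187657) (nat_lit 152) (nat_lit 18631785974) (nat_lit 37) (nat_lit 5) (nat_lit 38) (nat_lit 5) (nat_lit 39) (nat_lit 4) (nat_lit 464) (nat_lit 346) (nat_lit 210)) (XT.nd (nat_lit 78) (nat_lit 152) (nat_lit 0) (XT.lf (nat_lit 0) (nat_lit 29527062548) (nat_lit 76) (nat_lit 7256900676) (nat_lit 152) (nat_lit 9212772050) (nat_lit 37) (nat_lit 5) (nat_lit 38) (nat_lit 5) (nat_lit 39) (nat_lit 4) (nat_lit 465) (nat_lit 346) (nat_lit 209)) (XT.lf (nat_lit 0) (nat_lit 546752084) (nat_lit 152) (nat_lit 42742236910) (nat_lit 76) (nat_lit 3755309091) (nat_lit 35) (nat_lit 5) (nat_lit 37) (nat_lit 5) (nat_lit 36) (nat_lit 4) (nat_lit 466) (nat_lit 346) (nat_lit 208)))) (XT.nd (nat_lit 156) (nat_lit 76) (nat_lit 0) (XT.nd (nat_lit 78) (nat_lit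 0) (nat_lit 0) (XT.lf (nat_lit 0) (nat_lit 10642672782) (nat_lit 152) (nat_lit 22269504088) (nat_lit 76) (nat_lit 15201511648) (nat_lit 35) (nat_lit 5) (nat_lit 37) (nat_lit 5) (nat_lit 36) (nat_lit 4) (nat_lit 467) (nat_lit 346) (nat_lit 207)) (XT.lf (nat_lit 0) (nat_lit 21030762251) (nat_lit 152) (nat_lit 1203028287) (nat_lit 76) (nat_lit 26981691933) (nat_lit 35) (nat_lit 5) (nat_lit 37) (nat_lit 5) (nat_lit 36) (nat_lit 4) (nat_lit 468) (nat_lit 346) (nat_lit 206))) (XT.nd (nat_lit 78) (nat_lit 0) (nat_lit 0) (XT.lf (nat_lit 0) (nat_lit 20883102643) (nat_lit 76) (nat_lit 11037735976) (nat_lit 152) (nat_lit 18423781823) (nat_lit 34) (nat_lit 5) (nat_lit 35) (nat_lit 5) (nat_lit 36) (nat_lit 4) (nat_lit 469) (nat_lit 346) (nat_lit 205)) (XT.lf (nat_lit 0) (nat_lit 43144263308) (nat_lit 152) (nat_lit 7875528654) (nat_lit 0) (nat_lit 487641719) (nat_lit 34) (nat_lit 5) (nat_lit 36) (nat_lit 4) (nat_lit 34) (nat_lit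 4) (nat_lit 470) (nat_lit 346) (nat_lit 204)))))) (XT.nd (nat_lit 546) (nat_lit 304) (nat_lit 0) (XT.nd (nat_lit 234) (nat_lit 152) (nat_lit 0) (XT.nd (nat_lit 78) (nat_lit 76) (nat_lit 0) (XT.lf (nat_lit 0) (nat_lit 2201327909) (nat_lit 152) (nat_lit 38206891418) (nat_lit 76) (nat_lit 12289103492) (nat_lit 32) (nat_lit 5) (nat_lit 34) (nat_lit 5) (nat_lit 33) (nat_lit 4) (nat_lit 471) (nat_lit 346) (nat_lit 203)) (XT.nd (nat_lit 78) (nat_lit 76) (nat_lit 0) (XT.lf (nat_lit 0) (nat_lit 12984924215) (nat_lit 152) (nat_lit 16334604008) (nat_lit 76) (nat_lit 24598789128) (nat_lit 32) (nat_lit 5) (nat_lit 34) (nat_lit 5) (nat_lit 33) (nat_lit 4) (nat_lit 472) (nat_lit 346) (nat_lit 202)) (XT.lf (nat_lit 0) (nat_lit 6298010042) (nat_lit 76) (nat_lit 17844791433) (nat_lit 152) (nat_lit 31031617506) (nat_lit 31) (nat_lit 5) (nat_lit 32) (nat_lit 5) (nat_lit 33) (nat_lit 4) (nat_lit 473) (nat_lit 346) (nat_lit 201))))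 (XT.nd (nat_lit 156) (nat_lit 152) (nat_lit 0) (XT.nd (nat_lit 78) (nat_lit 0) (nat_lit 0) (XT.lf (nat_lit 0) (nat_lit 29925890754) (nat_lit 76) (nat_lit 5864810631) (nat_lit 152) (nat_lit 20672844125) (nat_lit 31) (nat_lit 5) (nat_lit 32) (nat_lit 5) (nat_lit 33) (nat_lit 4) (nat_lit 474) (nat_lit 346) (nat_lit 200)) (XT.lf (nat_lit 0) (nat_lit 47840813064) (nat_lit 152) (nat_lit 3609188975) (nat_lit 0) (nat_lit 6339760981) (nat_lit 31) (nat_lit 5) (nat_lit 33) (nat_lit 4) (nat_lit 31) (nat_lit 4) (nat_lit 475) (nat_lit 346) (nat_lit 199))) (XT.nd (nat_lit 78) (nat_lit 0) (nat_lit 0) (XT.lf (nat_lit 0) (nat_lit 1321965481) (nat_lit 152) (nat_lit 38833345451) (nat_lit 76) (nat_lit 18992739145) (nat_lit 29) (nat_lit 5) (nat_lit 31) (nat_lit 5) (nat_lit 30) (nat_lit 4) (nat_lit 476) (nat_lit 346) (nat_lit 198)) (XT.lf (nat_lit 0) (nat_lit 12758672680) (nat_lit 152) (nat_lit 15632250512) (nat_lit 76) (nat_lit 32152378961)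 (nat_lit 29) (nat_lit 5) (nat_lit 31) (nat_lit 5) (nat_lit 30) (nat_lit 4) (nat_lit 477) (nat_lit 346) (nat_lit 197))))) (XT.nd (nat_lit 312) (nat_lit 152) (nat_lit 0) (XT.nd (nat_lit 156) (nat_lit 76) (nat_lit 0) (XT.nd (nat_lit 78) (nat_lit 0) (nat_lit 0) (XT.lf (nat_lit 0) (nat_lit 8411845290) (nat_lit 76) (nat_lit 16198584695) (nat_lit 152) (nat_lit 37367823718) (nat_lit 28) (nat_lit 5) (nat_lit 29) (nat_lit 5) (nat_lit 30) (nat_lit 4) (nat_lit 478) (nat_lit 346) (nat_lit 196)) (XT.lf (nat_lit 0) (nat_lit 33480700799) (nat_lit 76) (nat_lit 3486079420) (nat_lit 152) (nat_lit 26485002745) (nat_lit 28) (nat_lit 5) (nat_lit 29) (nat_lit 5) (nat_lit 30) (nat_lit 4) (nat_lit 479) (nat_lit 346) (nat_lit 195))) (XT.nd (nat_lit 78) (nat_lit 76) (nat_lit 0) (XT.lf (nat_lit 0) (nat_lit 49777542420) (nat_lit 152) (nat_lit 5776946391) (nat_lit 0) (nat_lit 9412518005) (nat_lit 28) (nat_lit 5) (nat_lit 30) (nat_lit 4) (nat_lit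 28) (nat_lit 4) (nat_lit 480) (nat_lit 346) (nat_lit 194)) (XT.lf (nat_lit 0) (nat_lit 19472263861) (nat_lit 76) (nat_lit 43713675470) (nat_lit 76) (nat_lit 3335349045) (nat_lit 27) (nat_lit 4) (nat_lit 28) (nat_lit 5) (nat_lit 28) (nat_lit 4) (nat_lit 481) (nat_lit 346) (nat_lit 193)))) (XT.nd (nat_lit 156) (nat_lit 0) (nat_lit 0) (XT.nd (nat_lit 78) (nat_lit 76) (nat_lit 0) (XT.lf (nat_lit 0) (nat_lit 8751756217) (nat_lit 152) (nat_lit 22625175875) (nat_lit 76) (nat_lit 36741191303) (nat_lit 26) (nat_lit 5) (nat_lit 28) (nat_lit 5) (nat_lit 27) (nat_lit 4) (nat_lit 482) (nat_lit 346) (nat_lit 192)) (XT.lf (nat_lit 0) (nat_lit 2532030229) (nat_lit 76) (nat_lit 18618614916) (nat_lit 152) (nat_lit 48610741709) (nat_lit 25) (nat_lit 5) (nat_lit 26) (nat_lit 5) (nat_lit 27) (nat_lit 4) (nat_lit 483) (nat_lit 346) (nat_lit 191))) (XT.nd (nat_lit 78) (nat_lit 0) (nat_lit 0) (XT.lf (nat_lit 0) (nat_lit 28892157025) (nat_lit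 76) (nat_lit 5249768917) (nat_lit 152) (nat_lit 37305409827) (nat_lit 25) (nat_lit 5) (nat_lit 26) (nat_lit 5) (nat_lit 27) (nat_lit 4) (nat_lit 484) (nat_lit 346) (nat_lit 190)) (XT.lf (nat_lit 0) (nat_lit 47596965174) (nat_lit 152) (nat_lit 17237975904) (nat_lit 0) (nat_lit 8346701774) (nat_lit 25) (nat_lit 5) (nat_lit 27) (nat_lit 4) (nat_lit 25) (nat_lit 4) (nat_lit 485) (nat_lit 346) (nat_lit 189))))))))
noncomputable def xc118 : XT := (XT.nd (nat_lit 44226) (nat_lit 0) (nat_lit 8664) (XT.nd (nat_lit 43056) (nat_lit 0) (nat_lit 17480) (XT.nd (nat_lit 42510) (nat_lit 0) (nat_lit 25232) (XT.nd (nat_lit 234) (nat_lit 76) (nat_lit 0) (XT.nd (nat_lit 78) (nat_lit 76) (nat_lit 0) (XT.lf (nat_lit 0) (nat_lit 8946489406) (nat_lit 76) (nat_lit 52639491941) (nat_lit 76) (nat_lit 13378088317) (nat_lit 24) (nat_lit 4) (nat_lit 25) (nat_lit 5) (nat_lit 25) (nat_lit 4) (nat_lit 486) (nat_lit 346) (nat_lit 188)) (XT.nd (nat_lit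 78) (nat_lit 76) (nat_lit 0) (XT.lf (nat_lit 0) (nat_lit 36255141973) (nat_lit 76) (nat_lit 39906025984) (nat_lit 76) (nat_lit 633806609) (nat_lit 24) (nat_lit 4) (nat_lit 25) (nat_lit 5) (nat_lit 25) (nat_lit 4) (nat_lit 487) (nat_lit 346) (nat_lit 187)) (XT.lf (nat_lit 0) (nat_lit 12241601593) (nat_lit 152) (nat_lit 14432268867) (nat_lit 76) (nat_lit 52003556437) (nat_lit 23) (nat_lit 5) (nat_lit 25) (nat_lit 5) (nat_lit 24) (nat_lit 4) (nat_lit 488) (nat_lit 346) (nat_lit 186)))) (XT.nd (nat_lit 42120) (nat_lit 0) (nat_lit 26448) (XT.nd (nat_lit 42042) (nat_lit 0) (nat_lit 26980) (XT.lf (nat_lit 0) (nat_lit 12685784129) (nat_lit 76) (nat_lit 12919486370) (nat_lit 152) (nat_lit 55007452178) (nat_lit 22) (nat_lit 5) (nat_lit 23) (nat_lit 5) (nat_lit 24) (nat_lit 4) (nat_lit 489) (nat_lit 346) (nat_lit 185)) (XT.lf (nat_lit 0) (nat_lit 2692053387) (nat_lit 532) (nat_lit 316760233) (nat_lit 532) (nat_lit 316760233)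 (nat_lit 377) (nat_lit 3) (nat_lit 384) (nat_lit 3) (nat_lit 384) (nat_lit 5) (nat_lit 347) (nat_lit 347) (nat_lit 326))) (XT.nd (nat_lit 78) (nat_lit 0) (nat_lit 0) (XT.lf (nat_lit 0) (nat_lit 1006197571) (nat_lit 532) (nat_lit 4021245698) (nat_lit 608) (nat_lit 1654726263) (nat_lit 370) (nat_lit 5) (nat_lit 377) (nat_lit 3) (nat_lit 378) (nat_lit 5) (nat_lit 348) (nat_lit 347) (nat_lit 325)) (XT.lf (nat_lit 0) (nat_lit 3240717500) (nat_lit 532) (nat_lit 706635324) (nat_lit 608) (nat_lit 2768879324) (nat_lit 370) (nat_lit 5) (nat_lit 377) (nat_lit 3) (nat_lit 378) (nat_lit 5) (nat_lit 349) (nat_lit 347) (nat_lit 324))))) (XT.nd (nat_lit 234) (nat_lit 608) (nat_lit 0) (XT.nd (nat_lit 78) (nat_lit 608) (nat_lit 0) (XT.lf (nat_lit 76) (nat_lit 2714474829) (nat_lit 0) (nat_lit 2768541762) (nat_lit 608) (nat_lit 1270119492) (nat_lit 371) (nat_lit 5) (nat_lit 370) (nat_lit 5) (nat_lit 378) (nat_lit 5) (nat_lit 350)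 (nat_lit 347) (nat_lit 323)) (XT.nd (nat_lit 78) (nat_lit 0) (nat_lit 0) (XT.lf (nat_lit 0) (nat_lit 904936962) (nat_lit 608) (nat_lit 595098569) (nat_lit 684) (nat_lit 5293170929) (nat_lit 362) (nat_lit 5) (nat_lit 370) (nat_lit 5) (nat_lit 371) (nat_lit 5) (nat_lit 351) (nat_lit 347) (nat_lit 322)) (XT.lf (nat_lit 76) (nat_lit 2950981740) (nat_lit 0) (nat_lit 115388098) (nat_lit 684) (nat_lit 3769370467) (nat_lit 363) (nat_lit 5) (nat_lit 362) (nat_lit 5) (nat_lit 371) (nat_lit 5) (nat_lit 352) (nat_lit 347) (nat_lit 321)))) (XT.nd (nat_lit 156) (nat_lit 0) (nat_lit 0) (XT.nd (nat_lit 78) (nat_lit 684) (nat_lit 0) (XT.lf (nat_lit 0) (nat_lit 5231875919) (nat_lit 608) (nat_lit 324496338) (nat_lit 684) (nat_lit 1325038094) (nat_lit 363) (nat_lit 5) (nat_lit 371) (nat_lit 5) (nat_lit 372) (nat_lit 5) (nat_lit 353) (nat_lit 347) (nat_lit 320)) (XT.lf (nat_lit 0) (nat_lit 479329234) (nat_lit 684) (nat_lit 3574202409)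 (nat_lit 760) (nat_lit 2876124330) (nat_lit 354) (nat_lit 5) (nat_lit 363) (nat_lit 5) (nat_lit 364) (nat_lit 5) (nat_lit 354) (nat_lit 347) (nat_lit 319))) (XT.nd (nat_lit 78) (nat_lit 0) (nat_lit 0) (XT.lf (nat_lit 76) (nat_lit 111209282) (nat_lit 0) (nat_lit 2455970409) (nat_lit 760) (nat_lit 4413865011) (nat_lit 355) (nat_lit 5) (nat_lit 354) (nat_lit 5) (nat_lit 364) (nat_lit 5) (nat_lit 355) (nat_lit 347) (nat_lit 318)) (XT.lf (nat_lit 76) (nat_lit 3933120088) (nat_lit 0) (nat_lit 746296293) (nat_lit 760) (nat_lit 2355739145) (nat_lit 355) (nat_lit 5) (nat_lit 354) (nat_lit 5) (nat_lit 364) (nat_lit 5) (nat_lit 356) (nat_lit 347) (nat_lit 317)))))) (XT.nd (nat_lit 546) (nat_lit 5472) (nat_lit 0) (XT.nd (nat_lit 234) (nat_lit 1596) (nat_lit 0) (XT.nd (nat_lit 78) (nat_lit 760) (nat_lit 0) (XT.lf (nat_lit 76) (nat_lit 734985462) (nat_lit 0) (nat_lit 6064929109) (nat_lit 760) (nat_lit 292660268) (nat_lit 356)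 (nat_lit 5) (nat_lit 355) (nat_lit 5) (nat_lit 365) (nat_lit 5) (nat_lit 357) (nat_lit 347) (nat_lit 316)) (XT.nd (nat_lit 78) (nat_lit 0) (nat_lit 0) (XT.lf (nat_lit 0) (nat_lit 1764563116) (nat_lit 760) (nat_lit 2474754517) (nat_lit 836) (nat_lit 2912860646) (nat_lit 345) (nat_lit 5) (nat_lit 355) (nat_lit 5) (nat_lit 356) (nat_lit 5) (nat_lit 358) (nat_lit 347) (nat_lit 315)) (XT.lf (nat_lit 76) (nat_lit 1503065275) (nat_lit 0) (nat_lit 2320056009) (nat_lit 836) (nat_lit 3392025881) (nat_lit 346) (nat_lit 5) (nat_lit 345) (nat_lit 5) (nat_lit 356) (nat_lit 5) (nat_lit 359) (nat_lit 347) (nat_lit 314)))) (XT.nd (nat_lit 156) (nat_lit 836) (nat_lit 0) (XT.nd (nat_lit 78) (nat_lit 760) (nat_lit 0) (XT.lf (nat_lit 76) (nat_lit 5603486927) (nat_lit 0) (nat_lit 297543276) (nat_lit 836) (nat_lit 1380275523) (nat_lit 346) (nat_lit 5) (nat_lit 345) (nat_lit 5) (nat_lit 356) (nat_lit 5) (nat_lit 360) (nat_lit 347) (nat_lit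 313)) (XT.lf (nat_lit 0) (nat_lit 653623438) (nat_lit 836) (nat_lit 4896562747) (nat_lit 76) (nat_lit 1799831263) (nat_lit 335) (nat_lit 5) (nat_lit 346) (nat_lit 5) (nat_lit 336) (nat_lit 5) (nat_lit 361) (nat_lit 347) (nat_lit 312))) (XT.nd (nat_lit 78) (nat_lit 836) (nat_lit 0) (XT.lf (nat_lit 0) (nat_lit 2676389521) (nat_lit 836) (nat_lit 743094871) (nat_lit 76) (nat_lit 4002254393) (nat_lit 335) (nat_lit 5) (nat_lit 346) (nat_lit 5) (nat_lit 336) (nat_lit 5) (nat_lit 362) (nat_lit 347) (nat_lit 311)) (XT.lf (nat_lit 0) (nat_lit 3556718457) (nat_lit 836) (nat_lit 1174722998) (nat_lit 912) (nat_lit 2765047479) (nat_lit 324) (nat_lit 5) (nat_lit 335) (nat_lit 5) (nat_lit 336) (nat_lit 5) (nat_lit 363) (nat_lit 347) (nat_lit 310))))) (XT.nd (nat_lit 312) (nat_lit 3496) (nat_lit 0) (XT.nd (nat_lit 156) (nat_lit 988) (nat_lit 0) (XT.nd (nat_lit 78) (nat_lit 76) (nat_lit 0) (XT.lf (nat_lit 0) (nat_lit 374613475)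 (nat_lit 912) (nat_lit 6434561319) (nat_lit 988) (nat_lit 765500419) (nat_lit 312) (nat_lit 5) (nat_lit 324) (nat_lit 5) (nat_lit 325) (nat_lit 5) (nat_lit 364) (nat_lit 347) (nat_lit 309)) (XT.lf (nat_lit 0) (nat_lit 1260203853) (nat_lit 988) (nat_lit 2829221214) (nat_lit 76) (nat_lit 3565689298) (nat_lit 311) (nat_lit 5) (nat_lit 324) (nat_lit 5) (nat_lit 312) (nat_lit 5) (nat_lit 365) (nat_lit 347) (nat_lit 308))) (XT.nd (nat_lit 78) (nat_lit 0) (nat_lit 0) (XT.lf (nat_lit 0) (nat_lit 1648860750) (nat_lit 988) (nat_lit 1639654668) (nat_lit 1064) (nat_lit 4450529679) (nat_lit 298) (nat_lit 5) (nat_lit 311) (nat_lit 5) (nat_lit 312) (nat_lit 5) (nat_lit 366) (nat_lit 347) (nat_lit 307)) (XT.lf (nat_lit 0) (nat_lit 5357730979) (nat_lit 1064) (nat_lit 1563969749) (nat_lit 76) (nat_lit 904413170) (nat_lit 298) (nat_lit 5) (nat_lit 312) (nat_lit 5) (nat_lit 299) (nat_lit 5) (nat_lit 367) (nat_lit 347) (nat_lit 306))))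 (XT.nd (nat_lit 156) (nat_lit 2356) (nat_lit 0) (XT.nd (nat_lit 78) (nat_lit 76) (nat_lit 0) (XT.lf (nat_lit 0) (nat_lit 3093781628) (nat_lit 1064) (nat_lit 4385591997) (nat_lit 1140) (nat_lit 436731772) (nat_lit 284) (nat_lit 5) (nat_lit 298) (nat_lit 5) (nat_lit 299) (nat_lit 5) (nat_lit 368) (nat_lit 347) (nat_lit 305)) (XT.lf (nat_lit 0) (nat_lit 1584483578) (nat_lit 1140) (nat_lit 150097951) (nat_lit 76) (nat_lit 6274929737) (nat_lit 283) (nat_lit 5) (nat_lit 298) (nat_lit 5) (nat_lit 284) (nat_lit 5) (nat_lit 369) (nat_lit 347) (nat_lit 304))) (XT.nd (nat_lit 78) (nat_lit 1216) (nat_lit 0) (XT.lf (nat_lit 0) (nat_lit 3659457143) (nat_lit 1216) (nat_lit 3413848554) (nat_lit 76) (nat_lit 1032246260) (nat_lit 268) (nat_lit 5) (nat_lit 284) (nat_lit 5) (nat_lit 269) (nat_lit 5) (nat_lit 370) (nat_lit 347) (nat_lit 303)) (XT.lf (nat_lit 0) (nat_lit 1439538326) (nat_lit 1216) (nat_lit 4337416638) (nat_lit 1292)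 (nat_lit 2428129448) (nat_lit 252) (nat_lit 5) (nat_lit 268) (nat_lit 5) (nat_lit 269) (nat_lit 5) (nat_lit 371) (nat_lit 347) (nat_lit 302))))))) (XT.nd (nat_lit 1092) (nat_lit 4104) (nat_lit 0) (XT.nd (nat_lit 546) (nat_lit 2128) (nat_lit 0) (XT.nd (nat_lit 234) (nat_lit 1824) (nat_lit 0) (XT.nd (nat_lit 78) (nat_lit 760) (nat_lit 0) (XT.lf (nat_lit 0) (nat_lit 6460215072) (nat_lit 1216) (nat_lit 1481026514) (nat_lit 1292) (nat_lit 366881585) (nat_lit 252) (nat_lit 5) (nat_lit 268) (nat_lit 5) (nat_lit 269) (nat_lit 5) (nat_lit 372) (nat_lit 347) (nat_lit 301)) (XT.nd (nat_lit 78) (nat_lit 0) (nat_lit 0) (XT.lf (nat_lit 0) (nat_lit 1717153121) (nat_lit 760) (nat_lit 5213668314) (nat_lit 76) (nat_lit 1483085829) (nat_lit 242) (nat_lit 5) (nat_lit 252) (nat_lit 5) (nat_lit 243) (nat_lit 5) (nat_lit 373) (nat_lit 347) (nat_lit 300)) (XT.lf (nat_lit 0) (nat_lit 3840640304) (nat_lit 760) (nat_lit 152018632) (nat_lit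 76) (nat_lit 4530584505) (nat_lit 242) (nat_lit 5) (nat_lit 252) (nat_lit 5) (nat_lit 243) (nat_lit 5) (nat_lit 374) (nat_lit 347) (nat_lit 299)))) (XT.nd (nat_lit 156) (nat_lit 608) (nat_lit 0) (XT.nd (nat_lit 78) (nat_lit 608) (nat_lit 0) (XT.lf (nat_lit 0) (nat_lit 5113750361) (nat_lit 608) (nat_lit 915468102) (nat_lit 684) (nat_lit 2606615862) (nat_lit 234) (nat_lit 5) (nat_lit 242) (nat_lit 5) (nat_lit 243) (nat_lit 5) (nat_lit 375) (nat_lit 347) (nat_lit 298)) (XT.lf (nat_lit 0) (nat_lit 1752904302) (nat_lit 608) (nat_lit 6523783949) (nat_lit 684) (nat_lit 475333396) (nat_lit 226) (nat_lit 5) (nat_lit 234) (nat_lit 5) (nat_lit 235) (nat_lit 5) (nat_lit 376) (nat_lit 347) (nat_lit 297))) (XT.nd (nat_lit 78) (nat_lit 532) (nat_lit 0) (XT.lf (nat_lit 0) (nat_lit 1684908448) (nat_lit 684) (nat_lit 1687168555) (nat_lit 76) (nat_lit 5499178981) (nat_lit 225) (nat_lit 5) (nat_lit 234) (nat_lit 5) (nat_lit 226) (nat_lit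 5) (nat_lit 377) (nat_lit 347) (nat_lit 296)) (XT.lf (nat_lit 0) (nat_lit 3806196642) (nat_lit 532) (nat_lit 85745911) (nat_lit 608) (nat_lit 5102251851) (nat_lit 218) (nat_lit 5) (nat_lit 225) (nat_lit 5) (nat_lit 226) (nat_lit 5) (nat_lit 378) (nat_lit 347) (nat_lit 295))))) (XT.nd (nat_lit 234) (nat_lit 1064) (nat_lit 0) (XT.nd (nat_lit 78) (nat_lit 532) (nat_lit 0) (XT.lf (nat_lit 0) (nat_lit 304339781) (nat_lit 532) (nat_lit 5868476578) (nat_lit 608) (nat_lit 2947789743) (nat_lit 211) (nat_lit 5) (nat_lit 218) (nat_lit 5) (nat_lit 219) (nat_lit 5) (nat_lit 379) (nat_lit 347) (nat_lit 294)) (XT.nd (nat_lit 78) (nat_lit 532) (nat_lit 0) (XT.lf (nat_lit 0) (nat_lit 6019049679) (nat_lit 532) (nat_lit 2512907255) (nat_lit 608) (nat_lit 718571576) (nat_lit 211) (nat_lit 5) (nat_lit 218) (nat_lit 5) (nat_lit 219) (nat_lit 5) (nat_lit 380) (nat_lit 347) (nat_lit 293)) (XT.lf (nat_lit 0) (nat_lit 1537696990) (nat_lit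 532) (nat_lit 6886602563) (nat_lit 76) (nat_lit 959878203) (nat_lit 204) (nat_lit 5) (nat_lit 211) (nat_lit 5) (nat_lit 205) (nat_lit 5) (nat_lit 381) (nat_lit 347) (nat_lit 292)))) (XT.nd (nat_lit 156) (nat_lit 532) (nat_lit 0) (XT.nd (nat_lit 78) (nat_lit 532) (nat_lit 0) (XT.lf (nat_lit 0) (nat_lit 3863230675) (nat_lit 532) (nat_lit 1136530442) (nat_lit 76) (nat_lit 4521393761) (nat_lit 204) (nat_lit 5) (nat_lit 211) (nat_lit 5) (nat_lit 205) (nat_lit 5) (nat_lit 382) (nat_lit 347) (nat_lit 291)) (XT.lf (nat_lit 0) (nat_lit 4833669074) (nat_lit 532) (nat_lit 1430728085) (nat_lit 608) (nat_lit 3397680214) (nat_lit 197) (nat_lit 5) (nat_lit 204) (nat_lit 5) (nat_lit 205) (nat_lit 5) (nat_lit 383) (nat_lit 347) (nat_lit 290))) (XT.nd (nat_lit 78) (nat_lit 76) (nat_lit 0) (XT.lf (nat_lit 0) (nat_lit 1152801428) (nat_lit 456) (nat_lit 7589132178) (nat_lit 532) (nat_lit 1065175601) (nat_lit 191) (nat_lit 5) (nat_lit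 197) (nat_lit 5) (nat_lit 198) (nat_lit 5) (nat_lit 384) (nat_lit 347) (nat_lit 289)) (XT.lf (nat_lit 0) (nat_lit 1335005955) (nat_lit 532) (nat_lit 2617827721) (nat_lit 76) (nat_lit 6002569787) (nat_lit 190) (nat_lit 5) (nat_lit 197) (nat_lit 5) (nat_lit 191) (nat_lit 5) (nat_lit 385) (nat_lit 347) (nat_lit 288)))))) (XT.nd (nat_lit 546) (nat_lit 1900) (nat_lit 0) (XT.nd (nat_lit 234) (nat_lit 1292) (nat_lit 0) (XT.nd (nat_lit 78) (nat_lit 456) (nat_lit 0) (XT.lf (nat_lit 0) (nat_lit 3613380240) (nat_lit 456) (nat_lit 168683005) (nat_lit 532) (nat_lit 6325889251) (nat_lit 184) (nat_lit 5) (nat_lit 190) (nat_lit 5) (nat_lit 191) (nat_lit 5) (nat_lit 386) (nat_lit 347) (nat_lit 287)) (XT.nd (nat_lit 78) (nat_lit 456) (nat_lit 0) (XT.lf (nat_lit 0) (nat_lit 6327220696) (nat_lit 532) (nat_lit 262146561) (nat_lit 76) (nat_lit 3674980497) (nat_lit 184) (nat_lit 5) (nat_lit 191) (nat_lit 5) (nat_lit 185) (nat_lit 5)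 (nat_lit 387) (nat_lit 347) (nat_lit 286)) (XT.lf (nat_lit 0) (nat_lit 6231608275) (nat_lit 456) (nat_lit 2741945714) (nat_lit 532) (nat_lit 1451146351) (nat_lit 178) (nat_lit 5) (nat_lit 184) (nat_lit 5) (nat_lit 185) (nat_lit 5) (nat_lit 388) (nat_lit 347) (nat_lit 285)))) (XT.nd (nat_lit 156) (nat_lit 760) (nat_lit 0) (XT.nd (nat_lit 78) (nat_lit 0) (nat_lit 0) (XT.lf (nat_lit 0) (nat_lit 1088301237) (nat_lit 532) (nat_lit 8277323896) (nat_lit 76) (nat_lit 1223911879) (nat_lit 171) (nat_lit 5) (nat_lit 178) (nat_lit 5) (nat_lit 172) (nat_lit 5) (nat_lit 389) (nat_lit 347) (nat_lit 284)) (XT.lf (nat_lit 0) (nat_lit 3708727405) (nat_lit 532) (nat_lit 1747758568) (nat_lit 76) (nat_lit 5301392170) (nat_lit 171) (nat_lit 5) (nat_lit 178) (nat_lit 5) (nat_lit 172) (nat_lit 5) (nat_lit 390) (nat_lit 347) (nat_lit 283))) (XT.nd (nat_lit 78) (nat_lit 380) (nat_lit 0) (XT.lf (nat_lit 0) (nat_lit 5030807769) (nat_lit 380)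 (nat_lit 1390417348) (nat_lit 456) (nat_lit 4509649605) (nat_lit 166) (nat_lit 5) (nat_lit 171) (nat_lit 5) (nat_lit 172) (nat_lit 5) (nat_lit 391) (nat_lit 347) (nat_lit 282)) (XT.lf (nat_lit 0) (nat_lit 884670000) (nat_lit 380) (nat_lit 8349236195) (nat_lit 456) (nat_lit 1874599463) (nat_lit 161) (nat_lit 5) (nat_lit 166) (nat_lit 5) (nat_lit 167) (nat_lit 5) (nat_lit 392) (nat_lit 347) (nat_lit 281))))) (XT.nd (nat_lit 312) (nat_lit 1064) (nat_lit 0) (XT.nd (nat_lit 156) (nat_lit 380) (nat_lit 0) (XT.nd (nat_lit 78) (nat_lit 380) (nat_lit 0) (XT.lf (nat_lit 0) (nat_lit 862869510) (nat_lit 456) (nat_lit 3364004204) (nat_lit 76) (nat_lit 7063165459) (nat_lit 160) (nat_lit 5) (nat_lit 166) (nat_lit 5) (nat_lit 161) (nat_lit 5) (nat_lit 393) (nat_lit 347) (nat_lit 280)) (XT.lf (nat_lit 0) (nat_lit 3647879573) (nat_lit 456) (nat_lit 7765991779) (nat_lit 76) (nat_lit 62505666) (nat_lit 155) (nat_lit 5) (nat_lit 161)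 (nat_lit 5) (nat_lit 156) (nat_lit 5) (nat_lit 394) (nat_lit 347) (nat_lit 279))) (XT.nd (nat_lit 78) (nat_lit 380) (nat_lit 0) (XT.lf (nat_lit 0) (nat_lit 6559839767) (nat_lit 456) (nat_lit 688409895) (nat_lit 76) (nat_lit 4418761084) (nat_lit 155) (nat_lit 5) (nat_lit 161) (nat_lit 5) (nat_lit 156) (nat_lit 5) (nat_lit 395) (nat_lit 347) (nat_lit 278)) (XT.lf (nat_lit 0) (nat_lit 6688419871) (nat_lit 380) (nat_lit 2903229567) (nat_lit 456) (nat_lit 2270746847) (nat_lit 150) (nat_lit 5) (nat_lit 155) (nat_lit 5) (nat_lit 156) (nat_lit 5) (nat_lit 396) (nat_lit 347) (nat_lit 277)))) (XT.nd (nat_lit 156) (nat_lit 684) (nat_lit 0) (XT.nd (nat_lit 78) (nat_lit 0) (nat_lit 0) (XT.lf (nat_lit 0) (nat_lit 650264504) (nat_lit 380) (nat_lit 9848264920) (nat_lit 76) (nat_lit 1564567582) (nat_lit 145) (nat_lit 5) (nat_lit 150) (nat_lit 5) (nat_lit 146) (nat_lit 5) (nat_lit 397) (nat_lit 347) (nat_lit 276)) (XT.lf (nat_lit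 0) (nat_lit 3663553193) (nat_lit 380) (nat_lit 2432825948) (nat_lit 76) (nat_lit 6171263405) (nat_lit 145) (nat_lit 5) (nat_lit 150) (nat_lit 5) (nat_lit 146) (nat_lit 5) (nat_lit 398) (nat_lit 347) (nat_lit 275))) (XT.nd (nat_lit 78) (nat_lit 304) (nat_lit 0) (XT.lf (nat_lit 0) (nat_lit 5264904599) (nat_lit 380) (nat_lit 1522632417) (nat_lit 456) (nat_lit 5690185222) (nat_lit 140) (nat_lit 5) (nat_lit 145) (nat_lit 5) (nat_lit 146) (nat_lit 5) (nat_lit 399) (nat_lit 347) (nat_lit 274)) (XT.lf (nat_lit 0) (nat_lit 485382250) (nat_lit 304) (nat_lit 9550021923) (nat_lit 380) (nat_lit 2657801717) (nat_lit 136) (nat_lit 5) (nat_lit 140) (nat_lit 5) (nat_lit 141) (nat_lit 5) (nat_lit 400) (nat_lit 347) (nat_lit 273))))))))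
noncomputable def xc119 : XT := (XT.nd (nat_lit 2262) (nat_lit 2508) (nat_lit 0) (XT.nd (nat_lit 1092) (nat_lit 2052) (nat_lit 0) (XT.nd (nat_lit 546) (nat_lit 1140) (nat_lit 0) (XT.nd (nat_lit 234) (nat_lit 912) (nat_lit 0) (XT.nd (nat_lit 78) (nat_lit 304) (nat_lit 0) (XT.lf (nat_lit 0) (nat_lit 515303107) (nat_lit 380) (nat_lit 4414300218) (nat_lit 76) (nat_lit 7983657551) (nat_lit 135) (nat_lit 5) (nat_lit 140) (nat_lit 5) (nat_lit 136) (nat_lit 5) (nat_lit 401) (nat_lit 347) (nat_lit 272)) (XT.nd (nat_lit 78) (nat_lit 0) (nat_lit 0) (XT.lf (nat_lit 0) (nat_lit 3615079434) (nat_lit 304) (nat_lit 120923116) (nat_lit 380) (nat_lit 9402956830) (nat_lit 131) (nat_lit 5) (nat_lit 135) (nat_lit 5) (nat_lit 136) (nat_lit 5) (nat_lit 402) (nat_lit 347) (nat_lit 271)) (XT.lf (nat_lit 0) (nat_lit 7116172243) (nat_lit 380) (nat_lit 1483649035) (nat_lit 76) (nat_lit 4769727845) (nat_lit 131) (nat_lit 5) (nat_lit 136) (nat_lit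 5) (nat_lit 132) (nat_lit 5) (nat_lit 403) (nat_lit 347) (nat_lit 270)))) (XT.nd (nat_lit 156) (nat_lit 228) (nat_lit 0) (XT.nd (nat_lit 78) (nat_lit 380) (nat_lit 0) (XT.lf (nat_lit 0) (nat_lit 6889776561) (nat_lit 304) (nat_lit 3747613785) (nat_lit 380) (nat_lit 2968482505) (nat_lit 127) (nat_lit 5) (nat_lit 131) (nat_lit 5) (nat_lit 132) (nat_lit 5) (nat_lit 404) (nat_lit 347) (nat_lit 269)) (XT.lf (nat_lit 0) (nat_lit 422764352) (nat_lit 380) (nat_lit 12178015413) (nat_lit 76) (nat_lit 1247915046) (nat_lit 122) (nat_lit 5) (nat_lit 127) (nat_lit 5) (nat_lit 123) (nat_lit 5) (nat_lit 405) (nat_lit 347) (nat_lit 268))) (XT.nd (nat_lit 78) (nat_lit 228) (nat_lit 0) (XT.lf (nat_lit 0) (nat_lit 3934317118) (nat_lit 380) (nat_lit 3758896518) (nat_lit 76) (nat_lit 6402364221) (nat_lit 122) (nat_lit 5) (nat_lit 127) (nat_lit 5) (nat_lit 123) (nat_lit 5) (nat_lit 406) (nat_lit 347) (nat_lit 267)) (XT.lf (nat_lit 0)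 (nat_lit 4969285041) (nat_lit 228) (nat_lit 2603132333) (nat_lit 304) (nat_lit 6776818965) (nat_lit 119) (nat_lit 5) (nat_lit 122) (nat_lit 5) (nat_lit 123) (nat_lit 5) (nat_lit 407) (nat_lit 347) (nat_lit 266))))) (XT.nd (nat_lit 234) (nat_lit 532) (nat_lit 0) (XT.nd (nat_lit 78) (nat_lit 608) (nat_lit 0) (XT.lf (nat_lit 0) (nat_lit 11357055820) (nat_lit 304) (nat_lit 639489084) (nat_lit 76) (nat_lit 2612842640) (nat_lit 119) (nat_lit 5) (nat_lit 123) (nat_lit 5) (nat_lit 120) (nat_lit 5) (nat_lit 408) (nat_lit 347) (nat_lit 265)) (XT.nd (nat_lit 78) (nat_lit 228) (nat_lit 0) (XT.lf (nat_lit 0) (nat_lit 452898729) (nat_lit 380) (nat_lit 6416336298) (nat_lit 76) (nat_lit 8005532354) (nat_lit 114) (nat_lit 5) (nat_lit 119) (nat_lit 5) (nat_lit 115) (nat_lit 5) (nat_lit 409) (nat_lit 347) (nat_lit 264)) (XT.lf (nat_lit 0) (nat_lit 2674735938) (nat_lit 228) (nat_lit 1535982364) (nat_lit 304) (nat_lit 10936224661)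 (nat_lit 111) (nat_lit 5) (nat_lit 114) (nat_lit 5) (nat_lit 115) (nat_lit 5) (nat_lit 410) (nat_lit 347) (nat_lit 263)))) (XT.nd (nat_lit 156) (nat_lit 304) (nat_lit 0) (XT.nd (nat_lit 78) (nat_lit 228) (nat_lit 0) (XT.lf (nat_lit 0) (nat_lit 8159540619) (nat_lit 304) (nat_lit 3333858416) (nat_lit 76) (nat_lit 3931541021) (nat_lit 111) (nat_lit 5) (nat_lit 115) (nat_lit 5) (nat_lit 112) (nat_lit 5) (nat_lit 411) (nat_lit 347) (nat_lit 262)) (XT.lf (nat_lit 0) (nat_lit 6144592215) (nat_lit 228) (nat_lit 6132037407) (nat_lit 304) (nat_lit 3433157542) (nat_lit 108) (nat_lit 5) (nat_lit 111) (nat_lit 5) (nat_lit 112) (nat_lit 5) (nat_lit 412) (nat_lit 347) (nat_lit 261))) (XT.nd (nat_lit 78) (nat_lit 228) (nat_lit 0) (XT.lf (nat_lit 0) (nat_lit 513649188) (nat_lit 304) (nat_lit 70560138) (nat_lit 76) (nat_lit 15418537182) (nat_lit 107) (nat_lit 5) (nat_lit 111) (nat_lit 5) (nat_lit 108) (nat_lit 5) (nat_lit 413) (nat_lit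 347) (nat_lit 260)) (XT.lf (nat_lit 0) (nat_lit 4631129119) (nat_lit 304) (nat_lit 6522804131) (nat_lit 76) (nat_lit 5145907281) (nat_lit 104) (nat_lit 5) (nat_lit 108) (nat_lit 5) (nat_lit 105) (nat_lit 5) (nat_lit 414) (nat_lit 347) (nat_lit 259)))))) (XT.nd (nat_lit 546) (nat_lit 1064) (nat_lit 0) (XT.nd (nat_lit 234) (nat_lit 456) (nat_lit 0) (XT.nd (nat_lit 78) (nat_lit 304) (nat_lit 0) (XT.lf (nat_lit 0) (nat_lit 3337088273) (nat_lit 228) (nat_lit 5550162079) (nat_lit 304) (nat_lit 7718147213) (nat_lit 101) (nat_lit 5) (nat_lit 104) (nat_lit 5) (nat_lit 105) (nat_lit 5) (nat_lit 415) (nat_lit 347) (nat_lit 258)) (XT.nd (nat_lit 78) (nat_lit 304) (nat_lit 0) (XT.lf (nat_lit 0) (nat_lit 13316425214) (nat_lit 304) (nat_lit 3332548133) (nat_lit 76) (nat_lit 269790455) (nat_lit 101) (nat_lit 5) (nat_lit 105) (nat_lit 5) (nat_lit 102) (nat_lit 5) (nat_lit 416) (nat_lit 347) (nat_lit 257)) (XT.lf (nat_lit 0) (nat_lit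 724600418) (nat_lit 304) (nat_lit 10300810287) (nat_lit 76) (nat_lit 6212937468) (nat_lit 97) (nat_lit 5) (nat_lit 101) (nat_lit 5) (nat_lit 98) (nat_lit 5) (nat_lit 417) (nat_lit 347) (nat_lit 256)))) (XT.nd (nat_lit 156) (nat_lit 228) (nat_lit 0) (XT.nd (nat_lit 78) (nat_lit 228) (nat_lit 0) (XT.lf (nat_lit 0) (nat_lit 5120408711) (nat_lit 304) (nat_lit 55556695) (nat_lit 76) (nat_lit 12390144015) (nat_lit 97) (nat_lit 5) (nat_lit 101) (nat_lit 5) (nat_lit 98) (nat_lit 5) (nat_lit 418) (nat_lit 347) (nat_lit 255)) (XT.lf (nat_lit 0) (nat_lit 9737825910) (nat_lit 304) (nat_lit 7241082790) (nat_lit 76) (nat_lit 922105958) (nat_lit 94) (nat_lit 5) (nat_lit 98) (nat_lit 5) (nat_lit 95) (nat_lit 5) (nat_lit 419) (nat_lit 347) (nat_lit 254))) (XT.nd (nat_lit 78) (nat_lit 76) (nat_lit 0) (XT.lf (nat_lit 0) (nat_lit 3431615791) (nat_lit 152) (nat_lit 11125244231) (nat_lit 228) (nat_lit 3687217296) (nat_lit 92) (nat_lit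 5) (nat_lit 94) (nat_lit 5) (nat_lit 95) (nat_lit 5) (nat_lit 420) (nat_lit 347) (nat_lit 253)) (XT.lf (nat_lit 0) (nat_lit 957233100) (nat_lit 228) (nat_lit 4068151787) (nat_lit 76) (nat_lit 13570217361) (nat_lit 91) (nat_lit 5) (nat_lit 94) (nat_lit 5) (nat_lit 92) (nat_lit 5) (nat_lit 421) (nat_lit 347) (nat_lit 252))))) (XT.nd (nat_lit 312) (nat_lit 380) (nat_lit 0) (XT.nd (nat_lit 156) (nat_lit 456) (nat_lit 0) (XT.nd (nat_lit 78) (nat_lit 0) (nat_lit 0) (XT.lf (nat_lit 0) (nat_lit 5726799193) (nat_lit 304) (nat_lit 11903513053) (nat_lit 76) (nat_lit 1324471553) (nat_lit 88) (nat_lit 5) (nat_lit 92) (nat_lit 5) (nat_lit 89) (nat_lit 5) (nat_lit 422) (nat_lit 347) (nat_lit 251)) (XT.lf (nat_lit 0) (nat_lit 10709833584) (nat_lit 304) (nat_lit 821337631) (nat_lit 76) (nat_lit 7791460895) (nat_lit 88) (nat_lit 5) (nat_lit 92) (nat_lit 5) (nat_lit 89) (nat_lit 5) (nat_lit 423) (nat_lit 347) (nat_lit 250))) (XT.nd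 (nat_lit 78) (nat_lit 304) (nat_lit 0) (XT.lf (nat_lit 0) (nat_lit 10769141677) (nat_lit 152) (nat_lit 5156482475) (nat_lit 228) (nat_lit 3773396433) (nat_lit 86) (nat_lit 5) (nat_lit 88) (nat_lit 5) (nat_lit 89) (nat_lit 5) (nat_lit 424) (nat_lit 347) (nat_lit 249)) (XT.lf (nat_lit 0) (nat_lit 1215007549) (nat_lit 304) (nat_lit 17456608607) (nat_lit 76) (nat_lit 1413914165) (nat_lit 82) (nat_lit 5) (nat_lit 86) (nat_lit 5) (nat_lit 83) (nat_lit 5) (nat_lit 425) (nat_lit 347) (nat_lit 248)))) (XT.nd (nat_lit 156) (nat_lit 228) (nat_lit 0) (XT.nd (nat_lit 78) (nat_lit 152) (nat_lit 0) (XT.lf (nat_lit 0) (nat_lit 6399277290) (nat_lit 304) (nat_lit 5887199371) (nat_lit 76) (nat_lit 8192378666) (nat_lit 82) (nat_lit 5) (nat_lit 86) (nat_lit 5) (nat_lit 83) (nat_lit 5) (nat_lit 426) (nat_lit 347) (nat_lit 247)) (XT.lf (nat_lit 0) (nat_lit 6115123219) (nat_lit 152) (nat_lit 5663252470) (nat_lit 228) (nat_lit 9104427752)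 (nat_lit 80) (nat_lit 5) (nat_lit 82) (nat_lit 5) (nat_lit 83) (nat_lit 5) (nat_lit 427) (nat_lit 347) (nat_lit 246))) (XT.nd (nat_lit 78) (nat_lit 228) (nat_lit 0) (XT.lf (nat_lit 0) (nat_lit 17370655541) (nat_lit 228) (nat_lit 2744229599) (nat_lit 76) (nat_lit 1182432907) (nat_lit 80) (nat_lit 5) (nat_lit 83) (nat_lit 5) (nat_lit 81) (nat_lit 5) (nat_lit 428) (nat_lit 347) (nat_lit 245)) (XT.lf (nat_lit 0) (nat_lit 1511193180) (nat_lit 228) (nat_lit 11993852900) (nat_lit 76) (nat_lit 8214852533) (nat_lit 77) (nat_lit 5) (nat_lit 80) (nat_lit 5) (nat_lit 78) (nat_lit 5) (nat_lit 429) (nat_lit 347) (nat_lit 244))))))) (XT.nd (nat_lit 1092) (nat_lit 1064) (nat_lit 0) (XT.nd (nat_lit 546) (nat_lit 760) (nat_lit 0) (XT.nd (nat_lit 234) (nat_lit 380) (nat_lit 0) (XT.nd (nat_lit 78) (nat_lit 152) (nat_lit 0) (XT.lf (nat_lit 0) (nat_lit 408486616) (nat_lit 152) (nat_lit 6637936288) (nat_lit 228) (nat_lit 15107174655)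 (nat_lit 75) (nat_lit 5) (nat_lit 77) (nat_lit 5) (nat_lit 78) (nat_lit 5) (nat_lit 430) (nat_lit 347) (nat_lit 243)) (XT.nd (nat_lit 78) (nat_lit 152) (nat_lit 0) (XT.lf (nat_lit 0) (nat_lit 12855556269) (nat_lit 228) (nat_lit 9206092089) (nat_lit 76) (nat_lit 535425761) (nat_lit 75) (nat_lit 5) (nat_lit 78) (nat_lit 5) (nat_lit 76) (nat_lit 5) (nat_lit 431) (nat_lit 347) (nat_lit 242)) (XT.lf (nat_lit 0) (nat_lit 3683412855) (nat_lit 152) (nat_lit 15238573262) (nat_lit 228) (nat_lit 4129380173) (nat_lit 73) (nat_lit 5) (nat_lit 75) (nat_lit 5) (nat_lit 76) (nat_lit 5) (nat_lit 432) (nat_lit 347) (nat_lit 241)))) (XT.nd (nat_lit 156) (nat_lit 152) (nat_lit 0) (XT.nd (nat_lit 78) (nat_lit 152) (nat_lit 0) (XT.lf (nat_lit 0) (nat_lit 1694724720) (nat_lit 228) (nat_lit 6416859705) (nat_lit 76) (nat_lit 15404953852) (nat_lit 72) (nat_lit 5) (nat_lit 75) (nat_lit 5) (nat_lit 73) (nat_lit 5) (nat_lit 433) (nat_lit 347)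 (nat_lit 240)) (XT.lf (nat_lit 0) (nat_lit 6987269282) (nat_lit 152) (nat_lit 672917499) (nat_lit 228) (nat_lit 16332765001) (nat_lit 70) (nat_lit 5) (nat_lit 72) (nat_lit 5) (nat_lit 73) (nat_lit 5) (nat_lit 434) (nat_lit 347) (nat_lit 239))) (XT.nd (nat_lit 78) (nat_lit 152) (nat_lit 0) (XT.lf (nat_lit 0) (nat_lit 13919786069) (nat_lit 228) (nat_lit 3655524539) (nat_lit 76) (nat_lit 6904893650) (nat_lit 70) (nat_lit 5) (nat_lit 73) (nat_lit 5) (nat_lit 71) (nat_lit 5) (nat_lit 435) (nat_lit 347) (nat_lit 238)) (XT.lf (nat_lit 0) (nat_lit 10258511442) (nat_lit 152) (nat_lit 10196996138) (nat_lit 228) (nat_lit 4523918413) (nat_lit 68) (nat_lit 5) (nat_lit 70) (nat_lit 5) (nat_lit 71) (nat_lit 5) (nat_lit 436) (nat_lit 347) (nat_lit 237))))) (XT.nd (nat_lit 234) (nat_lit 380) (nat_lit 0) (XT.nd (nat_lit 78) (nat_lit 304) (nat_lit 0) (XT.lf (nat_lit 0) (nat_lit 1681005497) (nat_lit 228) (nat_lit 874447040) (nat_lit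 76) (nat_lit 22937073676) (nat_lit 67) (nat_lit 5) (nat_lit 70) (nat_lit 5) (nat_lit 68) (nat_lit 5) (nat_lit 437) (nat_lit 347) (nat_lit 236)) (XT.nd (nat_lit 78) (nat_lit 152) (nat_lit 0) (XT.lf (nat_lit 0) (nat_lit 8147971595) (nat_lit 228) (nat_lit 12490683450) (nat_lit 76) (nat_lit 5376017603) (nat_lit 65) (nat_lit 5) (nat_lit 68) (nat_lit 5) (nat_lit 66) (nat_lit 5) (nat_lit 438) (nat_lit 347) (nat_lit 235)) (XT.lf (nat_lit 0) (nat_lit 1800444297) (nat_lit 152) (nat_lit 13043696275) (nat_lit 228) (nat_lit 11707288611) (nat_lit 63) (nat_lit 5) (nat_lit 65) (nat_lit 5) (nat_lit 66) (nat_lit 5) (nat_lit 439) (nat_lit 347) (nat_lit 234)))) (XT.nd (nat_lit 156) (nat_lit 152) (nat_lit 0) (XT.nd (nat_lit 78) (nat_lit 228) (nat_lit 0) (XT.lf (nat_lit 0) (nat_lit 16747255551) (nat_lit 152) (nat_lit 5103934259) (nat_lit 228) (nat_lit 5249800226) (nat_lit 63) (nat_lit 5) (nat_lit 65) (nat_lit 5) (nat_lit 66) (nat_lit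 5) (nat_lit 440) (nat_lit 347) (nat_lit 233)) (XT.lf (nat_lit 0) (nat_lit 1431698710) (nat_lit 228) (nat_lit 23174166742) (nat_lit 76) (nat_lit 3059040545) (nat_lit 60) (nat_lit 5) (nat_lit 63) (nat_lit 5) (nat_lit 61) (nat_lit 5) (nat_lit 441) (nat_lit 347) (nat_lit 232))) (XT.nd (nat_lit 78) (nat_lit 152) (nat_lit 0) (XT.lf (nat_lit 0) (nat_lit 8348493006) (nat_lit 228) (nat_lit 8381996235) (nat_lit 76) (nat_lit 11509481219) (nat_lit 60) (nat_lit 5) (nat_lit 63) (nat_lit 5) (nat_lit 61) (nat_lit 5) (nat_lit 442) (nat_lit 347) (nat_lit 231)) (XT.lf (nat_lit 0) (nat_lit 6961992360) (nat_lit 152) (nat_lit 8562425181) (nat_lit 228) (nat_lit 13306321836) (nat_lit 58) (nat_lit 5) (nat_lit 60) (nat_lit 5) (nat_lit 61) (nat_lit 5) (nat_lit 443) (nat_lit 347) (nat_lit 230)))))) (XT.nd (nat_lit 546) (nat_lit 608) (nat_lit 0) (XT.nd (nat_lit 234) (nat_lit 304) (nat_lit 0) (XT.nd (nat_lit 78) (nat_lit 152) (nat_lit 0) (XT.lf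 (nat_lit 0) (nat_lit 22910595300) (nat_lit 152) (nat_lit 74550634) (nat_lit 228) (nat_lit 6452000920) (nat_lit 58) (nat_lit 5) (nat_lit 60) (nat_lit 5) (nat_lit 61) (nat_lit 5) (nat_lit 444) (nat_lit 347) (nat_lit 229)) (XT.nd (nat_lit 78) (nat_lit 0) (nat_lit 0) (XT.lf (nat_lit 0) (nat_lit 756042073) (nat_lit 152) (nat_lit 20716460026) (nat_lit 76) (nat_lit 8584271668) (nat_lit 56) (nat_lit 5) (nat_lit 58) (nat_lit 5) (nat_lit 57) (nat_lit 5) (nat_lit 445) (nat_lit 347) (nat_lit 228)) (XT.lf (nat_lit 0) (nat_lit 8103179780) (nat_lit 152) (nat_lit 4968392942) (nat_lit 76) (nat_lit 17619925530) (nat_lit 56) (nat_lit 5) (nat_lit 58) (nat_lit 5) (nat_lit 57) (nat_lit 5) (nat_lit 446) (nat_lit 347) (nat_lit 227)))) (XT.nd (nat_lit 156) (nat_lit 152) (nat_lit 0) (XT.nd (nat_lit 78) (nat_lit 0) (nat_lit 0) (XT.lf (nat_lit 0) (nat_lit 11449239163) (nat_lit 152) (nat_lit 4317215784) (nat_lit 228) (nat_lit 15575938958)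 (nat_lit 54) (nat_lit 5) (nat_lit 56) (nat_lit 5) (nat_lit 57) (nat_lit 5) (nat_lit 447) (nat_lit 347) (nat_lit 226)) (XT.lf (nat_lit 0) (nat_lit 23741192595) (nat_lit 228) (nat_lit 3622084827) (nat_lit 76) (nat_lit 4647093180) (nat_lit 54) (nat_lit 5) (nat_lit 57) (nat_lit 5) (nat_lit 55) (nat_lit 4) (nat_lit 448) (nat_lit 347) (nat_lit 225))) (XT.nd (nat_lit 78) (nat_lit 76) (nat_lit 0) (XT.lf (nat_lit 0) (nat_lit 13328887347) (nat_lit 76) (nat_lit 18783290467) (nat_lit 152) (nat_lit 581499689) (nat_lit 53) (nat_lit 5) (nat_lit 54) (nat_lit 5) (nat_lit 55) (nat_lit 4) (nat_lit 449) (nat_lit 347) (nat_lit 224)) (XT.lf (nat_lit 0) (nat_lit 7216738459) (nat_lit 152) (nat_lit 2630241913) (nat_lit 76) (nat_lit 23547695560) (nat_lit 52) (nat_lit 5) (nat_lit 54) (nat_lit 5) (nat_lit 53) (nat_lit 5) (nat_lit 450) (nat_lit 347) (nat_lit 223))))) (XT.nd (nat_lit 312) (nat_lit 304) (nat_lit 0) (XT.nd (nat_lit 156) (nat_lit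 152) (nat_lit 0) (XT.nd (nat_lit 78) (nat_lit 0) (nat_lit 0) (XT.lf (nat_lit 0) (nat_lit 14865811247) (nat_lit 152) (nat_lit 500886304) (nat_lit 228) (nat_lit 18745951176) (nat_lit 50) (nat_lit 5) (nat_lit 52) (nat_lit 5) (nat_lit 53) (nat_lit 5) (nat_lit 451) (nat_lit 347) (nat_lit 222)) (XT.lf (nat_lit 0) (nat_lit 23862307366) (nat_lit 228) (nat_lit 2023590662) (nat_lit 76) (nat_lit 8963229071) (nat_lit 50) (nat_lit 5) (nat_lit 53) (nat_lit 5) (nat_lit 51) (nat_lit 4) (nat_lit 452) (nat_lit 347) (nat_lit 221))) (XT.nd (nat_lit 78) (nat_lit 76) (nat_lit 0) (XT.lf (nat_lit 0) (nat_lit 15999419611) (nat_lit 76) (nat_lit 16759119332) (nat_lit 152) (nat_lit 2844789194) (nat_lit 49) (nat_lit 5) (nat_lit 50) (nat_lit 5) (nat_lit 51) (nat_lit 4) (nat_lit 453) (nat_lit 347) (nat_lit 220)) (XT.lf (nat_lit 0) (nat_lit 5441022596) (nat_lit 152) (nat_lit 1852614134) (nat_lit 76) (nat_lit 29084691647) (nat_lit 48) (nat_lit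 5) (nat_lit 50) (nat_lit 5) (nat_lit 49) (nat_lit 5) (nat_lit 454) (nat_lit 347) (nat_lit 219)))) (XT.nd (nat_lit 156) (nat_lit 152) (nat_lit 0) (XT.nd (nat_lit 78) (nat_lit 0) (nat_lit 0) (XT.lf (nat_lit 0) (nat_lit 14091582493) (nat_lit 228) (nat_lit 20491125992) (nat_lit 76) (nat_lit 2587825460) (nat_lit 46) (nat_lit 5) (nat_lit 49) (nat_lit 5) (nat_lit 47) (nat_lit 4) (nat_lit 455) (nat_lit 347) (nat_lit 218)) (XT.lf (nat_lit 0) (nat_lit 23080202436) (nat_lit 228) (nat_lit 2276514974) (nat_lit 76) (nat_lit 12627432790) (nat_lit 46) (nat_lit 5) (nat_lit 49) (nat_lit 5) (nat_lit 47) (nat_lit 4) (nat_lit 456) (nat_lit 347) (nat_lit 217))) (XT.nd (nat_lit 78) (nat_lit 76) (nat_lit 0) (XT.lf (nat_lit 0) (nat_lit 16789301146) (nat_lit 76) (nat_lit 15698370836) (nat_lit 152) (nat_lit 6330028028) (nat_lit 45) (nat_lit 5) (nat_lit 46) (nat_lit 5) (nat_lit 47) (nat_lit 4) (nat_lit 457) (nat_lit 347) (nat_lit 216)) (XT.lf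 (nat_lit 0) (nat_lit 2463339157) (nat_lit 152) (nat_lit 3248950468) (nat_lit 76) (nat_lit 33962915106) (nat_lit 44) (nat_lit 5) (nat_lit 46) (nat_lit 5) (nat_lit 45) (nat_lit 5) (nat_lit 458) (nat_lit 347) (nat_lit 215))))))))
noncomputable def xc120 : XT := (XT.nd (nat_lit 2184) (nat_lit 152) (nat_lit 0) (XT.nd (nat_lit 1092) (nat_lit 532) (nat_lit 0) (XT.nd (nat_lit 546) (nat_lit 380) (nat_lit 0) (XT.nd (nat_lit 234) (nat_lit 304) (nat_lit 0) (XT.nd (nat_lit 78) (nat_lit 76) (nat_lit 0) (XT.lf (nat_lit 0) (nat_lit 11584442184) (nat_lit 228) (nat_lit 24270625686) (nat_lit 76) (nat_lit 4695752383) (nat_lit 42) (nat_lit 5) (nat_lit 45) (nat_lit 5) (nat_lit 43) (nat_lit 4) (nat_lit 459) (nat_lit 347) (nat_lit 214)) (XT.nd (nat_lit 78) (nat_lit 76) (nat_lit 0) (XT.lf (nat_lit 0) (nat_lit 21057076925) (nat_lit 228) (nat_lit 5069028615) (nat_lit 76) (nat_lit 15324262447) (nat_lit 42) (nat_lit 5) (nat_lit 45) (nat_lit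 5) (nat_lit 43) (nat_lit 4) (nat_lit 460) (nat_lit 347) (nat_lit 213)) (XT.lf (nat_lit 0) (nat_lit 14979324004) (nat_lit 76) (nat_lit 15967109012) (nat_lit 152) (nat_lit 11426493554) (nat_lit 41) (nat_lit 5) (nat_lit 42) (nat_lit 5) (nat_lit 43) (nat_lit 4) (nat_lit 461) (nat_lit 347) (nat_lit 212)))) (XT.nd (nat_lit 156) (nat_lit 76) (nat_lit 0) (XT.nd (nat_lit 78) (nat_lit 228) (nat_lit 0) (XT.lf (nat_lit 0) (nat_lit 35711656088) (nat_lit 76) (nat_lit 5460680746) (nat_lit 152) (nat_lit 2149629731) (nat_lit 41) (nat_lit 5) (nat_lit 42) (nat_lit 5) (nat_lit 43) (nat_lit 4) (nat_lit 462) (nat_lit 347) (nat_lit 211)) (XT.lf (nat_lit 0) (nat_lit 7427562041) (nat_lit 228) (nat_lit 31420763338) (nat_lit 76) (nat_lit 5444021487) (nat_lit 38) (nat_lit 5) (nat_lit 41) (nat_lit 5) (nat_lit 39) (nat_lit 4) (nat_lit 463) (nat_lit 347) (nat_lit 210))) (XT.nd (nat_lit 78) (nat_lit 76) (nat_lit 0) (XT.lf (nat_lit 0) (nat_lit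 17369469858) (nat_lit 228) (nat_lit 11262715377) (nat_lit 76) (nat_lit 16655397275) (nat_lit 38) (nat_lit 5) (nat_lit 41) (nat_lit 5) (nat_lit 39) (nat_lit 4) (nat_lit 464) (nat_lit 347) (nat_lit 209)) (XT.lf (nat_lit 0) (nat_lit 9668340058) (nat_lit 76) (nat_lit 18023484770) (nat_lit 152) (nat_lit 18618385290) (nat_lit 37) (nat_lit 5) (nat_lit 38) (nat_lit 5) (nat_lit 39) (nat_lit 4) (nat_lit 465) (nat_lit 347) (nat_lit 208))))) (XT.nd (nat_lit 234) (nat_lit 228) (nat_lit 0) (XT.nd (nat_lit 78) (nat_lit 152) (nat_lit 0) (XT.lf (nat_lit 0) (nat_lit 31438003659) (nat_lit 76) (nat_lit 6988948943) (nat_lit 152) (nat_lit 8933471462) (nat_lit 37) (nat_lit 5) (nat_lit 38) (nat_lit 5) (nat_lit 39) (nat_lit 4) (nat_lit 466) (nat_lit 347) (nat_lit 207)) (XT.nd (nat_lit 78) (nat_lit 0) (nat_lit 0) (XT.lf (nat_lit 0) (nat_lit 1106668365) (nat_lit 152) (nat_lit 42987148965) (nat_lit 76) (nat_lit 4345476806) (nat_lit 35) (nat_lit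 5) (nat_lit 37) (nat_lit 5) (nat_lit 36) (nat_lit 4) (nat_lit 467) (nat_lit 347) (nat_lit 206)) (XT.lf (nat_lit 0) (nat_lit 11489636187) (nat_lit 152) (nat_lit 21930448383) (nat_lit 76) (nat_lit 16121157427) (nat_lit 35) (nat_lit 5) (nat_lit 37) (nat_lit 5) (nat_lit 36) (nat_lit 4) (nat_lit 468) (nat_lit 347) (nat_lit 205)))) (XT.nd (nat_lit 156) (nat_lit 152) (nat_lit 0) (XT.nd (nat_lit 78) (nat_lit 76) (nat_lit 0) (XT.lf (nat_lit 0) (nat_lit 22173998926) (nat_lit 152) (nat_lit 261312506) (nat_lit 76) (nat_lit 28241240196) (nat_lit 35) (nat_lit 5) (nat_lit 37) (nat_lit 5) (nat_lit 36) (nat_lit 4) (nat_lit 469) (nat_lit 347) (nat_lit 204)) (XT.lf (nat_lit 0) (nat_lit 22477816012) (nat_lit 76) (nat_lit 10907346937) (nat_lit 152) (nat_lit 18454569983) (nat_lit 34) (nat_lit 5) (nat_lit 35) (nat_lit 5) (nat_lit 36) (nat_lit 4) (nat_lit 470) (nat_lit 347) (nat_lit 203))) (XT.nd (nat_lit 78) (nat_lit 152) (nat_lit 0)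 (XT.lf (nat_lit 0) (nat_lit 44934839358) (nat_lit 152) (nat_lit 7161299378) (nat_lit 0) (nat_lit 941606095) (nat_lit 34) (nat_lit 5) (nat_lit 36) (nat_lit 4) (nat_lit 34) (nat_lit 4) (nat_lit 471) (nat_lit 347) (nat_lit 202)) (XT.lf (nat_lit 0) (nat_lit 2763092291) (nat_lit 152) (nat_lit 38402032699) (nat_lit 76) (nat_lit 13098222762) (nat_lit 32) (nat_lit 5) (nat_lit 34) (nat_lit 5) (nat_lit 33) (nat_lit 4) (nat_lit 472) (nat_lit 347) (nat_lit 201)))))) (XT.nd (nat_lit 546) (nat_lit 228) (nat_lit 0) (XT.nd (nat_lit 234) (nat_lit 228) (nat_lit 0) (XT.nd (nat_lit 78) (nat_lit 76) (nat_lit 0) (XT.lf (nat_lit 0) (nat_lit 13855757907) (nat_lit 152) (nat_lit 15901277603) (nat_lit 76) (nat_lit 25764370438) (nat_lit 32) (nat_lit 5) (nat_lit 34) (nat_lit 5) (nat_lit 33) (nat_lit 4) (nat_lit 473) (nat_lit 347) (nat_lit 200)) (XT.nd (nat_lit 78) (nat_lit 0) (nat_lit 0) (XT.lf (nat_lit 0) (nat_lit 7401262275) (nat_lit 76)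 (nat_lit 17941880097) (nat_lit 152) (nat_lit 31472205778) (nat_lit 31) (nat_lit 5) (nat_lit 32) (nat_lit 5) (nat_lit 33) (nat_lit 4) (nat_lit 474) (nat_lit 347) (nat_lit 199)) (XT.lf (nat_lit 0) (nat_lit 31711348964) (nat_lit 76) (nat_lit 5615264582) (nat_lit 152) (nat_lit 20816951534) (nat_lit 31) (nat_lit 5) (nat_lit 32) (nat_lit 5) (nat_lit 33) (nat_lit 4) (nat_lit 475) (nat_lit 347) (nat_lit 198)))) (XT.nd (nat_lit 156) (nat_lit 76) (nat_lit 0) (XT.nd (nat_lit 78) (nat_lit 152) (nat_lit 0) (XT.lf (nat_lit 0) (nat_lit 49728737644) (nat_lit 152) (nat_lit 2846126577) (nat_lit 0) (nat_lit 6934990235) (nat_lit 31) (nat_lit 5) (nat_lit 33) (nat_lit 4) (nat_lit 31) (nat_lit 4) (nat_lit 476) (nat_lit 347) (nat_lit 197)) (XT.lf (nat_lit 0) (nat_lit 1813886122) (nat_lit 152) (nat_lit 39126530109) (nat_lit 76) (nat_lit 19968488224) (nat_lit 29) (nat_lit 5) (nat_lit 31) (nat_lit 5) (nat_lit 30) (nat_lit 4) (nat_lit 477)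 (nat_lit 347) (nat_lit 196))) (XT.nd (nat_lit 78) (nat_lit 76) (nat_lit 0) (XT.lf (nat_lit 0) (nat_lit 13580521866) (nat_lit 152) (nat_lit 15254795012) (nat_lit 76) (nat_lit 33511092955) (nat_lit 29) (nat_lit 5) (nat_lit 31) (nat_lit 5) (nat_lit 30) (nat_lit 4) (nat_lit 478) (nat_lit 347) (nat_lit 195)) (XT.lf (nat_lit 0) (nat_lit 9502325399) (nat_lit 76) (nat_lit 16280774060) (nat_lit 152) (nat_lit 38041452991) (nat_lit 28) (nat_lit 5) (nat_lit 29) (nat_lit 5) (nat_lit 30) (nat_lit 4) (nat_lit 479) (nat_lit 347) (nat_lit 194))))) (XT.nd (nat_lit 234) (nat_lit 152) (nat_lit 0) (XT.nd (nat_lit 78) (nat_lit 76) (nat_lit 0) (XT.lf (nat_lit 0) (nat_lit 35298835172) (nat_lit 76) (nat_lit 3198653864) (nat_lit 152) (nat_lit 26845178615) (nat_lit 28) (nat_lit 5) (nat_lit 29) (nat_lit 5) (nat_lit 30) (nat_lit 4) (nat_lit 480) (nat_lit 347) (nat_lit 193)) (XT.nd (nat_lit 78) (nat_lit 76) (nat_lit 0) (XT.lf (nat_lit 0) (nat_lit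 51683949889) (nat_lit 152) (nat_lit 5151600481) (nat_lit 0) (nat_lit 10068057090) (nat_lit 28) (nat_lit 5) (nat_lit 30) (nat_lit 4) (nat_lit 28) (nat_lit 4) (nat_lit 481) (nat_lit 347) (nat_lit 192)) (XT.lf (nat_lit 0) (nat_lit 20847256134) (nat_lit 76) (nat_lit 44642912969) (nat_lit 76) (nat_lit 3014481750) (nat_lit 27) (nat_lit 4) (nat_lit 28) (nat_lit 5) (nat_lit 28) (nat_lit 4) (nat_lit 482) (nat_lit 347) (nat_lit 191)))) (XT.nd (nat_lit 156) (nat_lit 0) (nat_lit 0) (XT.nd (nat_lit 78) (nat_lit 76) (nat_lit 0) (XT.lf (nat_lit 0) (nat_lit 9415002058) (nat_lit 152) (nat_lit 22528150262) (nat_lit 76) (nat_lit 38206478311) (nat_lit 26) (nat_lit 5) (nat_lit 28) (nat_lit 5) (nat_lit 27) (nat_lit 4) (nat_lit 483) (nat_lit 347) (nat_lit 190)) (XT.lf (nat_lit 0) (nat_lit 3376166330) (nat_lit 76) (nat_lit 18805404819) (nat_lit 152) (nat_lit 49660749896) (nat_lit 25) (nat_lit 5) (nat_lit 26) (nat_lit 5) (nat_lit 27) (nat_lit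 4) (nat_lit 484) (nat_lit 347) (nat_lit 189))) (XT.nd (nat_lit 78) (nat_lit 0) (nat_lit 0) (XT.lf (nat_lit 0) (nat_lit 30504722896) (nat_lit 76) (nat_lit 5046321650) (nat_lit 152) (nat_lit 38028150700) (nat_lit 25) (nat_lit 5) (nat_lit 26) (nat_lit 5) (nat_lit 27) (nat_lit 4) (nat_lit 485) (nat_lit 347) (nat_lit 188)) (XT.lf (nat_lit 0) (nat_lit 49401893939) (nat_lit 152) (nat_lit 17023181028) (nat_lit 0) (nat_lit 8940692233) (nat_lit 25) (nat_lit 5) (nat_lit 27) (nat_lit 4) (nat_lit 25) (nat_lit 4) (nat_lit 486) (nat_lit 347) (nat_lit 187))))))) (XT.nd (nat_lit 43134) (nat_lit 0) (nat_lit 16644) (XT.nd (nat_lit 42588) (nat_lit 0) (nat_lit 24396) (XT.nd (nat_lit 42276) (nat_lit 0) (nat_lit 25764) (XT.nd (nat_lit 78) (nat_lit 76) (nat_lit 0) (XT.lf (nat_lit 0) (nat_lit 9939642416) (nat_lit 76) (nat_lit 53866923842) (nat_lit 76) (nat_lit 13395221407) (nat_lit 24) (nat_lit 4) (nat_lit 25) (nat_lit 5) (nat_lit 25)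 (nat_lit 4) (nat_lit 487) (nat_lit 347) (nat_lit 186)) (XT.nd (nat_lit 78) (nat_lit 76) (nat_lit 0) (XT.lf (nat_lit 0) (nat_lit 38046445094) (nat_lit 76) (nat_lit 40761699135) (nat_lit 76) (nat_lit 279801818) (nat_lit 24) (nat_lit 4) (nat_lit 25) (nat_lit 5) (nat_lit 25) (nat_lit 4) (nat_lit 488) (nat_lit 347) (nat_lit 185)) (XT.lf (nat_lit 0) (nat_lit 12963937064) (nat_lit 152) (nat_lit 14175003020) (nat_lit 76) (nat_lit 53888144255) (nat_lit 23) (nat_lit 5) (nat_lit 25) (nat_lit 5) (nat_lit 24) (nat_lit 4) (nat_lit 489) (nat_lit 347) (nat_lit 184)))) (XT.nd (nat_lit 156) (nat_lit 608) (nat_lit 0) (XT.nd (nat_lit 78) (nat_lit 0) (nat_lit 0) (XT.lf (nat_lit 0) (nat_lit 797763468) (nat_lit 0) (nat_lit 797763468) (nat_lit 532) (nat_lit 1761851506) (nat_lit 370) (nat_lit 5) (nat_lit 370) (nat_lit 3) (nat_lit 377) (nat_lit 3) (nat_lit 348) (nat_lit 348) (nat_lit 324)) (XT.lf (nat_lit 0) (nat_lit 4934327084) (nat_lit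 0) (nat_lit 438076442) (nat_lit 532) (nat_lit 1378031646) (nat_lit 370) (nat_lit 5) (nat_lit 370) (nat_lit 3) (nat_lit 377) (nat_lit 3) (nat_lit 349) (nat_lit 348) (nat_lit 323))) (XT.nd (nat_lit 78) (nat_lit 0) (nat_lit 0) (XT.lf (nat_lit 0) (nat_lit 754562048) (nat_lit 608) (nat_lit 5231615871) (nat_lit 684) (nat_lit 802641677) (nat_lit 362) (nat_lit 5) (nat_lit 370) (nat_lit 5) (nat_lit 371) (nat_lit 5) (nat_lit 350) (nat_lit 348) (nat_lit 322)) (XT.lf (nat_lit 0) (nat_lit 2864580809) (nat_lit 608) (nat_lit 1822822991) (nat_lit 684) (nat_lit 2142346313) (nat_lit 362) (nat_lit 5) (nat_lit 370) (nat_lit 5) (nat_lit 371) (nat_lit 5) (nat_lit 351) (nat_lit 348) (nat_lit 321))))) (XT.nd (nat_lit 234) (nat_lit 684) (nat_lit 0) (XT.nd (nat_lit 78) (nat_lit 684) (nat_lit 0) (XT.lf (nat_lit 76) (nat_lit 1676483739) (nat_lit 0) (nat_lit 3298198022) (nat_lit 684) (nat_lit 1899160426) (nat_lit 363) (nat_lit 5) (nat_lit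 362) (nat_lit 5) (nat_lit 371) (nat_lit 5) (nat_lit 352) (nat_lit 348) (nat_lit 320)) (XT.nd (nat_lit 78) (nat_lit 0) (nat_lit 0) (XT.lf (nat_lit 0) (nat_lit 164704234) (nat_lit 684) (nat_lit 1648571458) (nat_lit 760) (nat_lit 5107740082) (nat_lit 353) (nat_lit 5) (nat_lit 362) (nat_lit 5) (nat_lit 363) (nat_lit 5) (nat_lit 353) (nat_lit 348) (nat_lit 319)) (XT.lf (nat_lit 76) (nat_lit 1982264945) (nat_lit 0) (nat_lit 213134071) (nat_lit 760) (nat_lit 4775382827) (nat_lit 354) (nat_lit 5) (nat_lit 353) (nat_lit 5) (nat_lit 363) (nat_lit 5) (nat_lit 354) (nat_lit 348) (nat_lit 318)))) (XT.nd (nat_lit 156) (nat_lit 760) (nat_lit 0) (XT.nd (nat_lit 78) (nat_lit 0) (nat_lit 0) (XT.lf (nat_lit 0) (nat_lit 4243734277) (nat_lit 684) (nat_lit 1326087257) (nat_lit 760) (nat_lit 1453550728) (nat_lit 354) (nat_lit 5) (nat_lit 363) (nat_lit 5) (nat_lit 364) (nat_lit 5) (nat_lit 355) (nat_lit 348) (nat_lit 317)) (XT.lf (nat_lit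 76) (nat_lit 2446795204) (nat_lit 0) (nat_lit 3860620019) (nat_lit 760) (nat_lit 771540297) (nat_lit 355) (nat_lit 5) (nat_lit 354) (nat_lit 5) (nat_lit 364) (nat_lit 5) (nat_lit 356) (nat_lit 348) (nat_lit 316))) (XT.nd (nat_lit 78) (nat_lit 0) (nat_lit 0) (XT.lf (nat_lit 0) (nat_lit 1214220081) (nat_lit 760) (nat_lit 834408225) (nat_lit 836) (nat_lit 5088952410) (nat_lit 344) (nat_lit 5) (nat_lit 354) (nat_lit 5) (nat_lit 355) (nat_lit 5) (nat_lit 357) (nat_lit 348) (nat_lit 315)) (XT.lf (nat_lit 76) (nat_lit 3085127636) (nat_lit 0) (nat_lit 119838205) (nat_lit 836) (nat_lit 3993971345) (nat_lit 345) (nat_lit 5) (nat_lit 344) (nat_lit 5) (nat_lit 355) (nat_lit 5) (nat_lit 358) (nat_lit 348) (nat_lit 314)))))) (XT.nd (nat_lit 546) (nat_lit 5244) (nat_lit 0) (XT.nd (nat_lit 234) (nat_lit 1748) (nat_lit 0) (XT.nd (nat_lit 78) (nat_lit 836) (nat_lit 0) (XT.lf (nat_lit 0) (nat_lit 5214948338) (nat_lit 760) (nat_lit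 187092453) (nat_lit 836) (nat_lit 1861336555) (nat_lit 345) (nat_lit 5) (nat_lit 355) (nat_lit 5) (nat_lit 356) (nat_lit 5) (nat_lit 359) (nat_lit 348) (nat_lit 313)) (XT.nd (nat_lit 78) (nat_lit 836) (nat_lit 0) (XT.lf (nat_lit 76) (nat_lit 3886906004) (nat_lit 0) (nat_lit 3371883925) (nat_lit 836) (nat_lit 71781594) (nat_lit 346) (nat_lit 5) (nat_lit 345) (nat_lit 5) (nat_lit 356) (nat_lit 5) (nat_lit 360) (nat_lit 348) (nat_lit 312)) (XT.lf (nat_lit 76) (nat_lit 634678587) (nat_lit 0) (nat_lit 1234985004) (nat_lit 912) (nat_lit 5531262740) (nat_lit 335) (nat_lit 5) (nat_lit 334) (nat_lit 5) (nat_lit 346) (nat_lit 5) (nat_lit 361) (nat_lit 348) (nat_lit 311)))) (XT.nd (nat_lit 156) (nat_lit 988) (nat_lit 0) (XT.nd (nat_lit 78) (nat_lit 836) (nat_lit 0) (XT.lf (nat_lit 0) (nat_lit 3849727462) (nat_lit 836) (nat_lit 2624387733) (nat_lit 76) (nat_lit 999825981) (nat_lit 335) (nat_lit 5) (nat_lit 346) (nat_lit 5)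 (nat_lit 336) (nat_lit 5) (nat_lit 362) (nat_lit 348) (nat_lit 310)) (XT.lf (nat_lit 0) (nat_lit 1614735071) (nat_lit 836) (nat_lit 4241443995) (nat_lit 912) (nat_lit 1693982348) (nat_lit 324) (nat_lit 5) (nat_lit 335) (nat_lit 5) (nat_lit 336) (nat_lit 5) (nat_lit 363) (nat_lit 348) (nat_lit 309))) (XT.nd (nat_lit 78) (nat_lit 912) (nat_lit 0) (XT.lf (nat_lit 0) (nat_lit 255133449) (nat_lit 912) (nat_lit 1643173488) (nat_lit 76) (nat_lit 5731298083) (nat_lit 323) (nat_lit 5) (nat_lit 335) (nat_lit 5) (nat_lit 324) (nat_lit 5) (nat_lit 364) (nat_lit 348) (nat_lit 308)) (XT.lf (nat_lit 0) (nat_lit 2202502584) (nat_lit 988) (nat_lit 4947956580) (nat_lit 76) (nat_lit 561277233) (nat_lit 311) (nat_lit 5) (nat_lit 324) (nat_lit 5) (nat_lit 312) (nat_lit 5) (nat_lit 365) (nat_lit 348) (nat_lit 307))))) (XT.nd (nat_lit 312) (nat_lit 3116) (nat_lit 0) (XT.nd (nat_lit 156) (nat_lit 1140) (nat_lit 0) (XT.nd (nat_lit 78)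 (nat_lit 988) (nat_lit 0) (XT.lf (nat_lit 0) (nat_lit 4186924742) (nat_lit 988) (nat_lit 525235909) (nat_lit 76) (nat_lit 3084833893) (nat_lit 311) (nat_lit 5) (nat_lit 324) (nat_lit 5) (nat_lit 312) (nat_lit 5) (nat_lit 366) (nat_lit 348) (nat_lit 306)) (XT.lf (nat_lit 0) (nat_lit 4063768299) (nat_lit 988) (nat_lit 2150912279) (nat_lit 1064) (nat_lit 1670636979) (nat_lit 298) (nat_lit 5) (nat_lit 311) (nat_lit 5) (nat_lit 312) (nat_lit 5) (nat_lit 367) (nat_lit 348) (nat_lit 305))) (XT.nd (nat_lit 78) (nat_lit 0) (nat_lit 0) (XT.lf (nat_lit 0) (nat_lit 283836516) (nat_lit 1140) (nat_lit 7191427639) (nat_lit 76) (nat_lit 502054604) (nat_lit 283) (nat_lit 5) (nat_lit 298) (nat_lit 5) (nat_lit 284) (nat_lit 5) (nat_lit 368) (nat_lit 348) (nat_lit 304)) (XT.lf (nat_lit 0) (nat_lit 2270214311) (nat_lit 1140) (nat_lit 2546847704) (nat_lit 76) (nat_lit 3254335666) (nat_lit 283) (nat_lit 5) (nat_lit 298) (nat_lit 5) (nat_lit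 284) (nat_lit 5) (nat_lit 369) (nat_lit 348) (nat_lit 303)))) (XT.nd (nat_lit 156) (nat_lit 1976) (nat_lit 0) (XT.nd (nat_lit 78) (nat_lit 0) (nat_lit 0) (XT.lf (nat_lit 0) (nat_lit 2234459425) (nat_lit 1140) (nat_lit 2051338778) (nat_lit 1216) (nat_lit 3883431117) (nat_lit 268) (nat_lit 5) (nat_lit 283) (nat_lit 5) (nat_lit 284) (nat_lit 5) (nat_lit 370) (nat_lit 348) (nat_lit 302)) (XT.lf (nat_lit 0) (nat_lit 6344741994) (nat_lit 1216) (nat_lit 1113079959) (nat_lit 76) (nat_lit 812705430) (nat_lit 268) (nat_lit 5) (nat_lit 284) (nat_lit 5) (nat_lit 269) (nat_lit 5) (nat_lit 371) (nat_lit 348) (nat_lit 301))) (XT.nd (nat_lit 78) (nat_lit 684) (nat_lit 0) (XT.lf (nat_lit 0) (nat_lit 97055953) (nat_lit 1292) (nat_lit 4513240622) (nat_lit 76) (nat_lit 3764311871) (nat_lit 251) (nat_lit 5) (nat_lit 268) (nat_lit 5) (nat_lit 252) (nat_lit 5) (nat_lit 372) (nat_lit 348) (nat_lit 300)) (XT.lf (nat_lit 0) (nat_lit 469874500)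 (nat_lit 684) (nat_lit 1639105121) (nat_lit 760) (nat_lit 6373263898) (nat_lit 242) (nat_lit 5) (nat_lit 251) (nat_lit 5) (nat_lit 252) (nat_lit 5) (nat_lit 373) (nat_lit 348) (nat_lit 299))))))))
noncomputable def xc121 : XT := (XT.nd (nat_lit 2262) (nat_lit 4560) (nat_lit 0) (XT.nd (nat_lit 1092) (nat_lit 3724) (nat_lit 0) (XT.nd (nat_lit 546) (nat_lit 2052) (nat_lit 0) (XT.nd (nat_lit 234) (nat_lit 1748) (nat_lit 0) (XT.nd (nat_lit 78) (nat_lit 608) (nat_lit 0) (XT.lf (nat_lit 0) (nat_lit 4193178637) (nat_lit 760) (nat_lit 2958371073) (nat_lit 76) (nat_lit 1441216618) (nat_lit 242) (nat_lit 5) (nat_lit 252) (nat_lit 5) (nat_lit 243) (nat_lit 5) (nat_lit 374) (nat_lit 348) (nat_lit 298)) (XT.nd (nat_lit 78) (nat_lit 0) (nat_lit 0) (XT.lf (nat_lit 0) (nat_lit 2228367677) (nat_lit 608) (nat_lit 4102806369) (nat_lit 684) (nat_lit 2375708402) (nat_lit 234) (nat_lit 5) (nat_lit 242) (nat_lit 5) (nat_lit 243) (nat_lit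 5) (nat_lit 375) (nat_lit 348) (nat_lit 297)) (XT.lf (nat_lit 0) (nat_lit 7585670738) (nat_lit 608) (nat_lit 932045273) (nat_lit 684) (nat_lit 307189122) (nat_lit 234) (nat_lit 5) (nat_lit 242) (nat_lit 5) (nat_lit 243) (nat_lit 5) (nat_lit 376) (nat_lit 348) (nat_lit 296)))) (XT.nd (nat_lit 156) (nat_lit 532) (nat_lit 0) (XT.nd (nat_lit 78) (nat_lit 532) (nat_lit 0) (XT.lf (nat_lit 0) (nat_lit 1806351079) (nat_lit 684) (nat_lit 4793158188) (nat_lit 76) (nat_lit 2345891424) (nat_lit 225) (nat_lit 5) (nat_lit 234) (nat_lit 5) (nat_lit 226) (nat_lit 5) (nat_lit 377) (nat_lit 348) (nat_lit 295)) (XT.lf (nat_lit 0) (nat_lit 615218018) (nat_lit 532) (nat_lit 3345948376) (nat_lit 608) (nat_lit 5108746170) (nat_lit 218) (nat_lit 5) (nat_lit 225) (nat_lit 5) (nat_lit 226) (nat_lit 5) (nat_lit 378) (nat_lit 348) (nat_lit 294))) (XT.nd (nat_lit 78) (nat_lit 532) (nat_lit 0) (XT.lf (nat_lit 0) (nat_lit 6186628628) (nat_lit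 608) (nat_lit 2960083037) (nat_lit 76) (nat_lit 51281634) (nat_lit 218) (nat_lit 5) (nat_lit 226) (nat_lit 5) (nat_lit 219) (nat_lit 5) (nat_lit 379) (nat_lit 348) (nat_lit 293)) (XT.lf (nat_lit 0) (nat_lit 2672815804) (nat_lit 532) (nat_lit 5823181771) (nat_lit 608) (nat_lit 833417775) (nat_lit 211) (nat_lit 5) (nat_lit 218) (nat_lit 5) (nat_lit 219) (nat_lit 5) (nat_lit 380) (nat_lit 348) (nat_lit 292))))) (XT.nd (nat_lit 234) (nat_lit 988) (nat_lit 0) (XT.nd (nat_lit 78) (nat_lit 988) (nat_lit 0) (XT.lf (nat_lit 0) (nat_lit 1371227433) (nat_lit 608) (nat_lit 988318288) (nat_lit 76) (nat_lit 7105174047) (nat_lit 210) (nat_lit 5) (nat_lit 218) (nat_lit 5) (nat_lit 211) (nat_lit 5) (nat_lit 381) (nat_lit 348) (nat_lit 291)) (XT.nd (nat_lit 78) (nat_lit 532) (nat_lit 0) (XT.lf (nat_lit 0) (nat_lit 3644295675) (nat_lit 532) (nat_lit 4723152237) (nat_lit 76) (nat_lit 1235828884) (nat_lit 204) (nat_lit 5) (nat_lit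 211) (nat_lit 5) (nat_lit 205) (nat_lit 5) (nat_lit 382) (nat_lit 348) (nat_lit 290)) (XT.lf (nat_lit 0) (nat_lit 1152888519) (nat_lit 532) (nat_lit 4837775497) (nat_lit 608) (nat_lit 3755184990) (nat_lit 197) (nat_lit 5) (nat_lit 204) (nat_lit 5) (nat_lit 205) (nat_lit 5) (nat_lit 383) (nat_lit 348) (nat_lit 289)))) (XT.nd (nat_lit 156) (nat_lit 456) (nat_lit 0) (XT.nd (nat_lit 78) (nat_lit 532) (nat_lit 0) (XT.lf (nat_lit 0) (nat_lit 7257138015) (nat_lit 532) (nat_lit 1159281496) (nat_lit 608) (nat_lit 1476020357) (nat_lit 197) (nat_lit 5) (nat_lit 204) (nat_lit 5) (nat_lit 205) (nat_lit 5) (nat_lit 384) (nat_lit 348) (nat_lit 288)) (XT.lf (nat_lit 0) (nat_lit 875999208) (nat_lit 532) (nat_lit 6551958401) (nat_lit 76) (nat_lit 2614585644) (nat_lit 190) (nat_lit 5) (nat_lit 197) (nat_lit 5) (nat_lit 191) (nat_lit 5) (nat_lit 385) (nat_lit 348) (nat_lit 287))) (XT.nd (nat_lit 78) (nat_lit 456) (nat_lit 0) (XT.lf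 (nat_lit 0) (nat_lit 3269930991) (nat_lit 532) (nat_lit 413418554) (nat_lit 76) (nat_lit 6513341635) (nat_lit 190) (nat_lit 5) (nat_lit 197) (nat_lit 5) (nat_lit 191) (nat_lit 5) (nat_lit 386) (nat_lit 348) (nat_lit 286)) (XT.lf (nat_lit 0) (nat_lit 5759106103) (nat_lit 532) (nat_lit 4374658771) (nat_lit 76) (nat_lit 221006011) (nat_lit 184) (nat_lit 5) (nat_lit 191) (nat_lit 5) (nat_lit 185) (nat_lit 5) (nat_lit 387) (nat_lit 348) (nat_lit 285)))))) (XT.nd (nat_lit 546) (nat_lit 1900) (nat_lit 0) (XT.nd (nat_lit 234) (nat_lit 836) (nat_lit 0) (XT.nd (nat_lit 78) (nat_lit 532) (nat_lit 0) (XT.lf (nat_lit 0) (nat_lit 2015018558) (nat_lit 456) (nat_lit 6332311736) (nat_lit 532) (nat_lit 2169541280) (nat_lit 178) (nat_lit 5) (nat_lit 184) (nat_lit 5) (nat_lit 185) (nat_lit 5) (nat_lit 388) (nat_lit 348) (nat_lit 284)) (XT.nd (nat_lit 78) (nat_lit 456) (nat_lit 0) (XT.lf (nat_lit 0) (nat_lit 332132634) (nat_lit 532)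 (nat_lit 2044578610) (nat_lit 76) (nat_lit 8306762490) (nat_lit 177) (nat_lit 5) (nat_lit 184) (nat_lit 5) (nat_lit 178) (nat_lit 5) (nat_lit 389) (nat_lit 348) (nat_lit 283)) (XT.lf (nat_lit 0) (nat_lit 2892276711) (nat_lit 532) (nat_lit 6238929267) (nat_lit 76) (nat_lit 1722421772) (nat_lit 171) (nat_lit 5) (nat_lit 178) (nat_lit 5) (nat_lit 172) (nat_lit 5) (nat_lit 390) (nat_lit 348) (nat_lit 282)))) (XT.nd (nat_lit 156) (nat_lit 456) (nat_lit 0) (XT.nd (nat_lit 78) (nat_lit 0) (nat_lit 0) (XT.lf (nat_lit 0) (nat_lit 428276915) (nat_lit 380) (nat_lit 5115563577) (nat_lit 456) (nat_lit 5484616148) (nat_lit 166) (nat_lit 5) (nat_lit 171) (nat_lit 5) (nat_lit 172) (nat_lit 5) (nat_lit 391) (nat_lit 348) (nat_lit 281)) (XT.lf (nat_lit 0) (nat_lit 7380077223) (nat_lit 380) (nat_lit 924561540) (nat_lit 456) (nat_lit 2903009467) (nat_lit 166) (nat_lit 5) (nat_lit 171) (nat_lit 5) (nat_lit 172) (nat_lit 5) (nat_lit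 392) (nat_lit 348) (nat_lit 280))) (XT.nd (nat_lit 78) (nat_lit 76) (nat_lit 0) (XT.lf (nat_lit 0) (nat_lit 3133822930) (nat_lit 380) (nat_lit 8044733478) (nat_lit 456) (nat_lit 212758510) (nat_lit 161) (nat_lit 5) (nat_lit 166) (nat_lit 5) (nat_lit 167) (nat_lit 5) (nat_lit 393) (nat_lit 348) (nat_lit 279)) (XT.lf (nat_lit 0) (nat_lit 2524243972) (nat_lit 456) (nat_lit 1274105385) (nat_lit 76) (nat_lit 7780933354) (nat_lit 160) (nat_lit 5) (nat_lit 166) (nat_lit 5) (nat_lit 161) (nat_lit 5) (nat_lit 394) (nat_lit 348) (nat_lit 278))))) (XT.nd (nat_lit 312) (nat_lit 760) (nat_lit 0) (XT.nd (nat_lit 156) (nat_lit 380) (nat_lit 0) (XT.nd (nat_lit 78) (nat_lit 380) (nat_lit 0) (XT.lf (nat_lit 0) (nat_lit 5371410942) (nat_lit 456) (nat_lit 5786377651) (nat_lit 76) (nat_lit 614075346) (nat_lit 155) (nat_lit 5) (nat_lit 161) (nat_lit 5) (nat_lit 156) (nat_lit 5) (nat_lit 395) (nat_lit 348) (nat_lit 277)) (XT.lf (nat_lit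 0) (nat_lit 1467727863) (nat_lit 380) (nat_lit 6870098301) (nat_lit 456) (nat_lit 3631388742) (nat_lit 150) (nat_lit 5) (nat_lit 155) (nat_lit 5) (nat_lit 156) (nat_lit 5) (nat_lit 396) (nat_lit 348) (nat_lit 276))) (XT.nd (nat_lit 78) (nat_lit 380) (nat_lit 0) (XT.lf (nat_lit 0) (nat_lit 9016161578) (nat_lit 380) (nat_lit 2405123552) (nat_lit 456) (nat_lit 750366819) (nat_lit 150) (nat_lit 5) (nat_lit 155) (nat_lit 5) (nat_lit 156) (nat_lit 5) (nat_lit 397) (nat_lit 348) (nat_lit 275)) (XT.lf (nat_lit 0) (nat_lit 2208269713) (nat_lit 380) (nat_lit 7965930441) (nat_lit 76) (nat_lit 2204295851) (nat_lit 145) (nat_lit 5) (nat_lit 150) (nat_lit 5) (nat_lit 146) (nat_lit 5) (nat_lit 398) (nat_lit 348) (nat_lit 274)))) (XT.nd (nat_lit 156) (nat_lit 380) (nat_lit 0) (XT.nd (nat_lit 78) (nat_lit 380) (nat_lit 0) (XT.lf (nat_lit 0) (nat_lit 5267146463) (nat_lit 380) (nat_lit 391458856) (nat_lit 76) (nat_lit 6931926784)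 (nat_lit 145) (nat_lit 5) (nat_lit 150) (nat_lit 5) (nat_lit 146) (nat_lit 5) (nat_lit 399) (nat_lit 348) (nat_lit 273)) (XT.lf (nat_lit 0) (nat_lit 7516474667) (nat_lit 380) (nat_lit 944994880) (nat_lit 456) (nat_lit 4346155631) (nat_lit 140) (nat_lit 5) (nat_lit 145) (nat_lit 5) (nat_lit 146) (nat_lit 5) (nat_lit 400) (nat_lit 348) (nat_lit 272))) (XT.nd (nat_lit 78) (nat_lit 76) (nat_lit 0) (XT.lf (nat_lit 0) (nat_lit 2611101126) (nat_lit 304) (nat_lit 9178958055) (nat_lit 380) (nat_lit 1240024872) (nat_lit 136) (nat_lit 5) (nat_lit 140) (nat_lit 5) (nat_lit 141) (nat_lit 5) (nat_lit 401) (nat_lit 348) (nat_lit 271)) (XT.lf (nat_lit 0) (nat_lit 1956285564) (nat_lit 380) (nat_lit 2468398709) (nat_lit 76) (nat_lit 8832916310) (nat_lit 135) (nat_lit 5) (nat_lit 140) (nat_lit 5) (nat_lit 136) (nat_lit 5) (nat_lit 402) (nat_lit 348) (nat_lit 270))))))) (XT.nd (nat_lit 1092) (nat_lit 1976) (nat_lit 0) (XT.nd (nat_lit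 546) (nat_lit 1064) (nat_lit 0) (XT.nd (nat_lit 234) (nat_lit 912) (nat_lit 0) (XT.nd (nat_lit 78) (nat_lit 304) (nat_lit 0) (XT.lf (nat_lit 0) (nat_lit 5256959229) (nat_lit 380) (nat_lit 7714335164) (nat_lit 76) (nat_lit 519283569) (nat_lit 131) (nat_lit 5) (nat_lit 136) (nat_lit 5) (nat_lit 132) (nat_lit 5) (nat_lit 403) (nat_lit 348) (nat_lit 269)) (XT.nd (nat_lit 78) (nat_lit 0) (nat_lit 0) (XT.lf (nat_lit 0) (nat_lit 514962026) (nat_lit 304) (nat_lit 8188649261) (nat_lit 380) (nat_lit 5025530061) (nat_lit 127) (nat_lit 5) (nat_lit 131) (nat_lit 5) (nat_lit 132) (nat_lit 5) (nat_lit 404) (nat_lit 348) (nat_lit 268)) (XT.lf (nat_lit 0) (nat_lit 9109609551) (nat_lit 304) (nat_lit 3195383888) (nat_lit 380) (nat_lit 1668333553) (nat_lit 127) (nat_lit 5) (nat_lit 131) (nat_lit 5) (nat_lit 132) (nat_lit 5) (nat_lit 405) (nat_lit 348) (nat_lit 267)))) (XT.nd (nat_lit 156) (nat_lit 532) (nat_lit 0) (XT.nd (nat_lit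 78) (nat_lit 0) (nat_lit 0) (XT.lf (nat_lit 0) (nat_lit 1783815663) (nat_lit 380) (nat_lit 10488869083) (nat_lit 76) (nat_lit 1950767614) (nat_lit 122) (nat_lit 5) (nat_lit 127) (nat_lit 5) (nat_lit 123) (nat_lit 5) (nat_lit 406) (nat_lit 348) (nat_lit 266)) (XT.lf (nat_lit 0) (nat_lit 5361442147) (nat_lit 380) (nat_lit 1877016042) (nat_lit 76) (nat_lit 7240469242) (nat_lit 122) (nat_lit 5) (nat_lit 127) (nat_lit 5) (nat_lit 123) (nat_lit 5) (nat_lit 407) (nat_lit 348) (nat_lit 265))) (XT.nd (nat_lit 78) (nat_lit 304) (nat_lit 0) (XT.lf (nat_lit 0) (nat_lit 7093455597) (nat_lit 228) (nat_lit 1996086611) (nat_lit 304) (nat_lit 5651234889) (nat_lit 119) (nat_lit 5) (nat_lit 122) (nat_lit 5) (nat_lit 123) (nat_lit 5) (nat_lit 408) (nat_lit 348) (nat_lit 264)) (XT.lf (nat_lit 0) (nat_lit 1315978891) (nat_lit 304) (nat_lit 11653213640) (nat_lit 380) (nat_lit 2040103050) (nat_lit 115) (nat_lit 5) (nat_lit 119) (nat_lit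 5) (nat_lit 120) (nat_lit 5) (nat_lit 409) (nat_lit 348) (nat_lit 263))))) (XT.nd (nat_lit 234) (nat_lit 760) (nat_lit 0) (XT.nd (nat_lit 78) (nat_lit 228) (nat_lit 0) (XT.lf (nat_lit 0) (nat_lit 1719651963) (nat_lit 380) (nat_lit 4653802753) (nat_lit 76) (nat_lit 8909743112) (nat_lit 114) (nat_lit 5) (nat_lit 119) (nat_lit 5) (nat_lit 115) (nat_lit 5) (nat_lit 410) (nat_lit 348) (nat_lit 262)) (XT.nd (nat_lit 78) (nat_lit 0) (nat_lit 0) (XT.lf (nat_lit 0) (nat_lit 4690834751) (nat_lit 228) (nat_lit 881480022) (nat_lit 304) (nat_lit 9991766982) (nat_lit 111) (nat_lit 5) (nat_lit 114) (nat_lit 5) (nat_lit 115) (nat_lit 5) (nat_lit 411) (nat_lit 348) (nat_lit 261)) (XT.lf (nat_lit 0) (nat_lit 9610161152) (nat_lit 304) (nat_lit 1524755905) (nat_lit 76) (nat_lit 4716391075) (nat_lit 111) (nat_lit 5) (nat_lit 115) (nat_lit 5) (nat_lit 112) (nat_lit 5) (nat_lit 412) (nat_lit 348) (nat_lit 260)))) (XT.nd (nat_lit 156)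 (nat_lit 228) (nat_lit 0) (XT.nd (nat_lit 78) (nat_lit 304) (nat_lit 0) (XT.lf (nat_lit 0) (nat_lit 8219331399) (nat_lit 228) (nat_lit 5614481732) (nat_lit 304) (nat_lit 2311401986) (nat_lit 108) (nat_lit 5) (nat_lit 111) (nat_lit 5) (nat_lit 112) (nat_lit 5) (nat_lit 413) (nat_lit 348) (nat_lit 259)) (XT.lf (nat_lit 0) (nat_lit 1713493046) (nat_lit 304) (nat_lit 14626587822) (nat_lit 76) (nat_lit 107027312) (nat_lit 104) (nat_lit 5) (nat_lit 108) (nat_lit 5) (nat_lit 105) (nat_lit 5) (nat_lit 414) (nat_lit 348) (nat_lit 258))) (XT.nd (nat_lit 78) (nat_lit 228) (nat_lit 0) (XT.lf (nat_lit 0) (nat_lit 5926313679) (nat_lit 304) (nat_lit 4849949896) (nat_lit 76) (nat_lit 5977702426) (nat_lit 104) (nat_lit 5) (nat_lit 108) (nat_lit 5) (nat_lit 105) (nat_lit 5) (nat_lit 415) (nat_lit 348) (nat_lit 257)) (XT.lf (nat_lit 0) (nat_lit 5287420277) (nat_lit 228) (nat_lit 5006806508) (nat_lit 304) (nat_lit 6774945022) (nat_lit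 101) (nat_lit 5) (nat_lit 104) (nat_lit 5) (nat_lit 105) (nat_lit 5) (nat_lit 416) (nat_lit 348) (nat_lit 256)))))) (XT.nd (nat_lit 546) (nat_lit 988) (nat_lit 0) (XT.nd (nat_lit 234) (nat_lit 456) (nat_lit 0) (XT.nd (nat_lit 78) (nat_lit 532) (nat_lit 0) (XT.lf (nat_lit 0) (nat_lit 14829687421) (nat_lit 304) (nat_lit 1609433870) (nat_lit 76) (nat_lit 953620576) (nat_lit 101) (nat_lit 5) (nat_lit 105) (nat_lit 5) (nat_lit 102) (nat_lit 5) (nat_lit 417) (nat_lit 348) (nat_lit 255)) (XT.nd (nat_lit 78) (nat_lit 228) (nat_lit 0) (XT.lf (nat_lit 0) (nat_lit 1856062399) (nat_lit 304) (nat_lit 8782369738) (nat_lit 76) (nat_lit 7083612856) (nat_lit 97) (nat_lit 5) (nat_lit 101) (nat_lit 5) (nat_lit 98) (nat_lit 5) (nat_lit 418) (nat_lit 348) (nat_lit 254)) (XT.lf (nat_lit 0) (nat_lit 1751186280) (nat_lit 228) (nat_lit 4617070077) (nat_lit 304) (nat_lit 11691852096) (nat_lit 94) (nat_lit 5) (nat_lit 97) (nat_lit 5) (nat_lit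 98) (nat_lit 5) (nat_lit 419) (nat_lit 348) (nat_lit 253)))) (XT.nd (nat_lit 156) (nat_lit 304) (nat_lit 0) (XT.nd (nat_lit 78) (nat_lit 152) (nat_lit 0) (XT.lf (nat_lit 0) (nat_lit 11099540332) (nat_lit 304) (nat_lit 5676102671) (nat_lit 76) (nat_lit 1630162095) (nat_lit 94) (nat_lit 5) (nat_lit 98) (nat_lit 5) (nat_lit 95) (nat_lit 5) (nat_lit 420) (nat_lit 348) (nat_lit 252)) (XT.lf (nat_lit 0) (nat_lit 5299304195) (nat_lit 152) (nat_lit 10749652226) (nat_lit 228) (nat_lit 2710633331) (nat_lit 92) (nat_lit 5) (nat_lit 94) (nat_lit 5) (nat_lit 95) (nat_lit 5) (nat_lit 421) (nat_lit 348) (nat_lit 251))) (XT.nd (nat_lit 78) (nat_lit 228) (nat_lit 0) (XT.lf (nat_lit 0) (nat_lit 2020887264) (nat_lit 228) (nat_lit 2456119662) (nat_lit 76) (nat_lit 14645275613) (nat_lit 91) (nat_lit 5) (nat_lit 94) (nat_lit 5) (nat_lit 92) (nat_lit 5) (nat_lit 422) (nat_lit 348) (nat_lit 250)) (XT.lf (nat_lit 0) (nat_lit 6926590357)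 (nat_lit 304) (nat_lit 10519456190) (nat_lit 76) (nat_lit 2046405557) (nat_lit 88) (nat_lit 5) (nat_lit 92) (nat_lit 5) (nat_lit 89) (nat_lit 5) (nat_lit 423) (nat_lit 348) (nat_lit 249))))) (XT.nd (nat_lit 312) (nat_lit 532) (nat_lit 0) (XT.nd (nat_lit 156) (nat_lit 304) (nat_lit 0) (XT.nd (nat_lit 78) (nat_lit 0) (nat_lit 0) (XT.lf (nat_lit 0) (nat_lit 861277659) (nat_lit 152) (nat_lit 11176175873) (nat_lit 228) (nat_lit 7834536149) (nat_lit 86) (nat_lit 5) (nat_lit 88) (nat_lit 5) (nat_lit 89) (nat_lit 5) (nat_lit 424) (nat_lit 348) (nat_lit 248)) (XT.lf (nat_lit 0) (nat_lit 12766091691) (nat_lit 152) (nat_lit 4622368022) (nat_lit 228) (nat_lit 2871851676) (nat_lit 86) (nat_lit 5) (nat_lit 88) (nat_lit 5) (nat_lit 89) (nat_lit 5) (nat_lit 425) (nat_lit 348) (nat_lit 247))) (XT.nd (nat_lit 78) (nat_lit 0) (nat_lit 0) (XT.lf (nat_lit 0) (nat_lit 2240228094) (nat_lit 304) (nat_lit 16280210211) (nat_lit 76) (nat_lit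 2137874344) (nat_lit 82) (nat_lit 5) (nat_lit 86) (nat_lit 5) (nat_lit 83) (nat_lit 5) (nat_lit 426) (nat_lit 348) (nat_lit 246)) (XT.lf (nat_lit 0) (nat_lit 7551226792) (nat_lit 304) (nat_lit 4413236076) (nat_lit 76) (nat_lit 9099842020) (nat_lit 82) (nat_lit 5) (nat_lit 86) (nat_lit 5) (nat_lit 83) (nat_lit 5) (nat_lit 427) (nat_lit 348) (nat_lit 245)))) (XT.nd (nat_lit 156) (nat_lit 380) (nat_lit 0) (XT.nd (nat_lit 78) (nat_lit 0) (nat_lit 0) (XT.lf (nat_lit 0) (nat_lit 7932974042) (nat_lit 152) (nat_lit 5146474599) (nat_lit 228) (nat_lit 8401293695) (nat_lit 80) (nat_lit 5) (nat_lit 82) (nat_lit 5) (nat_lit 83) (nat_lit 5) (nat_lit 428) (nat_lit 348) (nat_lit 244)) (XT.lf (nat_lit 0) (nat_lit 18818301834) (nat_lit 228) (nat_lit 1218457856) (nat_lit 76) (nat_lit 1871571848) (nat_lit 80) (nat_lit 5) (nat_lit 83) (nat_lit 5) (nat_lit 81) (nat_lit 5) (nat_lit 429) (nat_lit 348) (nat_lit 243))) (XT.nd (nat_lit 78)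 (nat_lit 152) (nat_lit 0) (XT.lf (nat_lit 0) (nat_lit 2480538709) (nat_lit 228) (nat_lit 10742842003) (nat_lit 76) (nat_lit 9120290646) (nat_lit 77) (nat_lit 5) (nat_lit 80) (nat_lit 5) (nat_lit 78) (nat_lit 5) (nat_lit 430) (nat_lit 348) (nat_lit 242)) (XT.lf (nat_lit 0) (nat_lit 2015775282) (nat_lit 152) (nat_lit 6154469581) (nat_lit 228) (nat_lit 14620486851) (nat_lit 75) (nat_lit 5) (nat_lit 77) (nat_lit 5) (nat_lit 78) (nat_lit 5) (nat_lit 431) (nat_lit 348) (nat_lit 241))))))))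
noncomputable def xc122 : XT := (XT.nd (nat_lit 2262) (nat_lit 1444) (nat_lit 0) (XT.nd (nat_lit 1092) (nat_lit 1216) (nat_lit 0) (XT.nd (nat_lit 546) (nat_lit 532) (nat_lit 0) (XT.nd (nat_lit 234) (nat_lit 532) (nat_lit 0) (XT.nd (nat_lit 78) (nat_lit 228) (nat_lit 0) (XT.lf (nat_lit 0) (nat_lit 14133447119) (nat_lit 228) (nat_lit 7913395022) (nat_lit 76) (nat_lit 1201279522) (nat_lit 75) (nat_lit 5) (nat_lit 78) (nat_lit 5) (nat_lit 76) (nat_lit 5) (nat_lit 432) (nat_lit 348) (nat_lit 240)) (XT.nd (nat_lit 78) (nat_lit 76) (nat_lit 0) (XT.lf (nat_lit 0) (nat_lit 5347413895) (nat_lit 152) (nat_lit 15023402034) (nat_lit 228) (nat_lit 3345561139) (nat_lit 73) (nat_lit 5) (nat_lit 75) (nat_lit 5) (nat_lit 76) (nat_lit 5) (nat_lit 433) (nat_lit 348) (nat_lit 239)) (XT.lf (nat_lit 0) (nat_lit 2609632416) (nat_lit 228) (nat_lit 5083828125) (nat_lit 76) (nat_lit 16502562262) (nat_lit 72) (nat_lit 5) (nat_lit 75) (nat_lit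 5) (nat_lit 73) (nat_lit 5) (nat_lit 434) (nat_lit 348) (nat_lit 238)))) (XT.nd (nat_lit 156) (nat_lit 380) (nat_lit 0) (XT.nd (nat_lit 78) (nat_lit 0) (nat_lit 0) (XT.lf (nat_lit 0) (nat_lit 8707468483) (nat_lit 152) (nat_lit 35943517) (nat_lit 228) (nat_lit 15943638715) (nat_lit 70) (nat_lit 5) (nat_lit 72) (nat_lit 5) (nat_lit 73) (nat_lit 5) (nat_lit 435) (nat_lit 348) (nat_lit 237)) (XT.lf (nat_lit 0) (nat_lit 15172075431) (nat_lit 228) (nat_lit 2279798329) (nat_lit 76) (nat_lit 7737611254) (nat_lit 70) (nat_lit 5) (nat_lit 73) (nat_lit 5) (nat_lit 71) (nat_lit 5) (nat_lit 436) (nat_lit 348) (nat_lit 236))) (XT.nd (nat_lit 78) (nat_lit 228) (nat_lit 0) (XT.lf (nat_lit 0) (nat_lit 12037096066) (nat_lit 152) (nat_lit 9856599506) (nat_lit 228) (nat_lit 3810295483) (nat_lit 68) (nat_lit 5) (nat_lit 70) (nat_lit 5) (nat_lit 71) (nat_lit 5) (nat_lit 437) (nat_lit 348) (nat_lit 235)) (XT.lf (nat_lit 0) (nat_lit 554293696)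 (nat_lit 152) (nat_lit 1990981623) (nat_lit 228) (nat_lit 23687534165) (nat_lit 65) (nat_lit 5) (nat_lit 67) (nat_lit 5) (nat_lit 68) (nat_lit 5) (nat_lit 438) (nat_lit 348) (nat_lit 234))))) (XT.nd (nat_lit 234) (nat_lit 380) (nat_lit 0) (XT.nd (nat_lit 78) (nat_lit 152) (nat_lit 0) (XT.lf (nat_lit 0) (nat_lit 9197187697) (nat_lit 228) (nat_lit 11417436503) (nat_lit 76) (nat_lit 6156270244) (nat_lit 65) (nat_lit 5) (nat_lit 68) (nat_lit 5) (nat_lit 66) (nat_lit 5) (nat_lit 439) (nat_lit 348) (nat_lit 233)) (XT.nd (nat_lit 78) (nat_lit 0) (nat_lit 0) (XT.lf (nat_lit 0) (nat_lit 3288229316) (nat_lit 152) (nat_lit 12796354611) (nat_lit 228) (nat_lit 11239461668) (nat_lit 63) (nat_lit 5) (nat_lit 65) (nat_lit 5) (nat_lit 66) (nat_lit 5) (nat_lit 440) (nat_lit 348) (nat_lit 232)) (XT.lf (nat_lit 0) (nat_lit 18641684568) (nat_lit 152) (nat_lit 4637001266) (nat_lit 228) (nat_lit 4612104329) (nat_lit 63) (nat_lit 5) (nat_lit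 65) (nat_lit 5) (nat_lit 66) (nat_lit 5) (nat_lit 441) (nat_lit 348) (nat_lit 231)))) (XT.nd (nat_lit 156) (nat_lit 152) (nat_lit 0) (XT.nd (nat_lit 78) (nat_lit 0) (nat_lit 0) (XT.lf (nat_lit 0) (nat_lit 2251004507) (nat_lit 228) (nat_lit 22458409920) (nat_lit 76) (nat_lit 3762081403) (nat_lit 60) (nat_lit 5) (nat_lit 63) (nat_lit 5) (nat_lit 61) (nat_lit 5) (nat_lit 442) (nat_lit 348) (nat_lit 230)) (XT.lf (nat_lit 0) (nat_lit 9352690355) (nat_lit 228) (nat_lit 7263570855) (nat_lit 76) (nat_lit 12448231326) (nat_lit 60) (nat_lit 5) (nat_lit 63) (nat_lit 5) (nat_lit 61) (nat_lit 5) (nat_lit 443) (nat_lit 348) (nat_lit 229))) (XT.nd (nat_lit 78) (nat_lit 0) (nat_lit 0) (XT.lf (nat_lit 0) (nat_lit 8527307150) (nat_lit 152) (nat_lit 8207670885) (nat_lit 228) (nat_lit 12938275811) (nat_lit 58) (nat_lit 5) (nat_lit 60) (nat_lit 5) (nat_lit 61) (nat_lit 5) (nat_lit 444) (nat_lit 348) (nat_lit 228)) (XT.lf (nat_lit 0)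 (nat_lit 24402804227) (nat_lit 228) (nat_lit 5388616386) (nat_lit 76) (nat_lit 506936487) (nat_lit 58) (nat_lit 5) (nat_lit 61) (nat_lit 5) (nat_lit 59) (nat_lit 4) (nat_lit 445) (nat_lit 348) (nat_lit 227)))))) (XT.nd (nat_lit 546) (nat_lit 608) (nat_lit 0) (XT.nd (nat_lit 234) (nat_lit 304) (nat_lit 0) (XT.nd (nat_lit 78) (nat_lit 152) (nat_lit 0) (XT.lf (nat_lit 0) (nat_lit 1506214700) (nat_lit 152) (nat_lit 20003492757) (nat_lit 76) (nat_lit 9426887244) (nat_lit 56) (nat_lit 5) (nat_lit 58) (nat_lit 5) (nat_lit 57) (nat_lit 5) (nat_lit 446) (nat_lit 348) (nat_lit 226)) (XT.nd (nat_lit 78) (nat_lit 152) (nat_lit 0) (XT.lf (nat_lit 0) (nat_lit 9052577469) (nat_lit 152) (nat_lit 3821851459) (nat_lit 76) (nat_lit 18716569340) (nat_lit 56) (nat_lit 5) (nat_lit 58) (nat_lit 5) (nat_lit 57) (nat_lit 5) (nat_lit 447) (nat_lit 348) (nat_lit 225)) (XT.lf (nat_lit 0) (nat_lit 13075607714) (nat_lit 152) (nat_lit 3861903202)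 (nat_lit 228) (nat_lit 15324158701) (nat_lit 54) (nat_lit 5) (nat_lit 56) (nat_lit 5) (nat_lit 57) (nat_lit 5) (nat_lit 448) (nat_lit 348) (nat_lit 224)))) (XT.nd (nat_lit 156) (nat_lit 152) (nat_lit 0) (XT.nd (nat_lit 78) (nat_lit 152) (nat_lit 0) (XT.lf (nat_lit 0) (nat_lit 25136616776) (nat_lit 228) (nat_lit 2470295190) (nat_lit 76) (nat_lit 5343221445) (nat_lit 54) (nat_lit 5) (nat_lit 57) (nat_lit 5) (nat_lit 55) (nat_lit 4) (nat_lit 449) (nat_lit 348) (nat_lit 223)) (XT.lf (nat_lit 0) (nat_lit 94766186) (nat_lit 152) (nat_lit 18678258398) (nat_lit 76) (nat_lit 14881125635) (nat_lit 52) (nat_lit 5) (nat_lit 54) (nat_lit 5) (nat_lit 53) (nat_lit 5) (nat_lit 450) (nat_lit 348) (nat_lit 222))) (XT.nd (nat_lit 78) (nat_lit 152) (nat_lit 0) (XT.lf (nat_lit 0) (nat_lit 8095399155) (nat_lit 152) (nat_lit 1484180199) (nat_lit 76) (nat_lit 24797023912) (nat_lit 52) (nat_lit 5) (nat_lit 54) (nat_lit 5) (nat_lit 53)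 (nat_lit 5) (nat_lit 451) (nat_lit 348) (nat_lit 221)) (XT.lf (nat_lit 0) (nat_lit 16482639233) (nat_lit 228) (nat_lit 18592009063) (nat_lit 76) (nat_lit 41684887) (nat_lit 50) (nat_lit 5) (nat_lit 53) (nat_lit 5) (nat_lit 51) (nat_lit 4) (nat_lit 452) (nat_lit 348) (nat_lit 220))))) (XT.nd (nat_lit 312) (nat_lit 304) (nat_lit 0) (XT.nd (nat_lit 156) (nat_lit 228) (nat_lit 0) (XT.nd (nat_lit 78) (nat_lit 76) (nat_lit 0) (XT.lf (nat_lit 0) (nat_lit 25218856223) (nat_lit 228) (nat_lit 892769961) (nat_lit 76) (nat_lit 9763708916) (nat_lit 50) (nat_lit 5) (nat_lit 53) (nat_lit 5) (nat_lit 51) (nat_lit 4) (nat_lit 453) (nat_lit 348) (nat_lit 219)) (XT.lf (nat_lit 0) (nat_lit 17659248969) (nat_lit 76) (nat_lit 16715406616) (nat_lit 152) (nat_lit 2277727484) (nat_lit 49) (nat_lit 5) (nat_lit 50) (nat_lit 5) (nat_lit 51) (nat_lit 4) (nat_lit 454) (nat_lit 348) (nat_lit 218))) (XT.nd (nat_lit 78) (nat_lit 152) (nat_lit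 0) (XT.lf (nat_lit 0) (nat_lit 6225296582) (nat_lit 152) (nat_lit 750308711) (nat_lit 76) (nat_lit 30475400069) (nat_lit 48) (nat_lit 5) (nat_lit 50) (nat_lit 5) (nat_lit 49) (nat_lit 5) (nat_lit 455) (nat_lit 348) (nat_lit 217)) (XT.lf (nat_lit 0) (nat_lit 15133425059) (nat_lit 228) (nat_lit 19945987352) (nat_lit 76) (nat_lit 3187624343) (nat_lit 46) (nat_lit 5) (nat_lit 49) (nat_lit 5) (nat_lit 47) (nat_lit 4) (nat_lit 456) (nat_lit 348) (nat_lit 216)))) (XT.nd (nat_lit 156) (nat_lit 228) (nat_lit 0) (XT.nd (nat_lit 78) (nat_lit 76) (nat_lit 0) (XT.lf (nat_lit 0) (nat_lit 24373671705) (nat_lit 228) (nat_lit 1218720696) (nat_lit 76) (nat_lit 13513211229) (nat_lit 46) (nat_lit 5) (nat_lit 49) (nat_lit 5) (nat_lit 47) (nat_lit 4) (nat_lit 457) (nat_lit 348) (nat_lit 215)) (XT.lf (nat_lit 0) (nat_lit 18408029812) (nat_lit 76) (nat_lit 15648547368) (nat_lit 152) (nat_lit 5907787539) (nat_lit 45) (nat_lit 5) (nat_lit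 46) (nat_lit 5) (nat_lit 47) (nat_lit 4) (nat_lit 458) (nat_lit 348) (nat_lit 214))) (XT.nd (nat_lit 78) (nat_lit 152) (nat_lit 0) (XT.lf (nat_lit 0) (nat_lit 3119954136) (nat_lit 152) (nat_lit 2252213501) (nat_lit 76) (nat_lit 35475775936) (nat_lit 44) (nat_lit 5) (nat_lit 46) (nat_lit 5) (nat_lit 45) (nat_lit 5) (nat_lit 459) (nat_lit 348) (nat_lit 213)) (XT.lf (nat_lit 0) (nat_lit 12513009705) (nat_lit 228) (nat_lit 23902823614) (nat_lit 76) (nat_lit 5334045701) (nat_lit 42) (nat_lit 5) (nat_lit 45) (nat_lit 5) (nat_lit 43) (nat_lit 4) (nat_lit 460) (nat_lit 348) (nat_lit 212))))))) (XT.nd (nat_lit 1092) (nat_lit 684) (nat_lit 0) (XT.nd (nat_lit 546) (nat_lit 380) (nat_lit 0) (XT.nd (nat_lit 234) (nat_lit 304) (nat_lit 0) (XT.nd (nat_lit 78) (nat_lit 76) (nat_lit 0) (XT.lf (nat_lit 0) (nat_lit 22252900160) (nat_lit 228) (nat_lit 4157098656) (nat_lit 76) (nat_lit 16266923085) (nat_lit 42) (nat_lit 5) (nat_lit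 45) (nat_lit 5) (nat_lit 43) (nat_lit 4) (nat_lit 461) (nat_lit 348) (nat_lit 211)) (XT.nd (nat_lit 78) (nat_lit 0) (nat_lit 0) (XT.lf (nat_lit 0) (nat_lit 16482273161) (nat_lit 76) (nat_lit 15950360911) (nat_lit 152) (nat_lit 11194713239) (nat_lit 41) (nat_lit 5) (nat_lit 42) (nat_lit 5) (nat_lit 43) (nat_lit 4) (nat_lit 462) (nat_lit 348) (nat_lit 210)) (XT.lf (nat_lit 0) (nat_lit 37805888719) (nat_lit 76) (nat_lit 5143179449) (nat_lit 152) (nat_lit 1656278699) (nat_lit 41) (nat_lit 5) (nat_lit 42) (nat_lit 5) (nat_lit 43) (nat_lit 4) (nat_lit 463) (nat_lit 348) (nat_lit 209)))) (XT.nd (nat_lit 156) (nat_lit 76) (nat_lit 0) (XT.nd (nat_lit 78) (nat_lit 0) (nat_lit 0) (XT.lf (nat_lit 0) (nat_lit 8195893704) (nat_lit 228) (nat_lit 31328107209) (nat_lit 76) (nat_lit 6080721187) (nat_lit 38) (nat_lit 5) (nat_lit 41) (nat_lit 5) (nat_lit 39) (nat_lit 4) (nat_lit 464) (nat_lit 348) (nat_lit 208)) (XT.lf (nat_lit 0)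 (nat_lit 18420170266) (nat_lit 228) (nat_lit 10595471567) (nat_lit 76) (nat_lit 17614650509) (nat_lit 38) (nat_lit 5) (nat_lit 41) (nat_lit 5) (nat_lit 39) (nat_lit 4) (nat_lit 465) (nat_lit 348) (nat_lit 207))) (XT.nd (nat_lit 78) (nat_lit 0) (nat_lit 0) (XT.lf (nat_lit 0) (nat_lit 10953661361) (nat_lit 76) (nat_lit 18092675961) (nat_lit 152) (nat_lit 18637438063) (nat_lit 37) (nat_lit 5) (nat_lit 38) (nat_lit 5) (nat_lit 39) (nat_lit 4) (nat_lit 466) (nat_lit 348) (nat_lit 206)) (XT.lf (nat_lit 0) (nat_lit 33347426392) (nat_lit 76) (nat_lit 6740837457) (nat_lit 152) (nat_lit 8677690376) (nat_lit 37) (nat_lit 5) (nat_lit 38) (nat_lit 5) (nat_lit 39) (nat_lit 4) (nat_lit 467) (nat_lit 348) (nat_lit 205))))) (XT.nd (nat_lit 234) (nat_lit 152) (nat_lit 0) (XT.nd (nat_lit 78) (nat_lit 76) (nat_lit 0) (XT.lf (nat_lit 0) (nat_lit 1652182223) (nat_lit 152) (nat_lit 43298956804) (nat_lit 76) (nat_lit 4925938615) (nat_lit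 35) (nat_lit 5) (nat_lit 37) (nat_lit 5) (nat_lit 36) (nat_lit 4) (nat_lit 468) (nat_lit 348) (nat_lit 204)) (XT.nd (nat_lit 78) (nat_lit 76) (nat_lit 0) (XT.lf (nat_lit 0) (nat_lit 12331717319) (nat_lit 152) (nat_lit 21639035010) (nat_lit 76) (nat_lit 17041780019) (nat_lit 35) (nat_lit 5) (nat_lit 37) (nat_lit 5) (nat_lit 36) (nat_lit 4) (nat_lit 469) (nat_lit 348) (nat_lit 203)) (XT.lf (nat_lit 0) (nat_lit 665511166) (nat_lit 76) (nat_lit 22663009926) (nat_lit 152) (nat_lit 28853623603) (nat_lit 34) (nat_lit 5) (nat_lit 35) (nat_lit 5) (nat_lit 36) (nat_lit 4) (nat_lit 470) (nat_lit 348) (nat_lit 202)))) (XT.nd (nat_lit 156) (nat_lit 152) (nat_lit 0) (XT.nd (nat_lit 78) (nat_lit 0) (nat_lit 0) (XT.lf (nat_lit 0) (nat_lit 24064790976) (nat_lit 76) (nat_lit 10799539427) (nat_lit 152) (nat_lit 18516242434) (nat_lit 34) (nat_lit 5) (nat_lit 35) (nat_lit 5) (nat_lit 36) (nat_lit 4) (nat_lit 471) (nat_lit 348) (nat_lit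 201)) (XT.lf (nat_lit 0) (nat_lit 46750646015) (nat_lit 152) (nat_lit 6480205532) (nat_lit 0) (nat_lit 1383969770) (nat_lit 34) (nat_lit 5) (nat_lit 36) (nat_lit 4) (nat_lit 34) (nat_lit 4) (nat_lit 472) (nat_lit 348) (nat_lit 200))) (XT.nd (nat_lit 78) (nat_lit 0) (nat_lit 0) (XT.lf (nat_lit 0) (nat_lit 3313252987) (nat_lit 152) (nat_lit 38657623267) (nat_lit 76) (nat_lit 13906332199) (nat_lit 32) (nat_lit 5) (nat_lit 34) (nat_lit 5) (nat_lit 33) (nat_lit 4) (nat_lit 473) (nat_lit 348) (nat_lit 199)) (XT.lf (nat_lit 0) (nat_lit 14725088827) (nat_lit 152) (nat_lit 15507956306) (nat_lit 76) (nat_lit 26940372186) (nat_lit 32) (nat_lit 5) (nat_lit 34) (nat_lit 5) (nat_lit 33) (nat_lit 4) (nat_lit 474) (nat_lit 348) (nat_lit 198)))))) (XT.nd (nat_lit 546) (nat_lit 380) (nat_lit 0) (XT.nd (nat_lit 234) (nat_lit 228) (nat_lit 0) (XT.nd (nat_lit 78) (nat_lit 0) (nat_lit 0) (XT.lf (nat_lit 0) (nat_lit 8485126831) (nat_lit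 76) (nat_lit 18067039056) (nat_lit 152) (nat_lit 31954160384) (nat_lit 31) (nat_lit 5) (nat_lit 32) (nat_lit 5) (nat_lit 33) (nat_lit 4) (nat_lit 475) (nat_lit 348) (nat_lit 197)) (XT.nd (nat_lit 78) (nat_lit 0) (nat_lit 0) (XT.lf (nat_lit 0) (nat_lit 33499414372) (nat_lit 76) (nat_lit 5382657040) (nat_lit 152) (nat_lit 20992710985) (nat_lit 31) (nat_lit 5) (nat_lit 32) (nat_lit 5) (nat_lit 33) (nat_lit 4) (nat_lit 476) (nat_lit 348) (nat_lit 196)) (XT.lf (nat_lit 0) (nat_lit 51647313119) (nat_lit 152) (nat_lit 2110190677) (nat_lit 0) (nat_lit 7524825620) (nat_lit 31) (nat_lit 5) (nat_lit 33) (nat_lit 4) (nat_lit 31) (nat_lit 4) (nat_lit 477) (nat_lit 348) (nat_lit 195)))) (XT.nd (nat_lit 156) (nat_lit 76) (nat_lit 0) (XT.nd (nat_lit 78) (nat_lit 0) (nat_lit 0) (XT.lf (nat_lit 0) (nat_lit 2294602712) (nat_lit 152) (nat_lit 39478556095) (nat_lit 76) (nat_lit 20950205614) (nat_lit 29) (nat_lit 5) (nat_lit 31) (nat_lit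 5) (nat_lit 30) (nat_lit 4) (nat_lit 478) (nat_lit 348) (nat_lit 194)) (XT.lf (nat_lit 0) (nat_lit 14401821023) (nat_lit 152) (nat_lit 14914603991) (nat_lit 76) (nat_lit 34887942971) (nat_lit 29) (nat_lit 5) (nat_lit 31) (nat_lit 5) (nat_lit 30) (nat_lit 4) (nat_lit 479) (nat_lit 348) (nat_lit 193))) (XT.nd (nat_lit 78) (nat_lit 0) (nat_lit 0) (XT.lf (nat_lit 0) (nat_lit 10577408122) (nat_lit 76) (nat_lit 16388607050) (nat_lit 152) (nat_lit 38760974044) (nat_lit 28) (nat_lit 5) (nat_lit 29) (nat_lit 5) (nat_lit 30) (nat_lit 4) (nat_lit 480) (nat_lit 348) (nat_lit 192)) (XT.lf (nat_lit 0) (nat_lit 37124803102) (nat_lit 76) (nat_lit 2925108401) (nat_lit 152) (nat_lit 27241094617) (nat_lit 28) (nat_lit 5) (nat_lit 29) (nat_lit 5) (nat_lit 30) (nat_lit 4) (nat_lit 481) (nat_lit 348) (nat_lit 191))))) (XT.nd (nat_lit 312) (nat_lit 152) (nat_lit 0) (XT.nd (nat_lit 156) (nat_lit 152) (nat_lit 0) (XT.nd (nat_lit 78) (nat_lit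 76) (nat_lit 0) (XT.lf (nat_lit 0) (nat_lit 53623837031) (nat_lit 152) (nat_lit 4553340218) (nat_lit 0) (nat_lit 10721841234) (nat_lit 28) (nat_lit 5) (nat_lit 30) (nat_lit 4) (nat_lit 28) (nat_lit 4) (nat_lit 482) (nat_lit 348) (nat_lit 190)) (XT.lf (nat_lit 0) (nat_lit 22218101622) (nat_lit 76) (nat_lit 45621965872) (nat_lit 76) (nat_lit 2708151412) (nat_lit 27) (nat_lit 4) (nat_lit 28) (nat_lit 5) (nat_lit 28) (nat_lit 4) (nat_lit 483) (nat_lit 348) (nat_lit 189))) (XT.nd (nat_lit 78) (nat_lit 76) (nat_lit 0) (XT.lf (nat_lit 0) (nat_lit 10075143848) (nat_lit 152) (nat_lit 22472746877) (nat_lit 76) (nat_lit 39694883301) (nat_lit 26) (nat_lit 5) (nat_lit 28) (nat_lit 5) (nat_lit 27) (nat_lit 4) (nat_lit 484) (nat_lit 348) (nat_lit 188)) (XT.lf (nat_lit 0) (nat_lit 4201530116) (nat_lit 76) (nat_lit 19019139454) (nat_lit 152) (nat_lit 50765697225) (nat_lit 25) (nat_lit 5) (nat_lit 26) (nat_lit 5) (nat_lit 27) (nat_lit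 4) (nat_lit 485) (nat_lit 348) (nat_lit 187)))) (XT.nd (nat_lit 156) (nat_lit 152) (nat_lit 0) (XT.nd (nat_lit 78) (nat_lit 0) (nat_lit 0) (XT.lf (nat_lit 0) (nat_lit 32122853705) (nat_lit 76) (nat_lit 4857490417) (nat_lit 152) (nat_lit 38795330009) (nat_lit 25) (nat_lit 5) (nat_lit 26) (nat_lit 5) (nat_lit 27) (nat_lit 4) (nat_lit 486) (nat_lit 348) (nat_lit 186)) (XT.lf (nat_lit 0) (nat_lit 51239328089) (nat_lit 152) (nat_lit 16843958321) (nat_lit 0) (nat_lit 9532778969) (nat_lit 25) (nat_lit 5) (nat_lit 27) (nat_lit 4) (nat_lit 25) (nat_lit 4) (nat_lit 487) (nat_lit 348) (nat_lit 185))) (XT.nd (nat_lit 78) (nat_lit 76) (nat_lit 0) (XT.lf (nat_lit 0) (nat_lit 10920985924) (nat_lit 76) (nat_lit 55151370754) (nat_lit 76) (nat_lit 13434923690) (nat_lit 24) (nat_lit 4) (nat_lit 25) (nat_lit 5) (nat_lit 25) (nat_lit 4) (nat_lit 488) (nat_lit 348) (nat_lit 184)) (XT.lf (nat_lit 0) (nat_lit 62172937) (nat_lit 152) (nat_lit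 41599845654) (nat_lit 76) (nat_lit 39788294223) (nat_lit 23) (nat_lit 5) (nat_lit 25) (nat_lit 5) (nat_lit 24) (nat_lit 4) (nat_lit 489) (nat_lit 348) (nat_lit 183))))))))
noncomputable def xc123 : XT := (XT.nd (nat_lit 2262) (nat_lit 7448) (nat_lit 0) (XT.nd (nat_lit 1092) (nat_lit 8284) (nat_lit 0) (XT.nd (nat_lit 546) (nat_lit 1444) (nat_lit 0) (XT.nd (nat_lit 234) (nat_lit 608) (nat_lit 0) (XT.nd (nat_lit 78) (nat_lit 0) (nat_lit 0) (XT.lf (nat_lit 0) (nat_lit 355608958) (nat_lit 684) (nat_lit 1518984207) (nat_lit 684) (nat_lit 1518984207) (nat_lit 361) (nat_lit 3) (nat_lit 370) (nat_lit 3) (nat_lit 370) (nat_lit 5) (nat_lit 349) (nat_lit 349) (nat_lit 322)) (XT.nd (nat_lit 78) (nat_lit 0) (nat_lit 0) (XT.lf (nat_lit 76) (nat_lit 284477793) (nat_lit 0) (nat_lit 2472026963) (nat_lit 684) (nat_lit 4070468336) (nat_lit 362) (nat_lit 5) (nat_lit 361) (nat_lit 3) (nat_lit 370) (nat_lit 5) (nat_lit 350) (nat_lit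 349) (nat_lit 321)) (XT.lf (nat_lit 76) (nat_lit 3727202217) (nat_lit 0) (nat_lit 1086926195) (nat_lit 684) (nat_lit 2055365321) (nat_lit 362) (nat_lit 5) (nat_lit 361) (nat_lit 3) (nat_lit 370) (nat_lit 5) (nat_lit 351) (nat_lit 349) (nat_lit 320)))) (XT.nd (nat_lit 156) (nat_lit 0) (nat_lit 0) (XT.nd (nat_lit 78) (nat_lit 684) (nat_lit 0) (XT.lf (nat_lit 76) (nat_lit 319722548) (nat_lit 0) (nat_lit 6543074201) (nat_lit 684) (nat_lit 52649776) (nat_lit 363) (nat_lit 5) (nat_lit 362) (nat_lit 5) (nat_lit 371) (nat_lit 5) (nat_lit 352) (nat_lit 349) (nat_lit 319)) (XT.lf (nat_lit 0) (nat_lit 1937759501) (nat_lit 684) (nat_lit 3086505377) (nat_lit 760) (nat_lit 1938962162) (nat_lit 353) (nat_lit 5) (nat_lit 362) (nat_lit 5) (nat_lit 363) (nat_lit 5) (nat_lit 353) (nat_lit 349) (nat_lit 318))) (XT.nd (nat_lit 78) (nat_lit 0) (nat_lit 0) (XT.lf (nat_lit 76) (nat_lit 494108632) (nat_lit 0) (nat_lit 3423707274) (nat_lit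 760) (nat_lit 3096712590) (nat_lit 354) (nat_lit 5) (nat_lit 353) (nat_lit 5) (nat_lit 363) (nat_lit 5) (nat_lit 354) (nat_lit 349) (nat_lit 317)) (XT.lf (nat_lit 76) (nat_lit 4202831276) (nat_lit 0) (nat_lit 1713592706) (nat_lit 760) (nat_lit 1152202509) (nat_lit 354) (nat_lit 5) (nat_lit 353) (nat_lit 5) (nat_lit 363) (nat_lit 5) (nat_lit 355) (nat_lit 349) (nat_lit 316))))) (XT.nd (nat_lit 234) (nat_lit 760) (nat_lit 0) (XT.nd (nat_lit 78) (nat_lit 0) (nat_lit 0) (XT.lf (nat_lit 0) (nat_lit 772600758) (nat_lit 760) (nat_lit 6262510644) (nat_lit 836) (nat_lit 90864167) (nat_lit 344) (nat_lit 5) (nat_lit 354) (nat_lit 5) (nat_lit 355) (nat_lit 5) (nat_lit 356) (nat_lit 349) (nat_lit 315)) (XT.nd (nat_lit 78) (nat_lit 0) (nat_lit 0) (XT.lf (nat_lit 0) (nat_lit 2709445327) (nat_lit 760) (nat_lit 2494200554) (nat_lit 836) (nat_lit 1981762622) (nat_lit 344) (nat_lit 5) (nat_lit 354) (nat_lit 5) (nat_lit 355) (nat_lit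 5) (nat_lit 357) (nat_lit 349) (nat_lit 314)) (XT.lf (nat_lit 76) (nat_lit 1370492638) (nat_lit 0) (nat_lit 3280342270) (nat_lit 836) (nat_lit 2597424753) (nat_lit 345) (nat_lit 5) (nat_lit 344) (nat_lit 5) (nat_lit 355) (nat_lit 5) (nat_lit 358) (nat_lit 349) (nat_lit 313)))) (XT.nd (nat_lit 156) (nat_lit 0) (nat_lit 0) (XT.nd (nat_lit 78) (nat_lit 760) (nat_lit 0) (XT.lf (nat_lit 76) (nat_lit 5359271428) (nat_lit 0) (nat_lit 1251177477) (nat_lit 836) (nat_lit 703775567) (nat_lit 345) (nat_lit 5) (nat_lit 344) (nat_lit 5) (nat_lit 355) (nat_lit 5) (nat_lit 359) (nat_lit 349) (nat_lit 312)) (XT.lf (nat_lit 0) (nat_lit 1186885832) (nat_lit 836) (nat_lit 5320794613) (nat_lit 912) (nat_lit 875218382) (nat_lit 334) (nat_lit 5) (nat_lit 345) (nat_lit 5) (nat_lit 346) (nat_lit 5) (nat_lit 360) (nat_lit 349) (nat_lit 311))) (XT.nd (nat_lit 78) (nat_lit 0) (nat_lit 0) (XT.lf (nat_lit 0) (nat_lit 3090133220) (nat_lit 836)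 (nat_lit 1277545368) (nat_lit 912) (nat_lit 3086670701) (nat_lit 334) (nat_lit 5) (nat_lit 345) (nat_lit 5) (nat_lit 346) (nat_lit 5) (nat_lit 361) (nat_lit 349) (nat_lit 310)) (XT.lf (nat_lit 76) (nat_lit 2900196006) (nat_lit 0) (nat_lit 2117662222) (nat_lit 912) (nat_lit 2511088152) (nat_lit 335) (nat_lit 5) (nat_lit 334) (nat_lit 5) (nat_lit 346) (nat_lit 5) (nat_lit 362) (nat_lit 349) (nat_lit 309)))))) (XT.nd (nat_lit 546) (nat_lit 4408) (nat_lit 0) (XT.nd (nat_lit 234) (nat_lit 2128) (nat_lit 0) (XT.nd (nat_lit 78) (nat_lit 1824) (nat_lit 0) (XT.lf (nat_lit 0) (nat_lit 6959370780) (nat_lit 836) (nat_lit 422912091) (nat_lit 76) (nat_lit 224843648) (nat_lit 335) (nat_lit 5) (nat_lit 346) (nat_lit 5) (nat_lit 336) (nat_lit 5) (nat_lit 363) (nat_lit 349) (nat_lit 308)) (XT.nd (nat_lit 78) (nat_lit 912) (nat_lit 0) (XT.lf (nat_lit 0) (nat_lit 1248039371) (nat_lit 912) (nat_lit 3778839948) (nat_lit 76) (nat_lit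 2660387302) (nat_lit 323) (nat_lit 5) (nat_lit 335) (nat_lit 5) (nat_lit 324) (nat_lit 5) (nat_lit 364) (nat_lit 349) (nat_lit 307)) (XT.lf (nat_lit 0) (nat_lit 569000658) (nat_lit 912) (nat_lit 2571871738) (nat_lit 988) (nat_lit 4630172417) (nat_lit 311) (nat_lit 5) (nat_lit 323) (nat_lit 5) (nat_lit 324) (nat_lit 5) (nat_lit 365) (nat_lit 349) (nat_lit 306)))) (XT.nd (nat_lit 156) (nat_lit 1140) (nat_lit 0) (XT.nd (nat_lit 78) (nat_lit 988) (nat_lit 0) (XT.lf (nat_lit 0) (nat_lit 5073349286) (nat_lit 988) (nat_lit 2777111839) (nat_lit 76) (nat_lit 7410613) (nat_lit 311) (nat_lit 5) (nat_lit 324) (nat_lit 5) (nat_lit 312) (nat_lit 5) (nat_lit 366) (nat_lit 349) (nat_lit 305)) (XT.lf (nat_lit 0) (nat_lit 1744785557) (nat_lit 988) (nat_lit 5307598120) (nat_lit 1064) (nat_lit 895282835) (nat_lit 298) (nat_lit 5) (nat_lit 311) (nat_lit 5) (nat_lit 312) (nat_lit 5) (nat_lit 367) (nat_lit 349) (nat_lit 304))) (XT.nd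 (nat_lit 78) (nat_lit 1064) (nat_lit 0) (XT.lf (nat_lit 0) (nat_lit 1005401468) (nat_lit 1064) (nat_lit 1635428975) (nat_lit 76) (nat_lit 5399782990) (nat_lit 297) (nat_lit 5) (nat_lit 311) (nat_lit 5) (nat_lit 298) (nat_lit 5) (nat_lit 368) (nat_lit 349) (nat_lit 303)) (XT.lf (nat_lit 0) (nat_lit 2924652739) (nat_lit 1140) (nat_lit 5061712505) (nat_lit 76) (nat_lit 150350164) (nat_lit 283) (nat_lit 5) (nat_lit 298) (nat_lit 5) (nat_lit 284) (nat_lit 5) (nat_lit 369) (nat_lit 349) (nat_lit 302))))) (XT.nd (nat_lit 312) (nat_lit 1976) (nat_lit 0) (XT.nd (nat_lit 156) (nat_lit 1292) (nat_lit 0) (XT.nd (nat_lit 78) (nat_lit 1140) (nat_lit 0) (XT.lf (nat_lit 0) (nat_lit 4893952902) (nat_lit 1140) (nat_lit 346109480) (nat_lit 76) (nat_lit 2995882165) (nat_lit 283) (nat_lit 5) (nat_lit 298) (nat_lit 5) (nat_lit 284) (nat_lit 5) (nat_lit 370) (nat_lit 349) (nat_lit 301)) (XT.lf (nat_lit 0) (nat_lit 4556311924) (nat_lit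 1140) (nat_lit 2360931196) (nat_lit 1216) (nat_lit 1421077826) (nat_lit 268) (nat_lit 5) (nat_lit 283) (nat_lit 5) (nat_lit 284) (nat_lit 5) (nat_lit 371) (nat_lit 349) (nat_lit 300))) (XT.nd (nat_lit 78) (nat_lit 0) (nat_lit 0) (XT.lf (nat_lit 0) (nat_lit 518773194) (nat_lit 1292) (nat_lit 7308672933) (nat_lit 76) (nat_lit 617012811) (nat_lit 251) (nat_lit 5) (nat_lit 268) (nat_lit 5) (nat_lit 252) (nat_lit 5) (nat_lit 372) (nat_lit 349) (nat_lit 299)) (XT.lf (nat_lit 0) (nat_lit 2502857902) (nat_lit 1292) (nat_lit 2356969482) (nat_lit 76) (nat_lit 3693109781) (nat_lit 251) (nat_lit 5) (nat_lit 268) (nat_lit 5) (nat_lit 252) (nat_lit 5) (nat_lit 373) (nat_lit 349) (nat_lit 298)))) (XT.nd (nat_lit 156) (nat_lit 1292) (nat_lit 0) (XT.nd (nat_lit 78) (nat_lit 0) (nat_lit 0) (XT.lf (nat_lit 0) (nat_lit 2753171757) (nat_lit 684) (nat_lit 1773793376) (nat_lit 760) (nat_lit 4138305348) (nat_lit 242) (nat_lit 5) (nat_lit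 251) (nat_lit 5) (nat_lit 252) (nat_lit 5) (nat_lit 374) (nat_lit 349) (nat_lit 297)) (XT.lf (nat_lit 0) (nat_lit 6604308074) (nat_lit 760) (nat_lit 773856779) (nat_lit 76) (nat_lit 1403048851) (nat_lit 242) (nat_lit 5) (nat_lit 252) (nat_lit 5) (nat_lit 243) (nat_lit 5) (nat_lit 375) (nat_lit 349) (nat_lit 296))) (XT.nd (nat_lit 78) (nat_lit 684) (nat_lit 0) (XT.lf (nat_lit 0) (nat_lit 4546197217) (nat_lit 608) (nat_lit 4215320782) (nat_lit 684) (nat_lit 138605658) (nat_lit 234) (nat_lit 5) (nat_lit 242) (nat_lit 5) (nat_lit 243) (nat_lit 5) (nat_lit 376) (nat_lit 349) (nat_lit 295)) (XT.lf (nat_lit 0) (nat_lit 975524562) (nat_lit 608) (nat_lit 921029268) (nat_lit 684) (nat_lit 7126276390) (nat_lit 225) (nat_lit 5) (nat_lit 233) (nat_lit 5) (nat_lit 234) (nat_lit 5) (nat_lit 377) (nat_lit 349) (nat_lit 294))))))) (XT.nd (nat_lit 1092) (nat_lit 3344) (nat_lit 0) (XT.nd (nat_lit 546) (nat_lit 1976) (nat_lit 0) (XT.nd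 (nat_lit 234) (nat_lit 1596) (nat_lit 0) (XT.nd (nat_lit 78) (nat_lit 532) (nat_lit 0) (XT.lf (nat_lit 0) (nat_lit 4015684177) (nat_lit 684) (nat_lit 2664140787) (nat_lit 76) (nat_lit 2468594368) (nat_lit 225) (nat_lit 5) (nat_lit 234) (nat_lit 5) (nat_lit 226) (nat_lit 5) (nat_lit 378) (nat_lit 349) (nat_lit 293)) (XT.nd (nat_lit 78) (nat_lit 0) (nat_lit 0) (XT.lf (nat_lit 0) (nat_lit 2884204234) (nat_lit 532) (nat_lit 3309802043) (nat_lit 608) (nat_lit 3083914485) (nat_lit 218) (nat_lit 5) (nat_lit 225) (nat_lit 5) (nat_lit 226) (nat_lit 5) (nat_lit 379) (nat_lit 349) (nat_lit 292)) (XT.lf (nat_lit 0) (nat_lit 8425933555) (nat_lit 608) (nat_lit 802956892) (nat_lit 76) (nat_lit 182781922) (nat_lit 218) (nat_lit 5) (nat_lit 226) (nat_lit 5) (nat_lit 219) (nat_lit 5) (nat_lit 380) (nat_lit 349) (nat_lit 291)))) (XT.nd (nat_lit 156) (nat_lit 532) (nat_lit 0) (XT.nd (nat_lit 78) (nat_lit 456) (nat_lit 0) (XT.lf (nat_lit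 0) (nat_lit 1194168991) (nat_lit 608) (nat_lit 4583006708) (nat_lit 76) (nat_lit 3770682249) (nat_lit 210) (nat_lit 5) (nat_lit 218) (nat_lit 5) (nat_lit 211) (nat_lit 5) (nat_lit 381) (nat_lit 349) (nat_lit 290)) (XT.lf (nat_lit 0) (nat_lit 1204605504) (nat_lit 456) (nat_lit 2195880319) (nat_lit 532) (nat_lit 6287937464) (nat_lit 204) (nat_lit 5) (nat_lit 210) (nat_lit 5) (nat_lit 211) (nat_lit 5) (nat_lit 382) (nat_lit 349) (nat_lit 289))) (XT.nd (nat_lit 78) (nat_lit 532) (nat_lit 0) (XT.lf (nat_lit 0) (nat_lit 5695813041) (nat_lit 532) (nat_lit 2630848875) (nat_lit 76) (nat_lit 1505870416) (nat_lit 204) (nat_lit 5) (nat_lit 211) (nat_lit 5) (nat_lit 205) (nat_lit 5) (nat_lit 383) (nat_lit 349) (nat_lit 288)) (XT.lf (nat_lit 0) (nat_lit 3399571163) (nat_lit 532) (nat_lit 4677696692) (nat_lit 608) (nat_lit 1903189798) (nat_lit 197) (nat_lit 5) (nat_lit 204) (nat_lit 5) (nat_lit 205) (nat_lit 5) (nat_lit 384)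 (nat_lit 349) (nat_lit 287))))) (XT.nd (nat_lit 234) (nat_lit 988) (nat_lit 0) (XT.nd (nat_lit 78) (nat_lit 912) (nat_lit 0) (XT.lf (nat_lit 0) (nat_lit 379572694) (nat_lit 608) (nat_lit 514331908) (nat_lit 76) (nat_lit 9239112530) (nat_lit 196) (nat_lit 5) (nat_lit 204) (nat_lit 5) (nat_lit 197) (nat_lit 5) (nat_lit 385) (nat_lit 349) (nat_lit 286)) (XT.nd (nat_lit 78) (nat_lit 456) (nat_lit 0) (XT.lf (nat_lit 0) (nat_lit 2741963512) (nat_lit 532) (nat_lit 4532066669) (nat_lit 76) (nat_lit 3014086082) (nat_lit 190) (nat_lit 5) (nat_lit 197) (nat_lit 5) (nat_lit 191) (nat_lit 5) (nat_lit 386) (nat_lit 349) (nat_lit 285)) (XT.lf (nat_lit 0) (nat_lit 1760424790) (nat_lit 456) (nat_lit 3410627699) (nat_lit 532) (nat_lit 5276950896) (nat_lit 184) (nat_lit 5) (nat_lit 190) (nat_lit 5) (nat_lit 191) (nat_lit 5) (nat_lit 387) (nat_lit 349) (nat_lit 284)))) (XT.nd (nat_lit 156) (nat_lit 532) (nat_lit 0) (XT.nd (nat_lit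 78) (nat_lit 456) (nat_lit 0) (XT.lf (nat_lit 0) (nat_lit 7690057331) (nat_lit 532) (nat_lit 2325598294) (nat_lit 76) (nat_lit 596529721) (nat_lit 184) (nat_lit 5) (nat_lit 191) (nat_lit 5) (nat_lit 185) (nat_lit 5) (nat_lit 388) (nat_lit 349) (nat_lit 283)) (XT.lf (nat_lit 0) (nat_lit 4234393863) (nat_lit 456) (nat_lit 6091078222) (nat_lit 532) (nat_lit 454604735) (nat_lit 178) (nat_lit 5) (nat_lit 184) (nat_lit 5) (nat_lit 185) (nat_lit 5) (nat_lit 389) (nat_lit 349) (nat_lit 282))) (XT.nd (nat_lit 78) (nat_lit 0) (nat_lit 0) (XT.lf (nat_lit 0) (nat_lit 24776225) (nat_lit 456) (nat_lit 2012013046) (nat_lit 532) (nat_lit 8915905587) (nat_lit 171) (nat_lit 5) (nat_lit 177) (nat_lit 5) (nat_lit 178) (nat_lit 5) (nat_lit 390) (nat_lit 349) (nat_lit 281)) (XT.lf (nat_lit 0) (nat_lit 4648690066) (nat_lit 532) (nat_lit 4270649558) (nat_lit 76) (nat_lit 2209378181) (nat_lit 171) (nat_lit 5) (nat_lit 178) (nat_lit 5)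 (nat_lit 172) (nat_lit 5) (nat_lit 391) (nat_lit 349) (nat_lit 280)))))) (XT.nd (nat_lit 546) (nat_lit 1672) (nat_lit 0) (XT.nd (nat_lit 234) (nat_lit 836) (nat_lit 0) (XT.nd (nat_lit 78) (nat_lit 456) (nat_lit 0) (XT.lf (nat_lit 0) (nat_lit 2575440971) (nat_lit 380) (nat_lit 4776245699) (nat_lit 456) (nat_lit 3957960821) (nat_lit 166) (nat_lit 5) (nat_lit 171) (nat_lit 5) (nat_lit 172) (nat_lit 5) (nat_lit 392) (nat_lit 349) (nat_lit 279)) (XT.nd (nat_lit 78) (nat_lit 456) (nat_lit 0) (XT.lf (nat_lit 0) (nat_lit 9673630751) (nat_lit 380) (nat_lit 473866557) (nat_lit 456) (nat_lit 1348164011) (nat_lit 166) (nat_lit 5) (nat_lit 171) (nat_lit 5) (nat_lit 172) (nat_lit 5) (nat_lit 393) (nat_lit 349) (nat_lit 278)) (XT.lf (nat_lit 0) (nat_lit 1372987763) (nat_lit 456) (nat_lit 6376101544) (nat_lit 76) (nat_lit 3936011131) (nat_lit 160) (nat_lit 5) (nat_lit 166) (nat_lit 5) (nat_lit 161) (nat_lit 5) (nat_lit 394) (nat_lit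 349) (nat_lit 277)))) (XT.nd (nat_lit 156) (nat_lit 456) (nat_lit 0) (XT.nd (nat_lit 78) (nat_lit 0) (nat_lit 0) (XT.lf (nat_lit 0) (nat_lit 767709200) (nat_lit 380) (nat_lit 3381246435) (nat_lit 456) (nat_lit 7730865599) (nat_lit 155) (nat_lit 5) (nat_lit 160) (nat_lit 5) (nat_lit 161) (nat_lit 5) (nat_lit 395) (nat_lit 349) (nat_lit 276)) (XT.lf (nat_lit 0) (nat_lit 7053992597) (nat_lit 456) (nat_lit 3874387040) (nat_lit 76) (nat_lit 1150637403) (nat_lit 155) (nat_lit 5) (nat_lit 161) (nat_lit 5) (nat_lit 156) (nat_lit 5) (nat_lit 396) (nat_lit 349) (nat_lit 275))) (XT.nd (nat_lit 78) (nat_lit 76) (nat_lit 0) (XT.lf (nat_lit 0) (nat_lit 3576894758) (nat_lit 380) (nat_lit 6508043093) (nat_lit 456) (nat_lit 2198095032) (nat_lit 150) (nat_lit 5) (nat_lit 155) (nat_lit 5) (nat_lit 156) (nat_lit 5) (nat_lit 397) (nat_lit 349) (nat_lit 274)) (XT.lf (nat_lit 0) (nat_lit 710301674) (nat_lit 456) (nat_lit 1208193068)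 (nat_lit 76) (nat_lit 10574157591) (nat_lit 149) (nat_lit 5) (nat_lit 155) (nat_lit 5) (nat_lit 150) (nat_lit 5) (nat_lit 398) (nat_lit 349) (nat_lit 273))))) (XT.nd (nat_lit 312) (nat_lit 608) (nat_lit 0) (XT.nd (nat_lit 156) (nat_lit 380) (nat_lit 0) (XT.nd (nat_lit 78) (nat_lit 380) (nat_lit 0) (XT.lf (nat_lit 0) (nat_lit 3724699041) (nat_lit 380) (nat_lit 6152139548) (nat_lit 76) (nat_lit 2829187325) (nat_lit 145) (nat_lit 5) (nat_lit 150) (nat_lit 5) (nat_lit 146) (nat_lit 5) (nat_lit 399) (nat_lit 349) (nat_lit 272)) (XT.lf (nat_lit 0) (nat_lit 1621416476) (nat_lit 380) (nat_lit 5227273375) (nat_lit 456) (nat_lit 6076542118) (nat_lit 140) (nat_lit 5) (nat_lit 145) (nat_lit 5) (nat_lit 146) (nat_lit 5) (nat_lit 400) (nat_lit 349) (nat_lit 271))) (XT.nd (nat_lit 78) (nat_lit 380) (nat_lit 0) (XT.lf (nat_lit 0) (nat_lit 9715409317) (nat_lit 380) (nat_lit 385809135) (nat_lit 456) (nat_lit 3048757147) (nat_lit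 140) (nat_lit 5) (nat_lit 145) (nat_lit 5) (nat_lit 146) (nat_lit 5) (nat_lit 401) (nat_lit 349) (nat_lit 270)) (XT.lf (nat_lit 0) (nat_lit 131700918) (nat_lit 380) (nat_lit 8701478324) (nat_lit 76) (nat_lit 4546371657) (nat_lit 135) (nat_lit 5) (nat_lit 140) (nat_lit 5) (nat_lit 136) (nat_lit 5) (nat_lit 402) (nat_lit 349) (nat_lit 269)))) (XT.nd (nat_lit 156) (nat_lit 304) (nat_lit 0) (XT.nd (nat_lit 78) (nat_lit 304) (nat_lit 0) (XT.lf (nat_lit 0) (nat_lit 3358666622) (nat_lit 380) (nat_lit 583424828) (nat_lit 76) (nat_lit 9672650743) (nat_lit 135) (nat_lit 5) (nat_lit 140) (nat_lit 5) (nat_lit 136) (nat_lit 5) (nat_lit 403) (nat_lit 349) (nat_lit 268)) (XT.lf (nat_lit 0) (nat_lit 6743797857) (nat_lit 380) (nat_lit 5971909133) (nat_lit 76) (nat_lit 1139446810) (nat_lit 131) (nat_lit 5) (nat_lit 136) (nat_lit 5) (nat_lit 132) (nat_lit 5) (nat_lit 404) (nat_lit 349) (nat_lit 267))) (XT.nd (nat_lit 78) (nat_lit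 0) (nat_lit 0) (XT.lf (nat_lit 0) (nat_lit 2484915442) (nat_lit 304) (nat_lit 7789009408) (nat_lit 380) (nat_lit 3827554771) (nat_lit 127) (nat_lit 5) (nat_lit 131) (nat_lit 5) (nat_lit 132) (nat_lit 5) (nat_lit 405) (nat_lit 349) (nat_lit 266)) (XT.lf (nat_lit 0) (nat_lit 11280475076) (nat_lit 304) (nat_lit 2664741200) (nat_lit 380) (nat_lit 408926091) (nat_lit 127) (nat_lit 5) (nat_lit 131) (nat_lit 5) (nat_lit 132) (nat_lit 5) (nat_lit 406) (nat_lit 349) (nat_lit 265))))))))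
noncomputable def xc124 : XT := (XT.nd (nat_lit 2184) (nat_lit 2432) (nat_lit 0) (XT.nd (nat_lit 1092) (nat_lit 1596) (nat_lit 0) (XT.nd (nat_lit 546) (nat_lit 1064) (nat_lit 0) (XT.nd (nat_lit 234) (nat_lit 836) (nat_lit 0) (XT.nd (nat_lit 78) (nat_lit 228) (nat_lit 0) (XT.lf (nat_lit 0) (nat_lit 3108296653) (nat_lit 380) (nat_lit 8866984309) (nat_lit 76) (nat_lit 2636508210) (nat_lit 122) (nat_lit 5) (nat_lit 127) (nat_lit 5) (nat_lit 123) (nat_lit 5) (nat_lit 407) (nat_lit 349) (nat_lit 264)) (XT.nd (nat_lit 78) (nat_lit 228) (nat_lit 0) (XT.lf (nat_lit 0) (nat_lit 6756233489) (nat_lit 380) (nat_lit 53180071) (nat_lit 76) (nat_lit 8066632414) (nat_lit 122) (nat_lit 5) (nat_lit 127) (nat_lit 5) (nat_lit 123) (nat_lit 5) (nat_lit 408) (nat_lit 349) (nat_lit 263)) (XT.lf (nat_lit 0) (nat_lit 9167972909) (nat_lit 228) (nat_lit 1410159337) (nat_lit 304) (nat_lit 4568166935) (nat_lit 119) (nat_lit 5) (nat_lit 122)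 (nat_lit 5) (nat_lit 123) (nat_lit 5) (nat_lit 409) (nat_lit 349) (nat_lit 262)))) (XT.nd (nat_lit 156) (nat_lit 456) (nat_lit 0) (XT.nd (nat_lit 78) (nat_lit 76) (nat_lit 0) (XT.lf (nat_lit 0) (nat_lit 3229114162) (nat_lit 304) (nat_lit 11333681078) (nat_lit 380) (nat_lit 860425814) (nat_lit 115) (nat_lit 5) (nat_lit 119) (nat_lit 5) (nat_lit 120) (nat_lit 5) (nat_lit 410) (nat_lit 349) (nat_lit 261)) (XT.lf (nat_lit 0) (nat_lit 2952470923) (nat_lit 380) (nat_lit 2950619556) (nat_lit 76) (nat_lit 9802961305) (nat_lit 114) (nat_lit 5) (nat_lit 119) (nat_lit 5) (nat_lit 115) (nat_lit 5) (nat_lit 411) (nat_lit 349) (nat_lit 260))) (XT.nd (nat_lit 78) (nat_lit 228) (nat_lit 0) (XT.lf (nat_lit 0) (nat_lit 6656290434) (nat_lit 228) (nat_lit 247558872) (nat_lit 304) (nat_lit 9092024827) (nat_lit 111) (nat_lit 5) (nat_lit 114) (nat_lit 5) (nat_lit 115) (nat_lit 5) (nat_lit 412) (nat_lit 349) (nat_lit 259)) (XT.lf (nat_lit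 0) (nat_lit 233586598) (nat_lit 228) (nat_lit 10803739256) (nat_lit 304) (nat_lit 5255162402) (nat_lit 108) (nat_lit 5) (nat_lit 111) (nat_lit 5) (nat_lit 112) (nat_lit 5) (nat_lit 413) (nat_lit 349) (nat_lit 258))))) (XT.nd (nat_lit 234) (nat_lit 760) (nat_lit 0) (XT.nd (nat_lit 78) (nat_lit 304) (nat_lit 0) (XT.lf (nat_lit 0) (nat_lit 10247795985) (nat_lit 228) (nat_lit 5121669320) (nat_lit 304) (nat_lit 1226299439) (nat_lit 108) (nat_lit 5) (nat_lit 111) (nat_lit 5) (nat_lit 112) (nat_lit 5) (nat_lit 414) (nat_lit 349) (nat_lit 257)) (XT.nd (nat_lit 78) (nat_lit 0) (nat_lit 0) (XT.lf (nat_lit 0) (nat_lit 2887471319) (nat_lit 304) (nat_lit 13251270546) (nat_lit 76) (nat_lit 767925438) (nat_lit 104) (nat_lit 5) (nat_lit 108) (nat_lit 5) (nat_lit 105) (nat_lit 5) (nat_lit 415) (nat_lit 349) (nat_lit 256)) (XT.lf (nat_lit 0) (nat_lit 7193980256) (nat_lit 304) (nat_lit 3234171780) (nat_lit 76) (nat_lit 6795564864)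 (nat_lit 104) (nat_lit 5) (nat_lit 108) (nat_lit 5) (nat_lit 105) (nat_lit 5) (nat_lit 416) (nat_lit 349) (nat_lit 255)))) (XT.nd (nat_lit 156) (nat_lit 304) (nat_lit 0) (XT.nd (nat_lit 78) (nat_lit 228) (nat_lit 0) (XT.lf (nat_lit 0) (nat_lit 7190052080) (nat_lit 228) (nat_lit 4487899163) (nat_lit 304) (nat_lit 5870882026) (nat_lit 101) (nat_lit 5) (nat_lit 104) (nat_lit 5) (nat_lit 105) (nat_lit 5) (nat_lit 417) (nat_lit 349) (nat_lit 254)) (XT.lf (nat_lit 0) (nat_lit 61929421) (nat_lit 228) (nat_lit 16263078454) (nat_lit 304) (nat_lit 1557841447) (nat_lit 98) (nat_lit 5) (nat_lit 101) (nat_lit 5) (nat_lit 102) (nat_lit 5) (nat_lit 418) (nat_lit 349) (nat_lit 253))) (XT.nd (nat_lit 78) (nat_lit 228) (nat_lit 0) (XT.lf (nat_lit 0) (nat_lit 2957765544) (nat_lit 304) (nat_lit 7323279933) (nat_lit 76) (nat_lit 7941127617) (nat_lit 97) (nat_lit 5) (nat_lit 101) (nat_lit 5) (nat_lit 98) (nat_lit 5) (nat_lit 419) (nat_lit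 349) (nat_lit 252)) (XT.lf (nat_lit 0) (nat_lit 3509394914) (nat_lit 228) (nat_lit 4081859741) (nat_lit 304) (nat_lit 10979550368) (nat_lit 94) (nat_lit 5) (nat_lit 97) (nat_lit 5) (nat_lit 98) (nat_lit 5) (nat_lit 420) (nat_lit 349) (nat_lit 251)))))) (XT.nd (nat_lit 546) (nat_lit 684) (nat_lit 0) (XT.nd (nat_lit 234) (nat_lit 684) (nat_lit 0) (XT.nd (nat_lit 78) (nat_lit 228) (nat_lit 0) (XT.lf (nat_lit 0) (nat_lit 12440707939) (nat_lit 304) (nat_lit 4166479442) (nat_lit 76) (nat_lit 2320402576) (nat_lit 94) (nat_lit 5) (nat_lit 98) (nat_lit 5) (nat_lit 95) (nat_lit 5) (nat_lit 421) (nat_lit 349) (nat_lit 250)) (XT.nd (nat_lit 78) (nat_lit 76) (nat_lit 0) (XT.lf (nat_lit 0) (nat_lit 7121719960) (nat_lit 152) (nat_lit 10403512015) (nat_lit 228) (nat_lit 1767161603) (nat_lit 92) (nat_lit 5) (nat_lit 94) (nat_lit 5) (nat_lit 95) (nat_lit 5) (nat_lit 422) (nat_lit 349) (nat_lit 249)) (XT.lf (nat_lit 0) (nat_lit 3057041426)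 (nat_lit 228) (nat_lit 895269669) (nat_lit 76) (nat_lit 15714242451) (nat_lit 91) (nat_lit 5) (nat_lit 94) (nat_lit 5) (nat_lit 92) (nat_lit 5) (nat_lit 423) (nat_lit 349) (nat_lit 248)))) (XT.nd (nat_lit 156) (nat_lit 304) (nat_lit 0) (XT.nd (nat_lit 78) (nat_lit 152) (nat_lit 0) (XT.lf (nat_lit 0) (nat_lit 8103364585) (nat_lit 304) (nat_lit 9193827458) (nat_lit 76) (nat_lit 2750836519) (nat_lit 88) (nat_lit 5) (nat_lit 92) (nat_lit 5) (nat_lit 89) (nat_lit 5) (nat_lit 424) (nat_lit 349) (nat_lit 247)) (XT.lf (nat_lit 0) (nat_lit 2512238089) (nat_lit 152) (nat_lit 10842714618) (nat_lit 228) (nat_lit 7084381311) (nat_lit 86) (nat_lit 5) (nat_lit 88) (nat_lit 5) (nat_lit 89) (nat_lit 5) (nat_lit 425) (nat_lit 349) (nat_lit 246))) (XT.nd (nat_lit 78) (nat_lit 304) (nat_lit 0) (XT.lf (nat_lit 0) (nat_lit 14726862888) (nat_lit 152) (nat_lit 4111770585) (nat_lit 228) (nat_lit 2001511185) (nat_lit 86) (nat_lit 5) (nat_lit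 88) (nat_lit 5) (nat_lit 89) (nat_lit 5) (nat_lit 426) (nat_lit 349) (nat_lit 245)) (XT.lf (nat_lit 0) (nat_lit 3239445793) (nat_lit 304) (nat_lit 15166112366) (nat_lit 76) (nat_lit 2844429986) (nat_lit 82) (nat_lit 5) (nat_lit 86) (nat_lit 5) (nat_lit 83) (nat_lit 5) (nat_lit 427) (nat_lit 349) (nat_lit 244))))) (XT.nd (nat_lit 234) (nat_lit 380) (nat_lit 0) (XT.nd (nat_lit 78) (nat_lit 304) (nat_lit 0) (XT.lf (nat_lit 0) (nat_lit 8682628505) (nat_lit 304) (nat_lit 2989803885) (nat_lit 76) (nat_lit 9996545448) (nat_lit 82) (nat_lit 5) (nat_lit 86) (nat_lit 5) (nat_lit 83) (nat_lit 5) (nat_lit 428) (nat_lit 349) (nat_lit 243)) (XT.nd (nat_lit 78) (nat_lit 152) (nat_lit 0) (XT.lf (nat_lit 0) (nat_lit 9711539308) (nat_lit 152) (nat_lit 4653611372) (nat_lit 228) (nat_lit 7733107329) (nat_lit 80) (nat_lit 5) (nat_lit 82) (nat_lit 5) (nat_lit 83) (nat_lit 5) (nat_lit 429) (nat_lit 349) (nat_lit 242)) (XT.lf (nat_lit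 0) (nat_lit 265965544) (nat_lit 152) (nat_lit 19992782178) (nat_lit 228) (nat_lit 2280452938) (nat_lit 78) (nat_lit 5) (nat_lit 80) (nat_lit 5) (nat_lit 81) (nat_lit 5) (nat_lit 430) (nat_lit 349) (nat_lit 241)))) (XT.nd (nat_lit 156) (nat_lit 152) (nat_lit 0) (XT.nd (nat_lit 78) (nat_lit 152) (nat_lit 0) (XT.lf (nat_lit 0) (nat_lit 3425922665) (nat_lit 228) (nat_lit 9546768810) (nat_lit 76) (nat_lit 10015063036) (nat_lit 77) (nat_lit 5) (nat_lit 80) (nat_lit 5) (nat_lit 78) (nat_lit 5) (nat_lit 431) (nat_lit 349) (nat_lit 240)) (XT.lf (nat_lit 0) (nat_lit 3579721127) (nat_lit 152) (nat_lit 5695683181) (nat_lit 228) (nat_lit 14173152692) (nat_lit 75) (nat_lit 5) (nat_lit 77) (nat_lit 5) (nat_lit 78) (nat_lit 5) (nat_lit 432) (nat_lit 349) (nat_lit 239))) (XT.nd (nat_lit 78) (nat_lit 152) (nat_lit 0) (XT.lf (nat_lit 0) (nat_lit 15398457377) (nat_lit 228) (nat_lit 6671977163) (nat_lit 76) (nat_lit 1849808235) (nat_lit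 75) (nat_lit 5) (nat_lit 78) (nat_lit 5) (nat_lit 76) (nat_lit 5) (nat_lit 433) (nat_lit 349) (nat_lit 238)) (XT.lf (nat_lit 0) (nat_lit 6972157789) (nat_lit 152) (nat_lit 14840370072) (nat_lit 228) (nat_lit 2590333253) (nat_lit 73) (nat_lit 5) (nat_lit 75) (nat_lit 5) (nat_lit 76) (nat_lit 5) (nat_lit 434) (nat_lit 349) (nat_lit 237))))))) (XT.nd (nat_lit 1092) (nat_lit 1140) (nat_lit 0) (XT.nd (nat_lit 546) (nat_lit 532) (nat_lit 0) (XT.nd (nat_lit 234) (nat_lit 532) (nat_lit 0) (XT.nd (nat_lit 78) (nat_lit 152) (nat_lit 0) (XT.lf (nat_lit 0) (nat_lit 3502386423) (nat_lit 228) (nat_lit 3798377684) (nat_lit 76) (nat_lit 17596620933) (nat_lit 72) (nat_lit 5) (nat_lit 75) (nat_lit 5) (nat_lit 73) (nat_lit 5) (nat_lit 435) (nat_lit 349) (nat_lit 236)) (XT.nd (nat_lit 78) (nat_lit 0) (nat_lit 0) (XT.lf (nat_lit 0) (nat_lit 9815742737) (nat_lit 228) (nat_lit 15016485720) (nat_lit 76) (nat_lit 571050892) (nat_lit 70)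 (nat_lit 5) (nat_lit 73) (nat_lit 5) (nat_lit 71) (nat_lit 5) (nat_lit 436) (nat_lit 349) (nat_lit 235)) (XT.lf (nat_lit 0) (nat_lit 16414018522) (nat_lit 228) (nat_lit 948067907) (nat_lit 76) (nat_lit 8559400064) (nat_lit 70) (nat_lit 5) (nat_lit 73) (nat_lit 5) (nat_lit 71) (nat_lit 5) (nat_lit 437) (nat_lit 349) (nat_lit 234)))) (XT.nd (nat_lit 156) (nat_lit 152) (nat_lit 0) (XT.nd (nat_lit 78) (nat_lit 228) (nat_lit 0) (XT.lf (nat_lit 0) (nat_lit 13784606610) (nat_lit 152) (nat_lit 9543091613) (nat_lit 228) (nat_lit 3124019483) (nat_lit 68) (nat_lit 5) (nat_lit 70) (nat_lit 5) (nat_lit 71) (nat_lit 5) (nat_lit 438) (nat_lit 349) (nat_lit 233)) (XT.lf (nat_lit 0) (nat_lit 1959271508) (nat_lit 152) (nat_lit 1437807312) (nat_lit 228) (nat_lit 23599378702) (nat_lit 65) (nat_lit 5) (nat_lit 67) (nat_lit 5) (nat_lit 68) (nat_lit 5) (nat_lit 439) (nat_lit 349) (nat_lit 232))) (XT.nd (nat_lit 78) (nat_lit 152) (nat_lit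 0) (XT.lf (nat_lit 0) (nat_lit 10231682792) (nat_lit 228) (nat_lit 10395111403) (nat_lit 76) (nat_lit 6924398933) (nat_lit 65) (nat_lit 5) (nat_lit 68) (nat_lit 5) (nat_lit 66) (nat_lit 5) (nat_lit 440) (nat_lit 349) (nat_lit 231)) (XT.lf (nat_lit 0) (nat_lit 4738343526) (nat_lit 152) (nat_lit 12578253967) (nat_lit 228) (nat_lit 10804616485) (nat_lit 63) (nat_lit 5) (nat_lit 65) (nat_lit 5) (nat_lit 66) (nat_lit 5) (nat_lit 441) (nat_lit 349) (nat_lit 230))))) (XT.nd (nat_lit 234) (nat_lit 304) (nat_lit 0) (XT.nd (nat_lit 78) (nat_lit 228) (nat_lit 0) (XT.lf (nat_lit 0) (nat_lit 20513039309) (nat_lit 152) (nat_lit 4191653748) (nat_lit 228) (nat_lit 4000924708) (nat_lit 63) (nat_lit 5) (nat_lit 65) (nat_lit 5) (nat_lit 66) (nat_lit 5) (nat_lit 442) (nat_lit 349) (nat_lit 229)) (XT.nd (nat_lit 78) (nat_lit 0) (nat_lit 0) (XT.lf (nat_lit 0) (nat_lit 3050323534) (nat_lit 228) (nat_lit 21802176521) (nat_lit 76) (nat_lit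 4451124108) (nat_lit 60) (nat_lit 5) (nat_lit 63) (nat_lit 5) (nat_lit 61) (nat_lit 5) (nat_lit 443) (nat_lit 349) (nat_lit 228)) (XT.lf (nat_lit 0) (nat_lit 10343745718) (nat_lit 228) (nat_lit 6190229732) (nat_lit 76) (nat_lit 13381076580) (nat_lit 60) (nat_lit 5) (nat_lit 63) (nat_lit 5) (nat_lit 61) (nat_lit 5) (nat_lit 444) (nat_lit 349) (nat_lit 227)))) (XT.nd (nat_lit 156) (nat_lit 152) (nat_lit 0) (XT.nd (nat_lit 78) (nat_lit 0) (nat_lit 0) (XT.lf (nat_lit 0) (nat_lit 10061715316) (nat_lit 152) (nat_lit 7877383855) (nat_lit 228) (nat_lit 12603230871) (nat_lit 58) (nat_lit 5) (nat_lit 60) (nat_lit 5) (nat_lit 61) (nat_lit 5) (nat_lit 445) (nat_lit 349) (nat_lit 226)) (XT.lf (nat_lit 0) (nat_lit 25821891879) (nat_lit 228) (nat_lit 4293800572) (nat_lit 76) (nat_lit 1070947718) (nat_lit 58) (nat_lit 5) (nat_lit 61) (nat_lit 5) (nat_lit 59) (nat_lit 4) (nat_lit 446) (nat_lit 349) (nat_lit 225))) (XT.nd (nat_lit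 78) (nat_lit 0) (nat_lit 0) (XT.lf (nat_lit 0) (nat_lit 2237131525) (nat_lit 152) (nat_lit 19345739995) (nat_lit 76) (nat_lit 10261194875) (nat_lit 56) (nat_lit 5) (nat_lit 58) (nat_lit 5) (nat_lit 57) (nat_lit 5) (nat_lit 447) (nat_lit 349) (nat_lit 224)) (XT.lf (nat_lit 0) (nat_lit 9989912448) (nat_lit 152) (nat_lit 2715286086) (nat_lit 76) (nat_lit 19813504297) (nat_lit 56) (nat_lit 5) (nat_lit 58) (nat_lit 5) (nat_lit 57) (nat_lit 5) (nat_lit 448) (nat_lit 349) (nat_lit 223)))))) (XT.nd (nat_lit 546) (nat_lit 608) (nat_lit 0) (XT.nd (nat_lit 234) (nat_lit 228) (nat_lit 0) (XT.nd (nat_lit 78) (nat_lit 152) (nat_lit 0) (XT.lf (nat_lit 0) (nat_lit 14677124108) (nat_lit 152) (nat_lit 3426502823) (nat_lit 228) (nat_lit 15106101931) (nat_lit 54) (nat_lit 5) (nat_lit 56) (nat_lit 5) (nat_lit 57) (nat_lit 5) (nat_lit 449) (nat_lit 349) (nat_lit 222)) (XT.nd (nat_lit 78) (nat_lit 152) (nat_lit 0) (XT.lf (nat_lit 0)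 (nat_lit 26534685873) (nat_lit 228) (nat_lit 1356306976) (nat_lit 76) (nat_lit 6028275813) (nat_lit 54) (nat_lit 5) (nat_lit 57) (nat_lit 5) (nat_lit 55) (nat_lit 4) (nat_lit 450) (nat_lit 349) (nat_lit 221)) (XT.lf (nat_lit 0) (nat_lit 740481543) (nat_lit 152) (nat_lit 18049315886) (nat_lit 76) (nat_lit 15854644342) (nat_lit 52) (nat_lit 5) (nat_lit 54) (nat_lit 5) (nat_lit 53) (nat_lit 5) (nat_lit 451) (nat_lit 349) (nat_lit 220)))) (XT.nd (nat_lit 156) (nat_lit 76) (nat_lit 0) (XT.nd (nat_lit 78) (nat_lit 152) (nat_lit 0) (XT.lf (nat_lit 0) (nat_lit 8962409063) (nat_lit 152) (nat_lit 374054863) (nat_lit 76) (nat_lit 26052667579) (nat_lit 52) (nat_lit 5) (nat_lit 54) (nat_lit 5) (nat_lit 53) (nat_lit 5) (nat_lit 452) (nat_lit 349) (nat_lit 219)) (XT.lf (nat_lit 0) (nat_lit 17599137475) (nat_lit 228) (nat_lit 17992945626) (nat_lit 76) (nat_lit 559035407) (nat_lit 50) (nat_lit 5) (nat_lit 53) (nat_lit 5) (nat_lit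 51) (nat_lit 4) (nat_lit 453) (nat_lit 349) (nat_lit 218))) (XT.nd (nat_lit 78) (nat_lit 0) (nat_lit 0) (XT.lf (nat_lit 0) (nat_lit 207628330) (nat_lit 76) (nat_lit 26373691434) (nat_lit 152) (nat_lit 10352055640) (nat_lit 49) (nat_lit 5) (nat_lit 50) (nat_lit 5) (nat_lit 51) (nat_lit 4) (nat_lit 454) (nat_lit 349) (nat_lit 217)) (XT.lf (nat_lit 0) (nat_lit 19301145176) (nat_lit 76) (nat_lit 16701753068) (nat_lit 152) (nat_lit 1731104660) (nat_lit 49) (nat_lit 5) (nat_lit 50) (nat_lit 5) (nat_lit 51) (nat_lit 4) (nat_lit 455) (nat_lit 349) (nat_lit 216))))) (XT.nd (nat_lit 312) (nat_lit 304) (nat_lit 0) (XT.nd (nat_lit 156) (nat_lit 76) (nat_lit 0) (XT.nd (nat_lit 78) (nat_lit 0) (nat_lit 0) (XT.lf (nat_lit 0) (nat_lit 324939340) (nat_lit 152) (nat_lit 6675632536) (nat_lit 228) (nat_lit 31556268974) (nat_lit 46) (nat_lit 5) (nat_lit 48) (nat_lit 5) (nat_lit 49) (nat_lit 5) (nat_lit 456) (nat_lit 349) (nat_lit 215))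 (XT.lf (nat_lit 0) (nat_lit 16170984311) (nat_lit 228) (nat_lit 19451075975) (nat_lit 76) (nat_lit 3775442835) (nat_lit 46) (nat_lit 5) (nat_lit 49) (nat_lit 5) (nat_lit 47) (nat_lit 4) (nat_lit 457) (nat_lit 349) (nat_lit 214))) (XT.nd (nat_lit 78) (nat_lit 76) (nat_lit 0) (XT.lf (nat_lit 0) (nat_lit 25671441565) (nat_lit 228) (nat_lit 193834746) (nat_lit 76) (nat_lit 14396461704) (nat_lit 46) (nat_lit 5) (nat_lit 49) (nat_lit 5) (nat_lit 47) (nat_lit 4) (nat_lit 458) (nat_lit 349) (nat_lit 213)) (XT.lf (nat_lit 0) (nat_lit 20011311928) (nat_lit 76) (nat_lit 15627123789) (nat_lit 152) (nat_lit 5508019251) (nat_lit 45) (nat_lit 5) (nat_lit 46) (nat_lit 5) (nat_lit 47) (nat_lit 4) (nat_lit 459) (nat_lit 349) (nat_lit 212)))) (XT.nd (nat_lit 156) (nat_lit 76) (nat_lit 0) (XT.nd (nat_lit 78) (nat_lit 152) (nat_lit 0) (XT.lf (nat_lit 0) (nat_lit 3762817350) (nat_lit 152) (nat_lit 1288386295) (nat_lit 76) (nat_lit 37005666499)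 (nat_lit 44) (nat_lit 5) (nat_lit 46) (nat_lit 5) (nat_lit 45) (nat_lit 5) (nat_lit 460) (nat_lit 349) (nat_lit 211)) (XT.lf (nat_lit 0) (nat_lit 13436080508) (nat_lit 228) (nat_lit 23586897820) (nat_lit 76) (nat_lit 5962933834) (nat_lit 42) (nat_lit 5) (nat_lit 45) (nat_lit 5) (nat_lit 43) (nat_lit 4) (nat_lit 461) (nat_lit 349) (nat_lit 210))) (XT.nd (nat_lit 78) (nat_lit 76) (nat_lit 0) (XT.lf (nat_lit 0) (nat_lit 23452215818) (nat_lit 228) (nat_lit 3278888798) (nat_lit 76) (nat_lit 17210141225) (nat_lit 42) (nat_lit 5) (nat_lit 45) (nat_lit 5) (nat_lit 43) (nat_lit 4) (nat_lit 462) (nat_lit 349) (nat_lit 209)) (XT.lf (nat_lit 0) (nat_lit 17969831597) (nat_lit 76) (nat_lit 15961569099) (nat_lit 152) (nat_lit 10988962477) (nat_lit 41) (nat_lit 5) (nat_lit 42) (nat_lit 5) (nat_lit 43) (nat_lit 4) (nat_lit 463) (nat_lit 349) (nat_lit 208))))))))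
noncomputable def xc125 : XT := (XT.nd (nat_lit 44460) (nat_lit 0) (nat_lit 14136) (XT.nd (nat_lit 1092) (nat_lit 532) (nat_lit 0) (XT.nd (nat_lit 546) (nat_lit 304) (nat_lit 0) (XT.nd (nat_lit 234) (nat_lit 228) (nat_lit 0) (XT.nd (nat_lit 78) (nat_lit 228) (nat_lit 0) (XT.lf (nat_lit 0) (nat_lit 39904230663) (nat_lit 76) (nat_lit 4843782949) (nat_lit 152) (nat_lit 1180149430) (nat_lit 41) (nat_lit 5) (nat_lit 42) (nat_lit 5) (nat_lit 43) (nat_lit 4) (nat_lit 464) (nat_lit 349) (nat_lit 207)) (XT.nd (nat_lit 78) (nat_lit 0) (nat_lit 0) (XT.lf (nat_lit 0) (nat_lit 8955961109) (nat_lit 228) (nat_lit 31292100647) (nat_lit 76) (nat_lit 6709347983) (nat_lit 38) (nat_lit 5) (nat_lit 41) (nat_lit 5) (nat_lit 39) (nat_lit 4) (nat_lit 465) (nat_lit 349) (nat_lit 206)) (XT.lf (nat_lit 0) (nat_lit 19471989543) (nat_lit 228) (nat_lit 9965908746) (nat_lit 76) (nat_lit 18576298918) (nat_lit 38) (nat_lit 5) (nat_lit 41) (nat_lit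 5) (nat_lit 39) (nat_lit 4) (nat_lit 466) (nat_lit 349) (nat_lit 205)))) (XT.nd (nat_lit 156) (nat_lit 152) (nat_lit 0) (XT.nd (nat_lit 78) (nat_lit 0) (nat_lit 0) (XT.lf (nat_lit 0) (nat_lit 12220409671) (nat_lit 76) (nat_lit 18191009682) (nat_lit 152) (nat_lit 18688031855) (nat_lit 37) (nat_lit 5) (nat_lit 38) (nat_lit 5) (nat_lit 39) (nat_lit 4) (nat_lit 467) (nat_lit 349) (nat_lit 204)) (XT.lf (nat_lit 0) (nat_lit 35258663232) (nat_lit 76) (nat_lit 6511561069) (nat_lit 152) (nat_lit 8444303273) (nat_lit 37) (nat_lit 5) (nat_lit 38) (nat_lit 5) (nat_lit 39) (nat_lit 4) (nat_lit 468) (nat_lit 349) (nat_lit 203))) (XT.nd (nat_lit 78) (nat_lit 0) (nat_lit 0) (XT.lf (nat_lit 0) (nat_lit 2184652589) (nat_lit 152) (nat_lit 43676248980) (nat_lit 76) (nat_lit 5497976840) (nat_lit 35) (nat_lit 5) (nat_lit 37) (nat_lit 5) (nat_lit 36) (nat_lit 4) (nat_lit 469) (nat_lit 349) (nat_lit 202)) (XT.lf (nat_lit 0) (nat_lit 13170508546)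 (nat_lit 152) (nat_lit 21393374479) (nat_lit 76) (nat_lit 17964936396) (nat_lit 35) (nat_lit 5) (nat_lit 37) (nat_lit 5) (nat_lit 36) (nat_lit 4) (nat_lit 470) (nat_lit 349) (nat_lit 201))))) (XT.nd (nat_lit 234) (nat_lit 228) (nat_lit 0) (XT.nd (nat_lit 78) (nat_lit 0) (nat_lit 0) (XT.lf (nat_lit 0) (nat_lit 1571535223) (nat_lit 76) (nat_lit 22920543022) (nat_lit 152) (nat_lit 29241596730) (nat_lit 34) (nat_lit 5) (nat_lit 35) (nat_lit 5) (nat_lit 36) (nat_lit 4) (nat_lit 471) (nat_lit 349) (nat_lit 200)) (XT.nd (nat_lit 78) (nat_lit 0) (nat_lit 0) (XT.lf (nat_lit 0) (nat_lit 25646985892) (nat_lit 76) (nat_lit 10713470074) (nat_lit 152) (nat_lit 18608005842) (nat_lit 34) (nat_lit 5) (nat_lit 35) (nat_lit 5) (nat_lit 36) (nat_lit 4) (nat_lit 472) (nat_lit 349) (nat_lit 199)) (XT.lf (nat_lit 0) (nat_lit 48594075450) (nat_lit 152) (nat_lit 5830109080) (nat_lit 0) (nat_lit 1815832431) (nat_lit 34) (nat_lit 5) (nat_lit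 36) (nat_lit 4) (nat_lit 34) (nat_lit 4) (nat_lit 473) (nat_lit 349) (nat_lit 198)))) (XT.nd (nat_lit 156) (nat_lit 76) (nat_lit 0) (XT.nd (nat_lit 78) (nat_lit 0) (nat_lit 0) (XT.lf (nat_lit 0) (nat_lit 3853095414) (nat_lit 152) (nat_lit 38972342621) (nat_lit 76) (nat_lit 14714852878) (nat_lit 32) (nat_lit 5) (nat_lit 34) (nat_lit 5) (nat_lit 33) (nat_lit 4) (nat_lit 474) (nat_lit 349) (nat_lit 197)) (XT.lf (nat_lit 0) (nat_lit 15594457839) (nat_lit 152) (nat_lit 15152797574) (nat_lit 76) (nat_lit 28128516084) (nat_lit 32) (nat_lit 5) (nat_lit 34) (nat_lit 5) (nat_lit 33) (nat_lit 4) (nat_lit 475) (nat_lit 349) (nat_lit 196))) (XT.nd (nat_lit 78) (nat_lit 0) (nat_lit 0) (XT.lf (nat_lit 0) (nat_lit 9552034945) (nat_lit 76) (nat_lit 18219666267) (nat_lit 152) (nat_lit 32477106462) (nat_lit 31) (nat_lit 5) (nat_lit 32) (nat_lit 5) (nat_lit 33) (nat_lit 4) (nat_lit 476) (nat_lit 349) (nat_lit 195)) (XT.lf (nat_lit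 0) (nat_lit 35293090308) (nat_lit 76) (nat_lit 5166094070) (nat_lit 152) (nat_lit 21199503253) (nat_lit 31) (nat_lit 5) (nat_lit 32) (nat_lit 5) (nat_lit 33) (nat_lit 4) (nat_lit 477) (nat_lit 349) (nat_lit 194)))))) (XT.nd (nat_lit 546) (nat_lit 228) (nat_lit 0) (XT.nd (nat_lit 234) (nat_lit 152) (nat_lit 0) (XT.nd (nat_lit 78) (nat_lit 152) (nat_lit 0) (XT.lf (nat_lit 0) (nat_lit 53598950766) (nat_lit 152) (nat_lit 1399323810) (nat_lit 0) (nat_lit 8110440006) (nat_lit 31) (nat_lit 5) (nat_lit 33) (nat_lit 4) (nat_lit 31) (nat_lit 4) (nat_lit 478) (nat_lit 349) (nat_lit 193)) (XT.nd (nat_lit 78) (nat_lit 0) (nat_lit 0) (XT.lf (nat_lit 0) (nat_lit 2765269435) (nat_lit 152) (nat_lit 39888315815) (nat_lit 76) (nat_lit 21939408118) (nat_lit 29) (nat_lit 5) (nat_lit 31) (nat_lit 5) (nat_lit 30) (nat_lit 4) (nat_lit 479) (nat_lit 349) (nat_lit 192)) (XT.lf (nat_lit 0) (nat_lit 15224000549) (nat_lit 152) (nat_lit 14610006225)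 (nat_lit 76) (nat_lit 36284771878) (nat_lit 29) (nat_lit 5) (nat_lit 31) (nat_lit 5) (nat_lit 30) (nat_lit 4) (nat_lit 480) (nat_lit 349) (nat_lit 191)))) (XT.nd (nat_lit 156) (nat_lit 76) (nat_lit 0) (XT.nd (nat_lit 78) (nat_lit 0) (nat_lit 0) (XT.lf (nat_lit 0) (nat_lit 11639393351) (nat_lit 76) (nat_lit 16521522467) (nat_lit 152) (nat_lit 39526289327) (nat_lit 28) (nat_lit 5) (nat_lit 29) (nat_lit 5) (nat_lit 30) (nat_lit 4) (nat_lit 481) (nat_lit 349) (nat_lit 190)) (XT.lf (nat_lit 0) (nat_lit 38961520967) (nat_lit 76) (nat_lit 2664567678) (nat_lit 152) (nat_lit 27672391594) (nat_lit 28) (nat_lit 5) (nat_lit 29) (nat_lit 5) (nat_lit 30) (nat_lit 4) (nat_lit 482) (nat_lit 349) (nat_lit 189))) (XT.nd (nat_lit 78) (nat_lit 76) (nat_lit 0) (XT.lf (nat_lit 0) (nat_lit 55599569434) (nat_lit 152) (nat_lit 3980346421) (nat_lit 0) (nat_lit 11375047447) (nat_lit 28) (nat_lit 5) (nat_lit 30) (nat_lit 4) (nat_lit 28) (nat_lit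 4) (nat_lit 483) (nat_lit 349) (nat_lit 188)) (XT.lf (nat_lit 0) (nat_lit 23587281870) (nat_lit 76) (nat_lit 46651069297) (nat_lit 76) (nat_lit 2415407086) (nat_lit 27) (nat_lit 4) (nat_lit 28) (nat_lit 5) (nat_lit 28) (nat_lit 4) (nat_lit 484) (nat_lit 349) (nat_lit 187))))) (XT.nd (nat_lit 312) (nat_lit 76) (nat_lit 0) (XT.nd (nat_lit 156) (nat_lit 0) (nat_lit 0) (XT.nd (nat_lit 78) (nat_lit 76) (nat_lit 0) (XT.lf (nat_lit 0) (nat_lit 10733408842) (nat_lit 152) (nat_lit 22457658010) (nat_lit 76) (nat_lit 41208296149) (nat_lit 26) (nat_lit 5) (nat_lit 28) (nat_lit 5) (nat_lit 27) (nat_lit 4) (nat_lit 485) (nat_lit 349) (nat_lit 186)) (XT.lf (nat_lit 0) (nat_lit 5010089731) (nat_lit 76) (nat_lit 19259402101) (nat_lit 152) (nat_lit 51925886383) (nat_lit 25) (nat_lit 5) (nat_lit 26) (nat_lit 5) (nat_lit 27) (nat_lit 4) (nat_lit 486) (nat_lit 349) (nat_lit 185))) (XT.nd (nat_lit 78) (nat_lit 0) (nat_lit 0) (XT.lf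 (nat_lit 0) (nat_lit 33749173987) (nat_lit 76) (nat_lit 4682524317) (nat_lit 152) (nat_lit 39606974610) (nat_lit 25) (nat_lit 5) (nat_lit 26) (nat_lit 5) (nat_lit 27) (nat_lit 4) (nat_lit 487) (nat_lit 349) (nat_lit 184)) (XT.lf (nat_lit 0) (nat_lit 53111485150) (nat_lit 152) (nat_lit 16698963055) (nat_lit 0) (nat_lit 10124037075) (nat_lit 25) (nat_lit 5) (nat_lit 27) (nat_lit 4) (nat_lit 25) (nat_lit 4) (nat_lit 488) (nat_lit 349) (nat_lit 183)))) (XT.nd (nat_lit 42354) (nat_lit 0) (nat_lit 24928) (XT.nd (nat_lit 42276) (nat_lit 0) (nat_lit 25612) (XT.lf (nat_lit 0) (nat_lit 11892553889) (nat_lit 76) (nat_lit 56493384020) (nat_lit 76) (nat_lit 13496606184) (nat_lit 24) (nat_lit 4) (nat_lit 25) (nat_lit 5) (nat_lit 25) (nat_lit 4) (nat_lit 489) (nat_lit 349) (nat_lit 182)) (XT.lf (nat_lit 0) (nat_lit 2378629511) (nat_lit 684) (nat_lit 527721666) (nat_lit 684) (nat_lit 527721666) (nat_lit 361) (nat_lit 3) (nat_lit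 370) (nat_lit 3) (nat_lit 370) (nat_lit 5) (nat_lit 350) (nat_lit 350) (nat_lit 320))) (XT.nd (nat_lit 78) (nat_lit 684) (nat_lit 0) (XT.lf (nat_lit 76) (nat_lit 2346346222) (nat_lit 0) (nat_lit 4420071744) (nat_lit 684) (nat_lit 145720042) (nat_lit 362) (nat_lit 5) (nat_lit 361) (nat_lit 3) (nat_lit 370) (nat_lit 5) (nat_lit 351) (nat_lit 350) (nat_lit 319)) (XT.lf (nat_lit 0) (nat_lit 1776608296) (nat_lit 684) (nat_lit 1144290251) (nat_lit 760) (nat_lit 4037997975) (nat_lit 352) (nat_lit 5) (nat_lit 361) (nat_lit 3) (nat_lit 362) (nat_lit 5) (nat_lit 352) (nat_lit 350) (nat_lit 318))))))) (XT.nd (nat_lit 1092) (nat_lit 7676) (nat_lit 0) (XT.nd (nat_lit 546) (nat_lit 1672) (nat_lit 0) (XT.nd (nat_lit 234) (nat_lit 760) (nat_lit 0) (XT.nd (nat_lit 78) (nat_lit 684) (nat_lit 0) (XT.lf (nat_lit 76) (nat_lit 2385325842) (nat_lit 0) (nat_lit 1317589442) (nat_lit 760) (nat_lit 3305655050) (nat_lit 353) (nat_lit 5) (nat_lit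 352) (nat_lit 5) (nat_lit 362) (nat_lit 5) (nat_lit 353) (nat_lit 350) (nat_lit 317)) (XT.nd (nat_lit 78) (nat_lit 760) (nat_lit 0) (XT.lf (nat_lit 0) (nat_lit 5630281482) (nat_lit 684) (nat_lit 1060172969) (nat_lit 760) (nat_lit 371013806) (nat_lit 353) (nat_lit 5) (nat_lit 362) (nat_lit 5) (nat_lit 363) (nat_lit 5) (nat_lit 354) (nat_lit 350) (nat_lit 316)) (XT.lf (nat_lit 0) (nat_lit 458010342) (nat_lit 760) (nat_lit 4514331311) (nat_lit 836) (nat_lit 2144450310) (nat_lit 343) (nat_lit 5) (nat_lit 353) (nat_lit 5) (nat_lit 354) (nat_lit 5) (nat_lit 355) (nat_lit 350) (nat_lit 315)))) (XT.nd (nat_lit 156) (nat_lit 760) (nat_lit 0) (XT.nd (nat_lit 78) (nat_lit 0) (nat_lit 0) (XT.lf (nat_lit 0) (nat_lit 2317344354) (nat_lit 760) (nat_lit 832554691) (nat_lit 836) (nat_lit 4025213719) (nat_lit 343) (nat_lit 5) (nat_lit 353) (nat_lit 5) (nat_lit 354) (nat_lit 5) (nat_lit 356) (nat_lit 350) (nat_lit 314)) (XT.lf (nat_lit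 76) (nat_lit 2977455616) (nat_lit 0) (nat_lit 1217036273) (nat_lit 836) (nat_lit 3041858724) (nat_lit 344) (nat_lit 5) (nat_lit 343) (nat_lit 5) (nat_lit 354) (nat_lit 5) (nat_lit 357) (nat_lit 350) (nat_lit 313))) (XT.nd (nat_lit 78) (nat_lit 836) (nat_lit 0) (XT.lf (nat_lit 0) (nat_lit 6079091999) (nat_lit 760) (nat_lit 430007285) (nat_lit 836) (nat_lit 791819768) (nat_lit 344) (nat_lit 5) (nat_lit 354) (nat_lit 5) (nat_lit 355) (nat_lit 5) (nat_lit 358) (nat_lit 350) (nat_lit 312)) (XT.lf (nat_lit 0) (nat_lit 622948698) (nat_lit 836) (nat_lit 3844410489) (nat_lit 912) (nat_lit 2900416666) (nat_lit 333) (nat_lit 5) (nat_lit 344) (nat_lit 5) (nat_lit 345) (nat_lit 5) (nat_lit 359) (nat_lit 350) (nat_lit 311))))) (XT.nd (nat_lit 234) (nat_lit 1672) (nat_lit 0) (XT.nd (nat_lit 78) (nat_lit 0) (nat_lit 0) (XT.lf (nat_lit 76) (nat_lit 115991468) (nat_lit 0) (nat_lit 2325924072) (nat_lit 912) (nat_lit 4996082997) (nat_lit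 334) (nat_lit 5) (nat_lit 333) (nat_lit 5) (nat_lit 345) (nat_lit 5) (nat_lit 360) (nat_lit 350) (nat_lit 310)) (XT.nd (nat_lit 78) (nat_lit 0) (nat_lit 76) (XT.lf (nat_lit 76) (nat_lit 4232644231) (nat_lit 0) (nat_lit 60944226) (nat_lit 912) (nat_lit 3217419855) (nat_lit 334) (nat_lit 5) (nat_lit 333) (nat_lit 5) (nat_lit 345) (nat_lit 5) (nat_lit 361) (nat_lit 350) (nat_lit 309)) (XT.lf (nat_lit 76) (nat_lit 838985534) (nat_lit 0) (nat_lit 5332994407) (nat_lit 912) (nat_lit 1415117198) (nat_lit 335) (nat_lit 5) (nat_lit 334) (nat_lit 5) (nat_lit 346) (nat_lit 5) (nat_lit 362) (nat_lit 350) (nat_lit 308)))) (XT.nd (nat_lit 156) (nat_lit 836) (nat_lit 0) (XT.nd (nat_lit 78) (nat_lit 0) (nat_lit 0) (XT.lf (nat_lit 0) (nat_lit 408662595) (nat_lit 912) (nat_lit 2565487982) (nat_lit 988) (nat_lit 4691932688) (nat_lit 322) (nat_lit 5) (nat_lit 334) (nat_lit 5) (nat_lit 335) (nat_lit 5) (nat_lit 363) (nat_lit 350) (nat_lit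 307)) (XT.lf (nat_lit 76) (nat_lit 1720527852) (nat_lit 0) (nat_lit 498396371) (nat_lit 988) (nat_lit 5529309883) (nat_lit 323) (nat_lit 5) (nat_lit 322) (nat_lit 5) (nat_lit 335) (nat_lit 5) (nat_lit 364) (nat_lit 350) (nat_lit 306))) (XT.nd (nat_lit 78) (nat_lit 912) (nat_lit 0) (XT.lf (nat_lit 0) (nat_lit 4074427505) (nat_lit 912) (nat_lit 1707383691) (nat_lit 76) (nat_lit 2051331415) (nat_lit 323) (nat_lit 5) (nat_lit 335) (nat_lit 5) (nat_lit 324) (nat_lit 5) (nat_lit 365) (nat_lit 350) (nat_lit 305)) (XT.lf (nat_lit 0) (nat_lit 2749472316) (nat_lit 912) (nat_lit 3214137680) (nat_lit 988) (nat_lit 1957668488) (nat_lit 311) (nat_lit 5) (nat_lit 323) (nat_lit 5) (nat_lit 324) (nat_lit 5) (nat_lit 366) (nat_lit 350) (nat_lit 304)))))) (XT.nd (nat_lit 546) (nat_lit 3116) (nat_lit 0) (XT.nd (nat_lit 234) (nat_lit 2432) (nat_lit 0) (XT.nd (nat_lit 78) (nat_lit 2128) (nat_lit 0) (XT.lf (nat_lit 0) (nat_lit 7333649715)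 (nat_lit 912) (nat_lit 540865439) (nat_lit 988) (nat_lit 138611804) (nat_lit 311) (nat_lit 5) (nat_lit 323) (nat_lit 5) (nat_lit 324) (nat_lit 5) (nat_lit 367) (nat_lit 350) (nat_lit 303)) (XT.nd (nat_lit 78) (nat_lit 1064) (nat_lit 0) (XT.lf (nat_lit 0) (nat_lit 1710007743) (nat_lit 1064) (nat_lit 4162408245) (nat_lit 76) (nat_lit 2234567922) (nat_lit 297) (nat_lit 5) (nat_lit 311) (nat_lit 5) (nat_lit 298) (nat_lit 5) (nat_lit 368) (nat_lit 350) (nat_lit 302)) (XT.lf (nat_lit 0) (nat_lit 477936310) (nat_lit 1064) (nat_lit 3100235753) (nat_lit 1140) (nat_lit 4626455418) (nat_lit 283) (nat_lit 5) (nat_lit 297) (nat_lit 5) (nat_lit 298) (nat_lit 5) (nat_lit 369) (nat_lit 350) (nat_lit 301)))) (XT.nd (nat_lit 156) (nat_lit 1292) (nat_lit 0) (XT.nd (nat_lit 78) (nat_lit 1140) (nat_lit 0) (XT.lf (nat_lit 0) (nat_lit 5300809833) (nat_lit 1064) (nat_lit 194649854) (nat_lit 1140) (nat_lit 2809966037) (nat_lit 283) (nat_lit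 5) (nat_lit 297) (nat_lit 5) (nat_lit 298) (nat_lit 5) (nat_lit 370) (nat_lit 350) (nat_lit 300)) (XT.lf (nat_lit 0) (nat_lit 1825556714) (nat_lit 1140) (nat_lit 5641691564) (nat_lit 1216) (nat_lit 942107366) (nat_lit 268) (nat_lit 5) (nat_lit 283) (nat_lit 5) (nat_lit 284) (nat_lit 5) (nat_lit 371) (nat_lit 350) (nat_lit 299))) (XT.nd (nat_lit 78) (nat_lit 1216) (nat_lit 0) (XT.lf (nat_lit 0) (nat_lit 948237382) (nat_lit 1216) (nat_lit 1707759451) (nat_lit 76) (nat_lit 5860571459) (nat_lit 267) (nat_lit 5) (nat_lit 283) (nat_lit 5) (nat_lit 268) (nat_lit 5) (nat_lit 372) (nat_lit 350) (nat_lit 298)) (XT.lf (nat_lit 0) (nat_lit 2867239564) (nat_lit 1292) (nat_lit 5303012385) (nat_lit 76) (nat_lit 456754801) (nat_lit 251) (nat_lit 5) (nat_lit 268) (nat_lit 5) (nat_lit 252) (nat_lit 5) (nat_lit 373) (nat_lit 350) (nat_lit 297))))) (XT.nd (nat_lit 312) (nat_lit 1748) (nat_lit 0) (XT.nd (nat_lit 156) (nat_lit 684)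 (nat_lit 0) (XT.nd (nat_lit 78) (nat_lit 684) (nat_lit 0) (XT.lf (nat_lit 0) (nat_lit 4842898178) (nat_lit 1292) (nat_lit 267561347) (nat_lit 76) (nat_lit 3630341527) (nat_lit 251) (nat_lit 5) (nat_lit 268) (nat_lit 5) (nat_lit 252) (nat_lit 5) (nat_lit 374) (nat_lit 350) (nat_lit 296)) (XT.lf (nat_lit 0) (nat_lit 4974706510) (nat_lit 684) (nat_lit 1907613363) (nat_lit 760) (nat_lit 1975569347) (nat_lit 242) (nat_lit 5) (nat_lit 251) (nat_lit 5) (nat_lit 252) (nat_lit 5) (nat_lit 375) (nat_lit 350) (nat_lit 295))) (XT.nd (nat_lit 78) (nat_lit 76) (nat_lit 0) (XT.lf (nat_lit 0) (nat_lit 1372480241) (nat_lit 608) (nat_lit 7597296747) (nat_lit 684) (nat_lit 9121866) (nat_lit 234) (nat_lit 5) (nat_lit 242) (nat_lit 5) (nat_lit 243) (nat_lit 5) (nat_lit 376) (nat_lit 350) (nat_lit 294)) (XT.lf (nat_lit 0) (nat_lit 1993426951) (nat_lit 684) (nat_lit 2318260720) (nat_lit 76) (nat_lit 4790789614) (nat_lit 233) (nat_lit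 5) (nat_lit 242) (nat_lit 5) (nat_lit 234) (nat_lit 5) (nat_lit 377) (nat_lit 350) (nat_lit 293)))) (XT.nd (nat_lit 156) (nat_lit 1140) (nat_lit 0) (XT.nd (nat_lit 78) (nat_lit 0) (nat_lit 0) (XT.lf (nat_lit 0) (nat_lit 3148476860) (nat_lit 608) (nat_lit 896846948) (nat_lit 684) (nat_lit 5184766086) (nat_lit 225) (nat_lit 5) (nat_lit 233) (nat_lit 5) (nat_lit 234) (nat_lit 5) (nat_lit 378) (nat_lit 350) (nat_lit 292)) (XT.lf (nat_lit 0) (nat_lit 6167583268) (nat_lit 684) (nat_lit 601721579) (nat_lit 76) (nat_lit 2591974662) (nat_lit 225) (nat_lit 5) (nat_lit 234) (nat_lit 5) (nat_lit 226) (nat_lit 5) (nat_lit 379) (nat_lit 350) (nat_lit 291))) (XT.nd (nat_lit 78) (nat_lit 608) (nat_lit 0) (XT.lf (nat_lit 0) (nat_lit 5092070426) (nat_lit 532) (nat_lit 3280408401) (nat_lit 608) (nat_lit 1123369360) (nat_lit 218) (nat_lit 5) (nat_lit 225) (nat_lit 5) (nat_lit 226) (nat_lit 5) (nat_lit 380) (nat_lit 350) (nat_lit 290))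 (XT.lf (nat_lit 0) (nat_lit 972854987) (nat_lit 608) (nat_lit 8328863998) (nat_lit 76) (nat_lit 332951314) (nat_lit 210) (nat_lit 5) (nat_lit 218) (nat_lit 5) (nat_lit 211) (nat_lit 5) (nat_lit 381) (nat_lit 350) (nat_lit 289))))))))
noncomputable def xc126 : XT := (XT.nd (nat_lit 2262) (nat_lit 3876) (nat_lit 0) (XT.nd (nat_lit 1092) (nat_lit 3116) (nat_lit 0) (XT.nd (nat_lit 546) (nat_lit 1824) (nat_lit 0) (XT.nd (nat_lit 234) (nat_lit 1520) (nat_lit 0) (XT.nd (nat_lit 78) (nat_lit 456) (nat_lit 0) (XT.lf (nat_lit 0) (nat_lit 3148967034) (nat_lit 608) (nat_lit 2585480259) (nat_lit 76) (nat_lit 4041700090) (nat_lit 210) (nat_lit 5) (nat_lit 218) (nat_lit 5) (nat_lit 211) (nat_lit 5) (nat_lit 382) (nat_lit 350) (nat_lit 288)) (XT.nd (nat_lit 78) (nat_lit 0) (nat_lit 0) (XT.lf (nat_lit 0) (nat_lit 3354828783) (nat_lit 456) (nat_lit 2031074050) (nat_lit 532) (nat_lit 4536110775) (nat_lit 204) (nat_lit 5) (nat_lit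 210) (nat_lit 5) (nat_lit 211) (nat_lit 5) (nat_lit 383) (nat_lit 350) (nat_lit 287)) (XT.lf (nat_lit 0) (nat_lit 7697386363) (nat_lit 532) (nat_lit 604017032) (nat_lit 76) (nat_lit 1770639953) (nat_lit 204) (nat_lit 5) (nat_lit 211) (nat_lit 5) (nat_lit 205) (nat_lit 5) (nat_lit 384) (nat_lit 350) (nat_lit 286)))) (XT.nd (nat_lit 156) (nat_lit 456) (nat_lit 0) (XT.nd (nat_lit 78) (nat_lit 532) (nat_lit 0) (XT.lf (nat_lit 0) (nat_lit 5586670928) (nat_lit 532) (nat_lit 4530335944) (nat_lit 608) (nat_lit 108413741) (nat_lit 197) (nat_lit 5) (nat_lit 204) (nat_lit 5) (nat_lit 205) (nat_lit 5) (nat_lit 385) (nat_lit 350) (nat_lit 285)) (XT.lf (nat_lit 0) (nat_lit 1560655320) (nat_lit 456) (nat_lit 608156104) (nat_lit 532) (nat_lit 8214362852) (nat_lit 190) (nat_lit 5) (nat_lit 196) (nat_lit 5) (nat_lit 197) (nat_lit 5) (nat_lit 386) (nat_lit 350) (nat_lit 284))) (XT.nd (nat_lit 78) (nat_lit 456) (nat_lit 0) (XT.lf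 (nat_lit 0) (nat_lit 4558301338) (nat_lit 532) (nat_lit 2578811511) (nat_lit 76) (nat_lit 3407141211) (nat_lit 190) (nat_lit 5) (nat_lit 197) (nat_lit 5) (nat_lit 191) (nat_lit 5) (nat_lit 387) (nat_lit 350) (nat_lit 283)) (XT.lf (nat_lit 0) (nat_lit 3881972172) (nat_lit 456) (nat_lit 3147669603) (nat_lit 532) (nat_lit 3680228734) (nat_lit 184) (nat_lit 5) (nat_lit 190) (nat_lit 5) (nat_lit 191) (nat_lit 5) (nat_lit 388) (nat_lit 350) (nat_lit 282))))) (XT.nd (nat_lit 234) (nat_lit 836) (nat_lit 0) (XT.nd (nat_lit 78) (nat_lit 988) (nat_lit 0) (XT.lf (nat_lit 0) (nat_lit 9578010485) (nat_lit 532) (nat_lit 340224156) (nat_lit 76) (nat_lit 962143145) (nat_lit 184) (nat_lit 5) (nat_lit 191) (nat_lit 5) (nat_lit 185) (nat_lit 5) (nat_lit 389) (nat_lit 350) (nat_lit 281)) (XT.nd (nat_lit 78) (nat_lit 456) (nat_lit 0) (XT.lf (nat_lit 0) (nat_lit 1185995678) (nat_lit 532) (nat_lit 4669388603) (nat_lit 76) (nat_lit 5198447405)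 (nat_lit 177) (nat_lit 5) (nat_lit 184) (nat_lit 5) (nat_lit 178) (nat_lit 5) (nat_lit 390) (nat_lit 350) (nat_lit 280)) (XT.lf (nat_lit 0) (nat_lit 2073407202) (nat_lit 456) (nat_lit 1641357170) (nat_lit 532) (nat_lit 7517588270) (nat_lit 171) (nat_lit 5) (nat_lit 177) (nat_lit 5) (nat_lit 178) (nat_lit 5) (nat_lit 391) (nat_lit 350) (nat_lit 279)))) (XT.nd (nat_lit 156) (nat_lit 456) (nat_lit 0) (XT.nd (nat_lit 78) (nat_lit 380) (nat_lit 0) (XT.lf (nat_lit 0) (nat_lit 6361951365) (nat_lit 532) (nat_lit 2367052966) (nat_lit 76) (nat_lit 2685956213) (nat_lit 171) (nat_lit 5) (nat_lit 178) (nat_lit 5) (nat_lit 172) (nat_lit 5) (nat_lit 392) (nat_lit 350) (nat_lit 278)) (XT.lf (nat_lit 0) (nat_lit 4664501493) (nat_lit 380) (nat_lit 4455036148) (nat_lit 456) (nat_lit 2482587277) (nat_lit 166) (nat_lit 5) (nat_lit 171) (nat_lit 5) (nat_lit 172) (nat_lit 5) (nat_lit 393) (nat_lit 350) (nat_lit 277))) (XT.nd (nat_lit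 78) (nat_lit 0) (nat_lit 0) (XT.lf (nat_lit 0) (nat_lit 122825981) (nat_lit 380) (nat_lit 34323589) (nat_lit 456) (nat_lit 11637851753) (nat_lit 160) (nat_lit 5) (nat_lit 165) (nat_lit 5) (nat_lit 166) (nat_lit 5) (nat_lit 394) (nat_lit 350) (nat_lit 276)) (XT.lf (nat_lit 0) (nat_lit 2910880943) (nat_lit 456) (nat_lit 4562474905) (nat_lit 76) (nat_lit 4517036858) (nat_lit 160) (nat_lit 5) (nat_lit 166) (nat_lit 5) (nat_lit 161) (nat_lit 5) (nat_lit 395) (nat_lit 350) (nat_lit 275)))))) (XT.nd (nat_lit 546) (nat_lit 1596) (nat_lit 0) (XT.nd (nat_lit 234) (nat_lit 760) (nat_lit 0) (XT.nd (nat_lit 78) (nat_lit 380) (nat_lit 0) (XT.lf (nat_lit 0) (nat_lit 2775994183) (nat_lit 380) (nat_lit 2969623834) (nat_lit 456) (nat_lit 6446082880) (nat_lit 155) (nat_lit 5) (nat_lit 160) (nat_lit 5) (nat_lit 161) (nat_lit 5) (nat_lit 396) (nat_lit 350) (nat_lit 274)) (XT.nd (nat_lit 78) (nat_lit 380) (nat_lit 0) (XT.lf (nat_lit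 0) (nat_lit 8699714860) (nat_lit 456) (nat_lit 2024757646) (nat_lit 76) (nat_lit 1673552977) (nat_lit 155) (nat_lit 5) (nat_lit 161) (nat_lit 5) (nat_lit 156) (nat_lit 5) (nat_lit 397) (nat_lit 350) (nat_lit 273)) (XT.lf (nat_lit 0) (nat_lit 5630789459) (nat_lit 380) (nat_lit 6167740830) (nat_lit 456) (nat_lit 810333131) (nat_lit 150) (nat_lit 5) (nat_lit 155) (nat_lit 5) (nat_lit 156) (nat_lit 5) (nat_lit 398) (nat_lit 350) (nat_lit 272)))) (XT.nd (nat_lit 156) (nat_lit 380) (nat_lit 0) (XT.nd (nat_lit 78) (nat_lit 0) (nat_lit 0) (XT.lf (nat_lit 0) (nat_lit 686703338) (nat_lit 304) (nat_lit 1435331443) (nat_lit 380) (nat_lit 10703374173) (nat_lit 145) (nat_lit 5) (nat_lit 149) (nat_lit 5) (nat_lit 150) (nat_lit 5) (nat_lit 399) (nat_lit 350) (nat_lit 271)) (XT.lf (nat_lit 0) (nat_lit 5203374913) (nat_lit 380) (nat_lit 4401772256) (nat_lit 76) (nat_lit 3440750284) (nat_lit 145) (nat_lit 5) (nat_lit 150) (nat_lit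 5) (nat_lit 146) (nat_lit 5) (nat_lit 400) (nat_lit 350) (nat_lit 270))) (XT.nd (nat_lit 78) (nat_lit 0) (nat_lit 0) (XT.lf (nat_lit 0) (nat_lit 3586020533) (nat_lit 380) (nat_lit 4813668672) (nat_lit 456) (nat_lit 4872641146) (nat_lit 140) (nat_lit 5) (nat_lit 145) (nat_lit 5) (nat_lit 146) (nat_lit 5) (nat_lit 401) (nat_lit 350) (nat_lit 269)) (XT.lf (nat_lit 0) (nat_lit 11712106872) (nat_lit 456) (nat_lit 1639475721) (nat_lit 76) (nat_lit 153372816) (nat_lit 140) (nat_lit 5) (nat_lit 146) (nat_lit 5) (nat_lit 141) (nat_lit 5) (nat_lit 402) (nat_lit 350) (nat_lit 268))))) (XT.nd (nat_lit 312) (nat_lit 608) (nat_lit 0) (XT.nd (nat_lit 156) (nat_lit 304) (nat_lit 0) (XT.nd (nat_lit 78) (nat_lit 304) (nat_lit 0) (XT.lf (nat_lit 0) (nat_lit 1440207762) (nat_lit 380) (nat_lit 7060555837) (nat_lit 76) (nat_lit 5240769548) (nat_lit 135) (nat_lit 5) (nat_lit 140) (nat_lit 5) (nat_lit 136) (nat_lit 5) (nat_lit 403) (nat_lit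 350) (nat_lit 267)) (XT.lf (nat_lit 0) (nat_lit 1270432892) (nat_lit 304) (nat_lit 3467764951) (nat_lit 380) (nat_lit 9246363668) (nat_lit 131) (nat_lit 5) (nat_lit 135) (nat_lit 5) (nat_lit 136) (nat_lit 5) (nat_lit 404) (nat_lit 350) (nat_lit 266))) (XT.nd (nat_lit 78) (nat_lit 304) (nat_lit 0) (XT.lf (nat_lit 0) (nat_lit 8198944153) (nat_lit 380) (nat_lit 4290517736) (nat_lit 76) (nat_lit 1743509312) (nat_lit 131) (nat_lit 5) (nat_lit 136) (nat_lit 5) (nat_lit 132) (nat_lit 5) (nat_lit 405) (nat_lit 350) (nat_lit 265)) (XT.lf (nat_lit 0) (nat_lit 4401770904) (nat_lit 304) (nat_lit 7414423181) (nat_lit 380) (nat_lit 2671063484) (nat_lit 127) (nat_lit 5) (nat_lit 131) (nat_lit 5) (nat_lit 132) (nat_lit 5) (nat_lit 406) (nat_lit 350) (nat_lit 264)))) (XT.nd (nat_lit 156) (nat_lit 228) (nat_lit 0) (XT.nd (nat_lit 78) (nat_lit 304) (nat_lit 0) (XT.lf (nat_lit 0) (nat_lit 797228958) (nat_lit 380) (nat_lit 1348863728)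 (nat_lit 76) (nat_lit 12602258463) (nat_lit 126) (nat_lit 5) (nat_lit 131) (nat_lit 5) (nat_lit 127) (nat_lit 5) (nat_lit 407) (nat_lit 350) (nat_lit 263)) (XT.lf (nat_lit 0) (nat_lit 4399553395) (nat_lit 380) (nat_lit 7307608933) (nat_lit 76) (nat_lit 3306816170) (nat_lit 122) (nat_lit 5) (nat_lit 127) (nat_lit 5) (nat_lit 123) (nat_lit 5) (nat_lit 408) (nat_lit 350) (nat_lit 262))) (XT.nd (nat_lit 78) (nat_lit 0) (nat_lit 0) (XT.lf (nat_lit 0) (nat_lit 1751623361) (nat_lit 228) (nat_lit 6387249217) (nat_lit 304) (nat_lit 7147838626) (nat_lit 119) (nat_lit 5) (nat_lit 122) (nat_lit 5) (nat_lit 123) (nat_lit 5) (nat_lit 409) (nat_lit 350) (nat_lit 261)) (XT.lf (nat_lit 0) (nat_lit 11197855761) (nat_lit 228) (nat_lit 843726375) (nat_lit 304) (nat_lit 3524511594) (nat_lit 119) (nat_lit 5) (nat_lit 122) (nat_lit 5) (nat_lit 123) (nat_lit 5) (nat_lit 410) (nat_lit 350) (nat_lit 260))))))) (XT.nd (nat_lit 1092) (nat_lit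 1520) (nat_lit 0) (XT.nd (nat_lit 546) (nat_lit 1216) (nat_lit 0) (XT.nd (nat_lit 234) (nat_lit 532) (nat_lit 0) (XT.nd (nat_lit 78) (nat_lit 228) (nat_lit 0) (XT.lf (nat_lit 0) (nat_lit 277879779) (nat_lit 380) (nat_lit 10762287460) (nat_lit 76) (nat_lit 4811402156) (nat_lit 114) (nat_lit 5) (nat_lit 119) (nat_lit 5) (nat_lit 115) (nat_lit 5) (nat_lit 411) (nat_lit 350) (nat_lit 259)) (XT.nd (nat_lit 78) (nat_lit 228) (nat_lit 0) (XT.lf (nat_lit 0) (nat_lit 4154467051) (nat_lit 380) (nat_lit 1302124966) (nat_lit 76) (nat_lit 10687045337) (nat_lit 114) (nat_lit 5) (nat_lit 119) (nat_lit 5) (nat_lit 115) (nat_lit 5) (nat_lit 412) (nat_lit 350) (nat_lit 258)) (XT.lf (nat_lit 0) (nat_lit 8212022922) (nat_lit 304) (nat_lit 7870206477) (nat_lit 76) (nat_lit 360301522) (nat_lit 111) (nat_lit 5) (nat_lit 115) (nat_lit 5) (nat_lit 112) (nat_lit 5) (nat_lit 413) (nat_lit 350) (nat_lit 257)))) (XT.nd (nat_lit 156) (nat_lit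 304) (nat_lit 0) (XT.nd (nat_lit 78) (nat_lit 0) (nat_lit 0) (XT.lf (nat_lit 0) (nat_lit 1970579287) (nat_lit 228) (nat_lit 10485864188) (nat_lit 304) (nat_lit 4291997269) (nat_lit 108) (nat_lit 5) (nat_lit 111) (nat_lit 5) (nat_lit 112) (nat_lit 5) (nat_lit 414) (nat_lit 350) (nat_lit 256)) (XT.lf (nat_lit 0) (nat_lit 12234827040) (nat_lit 228) (nat_lit 4652030812) (nat_lit 304) (nat_lit 174913660) (nat_lit 108) (nat_lit 5) (nat_lit 111) (nat_lit 5) (nat_lit 112) (nat_lit 5) (nat_lit 415) (nat_lit 350) (nat_lit 255))) (XT.nd (nat_lit 78) (nat_lit 0) (nat_lit 0) (XT.lf (nat_lit 0) (nat_lit 4032228630) (nat_lit 304) (nat_lit 11938831368) (nat_lit 76) (nat_lit 1410896566) (nat_lit 104) (nat_lit 5) (nat_lit 108) (nat_lit 5) (nat_lit 105) (nat_lit 5) (nat_lit 416) (nat_lit 350) (nat_lit 254)) (XT.lf (nat_lit 0) (nat_lit 8437113423) (nat_lit 304) (nat_lit 1671024803) (nat_lit 76) (nat_lit 7601308864) (nat_lit 104) (nat_lit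 5) (nat_lit 108) (nat_lit 5) (nat_lit 105) (nat_lit 5) (nat_lit 417) (nat_lit 350) (nat_lit 253))))) (XT.nd (nat_lit 234) (nat_lit 684) (nat_lit 0) (XT.nd (nat_lit 78) (nat_lit 304) (nat_lit 0) (XT.lf (nat_lit 0) (nat_lit 9049649575) (nat_lit 228) (nat_lit 3991834338) (nat_lit 304) (nat_lit 5003261341) (nat_lit 101) (nat_lit 5) (nat_lit 104) (nat_lit 5) (nat_lit 105) (nat_lit 5) (nat_lit 418) (nat_lit 350) (nat_lit 252)) (XT.nd (nat_lit 78) (nat_lit 76) (nat_lit 0) (XT.lf (nat_lit 0) (nat_lit 1715816831) (nat_lit 228) (nat_lit 16104391331) (nat_lit 304) (nat_lit 568810528) (nat_lit 98) (nat_lit 5) (nat_lit 101) (nat_lit 5) (nat_lit 102) (nat_lit 5) (nat_lit 419) (nat_lit 350) (nat_lit 251)) (XT.lf (nat_lit 0) (nat_lit 4032473884) (nat_lit 304) (nat_lit 5919299475) (nat_lit 76) (nat_lit 8787341816) (nat_lit 97) (nat_lit 5) (nat_lit 101) (nat_lit 5) (nat_lit 98) (nat_lit 5) (nat_lit 420) (nat_lit 350) (nat_lit 250))))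 (XT.nd (nat_lit 156) (nat_lit 456) (nat_lit 0) (XT.nd (nat_lit 78) (nat_lit 0) (nat_lit 0) (XT.lf (nat_lit 0) (nat_lit 5222437197) (nat_lit 228) (nat_lit 3569267518) (nat_lit 304) (nat_lit 10306903425) (nat_lit 94) (nat_lit 5) (nat_lit 97) (nat_lit 5) (nat_lit 98) (nat_lit 5) (nat_lit 421) (nat_lit 350) (nat_lit 249)) (XT.lf (nat_lit 0) (nat_lit 13764236838) (nat_lit 304) (nat_lit 2708001011) (nat_lit 76) (nat_lit 2994534985) (nat_lit 94) (nat_lit 5) (nat_lit 98) (nat_lit 5) (nat_lit 95) (nat_lit 5) (nat_lit 422) (nat_lit 350) (nat_lit 248))) (XT.nd (nat_lit 78) (nat_lit 304) (nat_lit 0) (XT.lf (nat_lit 0) (nat_lit 8903320130) (nat_lit 152) (nat_lit 10085369682) (nat_lit 228) (nat_lit 854212904) (nat_lit 92) (nat_lit 5) (nat_lit 94) (nat_lit 5) (nat_lit 95) (nat_lit 5) (nat_lit 423) (nat_lit 350) (nat_lit 247)) (XT.lf (nat_lit 0) (nat_lit 630887802) (nat_lit 228) (nat_lit 3443457617) (nat_lit 304) (nat_lit 16154312864)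 (nat_lit 88) (nat_lit 5) (nat_lit 91) (nat_lit 5) (nat_lit 92) (nat_lit 5) (nat_lit 424) (nat_lit 350) (nat_lit 246)))))) (XT.nd (nat_lit 546) (nat_lit 760) (nat_lit 0) (XT.nd (nat_lit 234) (nat_lit 608) (nat_lit 0) (XT.nd (nat_lit 78) (nat_lit 152) (nat_lit 0) (XT.lf (nat_lit 0) (nat_lit 9259818825) (nat_lit 304) (nat_lit 7922642171) (nat_lit 76) (nat_lit 3439487352) (nat_lit 88) (nat_lit 5) (nat_lit 92) (nat_lit 5) (nat_lit 89) (nat_lit 5) (nat_lit 425) (nat_lit 350) (nat_lit 245)) (XT.nd (nat_lit 78) (nat_lit 0) (nat_lit 0) (XT.lf (nat_lit 0) (nat_lit 4119438675) (nat_lit 152) (nat_lit 10537638311) (nat_lit 228) (nat_lit 6368275817) (nat_lit 86) (nat_lit 5) (nat_lit 88) (nat_lit 5) (nat_lit 89) (nat_lit 5) (nat_lit 426) (nat_lit 350) (nat_lit 244)) (XT.lf (nat_lit 0) (nat_lit 16655885710) (nat_lit 152) (nat_lit 3623125893) (nat_lit 228) (nat_lit 1159967265) (nat_lit 86) (nat_lit 5) (nat_lit 88) (nat_lit 5) (nat_lit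 89) (nat_lit 5) (nat_lit 427) (nat_lit 350) (nat_lit 243)))) (XT.nd (nat_lit 156) (nat_lit 304) (nat_lit 0) (XT.nd (nat_lit 78) (nat_lit 0) (nat_lit 0) (XT.lf (nat_lit 0) (nat_lit 4215138788) (nat_lit 304) (nat_lit 14110581879) (nat_lit 76) (nat_lit 3535304795) (nat_lit 82) (nat_lit 5) (nat_lit 86) (nat_lit 5) (nat_lit 83) (nat_lit 5) (nat_lit 428) (nat_lit 350) (nat_lit 242)) (XT.lf (nat_lit 0) (nat_lit 9796029323) (nat_lit 304) (nat_lit 1612979693) (nat_lit 76) (nat_lit 10884346578) (nat_lit 82) (nat_lit 5) (nat_lit 86) (nat_lit 5) (nat_lit 83) (nat_lit 5) (nat_lit 429) (nat_lit 350) (nat_lit 241))) (XT.nd (nat_lit 78) (nat_lit 152) (nat_lit 0) (XT.lf (nat_lit 0) (nat_lit 11455026166) (nat_lit 152) (nat_lit 4183117475) (nat_lit 228) (nat_lit 7097700063) (nat_lit 80) (nat_lit 5) (nat_lit 82) (nat_lit 5) (nat_lit 83) (nat_lit 5) (nat_lit 430) (nat_lit 350) (nat_lit 240)) (XT.lf (nat_lit 0) (nat_lit 1731154735)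 (nat_lit 152) (nat_lit 19972569922) (nat_lit 228) (nat_lit 1486437632) (nat_lit 78) (nat_lit 5) (nat_lit 80) (nat_lit 5) (nat_lit 81) (nat_lit 5) (nat_lit 431) (nat_lit 350) (nat_lit 239))))) (XT.nd (nat_lit 312) (nat_lit 380) (nat_lit 0) (XT.nd (nat_lit 156) (nat_lit 152) (nat_lit 0) (XT.nd (nat_lit 78) (nat_lit 152) (nat_lit 0) (XT.lf (nat_lit 0) (nat_lit 4349671025) (nat_lit 228) (nat_lit 8401973406) (nat_lit 76) (nat_lit 10901021262) (nat_lit 77) (nat_lit 5) (nat_lit 80) (nat_lit 5) (nat_lit 78) (nat_lit 5) (nat_lit 432) (nat_lit 350) (nat_lit 238)) (XT.lf (nat_lit 0) (nat_lit 5104279871) (nat_lit 152) (nat_lit 5260068156) (nat_lit 228) (nat_lit 13763255593) (nat_lit 75) (nat_lit 5) (nat_lit 77) (nat_lit 5) (nat_lit 78) (nat_lit 5) (nat_lit 433) (nat_lit 350) (nat_lit 237))) (XT.nd (nat_lit 78) (nat_lit 152) (nat_lit 0) (XT.lf (nat_lit 0) (nat_lit 16653140710) (nat_lit 228) (nat_lit 5478207069) (nat_lit 76)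 (nat_lit 2482633358) (nat_lit 75) (nat_lit 5) (nat_lit 78) (nat_lit 5) (nat_lit 76) (nat_lit 5) (nat_lit 434) (nat_lit 350) (nat_lit 236)) (XT.lf (nat_lit 0) (nat_lit 8561585956) (nat_lit 152) (nat_lit 14688226076) (nat_lit 228) (nat_lit 1861563167) (nat_lit 73) (nat_lit 5) (nat_lit 75) (nat_lit 5) (nat_lit 76) (nat_lit 5) (nat_lit 435) (nat_lit 350) (nat_lit 235)))) (XT.nd (nat_lit 156) (nat_lit 152) (nat_lit 0) (XT.nd (nat_lit 78) (nat_lit 152) (nat_lit 0) (XT.lf (nat_lit 0) (nat_lit 4375169426) (nat_lit 228) (nat_lit 2556908819) (nat_lit 76) (nat_lit 18689117357) (nat_lit 72) (nat_lit 5) (nat_lit 75) (nat_lit 5) (nat_lit 73) (nat_lit 5) (nat_lit 436) (nat_lit 350) (nat_lit 234)) (XT.lf (nat_lit 0) (nat_lit 10874079901) (nat_lit 228) (nat_lit 14107636241) (nat_lit 76) (nat_lit 1160668314) (nat_lit 70) (nat_lit 5) (nat_lit 73) (nat_lit 5) (nat_lit 71) (nat_lit 5) (nat_lit 437) (nat_lit 350) (nat_lit 233))) (XT.nd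 (nat_lit 78) (nat_lit 0) (nat_lit 0) (XT.lf (nat_lit 0) (nat_lit 350072740) (nat_lit 152) (nat_lit 17301347841) (nat_lit 228) (nat_lit 9025285988) (nat_lit 68) (nat_lit 5) (nat_lit 70) (nat_lit 5) (nat_lit 71) (nat_lit 5) (nat_lit 438) (nat_lit 350) (nat_lit 232)) (XT.lf (nat_lit 0) (nat_lit 15504957573) (nat_lit 152) (nat_lit 9255149393) (nat_lit 228) (nat_lit 2463112050) (nat_lit 68) (nat_lit 5) (nat_lit 70) (nat_lit 5) (nat_lit 71) (nat_lit 5) (nat_lit 439) (nat_lit 350) (nat_lit 231))))))))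
noncomputable def xc127 : XT := (XT.nd (nat_lit 2262) (nat_lit 912) (nat_lit 0) (XT.nd (nat_lit 1092) (nat_lit 988) (nat_lit 0) (XT.nd (nat_lit 546) (nat_lit 608) (nat_lit 0) (XT.nd (nat_lit 234) (nat_lit 380) (nat_lit 0) (XT.nd (nat_lit 78) (nat_lit 152) (nat_lit 0) (XT.lf (nat_lit 0) (nat_lit 3326701742) (nat_lit 152) (nat_lit 903220956) (nat_lit 228) (nat_lit 23554431900) (nat_lit 65) (nat_lit 5) (nat_lit 67) (nat_lit 5) (nat_lit 68) (nat_lit 5) (nat_lit 440) (nat_lit 350) (nat_lit 230)) (XT.nd (nat_lit 78) (nat_lit 152) (nat_lit 0) (XT.lf (nat_lit 0) (nat_lit 11253667176) (nat_lit 228) (nat_lit 9420464421) (nat_lit 76) (nat_lit 7682079606) (nat_lit 65) (nat_lit 5) (nat_lit 68) (nat_lit 5) (nat_lit 66) (nat_lit 5) (nat_lit 441) (nat_lit 350) (nat_lit 229)) (XT.lf (nat_lit 0) (nat_lit 6154381408) (nat_lit 152) (nat_lit 12388167066) (nat_lit 228) (nat_lit 10401043572) (nat_lit 63) (nat_lit 5) (nat_lit 65) (nat_lit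 5) (nat_lit 66) (nat_lit 5) (nat_lit 442) (nat_lit 350) (nat_lit 228)))) (XT.nd (nat_lit 156) (nat_lit 152) (nat_lit 0) (XT.nd (nat_lit 78) (nat_lit 228) (nat_lit 0) (XT.lf (nat_lit 0) (nat_lit 22365214543) (nat_lit 152) (nat_lit 3766496059) (nat_lit 228) (nat_lit 3414436519) (nat_lit 63) (nat_lit 5) (nat_lit 65) (nat_lit 5) (nat_lit 66) (nat_lit 5) (nat_lit 443) (nat_lit 350) (nat_lit 227)) (XT.lf (nat_lit 0) (nat_lit 3831614457) (nat_lit 228) (nat_lit 21202602741) (nat_lit 76) (nat_lit 5127762990) (nat_lit 60) (nat_lit 5) (nat_lit 63) (nat_lit 5) (nat_lit 61) (nat_lit 5) (nat_lit 444) (nat_lit 350) (nat_lit 226))) (XT.nd (nat_lit 78) (nat_lit 152) (nat_lit 0) (XT.lf (nat_lit 0) (nat_lit 11323748591) (nat_lit 228) (nat_lit 5158811308) (nat_lit 76) (nat_lit 14309795439) (nat_lit 60) (nat_lit 5) (nat_lit 63) (nat_lit 5) (nat_lit 61) (nat_lit 5) (nat_lit 445) (nat_lit 350) (nat_lit 225)) (XT.lf (nat_lit 0) (nat_lit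 11568759491) (nat_lit 152) (nat_lit 7570282657) (nat_lit 228) (nat_lit 12299648833) (nat_lit 58) (nat_lit 5) (nat_lit 60) (nat_lit 5) (nat_lit 61) (nat_lit 5) (nat_lit 446) (nat_lit 350) (nat_lit 224))))) (XT.nd (nat_lit 234) (nat_lit 456) (nat_lit 0) (XT.nd (nat_lit 78) (nat_lit 152) (nat_lit 0) (XT.lf (nat_lit 0) (nat_lit 27244115348) (nat_lit 228) (nat_lit 3238267049) (nat_lit 76) (nat_lit 1620375740) (nat_lit 58) (nat_lit 5) (nat_lit 61) (nat_lit 5) (nat_lit 59) (nat_lit 4) (nat_lit 447) (nat_lit 350) (nat_lit 223)) (XT.nd (nat_lit 78) (nat_lit 0) (nat_lit 0) (XT.lf (nat_lit 0) (nat_lit 2950612126) (nat_lit 152) (nat_lit 18740460819) (nat_lit 76) (nat_lit 11088873320) (nat_lit 56) (nat_lit 5) (nat_lit 58) (nat_lit 5) (nat_lit 57) (nat_lit 5) (nat_lit 448) (nat_lit 350) (nat_lit 222)) (XT.lf (nat_lit 0) (nat_lit 10917150263) (nat_lit 152) (nat_lit 1645626828) (nat_lit 76) (nat_lit 20912610979) (nat_lit 56) (nat_lit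 5) (nat_lit 58) (nat_lit 5) (nat_lit 57) (nat_lit 5) (nat_lit 449) (nat_lit 350) (nat_lit 221)))) (XT.nd (nat_lit 156) (nat_lit 304) (nat_lit 0) (XT.nd (nat_lit 78) (nat_lit 0) (nat_lit 0) (XT.lf (nat_lit 0) (nat_lit 16257270203) (nat_lit 152) (nat_lit 3009684867) (nat_lit 228) (nat_lit 14920410891) (nat_lit 54) (nat_lit 5) (nat_lit 56) (nat_lit 5) (nat_lit 57) (nat_lit 5) (nat_lit 450) (nat_lit 350) (nat_lit 220)) (XT.lf (nat_lit 0) (nat_lit 27937730497) (nat_lit 228) (nat_lit 277100748) (nat_lit 76) (nat_lit 6703758572) (nat_lit 54) (nat_lit 5) (nat_lit 57) (nat_lit 5) (nat_lit 55) (nat_lit 4) (nat_lit 451) (nat_lit 350) (nat_lit 219))) (XT.nd (nat_lit 78) (nat_lit 152) (nat_lit 0) (XT.lf (nat_lit 0) (nat_lit 1368664856) (nat_lit 152) (nat_lit 17469775225) (nat_lit 76) (nat_lit 16827111778) (nat_lit 52) (nat_lit 5) (nat_lit 54) (nat_lit 5) (nat_lit 53) (nat_lit 5) (nat_lit 452) (nat_lit 350) (nat_lit 218)) (XT.lf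 (nat_lit 0) (nat_lit 717085476) (nat_lit 152) (nat_lit 9109408211) (nat_lit 228) (nat_lit 26606412578) (nat_lit 50) (nat_lit 5) (nat_lit 52) (nat_lit 5) (nat_lit 53) (nat_lit 5) (nat_lit 453) (nat_lit 350) (nat_lit 217)))))) (XT.nd (nat_lit 546) (nat_lit 608) (nat_lit 0) (XT.nd (nat_lit 234) (nat_lit 304) (nat_lit 0) (XT.nd (nat_lit 78) (nat_lit 76) (nat_lit 0) (XT.lf (nat_lit 0) (nat_lit 18713424225) (nat_lit 228) (nat_lit 17442316699) (nat_lit 76) (nat_lit 1062280194) (nat_lit 50) (nat_lit 5) (nat_lit 53) (nat_lit 5) (nat_lit 51) (nat_lit 4) (nat_lit 454) (nat_lit 350) (nat_lit 216)) (XT.nd (nat_lit 78) (nat_lit 0) (nat_lit 0) (XT.lf (nat_lit 0) (nat_lit 1293584110) (nat_lit 76) (nat_lit 26664789802) (nat_lit 152) (nat_lit 10065573961) (nat_lit 49) (nat_lit 5) (nat_lit 50) (nat_lit 5) (nat_lit 51) (nat_lit 4) (nat_lit 455) (nat_lit 350) (nat_lit 215)) (XT.lf (nat_lit 0) (nat_lit 20928458104) (nat_lit 76) (nat_lit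 16717259665) (nat_lit 152) (nat_lit 1203384064) (nat_lit 49) (nat_lit 5) (nat_lit 50) (nat_lit 5) (nat_lit 51) (nat_lit 4) (nat_lit 456) (nat_lit 350) (nat_lit 214)))) (XT.nd (nat_lit 156) (nat_lit 76) (nat_lit 0) (XT.nd (nat_lit 78) (nat_lit 0) (nat_lit 0) (XT.lf (nat_lit 0) (nat_lit 1383926758) (nat_lit 152) (nat_lit 6388537139) (nat_lit 228) (nat_lit 31924189001) (nat_lit 46) (nat_lit 5) (nat_lit 48) (nat_lit 5) (nat_lit 49) (nat_lit 5) (nat_lit 457) (nat_lit 350) (nat_lit 213)) (XT.lf (nat_lit 0) (nat_lit 17206171811) (nat_lit 228) (nat_lit 19004076633) (nat_lit 76) (nat_lit 4352642177) (nat_lit 46) (nat_lit 5) (nat_lit 49) (nat_lit 5) (nat_lit 47) (nat_lit 4) (nat_lit 458) (nat_lit 350) (nat_lit 212))) (XT.nd (nat_lit 78) (nat_lit 0) (nat_lit 0) (XT.lf (nat_lit 0) (nat_lit 816805159) (nat_lit 76) (nat_lit 26166668148) (nat_lit 152) (nat_lit 14469825383) (nat_lit 45) (nat_lit 5) (nat_lit 46) (nat_lit 5) (nat_lit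 47) (nat_lit 4) (nat_lit 459) (nat_lit 350) (nat_lit 211)) (XT.lf (nat_lit 0) (nat_lit 21602358442) (nat_lit 76) (nat_lit 15633236022) (nat_lit 152) (nat_lit 5129380185) (nat_lit 45) (nat_lit 5) (nat_lit 46) (nat_lit 5) (nat_lit 47) (nat_lit 4) (nat_lit 460) (nat_lit 350) (nat_lit 210))))) (XT.nd (nat_lit 312) (nat_lit 304) (nat_lit 0) (XT.nd (nat_lit 156) (nat_lit 76) (nat_lit 0) (XT.nd (nat_lit 78) (nat_lit 152) (nat_lit 0) (XT.lf (nat_lit 0) (nat_lit 4393436427) (nat_lit 152) (nat_lit 354850486) (nat_lit 76) (nat_lit 38554725442) (nat_lit 44) (nat_lit 5) (nat_lit 46) (nat_lit 5) (nat_lit 45) (nat_lit 5) (nat_lit 461) (nat_lit 350) (nat_lit 209)) (XT.lf (nat_lit 0) (nat_lit 14355404334) (nat_lit 228) (nat_lit 23320793281) (nat_lit 76) (nat_lit 6583773740) (nat_lit 42) (nat_lit 5) (nat_lit 45) (nat_lit 5) (nat_lit 43) (nat_lit 4) (nat_lit 462) (nat_lit 350) (nat_lit 208))) (XT.nd (nat_lit 78) (nat_lit 76) (nat_lit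 0) (XT.lf (nat_lit 0) (nat_lit 24656987545) (nat_lit 228) (nat_lit 2431904516) (nat_lit 76) (nat_lit 18155524968) (nat_lit 42) (nat_lit 5) (nat_lit 45) (nat_lit 5) (nat_lit 43) (nat_lit 4) (nat_lit 463) (nat_lit 350) (nat_lit 207)) (XT.lf (nat_lit 0) (nat_lit 19445009344) (nat_lit 76) (nat_lit 15999938615) (nat_lit 152) (nat_lit 10808128798) (nat_lit 41) (nat_lit 5) (nat_lit 42) (nat_lit 5) (nat_lit 43) (nat_lit 4) (nat_lit 464) (nat_lit 350) (nat_lit 206)))) (XT.nd (nat_lit 156) (nat_lit 76) (nat_lit 0) (XT.nd (nat_lit 78) (nat_lit 228) (nat_lit 0) (XT.lf (nat_lit 0) (nat_lit 42010175834) (nat_lit 76) (nat_lit 4561448324) (nat_lit 152) (nat_lit 719920366) (nat_lit 41) (nat_lit 5) (nat_lit 42) (nat_lit 5) (nat_lit 43) (nat_lit 4) (nat_lit 465) (nat_lit 350) (nat_lit 205)) (XT.lf (nat_lit 0) (nat_lit 9709313893) (nat_lit 228) (nat_lit 31311031658) (nat_lit 76) (nat_lit 7331219582) (nat_lit 38) (nat_lit 5) (nat_lit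 41) (nat_lit 5) (nat_lit 39) (nat_lit 4) (nat_lit 466) (nat_lit 350) (nat_lit 204))) (XT.nd (nat_lit 78) (nat_lit 76) (nat_lit 0) (XT.lf (nat_lit 0) (nat_lit 20526706463) (nat_lit 228) (nat_lit 9371845223) (nat_lit 76) (nat_lit 19541928816) (nat_lit 38) (nat_lit 5) (nat_lit 41) (nat_lit 5) (nat_lit 39) (nat_lit 4) (nat_lit 467) (nat_lit 350) (nat_lit 203)) (XT.lf (nat_lit 0) (nat_lit 13471307444) (nat_lit 76) (nat_lit 18317806466) (nat_lit 152) (nat_lit 18769335127) (nat_lit 37) (nat_lit 5) (nat_lit 38) (nat_lit 5) (nat_lit 39) (nat_lit 4) (nat_lit 468) (nat_lit 350) (nat_lit 202))))))) (XT.nd (nat_lit 1092) (nat_lit 228) (nat_lit 0) (XT.nd (nat_lit 546) (nat_lit 304) (nat_lit 0) (XT.nd (nat_lit 234) (nat_lit 228) (nat_lit 0) (XT.nd (nat_lit 78) (nat_lit 152) (nat_lit 0) (XT.lf (nat_lit 0) (nat_lit 37174952724) (nat_lit 76) (nat_lit 6300176341) (nat_lit 152) (nat_lit 8232255978) (nat_lit 37) (nat_lit 5) (nat_lit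 38) (nat_lit 5) (nat_lit 39) (nat_lit 4) (nat_lit 469) (nat_lit 350) (nat_lit 201)) (XT.nd (nat_lit 78) (nat_lit 0) (nat_lit 0) (XT.lf (nat_lit 0) (nat_lit 2705376349) (nat_lit 152) (nat_lit 44117767924) (nat_lit 76) (nat_lit 6062821948) (nat_lit 35) (nat_lit 5) (nat_lit 37) (nat_lit 5) (nat_lit 36) (nat_lit 4) (nat_lit 470) (nat_lit 350) (nat_lit 200)) (XT.lf (nat_lit 0) (nat_lit 14007550193) (nat_lit 152) (nat_lit 21191711126) (nat_lit 76) (nat_lit 18892142549) (nat_lit 35) (nat_lit 5) (nat_lit 37) (nat_lit 5) (nat_lit 36) (nat_lit 4) (nat_lit 471) (nat_lit 350) (nat_lit 199)))) (XT.nd (nat_lit 156) (nat_lit 152) (nat_lit 0) (XT.nd (nat_lit 78) (nat_lit 0) (nat_lit 0) (XT.lf (nat_lit 0) (nat_lit 2453876607) (nat_lit 76) (nat_lit 23210047142) (nat_lit 152) (nat_lit 29668627287) (nat_lit 34) (nat_lit 5) (nat_lit 35) (nat_lit 5) (nat_lit 36) (nat_lit 4) (nat_lit 472) (nat_lit 350) (nat_lit 198)) (XT.lf (nat_lit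 0) (nat_lit 27227264719) (nat_lit 76) (nat_lit 10648357506) (nat_lit 152) (nat_lit 18729141799) (nat_lit 34) (nat_lit 5) (nat_lit 35) (nat_lit 5) (nat_lit 36) (nat_lit 4) (nat_lit 473) (nat_lit 350) (nat_lit 197))) (XT.nd (nat_lit 78) (nat_lit 152) (nat_lit 0) (XT.lf (nat_lit 0) (nat_lit 50467497726) (nat_lit 152) (nat_lit 5208987640) (nat_lit 0) (nat_lit 2238243655) (nat_lit 34) (nat_lit 5) (nat_lit 36) (nat_lit 4) (nat_lit 34) (nat_lit 4) (nat_lit 474) (nat_lit 350) (nat_lit 196)) (XT.lf (nat_lit 0) (nat_lit 4383849778) (nat_lit 152) (nat_lit 39345010549) (nat_lit 76) (nat_lit 15525165194) (nat_lit 32) (nat_lit 5) (nat_lit 34) (nat_lit 5) (nat_lit 33) (nat_lit 4) (nat_lit 475) (nat_lit 350) (nat_lit 195))))) (XT.nd (nat_lit 234) (nat_lit 228) (nat_lit 0) (XT.nd (nat_lit 78) (nat_lit 76) (nat_lit 0) (XT.lf (nat_lit 0) (nat_lit 16465360993) (nat_lit 152) (nat_lit 14834078248) (nat_lit 76) (nat_lit 29330494605)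 (nat_lit 32) (nat_lit 5) (nat_lit 34) (nat_lit 5) (nat_lit 33) (nat_lit 4) (nat_lit 476) (nat_lit 350) (nat_lit 194)) (XT.nd (nat_lit 78) (nat_lit 0) (nat_lit 0) (XT.lf (nat_lit 0) (nat_lit 10604317842) (nat_lit 76) (nat_lit 18399224526) (nat_lit 152) (nat_lit 33040750664) (nat_lit 31) (nat_lit 5) (nat_lit 32) (nat_lit 5) (nat_lit 33) (nat_lit 4) (nat_lit 477) (nat_lit 350) (nat_lit 193)) (XT.lf (nat_lit 0) (nat_lit 37095302288) (nat_lit 76) (nat_lit 4964735408) (nat_lit 152) (nat_lit 21436780591) (nat_lit 31) (nat_lit 5) (nat_lit 32) (nat_lit 5) (nat_lit 33) (nat_lit 4) (nat_lit 478) (nat_lit 350) (nat_lit 192)))) (XT.nd (nat_lit 156) (nat_lit 76) (nat_lit 0) (XT.nd (nat_lit 78) (nat_lit 152) (nat_lit 0) (XT.lf (nat_lit 0) (nat_lit 55586048570) (nat_lit 152) (nat_lit 711571611) (nat_lit 0) (nat_lit 8692964836) (nat_lit 31) (nat_lit 5) (nat_lit 33) (nat_lit 4) (nat_lit 31) (nat_lit 4) (nat_lit 479) (nat_lit 350)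 (nat_lit 191)) (XT.lf (nat_lit 0) (nat_lit 3226989552) (nat_lit 152) (nat_lit 40354833361) (nat_lit 76) (nat_lit 22937581253) (nat_lit 29) (nat_lit 5) (nat_lit 31) (nat_lit 5) (nat_lit 30) (nat_lit 4) (nat_lit 480) (nat_lit 350) (nat_lit 190))) (XT.nd (nat_lit 78) (nat_lit 76) (nat_lit 0) (XT.lf (nat_lit 0) (nat_lit 16048450696) (nat_lit 152) (nat_lit 14339440462) (nat_lit 76) (nat_lit 37703403278) (nat_lit 29) (nat_lit 5) (nat_lit 31) (nat_lit 5) (nat_lit 30) (nat_lit 4) (nat_lit 481) (nat_lit 350) (nat_lit 189)) (XT.lf (nat_lit 0) (nat_lit 12690491435) (nat_lit 76) (nat_lit 16679018650) (nat_lit 152) (nat_lit 40337382995) (nat_lit 28) (nat_lit 5) (nat_lit 29) (nat_lit 5) (nat_lit 30) (nat_lit 4) (nat_lit 482) (nat_lit 350) (nat_lit 188)))))) (XT.nd (nat_lit 42900) (nat_lit 0) (nat_lit 23332) (XT.nd (nat_lit 234) (nat_lit 152) (nat_lit 0) (XT.nd (nat_lit 78) (nat_lit 76) (nat_lit 0) (XT.lf (nat_lit 0) (nat_lit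 40811838716) (nat_lit 76) (nat_lit 2416204231) (nat_lit 152) (nat_lit 28138781777) (nat_lit 28) (nat_lit 5) (nat_lit 29) (nat_lit 5) (nat_lit 30) (nat_lit 4) (nat_lit 483) (nat_lit 350) (nat_lit 187)) (XT.nd (nat_lit 78) (nat_lit 76) (nat_lit 0) (XT.lf (nat_lit 0) (nat_lit 57613505515) (nat_lit 152) (nat_lit 3430896410) (nat_lit 0) (nat_lit 12028817464) (nat_lit 28) (nat_lit 5) (nat_lit 30) (nat_lit 4) (nat_lit 28) (nat_lit 4) (nat_lit 484) (nat_lit 350) (nat_lit 186)) (XT.lf (nat_lit 0) (nat_lit 24957203275) (nat_lit 76) (nat_lit 47730537701) (nat_lit 76) (nat_lit 2135348922) (nat_lit 27) (nat_lit 4) (nat_lit 28) (nat_lit 5) (nat_lit 28) (nat_lit 4) (nat_lit 485) (nat_lit 350) (nat_lit 185)))) (XT.nd (nat_lit 156) (nat_lit 0) (nat_lit 0) (XT.nd (nat_lit 78) (nat_lit 76) (nat_lit 0) (XT.lf (nat_lit 0) (nat_lit 11390985316) (nat_lit 152) (nat_lit 22481683469) (nat_lit 76) (nat_lit 42748594756) (nat_lit 26) (nat_lit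 5) (nat_lit 28) (nat_lit 5) (nat_lit 27) (nat_lit 4) (nat_lit 486) (nat_lit 350) (nat_lit 184)) (XT.lf (nat_lit 0) (nat_lit 5803727055) (nat_lit 76) (nat_lit 19525833861) (nat_lit 152) (nat_lit 53141706374) (nat_lit 25) (nat_lit 5) (nat_lit 26) (nat_lit 5) (nat_lit 27) (nat_lit 4) (nat_lit 487) (nat_lit 350) (nat_lit 183))) (XT.nd (nat_lit 42432) (nat_lit 0) (nat_lit 24852) (XT.lf (nat_lit 0) (nat_lit 35386245937) (nat_lit 76) (nat_lit 4520718199) (nat_lit 152) (nat_lit 40463187148) (nat_lit 25) (nat_lit 5) (nat_lit 26) (nat_lit 5) (nat_lit 27) (nat_lit 4) (nat_lit 488) (nat_lit 350) (nat_lit 182)) (XT.lf (nat_lit 0) (nat_lit 429507797) (nat_lit 0) (nat_lit 429507797) (nat_lit 684) (nat_lit 2619784258) (nat_lit 352) (nat_lit 5) (nat_lit 352) (nat_lit 3) (nat_lit 361) (nat_lit 3) (nat_lit 351) (nat_lit 351) (nat_lit 318))))) (XT.nd (nat_lit 312) (nat_lit 760) (nat_lit 0) (XT.nd (nat_lit 156) (nat_lit 760) (nat_lit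 0) (XT.nd (nat_lit 78) (nat_lit 0) (nat_lit 0) (XT.lf (nat_lit 0) (nat_lit 3592957350) (nat_lit 684) (nat_lit 2689750088) (nat_lit 760) (nat_lit 722961753) (nat_lit 352) (nat_lit 5) (nat_lit 361) (nat_lit 3) (nat_lit 362) (nat_lit 5) (nat_lit 352) (nat_lit 351) (nat_lit 317)) (XT.lf (nat_lit 76) (nat_lit 789775591) (nat_lit 0) (nat_lit 4678907387) (nat_lit 760) (nat_lit 1588193228) (nat_lit 353) (nat_lit 5) (nat_lit 352) (nat_lit 5) (nat_lit 362) (nat_lit 5) (nat_lit 353) (nat_lit 351) (nat_lit 316))) (XT.nd (nat_lit 78) (nat_lit 0) (nat_lit 0) (XT.lf (nat_lit 0) (nat_lit 242261950) (nat_lit 760) (nat_lit 2722583700) (nat_lit 836) (nat_lit 4146013586) (nat_lit 342) (nat_lit 5) (nat_lit 352) (nat_lit 5) (nat_lit 353) (nat_lit 5) (nat_lit 354) (nat_lit 351) (nat_lit 315)) (XT.lf (nat_lit 76) (nat_lit 891556460) (nat_lit 0) (nat_lit 1144228768) (nat_lit 836) (nat_lit 5132031802) (nat_lit 343) (nat_lit 5) (nat_lit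 342) (nat_lit 5) (nat_lit 353) (nat_lit 5) (nat_lit 355) (nat_lit 351) (nat_lit 314)))) (XT.nd (nat_lit 156) (nat_lit 836) (nat_lit 0) (XT.nd (nat_lit 78) (nat_lit 0) (nat_lit 0) (XT.lf (nat_lit 0) (nat_lit 3851318429) (nat_lit 760) (nat_lit 2603347236) (nat_lit 836) (nat_lit 772800194) (nat_lit 343) (nat_lit 5) (nat_lit 353) (nat_lit 5) (nat_lit 354) (nat_lit 5) (nat_lit 356) (nat_lit 351) (nat_lit 313)) (XT.lf (nat_lit 76) (nat_lit 1151753244) (nat_lit 0) (nat_lit 4527316560) (nat_lit 836) (nat_lit 1611129384) (nat_lit 344) (nat_lit 5) (nat_lit 343) (nat_lit 5) (nat_lit 354) (nat_lit 5) (nat_lit 357) (nat_lit 351) (nat_lit 312))) (XT.nd (nat_lit 78) (nat_lit 0) (nat_lit 0) (XT.lf (nat_lit 0) (nat_lit 165562785) (nat_lit 836) (nat_lit 2323459471) (nat_lit 912) (nat_lit 4866875836) (nat_lit 332) (nat_lit 5) (nat_lit 343) (nat_lit 5) (nat_lit 344) (nat_lit 5) (nat_lit 358) (nat_lit 351) (nat_lit 311)) (XT.lf (nat_lit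 76) (nat_lit 1582004285) (nat_lit 0) (nat_lit 334445235) (nat_lit 912) (nat_lit 5508066870) (nat_lit 333) (nat_lit 5) (nat_lit 332) (nat_lit 5) (nat_lit 344) (nat_lit 5) (nat_lit 359) (nat_lit 351) (nat_lit 310))))))))
noncomputable def xc128 : XT := (XT.nd (nat_lit 2184) (nat_lit 6308) (nat_lit 0) (XT.nd (nat_lit 1092) (nat_lit 4636) (nat_lit 0) (XT.nd (nat_lit 546) (nat_lit 4560) (nat_lit 0) (XT.nd (nat_lit 234) (nat_lit 1672) (nat_lit 0) (XT.nd (nat_lit 78) (nat_lit 0) (nat_lit 0) (XT.lf (nat_lit 0) (nat_lit 3701388813) (nat_lit 836) (nat_lit 1901139289) (nat_lit 912) (nat_lit 1893243879) (nat_lit 333) (nat_lit 5) (nat_lit 344) (nat_lit 5) (nat_lit 345) (nat_lit 5) (nat_lit 360) (nat_lit 351) (nat_lit 309)) (XT.nd (nat_lit 78) (nat_lit 0) (nat_lit 0) (XT.lf (nat_lit 76) (nat_lit 2157892339) (nat_lit 0) (nat_lit 3347507891) (nat_lit 912) (nat_lit 2064823099) (nat_lit 334) (nat_lit 5) (nat_lit 333) (nat_lit 5)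 (nat_lit 345) (nat_lit 5) (nat_lit 361) (nat_lit 351) (nat_lit 308)) (XT.lf (nat_lit 76) (nat_lit 6338673196) (nat_lit 0) (nat_lit 986856143) (nat_lit 912) (nat_lit 322542073) (nat_lit 334) (nat_lit 5) (nat_lit 333) (nat_lit 5) (nat_lit 345) (nat_lit 5) (nat_lit 362) (nat_lit 351) (nat_lit 307)))) (XT.nd (nat_lit 156) (nat_lit 836) (nat_lit 0) (XT.nd (nat_lit 78) (nat_lit 0) (nat_lit 0) (XT.lf (nat_lit 0) (nat_lit 1429719320) (nat_lit 912) (nat_lit 4822696664) (nat_lit 988) (nat_lit 1475843164) (nat_lit 322) (nat_lit 5) (nat_lit 334) (nat_lit 5) (nat_lit 335) (nat_lit 5) (nat_lit 363) (nat_lit 351) (nat_lit 306)) (XT.lf (nat_lit 0) (nat_lit 3196502648) (nat_lit 912) (nat_lit 590173760) (nat_lit 988) (nat_lit 4025048349) (nat_lit 322) (nat_lit 5) (nat_lit 334) (nat_lit 5) (nat_lit 335) (nat_lit 5) (nat_lit 364) (nat_lit 351) (nat_lit 305))) (XT.nd (nat_lit 78) (nat_lit 836) (nat_lit 0) (XT.lf (nat_lit 76) (nat_lit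 3804302169) (nat_lit 0) (nat_lit 1195462165) (nat_lit 988) (nat_lit 2898446292) (nat_lit 323) (nat_lit 5) (nat_lit 322) (nat_lit 5) (nat_lit 335) (nat_lit 5) (nat_lit 365) (nat_lit 351) (nat_lit 304)) (XT.lf (nat_lit 0) (nat_lit 306785046) (nat_lit 912) (nat_lit 6521674278) (nat_lit 988) (nat_lit 1159711623) (nat_lit 311) (nat_lit 5) (nat_lit 323) (nat_lit 5) (nat_lit 324) (nat_lit 5) (nat_lit 366) (nat_lit 351) (nat_lit 303))))) (XT.nd (nat_lit 234) (nat_lit 3496) (nat_lit 0) (XT.nd (nat_lit 78) (nat_lit 988) (nat_lit 0) (XT.lf (nat_lit 0) (nat_lit 621259886) (nat_lit 988) (nat_lit 3215698594) (nat_lit 76) (nat_lit 4243636627) (nat_lit 310) (nat_lit 5) (nat_lit 323) (nat_lit 5) (nat_lit 311) (nat_lit 5) (nat_lit 367) (nat_lit 351) (nat_lit 302)) (XT.nd (nat_lit 78) (nat_lit 0) (nat_lit 0) (XT.lf (nat_lit 0) (nat_lit 1358979816) (nat_lit 988) (nat_lit 1036731593) (nat_lit 1064) (nat_lit 5780853562) (nat_lit 297)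 (nat_lit 5) (nat_lit 310) (nat_lit 5) (nat_lit 311) (nat_lit 5) (nat_lit 368) (nat_lit 351) (nat_lit 301)) (XT.lf (nat_lit 0) (nat_lit 4225399563) (nat_lit 1064) (nat_lit 2196890302) (nat_lit 76) (nat_lit 1853081690) (nat_lit 297) (nat_lit 5) (nat_lit 311) (nat_lit 5) (nat_lit 298) (nat_lit 5) (nat_lit 369) (nat_lit 351) (nat_lit 300)))) (XT.nd (nat_lit 156) (nat_lit 2432) (nat_lit 0) (XT.nd (nat_lit 78) (nat_lit 0) (nat_lit 0) (XT.lf (nat_lit 0) (nat_lit 2562170568) (nat_lit 1064) (nat_lit 3535565695) (nat_lit 1140) (nat_lit 2279790535) (nat_lit 283) (nat_lit 5) (nat_lit 297) (nat_lit 5) (nat_lit 298) (nat_lit 5) (nat_lit 370) (nat_lit 351) (nat_lit 299)) (XT.lf (nat_lit 0) (nat_lit 7469442059) (nat_lit 1064) (nat_lit 532841650) (nat_lit 1140) (nat_lit 481198469) (nat_lit 283) (nat_lit 5) (nat_lit 297) (nat_lit 5) (nat_lit 298) (nat_lit 5) (nat_lit 371) (nat_lit 351) (nat_lit 298))) (XT.nd (nat_lit 78) (nat_lit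 1216) (nat_lit 0) (XT.lf (nat_lit 0) (nat_lit 1362531135) (nat_lit 1216) (nat_lit 4661655235) (nat_lit 76) (nat_lit 2567511929) (nat_lit 267) (nat_lit 5) (nat_lit 283) (nat_lit 5) (nat_lit 268) (nat_lit 5) (nat_lit 372) (nat_lit 351) (nat_lit 297)) (XT.lf (nat_lit 0) (nat_lit 295640729) (nat_lit 1216) (nat_lit 2930454874) (nat_lit 1292) (nat_lit 5477711812) (nat_lit 251) (nat_lit 5) (nat_lit 267) (nat_lit 5) (nat_lit 268) (nat_lit 5) (nat_lit 373) (nat_lit 351) (nat_lit 296)))))) (XT.nd (nat_lit 546) (nat_lit 2128) (nat_lit 0) (XT.nd (nat_lit 234) (nat_lit 1748) (nat_lit 0) (XT.nd (nat_lit 78) (nat_lit 760) (nat_lit 0) (XT.lf (nat_lit 0) (nat_lit 5152241740) (nat_lit 1292) (nat_lit 3364901572) (nat_lit 76) (nat_lit 301951088) (nat_lit 251) (nat_lit 5) (nat_lit 268) (nat_lit 5) (nat_lit 252) (nat_lit 5) (nat_lit 374) (nat_lit 351) (nat_lit 295)) (XT.nd (nat_lit 78) (nat_lit 76) (nat_lit 0) (XT.lf (nat_lit 0) (nat_lit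 1795567455) (nat_lit 684) (nat_lit 5344814644) (nat_lit 760) (nat_lit 1797346006) (nat_lit 242) (nat_lit 5) (nat_lit 251) (nat_lit 5) (nat_lit 252) (nat_lit 5) (nat_lit 375) (nat_lit 351) (nat_lit 294)) (XT.lf (nat_lit 0) (nat_lit 118415469) (nat_lit 760) (nat_lit 1921209591) (nat_lit 76) (nat_lit 7020492189) (nat_lit 241) (nat_lit 5) (nat_lit 251) (nat_lit 5) (nat_lit 242) (nat_lit 5) (nat_lit 376) (nat_lit 351) (nat_lit 293)))) (XT.nd (nat_lit 156) (nat_lit 1140) (nat_lit 0) (XT.nd (nat_lit 78) (nat_lit 0) (nat_lit 0) (XT.lf (nat_lit 0) (nat_lit 2062054753) (nat_lit 684) (nat_lit 5732665341) (nat_lit 76) (nat_lit 1390741394) (nat_lit 233) (nat_lit 5) (nat_lit 242) (nat_lit 5) (nat_lit 234) (nat_lit 5) (nat_lit 377) (nat_lit 351) (nat_lit 292)) (XT.lf (nat_lit 0) (nat_lit 4064168532) (nat_lit 684) (nat_lit 347172119) (nat_lit 76) (nat_lit 4903233243) (nat_lit 233) (nat_lit 5) (nat_lit 242) (nat_lit 5) (nat_lit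 234) (nat_lit 5) (nat_lit 378) (nat_lit 351) (nat_lit 291))) (XT.nd (nat_lit 78) (nat_lit 532) (nat_lit 0) (XT.lf (nat_lit 0) (nat_lit 5263561349) (nat_lit 608) (nat_lit 874913447) (nat_lit 684) (nat_lit 3308733429) (nat_lit 225) (nat_lit 5) (nat_lit 233) (nat_lit 5) (nat_lit 234) (nat_lit 5) (nat_lit 379) (nat_lit 351) (nat_lit 290)) (XT.lf (nat_lit 0) (nat_lit 1427445532) (nat_lit 532) (nat_lit 6853702969) (nat_lit 608) (nat_lit 1302501001) (nat_lit 218) (nat_lit 5) (nat_lit 225) (nat_lit 5) (nat_lit 226) (nat_lit 5) (nat_lit 380) (nat_lit 351) (nat_lit 289))))) (XT.nd (nat_lit 234) (nat_lit 1520) (nat_lit 0) (XT.nd (nat_lit 78) (nat_lit 532) (nat_lit 0) (XT.lf (nat_lit 0) (nat_lit 762953655) (nat_lit 608) (nat_lit 2486862159) (nat_lit 76) (nat_lit 6473741014) (nat_lit 217) (nat_lit 5) (nat_lit 225) (nat_lit 5) (nat_lit 218) (nat_lit 5) (nat_lit 381) (nat_lit 351) (nat_lit 288)) (XT.nd (nat_lit 78) (nat_lit 0)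 (nat_lit 0) (XT.lf (nat_lit 0) (nat_lit 2865121193) (nat_lit 608) (nat_lit 6505898219) (nat_lit 76) (nat_lit 496238274) (nat_lit 210) (nat_lit 5) (nat_lit 218) (nat_lit 5) (nat_lit 211) (nat_lit 5) (nat_lit 382) (nat_lit 351) (nat_lit 287)) (XT.lf (nat_lit 0) (nat_lit 5052252119) (nat_lit 608) (nat_lit 650586707) (nat_lit 76) (nat_lit 4311784512) (nat_lit 210) (nat_lit 5) (nat_lit 218) (nat_lit 5) (nat_lit 211) (nat_lit 5) (nat_lit 383) (nat_lit 351) (nat_lit 286)))) (XT.nd (nat_lit 156) (nat_lit 532) (nat_lit 0) (XT.nd (nat_lit 78) (nat_lit 532) (nat_lit 0) (XT.lf (nat_lit 0) (nat_lit 5448201626) (nat_lit 456) (nat_lit 1874565723) (nat_lit 532) (nat_lit 2843119903) (nat_lit 204) (nat_lit 5) (nat_lit 210) (nat_lit 5) (nat_lit 211) (nat_lit 5) (nat_lit 384) (nat_lit 351) (nat_lit 285)) (XT.lf (nat_lit 0) (nat_lit 1389861893) (nat_lit 532) (nat_lit 8277415587) (nat_lit 608) (nat_lit 654245325) (nat_lit 197) (nat_lit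 5) (nat_lit 204) (nat_lit 5) (nat_lit 205) (nat_lit 5) (nat_lit 385) (nat_lit 351) (nat_lit 284))) (XT.nd (nat_lit 78) (nat_lit 456) (nat_lit 0) (XT.lf (nat_lit 0) (nat_lit 1602017297) (nat_lit 608) (nat_lit 2776874520) (nat_lit 76) (nat_lit 6101495159) (nat_lit 196) (nat_lit 5) (nat_lit 204) (nat_lit 5) (nat_lit 197) (nat_lit 5) (nat_lit 386) (nat_lit 351) (nat_lit 283)) (XT.lf (nat_lit 0) (nat_lit 3587831740) (nat_lit 456) (nat_lit 326735226) (nat_lit 532) (nat_lit 6729212556) (nat_lit 190) (nat_lit 5) (nat_lit 196) (nat_lit 5) (nat_lit 197) (nat_lit 5) (nat_lit 387) (nat_lit 351) (nat_lit 282))))))) (XT.nd (nat_lit 1092) (nat_lit 2888) (nat_lit 0) (XT.nd (nat_lit 546) (nat_lit 1596) (nat_lit 0) (XT.nd (nat_lit 234) (nat_lit 836) (nat_lit 0) (XT.nd (nat_lit 78) (nat_lit 988) (nat_lit 0) (XT.lf (nat_lit 0) (nat_lit 6329586076) (nat_lit 532) (nat_lit 686888309) (nat_lit 76) (nat_lit 3794615648) (nat_lit 190) (nat_lit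 5) (nat_lit 197) (nat_lit 5) (nat_lit 191) (nat_lit 5) (nat_lit 388) (nat_lit 351) (nat_lit 281)) (XT.nd (nat_lit 78) (nat_lit 532) (nat_lit 0) (XT.lf (nat_lit 0) (nat_lit 5948412143) (nat_lit 456) (nat_lit 2897791154) (nat_lit 532) (nat_lit 2136350849) (nat_lit 184) (nat_lit 5) (nat_lit 190) (nat_lit 5) (nat_lit 191) (nat_lit 5) (nat_lit 389) (nat_lit 351) (nat_lit 280)) (XT.lf (nat_lit 0) (nat_lit 278454233) (nat_lit 532) (nat_lit 9543442563) (nat_lit 76) (nat_lit 1337050757) (nat_lit 177) (nat_lit 5) (nat_lit 184) (nat_lit 5) (nat_lit 178) (nat_lit 5) (nat_lit 390) (nat_lit 351) (nat_lit 279)))) (XT.nd (nat_lit 156) (nat_lit 380) (nat_lit 0) (XT.nd (nat_lit 78) (nat_lit 456) (nat_lit 0) (XT.lf (nat_lit 0) (nat_lit 2772241445) (nat_lit 532) (nat_lit 2860027517) (nat_lit 76) (nat_lit 5706252921) (nat_lit 177) (nat_lit 5) (nat_lit 184) (nat_lit 5) (nat_lit 178) (nat_lit 5) (nat_lit 391) (nat_lit 351) (nat_lit 278))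 (XT.lf (nat_lit 0) (nat_lit 4065939978) (nat_lit 456) (nat_lit 1284323714) (nat_lit 532) (nat_lit 6172944851) (nat_lit 171) (nat_lit 5) (nat_lit 177) (nat_lit 5) (nat_lit 178) (nat_lit 5) (nat_lit 392) (nat_lit 351) (nat_lit 277))) (XT.nd (nat_lit 78) (nat_lit 380) (nat_lit 0) (XT.lf (nat_lit 0) (nat_lit 8036267911) (nat_lit 532) (nat_lit 522977291) (nat_lit 76) (nat_lit 3153278879) (nat_lit 171) (nat_lit 5) (nat_lit 178) (nat_lit 5) (nat_lit 172) (nat_lit 5) (nat_lit 393) (nat_lit 351) (nat_lit 276)) (XT.lf (nat_lit 0) (nat_lit 6700748436) (nat_lit 380) (nat_lit 4150854334) (nat_lit 456) (nat_lit 1054461098) (nat_lit 166) (nat_lit 5) (nat_lit 171) (nat_lit 5) (nat_lit 172) (nat_lit 5) (nat_lit 394) (nat_lit 351) (nat_lit 275))))) (XT.nd (nat_lit 234) (nat_lit 760) (nat_lit 0) (XT.nd (nat_lit 78) (nat_lit 380) (nat_lit 0) (XT.lf (nat_lit 0) (nat_lit 1614634460) (nat_lit 456) (nat_lit 10075486508) (nat_lit 76) (nat_lit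 414798119) (nat_lit 160) (nat_lit 5) (nat_lit 166) (nat_lit 5) (nat_lit 161) (nat_lit 5) (nat_lit 395) (nat_lit 351) (nat_lit 274)) (XT.nd (nat_lit 78) (nat_lit 380) (nat_lit 0) (XT.lf (nat_lit 0) (nat_lit 4408994012) (nat_lit 456) (nat_lit 2809529485) (nat_lit 76) (nat_lit 5088918398) (nat_lit 160) (nat_lit 5) (nat_lit 166) (nat_lit 5) (nat_lit 161) (nat_lit 5) (nat_lit 396) (nat_lit 351) (nat_lit 273)) (XT.lf (nat_lit 0) (nat_lit 4730566032) (nat_lit 380) (nat_lit 2575104297) (nat_lit 456) (nat_lit 5209821961) (nat_lit 155) (nat_lit 5) (nat_lit 160) (nat_lit 5) (nat_lit 161) (nat_lit 5) (nat_lit 397) (nat_lit 351) (nat_lit 272)))) (XT.nd (nat_lit 156) (nat_lit 304) (nat_lit 0) (XT.nd (nat_lit 78) (nat_lit 456) (nat_lit 0) (XT.lf (nat_lit 0) (nat_lit 10312485441) (nat_lit 456) (nat_lit 232487834) (nat_lit 76) (nat_lit 2184120065) (nat_lit 155) (nat_lit 5) (nat_lit 161) (nat_lit 5) (nat_lit 156) (nat_lit 5) (nat_lit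 398) (nat_lit 351) (nat_lit 271)) (XT.lf (nat_lit 0) (nat_lit 525161287) (nat_lit 456) (nat_lit 5317507504) (nat_lit 76) (nat_lit 7104094508) (nat_lit 149) (nat_lit 5) (nat_lit 155) (nat_lit 5) (nat_lit 150) (nat_lit 5) (nat_lit 399) (nat_lit 351) (nat_lit 270))) (XT.nd (nat_lit 78) (nat_lit 0) (nat_lit 0) (XT.lf (nat_lit 0) (nat_lit 2550936234) (nat_lit 304) (nat_lit 956867648) (nat_lit 380) (nat_lit 9662411680) (nat_lit 145) (nat_lit 5) (nat_lit 149) (nat_lit 5) (nat_lit 150) (nat_lit 5) (nat_lit 400) (nat_lit 351) (nat_lit 269)) (XT.lf (nat_lit 0) (nat_lit 6647943406) (nat_lit 380) (nat_lit 2709966927) (nat_lit 76) (nat_lit 4040426125) (nat_lit 145) (nat_lit 5) (nat_lit 150) (nat_lit 5) (nat_lit 146) (nat_lit 5) (nat_lit 401) (nat_lit 351) (nat_lit 268)))))) (XT.nd (nat_lit 546) (nat_lit 1140) (nat_lit 0) (XT.nd (nat_lit 234) (nat_lit 988) (nat_lit 0) (XT.nd (nat_lit 78) (nat_lit 380) (nat_lit 0) (XT.lf (nat_lit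 0) (nat_lit 5499578680) (nat_lit 380) (nat_lit 4420400435) (nat_lit 456) (nat_lit 3712196536) (nat_lit 140) (nat_lit 5) (nat_lit 145) (nat_lit 5) (nat_lit 146) (nat_lit 5) (nat_lit 402) (nat_lit 351) (nat_lit 267)) (XT.nd (nat_lit 78) (nat_lit 76) (nat_lit 0) (XT.lf (nat_lit 0) (nat_lit 98835287) (nat_lit 304) (nat_lit 13201961290) (nat_lit 380) (nat_lit 571920095) (nat_lit 136) (nat_lit 5) (nat_lit 140) (nat_lit 5) (nat_lit 141) (nat_lit 5) (nat_lit 403) (nat_lit 351) (nat_lit 266)) (XT.lf (nat_lit 0) (nat_lit 2713082971) (nat_lit 380) (nat_lit 5479586353) (nat_lit 76) (nat_lit 5923967506) (nat_lit 135) (nat_lit 5) (nat_lit 140) (nat_lit 5) (nat_lit 136) (nat_lit 5) (nat_lit 404) (nat_lit 351) (nat_lit 265)))) (XT.nd (nat_lit 156) (nat_lit 684) (nat_lit 0) (XT.nd (nat_lit 78) (nat_lit 0) (nat_lit 0) (XT.lf (nat_lit 0) (nat_lit 3083755704) (nat_lit 304) (nat_lit 3007505852) (nat_lit 380) (nat_lit 8276264372) (nat_lit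 131) (nat_lit 5) (nat_lit 135) (nat_lit 5) (nat_lit 136) (nat_lit 5) (nat_lit 405) (nat_lit 351) (nat_lit 264)) (XT.lf (nat_lit 0) (nat_lit 9625827136) (nat_lit 380) (nat_lit 2665487701) (nat_lit 76) (nat_lit 2332980297) (nat_lit 131) (nat_lit 5) (nat_lit 136) (nat_lit 5) (nat_lit 132) (nat_lit 5) (nat_lit 406) (nat_lit 351) (nat_lit 263))) (XT.nd (nat_lit 78) (nat_lit 380) (nat_lit 0) (XT.lf (nat_lit 0) (nat_lit 6270376014) (nat_lit 304) (nat_lit 7063515779) (nat_lit 380) (nat_lit 1552856308) (nat_lit 127) (nat_lit 5) (nat_lit 131) (nat_lit 5) (nat_lit 132) (nat_lit 5) (nat_lit 407) (nat_lit 351) (nat_lit 262)) (XT.lf (nat_lit 0) (nat_lit 325923513) (nat_lit 304) (nat_lit 1639088462) (nat_lit 380) (nat_lit 13191256136) (nat_lit 122) (nat_lit 5) (nat_lit 126) (nat_lit 5) (nat_lit 127) (nat_lit 5) (nat_lit 408) (nat_lit 351) (nat_lit 261))))) (XT.nd (nat_lit 312) (nat_lit 532) (nat_lit 0) (XT.nd (nat_lit 156) (nat_lit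 380) (nat_lit 0) (XT.nd (nat_lit 78) (nat_lit 228) (nat_lit 0) (XT.lf (nat_lit 0) (nat_lit 5660777288) (nat_lit 380) (nat_lit 5806236857) (nat_lit 76) (nat_lit 3963295340) (nat_lit 122) (nat_lit 5) (nat_lit 127) (nat_lit 5) (nat_lit 123) (nat_lit 5) (nat_lit 409) (nat_lit 351) (nat_lit 260)) (XT.lf (nat_lit 0) (nat_lit 3507903776) (nat_lit 228) (nat_lit 5987859176) (nat_lit 304) (nat_lit 6215962766) (nat_lit 119) (nat_lit 5) (nat_lit 122) (nat_lit 5) (nat_lit 123) (nat_lit 5) (nat_lit 410) (nat_lit 351) (nat_lit 259))) (XT.nd (nat_lit 78) (nat_lit 380) (nat_lit 0) (XT.lf (nat_lit 0) (nat_lit 13187899894) (nat_lit 228) (nat_lit 295244460) (nat_lit 304) (nat_lit 2517323623) (nat_lit 119) (nat_lit 5) (nat_lit 122) (nat_lit 5) (nat_lit 123) (nat_lit 5) (nat_lit 411) (nat_lit 351) (nat_lit 258)) (XT.lf (nat_lit 0) (nat_lit 1367208406) (nat_lit 380) (nat_lit 9398735523) (nat_lit 76) (nat_lit 5528555088) (nat_lit 114)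 (nat_lit 5) (nat_lit 119) (nat_lit 5) (nat_lit 115) (nat_lit 5) (nat_lit 412) (nat_lit 351) (nat_lit 257)))) (XT.nd (nat_lit 156) (nat_lit 304) (nat_lit 0) (XT.nd (nat_lit 78) (nat_lit 0) (nat_lit 0) (XT.lf (nat_lit 0) (nat_lit 302006025) (nat_lit 228) (nat_lit 5029505128) (nat_lit 304) (nat_lit 11264680793) (nat_lit 111) (nat_lit 5) (nat_lit 114) (nat_lit 5) (nat_lit 115) (nat_lit 5) (nat_lit 413) (nat_lit 351) (nat_lit 256)) (XT.lf (nat_lit 0) (nat_lit 9498546881) (nat_lit 304) (nat_lit 6459490486) (nat_lit 76) (nat_lit 946387664) (nat_lit 111) (nat_lit 5) (nat_lit 115) (nat_lit 5) (nat_lit 112) (nat_lit 5) (nat_lit 414) (nat_lit 351) (nat_lit 255))) (XT.nd (nat_lit 78) (nat_lit 76) (nat_lit 0) (XT.lf (nat_lit 0) (nat_lit 3660373535) (nat_lit 228) (nat_lit 10195305562) (nat_lit 304) (nat_lit 3364276834) (nat_lit 108) (nat_lit 5) (nat_lit 111) (nat_lit 5) (nat_lit 112) (nat_lit 5) (nat_lit 415) (nat_lit 351) (nat_lit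 254)) (XT.lf (nat_lit 0) (nat_lit 829048322) (nat_lit 304) (nat_lit 3366662378) (nat_lit 76) (nat_lit 13347633192) (nat_lit 107) (nat_lit 5) (nat_lit 111) (nat_lit 5) (nat_lit 108) (nat_lit 5) (nat_lit 416) (nat_lit 351) (nat_lit 253))))))))
noncomputable def xc129 : XT := (XT.nd (nat_lit 2262) (nat_lit 1976) (nat_lit 0) (XT.nd (nat_lit 1092) (nat_lit 1672) (nat_lit 0) (XT.nd (nat_lit 546) (nat_lit 912) (nat_lit 0) (XT.nd (nat_lit 234) (nat_lit 532) (nat_lit 0) (XT.nd (nat_lit 78) (nat_lit 228) (nat_lit 0) (XT.lf (nat_lit 0) (nat_lit 5150587488) (nat_lit 304) (nat_lit 10685178707) (nat_lit 76) (nat_lit 2037570117) (nat_lit 104) (nat_lit 5) (nat_lit 108) (nat_lit 5) (nat_lit 105) (nat_lit 5) (nat_lit 417) (nat_lit 351) (nat_lit 252)) (XT.nd (nat_lit 78) (nat_lit 228) (nat_lit 0) (XT.lf (nat_lit 0) (nat_lit 9658568572) (nat_lit 304) (nat_lit 156284089) (nat_lit 76) (nat_lit 8396674978) (nat_lit 104) (nat_lit 5) (nat_lit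 108) (nat_lit 5) (nat_lit 105) (nat_lit 5) (nat_lit 418) (nat_lit 351) (nat_lit 251)) (XT.lf (nat_lit 0) (nat_lit 10870668644) (nat_lit 228) (nat_lit 3517092431) (nat_lit 304) (nat_lit 4169527392) (nat_lit 101) (nat_lit 5) (nat_lit 104) (nat_lit 5) (nat_lit 105) (nat_lit 5) (nat_lit 419) (nat_lit 351) (nat_lit 250)))) (XT.nd (nat_lit 156) (nat_lit 228) (nat_lit 0) (XT.nd (nat_lit 78) (nat_lit 0) (nat_lit 0) (XT.lf (nat_lit 0) (nat_lit 382815327) (nat_lit 304) (nat_lit 15591378890) (nat_lit 76) (nat_lit 2937806597) (nat_lit 97) (nat_lit 5) (nat_lit 101) (nat_lit 5) (nat_lit 98) (nat_lit 5) (nat_lit 420) (nat_lit 351) (nat_lit 249)) (XT.lf (nat_lit 0) (nat_lit 5082824454) (nat_lit 304) (nat_lit 4566405412) (nat_lit 76) (nat_lit 9624041881) (nat_lit 97) (nat_lit 5) (nat_lit 101) (nat_lit 5) (nat_lit 98) (nat_lit 5) (nat_lit 421) (nat_lit 351) (nat_lit 248))) (XT.nd (nat_lit 78) (nat_lit 0) (nat_lit 0) (XT.lf (nat_lit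 0) (nat_lit 6894578722) (nat_lit 228) (nat_lit 3077751883) (nat_lit 304) (nat_lit 9671597893) (nat_lit 94) (nat_lit 5) (nat_lit 97) (nat_lit 5) (nat_lit 98) (nat_lit 5) (nat_lit 422) (nat_lit 351) (nat_lit 247)) (XT.lf (nat_lit 0) (nat_lit 15072920057) (nat_lit 304) (nat_lit 1296666044) (nat_lit 76) (nat_lit 3654189425) (nat_lit 94) (nat_lit 5) (nat_lit 98) (nat_lit 5) (nat_lit 95) (nat_lit 5) (nat_lit 423) (nat_lit 351) (nat_lit 246))))) (XT.nd (nat_lit 234) (nat_lit 456) (nat_lit 0) (XT.nd (nat_lit 78) (nat_lit 228) (nat_lit 0) (XT.lf (nat_lit 0) (nat_lit 30075436) (nat_lit 228) (nat_lit 9763482735) (nat_lit 76) (nat_lit 10617982503) (nat_lit 91) (nat_lit 5) (nat_lit 94) (nat_lit 5) (nat_lit 92) (nat_lit 5) (nat_lit 424) (nat_lit 351) (nat_lit 245)) (XT.nd (nat_lit 78) (nat_lit 0) (nat_lit 0) (XT.lf (nat_lit 0) (nat_lit 2130979214) (nat_lit 228) (nat_lit 2946578017) (nat_lit 304) (nat_lit 15731414393) (nat_lit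 88) (nat_lit 5) (nat_lit 91) (nat_lit 5) (nat_lit 92) (nat_lit 5) (nat_lit 425) (nat_lit 351) (nat_lit 244)) (XT.lf (nat_lit 0) (nat_lit 10398536475) (nat_lit 304) (nat_lit 6702125460) (nat_lit 76) (nat_lit 4114003614) (nat_lit 88) (nat_lit 5) (nat_lit 92) (nat_lit 5) (nat_lit 89) (nat_lit 5) (nat_lit 426) (nat_lit 351) (nat_lit 243)))) (XT.nd (nat_lit 156) (nat_lit 304) (nat_lit 0) (XT.nd (nat_lit 78) (nat_lit 0) (nat_lit 0) (XT.lf (nat_lit 0) (nat_lit 5686921772) (nat_lit 152) (nat_lit 10259594829) (nat_lit 228) (nat_lit 5683994717) (nat_lit 86) (nat_lit 5) (nat_lit 88) (nat_lit 5) (nat_lit 89) (nat_lit 5) (nat_lit 427) (nat_lit 351) (nat_lit 242)) (XT.lf (nat_lit 0) (nat_lit 18557406881) (nat_lit 152) (nat_lit 3154953037) (nat_lit 228) (nat_lit 344931939) (nat_lit 86) (nat_lit 5) (nat_lit 88) (nat_lit 5) (nat_lit 89) (nat_lit 5) (nat_lit 428) (nat_lit 351) (nat_lit 241))) (XT.nd (nat_lit 78) (nat_lit 0) (nat_lit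 0) (XT.lf (nat_lit 0) (nat_lit 5169672527) (nat_lit 304) (nat_lit 13110095153) (nat_lit 76) (nat_lit 4212145266) (nat_lit 82) (nat_lit 5) (nat_lit 86) (nat_lit 5) (nat_lit 83) (nat_lit 5) (nat_lit 429) (nat_lit 351) (nat_lit 240)) (XT.lf (nat_lit 0) (nat_lit 10893870955) (nat_lit 304) (nat_lit 279034925) (nat_lit 76) (nat_lit 11765033603) (nat_lit 82) (nat_lit 5) (nat_lit 86) (nat_lit 5) (nat_lit 83) (nat_lit 5) (nat_lit 430) (nat_lit 351) (nat_lit 239)))))) (XT.nd (nat_lit 546) (nat_lit 912) (nat_lit 0) (XT.nd (nat_lit 234) (nat_lit 380) (nat_lit 0) (XT.nd (nat_lit 78) (nat_lit 228) (nat_lit 0) (XT.lf (nat_lit 0) (nat_lit 13167458813) (nat_lit 152) (nat_lit 3733531125) (nat_lit 228) (nat_lit 6493022914) (nat_lit 80) (nat_lit 5) (nat_lit 82) (nat_lit 5) (nat_lit 83) (nat_lit 5) (nat_lit 431) (nat_lit 351) (nat_lit 238)) (XT.nd (nat_lit 78) (nat_lit 76) (nat_lit 0) (XT.lf (nat_lit 0) (nat_lit 3156649774) (nat_lit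 152) (nat_lit 19987341590) (nat_lit 228) (nat_lit 718108812) (nat_lit 78) (nat_lit 5) (nat_lit 80) (nat_lit 5) (nat_lit 81) (nat_lit 5) (nat_lit 432) (nat_lit 351) (nat_lit 237)) (XT.lf (nat_lit 0) (nat_lit 5254004761) (nat_lit 228) (nat_lit 7304990788) (nat_lit 76) (nat_lit 11779947775) (nat_lit 77) (nat_lit 5) (nat_lit 80) (nat_lit 5) (nat_lit 78) (nat_lit 5) (nat_lit 433) (nat_lit 351) (nat_lit 236)))) (XT.nd (nat_lit 156) (nat_lit 228) (nat_lit 0) (XT.nd (nat_lit 78) (nat_lit 0) (nat_lit 0) (XT.lf (nat_lit 0) (nat_lit 6593224187) (nat_lit 152) (nat_lit 4846199431) (nat_lit 228) (nat_lit 13388999258) (nat_lit 75) (nat_lit 5) (nat_lit 77) (nat_lit 5) (nat_lit 78) (nat_lit 5) (nat_lit 434) (nat_lit 351) (nat_lit 235)) (XT.lf (nat_lit 0) (nat_lit 17899958620) (nat_lit 228) (nat_lit 4328641123) (nat_lit 76) (nat_lit 3101302081) (nat_lit 75) (nat_lit 5) (nat_lit 78) (nat_lit 5) (nat_lit 76) (nat_lit 5) (nat_lit 435)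 (nat_lit 351) (nat_lit 234))) (XT.nd (nat_lit 78) (nat_lit 76) (nat_lit 0) (XT.lf (nat_lit 0) (nat_lit 10119464201) (nat_lit 152) (nat_lit 14565808387) (nat_lit 228) (nat_lit 1157225235) (nat_lit 73) (nat_lit 5) (nat_lit 75) (nat_lit 5) (nat_lit 76) (nat_lit 5) (nat_lit 436) (nat_lit 351) (nat_lit 233)) (XT.lf (nat_lit 0) (nat_lit 5230066143) (nat_lit 228) (nat_lit 1356002553) (nat_lit 76) (nat_lit 19781978452) (nat_lit 72) (nat_lit 5) (nat_lit 75) (nat_lit 5) (nat_lit 73) (nat_lit 5) (nat_lit 437) (nat_lit 351) (nat_lit 232))))) (XT.nd (nat_lit 312) (nat_lit 380) (nat_lit 0) (XT.nd (nat_lit 156) (nat_lit 228) (nat_lit 0) (XT.nd (nat_lit 78) (nat_lit 152) (nat_lit 0) (XT.lf (nat_lit 0) (nat_lit 11920318210) (nat_lit 228) (nat_lit 13249553188) (nat_lit 76) (nat_lit 1735111227) (nat_lit 70) (nat_lit 5) (nat_lit 73) (nat_lit 5) (nat_lit 71) (nat_lit 5) (nat_lit 438) (nat_lit 351) (nat_lit 231)) (XT.lf (nat_lit 0)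 (nat_lit 1629325179) (nat_lit 152) (nat_lit 17262878598) (nat_lit 228) (nat_lit 8563396006) (nat_lit 68) (nat_lit 5) (nat_lit 70) (nat_lit 5) (nat_lit 71) (nat_lit 5) (nat_lit 439) (nat_lit 351) (nat_lit 230))) (XT.nd (nat_lit 78) (nat_lit 228) (nat_lit 0) (XT.lf (nat_lit 0) (nat_lit 17201902666) (nat_lit 152) (nat_lit 8991532342) (nat_lit 228) (nat_lit 1825696128) (nat_lit 68) (nat_lit 5) (nat_lit 70) (nat_lit 5) (nat_lit 71) (nat_lit 5) (nat_lit 440) (nat_lit 351) (nat_lit 229)) (XT.lf (nat_lit 0) (nat_lit 4660032900) (nat_lit 152) (nat_lit 385760533) (nat_lit 228) (nat_lit 23551357851) (nat_lit 65) (nat_lit 5) (nat_lit 67) (nat_lit 5) (nat_lit 68) (nat_lit 5) (nat_lit 441) (nat_lit 351) (nat_lit 228)))) (XT.nd (nat_lit 156) (nat_lit 228) (nat_lit 0) (XT.nd (nat_lit 78) (nat_lit 152) (nat_lit 0) (XT.lf (nat_lit 0) (nat_lit 12265265220) (nat_lit 228) (nat_lit 8490428410) (nat_lit 76) (nat_lit 8430921394) (nat_lit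 65) (nat_lit 5) (nat_lit 68) (nat_lit 5) (nat_lit 66) (nat_lit 5) (nat_lit 442) (nat_lit 351) (nat_lit 227)) (XT.lf (nat_lit 0) (nat_lit 7539774069) (nat_lit 152) (nat_lit 12224950621) (nat_lit 228) (nat_lit 10027137082) (nat_lit 63) (nat_lit 5) (nat_lit 65) (nat_lit 5) (nat_lit 66) (nat_lit 5) (nat_lit 443) (nat_lit 351) (nat_lit 226))) (XT.nd (nat_lit 78) (nat_lit 228) (nat_lit 0) (XT.lf (nat_lit 0) (nat_lit 24201958570) (nat_lit 152) (nat_lit 3360207973) (nat_lit 228) (nat_lit 2850910589) (nat_lit 63) (nat_lit 5) (nat_lit 65) (nat_lit 5) (nat_lit 66) (nat_lit 5) (nat_lit 444) (nat_lit 351) (nat_lit 225)) (XT.lf (nat_lit 0) (nat_lit 4596747843) (nat_lit 228) (nat_lit 20657005758) (nat_lit 76) (nat_lit 5793524581) (nat_lit 60) (nat_lit 5) (nat_lit 63) (nat_lit 5) (nat_lit 61) (nat_lit 5) (nat_lit 445) (nat_lit 351) (nat_lit 224))))))) (XT.nd (nat_lit 1092) (nat_lit 912) (nat_lit 0) (XT.nd (nat_lit 546) (nat_lit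 532) (nat_lit 0) (XT.nd (nat_lit 234) (nat_lit 380) (nat_lit 0) (XT.nd (nat_lit 78) (nat_lit 152) (nat_lit 0) (XT.lf (nat_lit 0) (nat_lit 12294708575) (nat_lit 228) (nat_lit 4166318302) (nat_lit 76) (nat_lit 15236107459) (nat_lit 60) (nat_lit 5) (nat_lit 63) (nat_lit 5) (nat_lit 61) (nat_lit 5) (nat_lit 446) (nat_lit 351) (nat_lit 223)) (XT.nd (nat_lit 78) (nat_lit 0) (nat_lit 0) (XT.lf (nat_lit 0) (nat_lit 13051831999) (nat_lit 152) (nat_lit 7285163111) (nat_lit 228) (nat_lit 12026090494) (nat_lit 58) (nat_lit 5) (nat_lit 60) (nat_lit 5) (nat_lit 61) (nat_lit 5) (nat_lit 447) (nat_lit 351) (nat_lit 222)) (XT.lf (nat_lit 0) (nat_lit 28671832543) (nat_lit 228) (nat_lit 2219053914) (nat_lit 76) (nat_lit 2156591491) (nat_lit 58) (nat_lit 5) (nat_lit 61) (nat_lit 5) (nat_lit 59) (nat_lit 4) (nat_lit 448) (nat_lit 351) (nat_lit 221)))) (XT.nd (nat_lit 156) (nat_lit 228) (nat_lit 0) (XT.nd (nat_lit 78) (nat_lit 0) (nat_lit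 0) (XT.lf (nat_lit 0) (nat_lit 3648393054) (nat_lit 152) (nat_lit 18185084507) (nat_lit 76) (nat_lit 11911541028) (nat_lit 56) (nat_lit 5) (nat_lit 58) (nat_lit 5) (nat_lit 57) (nat_lit 5) (nat_lit 449) (nat_lit 351) (nat_lit 220)) (XT.lf (nat_lit 0) (nat_lit 11836181824) (nat_lit 152) (nat_lit 609956665) (nat_lit 76) (nat_lit 22015718927) (nat_lit 56) (nat_lit 5) (nat_lit 58) (nat_lit 5) (nat_lit 57) (nat_lit 5) (nat_lit 450) (nat_lit 351) (nat_lit 219))) (XT.nd (nat_lit 78) (nat_lit 76) (nat_lit 0) (XT.lf (nat_lit 0) (nat_lit 17819389640) (nat_lit 152) (nat_lit 2610190286) (nat_lit 228) (nat_lit 14765823106) (nat_lit 54) (nat_lit 5) (nat_lit 56) (nat_lit 5) (nat_lit 57) (nat_lit 5) (nat_lit 451) (nat_lit 351) (nat_lit 218)) (XT.lf (nat_lit 0) (nat_lit 785523479) (nat_lit 76) (nat_lit 28570049397) (nat_lit 152) (nat_lit 6593139224) (nat_lit 53) (nat_lit 5) (nat_lit 54) (nat_lit 5) (nat_lit 55) (nat_lit 4) (nat_lit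 452) (nat_lit 351) (nat_lit 217))))) (XT.nd (nat_lit 234) (nat_lit 304) (nat_lit 0) (XT.nd (nat_lit 78) (nat_lit 152) (nat_lit 0) (XT.lf (nat_lit 0) (nat_lit 1980908577) (nat_lit 152) (nat_lit 16937199487) (nat_lit 76) (nat_lit 17800233271) (nat_lit 52) (nat_lit 5) (nat_lit 54) (nat_lit 5) (nat_lit 53) (nat_lit 5) (nat_lit 453) (nat_lit 351) (nat_lit 216)) (XT.nd (nat_lit 78) (nat_lit 0) (nat_lit 0) (XT.lf (nat_lit 0) (nat_lit 1784907536) (nat_lit 152) (nat_lit 8900986084) (nat_lit 228) (nat_lit 26823021324) (nat_lit 50) (nat_lit 5) (nat_lit 52) (nat_lit 5) (nat_lit 53) (nat_lit 5) (nat_lit 454) (nat_lit 351) (nat_lit 215)) (XT.lf (nat_lit 0) (nat_lit 19827482834) (nat_lit 228) (nat_lit 16937763318) (nat_lit 76) (nat_lit 1552696742) (nat_lit 50) (nat_lit 5) (nat_lit 53) (nat_lit 5) (nat_lit 51) (nat_lit 4) (nat_lit 455) (nat_lit 351) (nat_lit 214)))) (XT.nd (nat_lit 156) (nat_lit 228) (nat_lit 0) (XT.nd (nat_lit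 78) (nat_lit 0) (nat_lit 0) (XT.lf (nat_lit 0) (nat_lit 2350137820) (nat_lit 76) (nat_lit 26993329617) (nat_lit 152) (nat_lit 9804770563) (nat_lit 49) (nat_lit 5) (nat_lit 50) (nat_lit 5) (nat_lit 51) (nat_lit 4) (nat_lit 456) (nat_lit 351) (nat_lit 213)) (XT.lf (nat_lit 0) (nat_lit 22544414941) (nat_lit 76) (nat_lit 16761103786) (nat_lit 152) (nat_lit 693106346) (nat_lit 49) (nat_lit 5) (nat_lit 50) (nat_lit 5) (nat_lit 51) (nat_lit 4) (nat_lit 457) (nat_lit 351) (nat_lit 212))) (XT.nd (nat_lit 78) (nat_lit 0) (nat_lit 0) (XT.lf (nat_lit 0) (nat_lit 2414453173) (nat_lit 152) (nat_lit 6120805589) (nat_lit 228) (nat_lit 32336370282) (nat_lit 46) (nat_lit 5) (nat_lit 48) (nat_lit 5) (nat_lit 49) (nat_lit 5) (nat_lit 458) (nat_lit 351) (nat_lit 211)) (XT.lf (nat_lit 0) (nat_lit 18240839357) (nat_lit 228) (nat_lit 18602824041) (nat_lit 76) (nat_lit 4920525672) (nat_lit 46) (nat_lit 5) (nat_lit 49) (nat_lit 5) (nat_lit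 47) (nat_lit 4) (nat_lit 459) (nat_lit 351) (nat_lit 210)))))) (XT.nd (nat_lit 546) (nat_lit 532) (nat_lit 0) (XT.nd (nat_lit 234) (nat_lit 76) (nat_lit 0) (XT.nd (nat_lit 78) (nat_lit 228) (nat_lit 0) (XT.lf (nat_lit 0) (nat_lit 1803160921) (nat_lit 76) (nat_lit 26502443454) (nat_lit 152) (nat_lit 14375881656) (nat_lit 45) (nat_lit 5) (nat_lit 46) (nat_lit 5) (nat_lit 47) (nat_lit 4) (nat_lit 460) (nat_lit 351) (nat_lit 209)) (XT.nd (nat_lit 78) (nat_lit 228) (nat_lit 0) (XT.lf (nat_lit 0) (nat_lit 23184265708) (nat_lit 76) (nat_lit 15666092580) (nat_lit 152) (nat_lit 4770602863) (nat_lit 45) (nat_lit 5) (nat_lit 46) (nat_lit 5) (nat_lit 47) (nat_lit 4) (nat_lit 461) (nat_lit 351) (nat_lit 208)) (XT.lf (nat_lit 0) (nat_lit 561847532) (nat_lit 152) (nat_lit 4456807284) (nat_lit 228) (nat_lit 39568615422) (nat_lit 42) (nat_lit 5) (nat_lit 44) (nat_lit 5) (nat_lit 45) (nat_lit 5) (nat_lit 462) (nat_lit 351) (nat_lit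 207)))) (XT.nd (nat_lit 156) (nat_lit 76) (nat_lit 0) (XT.nd (nat_lit 78) (nat_lit 0) (nat_lit 0) (XT.lf (nat_lit 0) (nat_lit 15272673505) (nat_lit 228) (nat_lit 23102600628) (nat_lit 76) (nat_lit 7197868997) (nat_lit 42) (nat_lit 5) (nat_lit 45) (nat_lit 5) (nat_lit 43) (nat_lit 4) (nat_lit 463) (nat_lit 351) (nat_lit 206)) (XT.lf (nat_lit 0) (nat_lit 25869131192) (nat_lit 228) (nat_lit 1613777718) (nat_lit 76) (nat_lit 19104639304) (nat_lit 42) (nat_lit 5) (nat_lit 45) (nat_lit 5) (nat_lit 43) (nat_lit 4) (nat_lit 464) (nat_lit 351) (nat_lit 205))) (XT.nd (nat_lit 78) (nat_lit 0) (nat_lit 0) (XT.lf (nat_lit 0) (nat_lit 20910707441) (nat_lit 76) (nat_lit 16064744430) (nat_lit 152) (nat_lit 10651175043) (nat_lit 41) (nat_lit 5) (nat_lit 42) (nat_lit 5) (nat_lit 43) (nat_lit 4) (nat_lit 465) (nat_lit 351) (nat_lit 204)) (XT.lf (nat_lit 0) (nat_lit 44127129475) (nat_lit 76) (nat_lit 4295192412) (nat_lit 152) (nat_lit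 274335823) (nat_lit 41) (nat_lit 5) (nat_lit 42) (nat_lit 5) (nat_lit 43) (nat_lit 4) (nat_lit 466) (nat_lit 351) (nat_lit 203))))) (XT.nd (nat_lit 312) (nat_lit 228) (nat_lit 0) (XT.nd (nat_lit 156) (nat_lit 76) (nat_lit 0) (XT.nd (nat_lit 78) (nat_lit 0) (nat_lit 0) (XT.lf (nat_lit 0) (nat_lit 10457444993) (nat_lit 228) (nat_lit 31383332719) (nat_lit 76) (nat_lit 7947603675) (nat_lit 38) (nat_lit 5) (nat_lit 41) (nat_lit 5) (nat_lit 39) (nat_lit 4) (nat_lit 467) (nat_lit 351) (nat_lit 202)) (XT.lf (nat_lit 0) (nat_lit 21586052981) (nat_lit 228) (nat_lit 8811223989) (nat_lit 76) (nat_lit 20513087172) (nat_lit 38) (nat_lit 5) (nat_lit 41) (nat_lit 5) (nat_lit 39) (nat_lit 4) (nat_lit 468) (nat_lit 351) (nat_lit 201))) (XT.nd (nat_lit 78) (nat_lit 0) (nat_lit 0) (XT.lf (nat_lit 0) (nat_lit 14708970547) (nat_lit 76) (nat_lit 18472455650) (nat_lit 152) (nat_lit 18880593440) (nat_lit 37) (nat_lit 5) (nat_lit 38) (nat_lit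 5) (nat_lit 39) (nat_lit 4) (nat_lit 469) (nat_lit 351) (nat_lit 200)) (XT.lf (nat_lit 0) (nat_lit 39099447790) (nat_lit 76) (nat_lit 6105798126) (nat_lit 152) (nat_lit 8040561774) (nat_lit 37) (nat_lit 5) (nat_lit 38) (nat_lit 5) (nat_lit 39) (nat_lit 4) (nat_lit 470) (nat_lit 351) (nat_lit 199)))) (XT.nd (nat_lit 156) (nat_lit 76) (nat_lit 0) (XT.nd (nat_lit 78) (nat_lit 0) (nat_lit 0) (XT.lf (nat_lit 0) (nat_lit 3215592387) (nat_lit 152) (nat_lit 44622403304) (nat_lit 76) (nat_lit 6621656181) (nat_lit 35) (nat_lit 5) (nat_lit 37) (nat_lit 5) (nat_lit 36) (nat_lit 4) (nat_lit 471) (nat_lit 351) (nat_lit 198)) (XT.lf (nat_lit 0) (nat_lit 14844334706) (nat_lit 152) (nat_lit 21032416190) (nat_lit 76) (nat_lit 19824877286) (nat_lit 35) (nat_lit 5) (nat_lit 37) (nat_lit 5) (nat_lit 36) (nat_lit 4) (nat_lit 472) (nat_lit 351) (nat_lit 197))) (XT.nd (nat_lit 78) (nat_lit 0) (nat_lit 0) (XT.lf (nat_lit 0) (nat_lit 3314744604)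 (nat_lit 76) (nat_lit 23531089653) (nat_lit 152) (nat_lit 30134313079) (nat_lit 34) (nat_lit 5) (nat_lit 35) (nat_lit 5) (nat_lit 36) (nat_lit 4) (nat_lit 473) (nat_lit 351) (nat_lit 196)) (XT.lf (nat_lit 0) (nat_lit 28808404698) (nat_lit 76) (nat_lit 10603479199) (nat_lit 152) (nat_lit 18879003405) (nat_lit 34) (nat_lit 5) (nat_lit 35) (nat_lit 5) (nat_lit 36) (nat_lit 4) (nat_lit 474) (nat_lit 351) (nat_lit 195))))))))
noncomputable def xc130 : XT := (XT.nd (nat_lit 44616) (nat_lit 0) (nat_lit 10716) (XT.nd (nat_lit 43524) (nat_lit 0) (nat_lit 22496) (XT.nd (nat_lit 546) (nat_lit 304) (nat_lit 0) (XT.nd (nat_lit 234) (nat_lit 228) (nat_lit 0) (XT.nd (nat_lit 78) (nat_lit 152) (nat_lit 0) (XT.lf (nat_lit 0) (nat_lit 52373265531) (nat_lit 152) (nat_lit 4614927632) (nat_lit 0) (nat_lit 2652206169) (nat_lit 34) (nat_lit 5) (nat_lit 36) (nat_lit 4) (nat_lit 34) (nat_lit 4) (nat_lit 475) (nat_lit 351) (nat_lit 194))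 (XT.nd (nat_lit 78) (nat_lit 0) (nat_lit 0) (XT.lf (nat_lit 0) (nat_lit 4906694805) (nat_lit 152) (nat_lit 39774581007) (nat_lit 76) (nat_lit 16338612420) (nat_lit 32) (nat_lit 5) (nat_lit 34) (nat_lit 5) (nat_lit 33) (nat_lit 4) (nat_lit 476) (nat_lit 351) (nat_lit 193)) (XT.lf (nat_lit 0) (nat_lit 17339253408) (nat_lit 152) (nat_lit 14550188112) (nat_lit 76) (nat_lit 30547974754) (nat_lit 32) (nat_lit 5) (nat_lit 34) (nat_lit 5) (nat_lit 33) (nat_lit 4) (nat_lit 477) (nat_lit 351) (nat_lit 192)))) (XT.nd (nat_lit 156) (nat_lit 152) (nat_lit 0) (XT.nd (nat_lit 78) (nat_lit 0) (nat_lit 0) (XT.lf (nat_lit 0) (nat_lit 11644213660) (nat_lit 76) (nat_lit 18605238656) (nat_lit 152) (nat_lit 33644878273) (nat_lit 31) (nat_lit 5) (nat_lit 32) (nat_lit 5) (nat_lit 33) (nat_lit 4) (nat_lit 478) (nat_lit 351) (nat_lit 191)) (XT.lf (nat_lit 0) (nat_lit 38908905320) (nat_lit 76) (nat_lit 4777791445) (nat_lit 152) (nat_lit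 21704063707) (nat_lit 31) (nat_lit 5) (nat_lit 32) (nat_lit 5) (nat_lit 33) (nat_lit 4) (nat_lit 479) (nat_lit 351) (nat_lit 190))) (XT.nd (nat_lit 78) (nat_lit 152) (nat_lit 0) (XT.lf (nat_lit 0) (nat_lit 57610995736) (nat_lit 152) (nat_lit 45076443) (nat_lit 0) (nat_lit 9273493276) (nat_lit 31) (nat_lit 5) (nat_lit 33) (nat_lit 4) (nat_lit 31) (nat_lit 4) (nat_lit 480) (nat_lit 351) (nat_lit 189)) (XT.lf (nat_lit 0) (nat_lit 3680818782) (nat_lit 152) (nat_lit 40877258994) (nat_lit 76) (nat_lit 23946182714) (nat_lit 29) (nat_lit 5) (nat_lit 31) (nat_lit 5) (nat_lit 30) (nat_lit 4) (nat_lit 481) (nat_lit 351) (nat_lit 188))))) (XT.nd (nat_lit 234) (nat_lit 228) (nat_lit 0) (XT.nd (nat_lit 78) (nat_lit 76) (nat_lit 0) (XT.lf (nat_lit 0) (nat_lit 16876525133) (nat_lit 152) (nat_lit 14101449532) (nat_lit 76) (nat_lit 39145645204) (nat_lit 29) (nat_lit 5) (nat_lit 31) (nat_lit 5) (nat_lit 30) (nat_lit 4) (nat_lit 482)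 (nat_lit 351) (nat_lit 187)) (XT.nd (nat_lit 78) (nat_lit 0) (nat_lit 0) (XT.lf (nat_lit 0) (nat_lit 13732829595) (nat_lit 76) (nat_lit 16860650883) (nat_lit 152) (nat_lit 41194318500) (nat_lit 28) (nat_lit 5) (nat_lit 29) (nat_lit 5) (nat_lit 30) (nat_lit 4) (nat_lit 483) (nat_lit 351) (nat_lit 186)) (XT.lf (nat_lit 0) (nat_lit 42678546710) (nat_lit 76) (nat_lit 2179235672) (nat_lit 152) (nat_lit 28640046216) (nat_lit 28) (nat_lit 5) (nat_lit 29) (nat_lit 5) (nat_lit 30) (nat_lit 4) (nat_lit 484) (nat_lit 351) (nat_lit 185)))) (XT.nd (nat_lit 156) (nat_lit 152) (nat_lit 0) (XT.nd (nat_lit 78) (nat_lit 76) (nat_lit 0) (XT.lf (nat_lit 0) (nat_lit 59668000791) (nat_lit 152) (nat_lit 2903358221) (nat_lit 0) (nat_lit 12684260737) (nat_lit 28) (nat_lit 5) (nat_lit 30) (nat_lit 4) (nat_lit 28) (nat_lit 4) (nat_lit 485) (nat_lit 351) (nat_lit 184)) (XT.lf (nat_lit 0) (nat_lit 26330203424) (nat_lit 76) (nat_lit 48860763122)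 (nat_lit 76) (nat_lit 1867125124) (nat_lit 27) (nat_lit 4) (nat_lit 28) (nat_lit 5) (nat_lit 28) (nat_lit 4) (nat_lit 486) (nat_lit 351) (nat_lit 183))) (XT.nd (nat_lit 78) (nat_lit 76) (nat_lit 0) (XT.lf (nat_lit 0) (nat_lit 12049025752) (nat_lit 152) (nat_lit 22543725375) (nat_lit 76) (nat_lit 44317648622) (nat_lit 26) (nat_lit 5) (nat_lit 28) (nat_lit 5) (nat_lit 27) (nat_lit 4) (nat_lit 487) (nat_lit 351) (nat_lit 182)) (XT.lf (nat_lit 0) (nat_lit 6584243459) (nat_lit 76) (nat_lit 19818131355) (nat_lit 152) (nat_lit 54413630671) (nat_lit 25) (nat_lit 5) (nat_lit 26) (nat_lit 5) (nat_lit 27) (nat_lit 4) (nat_lit 488) (nat_lit 351) (nat_lit 181)))))) (XT.nd (nat_lit 546) (nat_lit 836) (nat_lit 0) (XT.nd (nat_lit 234) (nat_lit 684) (nat_lit 0) (XT.nd (nat_lit 78) (nat_lit 836) (nat_lit 0) (XT.lf (nat_lit 0) (nat_lit 1354573406) (nat_lit 0) (nat_lit 1354573406) (nat_lit 684) (nat_lit 818474255) (nat_lit 352) (nat_lit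 5) (nat_lit 352) (nat_lit 3) (nat_lit 361) (nat_lit 3) (nat_lit 352) (nat_lit 352) (nat_lit 316)) (XT.nd (nat_lit 78) (nat_lit 0) (nat_lit 76) (XT.lf (nat_lit 0) (nat_lit 125193807) (nat_lit 836) (nat_lit 885295395) (nat_lit 836) (nat_lit 6097682197) (nat_lit 341) (nat_lit 3) (nat_lit 352) (nat_lit 3) (nat_lit 352) (nat_lit 5) (nat_lit 353) (nat_lit 352) (nat_lit 315)) (XT.lf (nat_lit 0) (nat_lit 1872437677) (nat_lit 760) (nat_lit 4491205579) (nat_lit 836) (nat_lit 799634194) (nat_lit 342) (nat_lit 5) (nat_lit 352) (nat_lit 5) (nat_lit 353) (nat_lit 5) (nat_lit 354) (nat_lit 352) (nat_lit 314)))) (XT.nd (nat_lit 156) (nat_lit 760) (nat_lit 0) (XT.nd (nat_lit 78) (nat_lit 0) (nat_lit 0) (XT.lf (nat_lit 0) (nat_lit 3624632324) (nat_lit 760) (nat_lit 912821046) (nat_lit 836) (nat_lit 2684035736) (nat_lit 342) (nat_lit 5) (nat_lit 352) (nat_lit 5) (nat_lit 353) (nat_lit 5) (nat_lit 355) (nat_lit 352) (nat_lit 313))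 (XT.lf (nat_lit 76) (nat_lit 2791199787) (nat_lit 0) (nat_lit 2600460985) (nat_lit 836) (nat_lit 1890945903) (nat_lit 343) (nat_lit 5) (nat_lit 342) (nat_lit 5) (nat_lit 353) (nat_lit 5) (nat_lit 356) (nat_lit 352) (nat_lit 312))) (XT.nd (nat_lit 78) (nat_lit 760) (nat_lit 0) (XT.lf (nat_lit 76) (nat_lit 6589226308) (nat_lit 0) (nat_lit 568664787) (nat_lit 836) (nat_lit 189307740) (nat_lit 343) (nat_lit 5) (nat_lit 342) (nat_lit 5) (nat_lit 353) (nat_lit 5) (nat_lit 357) (nat_lit 352) (nat_lit 311)) (XT.lf (nat_lit 0) (nat_lit 1516160512) (nat_lit 836) (nat_lit 4332778650) (nat_lit 912) (nat_lit 1564865369) (nat_lit 332) (nat_lit 5) (nat_lit 343) (nat_lit 5) (nat_lit 344) (nat_lit 5) (nat_lit 358) (nat_lit 352) (nat_lit 310))))) (XT.nd (nat_lit 234) (nat_lit 836) (nat_lit 0) (XT.nd (nat_lit 78) (nat_lit 0) (nat_lit 0) (XT.lf (nat_lit 0) (nat_lit 3222220614) (nat_lit 836) (nat_lit 476785685) (nat_lit 912) (nat_lit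 3784773409) (nat_lit 332) (nat_lit 5) (nat_lit 343) (nat_lit 5) (nat_lit 344) (nat_lit 5) (nat_lit 359) (nat_lit 352) (nat_lit 309)) (XT.nd (nat_lit 78) (nat_lit 0) (nat_lit 76) (XT.lf (nat_lit 76) (nat_lit 3527053967) (nat_lit 0) (nat_lit 1427936572) (nat_lit 912) (nat_lit 2601621568) (nat_lit 333) (nat_lit 5) (nat_lit 332) (nat_lit 5) (nat_lit 344) (nat_lit 5) (nat_lit 360) (nat_lit 352) (nat_lit 308)) (XT.lf (nat_lit 0) (nat_lit 6696539868) (nat_lit 836) (nat_lit 17742217) (nat_lit 912) (nat_lit 918666620) (nat_lit 333) (nat_lit 5) (nat_lit 344) (nat_lit 5) (nat_lit 345) (nat_lit 5) (nat_lit 361) (nat_lit 352) (nat_lit 307)))) (XT.nd (nat_lit 156) (nat_lit 0) (nat_lit 76) (XT.nd (nat_lit 78) (nat_lit 0) (nat_lit 0) (XT.lf (nat_lit 0) (nat_lit 762332506) (nat_lit 912) (nat_lit 3575071091) (nat_lit 988) (nat_lit 3374005955) (nat_lit 321) (nat_lit 5) (nat_lit 333) (nat_lit 5) (nat_lit 334) (nat_lit 5) (nat_lit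 362) (nat_lit 352) (nat_lit 306)) (XT.lf (nat_lit 76) (nat_lit 587517750) (nat_lit 0) (nat_lit 1857053880) (nat_lit 988) (nat_lit 5348854912) (nat_lit 322) (nat_lit 5) (nat_lit 321) (nat_lit 5) (nat_lit 334) (nat_lit 5) (nat_lit 363) (nat_lit 352) (nat_lit 305))) (XT.nd (nat_lit 78) (nat_lit 0) (nat_lit 0) (XT.lf (nat_lit 0) (nat_lit 4167348933) (nat_lit 912) (nat_lit 2974873814) (nat_lit 988) (nat_lit 735999702) (nat_lit 322) (nat_lit 5) (nat_lit 334) (nat_lit 5) (nat_lit 335) (nat_lit 5) (nat_lit 364) (nat_lit 352) (nat_lit 304)) (XT.lf (nat_lit 76) (nat_lit 1352992442) (nat_lit 0) (nat_lit 4568661594) (nat_lit 988) (nat_lit 2044532802) (nat_lit 323) (nat_lit 5) (nat_lit 322) (nat_lit 5) (nat_lit 335) (nat_lit 5) (nat_lit 365) (nat_lit 352) (nat_lit 303))))))) (XT.nd (nat_lit 1092) (nat_lit 4484) (nat_lit 0) (XT.nd (nat_lit 546) (nat_lit 3192) (nat_lit 0) (XT.nd (nat_lit 234) (nat_lit 3268) (nat_lit 0) (XT.nd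 (nat_lit 78) (nat_lit 912) (nat_lit 0) (XT.lf (nat_lit 76) (nat_lit 5833935504) (nat_lit 0) (nat_lit 1874283805) (nat_lit 988) (nat_lit 349201277) (nat_lit 323) (nat_lit 5) (nat_lit 322) (nat_lit 5) (nat_lit 335) (nat_lit 5) (nat_lit 366) (nat_lit 352) (nat_lit 302)) (XT.nd (nat_lit 78) (nat_lit 0) (nat_lit 0) (XT.lf (nat_lit 0) (nat_lit 1351438345) (nat_lit 988) (nat_lit 5869394794) (nat_lit 76) (nat_lit 930722339) (nat_lit 310) (nat_lit 5) (nat_lit 323) (nat_lit 5) (nat_lit 311) (nat_lit 5) (nat_lit 367) (nat_lit 352) (nat_lit 301)) (XT.lf (nat_lit 0) (nat_lit 3089055219) (nat_lit 988) (nat_lit 1340373055) (nat_lit 76) (nat_lit 3819210835) (nat_lit 310) (nat_lit 5) (nat_lit 323) (nat_lit 5) (nat_lit 311) (nat_lit 5) (nat_lit 368) (nat_lit 352) (nat_lit 300)))) (XT.nd (nat_lit 156) (nat_lit 2280) (nat_lit 0) (XT.nd (nat_lit 78) (nat_lit 0) (nat_lit 0) (XT.lf (nat_lit 0) (nat_lit 3352214368) (nat_lit 988) (nat_lit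 1511959524) (nat_lit 1064) (nat_lit 3484917358) (nat_lit 297) (nat_lit 5) (nat_lit 310) (nat_lit 5) (nat_lit 311) (nat_lit 5) (nat_lit 369) (nat_lit 352) (nat_lit 299)) (XT.lf (nat_lit 0) (nat_lit 6674804200) (nat_lit 1064) (nat_lit 292403769) (nat_lit 76) (nat_lit 1485897942) (nat_lit 297) (nat_lit 5) (nat_lit 311) (nat_lit 5) (nat_lit 298) (nat_lit 5) (nat_lit 370) (nat_lit 352) (nat_lit 298))) (XT.nd (nat_lit 78) (nat_lit 1216) (nat_lit 0) (XT.lf (nat_lit 0) (nat_lit 4590111346) (nat_lit 1064) (nat_lit 3964304802) (nat_lit 1140) (nat_lit 5401194) (nat_lit 283) (nat_lit 5) (nat_lit 297) (nat_lit 5) (nat_lit 298) (nat_lit 5) (nat_lit 371) (nat_lit 352) (nat_lit 297)) (XT.lf (nat_lit 0) (nat_lit 917617443) (nat_lit 1140) (nat_lit 835402505) (nat_lit 1216) (nat_lit 6917164550) (nat_lit 267) (nat_lit 5) (nat_lit 282) (nat_lit 5) (nat_lit 283) (nat_lit 5) (nat_lit 372) (nat_lit 352) (nat_lit 296))))) (XT.nd (nat_lit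 234) (nat_lit 1976) (nat_lit 0) (XT.nd (nat_lit 78) (nat_lit 1216) (nat_lit 0) (XT.lf (nat_lit 0) (nat_lit 3584542235) (nat_lit 1216) (nat_lit 2812316591) (nat_lit 76) (nat_lit 2386403364) (nat_lit 267) (nat_lit 5) (nat_lit 283) (nat_lit 5) (nat_lit 268) (nat_lit 5) (nat_lit 373) (nat_lit 352) (nat_lit 295)) (XT.nd (nat_lit 78) (nat_lit 0) (nat_lit 0) (XT.lf (nat_lit 0) (nat_lit 2274196406) (nat_lit 1216) (nat_lit 3185222854) (nat_lit 1292) (nat_lit 3440675084) (nat_lit 251) (nat_lit 5) (nat_lit 267) (nat_lit 5) (nat_lit 268) (nat_lit 5) (nat_lit 374) (nat_lit 352) (nat_lit 294)) (XT.lf (nat_lit 0) (nat_lit 7379563248) (nat_lit 1292) (nat_lit 1489035362) (nat_lit 76) (nat_lit 152176218) (nat_lit 251) (nat_lit 5) (nat_lit 268) (nat_lit 5) (nat_lit 252) (nat_lit 5) (nat_lit 375) (nat_lit 352) (nat_lit 293)))) (XT.nd (nat_lit 156) (nat_lit 1216) (nat_lit 0) (XT.nd (nat_lit 78) (nat_lit 0) (nat_lit 0) (XT.lf (nat_lit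 0) (nat_lit 236843837) (nat_lit 760) (nat_lit 5339689665) (nat_lit 76) (nat_lit 3567631717) (nat_lit 241) (nat_lit 5) (nat_lit 251) (nat_lit 5) (nat_lit 242) (nat_lit 5) (nat_lit 376) (nat_lit 352) (nat_lit 292)) (XT.lf (nat_lit 0) (nat_lit 2114186718) (nat_lit 760) (nat_lit 38127141) (nat_lit 76) (nat_lit 7119190796) (nat_lit 241) (nat_lit 5) (nat_lit 251) (nat_lit 5) (nat_lit 242) (nat_lit 5) (nat_lit 377) (nat_lit 352) (nat_lit 291))) (XT.nd (nat_lit 78) (nat_lit 608) (nat_lit 0) (XT.lf (nat_lit 0) (nat_lit 4076284136) (nat_lit 684) (nat_lit 3923444891) (nat_lit 76) (nat_lit 1402094646) (nat_lit 233) (nat_lit 5) (nat_lit 242) (nat_lit 5) (nat_lit 234) (nat_lit 5) (nat_lit 378) (nat_lit 352) (nat_lit 290)) (XT.lf (nat_lit 0) (nat_lit 1597072905) (nat_lit 608) (nat_lit 4499875385) (nat_lit 684) (nat_lit 3439124920) (nat_lit 225) (nat_lit 5) (nat_lit 233) (nat_lit 5) (nat_lit 234) (nat_lit 5) (nat_lit 379) (nat_lit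 352) (nat_lit 289)))))) (XT.nd (nat_lit 546) (nat_lit 2280) (nat_lit 0) (XT.nd (nat_lit 234) (nat_lit 1596) (nat_lit 0) (XT.nd (nat_lit 78) (nat_lit 608) (nat_lit 0) (XT.lf (nat_lit 0) (nat_lit 7326105934) (nat_lit 608) (nat_lit 855125494) (nat_lit 684) (nat_lit 1493040545) (nat_lit 225) (nat_lit 5) (nat_lit 233) (nat_lit 5) (nat_lit 234) (nat_lit 5) (nat_lit 380) (nat_lit 352) (nat_lit 288)) (XT.nd (nat_lit 78) (nat_lit 0) (nat_lit 0) (XT.lf (nat_lit 0) (nat_lit 526783030) (nat_lit 608) (nat_lit 6409444073) (nat_lit 76) (nat_lit 2879493058) (nat_lit 217) (nat_lit 5) (nat_lit 225) (nat_lit 5) (nat_lit 218) (nat_lit 5) (nat_lit 381) (nat_lit 352) (nat_lit 287)) (XT.lf (nat_lit 0) (nat_lit 2574366616) (nat_lit 608) (nat_lit 640545726) (nat_lit 76) (nat_lit 6746151476) (nat_lit 217) (nat_lit 5) (nat_lit 225) (nat_lit 5) (nat_lit 218) (nat_lit 5) (nat_lit 382) (nat_lit 352) (nat_lit 286)))) (XT.nd (nat_lit 156) (nat_lit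 608) (nat_lit 0) (XT.nd (nat_lit 78) (nat_lit 456) (nat_lit 0) (XT.lf (nat_lit 0) (nat_lit 4707206940) (nat_lit 608) (nat_lit 4747232486) (nat_lit 76) (nat_lit 655623887) (nat_lit 210) (nat_lit 5) (nat_lit 218) (nat_lit 5) (nat_lit 211) (nat_lit 5) (nat_lit 383) (nat_lit 352) (nat_lit 285)) (XT.lf (nat_lit 0) (nat_lit 1251246660) (nat_lit 456) (nat_lit 5669583402) (nat_lit 532) (nat_lit 3342208906) (nat_lit 204) (nat_lit 5) (nat_lit 210) (nat_lit 5) (nat_lit 211) (nat_lit 5) (nat_lit 384) (nat_lit 352) (nat_lit 284))) (XT.nd (nat_lit 78) (nat_lit 608) (nat_lit 0) (XT.lf (nat_lit 0) (nat_lit 7489984917) (nat_lit 456) (nat_lit 1725844124) (nat_lit 532) (nat_lit 1204335646) (nat_lit 204) (nat_lit 5) (nat_lit 210) (nat_lit 5) (nat_lit 211) (nat_lit 5) (nat_lit 385) (nat_lit 352) (nat_lit 283)) (XT.lf (nat_lit 0) (nat_lit 1000931796) (nat_lit 608) (nat_lit 7251420196) (nat_lit 76) (nat_lit 2328691937) (nat_lit 196)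 (nat_lit 5) (nat_lit 204) (nat_lit 5) (nat_lit 197) (nat_lit 5) (nat_lit 386) (nat_lit 352) (nat_lit 282))))) (XT.nd (nat_lit 312) (nat_lit 1368) (nat_lit 0) (XT.nd (nat_lit 156) (nat_lit 456) (nat_lit 0) (XT.nd (nat_lit 78) (nat_lit 456) (nat_lit 0) (XT.lf (nat_lit 0) (nat_lit 3263334902) (nat_lit 608) (nat_lit 975022632) (nat_lit 76) (nat_lit 6507587759) (nat_lit 196) (nat_lit 5) (nat_lit 204) (nat_lit 5) (nat_lit 197) (nat_lit 5) (nat_lit 387) (nat_lit 352) (nat_lit 281)) (XT.lf (nat_lit 0) (nat_lit 5562142873) (nat_lit 456) (nat_lit 54073751) (nat_lit 532) (nat_lit 5298907595) (nat_lit 190) (nat_lit 5) (nat_lit 196) (nat_lit 5) (nat_lit 197) (nat_lit 5) (nat_lit 388) (nat_lit 352) (nat_lit 280))) (XT.nd (nat_lit 78) (nat_lit 0) (nat_lit 0) (XT.lf (nat_lit 0) (nat_lit 1171609753) (nat_lit 456) (nat_lit 6899832796) (nat_lit 532) (nat_lit 3016991691) (nat_lit 184) (nat_lit 5) (nat_lit 190) (nat_lit 5) (nat_lit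 191) (nat_lit 5) (nat_lit 389) (nat_lit 352) (nat_lit 279)) (XT.lf (nat_lit 0) (nat_lit 7964908439) (nat_lit 456) (nat_lit 2660181071) (nat_lit 532) (nat_lit 641119339) (nat_lit 184) (nat_lit 5) (nat_lit 190) (nat_lit 5) (nat_lit 191) (nat_lit 5) (nat_lit 390) (nat_lit 352) (nat_lit 278)))) (XT.nd (nat_lit 156) (nat_lit 836) (nat_lit 0) (XT.nd (nat_lit 78) (nat_lit 0) (nat_lit 0) (XT.lf (nat_lit 0) (nat_lit 1792308731) (nat_lit 532) (nat_lit 7937082982) (nat_lit 76) (nat_lit 1718766255) (nat_lit 177) (nat_lit 5) (nat_lit 184) (nat_lit 5) (nat_lit 178) (nat_lit 5) (nat_lit 391) (nat_lit 352) (nat_lit 277)) (XT.lf (nat_lit 0) (nat_lit 4317060019) (nat_lit 532) (nat_lit 1108291588) (nat_lit 76) (nat_lit 6209094853) (nat_lit 177) (nat_lit 5) (nat_lit 184) (nat_lit 5) (nat_lit 178) (nat_lit 5) (nat_lit 392) (nat_lit 352) (nat_lit 276))) (XT.nd (nat_lit 78) (nat_lit 380) (nat_lit 0) (XT.lf (nat_lit 0) (nat_lit 6007439866)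 (nat_lit 456) (nat_lit 939901054) (nat_lit 532) (nat_lit 4878096372) (nat_lit 171) (nat_lit 5) (nat_lit 177) (nat_lit 5) (nat_lit 178) (nat_lit 5) (nat_lit 393) (nat_lit 352) (nat_lit 275)) (XT.lf (nat_lit 0) (nat_lit 1291692380) (nat_lit 380) (nat_lit 8396381551) (nat_lit 456) (nat_lit 2333144694) (nat_lit 166) (nat_lit 5) (nat_lit 171) (nat_lit 5) (nat_lit 172) (nat_lit 5) (nat_lit 394) (nat_lit 352) (nat_lit 274))))))))
noncomputable def xc131 : XT := (XT.nd (nat_lit 2262) (nat_lit 3040) (nat_lit 0) (XT.nd (nat_lit 1092) (nat_lit 2508) (nat_lit 0) (XT.nd (nat_lit 546) (nat_lit 1368) (nat_lit 0) (XT.nd (nat_lit 234) (nat_lit 1140) (nat_lit 0) (XT.nd (nat_lit 78) (nat_lit 380) (nat_lit 0) (XT.lf (nat_lit 0) (nat_lit 323808830) (nat_lit 456) (nat_lit 3535601800) (nat_lit 76) (nat_lit 8362148063) (nat_lit 165) (nat_lit 5) (nat_lit 171) (nat_lit 5) (nat_lit 166) (nat_lit 5) (nat_lit 395) (nat_lit 352) (nat_lit 273))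 (XT.nd (nat_lit 78) (nat_lit 0) (nat_lit 0) (XT.lf (nat_lit 0) (nat_lit 3032769262) (nat_lit 456) (nat_lit 8542974728) (nat_lit 76) (nat_lit 850902678) (nat_lit 160) (nat_lit 5) (nat_lit 166) (nat_lit 5) (nat_lit 161) (nat_lit 5) (nat_lit 396) (nat_lit 352) (nat_lit 272)) (XT.lf (nat_lit 0) (nat_lit 5871065549) (nat_lit 456) (nat_lit 1112479083) (nat_lit 76) (nat_lit 5652906935) (nat_lit 160) (nat_lit 5) (nat_lit 166) (nat_lit 5) (nat_lit 161) (nat_lit 5) (nat_lit 397) (nat_lit 352) (nat_lit 271)))) (XT.nd (nat_lit 156) (nat_lit 380) (nat_lit 0) (XT.nd (nat_lit 78) (nat_lit 380) (nat_lit 0) (XT.lf (nat_lit 0) (nat_lit 6636355219) (nat_lit 380) (nat_lit 2196510266) (nat_lit 456) (nat_lit 4018540596) (nat_lit 155) (nat_lit 5) (nat_lit 160) (nat_lit 5) (nat_lit 161) (nat_lit 5) (nat_lit 398) (nat_lit 352) (nat_lit 270)) (XT.lf (nat_lit 0) (nat_lit 1537175401) (nat_lit 380) (nat_lit 10373642357) (nat_lit 456) (nat_lit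 1161178458) (nat_lit 150) (nat_lit 5) (nat_lit 155) (nat_lit 5) (nat_lit 156) (nat_lit 5) (nat_lit 399) (nat_lit 352) (nat_lit 269))) (XT.nd (nat_lit 78) (nat_lit 304) (nat_lit 0) (XT.lf (nat_lit 0) (nat_lit 1807310243) (nat_lit 456) (nat_lit 3722027002) (nat_lit 76) (nat_lit 7767553228) (nat_lit 149) (nat_lit 5) (nat_lit 155) (nat_lit 5) (nat_lit 150) (nat_lit 5) (nat_lit 400) (nat_lit 352) (nat_lit 268)) (XT.lf (nat_lit 0) (nat_lit 4365264110) (nat_lit 304) (nat_lit 493987535) (nat_lit 380) (nat_lit 8668408342) (nat_lit 145) (nat_lit 5) (nat_lit 149) (nat_lit 5) (nat_lit 150) (nat_lit 5) (nat_lit 401) (nat_lit 352) (nat_lit 267))))) (XT.nd (nat_lit 234) (nat_lit 608) (nat_lit 0) (XT.nd (nat_lit 78) (nat_lit 760) (nat_lit 0) (XT.lf (nat_lit 0) (nat_lit 8061885663) (nat_lit 380) (nat_lit 1072104377) (nat_lit 76) (nat_lit 4629593788) (nat_lit 145) (nat_lit 5) (nat_lit 150) (nat_lit 5) (nat_lit 146) (nat_lit 5) (nat_lit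 402) (nat_lit 352) (nat_lit 266)) (XT.nd (nat_lit 78) (nat_lit 380) (nat_lit 0) (XT.lf (nat_lit 0) (nat_lit 7366873073) (nat_lit 380) (nat_lit 4046199086) (nat_lit 456) (nat_lit 2591944142) (nat_lit 140) (nat_lit 5) (nat_lit 145) (nat_lit 5) (nat_lit 146) (nat_lit 5) (nat_lit 403) (nat_lit 352) (nat_lit 265)) (XT.lf (nat_lit 0) (nat_lit 616270704) (nat_lit 380) (nat_lit 12440866164) (nat_lit 76) (nat_lit 1195870684) (nat_lit 135) (nat_lit 5) (nat_lit 140) (nat_lit 5) (nat_lit 136) (nat_lit 5) (nat_lit 404) (nat_lit 352) (nat_lit 264)))) (XT.nd (nat_lit 156) (nat_lit 304) (nat_lit 0) (XT.nd (nat_lit 78) (nat_lit 304) (nat_lit 0) (XT.lf (nat_lit 0) (nat_lit 3953556407) (nat_lit 380) (nat_lit 3954101043) (nat_lit 76) (nat_lit 6597468294) (nat_lit 135) (nat_lit 5) (nat_lit 140) (nat_lit 5) (nat_lit 136) (nat_lit 5) (nat_lit 405) (nat_lit 352) (nat_lit 263)) (XT.lf (nat_lit 0) (nat_lit 4849573894) (nat_lit 304) (nat_lit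 2565831653) (nat_lit 380) (nat_lit 7348673137) (nat_lit 131) (nat_lit 5) (nat_lit 135) (nat_lit 5) (nat_lit 136) (nat_lit 5) (nat_lit 406) (nat_lit 352) (nat_lit 262))) (XT.nd (nat_lit 78) (nat_lit 304) (nat_lit 0) (XT.lf (nat_lit 0) (nat_lit 11027727276) (nat_lit 380) (nat_lit 1092378935) (nat_lit 76) (nat_lit 2909299903) (nat_lit 131) (nat_lit 5) (nat_lit 136) (nat_lit 5) (nat_lit 132) (nat_lit 5) (nat_lit 407) (nat_lit 352) (nat_lit 261)) (XT.lf (nat_lit 0) (nat_lit 8095354090) (nat_lit 304) (nat_lit 6734993222) (nat_lit 380) (nat_lit 469892483) (nat_lit 127) (nat_lit 5) (nat_lit 131) (nat_lit 5) (nat_lit 132) (nat_lit 5) (nat_lit 408) (nat_lit 352) (nat_lit 260)))))) (XT.nd (nat_lit 546) (nat_lit 1292) (nat_lit 0) (XT.nd (nat_lit 234) (nat_lit 608) (nat_lit 0) (XT.nd (nat_lit 78) (nat_lit 228) (nat_lit 0) (XT.lf (nat_lit 0) (nat_lit 1978554964) (nat_lit 304) (nat_lit 1136449908) (nat_lit 380) (nat_lit 12463014910)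 (nat_lit 122) (nat_lit 5) (nat_lit 126) (nat_lit 5) (nat_lit 127) (nat_lit 5) (nat_lit 409) (nat_lit 352) (nat_lit 259)) (XT.nd (nat_lit 78) (nat_lit 228) (nat_lit 0) (XT.lf (nat_lit 0) (nat_lit 6895015057) (nat_lit 380) (nat_lit 4358593117) (nat_lit 76) (nat_lit 4607479039) (nat_lit 122) (nat_lit 5) (nat_lit 127) (nat_lit 5) (nat_lit 123) (nat_lit 5) (nat_lit 410) (nat_lit 352) (nat_lit 258)) (XT.lf (nat_lit 0) (nat_lit 5219071432) (nat_lit 228) (nat_lit 5610413683) (nat_lit 304) (nat_lit 5321933572) (nat_lit 119) (nat_lit 5) (nat_lit 122) (nat_lit 5) (nat_lit 123) (nat_lit 5) (nat_lit 411) (nat_lit 352) (nat_lit 257)))) (XT.nd (nat_lit 156) (nat_lit 228) (nat_lit 0) (XT.nd (nat_lit 78) (nat_lit 380) (nat_lit 0) (XT.lf (nat_lit 0) (nat_lit 14908214774) (nat_lit 304) (nat_lit 1309328380) (nat_lit 76) (nat_lit 232133886) (nat_lit 119) (nat_lit 5) (nat_lit 123) (nat_lit 5) (nat_lit 120) (nat_lit 5) (nat_lit 412)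 (nat_lit 352) (nat_lit 256)) (XT.lf (nat_lit 0) (nat_lit 2427163516) (nat_lit 380) (nat_lit 8091084468) (nat_lit 76) (nat_lit 6234340920) (nat_lit 114) (nat_lit 5) (nat_lit 119) (nat_lit 5) (nat_lit 115) (nat_lit 5) (nat_lit 413) (nat_lit 352) (nat_lit 255))) (XT.nd (nat_lit 78) (nat_lit 0) (nat_lit 0) (XT.lf (nat_lit 0) (nat_lit 1885094884) (nat_lit 228) (nat_lit 4610753157) (nat_lit 304) (nat_lit 10567926152) (nat_lit 111) (nat_lit 5) (nat_lit 114) (nat_lit 5) (nat_lit 115) (nat_lit 5) (nat_lit 414) (nat_lit 352) (nat_lit 254)) (XT.lf (nat_lit 0) (nat_lit 10763956932) (nat_lit 304) (nat_lit 5100987347) (nat_lit 76) (nat_lit 1517033132) (nat_lit 111) (nat_lit 5) (nat_lit 115) (nat_lit 5) (nat_lit 112) (nat_lit 5) (nat_lit 415) (nat_lit 352) (nat_lit 253))))) (XT.nd (nat_lit 312) (nat_lit 532) (nat_lit 0) (XT.nd (nat_lit 156) (nat_lit 456) (nat_lit 0) (XT.nd (nat_lit 78) (nat_lit 76) (nat_lit 0) (XT.lf (nat_lit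 0) (nat_lit 5307254087) (nat_lit 228) (nat_lit 9930767376) (nat_lit 304) (nat_lit 2469371081) (nat_lit 108) (nat_lit 5) (nat_lit 111) (nat_lit 5) (nat_lit 112) (nat_lit 5) (nat_lit 416) (nat_lit 352) (nat_lit 252)) (XT.lf (nat_lit 0) (nat_lit 1801882635) (nat_lit 304) (nat_lit 1956342982) (nat_lit 76) (nat_lit 14282827095) (nat_lit 107) (nat_lit 5) (nat_lit 111) (nat_lit 5) (nat_lit 108) (nat_lit 5) (nat_lit 417) (nat_lit 352) (nat_lit 251))) (XT.nd (nat_lit 78) (nat_lit 228) (nat_lit 0) (XT.lf (nat_lit 0) (nat_lit 6245242730) (nat_lit 304) (nat_lit 9486441390) (nat_lit 76) (nat_lit 2649499986) (nat_lit 104) (nat_lit 5) (nat_lit 108) (nat_lit 5) (nat_lit 105) (nat_lit 5) (nat_lit 418) (nat_lit 352) (nat_lit 250)) (XT.lf (nat_lit 0) (nat_lit 1340221368) (nat_lit 228) (nat_lit 9533742257) (nat_lit 304) (nat_lit 7855996853) (nat_lit 101) (nat_lit 5) (nat_lit 104) (nat_lit 5) (nat_lit 105) (nat_lit 5) (nat_lit 419)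 (nat_lit 352) (nat_lit 249)))) (XT.nd (nat_lit 156) (nat_lit 228) (nat_lit 0) (XT.nd (nat_lit 78) (nat_lit 304) (nat_lit 0) (XT.lf (nat_lit 0) (nat_lit 12657368947) (nat_lit 228) (nat_lit 3062234823) (nat_lit 304) (nat_lit 3367257393) (nat_lit 101) (nat_lit 5) (nat_lit 104) (nat_lit 5) (nat_lit 105) (nat_lit 5) (nat_lit 420) (nat_lit 352) (nat_lit 248)) (XT.lf (nat_lit 0) (nat_lit 1296606926) (nat_lit 304) (nat_lit 14573224094) (nat_lit 76) (nat_lit 3582328960) (nat_lit 97) (nat_lit 5) (nat_lit 101) (nat_lit 5) (nat_lit 98) (nat_lit 5) (nat_lit 421) (nat_lit 352) (nat_lit 247))) (XT.nd (nat_lit 78) (nat_lit 228) (nat_lit 0) (XT.lf (nat_lit 0) (nat_lit 6111335536) (nat_lit 304) (nat_lit 3260779941) (nat_lit 76) (nat_lit 10452945822) (nat_lit 97) (nat_lit 5) (nat_lit 101) (nat_lit 5) (nat_lit 98) (nat_lit 5) (nat_lit 422) (nat_lit 352) (nat_lit 246)) (XT.lf (nat_lit 0) (nat_lit 8529890407) (nat_lit 228) (nat_lit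 2605852503) (nat_lit 304) (nat_lit 9071452084) (nat_lit 94) (nat_lit 5) (nat_lit 97) (nat_lit 5) (nat_lit 98) (nat_lit 5) (nat_lit 423) (nat_lit 352) (nat_lit 245))))))) (XT.nd (nat_lit 1092) (nat_lit 1444) (nat_lit 0) (XT.nd (nat_lit 546) (nat_lit 684) (nat_lit 0) (XT.nd (nat_lit 234) (nat_lit 456) (nat_lit 0) (XT.nd (nat_lit 78) (nat_lit 304) (nat_lit 0) (XT.lf (nat_lit 0) (nat_lit 72748648) (nat_lit 152) (nat_lit 16297394363) (nat_lit 228) (nat_lit 4228874248) (nat_lit 92) (nat_lit 5) (nat_lit 94) (nat_lit 5) (nat_lit 95) (nat_lit 5) (nat_lit 424) (nat_lit 352) (nat_lit 244)) (XT.nd (nat_lit 78) (nat_lit 228) (nat_lit 0) (XT.lf (nat_lit 0) (nat_lit 872476328) (nat_lit 228) (nat_lit 8646424190) (nat_lit 76) (nat_lit 11479627861) (nat_lit 91) (nat_lit 5) (nat_lit 94) (nat_lit 5) (nat_lit 92) (nat_lit 5) (nat_lit 425) (nat_lit 352) (nat_lit 243)) (XT.lf (nat_lit 0) (nat_lit 3591048450) (nat_lit 228) (nat_lit 2469245007)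 (nat_lit 304) (nat_lit 15347924780) (nat_lit 88) (nat_lit 5) (nat_lit 91) (nat_lit 5) (nat_lit 92) (nat_lit 5) (nat_lit 426) (nat_lit 352) (nat_lit 242)))) (XT.nd (nat_lit 156) (nat_lit 304) (nat_lit 0) (XT.nd (nat_lit 78) (nat_lit 152) (nat_lit 0) (XT.lf (nat_lit 0) (nat_lit 11521995148) (nat_lit 304) (nat_lit 5528699662) (nat_lit 76) (nat_lit 4775958589) (nat_lit 88) (nat_lit 5) (nat_lit 92) (nat_lit 5) (nat_lit 89) (nat_lit 5) (nat_lit 427) (nat_lit 352) (nat_lit 241)) (XT.lf (nat_lit 0) (nat_lit 7218543600) (nat_lit 152) (nat_lit 10007317982) (nat_lit 228) (nat_lit 5029432671) (nat_lit 86) (nat_lit 5) (nat_lit 88) (nat_lit 5) (nat_lit 89) (nat_lit 5) (nat_lit 428) (nat_lit 352) (nat_lit 240))) (XT.nd (nat_lit 78) (nat_lit 228) (nat_lit 0) (XT.lf (nat_lit 0) (nat_lit 437071890) (nat_lit 228) (nat_lit 2264364040) (nat_lit 76) (nat_lit 19994016612) (nat_lit 85) (nat_lit 5) (nat_lit 88) (nat_lit 5) (nat_lit 86)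 (nat_lit 5) (nat_lit 429) (nat_lit 352) (nat_lit 239)) (XT.lf (nat_lit 0) (nat_lit 6105307123) (nat_lit 304) (nat_lit 12161326009) (nat_lit 76) (nat_lit 4876525768) (nat_lit 82) (nat_lit 5) (nat_lit 86) (nat_lit 5) (nat_lit 83) (nat_lit 5) (nat_lit 430) (nat_lit 352) (nat_lit 238))))) (XT.nd (nat_lit 234) (nat_lit 304) (nat_lit 0) (XT.nd (nat_lit 78) (nat_lit 228) (nat_lit 0) (XT.lf (nat_lit 0) (nat_lit 1035788513) (nat_lit 152) (nat_lit 10952665319) (nat_lit 228) (nat_lit 11614498501) (nat_lit 80) (nat_lit 5) (nat_lit 82) (nat_lit 5) (nat_lit 83) (nat_lit 5) (nat_lit 431) (nat_lit 352) (nat_lit 237)) (XT.nd (nat_lit 78) (nat_lit 228) (nat_lit 0) (XT.lf (nat_lit 0) (nat_lit 14852690762) (nat_lit 152) (nat_lit 3303469122) (nat_lit 228) (nat_lit 5917139504) (nat_lit 80) (nat_lit 5) (nat_lit 82) (nat_lit 5) (nat_lit 83) (nat_lit 5) (nat_lit 432) (nat_lit 352) (nat_lit 236)) (XT.lf (nat_lit 0) (nat_lit 26085669) (nat_lit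 228) (nat_lit 20009754586) (nat_lit 76) (nat_lit 4519712595) (nat_lit 77) (nat_lit 5) (nat_lit 80) (nat_lit 5) (nat_lit 78) (nat_lit 5) (nat_lit 433) (nat_lit 352) (nat_lit 235)))) (XT.nd (nat_lit 156) (nat_lit 152) (nat_lit 0) (XT.nd (nat_lit 78) (nat_lit 152) (nat_lit 0) (XT.lf (nat_lit 0) (nat_lit 6141046720) (nat_lit 228) (nat_lit 6252539210) (nat_lit 76) (nat_lit 12653561003) (nat_lit 77) (nat_lit 5) (nat_lit 80) (nat_lit 5) (nat_lit 78) (nat_lit 5) (nat_lit 434) (nat_lit 352) (nat_lit 234)) (XT.lf (nat_lit 0) (nat_lit 8050155535) (nat_lit 152) (nat_lit 4452730885) (nat_lit 228) (nat_lit 13048701094) (nat_lit 75) (nat_lit 5) (nat_lit 77) (nat_lit 5) (nat_lit 78) (nat_lit 5) (nat_lit 435) (nat_lit 352) (nat_lit 233))) (XT.nd (nat_lit 78) (nat_lit 152) (nat_lit 0) (XT.lf (nat_lit 0) (nat_lit 19141287371) (nat_lit 228) (nat_lit 3220012132) (nat_lit 76) (nat_lit 3707292150) (nat_lit 75) (nat_lit 5) (nat_lit 78)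 (nat_lit 5) (nat_lit 76) (nat_lit 5) (nat_lit 436) (nat_lit 352) (nat_lit 232)) (XT.lf (nat_lit 0) (nat_lit 11649394311) (nat_lit 152) (nat_lit 14472040372) (nat_lit 228) (nat_lit 475394884) (nat_lit 73) (nat_lit 5) (nat_lit 75) (nat_lit 5) (nat_lit 76) (nat_lit 5) (nat_lit 437) (nat_lit 352) (nat_lit 231)))))) (XT.nd (nat_lit 546) (nat_lit 684) (nat_lit 0) (XT.nd (nat_lit 234) (nat_lit 380) (nat_lit 0) (XT.nd (nat_lit 78) (nat_lit 304) (nat_lit 0) (XT.lf (nat_lit 0) (nat_lit 6069069771) (nat_lit 228) (nat_lit 192409341) (nat_lit 76) (nat_lit 20877075635) (nat_lit 72) (nat_lit 5) (nat_lit 75) (nat_lit 5) (nat_lit 73) (nat_lit 5) (nat_lit 438) (nat_lit 352) (nat_lit 230)) (XT.nd (nat_lit 78) (nat_lit 152) (nat_lit 0) (XT.lf (nat_lit 0) (nat_lit 12956611810) (nat_lit 228) (nat_lit 12439280201) (nat_lit 76) (nat_lit 2295810867) (nat_lit 70) (nat_lit 5) (nat_lit 73) (nat_lit 5) (nat_lit 71) (nat_lit 5) (nat_lit 439)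 (nat_lit 352) (nat_lit 229)) (XT.lf (nat_lit 0) (nat_lit 2874123737) (nat_lit 152) (nat_lit 17255258614) (nat_lit 228) (nat_lit 8129706350) (nat_lit 68) (nat_lit 5) (nat_lit 70) (nat_lit 5) (nat_lit 71) (nat_lit 5) (nat_lit 440) (nat_lit 352) (nat_lit 228)))) (XT.nd (nat_lit 156) (nat_lit 152) (nat_lit 0) (XT.nd (nat_lit 78) (nat_lit 228) (nat_lit 0) (XT.lf (nat_lit 0) (nat_lit 18879045962) (nat_lit 152) (nat_lit 8751077981) (nat_lit 228) (nat_lit 1209989792) (nat_lit 68) (nat_lit 5) (nat_lit 70) (nat_lit 5) (nat_lit 71) (nat_lit 5) (nat_lit 441) (nat_lit 352) (nat_lit 227)) (XT.lf (nat_lit 0) (nat_lit 5847705136) (nat_lit 228) (nat_lit 23474082484) (nat_lit 76) (nat_lit 113701025) (nat_lit 65) (nat_lit 5) (nat_lit 68) (nat_lit 5) (nat_lit 66) (nat_lit 5) (nat_lit 442) (nat_lit 352) (nat_lit 226))) (XT.nd (nat_lit 78) (nat_lit 152) (nat_lit 0) (XT.lf (nat_lit 0) (nat_lit 13268521536) (nat_lit 228) (nat_lit 7602102386)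 (nat_lit 76) (nat_lit 9172471338) (nat_lit 65) (nat_lit 5) (nat_lit 68) (nat_lit 5) (nat_lit 66) (nat_lit 5) (nat_lit 443) (nat_lit 352) (nat_lit 225)) (XT.lf (nat_lit 0) (nat_lit 8897799904) (nat_lit 152) (nat_lit 12087540918) (nat_lit 228) (nat_lit 9681389034) (nat_lit 63) (nat_lit 5) (nat_lit 65) (nat_lit 5) (nat_lit 66) (nat_lit 5) (nat_lit 444) (nat_lit 352) (nat_lit 224))))) (XT.nd (nat_lit 312) (nat_lit 304) (nat_lit 0) (XT.nd (nat_lit 156) (nat_lit 152) (nat_lit 0) (XT.nd (nat_lit 78) (nat_lit 228) (nat_lit 0) (XT.lf (nat_lit 0) (nat_lit 26026883941) (nat_lit 152) (nat_lit 2971540210) (nat_lit 228) (nat_lit 2308707654) (nat_lit 63) (nat_lit 5) (nat_lit 65) (nat_lit 5) (nat_lit 66) (nat_lit 5) (nat_lit 445) (nat_lit 352) (nat_lit 223)) (XT.lf (nat_lit 0) (nat_lit 5347511955) (nat_lit 228) (nat_lit 20162873849) (nat_lit 76) (nat_lit 6449872218) (nat_lit 60) (nat_lit 5) (nat_lit 63) (nat_lit 5) (nat_lit 61)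 (nat_lit 5) (nat_lit 446) (nat_lit 352) (nat_lit 222))) (XT.nd (nat_lit 78) (nat_lit 152) (nat_lit 0) (XT.lf (nat_lit 0) (nat_lit 13258561169) (nat_lit 228) (nat_lit 3209907772) (nat_lit 76) (nat_lit 16161677964) (nat_lit 60) (nat_lit 5) (nat_lit 63) (nat_lit 5) (nat_lit 61) (nat_lit 5) (nat_lit 447) (nat_lit 352) (nat_lit 221)) (XT.lf (nat_lit 0) (nat_lit 14514185077) (nat_lit 152) (nat_lit 7020893962) (nat_lit 228) (nat_lit 11781210278) (nat_lit 58) (nat_lit 5) (nat_lit 60) (nat_lit 5) (nat_lit 61) (nat_lit 5) (nat_lit 448) (nat_lit 352) (nat_lit 220)))) (XT.nd (nat_lit 156) (nat_lit 152) (nat_lit 0) (XT.nd (nat_lit 78) (nat_lit 152) (nat_lit 0) (XT.lf (nat_lit 0) (nat_lit 30107342156) (nat_lit 228) (nat_lit 1233348081) (nat_lit 76) (nat_lit 2680903222) (nat_lit 58) (nat_lit 5) (nat_lit 61) (nat_lit 5) (nat_lit 59) (nat_lit 4) (nat_lit 449) (nat_lit 352) (nat_lit 219)) (XT.lf (nat_lit 0) (nat_lit 4332133247)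 (nat_lit 152) (nat_lit 17677201152) (nat_lit 76) (nat_lit 12730760675) (nat_lit 56) (nat_lit 5) (nat_lit 58) (nat_lit 5) (nat_lit 57) (nat_lit 5) (nat_lit 450) (nat_lit 352) (nat_lit 218))) (XT.nd (nat_lit 78) (nat_lit 0) (nat_lit 0) (XT.lf (nat_lit 0) (nat_lit 402349209) (nat_lit 152) (nat_lit 12350347250) (nat_lit 228) (nat_lit 22726129706) (nat_lit 54) (nat_lit 5) (nat_lit 56) (nat_lit 5) (nat_lit 57) (nat_lit 5) (nat_lit 451) (nat_lit 352) (nat_lit 217)) (XT.lf (nat_lit 0) (nat_lit 19366697628) (nat_lit 152) (nat_lit 2226826538) (nat_lit 228) (nat_lit 14641166438) (nat_lit 54) (nat_lit 5) (nat_lit 56) (nat_lit 5) (nat_lit 57) (nat_lit 5) (nat_lit 452) (nat_lit 352) (nat_lit 216))))))))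
noncomputable def xc132 : XT := (XT.nd (nat_lit 2184) (nat_lit 380) (nat_lit 0) (XT.nd (nat_lit 1092) (nat_lit 760) (nat_lit 0) (XT.nd (nat_lit 546) (nat_lit 380) (nat_lit 0) (XT.nd (nat_lit 234) (nat_lit 304) (nat_lit 0) (XT.nd (nat_lit 78) (nat_lit 228) (nat_lit 0) (XT.lf (nat_lit 0) (nat_lit 1823904476) (nat_lit 76) (nat_lit 28961405846) (nat_lit 152) (nat_lit 6225349466) (nat_lit 53) (nat_lit 5) (nat_lit 54) (nat_lit 5) (nat_lit 55) (nat_lit 4) (nat_lit 453) (nat_lit 352) (nat_lit 215)) (XT.nd (nat_lit 78) (nat_lit 152) (nat_lit 0) (XT.lf (nat_lit 0) (nat_lit 2578731325) (nat_lit 152) (nat_lit 16449303599) (nat_lit 76) (nat_lit 18775665606) (nat_lit 52) (nat_lit 5) (nat_lit 54) (nat_lit 5) (nat_lit 53) (nat_lit 5) (nat_lit 454) (nat_lit 352) (nat_lit 214)) (XT.lf (nat_lit 0) (nat_lit 2824701812) (nat_lit 152) (nat_lit 8713963094) (nat_lit 228) (nat_lit 27079513611) (nat_lit 50) (nat_lit 5) (nat_lit 52) (nat_lit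 5) (nat_lit 53) (nat_lit 5) (nat_lit 455) (nat_lit 352) (nat_lit 213)))) (XT.nd (nat_lit 156) (nat_lit 228) (nat_lit 0) (XT.nd (nat_lit 78) (nat_lit 76) (nat_lit 0) (XT.lf (nat_lit 0) (nat_lit 20943238493) (nat_lit 228) (nat_lit 16477074573) (nat_lit 76) (nat_lit 2031503247) (nat_lit 50) (nat_lit 5) (nat_lit 53) (nat_lit 5) (nat_lit 51) (nat_lit 4) (nat_lit 456) (nat_lit 352) (nat_lit 212)) (XT.lf (nat_lit 0) (nat_lit 3379965347) (nat_lit 76) (nat_lit 27358786138) (nat_lit 152) (nat_lit 9568448399) (nat_lit 49) (nat_lit 5) (nat_lit 50) (nat_lit 5) (nat_lit 51) (nat_lit 4) (nat_lit 457) (nat_lit 352) (nat_lit 211))) (XT.nd (nat_lit 78) (nat_lit 228) (nat_lit 0) (XT.lf (nat_lit 0) (nat_lit 24152129324) (nat_lit 76) (nat_lit 16832535571) (nat_lit 152) (nat_lit 198884701) (nat_lit 49) (nat_lit 5) (nat_lit 50) (nat_lit 5) (nat_lit 51) (nat_lit 4) (nat_lit 458) (nat_lit 352) (nat_lit 210)) (XT.lf (nat_lit 0) (nat_lit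 3419122241) (nat_lit 152) (nat_lit 5871412824) (nat_lit 228) (nat_lit 32792233481) (nat_lit 46) (nat_lit 5) (nat_lit 48) (nat_lit 5) (nat_lit 49) (nat_lit 5) (nat_lit 459) (nat_lit 352) (nat_lit 209))))) (XT.nd (nat_lit 234) (nat_lit 304) (nat_lit 0) (XT.nd (nat_lit 78) (nat_lit 76) (nat_lit 0) (XT.lf (nat_lit 0) (nat_lit 19276783920) (nat_lit 228) (nat_lit 18245294763) (nat_lit 76) (nat_lit 5480342619) (nat_lit 46) (nat_lit 5) (nat_lit 49) (nat_lit 5) (nat_lit 47) (nat_lit 4) (nat_lit 460) (nat_lit 352) (nat_lit 208)) (XT.nd (nat_lit 78) (nat_lit 0) (nat_lit 0) (XT.lf (nat_lit 0) (nat_lit 2763893140) (nat_lit 76) (nat_lit 26874079357) (nat_lit 152) (nat_lit 14309431186) (nat_lit 45) (nat_lit 5) (nat_lit 46) (nat_lit 5) (nat_lit 47) (nat_lit 4) (nat_lit 461) (nat_lit 352) (nat_lit 207)) (XT.lf (nat_lit 0) (nat_lit 24760024155) (nat_lit 76) (nat_lit 15724971085) (nat_lit 152) (nat_lit 4430490930) (nat_lit 45) (nat_lit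 5) (nat_lit 46) (nat_lit 5) (nat_lit 47) (nat_lit 4) (nat_lit 462) (nat_lit 352) (nat_lit 206)))) (XT.nd (nat_lit 156) (nat_lit 76) (nat_lit 0) (XT.nd (nat_lit 78) (nat_lit 0) (nat_lit 0) (XT.lf (nat_lit 0) (nat_lit 1459669704) (nat_lit 152) (nat_lit 4178013596) (nat_lit 228) (nat_lit 40273122675) (nat_lit 42) (nat_lit 5) (nat_lit 44) (nat_lit 5) (nat_lit 45) (nat_lit 5) (nat_lit 463) (nat_lit 352) (nat_lit 205)) (XT.lf (nat_lit 0) (nat_lit 16189527517) (nat_lit 228) (nat_lit 22930548614) (nat_lit 76) (nat_lit 7806473598) (nat_lit 42) (nat_lit 5) (nat_lit 45) (nat_lit 5) (nat_lit 43) (nat_lit 4) (nat_lit 464) (nat_lit 352) (nat_lit 204))) (XT.nd (nat_lit 78) (nat_lit 76) (nat_lit 0) (XT.lf (nat_lit 0) (nat_lit 27090519503) (nat_lit 228) (nat_lit 822258979) (nat_lit 76) (nat_lit 20059010067) (nat_lit 42) (nat_lit 5) (nat_lit 45) (nat_lit 5) (nat_lit 43) (nat_lit 4) (nat_lit 465) (nat_lit 352) (nat_lit 203)) (XT.lf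 (nat_lit 0) (nat_lit 22369726107) (nat_lit 76) (nat_lit 16155328159) (nat_lit 152) (nat_lit 10517135388) (nat_lit 41) (nat_lit 5) (nat_lit 42) (nat_lit 5) (nat_lit 43) (nat_lit 4) (nat_lit 466) (nat_lit 352) (nat_lit 202)))))) (XT.nd (nat_lit 546) (nat_lit 304) (nat_lit 0) (XT.nd (nat_lit 234) (nat_lit 228) (nat_lit 0) (XT.nd (nat_lit 78) (nat_lit 152) (nat_lit 0) (XT.lf (nat_lit 0) (nat_lit 154718879) (nat_lit 152) (nat_lit 3887807137) (nat_lit 76) (nat_lit 46102135368) (nat_lit 40) (nat_lit 5) (nat_lit 42) (nat_lit 5) (nat_lit 41) (nat_lit 5) (nat_lit 467) (nat_lit 352) (nat_lit 201)) (XT.nd (nat_lit 78) (nat_lit 0) (nat_lit 0) (XT.lf (nat_lit 0) (nat_lit 11201794871) (nat_lit 228) (nat_lit 31507573875) (nat_lit 76) (nat_lit 8559721583) (nat_lit 38) (nat_lit 5) (nat_lit 41) (nat_lit 5) (nat_lit 39) (nat_lit 4) (nat_lit 468) (nat_lit 352) (nat_lit 200)) (XT.lf (nat_lit 0) (nat_lit 22651718578) (nat_lit 228) (nat_lit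 8282105538) (nat_lit 76) (nat_lit 21491285416) (nat_lit 38) (nat_lit 5) (nat_lit 41) (nat_lit 5) (nat_lit 39) (nat_lit 4) (nat_lit 469) (nat_lit 352) (nat_lit 199)))) (XT.nd (nat_lit 156) (nat_lit 152) (nat_lit 0) (XT.nd (nat_lit 78) (nat_lit 0) (nat_lit 0) (XT.lf (nat_lit 0) (nat_lit 15935915862) (nat_lit 76) (nat_lit 18654412324) (nat_lit 152) (nat_lit 19021125920) (nat_lit 37) (nat_lit 5) (nat_lit 38) (nat_lit 5) (nat_lit 39) (nat_lit 4) (nat_lit 470) (nat_lit 352) (nat_lit 198)) (XT.lf (nat_lit 0) (nat_lit 41035223650) (nat_lit 76) (nat_lit 5927596347) (nat_lit 152) (nat_lit 7868297730) (nat_lit 37) (nat_lit 5) (nat_lit 38) (nat_lit 5) (nat_lit 39) (nat_lit 4) (nat_lit 471) (nat_lit 352) (nat_lit 197))) (XT.nd (nat_lit 78) (nat_lit 0) (nat_lit 0) (XT.lf (nat_lit 0) (nat_lit 3716485409) (nat_lit 152) (nat_lit 45189185821) (nat_lit 76) (nat_lit 7175616993) (nat_lit 35) (nat_lit 5) (nat_lit 37) (nat_lit 5) (nat_lit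 36) (nat_lit 4) (nat_lit 472) (nat_lit 352) (nat_lit 196)) (XT.lf (nat_lit 0) (nat_lit 15682310621) (nat_lit 152) (nat_lit 20913981314) (nat_lit 76) (nat_lit 20764585863) (nat_lit 35) (nat_lit 5) (nat_lit 37) (nat_lit 5) (nat_lit 36) (nat_lit 4) (nat_lit 473) (nat_lit 352) (nat_lit 195))))) (XT.nd (nat_lit 234) (nat_lit 228) (nat_lit 0) (XT.nd (nat_lit 78) (nat_lit 0) (nat_lit 0) (XT.lf (nat_lit 0) (nat_lit 4156247172) (nat_lit 76) (nat_lit 23883304836) (nat_lit 152) (nat_lit 30638330192) (nat_lit 34) (nat_lit 5) (nat_lit 35) (nat_lit 5) (nat_lit 36) (nat_lit 4) (nat_lit 474) (nat_lit 352) (nat_lit 194)) (XT.nd (nat_lit 78) (nat_lit 0) (nat_lit 0) (XT.lf (nat_lit 0) (nat_lit 30393103664) (nat_lit 76) (nat_lit 10578168519) (nat_lit 152) (nat_lit 19057012071) (nat_lit 34) (nat_lit 5) (nat_lit 35) (nat_lit 5) (nat_lit 36) (nat_lit 4) (nat_lit 475) (nat_lit 352) (nat_lit 193)) (XT.lf (nat_lit 0) (nat_lit 54313718726)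 (nat_lit 152) (nat_lit 4046117814) (nat_lit 0) (nat_lit 3058678947) (nat_lit 34) (nat_lit 5) (nat_lit 36) (nat_lit 4) (nat_lit 34) (nat_lit 4) (nat_lit 476) (nat_lit 352) (nat_lit 192)))) (XT.nd (nat_lit 156) (nat_lit 76) (nat_lit 0) (XT.nd (nat_lit 78) (nat_lit 0) (nat_lit 0) (XT.lf (nat_lit 0) (nat_lit 5422761266) (nat_lit 152) (nat_lit 40260136415) (nat_lit 76) (nat_lit 17156504105) (nat_lit 32) (nat_lit 5) (nat_lit 34) (nat_lit 5) (nat_lit 33) (nat_lit 4) (nat_lit 477) (nat_lit 352) (nat_lit 191)) (XT.lf (nat_lit 0) (nat_lit 18217552969) (nat_lit 152) (nat_lit 14299623831) (nat_lit 76) (nat_lit 31782601678) (nat_lit 32) (nat_lit 5) (nat_lit 34) (nat_lit 5) (nat_lit 33) (nat_lit 4) (nat_lit 478) (nat_lit 352) (nat_lit 190))) (XT.nd (nat_lit 78) (nat_lit 0) (nat_lit 0) (XT.lf (nat_lit 0) (nat_lit 12673874015) (nat_lit 76) (nat_lit 18837292878) (nat_lit 152) (nat_lit 34289350541) (nat_lit 31) (nat_lit 5) (nat_lit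 32) (nat_lit 5) (nat_lit 33) (nat_lit 4) (nat_lit 479) (nat_lit 352) (nat_lit 189)) (XT.lf (nat_lit 0) (nat_lit 40736690873) (nat_lit 76) (nat_lit 4604520395) (nat_lit 152) (nat_lit 22000938938) (nat_lit 31) (nat_lit 5) (nat_lit 32) (nat_lit 5) (nat_lit 33) (nat_lit 4) (nat_lit 480) (nat_lit 352) (nat_lit 188))))))) (XT.nd (nat_lit 43602) (nat_lit 0) (nat_lit 18316) (XT.nd (nat_lit 546) (nat_lit 76) (nat_lit 0) (XT.nd (nat_lit 234) (nat_lit 152) (nat_lit 0) (XT.nd (nat_lit 78) (nat_lit 76) (nat_lit 0) (XT.lf (nat_lit 0) (nat_lit 613908176) (nat_lit 76) (nat_lit 59068170147) (nat_lit 76) (nat_lit 9245076297) (nat_lit 30) (nat_lit 4) (nat_lit 31) (nat_lit 5) (nat_lit 31) (nat_lit 4) (nat_lit 481) (nat_lit 352) (nat_lit 187)) (XT.nd (nat_lit 78) (nat_lit 0) (nat_lit 0) (XT.lf (nat_lit 0) (nat_lit 4127768507) (nat_lit 152) (nat_lit 41454864002) (nat_lit 76) (nat_lit 24966645698) (nat_lit 29) (nat_lit 5) (nat_lit 31)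 (nat_lit 5) (nat_lit 30) (nat_lit 4) (nat_lit 482) (nat_lit 352) (nat_lit 186)) (XT.lf (nat_lit 0) (nat_lit 17709544345) (nat_lit 152) (nat_lit 13894674803) (nat_lit 76) (nat_lit 40613293690) (nat_lit 29) (nat_lit 5) (nat_lit 31) (nat_lit 5) (nat_lit 30) (nat_lit 4) (nat_lit 483) (nat_lit 352) (nat_lit 185)))) (XT.nd (nat_lit 156) (nat_lit 76) (nat_lit 0) (XT.nd (nat_lit 78) (nat_lit 0) (nat_lit 0) (XT.lf (nat_lit 0) (nat_lit 14768458010) (nat_lit 76) (nat_lit 17066028966) (nat_lit 152) (nat_lit 42097236390) (nat_lit 28) (nat_lit 5) (nat_lit 29) (nat_lit 5) (nat_lit 30) (nat_lit 4) (nat_lit 484) (nat_lit 352) (nat_lit 184)) (XT.lf (nat_lit 0) (nat_lit 44564382263) (nat_lit 76) (nat_lit 1952922021) (nat_lit 152) (nat_lit 29176032394) (nat_lit 28) (nat_lit 5) (nat_lit 29) (nat_lit 5) (nat_lit 30) (nat_lit 4) (nat_lit 485) (nat_lit 352) (nat_lit 183))) (XT.nd (nat_lit 78) (nat_lit 76) (nat_lit 0) (XT.lf (nat_lit 0)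 (nat_lit 61765412019) (nat_lit 152) (nat_lit 2396185162) (nat_lit 0) (nat_lit 13342457282) (nat_lit 28) (nat_lit 5) (nat_lit 30) (nat_lit 4) (nat_lit 28) (nat_lit 4) (nat_lit 486) (nat_lit 352) (nat_lit 182)) (XT.lf (nat_lit 0) (nat_lit 27708557119) (nat_lit 76) (nat_lit 50042213587) (nat_lit 76) (nat_lit 1609929088) (nat_lit 27) (nat_lit 4) (nat_lit 28) (nat_lit 5) (nat_lit 28) (nat_lit 4) (nat_lit 487) (nat_lit 352) (nat_lit 181))))) (XT.nd (nat_lit 42744) (nat_lit 0) (nat_lit 23180) (XT.nd (nat_lit 42588) (nat_lit 0) (nat_lit 23940) (XT.lf (nat_lit 0) (nat_lit 12708649863) (nat_lit 152) (nat_lit 22642783297) (nat_lit 76) (nat_lit 45917322321) (nat_lit 26) (nat_lit 5) (nat_lit 28) (nat_lit 5) (nat_lit 27) (nat_lit 4) (nat_lit 488) (nat_lit 352) (nat_lit 180)) (XT.nd (nat_lit 78) (nat_lit 0) (nat_lit 0) (XT.lf (nat_lit 0) (nat_lit 910833521) (nat_lit 836) (nat_lit 1334996943) (nat_lit 836) (nat_lit 1334996943)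 (nat_lit 341) (nat_lit 3) (nat_lit 352) (nat_lit 3) (nat_lit 352) (nat_lit 5) (nat_lit 353) (nat_lit 353) (nat_lit 314)) (XT.lf (nat_lit 76) (nat_lit 842723205) (nat_lit 0) (nat_lit 2667941716) (nat_lit 836) (nat_lit 3707857331) (nat_lit 342) (nat_lit 5) (nat_lit 341) (nat_lit 3) (nat_lit 352) (nat_lit 5) (nat_lit 354) (nat_lit 353) (nat_lit 313)))) (XT.nd (nat_lit 156) (nat_lit 760) (nat_lit 0) (XT.nd (nat_lit 78) (nat_lit 0) (nat_lit 76) (XT.lf (nat_lit 76) (nat_lit 4481643386) (nat_lit 0) (nat_lit 730790788) (nat_lit 836) (nat_lit 2065826093) (nat_lit 342) (nat_lit 5) (nat_lit 341) (nat_lit 3) (nat_lit 352) (nat_lit 5) (nat_lit 355) (nat_lit 353) (nat_lit 312)) (XT.lf (nat_lit 76) (nat_lit 859428630) (nat_lit 0) (nat_lit 6063561841) (nat_lit 836) (nat_lit 418094727) (nat_lit 343) (nat_lit 5) (nat_lit 342) (nat_lit 5) (nat_lit 353) (nat_lit 5) (nat_lit 356) (nat_lit 353) (nat_lit 311))) (XT.nd (nat_lit 78) (nat_lit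 0) (nat_lit 0) (XT.lf (nat_lit 0) (nat_lit 1228042539) (nat_lit 836) (nat_lit 2778313623) (nat_lit 912) (nat_lit 3399877124) (nat_lit 331) (nat_lit 5) (nat_lit 342) (nat_lit 5) (nat_lit 343) (nat_lit 5) (nat_lit 357) (nat_lit 353) (nat_lit 310)) (XT.lf (nat_lit 76) (nat_lit 1016842991) (nat_lit 0) (nat_lit 1848070498) (nat_lit 912) (nat_lit 4609830075) (nat_lit 332) (nat_lit 5) (nat_lit 331) (nat_lit 5) (nat_lit 343) (nat_lit 5) (nat_lit 358) (nat_lit 353) (nat_lit 309)))))) (XT.nd (nat_lit 546) (nat_lit 4028) (nat_lit 0) (XT.nd (nat_lit 234) (nat_lit 0) (nat_lit 76) (XT.nd (nat_lit 78) (nat_lit 912) (nat_lit 0) (XT.lf (nat_lit 0) (nat_lit 4524452070) (nat_lit 836) (nat_lit 2602201262) (nat_lit 912) (nat_lit 419472784) (nat_lit 332) (nat_lit 5) (nat_lit 343) (nat_lit 5) (nat_lit 344) (nat_lit 5) (nat_lit 359) (nat_lit 353) (nat_lit 308)) (XT.nd (nat_lit 78) (nat_lit 912) (nat_lit 0) (XT.lf (nat_lit 76) (nat_lit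 1341457059) (nat_lit 0) (nat_lit 4866836478) (nat_lit 912) (nat_lit 1412144219) (nat_lit 333) (nat_lit 5) (nat_lit 332) (nat_lit 5) (nat_lit 344) (nat_lit 5) (nat_lit 360) (nat_lit 353) (nat_lit 307)) (XT.lf (nat_lit 0) (nat_lit 211480792) (nat_lit 912) (nat_lit 2278421396) (nat_lit 988) (nat_lit 5207909403) (nat_lit 320) (nat_lit 5) (nat_lit 332) (nat_lit 5) (nat_lit 333) (nat_lit 5) (nat_lit 361) (nat_lit 353) (nat_lit 306)))) (XT.nd (nat_lit 156) (nat_lit 0) (nat_lit 0) (XT.nd (nat_lit 78) (nat_lit 0) (nat_lit 0) (XT.lf (nat_lit 0) (nat_lit 1818798462) (nat_lit 912) (nat_lit 5949767735) (nat_lit 988) (nat_lit 9641149) (nat_lit 321) (nat_lit 5) (nat_lit 333) (nat_lit 5) (nat_lit 334) (nat_lit 5) (nat_lit 362) (nat_lit 353) (nat_lit 305)) (XT.lf (nat_lit 0) (nat_lit 3469338026) (nat_lit 912) (nat_lit 1816750562) (nat_lit 988) (nat_lit 2575096852) (nat_lit 321) (nat_lit 5) (nat_lit 333) (nat_lit 5) (nat_lit 334)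 (nat_lit 5) (nat_lit 363) (nat_lit 353) (nat_lit 304))) (XT.nd (nat_lit 78) (nat_lit 0) (nat_lit 76) (XT.lf (nat_lit 76) (nat_lit 2452426016) (nat_lit 0) (nat_lit 2689196814) (nat_lit 988) (nat_lit 2805883115) (nat_lit 322) (nat_lit 5) (nat_lit 321) (nat_lit 5) (nat_lit 334) (nat_lit 5) (nat_lit 364) (nat_lit 353) (nat_lit 303)) (XT.lf (nat_lit 0) (nat_lit 6832418448) (nat_lit 912) (nat_lit 1185994146) (nat_lit 988) (nat_lit 18972560) (nat_lit 322) (nat_lit 5) (nat_lit 334) (nat_lit 5) (nat_lit 335) (nat_lit 5) (nat_lit 365) (nat_lit 353) (nat_lit 302))))) (XT.nd (nat_lit 312) (nat_lit 2280) (nat_lit 0) (XT.nd (nat_lit 156) (nat_lit 912) (nat_lit 0) (XT.nd (nat_lit 78) (nat_lit 0) (nat_lit 0) (XT.lf (nat_lit 0) (nat_lit 444696801) (nat_lit 988) (nat_lit 4880764924) (nat_lit 1064) (nat_lit 2804107732) (nat_lit 309) (nat_lit 5) (nat_lit 322) (nat_lit 5) (nat_lit 323) (nat_lit 5) (nat_lit 366) (nat_lit 353) (nat_lit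 301)) (XT.lf (nat_lit 0) (nat_lit 2083722355) (nat_lit 988) (nat_lit 431797822) (nat_lit 1064) (nat_lit 5709736194) (nat_lit 309) (nat_lit 5) (nat_lit 322) (nat_lit 5) (nat_lit 323) (nat_lit 5) (nat_lit 367) (nat_lit 353) (nat_lit 300))) (XT.nd (nat_lit 78) (nat_lit 988) (nat_lit 0) (XT.lf (nat_lit 0) (nat_lit 3769804347) (nat_lit 988) (nat_lit 4131111107) (nat_lit 76) (nat_lit 422979067) (nat_lit 310) (nat_lit 5) (nat_lit 323) (nat_lit 5) (nat_lit 311) (nat_lit 5) (nat_lit 368) (nat_lit 353) (nat_lit 299)) (XT.lf (nat_lit 0) (nat_lit 487536659) (nat_lit 988) (nat_lit 5007442591) (nat_lit 1064) (nat_lit 2930873950) (nat_lit 297) (nat_lit 5) (nat_lit 310) (nat_lit 5) (nat_lit 311) (nat_lit 5) (nat_lit 369) (nat_lit 353) (nat_lit 298)))) (XT.nd (nat_lit 156) (nat_lit 1140) (nat_lit 0) (XT.nd (nat_lit 78) (nat_lit 1140) (nat_lit 0) (XT.lf (nat_lit 0) (nat_lit 5293166470) (nat_lit 988) (nat_lit 1975949643) (nat_lit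 1064) (nat_lit 1261854538) (nat_lit 297) (nat_lit 5) (nat_lit 310) (nat_lit 5) (nat_lit 311) (nat_lit 5) (nat_lit 370) (nat_lit 353) (nat_lit 297)) (XT.lf (nat_lit 0) (nat_lit 431271460) (nat_lit 1140) (nat_lit 7056912957) (nat_lit 76) (nat_lit 1151451884) (nat_lit 282) (nat_lit 5) (nat_lit 297) (nat_lit 5) (nat_lit 283) (nat_lit 5) (nat_lit 371) (nat_lit 353) (nat_lit 296))) (XT.nd (nat_lit 78) (nat_lit 1140) (nat_lit 0) (XT.lf (nat_lit 0) (nat_lit 2159751211) (nat_lit 1140) (nat_lit 2205822918) (nat_lit 76) (nat_lit 4385330159) (nat_lit 282) (nat_lit 5) (nat_lit 297) (nat_lit 5) (nat_lit 283) (nat_lit 5) (nat_lit 372) (nat_lit 353) (nat_lit 295)) (XT.lf (nat_lit 0) (nat_lit 2809606741) (nat_lit 1140) (nat_lit 1116067778) (nat_lit 1216) (nat_lit 4940282526) (nat_lit 267) (nat_lit 5) (nat_lit 282) (nat_lit 5) (nat_lit 283) (nat_lit 5) (nat_lit 373) (nat_lit 353) (nat_lit 294))))))))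
noncomputable def xc133 : XT := (XT.nd (nat_lit 2262) (nat_lit 4788) (nat_lit 0) (XT.nd (nat_lit 1092) (nat_lit 3876) (nat_lit 0) (XT.nd (nat_lit 546) (nat_lit 2204) (nat_lit 0) (XT.nd (nat_lit 234) (nat_lit 1216) (nat_lit 0) (XT.nd (nat_lit 78) (nat_lit 1976) (nat_lit 0) (XT.lf (nat_lit 0) (nat_lit 5748007587) (nat_lit 1216) (nat_lit 1021685334) (nat_lit 76) (nat_lit 2214679486) (nat_lit 267) (nat_lit 5) (nat_lit 283) (nat_lit 5) (nat_lit 268) (nat_lit 5) (nat_lit 374) (nat_lit 353) (nat_lit 293)) (XT.nd (nat_lit 78) (nat_lit 760) (nat_lit 0) (XT.lf (nat_lit 0) (nat_lit 4199040693) (nat_lit 1216) (nat_lit 3438055752) (nat_lit 1292) (nat_lit 1468894787) (nat_lit 251) (nat_lit 5) (nat_lit 267) (nat_lit 5) (nat_lit 268) (nat_lit 5) (nat_lit 375) (nat_lit 353) (nat_lit 292)) (XT.lf (nat_lit 0) (nat_lit 319572372) (nat_lit 760) (nat_lit 8898962121) (nat_lit 76) (nat_lit 13390515) (nat_lit 241) (nat_lit 5) (nat_lit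 251) (nat_lit 5) (nat_lit 242) (nat_lit 5) (nat_lit 376) (nat_lit 353) (nat_lit 291)))) (XT.nd (nat_lit 156) (nat_lit 608) (nat_lit 0) (XT.nd (nat_lit 78) (nat_lit 608) (nat_lit 0) (XT.lf (nat_lit 0) (nat_lit 2178142148) (nat_lit 760) (nat_lit 3615687406) (nat_lit 76) (nat_lit 3566004204) (nat_lit 241) (nat_lit 5) (nat_lit 251) (nat_lit 5) (nat_lit 242) (nat_lit 5) (nat_lit 377) (nat_lit 353) (nat_lit 290)) (XT.lf (nat_lit 0) (nat_lit 1825667944) (nat_lit 608) (nat_lit 2247351090) (nat_lit 684) (nat_lit 5419156301) (nat_lit 233) (nat_lit 5) (nat_lit 241) (nat_lit 5) (nat_lit 242) (nat_lit 5) (nat_lit 378) (nat_lit 353) (nat_lit 289))) (XT.nd (nat_lit 78) (nat_lit 608) (nat_lit 0) (XT.lf (nat_lit 0) (nat_lit 6038866505) (nat_lit 684) (nat_lit 2173676836) (nat_lit 76) (nat_lit 1415531800) (nat_lit 233) (nat_lit 5) (nat_lit 242) (nat_lit 5) (nat_lit 234) (nat_lit 5) (nat_lit 379) (nat_lit 353) (nat_lit 288)) (XT.lf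 (nat_lit 0) (nat_lit 3494147951) (nat_lit 608) (nat_lit 4590177126) (nat_lit 684) (nat_lit 1683119166) (nat_lit 225) (nat_lit 5) (nat_lit 233) (nat_lit 5) (nat_lit 234) (nat_lit 5) (nat_lit 380) (nat_lit 353) (nat_lit 287))))) (XT.nd (nat_lit 234) (nat_lit 1064) (nat_lit 0) (XT.nd (nat_lit 78) (nat_lit 1064) (nat_lit 0) (XT.lf (nat_lit 0) (nat_lit 261982907) (nat_lit 684) (nat_lit 572758099) (nat_lit 76) (nat_lit 9076564438) (nat_lit 224) (nat_lit 5) (nat_lit 233) (nat_lit 5) (nat_lit 225) (nat_lit 5) (nat_lit 381) (nat_lit 353) (nat_lit 286)) (XT.nd (nat_lit 78) (nat_lit 532) (nat_lit 0) (XT.lf (nat_lit 0) (nat_lit 2279017931) (nat_lit 608) (nat_lit 4736754290) (nat_lit 76) (nat_lit 3041798463) (nat_lit 217) (nat_lit 5) (nat_lit 225) (nat_lit 5) (nat_lit 218) (nat_lit 5) (nat_lit 382) (nat_lit 353) (nat_lit 285)) (XT.lf (nat_lit 0) (nat_lit 1173796397) (nat_lit 532) (nat_lit 3174940204) (nat_lit 608) (nat_lit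 5859732204) (nat_lit 210) (nat_lit 5) (nat_lit 217) (nat_lit 5) (nat_lit 218) (nat_lit 5) (nat_lit 383) (nat_lit 353) (nat_lit 284)))) (XT.nd (nat_lit 156) (nat_lit 608) (nat_lit 0) (XT.nd (nat_lit 78) (nat_lit 456) (nat_lit 0) (XT.lf (nat_lit 0) (nat_lit 6503746092) (nat_lit 608) (nat_lit 3047965344) (nat_lit 76) (nat_lit 811496265) (nat_lit 210) (nat_lit 5) (nat_lit 218) (nat_lit 5) (nat_lit 211) (nat_lit 5) (nat_lit 384) (nat_lit 353) (nat_lit 283)) (XT.lf (nat_lit 0) (nat_lit 3112412450) (nat_lit 456) (nat_lit 5640682000) (nat_lit 532) (nat_lit 1768613179) (nat_lit 204) (nat_lit 5) (nat_lit 210) (nat_lit 5) (nat_lit 211) (nat_lit 5) (nat_lit 385) (nat_lit 353) (nat_lit 282))) (XT.nd (nat_lit 78) (nat_lit 532) (nat_lit 0) (XT.lf (nat_lit 0) (nat_lit 377137245) (nat_lit 532) (nat_lit 1203480744) (nat_lit 76) (nat_lit 9104251873) (nat_lit 203) (nat_lit 5) (nat_lit 210) (nat_lit 5) (nat_lit 204) (nat_lit 5) (nat_lit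 386) (nat_lit 353) (nat_lit 281)) (XT.lf (nat_lit 0) (nat_lit 2597228766) (nat_lit 608) (nat_lit 5638712197) (nat_lit 76) (nat_lit 2615103904) (nat_lit 196) (nat_lit 5) (nat_lit 204) (nat_lit 5) (nat_lit 197) (nat_lit 5) (nat_lit 387) (nat_lit 353) (nat_lit 280)))))) (XT.nd (nat_lit 546) (nat_lit 1976) (nat_lit 0) (XT.nd (nat_lit 234) (nat_lit 988) (nat_lit 0) (XT.nd (nat_lit 78) (nat_lit 456) (nat_lit 0) (XT.lf (nat_lit 0) (nat_lit 788046651) (nat_lit 456) (nat_lit 4101413014) (nat_lit 532) (nat_lit 6132587819) (nat_lit 190) (nat_lit 5) (nat_lit 196) (nat_lit 5) (nat_lit 197) (nat_lit 5) (nat_lit 388) (nat_lit 353) (nat_lit 279)) (XT.nd (nat_lit 78) (nat_lit 456) (nat_lit 0) (XT.lf (nat_lit 0) (nat_lit 7279999450) (nat_lit 532) (nat_lit 3710858329) (nat_lit 76) (nat_lit 206444357) (nat_lit 190) (nat_lit 5) (nat_lit 197) (nat_lit 5) (nat_lit 191) (nat_lit 5) (nat_lit 389) (nat_lit 353) (nat_lit 278)) (XT.lf (nat_lit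 0) (nat_lit 2991266716) (nat_lit 456) (nat_lit 6791736694) (nat_lit 532) (nat_lit 1593596553) (nat_lit 184) (nat_lit 5) (nat_lit 190) (nat_lit 5) (nat_lit 191) (nat_lit 5) (nat_lit 390) (nat_lit 353) (nat_lit 277)))) (XT.nd (nat_lit 156) (nat_lit 456) (nat_lit 0) (XT.nd (nat_lit 78) (nat_lit 456) (nat_lit 0) (XT.lf (nat_lit 0) (nat_lit 793662217) (nat_lit 532) (nat_lit 1632396178) (nat_lit 76) (nat_lit 9134711732) (nat_lit 183) (nat_lit 5) (nat_lit 190) (nat_lit 5) (nat_lit 184) (nat_lit 5) (nat_lit 391) (nat_lit 353) (nat_lit 276)) (XT.lf (nat_lit 0) (nat_lit 3265156955) (nat_lit 532) (nat_lit 6391179204) (nat_lit 76) (nat_lit 2092323751) (nat_lit 177) (nat_lit 5) (nat_lit 184) (nat_lit 5) (nat_lit 178) (nat_lit 5) (nat_lit 392) (nat_lit 353) (nat_lit 275))) (XT.nd (nat_lit 78) (nat_lit 0) (nat_lit 0) (XT.lf (nat_lit 0) (nat_lit 602266684) (nat_lit 456) (nat_lit 5227841056) (nat_lit 532) (nat_lit 6111506398) (nat_lit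 171) (nat_lit 5) (nat_lit 177) (nat_lit 5) (nat_lit 178) (nat_lit 5) (nat_lit 393) (nat_lit 353) (nat_lit 274)) (XT.lf (nat_lit 0) (nat_lit 7902736763) (nat_lit 456) (nat_lit 607128747) (nat_lit 532) (nat_lit 3629362607) (nat_lit 171) (nat_lit 5) (nat_lit 177) (nat_lit 5) (nat_lit 178) (nat_lit 5) (nat_lit 394) (nat_lit 353) (nat_lit 273))))) (XT.nd (nat_lit 312) (nat_lit 760) (nat_lit 0) (XT.nd (nat_lit 156) (nat_lit 760) (nat_lit 0) (XT.nd (nat_lit 78) (nat_lit 76) (nat_lit 0) (XT.lf (nat_lit 0) (nat_lit 3065837169) (nat_lit 380) (nat_lit 8247593873) (nat_lit 456) (nat_lit 1028043702) (nat_lit 166) (nat_lit 5) (nat_lit 171) (nat_lit 5) (nat_lit 172) (nat_lit 5) (nat_lit 395) (nat_lit 353) (nat_lit 272)) (XT.lf (nat_lit 0) (nat_lit 1642515590) (nat_lit 456) (nat_lit 1930450243) (nat_lit 76) (nat_lit 8975650313) (nat_lit 165) (nat_lit 5) (nat_lit 171) (nat_lit 5) (nat_lit 166) (nat_lit 5) (nat_lit 396) (nat_lit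 353) (nat_lit 271))) (XT.nd (nat_lit 78) (nat_lit 380) (nat_lit 0) (XT.lf (nat_lit 0) (nat_lit 4414821967) (nat_lit 456) (nat_lit 7069811263) (nat_lit 76) (nat_lit 1275770521) (nat_lit 160) (nat_lit 5) (nat_lit 166) (nat_lit 5) (nat_lit 161) (nat_lit 5) (nat_lit 397) (nat_lit 353) (nat_lit 270)) (XT.lf (nat_lit 0) (nat_lit 543839101) (nat_lit 380) (nat_lit 6762051786) (nat_lit 456) (nat_lit 5671592234) (nat_lit 155) (nat_lit 5) (nat_lit 160) (nat_lit 5) (nat_lit 161) (nat_lit 5) (nat_lit 398) (nat_lit 353) (nat_lit 269)))) (XT.nd (nat_lit 156) (nat_lit 304) (nat_lit 0) (XT.nd (nat_lit 78) (nat_lit 456) (nat_lit 0) (XT.lf (nat_lit 0) (nat_lit 8498064602) (nat_lit 380) (nat_lit 1832725906) (nat_lit 456) (nat_lit 2868877166) (nat_lit 155) (nat_lit 5) (nat_lit 160) (nat_lit 5) (nat_lit 161) (nat_lit 5) (nat_lit 399) (nat_lit 353) (nat_lit 268)) (XT.lf (nat_lit 0) (nat_lit 56833577) (nat_lit 456) (nat_lit 10165479568)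 (nat_lit 76) (nat_lit 3205026964) (nat_lit 149) (nat_lit 5) (nat_lit 155) (nat_lit 5) (nat_lit 150) (nat_lit 5) (nat_lit 400) (nat_lit 353) (nat_lit 267))) (XT.nd (nat_lit 78) (nat_lit 304) (nat_lit 0) (XT.lf (nat_lit 0) (nat_lit 3055227465) (nat_lit 456) (nat_lit 2179426593) (nat_lit 76) (nat_lit 8425064588) (nat_lit 149) (nat_lit 5) (nat_lit 155) (nat_lit 5) (nat_lit 150) (nat_lit 5) (nat_lit 401) (nat_lit 353) (nat_lit 266)) (XT.lf (nat_lit 0) (nat_lit 6134265006) (nat_lit 304) (nat_lit 45440075) (nat_lit 380) (nat_lit 7718284620) (nat_lit 145) (nat_lit 5) (nat_lit 149) (nat_lit 5) (nat_lit 150) (nat_lit 5) (nat_lit 402) (nat_lit 353) (nat_lit 265))))))) (XT.nd (nat_lit 1092) (nat_lit 2204) (nat_lit 0) (XT.nd (nat_lit 546) (nat_lit 1140) (nat_lit 0) (XT.nd (nat_lit 234) (nat_lit 684) (nat_lit 0) (XT.nd (nat_lit 78) (nat_lit 380) (nat_lit 0) (XT.lf (nat_lit 0) (nat_lit 526480676) (nat_lit 380) (nat_lit 8927108870)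 (nat_lit 456) (nat_lit 4688154135) (nat_lit 140) (nat_lit 5) (nat_lit 145) (nat_lit 5) (nat_lit 146) (nat_lit 5) (nat_lit 403) (nat_lit 353) (nat_lit 264)) (XT.nd (nat_lit 78) (nat_lit 380) (nat_lit 0) (XT.lf (nat_lit 0) (nat_lit 9192466910) (nat_lit 380) (nat_lit 3689864856) (nat_lit 456) (nat_lit 1508784104) (nat_lit 140) (nat_lit 5) (nat_lit 145) (nat_lit 5) (nat_lit 146) (nat_lit 5) (nat_lit 404) (nat_lit 353) (nat_lit 263)) (XT.lf (nat_lit 0) (nat_lit 1760080132) (nat_lit 380) (nat_lit 11173438848) (nat_lit 76) (nat_lit 1713088321) (nat_lit 135) (nat_lit 5) (nat_lit 140) (nat_lit 5) (nat_lit 136) (nat_lit 5) (nat_lit 405) (nat_lit 353) (nat_lit 262)))) (XT.nd (nat_lit 156) (nat_lit 380) (nat_lit 0) (XT.nd (nat_lit 78) (nat_lit 304) (nat_lit 0) (XT.lf (nat_lit 0) (nat_lit 5164708057) (nat_lit 380) (nat_lit 2479856792) (nat_lit 76) (nat_lit 7262714204) (nat_lit 135) (nat_lit 5) (nat_lit 140) (nat_lit 5) (nat_lit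 136) (nat_lit 5) (nat_lit 406) (nat_lit 353) (nat_lit 261)) (XT.lf (nat_lit 0) (nat_lit 6572312047) (nat_lit 304) (nat_lit 2141440427) (nat_lit 380) (nat_lit 6460754440) (nat_lit 131) (nat_lit 5) (nat_lit 135) (nat_lit 5) (nat_lit 136) (nat_lit 5) (nat_lit 407) (nat_lit 353) (nat_lit 260))) (XT.nd (nat_lit 78) (nat_lit 76) (nat_lit 0) (XT.lf (nat_lit 0) (nat_lit 441648062) (nat_lit 304) (nat_lit 11970383802) (nat_lit 380) (nat_lit 3036441001) (nat_lit 127) (nat_lit 5) (nat_lit 131) (nat_lit 5) (nat_lit 132) (nat_lit 5) (nat_lit 408) (nat_lit 353) (nat_lit 259)) (XT.lf (nat_lit 0) (nat_lit 569387564) (nat_lit 380) (nat_lit 5852500506) (nat_lit 76) (nat_lit 9305981394) (nat_lit 126) (nat_lit 5) (nat_lit 131) (nat_lit 5) (nat_lit 127) (nat_lit 5) (nat_lit 409) (nat_lit 353) (nat_lit 258))))) (XT.nd (nat_lit 234) (nat_lit 608) (nat_lit 0) (XT.nd (nat_lit 78) (nat_lit 228) (nat_lit 0) (XT.lf (nat_lit 0) (nat_lit 3586458833)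 (nat_lit 304) (nat_lit 650408419) (nat_lit 380) (nat_lit 11777447434) (nat_lit 122) (nat_lit 5) (nat_lit 126) (nat_lit 5) (nat_lit 127) (nat_lit 5) (nat_lit 410) (nat_lit 353) (nat_lit 257)) (XT.nd (nat_lit 78) (nat_lit 228) (nat_lit 0) (XT.lf (nat_lit 0) (nat_lit 8105178216) (nat_lit 380) (nat_lit 2960619790) (nat_lit 76) (nat_lit 5240834750) (nat_lit 122) (nat_lit 5) (nat_lit 127) (nat_lit 5) (nat_lit 123) (nat_lit 5) (nat_lit 411) (nat_lit 353) (nat_lit 256)) (XT.lf (nat_lit 0) (nat_lit 6889387136) (nat_lit 228) (nat_lit 5253623569) (nat_lit 304) (nat_lit 4463109086) (nat_lit 119) (nat_lit 5) (nat_lit 122) (nat_lit 5) (nat_lit 123) (nat_lit 5) (nat_lit 412) (nat_lit 353) (nat_lit 255)))) (XT.nd (nat_lit 156) (nat_lit 228) (nat_lit 0) (XT.nd (nat_lit 78) (nat_lit 76) (nat_lit 0) (XT.lf (nat_lit 0) (nat_lit 148005530) (nat_lit 304) (nat_lit 16173624662) (nat_lit 380) (nat_lit 592375173) (nat_lit 115) (nat_lit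 5) (nat_lit 119) (nat_lit 5) (nat_lit 120) (nat_lit 5) (nat_lit 413) (nat_lit 353) (nat_lit 254)) (XT.lf (nat_lit 0) (nat_lit 3460426021) (nat_lit 380) (nat_lit 6835454177) (nat_lit 76) (nat_lit 6930306184) (nat_lit 114) (nat_lit 5) (nat_lit 119) (nat_lit 5) (nat_lit 115) (nat_lit 5) (nat_lit 414) (nat_lit 353) (nat_lit 253))) (XT.nd (nat_lit 78) (nat_lit 0) (nat_lit 0) (XT.lf (nat_lit 0) (nat_lit 3425320724) (nat_lit 228) (nat_lit 4212138127) (nat_lit 304) (nat_lit 9909664601) (nat_lit 111) (nat_lit 5) (nat_lit 114) (nat_lit 5) (nat_lit 115) (nat_lit 5) (nat_lit 415) (nat_lit 353) (nat_lit 252)) (XT.lf (nat_lit 0) (nat_lit 12011047235) (nat_lit 304) (nat_lit 3790836786) (nat_lit 76) (nat_lit 2073670376) (nat_lit 111) (nat_lit 5) (nat_lit 115) (nat_lit 5) (nat_lit 112) (nat_lit 5) (nat_lit 416) (nat_lit 353) (nat_lit 251)))))) (XT.nd (nat_lit 546) (nat_lit 1140) (nat_lit 0) (XT.nd (nat_lit 234) (nat_lit 532) (nat_lit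 0) (XT.nd (nat_lit 78) (nat_lit 304) (nat_lit 0) (XT.lf (nat_lit 0) (nat_lit 6915306987) (nat_lit 228) (nat_lit 9691036186) (nat_lit 304) (nat_lit 1604783104) (nat_lit 108) (nat_lit 5) (nat_lit 111) (nat_lit 5) (nat_lit 112) (nat_lit 5) (nat_lit 417) (nat_lit 353) (nat_lit 250)) (XT.nd (nat_lit 78) (nat_lit 228) (nat_lit 0) (XT.lf (nat_lit 0) (nat_lit 2749485030) (nat_lit 304) (nat_lit 590469914) (nat_lit 76) (nat_lit 15215379121) (nat_lit 107) (nat_lit 5) (nat_lit 111) (nat_lit 5) (nat_lit 108) (nat_lit 5) (nat_lit 418) (nat_lit 353) (nat_lit 249)) (XT.lf (nat_lit 0) (nat_lit 7318769885) (nat_lit 304) (nat_lit 8338955569) (nat_lit 76) (nat_lit 3248169419) (nat_lit 104) (nat_lit 5) (nat_lit 108) (nat_lit 5) (nat_lit 105) (nat_lit 5) (nat_lit 419) (nat_lit 353) (nat_lit 248)))) (XT.nd (nat_lit 156) (nat_lit 304) (nat_lit 0) (XT.nd (nat_lit 78) (nat_lit 0) (nat_lit 0) (XT.lf (nat_lit 0) (nat_lit 2798467082) (nat_lit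 228) (nat_lit 9275705611) (nat_lit 304) (nat_lit 7191331302) (nat_lit 101) (nat_lit 5) (nat_lit 104) (nat_lit 5) (nat_lit 105) (nat_lit 5) (nat_lit 420) (nat_lit 353) (nat_lit 247)) (XT.lf (nat_lit 0) (nat_lit 14413826979) (nat_lit 228) (nat_lit 2625899039) (nat_lit 304) (nat_lit 2594153313) (nat_lit 101) (nat_lit 5) (nat_lit 104) (nat_lit 5) (nat_lit 105) (nat_lit 5) (nat_lit 421) (nat_lit 353) (nat_lit 246))) (XT.nd (nat_lit 78) (nat_lit 0) (nat_lit 0) (XT.lf (nat_lit 0) (nat_lit 2186016152) (nat_lit 304) (nat_lit 13609821173) (nat_lit 76) (nat_lit 4214248038) (nat_lit 97) (nat_lit 5) (nat_lit 101) (nat_lit 5) (nat_lit 98) (nat_lit 5) (nat_lit 422) (nat_lit 353) (nat_lit 245)) (XT.lf (nat_lit 0) (nat_lit 7120414454) (nat_lit 304) (nat_lit 1998797860) (nat_lit 76) (nat_lit 11275708185) (nat_lit 97) (nat_lit 5) (nat_lit 101) (nat_lit 5) (nat_lit 98) (nat_lit 5) (nat_lit 423) (nat_lit 353) (nat_lit 244))))) (XT.nd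 (nat_lit 312) (nat_lit 456) (nat_lit 0) (XT.nd (nat_lit 156) (nat_lit 304) (nat_lit 0) (XT.nd (nat_lit 78) (nat_lit 152) (nat_lit 0) (XT.lf (nat_lit 0) (nat_lit 10132261173) (nat_lit 228) (nat_lit 2152185364) (nat_lit 304) (nat_lit 8504408404) (nat_lit 94) (nat_lit 5) (nat_lit 97) (nat_lit 5) (nat_lit 98) (nat_lit 5) (nat_lit 424) (nat_lit 353) (nat_lit 243)) (XT.lf (nat_lit 0) (nat_lit 1427457319) (nat_lit 152) (nat_lit 16242658997) (nat_lit 228) (nat_lit 3522491833) (nat_lit 92) (nat_lit 5) (nat_lit 94) (nat_lit 5) (nat_lit 95) (nat_lit 5) (nat_lit 425) (nat_lit 353) (nat_lit 242))) (XT.nd (nat_lit 78) (nat_lit 228) (nat_lit 0) (XT.lf (nat_lit 0) (nat_lit 1691843782) (nat_lit 228) (nat_lit 7576791535) (nat_lit 76) (nat_lit 12335946080) (nat_lit 91) (nat_lit 5) (nat_lit 94) (nat_lit 5) (nat_lit 92) (nat_lit 5) (nat_lit 426) (nat_lit 353) (nat_lit 241)) (XT.lf (nat_lit 0) (nat_lit 5014775624) (nat_lit 228) (nat_lit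 2010067244) (nat_lit 304) (nat_lit 15002035778) (nat_lit 88) (nat_lit 5) (nat_lit 91) (nat_lit 5) (nat_lit 92) (nat_lit 5) (nat_lit 427) (nat_lit 353) (nat_lit 240)))) (XT.nd (nat_lit 156) (nat_lit 304) (nat_lit 0) (XT.nd (nat_lit 78) (nat_lit 152) (nat_lit 0) (XT.lf (nat_lit 0) (nat_lit 12632574014) (nat_lit 304) (nat_lit 4398972413) (nat_lit 76) (nat_lit 5426858110) (nat_lit 88) (nat_lit 5) (nat_lit 92) (nat_lit 5) (nat_lit 89) (nat_lit 5) (nat_lit 428) (nat_lit 353) (nat_lit 239)) (XT.lf (nat_lit 0) (nat_lit 8717986300) (nat_lit 152) (nat_lit 9779622834) (nat_lit 228) (nat_lit 4402596840) (nat_lit 86) (nat_lit 5) (nat_lit 88) (nat_lit 5) (nat_lit 89) (nat_lit 5) (nat_lit 429) (nat_lit 353) (nat_lit 238))) (XT.nd (nat_lit 78) (nat_lit 228) (nat_lit 0) (XT.lf (nat_lit 0) (nat_lit 1190516781) (nat_lit 228) (nat_lit 1071947787) (nat_lit 76) (nat_lit 21091549237) (nat_lit 85) (nat_lit 5) (nat_lit 88) (nat_lit 5)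 (nat_lit 86) (nat_lit 5) (nat_lit 430) (nat_lit 353) (nat_lit 237)) (XT.lf (nat_lit 0) (nat_lit 7024204313) (nat_lit 304) (nat_lit 11261134214) (nat_lit 76) (nat_lit 5529953357) (nat_lit 82) (nat_lit 5) (nat_lit 86) (nat_lit 5) (nat_lit 83) (nat_lit 5) (nat_lit 431) (nat_lit 353) (nat_lit 236))))))))
noncomputable def xc134 : XT := (XT.nd (nat_lit 2262) (nat_lit 1444) (nat_lit 0) (XT.nd (nat_lit 1092) (nat_lit 1292) (nat_lit 0) (XT.nd (nat_lit 546) (nat_lit 684) (nat_lit 0) (XT.nd (nat_lit 234) (nat_lit 380) (nat_lit 0) (XT.nd (nat_lit 78) (nat_lit 228) (nat_lit 0) (XT.lf (nat_lit 0) (nat_lit 2319491474) (nat_lit 152) (nat_lit 10754965728) (nat_lit 228) (nat_lit 11214706177) (nat_lit 80) (nat_lit 5) (nat_lit 82) (nat_lit 5) (nat_lit 83) (nat_lit 5) (nat_lit 432) (nat_lit 353) (nat_lit 235)) (XT.nd (nat_lit 78) (nat_lit 228) (nat_lit 0) (XT.lf (nat_lit 0) (nat_lit 16514416441) (nat_lit 152) (nat_lit 2891622176)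 (nat_lit 228) (nat_lit 5368219437) (nat_lit 80) (nat_lit 5) (nat_lit 82) (nat_lit 5) (nat_lit 83) (nat_lit 5) (nat_lit 433) (nat_lit 353) (nat_lit 234)) (XT.lf (nat_lit 0) (nat_lit 735044760) (nat_lit 228) (nat_lit 19375482854) (nat_lit 76) (nat_lit 5160366880) (nat_lit 77) (nat_lit 5) (nat_lit 80) (nat_lit 5) (nat_lit 78) (nat_lit 5) (nat_lit 434) (nat_lit 353) (nat_lit 233)))) (XT.nd (nat_lit 156) (nat_lit 228) (nat_lit 0) (XT.nd (nat_lit 78) (nat_lit 152) (nat_lit 0) (XT.lf (nat_lit 0) (nat_lit 7012828141) (nat_lit 228) (nat_lit 5241509202) (nat_lit 76) (nat_lit 13523520171) (nat_lit 77) (nat_lit 5) (nat_lit 80) (nat_lit 5) (nat_lit 78) (nat_lit 5) (nat_lit 435) (nat_lit 353) (nat_lit 232)) (XT.lf (nat_lit 0) (nat_lit 9478515345) (nat_lit 152) (nat_lit 4078390737) (nat_lit 228) (nat_lit 12740785991) (nat_lit 75) (nat_lit 5) (nat_lit 77) (nat_lit 5) (nat_lit 78) (nat_lit 5) (nat_lit 436) (nat_lit 353) (nat_lit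 231))) (XT.nd (nat_lit 78) (nat_lit 228) (nat_lit 0) (XT.lf (nat_lit 0) (nat_lit 20379424562) (nat_lit 228) (nat_lit 2149218561) (nat_lit 76) (nat_lit 4302016435) (nat_lit 75) (nat_lit 5) (nat_lit 78) (nat_lit 5) (nat_lit 76) (nat_lit 5) (nat_lit 437) (nat_lit 353) (nat_lit 230)) (XT.lf (nat_lit 0) (nat_lit 182132841) (nat_lit 228) (nat_lit 14221954066) (nat_lit 76) (nat_lit 12970853010) (nat_lit 72) (nat_lit 5) (nat_lit 75) (nat_lit 5) (nat_lit 73) (nat_lit 5) (nat_lit 438) (nat_lit 353) (nat_lit 229))))) (XT.nd (nat_lit 234) (nat_lit 380) (nat_lit 0) (XT.nd (nat_lit 78) (nat_lit 152) (nat_lit 0) (XT.lf (nat_lit 0) (nat_lit 955608822) (nat_lit 152) (nat_lit 5947665157) (nat_lit 228) (nat_lit 21029806744) (nat_lit 70) (nat_lit 5) (nat_lit 72) (nat_lit 5) (nat_lit 73) (nat_lit 5) (nat_lit 439) (nat_lit 353) (nat_lit 228)) (XT.nd (nat_lit 78) (nat_lit 152) (nat_lit 0) (XT.lf (nat_lit 0) (nat_lit 13985034977) (nat_lit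 228) (nat_lit 11674029366) (nat_lit 76) (nat_lit 2844133117) (nat_lit 70) (nat_lit 5) (nat_lit 73) (nat_lit 5) (nat_lit 71) (nat_lit 5) (nat_lit 440) (nat_lit 353) (nat_lit 227)) (XT.lf (nat_lit 0) (nat_lit 4087615619) (nat_lit 152) (nat_lit 17277576244) (nat_lit 228) (nat_lit 7722648783) (nat_lit 68) (nat_lit 5) (nat_lit 70) (nat_lit 5) (nat_lit 71) (nat_lit 5) (nat_lit 441) (nat_lit 353) (nat_lit 226)))) (XT.nd (nat_lit 156) (nat_lit 152) (nat_lit 0) (XT.nd (nat_lit 78) (nat_lit 228) (nat_lit 0) (XT.lf (nat_lit 0) (nat_lit 20539852457) (nat_lit 152) (nat_lit 8532697574) (nat_lit 228) (nat_lit 614300401) (nat_lit 68) (nat_lit 5) (nat_lit 70) (nat_lit 5) (nat_lit 71) (nat_lit 5) (nat_lit 442) (nat_lit 353) (nat_lit 225)) (XT.lf (nat_lit 0) (nat_lit 6639930813) (nat_lit 228) (nat_lit 23068558477) (nat_lit 76) (nat_lit 591502640) (nat_lit 65) (nat_lit 5) (nat_lit 68) (nat_lit 5) (nat_lit 66) (nat_lit 5) (nat_lit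 443) (nat_lit 353) (nat_lit 224))) (XT.nd (nat_lit 78) (nat_lit 152) (nat_lit 0) (XT.lf (nat_lit 0) (nat_lit 14265406816) (nat_lit 228) (nat_lit 6752741689) (nat_lit 76) (nat_lit 9908218860) (nat_lit 65) (nat_lit 5) (nat_lit 68) (nat_lit 5) (nat_lit 66) (nat_lit 5) (nat_lit 444) (nat_lit 353) (nat_lit 223)) (XT.lf (nat_lit 0) (nat_lit 10231594691) (nat_lit 152) (nat_lit 11974949668) (nat_lit 228) (nat_lit 9362383857) (nat_lit 63) (nat_lit 5) (nat_lit 65) (nat_lit 5) (nat_lit 66) (nat_lit 5) (nat_lit 445) (nat_lit 353) (nat_lit 222)))))) (XT.nd (nat_lit 546) (nat_lit 608) (nat_lit 0) (XT.nd (nat_lit 234) (nat_lit 456) (nat_lit 0) (XT.nd (nat_lit 78) (nat_lit 228) (nat_lit 0) (XT.lf (nat_lit 0) (nat_lit 27843477634) (nat_lit 152) (nat_lit 2599310225) (nat_lit 228) (nat_lit 1786272915) (nat_lit 63) (nat_lit 5) (nat_lit 65) (nat_lit 5) (nat_lit 66) (nat_lit 5) (nat_lit 446) (nat_lit 353) (nat_lit 221)) (XT.nd (nat_lit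 78) (nat_lit 0) (nat_lit 0) (XT.lf (nat_lit 0) (nat_lit 6085618222) (nat_lit 228) (nat_lit 19717857075) (nat_lit 76) (nat_lit 7098210405) (nat_lit 60) (nat_lit 5) (nat_lit 63) (nat_lit 5) (nat_lit 61) (nat_lit 5) (nat_lit 447) (nat_lit 353) (nat_lit 220)) (XT.lf (nat_lit 0) (nat_lit 14217173256) (nat_lit 228) (nat_lit 2286881714) (nat_lit 76) (nat_lit 17088122497) (nat_lit 60) (nat_lit 5) (nat_lit 63) (nat_lit 5) (nat_lit 61) (nat_lit 5) (nat_lit 448) (nat_lit 353) (nat_lit 219)))) (XT.nd (nat_lit 156) (nat_lit 304) (nat_lit 0) (XT.nd (nat_lit 78) (nat_lit 0) (nat_lit 0) (XT.lf (nat_lit 0) (nat_lit 15958940555) (nat_lit 152) (nat_lit 6776412813) (nat_lit 228) (nat_lit 11563751185) (nat_lit 58) (nat_lit 5) (nat_lit 60) (nat_lit 5) (nat_lit 61) (nat_lit 5) (nat_lit 449) (nat_lit 353) (nat_lit 218)) (XT.lf (nat_lit 0) (nat_lit 31552889347) (nat_lit 228) (nat_lit 278476104) (nat_lit 76) (nat_lit 3194560583) (nat_lit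 58) (nat_lit 5) (nat_lit 61) (nat_lit 5) (nat_lit 59) (nat_lit 4) (nat_lit 450) (nat_lit 353) (nat_lit 217))) (XT.nd (nat_lit 78) (nat_lit 152) (nat_lit 0) (XT.lf (nat_lit 0) (nat_lit 5003419141) (nat_lit 152) (nat_lit 17214552825) (nat_lit 76) (nat_lit 13548043488) (nat_lit 56) (nat_lit 5) (nat_lit 58) (nat_lit 5) (nat_lit 57) (nat_lit 5) (nat_lit 451) (nat_lit 353) (nat_lit 216)) (XT.lf (nat_lit 0) (nat_lit 1397649101) (nat_lit 152) (nat_lit 12272634894) (nat_lit 228) (nat_lit 22856815188) (nat_lit 54) (nat_lit 5) (nat_lit 56) (nat_lit 5) (nat_lit 57) (nat_lit 5) (nat_lit 452) (nat_lit 353) (nat_lit 215))))) (XT.nd (nat_lit 312) (nat_lit 304) (nat_lit 0) (XT.nd (nat_lit 156) (nat_lit 228) (nat_lit 0) (XT.nd (nat_lit 78) (nat_lit 76) (nat_lit 0) (XT.lf (nat_lit 0) (nat_lit 20902290224) (nat_lit 152) (nat_lit 1858463592) (nat_lit 228) (nat_lit 14545354432) (nat_lit 54) (nat_lit 5) (nat_lit 56) (nat_lit 5) (nat_lit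 57) (nat_lit 5) (nat_lit 453) (nat_lit 353) (nat_lit 214)) (XT.lf (nat_lit 0) (nat_lit 2835182354) (nat_lit 76) (nat_lit 29391238658) (nat_lit 152) (nat_lit 5878992847) (nat_lit 53) (nat_lit 5) (nat_lit 54) (nat_lit 5) (nat_lit 55) (nat_lit 4) (nat_lit 454) (nat_lit 353) (nat_lit 213))) (XT.nd (nat_lit 78) (nat_lit 152) (nat_lit 0) (XT.lf (nat_lit 0) (nat_lit 3163582651) (nat_lit 152) (nat_lit 16003945990) (nat_lit 76) (nat_lit 19755021291) (nat_lit 52) (nat_lit 5) (nat_lit 54) (nat_lit 5) (nat_lit 53) (nat_lit 5) (nat_lit 455) (nat_lit 353) (nat_lit 212)) (XT.lf (nat_lit 0) (nat_lit 3839075302) (nat_lit 152) (nat_lit 8547393890) (nat_lit 228) (nat_lit 27375169496) (nat_lit 50) (nat_lit 5) (nat_lit 52) (nat_lit 5) (nat_lit 53) (nat_lit 5) (nat_lit 456) (nat_lit 353) (nat_lit 211)))) (XT.nd (nat_lit 156) (nat_lit 228) (nat_lit 0) (XT.nd (nat_lit 78) (nat_lit 76) (nat_lit 0) (XT.lf (nat_lit 0) (nat_lit 22062563241)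 (nat_lit 228) (nat_lit 16058179492) (nat_lit 76) (nat_lit 2499862430) (nat_lit 50) (nat_lit 5) (nat_lit 53) (nat_lit 5) (nat_lit 51) (nat_lit 4) (nat_lit 457) (nat_lit 353) (nat_lit 210)) (XT.lf (nat_lit 0) (nat_lit 4385618613) (nat_lit 76) (nat_lit 27760713481) (nat_lit 152) (nat_lit 9355487446) (nat_lit 49) (nat_lit 5) (nat_lit 50) (nat_lit 5) (nat_lit 51) (nat_lit 4) (nat_lit 458) (nat_lit 353) (nat_lit 209))) (XT.nd (nat_lit 78) (nat_lit 152) (nat_lit 0) (XT.lf (nat_lit 0) (nat_lit 275124126) (nat_lit 152) (nat_lit 16652972171) (nat_lit 76) (nat_lit 25476707665) (nat_lit 48) (nat_lit 5) (nat_lit 50) (nat_lit 5) (nat_lit 49) (nat_lit 5) (nat_lit 459) (nat_lit 353) (nat_lit 208)) (XT.lf (nat_lit 0) (nat_lit 4400417251) (nat_lit 152) (nat_lit 5639395220) (nat_lit 228) (nat_lit 33291291362) (nat_lit 46) (nat_lit 5) (nat_lit 48) (nat_lit 5) (nat_lit 49) (nat_lit 5) (nat_lit 460) (nat_lit 353) (nat_lit 207)))))))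 (XT.nd (nat_lit 1092) (nat_lit 608) (nat_lit 0) (XT.nd (nat_lit 546) (nat_lit 456) (nat_lit 0) (XT.nd (nat_lit 234) (nat_lit 304) (nat_lit 0) (XT.nd (nat_lit 78) (nat_lit 76) (nat_lit 0) (XT.lf (nat_lit 0) (nat_lit 20315752328) (nat_lit 228) (nat_lit 17929599597) (nat_lit 76) (nat_lit 6033292041) (nat_lit 46) (nat_lit 5) (nat_lit 49) (nat_lit 5) (nat_lit 47) (nat_lit 4) (nat_lit 461) (nat_lit 353) (nat_lit 206)) (XT.nd (nat_lit 78) (nat_lit 0) (nat_lit 0) (XT.lf (nat_lit 0) (nat_lit 3701402629) (nat_lit 76) (nat_lit 27281171377) (nat_lit 152) (nat_lit 14269558763) (nat_lit 45) (nat_lit 5) (nat_lit 46) (nat_lit 5) (nat_lit 47) (nat_lit 4) (nat_lit 462) (nat_lit 353) (nat_lit 205)) (XT.lf (nat_lit 0) (nat_lit 26332526526) (nat_lit 76) (nat_lit 15809215012) (nat_lit 152) (nat_lit 4107915019) (nat_lit 45) (nat_lit 5) (nat_lit 46) (nat_lit 5) (nat_lit 47) (nat_lit 4) (nat_lit 463) (nat_lit 353) (nat_lit 204)))) (XT.nd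 (nat_lit 156) (nat_lit 76) (nat_lit 0) (XT.nd (nat_lit 78) (nat_lit 0) (nat_lit 0) (XT.lf (nat_lit 0) (nat_lit 2333855445) (nat_lit 152) (nat_lit 3914535164) (nat_lit 228) (nat_lit 41026465560) (nat_lit 42) (nat_lit 5) (nat_lit 44) (nat_lit 5) (nat_lit 45) (nat_lit 5) (nat_lit 464) (nat_lit 353) (nat_lit 203)) (XT.lf (nat_lit 0) (nat_lit 17107557396) (nat_lit 228) (nat_lit 22802997043) (nat_lit 76) (nat_lit 8410795558) (nat_lit 42) (nat_lit 5) (nat_lit 45) (nat_lit 5) (nat_lit 43) (nat_lit 4) (nat_lit 465) (nat_lit 353) (nat_lit 202))) (XT.nd (nat_lit 78) (nat_lit 76) (nat_lit 0) (XT.lf (nat_lit 0) (nat_lit 28322986597) (nat_lit 228) (nat_lit 55210215) (nat_lit 76) (nat_lit 21020127700) (nat_lit 42) (nat_lit 5) (nat_lit 45) (nat_lit 5) (nat_lit 43) (nat_lit 4) (nat_lit 466) (nat_lit 353) (nat_lit 201)) (XT.lf (nat_lit 0) (nat_lit 23824772497) (nat_lit 76) (nat_lit 16271094985) (nat_lit 152) (nat_lit 10405111598)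 (nat_lit 41) (nat_lit 5) (nat_lit 42) (nat_lit 5) (nat_lit 43) (nat_lit 4) (nat_lit 467) (nat_lit 353) (nat_lit 200))))) (XT.nd (nat_lit 234) (nat_lit 228) (nat_lit 0) (XT.nd (nat_lit 78) (nat_lit 152) (nat_lit 0) (XT.lf (nat_lit 0) (nat_lit 566345929) (nat_lit 152) (nat_lit 3235197550) (nat_lit 76) (nat_lit 47835225167) (nat_lit 40) (nat_lit 5) (nat_lit 42) (nat_lit 5) (nat_lit 41) (nat_lit 5) (nat_lit 468) (nat_lit 353) (nat_lit 199)) (XT.nd (nat_lit 78) (nat_lit 0) (nat_lit 0) (XT.lf (nat_lit 0) (nat_lit 11943755520) (nat_lit 228) (nat_lit 31682456265) (nat_lit 76) (nat_lit 9168751704) (nat_lit 38) (nat_lit 5) (nat_lit 41) (nat_lit 5) (nat_lit 39) (nat_lit 4) (nat_lit 469) (nat_lit 353) (nat_lit 198)) (XT.lf (nat_lit 0) (nat_lit 23725354410) (nat_lit 228) (nat_lit 7782661106) (nat_lit 76) (nat_lit 22478003079) (nat_lit 38) (nat_lit 5) (nat_lit 41) (nat_lit 5) (nat_lit 39) (nat_lit 4) (nat_lit 470) (nat_lit 353)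 (nat_lit 197)))) (XT.nd (nat_lit 156) (nat_lit 152) (nat_lit 0) (XT.nd (nat_lit 78) (nat_lit 0) (nat_lit 0) (XT.lf (nat_lit 0) (nat_lit 17154568508) (nat_lit 76) (nat_lit 18863194477) (nat_lit 152) (nat_lit 19190321933) (nat_lit 37) (nat_lit 5) (nat_lit 38) (nat_lit 5) (nat_lit 39) (nat_lit 4) (nat_lit 471) (nat_lit 353) (nat_lit 196)) (XT.lf (nat_lit 0) (nat_lit 42985285379) (nat_lit 76) (nat_lit 5764792959) (nat_lit 152) (nat_lit 7714601260) (nat_lit 37) (nat_lit 5) (nat_lit 38) (nat_lit 5) (nat_lit 39) (nat_lit 4) (nat_lit 472) (nat_lit 353) (nat_lit 195))) (XT.nd (nat_lit 78) (nat_lit 0) (nat_lit 0) (XT.lf (nat_lit 0) (nat_lit 4209189558) (nat_lit 152) (nat_lit 45817281433) (nat_lit 76) (nat_lit 7725800317) (nat_lit 35) (nat_lit 5) (nat_lit 37) (nat_lit 5) (nat_lit 36) (nat_lit 4) (nat_lit 473) (nat_lit 353) (nat_lit 194)) (XT.lf (nat_lit 0) (nat_lit 16522886335) (nat_lit 152) (nat_lit 20835012440) (nat_lit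 76) (nat_lit 21712683453) (nat_lit 35) (nat_lit 5) (nat_lit 37) (nat_lit 5) (nat_lit 36) (nat_lit 4) (nat_lit 474) (nat_lit 353) (nat_lit 193)))))) (XT.nd (nat_lit 546) (nat_lit 304) (nat_lit 0) (XT.nd (nat_lit 234) (nat_lit 228) (nat_lit 0) (XT.nd (nat_lit 78) (nat_lit 0) (nat_lit 0) (XT.lf (nat_lit 0) (nat_lit 4980397525) (nat_lit 76) (nat_lit 24266391305) (nat_lit 152) (nat_lit 31180430159) (nat_lit 34) (nat_lit 5) (nat_lit 35) (nat_lit 5) (nat_lit 36) (nat_lit 4) (nat_lit 475) (nat_lit 353) (nat_lit 192)) (XT.nd (nat_lit 78) (nat_lit 0) (nat_lit 0) (XT.lf (nat_lit 0) (nat_lit 31983987005) (nat_lit 76) (nat_lit 10571811949) (nat_lit 152) (nat_lit 19262654532) (nat_lit 34) (nat_lit 5) (nat_lit 35) (nat_lit 5) (nat_lit 36) (nat_lit 4) (nat_lit 476) (nat_lit 353) (nat_lit 191)) (XT.lf (nat_lit 0) (nat_lit 56291188756) (nat_lit 152) (nat_lit 3500843184) (nat_lit 0) (nat_lit 3458580133) (nat_lit 34) (nat_lit 5) (nat_lit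 36) (nat_lit 4) (nat_lit 34) (nat_lit 4) (nat_lit 477) (nat_lit 353) (nat_lit 190)))) (XT.nd (nat_lit 156) (nat_lit 76) (nat_lit 0) (XT.nd (nat_lit 78) (nat_lit 0) (nat_lit 0) (XT.lf (nat_lit 0) (nat_lit 5933135326) (nat_lit 152) (nat_lit 40800882328) (nat_lit 76) (nat_lit 17980119307) (nat_lit 32) (nat_lit 5) (nat_lit 34) (nat_lit 5) (nat_lit 33) (nat_lit 4) (nat_lit 478) (nat_lit 353) (nat_lit 189)) (XT.lf (nat_lit 0) (nat_lit 19101643851) (nat_lit 152) (nat_lit 14080983245) (nat_lit 76) (nat_lit 33036002135) (nat_lit 32) (nat_lit 5) (nat_lit 34) (nat_lit 5) (nat_lit 33) (nat_lit 4) (nat_lit 479) (nat_lit 353) (nat_lit 188))) (XT.nd (nat_lit 78) (nat_lit 0) (nat_lit 0) (XT.lf (nat_lit 0) (nat_lit 13695370229) (nat_lit 76) (nat_lit 19095028370) (nat_lit 152) (nat_lit 34974102242) (nat_lit 31) (nat_lit 5) (nat_lit 32) (nat_lit 5) (nat_lit 33) (nat_lit 4) (nat_lit 480) (nat_lit 353) (nat_lit 187)) (XT.lf (nat_lit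 0) (nat_lit 42581393534) (nat_lit 76) (nat_lit 4444225624) (nat_lit 152) (nat_lit 22327055635) (nat_lit 31) (nat_lit 5) (nat_lit 32) (nat_lit 5) (nat_lit 33) (nat_lit 4) (nat_lit 481) (nat_lit 353) (nat_lit 186))))) (XT.nd (nat_lit 312) (nat_lit 76) (nat_lit 0) (XT.nd (nat_lit 156) (nat_lit 76) (nat_lit 0) (XT.nd (nat_lit 78) (nat_lit 76) (nat_lit 0) (XT.lf (nat_lit 0) (nat_lit 1255627275) (nat_lit 76) (nat_lit 60540419760) (nat_lit 76) (nat_lit 9189202691) (nat_lit 30) (nat_lit 4) (nat_lit 31) (nat_lit 5) (nat_lit 31) (nat_lit 4) (nat_lit 482) (nat_lit 353) (nat_lit 185)) (XT.lf (nat_lit 0) (nat_lit 4568808803) (nat_lit 152) (nat_lit 42087035927) (nat_lit 76) (nat_lit 26000382088) (nat_lit 29) (nat_lit 5) (nat_lit 31) (nat_lit 5) (nat_lit 30) (nat_lit 4) (nat_lit 483) (nat_lit 353) (nat_lit 184))) (XT.nd (nat_lit 78) (nat_lit 76) (nat_lit 0) (XT.lf (nat_lit 0) (nat_lit 18548798870) (nat_lit 152) (nat_lit 13717850974)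 (nat_lit 76) (nat_lit 42108136208) (nat_lit 29) (nat_lit 5) (nat_lit 31) (nat_lit 5) (nat_lit 30) (nat_lit 4) (nat_lit 484) (nat_lit 353) (nat_lit 183)) (XT.lf (nat_lit 0) (nat_lit 15799355587) (nat_lit 76) (nat_lit 17294814960) (nat_lit 152) (nat_lit 43046352309) (nat_lit 28) (nat_lit 5) (nat_lit 29) (nat_lit 5) (nat_lit 30) (nat_lit 4) (nat_lit 485) (nat_lit 353) (nat_lit 182)))) (XT.nd (nat_lit 156) (nat_lit 76) (nat_lit 0) (XT.nd (nat_lit 78) (nat_lit 0) (nat_lit 0) (XT.lf (nat_lit 0) (nat_lit 46472035903) (nat_lit 76) (nat_lit 1736563201) (nat_lit 152) (nat_lit 29746652032) (nat_lit 28) (nat_lit 5) (nat_lit 29) (nat_lit 5) (nat_lit 30) (nat_lit 4) (nat_lit 486) (nat_lit 353) (nat_lit 181)) (XT.lf (nat_lit 0) (nat_lit 63908101219) (nat_lit 152) (nat_lit 1907910658) (nat_lit 0) (nat_lit 14004460403) (nat_lit 28) (nat_lit 5) (nat_lit 30) (nat_lit 4) (nat_lit 28) (nat_lit 4) (nat_lit 487) (nat_lit 353) (nat_lit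 180))) (XT.nd (nat_lit 42666) (nat_lit 0) (nat_lit 23864) (XT.lf (nat_lit 0) (nat_lit 29094482126) (nat_lit 76) (nat_lit 51275431706) (nat_lit 76) (nat_lit 1362996694) (nat_lit 27) (nat_lit 4) (nat_lit 28) (nat_lit 5) (nat_lit 28) (nat_lit 4) (nat_lit 488) (nat_lit 353) (nat_lit 179)) (XT.lf (nat_lit 0) (nat_lit 2575835482) (nat_lit 836) (nat_lit 531293018) (nat_lit 836) (nat_lit 531293018) (nat_lit 341) (nat_lit 3) (nat_lit 352) (nat_lit 3) (nat_lit 352) (nat_lit 5) (nat_lit 354) (nat_lit 354) (nat_lit 312))))))))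
noncomputable def xc135 : XT := (XT.nd (nat_lit 2262) (nat_lit 7220) (nat_lit 0) (XT.nd (nat_lit 1092) (nat_lit 6916) (nat_lit 0) (XT.nd (nat_lit 546) (nat_lit 912) (nat_lit 0) (XT.nd (nat_lit 234) (nat_lit 760) (nat_lit 0) (XT.nd (nat_lit 78) (nat_lit 836) (nat_lit 0) (XT.lf (nat_lit 76) (nat_lit 2538968376) (nat_lit 0) (nat_lit 4273034070) (nat_lit 836) (nat_lit 525834940) (nat_lit 342) (nat_lit 5) (nat_lit 341) (nat_lit 3) (nat_lit 352) (nat_lit 5) (nat_lit 355) (nat_lit 354) (nat_lit 311)) (XT.nd (nat_lit 78) (nat_lit 0) (nat_lit 0) (XT.lf (nat_lit 0) (nat_lit 1048666574) (nat_lit 836) (nat_lit 1174093511) (nat_lit 912) (nat_lit 5179131273) (nat_lit 330) (nat_lit 5) (nat_lit 341) (nat_lit 3) (nat_lit 342) (nat_lit 5) (nat_lit 356) (nat_lit 354) (nat_lit 310)) (XT.lf (nat_lit 76) (nat_lit 2572159974) (nat_lit 0) (nat_lit 52430791) (nat_lit 912) (nat_lit 4844201827) (nat_lit 331) (nat_lit 5) (nat_lit 330) (nat_lit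 5) (nat_lit 342) (nat_lit 5) (nat_lit 357) (nat_lit 354) (nat_lit 309)))) (XT.nd (nat_lit 156) (nat_lit 836) (nat_lit 0) (XT.nd (nat_lit 78) (nat_lit 0) (nat_lit 0) (XT.lf (nat_lit 0) (nat_lit 4222477066) (nat_lit 836) (nat_lit 1137548378) (nat_lit 912) (nat_lit 2178458694) (nat_lit 331) (nat_lit 5) (nat_lit 342) (nat_lit 5) (nat_lit 343) (nat_lit 5) (nat_lit 358) (nat_lit 354) (nat_lit 308)) (XT.lf (nat_lit 76) (nat_lit 2754559850) (nat_lit 0) (nat_lit 3084161565) (nat_lit 912) (nat_lit 1772455489) (nat_lit 332) (nat_lit 5) (nat_lit 331) (nat_lit 5) (nat_lit 343) (nat_lit 5) (nat_lit 359) (nat_lit 354) (nat_lit 307))) (XT.nd (nat_lit 78) (nat_lit 836) (nat_lit 0) (XT.lf (nat_lit 76) (nat_lit 6754092488) (nat_lit 0) (nat_lit 705605369) (nat_lit 912) (nat_lit 227687693) (nat_lit 332) (nat_lit 5) (nat_lit 331) (nat_lit 5) (nat_lit 343) (nat_lit 5) (nat_lit 360) (nat_lit 354) (nat_lit 306)) (XT.lf (nat_lit 0) (nat_lit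 1330049873) (nat_lit 912) (nat_lit 4660878337) (nat_lit 988) (nat_lit 1774783255) (nat_lit 320) (nat_lit 5) (nat_lit 332) (nat_lit 5) (nat_lit 333) (nat_lit 5) (nat_lit 361) (nat_lit 354) (nat_lit 305))))) (XT.nd (nat_lit 234) (nat_lit 912) (nat_lit 0) (XT.nd (nat_lit 78) (nat_lit 0) (nat_lit 0) (XT.lf (nat_lit 0) (nat_lit 2893723971) (nat_lit 912) (nat_lit 606492333) (nat_lit 988) (nat_lit 4347210340) (nat_lit 320) (nat_lit 5) (nat_lit 332) (nat_lit 5) (nat_lit 333) (nat_lit 5) (nat_lit 362) (nat_lit 354) (nat_lit 304)) (XT.nd (nat_lit 78) (nat_lit 0) (nat_lit 76) (XT.lf (nat_lit 76) (nat_lit 3606613197) (nat_lit 0) (nat_lit 881176465) (nat_lit 988) (nat_lit 3444319115) (nat_lit 321) (nat_lit 5) (nat_lit 320) (nat_lit 5) (nat_lit 333) (nat_lit 5) (nat_lit 363) (nat_lit 354) (nat_lit 303)) (XT.lf (nat_lit 0) (nat_lit 6103473351) (nat_lit 912) (nat_lit 112771921) (nat_lit 988) (nat_lit 1803891580) (nat_lit 321)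 (nat_lit 5) (nat_lit 333) (nat_lit 5) (nat_lit 334) (nat_lit 5) (nat_lit 364) (nat_lit 354) (nat_lit 302)))) (XT.nd (nat_lit 156) (nat_lit 0) (nat_lit 76) (XT.nd (nat_lit 78) (nat_lit 988) (nat_lit 0) (XT.lf (nat_lit 76) (nat_lit 4267239944) (nat_lit 0) (nat_lit 3501733703) (nat_lit 988) (nat_lit 341810532) (nat_lit 322) (nat_lit 5) (nat_lit 321) (nat_lit 5) (nat_lit 334) (nat_lit 5) (nat_lit 365) (nat_lit 354) (nat_lit 301)) (XT.lf (nat_lit 76) (nat_lit 540804633) (nat_lit 0) (nat_lit 673054385) (nat_lit 1064) (nat_lit 6991183794) (nat_lit 309) (nat_lit 5) (nat_lit 308) (nat_lit 5) (nat_lit 322) (nat_lit 5) (nat_lit 366) (nat_lit 354) (nat_lit 300))) (XT.nd (nat_lit 78) (nat_lit 0) (nat_lit 0) (XT.lf (nat_lit 0) (nat_lit 2823456221) (nat_lit 988) (nat_lit 3226280712) (nat_lit 1064) (nat_lit 2251884116) (nat_lit 309) (nat_lit 5) (nat_lit 322) (nat_lit 5) (nat_lit 323) (nat_lit 5) (nat_lit 367) (nat_lit 354) (nat_lit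 299)) (XT.lf (nat_lit 76) (nat_lit 1329648017) (nat_lit 0) (nat_lit 3125890229) (nat_lit 1064) (nat_lit 3946349179) (nat_lit 310) (nat_lit 5) (nat_lit 309) (nat_lit 5) (nat_lit 323) (nat_lit 5) (nat_lit 368) (nat_lit 354) (nat_lit 298)))))) (XT.nd (nat_lit 546) (nat_lit 2584) (nat_lit 0) (XT.nd (nat_lit 234) (nat_lit 3420) (nat_lit 0) (XT.nd (nat_lit 78) (nat_lit 988) (nat_lit 0) (XT.lf (nat_lit 76) (nat_lit 6054278165) (nat_lit 0) (nat_lit 70625297) (nat_lit 1064) (nat_lit 2380624919) (nat_lit 310) (nat_lit 5) (nat_lit 309) (nat_lit 5) (nat_lit 323) (nat_lit 5) (nat_lit 369) (nat_lit 354) (nat_lit 297)) (XT.nd (nat_lit 78) (nat_lit 76) (nat_lit 0) (XT.lf (nat_lit 0) (nat_lit 2288944964) (nat_lit 988) (nat_lit 5564104057) (nat_lit 1064) (nat_lit 758984304) (nat_lit 297) (nat_lit 5) (nat_lit 310) (nat_lit 5) (nat_lit 311) (nat_lit 5) (nat_lit 370) (nat_lit 354) (nat_lit 296)) (XT.lf (nat_lit 0) (nat_lit 876835073)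 (nat_lit 1064) (nat_lit 1544138927) (nat_lit 76) (nat_lit 6301012080) (nat_lit 296) (nat_lit 5) (nat_lit 310) (nat_lit 5) (nat_lit 297) (nat_lit 5) (nat_lit 371) (nat_lit 354) (nat_lit 295)))) (XT.nd (nat_lit 156) (nat_lit 2356) (nat_lit 0) (XT.nd (nat_lit 78) (nat_lit 0) (nat_lit 0) (XT.lf (nat_lit 0) (nat_lit 2546351238) (nat_lit 1140) (nat_lit 5440541917) (nat_lit 76) (nat_lit 848136916) (nat_lit 282) (nat_lit 5) (nat_lit 297) (nat_lit 5) (nat_lit 283) (nat_lit 5) (nat_lit 372) (nat_lit 354) (nat_lit 294)) (XT.lf (nat_lit 0) (nat_lit 4265457955) (nat_lit 1140) (nat_lit 497164180) (nat_lit 76) (nat_lit 4188872079) (nat_lit 282) (nat_lit 5) (nat_lit 297) (nat_lit 5) (nat_lit 283) (nat_lit 5) (nat_lit 373) (nat_lit 354) (nat_lit 293))) (XT.nd (nat_lit 78) (nat_lit 1216) (nat_lit 0) (XT.lf (nat_lit 0) (nat_lit 4651328041) (nat_lit 1140) (nat_lit 1390480340) (nat_lit 1216) (nat_lit 3029487362) (nat_lit 267) (nat_lit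 5) (nat_lit 282) (nat_lit 5) (nat_lit 283) (nat_lit 5) (nat_lit 374) (nat_lit 354) (nat_lit 292)) (XT.lf (nat_lit 0) (nat_lit 729262688) (nat_lit 1216) (nat_lit 7136105590) (nat_lit 1292) (nat_lit 1329518654) (nat_lit 251) (nat_lit 5) (nat_lit 267) (nat_lit 5) (nat_lit 268) (nat_lit 5) (nat_lit 375) (nat_lit 354) (nat_lit 291))))) (XT.nd (nat_lit 312) (nat_lit 1216) (nat_lit 0) (XT.nd (nat_lit 156) (nat_lit 608) (nat_lit 0) (XT.nd (nat_lit 78) (nat_lit 684) (nat_lit 0) (XT.lf (nat_lit 0) (nat_lit 434282327) (nat_lit 1292) (nat_lit 3250777612) (nat_lit 76) (nat_lit 5636385089) (nat_lit 250) (nat_lit 5) (nat_lit 267) (nat_lit 5) (nat_lit 251) (nat_lit 5) (nat_lit 376) (nat_lit 354) (nat_lit 290)) (XT.lf (nat_lit 0) (nat_lit 2114391354) (nat_lit 684) (nat_lit 93524481) (nat_lit 760) (nat_lit 7243991975) (nat_lit 241) (nat_lit 5) (nat_lit 250) (nat_lit 5) (nat_lit 251) (nat_lit 5) (nat_lit 377) (nat_lit 354) (nat_lit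 289))) (XT.nd (nat_lit 78) (nat_lit 608) (nat_lit 0) (XT.lf (nat_lit 0) (nat_lit 4066648817) (nat_lit 760) (nat_lit 1948125462) (nat_lit 76) (nat_lit 3570565192) (nat_lit 241) (nat_lit 5) (nat_lit 251) (nat_lit 5) (nat_lit 242) (nat_lit 5) (nat_lit 378) (nat_lit 354) (nat_lit 288)) (XT.lf (nat_lit 0) (nat_lit 3639058464) (nat_lit 608) (nat_lit 2343116664) (nat_lit 684) (nat_lit 3740579387) (nat_lit 233) (nat_lit 5) (nat_lit 241) (nat_lit 5) (nat_lit 242) (nat_lit 5) (nat_lit 379) (nat_lit 354) (nat_lit 287)))) (XT.nd (nat_lit 156) (nat_lit 532) (nat_lit 0) (XT.nd (nat_lit 78) (nat_lit 684) (nat_lit 0) (XT.lf (nat_lit 0) (nat_lit 7954685950) (nat_lit 684) (nat_lit 478616237) (nat_lit 76) (nat_lit 1431015300) (nat_lit 233) (nat_lit 5) (nat_lit 242) (nat_lit 5) (nat_lit 234) (nat_lit 5) (nat_lit 380) (nat_lit 354) (nat_lit 286)) (XT.lf (nat_lit 0) (nat_lit 18474571) (nat_lit 684) (nat_lit 4667092439) (nat_lit 76)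 (nat_lit 5323324607) (nat_lit 224) (nat_lit 5) (nat_lit 233) (nat_lit 5) (nat_lit 225) (nat_lit 5) (nat_lit 381) (nat_lit 354) (nat_lit 285))) (XT.nd (nat_lit 78) (nat_lit 0) (nat_lit 0) (XT.lf (nat_lit 0) (nat_lit 1158627567) (nat_lit 532) (nat_lit 790564189) (nat_lit 608) (nat_lit 8208559612) (nat_lit 217) (nat_lit 5) (nat_lit 224) (nat_lit 5) (nat_lit 225) (nat_lit 5) (nat_lit 382) (nat_lit 354) (nat_lit 284)) (XT.lf (nat_lit 0) (nat_lit 3984141611) (nat_lit 608) (nat_lit 3120940899) (nat_lit 76) (nat_lit 3204614876) (nat_lit 217) (nat_lit 5) (nat_lit 225) (nat_lit 5) (nat_lit 218) (nat_lit 5) (nat_lit 383) (nat_lit 354) (nat_lit 283))))))) (XT.nd (nat_lit 1092) (nat_lit 3268) (nat_lit 0) (XT.nd (nat_lit 546) (nat_lit 1900) (nat_lit 0) (XT.nd (nat_lit 234) (nat_lit 1064) (nat_lit 0) (XT.nd (nat_lit 78) (nat_lit 456) (nat_lit 0) (XT.lf (nat_lit 0) (nat_lit 2949691838) (nat_lit 532) (nat_lit 3135320078) (nat_lit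 608) (nat_lit 4381053233) (nat_lit 210) (nat_lit 5) (nat_lit 217) (nat_lit 5) (nat_lit 218) (nat_lit 5) (nat_lit 384) (nat_lit 354) (nat_lit 282)) (XT.nd (nat_lit 78) (nat_lit 456) (nat_lit 0) (XT.lf (nat_lit 0) (nat_lit 8259159109) (nat_lit 608) (nat_lit 1403440390) (nat_lit 76) (nat_lit 964226167) (nat_lit 210) (nat_lit 5) (nat_lit 218) (nat_lit 5) (nat_lit 211) (nat_lit 5) (nat_lit 385) (nat_lit 354) (nat_lit 281)) (XT.lf (nat_lit 0) (nat_lit 4924729484) (nat_lit 456) (nat_lit 5622336333) (nat_lit 532) (nat_lit 243896106) (nat_lit 204) (nat_lit 5) (nat_lit 210) (nat_lit 5) (nat_lit 211) (nat_lit 5) (nat_lit 386) (nat_lit 354) (nat_lit 280)))) (XT.nd (nat_lit 156) (nat_lit 456) (nat_lit 0) (XT.nd (nat_lit 78) (nat_lit 0) (nat_lit 0) (XT.lf (nat_lit 0) (nat_lit 468761130) (nat_lit 532) (nat_lit 1426125751) (nat_lit 608) (nat_lit 9064906585) (nat_lit 196) (nat_lit 5) (nat_lit 203) (nat_lit 5) (nat_lit 204) (nat_lit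 5) (nat_lit 387) (nat_lit 354) (nat_lit 279)) (XT.lf (nat_lit 0) (nat_lit 4151504395) (nat_lit 608) (nat_lit 4082686830) (nat_lit 76) (nat_lit 2897677305) (nat_lit 196) (nat_lit 5) (nat_lit 204) (nat_lit 5) (nat_lit 197) (nat_lit 5) (nat_lit 388) (nat_lit 354) (nat_lit 278))) (XT.nd (nat_lit 78) (nat_lit 0) (nat_lit 0) (XT.lf (nat_lit 0) (nat_lit 2519961188) (nat_lit 456) (nat_lit 3965961260) (nat_lit 532) (nat_lit 4822888316) (nat_lit 190) (nat_lit 5) (nat_lit 196) (nat_lit 5) (nat_lit 197) (nat_lit 5) (nat_lit 389) (nat_lit 354) (nat_lit 277)) (XT.lf (nat_lit 0) (nat_lit 8908364284) (nat_lit 532) (nat_lit 2123459342) (nat_lit 76) (nat_lit 458705642) (nat_lit 190) (nat_lit 5) (nat_lit 197) (nat_lit 5) (nat_lit 191) (nat_lit 5) (nat_lit 390) (nat_lit 354) (nat_lit 276))))) (XT.nd (nat_lit 234) (nat_lit 912) (nat_lit 0) (XT.nd (nat_lit 78) (nat_lit 532) (nat_lit 0) (XT.lf (nat_lit 0) (nat_lit 4763075291) (nat_lit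 456) (nat_lit 6698485226) (nat_lit 532) (nat_lit 214403895) (nat_lit 184) (nat_lit 5) (nat_lit 190) (nat_lit 5) (nat_lit 191) (nat_lit 5) (nat_lit 391) (nat_lit 354) (nat_lit 275)) (XT.nd (nat_lit 78) (nat_lit 456) (nat_lit 0) (XT.lf (nat_lit 0) (nat_lit 2175874641) (nat_lit 532) (nat_lit 20895324) (nat_lit 76) (nat_lit 9669711550) (nat_lit 183) (nat_lit 5) (nat_lit 190) (nat_lit 5) (nat_lit 184) (nat_lit 5) (nat_lit 392) (nat_lit 354) (nat_lit 274)) (XT.lf (nat_lit 0) (nat_lit 4700729688) (nat_lit 532) (nat_lit 4901308145) (nat_lit 76) (nat_lit 2458604171) (nat_lit 177) (nat_lit 5) (nat_lit 184) (nat_lit 5) (nat_lit 178) (nat_lit 5) (nat_lit 393) (nat_lit 354) (nat_lit 273)))) (XT.nd (nat_lit 156) (nat_lit 456) (nat_lit 0) (XT.nd (nat_lit 78) (nat_lit 0) (nat_lit 0) (XT.lf (nat_lit 0) (nat_lit 2285454783) (nat_lit 456) (nat_lit 5034220619) (nat_lit 532) (nat_lit 4940408234) (nat_lit 171) (nat_lit 5) (nat_lit 177)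 (nat_lit 5) (nat_lit 178) (nat_lit 5) (nat_lit 394) (nat_lit 354) (nat_lit 272)) (XT.lf (nat_lit 0) (nat_lit 9756440320) (nat_lit 456) (nat_lit 285094388) (nat_lit 532) (nat_lit 2423249937) (nat_lit 171) (nat_lit 5) (nat_lit 177) (nat_lit 5) (nat_lit 178) (nat_lit 5) (nat_lit 395) (nat_lit 354) (nat_lit 271))) (XT.nd (nat_lit 78) (nat_lit 0) (nat_lit 0) (XT.lf (nat_lit 0) (nat_lit 232644146) (nat_lit 456) (nat_lit 7882349789) (nat_lit 76) (nat_lit 4558594190) (nat_lit 165) (nat_lit 5) (nat_lit 171) (nat_lit 5) (nat_lit 166) (nat_lit 5) (nat_lit 396) (nat_lit 354) (nat_lit 270)) (XT.lf (nat_lit 0) (nat_lit 2925642028) (nat_lit 456) (nat_lit 375375144) (nat_lit 76) (nat_lit 9586740737) (nat_lit 165) (nat_lit 5) (nat_lit 171) (nat_lit 5) (nat_lit 166) (nat_lit 5) (nat_lit 397) (nat_lit 354) (nat_lit 269)))))) (XT.nd (nat_lit 546) (nat_lit 1368) (nat_lit 0) (XT.nd (nat_lit 234) (nat_lit 1140) (nat_lit 0) (XT.nd (nat_lit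 78) (nat_lit 380) (nat_lit 0) (XT.lf (nat_lit 0) (nat_lit 5764223576) (nat_lit 456) (nat_lit 5651730556) (nat_lit 76) (nat_lit 1690460606) (nat_lit 160) (nat_lit 5) (nat_lit 166) (nat_lit 5) (nat_lit 161) (nat_lit 5) (nat_lit 398) (nat_lit 354) (nat_lit 268)) (XT.nd (nat_lit 78) (nat_lit 0) (nat_lit 0) (XT.lf (nat_lit 0) (nat_lit 2174347211) (nat_lit 380) (nat_lit 6547748613) (nat_lit 456) (nat_lit 4608517042) (nat_lit 155) (nat_lit 5) (nat_lit 160) (nat_lit 5) (nat_lit 161) (nat_lit 5) (nat_lit 399) (nat_lit 354) (nat_lit 267)) (XT.lf (nat_lit 0) (nat_lit 10320184149) (nat_lit 380) (nat_lit 1482693386) (nat_lit 456) (nat_lit 1757639637) (nat_lit 155) (nat_lit 5) (nat_lit 160) (nat_lit 5) (nat_lit 161) (nat_lit 5) (nat_lit 400) (nat_lit 354) (nat_lit 266)))) (XT.nd (nat_lit 156) (nat_lit 684) (nat_lit 0) (XT.nd (nat_lit 78) (nat_lit 0) (nat_lit 0) (XT.lf (nat_lit 0) (nat_lit 1217468598) (nat_lit 456) (nat_lit 8864365101)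 (nat_lit 76) (nat_lit 3713298902) (nat_lit 149) (nat_lit 5) (nat_lit 155) (nat_lit 5) (nat_lit 150) (nat_lit 5) (nat_lit 401) (nat_lit 354) (nat_lit 265)) (XT.lf (nat_lit 0) (nat_lit 4272059060) (nat_lit 456) (nat_lit 685509532) (nat_lit 76) (nat_lit 9077934126) (nat_lit 149) (nat_lit 5) (nat_lit 155) (nat_lit 5) (nat_lit 150) (nat_lit 5) (nat_lit 402) (nat_lit 354) (nat_lit 264))) (XT.nd (nat_lit 78) (nat_lit 380) (nat_lit 0) (XT.lf (nat_lit 0) (nat_lit 7476089496) (nat_lit 380) (nat_lit 6422910174) (nat_lit 76) (nat_lit 382355028) (nat_lit 145) (nat_lit 5) (nat_lit 150) (nat_lit 5) (nat_lit 146) (nat_lit 5) (nat_lit 403) (nat_lit 354) (nat_lit 263)) (XT.lf (nat_lit 0) (nat_lit 2100127179) (nat_lit 380) (nat_lit 8731116114) (nat_lit 456) (nat_lit 3701693553) (nat_lit 140) (nat_lit 5) (nat_lit 145) (nat_lit 5) (nat_lit 146) (nat_lit 5) (nat_lit 404) (nat_lit 354) (nat_lit 262))))) (XT.nd (nat_lit 312) (nat_lit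 684) (nat_lit 0) (XT.nd (nat_lit 156) (nat_lit 304) (nat_lit 0) (XT.nd (nat_lit 78) (nat_lit 380) (nat_lit 0) (XT.lf (nat_lit 0) (nat_lit 10980718667) (nat_lit 380) (nat_lit 3350263693) (nat_lit 456) (nat_lit 459770728) (nat_lit 140) (nat_lit 5) (nat_lit 145) (nat_lit 5) (nat_lit 146) (nat_lit 5) (nat_lit 405) (nat_lit 354) (nat_lit 261)) (XT.lf (nat_lit 0) (nat_lit 2873605796) (nat_lit 380) (nat_lit 9962168924) (nat_lit 76) (nat_lit 2218191516) (nat_lit 135) (nat_lit 5) (nat_lit 140) (nat_lit 5) (nat_lit 136) (nat_lit 5) (nat_lit 406) (nat_lit 354) (nat_lit 260))) (XT.nd (nat_lit 78) (nat_lit 304) (nat_lit 0) (XT.lf (nat_lit 0) (nat_lit 6349477707) (nat_lit 380) (nat_lit 1052822311) (nat_lit 76) (nat_lit 7921091304) (nat_lit 135) (nat_lit 5) (nat_lit 140) (nat_lit 5) (nat_lit 136) (nat_lit 5) (nat_lit 407) (nat_lit 354) (nat_lit 259)) (XT.lf (nat_lit 0) (nat_lit 8256191690) (nat_lit 304) (nat_lit 1733097934) (nat_lit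 380) (nat_lit 5609823665) (nat_lit 131) (nat_lit 5) (nat_lit 135) (nat_lit 5) (nat_lit 136) (nat_lit 5) (nat_lit 408) (nat_lit 354) (nat_lit 258)))) (XT.nd (nat_lit 156) (nat_lit 304) (nat_lit 0) (XT.nd (nat_lit 78) (nat_lit 76) (nat_lit 0) (XT.lf (nat_lit 0) (nat_lit 1952862499) (nat_lit 304) (nat_lit 11834927111) (nat_lit 380) (nat_lit 2093836414) (nat_lit 127) (nat_lit 5) (nat_lit 131) (nat_lit 5) (nat_lit 132) (nat_lit 5) (nat_lit 409) (nat_lit 354) (nat_lit 257)) (XT.lf (nat_lit 0) (nat_lit 1570475647) (nat_lit 380) (nat_lit 4553969224) (nat_lit 76) (nat_lit 10045552791) (nat_lit 126) (nat_lit 5) (nat_lit 131) (nat_lit 5) (nat_lit 127) (nat_lit 5) (nat_lit 410) (nat_lit 354) (nat_lit 256))) (XT.nd (nat_lit 78) (nat_lit 0) (nat_lit 0) (XT.lf (nat_lit 0) (nat_lit 5153706872) (nat_lit 304) (nat_lit 179643560) (nat_lit 380) (nat_lit 11132130153) (nat_lit 122) (nat_lit 5) (nat_lit 126) (nat_lit 5) (nat_lit 127)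 (nat_lit 5) (nat_lit 411) (nat_lit 354) (nat_lit 255)) (XT.lf (nat_lit 0) (nat_lit 9294052016) (nat_lit 380) (nat_lit 1608462683) (nat_lit 76) (nat_lit 5864768567) (nat_lit 122) (nat_lit 5) (nat_lit 127) (nat_lit 5) (nat_lit 123) (nat_lit 5) (nat_lit 412) (nat_lit 354) (nat_lit 254))))))))
noncomputable def xc136 : XT := (XT.nd (nat_lit 2184) (nat_lit 2280) (nat_lit 0) (XT.nd (nat_lit 1092) (nat_lit 1672) (nat_lit 0) (XT.nd (nat_lit 546) (nat_lit 912) (nat_lit 0) (XT.nd (nat_lit 234) (nat_lit 760) (nat_lit 0) (XT.nd (nat_lit 78) (nat_lit 380) (nat_lit 0) (XT.lf (nat_lit 0) (nat_lit 8522917238) (nat_lit 228) (nat_lit 4916272785) (nat_lit 304) (nat_lit 3636984928) (nat_lit 119) (nat_lit 5) (nat_lit 122) (nat_lit 5) (nat_lit 123) (nat_lit 5) (nat_lit 413) (nat_lit 354) (nat_lit 253)) (XT.nd (nat_lit 78) (nat_lit 0) (nat_lit 0) (XT.lf (nat_lit 0) (nat_lit 334233123) (nat_lit 380) (nat_lit 15808393540) (nat_lit 76)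 (nat_lit 1250838709) (nat_lit 114) (nat_lit 5) (nat_lit 119) (nat_lit 5) (nat_lit 115) (nat_lit 5) (nat_lit 414) (nat_lit 354) (nat_lit 252)) (XT.lf (nat_lit 0) (nat_lit 4469552779) (nat_lit 380) (nat_lit 5628167133) (nat_lit 76) (nat_lit 7617935452) (nat_lit 114) (nat_lit 5) (nat_lit 119) (nat_lit 5) (nat_lit 115) (nat_lit 5) (nat_lit 415) (nat_lit 354) (nat_lit 251)))) (XT.nd (nat_lit 156) (nat_lit 532) (nat_lit 0) (XT.nd (nat_lit 78) (nat_lit 0) (nat_lit 0) (XT.lf (nat_lit 0) (nat_lit 4926584440) (nat_lit 228) (nat_lit 3832387063) (nat_lit 304) (nat_lit 9287641375) (nat_lit 111) (nat_lit 5) (nat_lit 114) (nat_lit 5) (nat_lit 115) (nat_lit 5) (nat_lit 416) (nat_lit 354) (nat_lit 250)) (XT.lf (nat_lit 0) (nat_lit 13242499016) (nat_lit 304) (nat_lit 2525374236) (nat_lit 76) (nat_lit 2617665999) (nat_lit 111) (nat_lit 5) (nat_lit 115) (nat_lit 5) (nat_lit 112) (nat_lit 5) (nat_lit 417) (nat_lit 354) (nat_lit 249)))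 (XT.nd (nat_lit 78) (nat_lit 304) (nat_lit 0) (XT.lf (nat_lit 0) (nat_lit 8488432402) (nat_lit 228) (nat_lit 9474976611) (nat_lit 304) (nat_lit 768140935) (nat_lit 108) (nat_lit 5) (nat_lit 111) (nat_lit 5) (nat_lit 112) (nat_lit 5) (nat_lit 418) (nat_lit 354) (nat_lit 248)) (XT.lf (nat_lit 0) (nat_lit 749223634) (nat_lit 228) (nat_lit 2932200669) (nat_lit 304) (nat_lit 15404950550) (nat_lit 104) (nat_lit 5) (nat_lit 107) (nat_lit 5) (nat_lit 108) (nat_lit 5) (nat_lit 419) (nat_lit 354) (nat_lit 247))))) (XT.nd (nat_lit 234) (nat_lit 684) (nat_lit 0) (XT.nd (nat_lit 78) (nat_lit 228) (nat_lit 0) (XT.lf (nat_lit 0) (nat_lit 8373633078) (nat_lit 304) (nat_lit 7239252370) (nat_lit 76) (nat_lit 3834995625) (nat_lit 104) (nat_lit 5) (nat_lit 108) (nat_lit 5) (nat_lit 105) (nat_lit 5) (nat_lit 420) (nat_lit 354) (nat_lit 246)) (XT.nd (nat_lit 78) (nat_lit 0) (nat_lit 0) (XT.lf (nat_lit 0) (nat_lit 4219058923) (nat_lit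 228) (nat_lit 9041158499) (nat_lit 304) (nat_lit 6558409297) (nat_lit 101) (nat_lit 5) (nat_lit 104) (nat_lit 5) (nat_lit 105) (nat_lit 5) (nat_lit 421) (nat_lit 354) (nat_lit 245)) (XT.lf (nat_lit 0) (nat_lit 16143948418) (nat_lit 228) (nat_lit 2206794184) (nat_lit 304) (nat_lit 1848034277) (nat_lit 101) (nat_lit 5) (nat_lit 104) (nat_lit 5) (nat_lit 105) (nat_lit 5) (nat_lit 422) (nat_lit 354) (nat_lit 244)))) (XT.nd (nat_lit 156) (nat_lit 380) (nat_lit 0) (XT.nd (nat_lit 78) (nat_lit 0) (nat_lit 0) (XT.lf (nat_lit 0) (nat_lit 3053284843) (nat_lit 304) (nat_lit 12697916314) (nat_lit 76) (nat_lit 4835019157) (nat_lit 97) (nat_lit 5) (nat_lit 101) (nat_lit 5) (nat_lit 98) (nat_lit 5) (nat_lit 423) (nat_lit 354) (nat_lit 243)) (XT.lf (nat_lit 0) (nat_lit 8112364952) (nat_lit 304) (nat_lit 777014714) (nat_lit 76) (nat_lit 12093924750) (nat_lit 97) (nat_lit 5) (nat_lit 101) (nat_lit 5) (nat_lit 98) (nat_lit 5) (nat_lit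 424) (nat_lit 354) (nat_lit 242))) (XT.nd (nat_lit 78) (nat_lit 152) (nat_lit 0) (XT.lf (nat_lit 0) (nat_lit 11705409942) (nat_lit 228) (nat_lit 1715438157) (nat_lit 304) (nat_lit 7968526194) (nat_lit 94) (nat_lit 5) (nat_lit 97) (nat_lit 5) (nat_lit 98) (nat_lit 5) (nat_lit 425) (nat_lit 354) (nat_lit 241)) (XT.lf (nat_lit 0) (nat_lit 2745166712) (nat_lit 152) (nat_lit 16217489717) (nat_lit 228) (nat_lit 2842749827) (nat_lit 92) (nat_lit 5) (nat_lit 94) (nat_lit 5) (nat_lit 95) (nat_lit 5) (nat_lit 426) (nat_lit 354) (nat_lit 240)))))) (XT.nd (nat_lit 546) (nat_lit 760) (nat_lit 0) (XT.nd (nat_lit 234) (nat_lit 608) (nat_lit 0) (XT.nd (nat_lit 78) (nat_lit 228) (nat_lit 0) (XT.lf (nat_lit 0) (nat_lit 2490259728) (nat_lit 228) (nat_lit 6551361393) (nat_lit 76) (nat_lit 13188567005) (nat_lit 91) (nat_lit 5) (nat_lit 94) (nat_lit 5) (nat_lit 92) (nat_lit 5) (nat_lit 427) (nat_lit 354) (nat_lit 239)) (XT.nd (nat_lit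 78) (nat_lit 0) (nat_lit 0) (XT.lf (nat_lit 0) (nat_lit 6405671076) (nat_lit 228) (nat_lit 1567725172) (nat_lit 304) (nat_lit 14692056559) (nat_lit 88) (nat_lit 5) (nat_lit 91) (nat_lit 5) (nat_lit 92) (nat_lit 5) (nat_lit 428) (nat_lit 354) (nat_lit 238)) (XT.lf (nat_lit 0) (nat_lit 13732560765) (nat_lit 304) (nat_lit 3309725413) (nat_lit 76) (nat_lit 6068145108) (nat_lit 88) (nat_lit 5) (nat_lit 92) (nat_lit 5) (nat_lit 89) (nat_lit 5) (nat_lit 429) (nat_lit 354) (nat_lit 237)))) (XT.nd (nat_lit 156) (nat_lit 152) (nat_lit 0) (XT.nd (nat_lit 78) (nat_lit 304) (nat_lit 0) (XT.lf (nat_lit 0) (nat_lit 10188769355) (nat_lit 152) (nat_lit 9575401295) (nat_lit 228) (nat_lit 3801600174) (nat_lit 86) (nat_lit 5) (nat_lit 88) (nat_lit 5) (nat_lit 89) (nat_lit 5) (nat_lit 430) (nat_lit 354) (nat_lit 236)) (XT.lf (nat_lit 0) (nat_lit 85561482) (nat_lit 228) (nat_lit 1839327878) (nat_lit 304) (nat_lit 22108698114) (nat_lit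 82) (nat_lit 5) (nat_lit 85) (nat_lit 5) (nat_lit 86) (nat_lit 5) (nat_lit 431) (nat_lit 354) (nat_lit 235))) (XT.nd (nat_lit 78) (nat_lit 152) (nat_lit 0) (XT.lf (nat_lit 0) (nat_lit 7928434050) (nat_lit 304) (nat_lit 10406554652) (nat_lit 76) (nat_lit 6173872333) (nat_lit 82) (nat_lit 5) (nat_lit 86) (nat_lit 5) (nat_lit 83) (nat_lit 5) (nat_lit 432) (nat_lit 354) (nat_lit 234)) (XT.lf (nat_lit 0) (nat_lit 3569799476) (nat_lit 152) (nat_lit 10581545749) (nat_lit 228) (nat_lit 10845871389) (nat_lit 80) (nat_lit 5) (nat_lit 82) (nat_lit 5) (nat_lit 83) (nat_lit 5) (nat_lit 433) (nat_lit 354) (nat_lit 233))))) (XT.nd (nat_lit 234) (nat_lit 532) (nat_lit 0) (XT.nd (nat_lit 78) (nat_lit 228) (nat_lit 0) (XT.lf (nat_lit 0) (nat_lit 18156182195) (nat_lit 152) (nat_lit 2496750500) (nat_lit 228) (nat_lit 4844532067) (nat_lit 80) (nat_lit 5) (nat_lit 82) (nat_lit 5) (nat_lit 83) (nat_lit 5) (nat_lit 434) (nat_lit 354)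 (nat_lit 232)) (XT.nd (nat_lit 78) (nat_lit 0) (nat_lit 0) (XT.lf (nat_lit 0) (nat_lit 1424620394) (nat_lit 228) (nat_lit 18793052014) (nat_lit 76) (nat_lit 5791248117) (nat_lit 77) (nat_lit 5) (nat_lit 80) (nat_lit 5) (nat_lit 78) (nat_lit 5) (nat_lit 435) (nat_lit 354) (nat_lit 231)) (XT.lf (nat_lit 0) (nat_lit 7871294822) (nat_lit 228) (nat_lit 4268953192) (nat_lit 76) (nat_lit 14391429883) (nat_lit 77) (nat_lit 5) (nat_lit 80) (nat_lit 5) (nat_lit 78) (nat_lit 5) (nat_lit 436) (nat_lit 354) (nat_lit 230)))) (XT.nd (nat_lit 156) (nat_lit 380) (nat_lit 0) (XT.nd (nat_lit 78) (nat_lit 0) (nat_lit 0) (XT.lf (nat_lit 0) (nat_lit 10881595608) (nat_lit 152) (nat_lit 3721977189) (nat_lit 228) (nat_lit 12463780487) (nat_lit 75) (nat_lit 5) (nat_lit 77) (nat_lit 5) (nat_lit 78) (nat_lit 5) (nat_lit 437) (nat_lit 354) (nat_lit 229)) (XT.lf (nat_lit 0) (nat_lit 21616595375) (nat_lit 228) (nat_lit 1113314371) (nat_lit 76)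 (nat_lit 4886827253) (nat_lit 75) (nat_lit 5) (nat_lit 78) (nat_lit 5) (nat_lit 76) (nat_lit 5) (nat_lit 438) (nat_lit 354) (nat_lit 228))) (XT.nd (nat_lit 78) (nat_lit 152) (nat_lit 0) (XT.lf (nat_lit 0) (nat_lit 811816457) (nat_lit 228) (nat_lit 13546532033) (nat_lit 76) (nat_lit 13819048276) (nat_lit 72) (nat_lit 5) (nat_lit 75) (nat_lit 5) (nat_lit 73) (nat_lit 5) (nat_lit 439) (nat_lit 354) (nat_lit 227)) (XT.lf (nat_lit 0) (nat_lit 2075553030) (nat_lit 152) (nat_lit 5651347657) (nat_lit 228) (nat_lit 21025613730) (nat_lit 70) (nat_lit 5) (nat_lit 72) (nat_lit 5) (nat_lit 73) (nat_lit 5) (nat_lit 440) (nat_lit 354) (nat_lit 226))))))) (XT.nd (nat_lit 1092) (nat_lit 1064) (nat_lit 0) (XT.nd (nat_lit 546) (nat_lit 684) (nat_lit 0) (XT.nd (nat_lit 234) (nat_lit 380) (nat_lit 0) (XT.nd (nat_lit 78) (nat_lit 152) (nat_lit 0) (XT.lf (nat_lit 0) (nat_lit 15007588018) (nat_lit 228) (nat_lit 10951171501) (nat_lit 76)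 (nat_lit 3381382763) (nat_lit 70) (nat_lit 5) (nat_lit 73) (nat_lit 5) (nat_lit 71) (nat_lit 5) (nat_lit 441) (nat_lit 354) (nat_lit 225)) (XT.nd (nat_lit 78) (nat_lit 0) (nat_lit 0) (XT.lf (nat_lit 0) (nat_lit 5272802454) (nat_lit 152) (nat_lit 17328997953) (nat_lit 228) (nat_lit 7340746611) (nat_lit 68) (nat_lit 5) (nat_lit 70) (nat_lit 5) (nat_lit 71) (nat_lit 5) (nat_lit 442) (nat_lit 354) (nat_lit 224)) (XT.lf (nat_lit 0) (nat_lit 22187658095) (nat_lit 152) (nat_lit 8335372115) (nat_lit 228) (nat_lit 37019087) (nat_lit 68) (nat_lit 5) (nat_lit 70) (nat_lit 5) (nat_lit 71) (nat_lit 5) (nat_lit 443) (nat_lit 354) (nat_lit 223)))) (XT.nd (nat_lit 156) (nat_lit 152) (nat_lit 0) (XT.nd (nat_lit 78) (nat_lit 0) (nat_lit 0) (XT.lf (nat_lit 0) (nat_lit 7420516732) (nat_lit 228) (nat_lit 22714572737) (nat_lit 76) (nat_lit 1056406343) (nat_lit 65) (nat_lit 5) (nat_lit 68) (nat_lit 5) (nat_lit 66) (nat_lit 5) (nat_lit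 444) (nat_lit 354) (nat_lit 222)) (XT.lf (nat_lit 0) (nat_lit 15257823384) (nat_lit 228) (nat_lit 5939748704) (nat_lit 76) (nat_lit 10639600013) (nat_lit 65) (nat_lit 5) (nat_lit 68) (nat_lit 5) (nat_lit 66) (nat_lit 5) (nat_lit 445) (nat_lit 354) (nat_lit 221))) (XT.nd (nat_lit 78) (nat_lit 0) (nat_lit 0) (XT.lf (nat_lit 0) (nat_lit 11544161148) (nat_lit 152) (nat_lit 11886260108) (nat_lit 228) (nat_lit 9068793268) (nat_lit 63) (nat_lit 5) (nat_lit 65) (nat_lit 5) (nat_lit 66) (nat_lit 5) (nat_lit 446) (nat_lit 354) (nat_lit 220)) (XT.lf (nat_lit 0) (nat_lit 29655110717) (nat_lit 152) (nat_lit 2242398221) (nat_lit 228) (nat_lit 1282130903) (nat_lit 63) (nat_lit 5) (nat_lit 65) (nat_lit 5) (nat_lit 66) (nat_lit 5) (nat_lit 447) (nat_lit 354) (nat_lit 219))))) (XT.nd (nat_lit 234) (nat_lit 304) (nat_lit 0) (XT.nd (nat_lit 78) (nat_lit 152) (nat_lit 0) (XT.lf (nat_lit 0) (nat_lit 6812706431) (nat_lit 228) (nat_lit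 19319758524) (nat_lit 76) (nat_lit 7739888945) (nat_lit 60) (nat_lit 5) (nat_lit 63) (nat_lit 5) (nat_lit 61) (nat_lit 5) (nat_lit 448) (nat_lit 354) (nat_lit 218)) (XT.nd (nat_lit 78) (nat_lit 152) (nat_lit 0) (XT.lf (nat_lit 0) (nat_lit 15172348319) (nat_lit 228) (nat_lit 1394678201) (nat_lit 76) (nat_lit 18017011053) (nat_lit 60) (nat_lit 5) (nat_lit 63) (nat_lit 5) (nat_lit 61) (nat_lit 5) (nat_lit 449) (nat_lit 354) (nat_lit 217)) (XT.lf (nat_lit 0) (nat_lit 17389099031) (nat_lit 152) (nat_lit 6550722290) (nat_lit 228) (nat_lit 11372540051) (nat_lit 58) (nat_lit 5) (nat_lit 60) (nat_lit 5) (nat_lit 61) (nat_lit 5) (nat_lit 450) (nat_lit 354) (nat_lit 216)))) (XT.nd (nat_lit 156) (nat_lit 152) (nat_lit 0) (XT.nd (nat_lit 78) (nat_lit 76) (nat_lit 0) (XT.lf (nat_lit 0) (nat_lit 661003047) (nat_lit 76) (nat_lit 32356022089) (nat_lit 152) (nat_lit 3044109393) (nat_lit 57) (nat_lit 5) (nat_lit 58) (nat_lit 5) (nat_lit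 59) (nat_lit 4) (nat_lit 451) (nat_lit 354) (nat_lit 215)) (XT.lf (nat_lit 0) (nat_lit 5663769522) (nat_lit 152) (nat_lit 16795025265) (nat_lit 76) (nat_lit 14364853341) (nat_lit 56) (nat_lit 5) (nat_lit 58) (nat_lit 5) (nat_lit 57) (nat_lit 5) (nat_lit 452) (nat_lit 354) (nat_lit 214))) (XT.nd (nat_lit 78) (nat_lit 0) (nat_lit 0) (XT.lf (nat_lit 0) (nat_lit 2366366600) (nat_lit 152) (nat_lit 12218320988) (nat_lit 228) (nat_lit 23023056537) (nat_lit 54) (nat_lit 5) (nat_lit 56) (nat_lit 5) (nat_lit 57) (nat_lit 5) (nat_lit 453) (nat_lit 354) (nat_lit 213)) (XT.lf (nat_lit 0) (nat_lit 22429153130) (nat_lit 152) (nat_lit 1504030167) (nat_lit 228) (nat_lit 14477381953) (nat_lit 54) (nat_lit 5) (nat_lit 56) (nat_lit 5) (nat_lit 57) (nat_lit 5) (nat_lit 454) (nat_lit 354) (nat_lit 212)))))) (XT.nd (nat_lit 546) (nat_lit 456) (nat_lit 0) (XT.nd (nat_lit 234) (nat_lit 304) (nat_lit 0) (XT.nd (nat_lit 78) (nat_lit 228)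 (nat_lit 0) (XT.lf (nat_lit 0) (nat_lit 3821888068) (nat_lit 76) (nat_lit 29859167388) (nat_lit 152) (nat_lit 5552848632) (nat_lit 53) (nat_lit 5) (nat_lit 54) (nat_lit 5) (nat_lit 55) (nat_lit 4) (nat_lit 455) (nat_lit 354) (nat_lit 211)) (XT.nd (nat_lit 78) (nat_lit 152) (nat_lit 0) (XT.lf (nat_lit 0) (nat_lit 3736847550) (nat_lit 152) (nat_lit 15599120721) (nat_lit 76) (nat_lit 20739872625) (nat_lit 52) (nat_lit 5) (nat_lit 54) (nat_lit 5) (nat_lit 53) (nat_lit 5) (nat_lit 456) (nat_lit 354) (nat_lit 210)) (XT.lf (nat_lit 0) (nat_lit 4830515291) (nat_lit 152) (nat_lit 8400395877) (nat_lit 228) (nat_lit 27709357445) (nat_lit 50) (nat_lit 5) (nat_lit 52) (nat_lit 5) (nat_lit 53) (nat_lit 5) (nat_lit 457) (nat_lit 354) (nat_lit 209)))) (XT.nd (nat_lit 156) (nat_lit 228) (nat_lit 0) (XT.nd (nat_lit 78) (nat_lit 76) (nat_lit 0) (XT.lf (nat_lit 0) (nat_lit 23187280739) (nat_lit 228) (nat_lit 15679139395) (nat_lit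 76) (nat_lit 2958885153) (nat_lit 50) (nat_lit 5) (nat_lit 53) (nat_lit 5) (nat_lit 51) (nat_lit 4) (nat_lit 458) (nat_lit 354) (nat_lit 208)) (XT.lf (nat_lit 0) (nat_lit 5369533580) (nat_lit 76) (nat_lit 28198741558) (nat_lit 152) (nat_lit 9164840538) (nat_lit 49) (nat_lit 5) (nat_lit 50) (nat_lit 5) (nat_lit 51) (nat_lit 4) (nat_lit 459) (nat_lit 354) (nat_lit 207))) (XT.nd (nat_lit 78) (nat_lit 152) (nat_lit 0) (XT.lf (nat_lit 0) (nat_lit 732032749) (nat_lit 152) (nat_lit 16316081410) (nat_lit 76) (nat_lit 26615344246) (nat_lit 48) (nat_lit 5) (nat_lit 50) (nat_lit 5) (nat_lit 49) (nat_lit 5) (nat_lit 460) (nat_lit 354) (nat_lit 206)) (XT.lf (nat_lit 0) (nat_lit 5360708912) (nat_lit 152) (nat_lit 5423847140) (nat_lit 228) (nat_lit 33833145266) (nat_lit 46) (nat_lit 5) (nat_lit 48) (nat_lit 5) (nat_lit 49) (nat_lit 5) (nat_lit 461) (nat_lit 354) (nat_lit 205))))) (XT.nd (nat_lit 312) (nat_lit 152) (nat_lit 0)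 (XT.nd (nat_lit 156) (nat_lit 228) (nat_lit 0) (XT.nd (nat_lit 78) (nat_lit 76) (nat_lit 0) (XT.lf (nat_lit 0) (nat_lit 21359445739) (nat_lit 228) (nat_lit 17653976406) (nat_lit 76) (nat_lit 6580526210) (nat_lit 46) (nat_lit 5) (nat_lit 49) (nat_lit 5) (nat_lit 47) (nat_lit 4) (nat_lit 462) (nat_lit 354) (nat_lit 204)) (XT.lf (nat_lit 0) (nat_lit 4617980287) (nat_lit 76) (nat_lit 27723387872) (nat_lit 152) (nat_lit 14255421605) (nat_lit 45) (nat_lit 5) (nat_lit 46) (nat_lit 5) (nat_lit 47) (nat_lit 4) (nat_lit 463) (nat_lit 354) (nat_lit 203))) (XT.nd (nat_lit 78) (nat_lit 228) (nat_lit 0) (XT.lf (nat_lit 0) (nat_lit 27904575699) (nat_lit 76) (nat_lit 15918230641) (nat_lit 152) (nat_lit 3801808857) (nat_lit 45) (nat_lit 5) (nat_lit 46) (nat_lit 5) (nat_lit 47) (nat_lit 4) (nat_lit 464) (nat_lit 354) (nat_lit 202)) (XT.lf (nat_lit 0) (nat_lit 3186598652) (nat_lit 152) (nat_lit 3665472171) (nat_lit 228) (nat_lit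 41828519028) (nat_lit 42) (nat_lit 5) (nat_lit 44) (nat_lit 5) (nat_lit 45) (nat_lit 5) (nat_lit 465) (nat_lit 354) (nat_lit 201)))) (XT.nd (nat_lit 156) (nat_lit 76) (nat_lit 0) (XT.nd (nat_lit 78) (nat_lit 76) (nat_lit 0) (XT.lf (nat_lit 0) (nat_lit 18028309855) (nat_lit 228) (nat_lit 22718430125) (nat_lit 76) (nat_lit 9012000328) (nat_lit 42) (nat_lit 5) (nat_lit 45) (nat_lit 5) (nat_lit 43) (nat_lit 4) (nat_lit 466) (nat_lit 354) (nat_lit 200)) (XT.lf (nat_lit 0) (nat_lit 703122700) (nat_lit 76) (nat_lit 28871968395) (nat_lit 152) (nat_lit 21293087001) (nat_lit 41) (nat_lit 5) (nat_lit 42) (nat_lit 5) (nat_lit 43) (nat_lit 4) (nat_lit 467) (nat_lit 354) (nat_lit 199))) (XT.nd (nat_lit 78) (nat_lit 76) (nat_lit 0) (XT.lf (nat_lit 0) (nat_lit 25278468077) (nat_lit 76) (nat_lit 16411510784) (nat_lit 152) (nat_lit 10314269516) (nat_lit 41) (nat_lit 5) (nat_lit 42) (nat_lit 5) (nat_lit 43) (nat_lit 4) (nat_lit 468)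 (nat_lit 354) (nat_lit 198)) (XT.lf (nat_lit 0) (nat_lit 966959159) (nat_lit 152) (nat_lit 2607167416) (nat_lit 76) (nat_lit 49600214752) (nat_lit 40) (nat_lit 5) (nat_lit 42) (nat_lit 5) (nat_lit 41) (nat_lit 5) (nat_lit 469) (nat_lit 354) (nat_lit 197))))))))
noncomputable def xc137 : XT := (XT.nd (nat_lit 44928) (nat_lit 0) (nat_lit 11324) (XT.nd (nat_lit 1092) (nat_lit 152) (nat_lit 0) (XT.nd (nat_lit 546) (nat_lit 304) (nat_lit 0) (XT.nd (nat_lit 234) (nat_lit 228) (nat_lit 0) (XT.nd (nat_lit 78) (nat_lit 76) (nat_lit 0) (XT.lf (nat_lit 0) (nat_lit 12684674278) (nat_lit 228) (nat_lit 31906806072) (nat_lit 76) (nat_lit 9775832800) (nat_lit 38) (nat_lit 5) (nat_lit 41) (nat_lit 5) (nat_lit 39) (nat_lit 4) (nat_lit 470) (nat_lit 354) (nat_lit 196)) (XT.nd (nat_lit 78) (nat_lit 76) (nat_lit 0) (XT.lf (nat_lit 0) (nat_lit 24808577268) (nat_lit 228) (nat_lit 7311166297) (nat_lit 76) (nat_lit 23474691274) (nat_lit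 38) (nat_lit 5) (nat_lit 41) (nat_lit 5) (nat_lit 39) (nat_lit 4) (nat_lit 471) (nat_lit 354) (nat_lit 195)) (XT.lf (nat_lit 0) (nat_lit 18367268689) (nat_lit 76) (nat_lit 19098380333) (nat_lit 152) (nat_lit 19387637997) (nat_lit 37) (nat_lit 5) (nat_lit 38) (nat_lit 5) (nat_lit 39) (nat_lit 4) (nat_lit 472) (nat_lit 354) (nat_lit 194)))) (XT.nd (nat_lit 156) (nat_lit 76) (nat_lit 0) (XT.nd (nat_lit 78) (nat_lit 152) (nat_lit 0) (XT.lf (nat_lit 0) (nat_lit 44952575131) (nat_lit 76) (nat_lit 5616659098) (nat_lit 152) (nat_lit 7578666876) (nat_lit 37) (nat_lit 5) (nat_lit 38) (nat_lit 5) (nat_lit 39) (nat_lit 4) (nat_lit 473) (nat_lit 354) (nat_lit 193)) (XT.lf (nat_lit 0) (nat_lit 4694791841) (nat_lit 152) (nat_lit 46505985979) (nat_lit 76) (nat_lit 8273263660) (nat_lit 35) (nat_lit 5) (nat_lit 37) (nat_lit 5) (nat_lit 36) (nat_lit 4) (nat_lit 474) (nat_lit 354) (nat_lit 192))) (XT.nd (nat_lit 78) (nat_lit 76) (nat_lit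 0) (XT.lf (nat_lit 0) (nat_lit 17367433698) (nat_lit 152) (nat_lit 20794224079) (nat_lit 76) (nat_lit 22670558456) (nat_lit 35) (nat_lit 5) (nat_lit 37) (nat_lit 5) (nat_lit 36) (nat_lit 4) (nat_lit 475) (nat_lit 354) (nat_lit 191)) (XT.lf (nat_lit 0) (nat_lit 5789120355) (nat_lit 76) (nat_lit 24680109621) (nat_lit 152) (nat_lit 31760437335) (nat_lit 34) (nat_lit 5) (nat_lit 35) (nat_lit 5) (nat_lit 36) (nat_lit 4) (nat_lit 476) (nat_lit 354) (nat_lit 190))))) (XT.nd (nat_lit 234) (nat_lit 152) (nat_lit 0) (XT.nd (nat_lit 78) (nat_lit 152) (nat_lit 0) (XT.lf (nat_lit 0) (nat_lit 33583614288) (nat_lit 76) (nat_lit 10583846478) (nat_lit 152) (nat_lit 19495480062) (nat_lit 34) (nat_lit 5) (nat_lit 35) (nat_lit 5) (nat_lit 36) (nat_lit 4) (nat_lit 477) (nat_lit 354) (nat_lit 189)) (XT.nd (nat_lit 78) (nat_lit 152) (nat_lit 0) (XT.lf (nat_lit 0) (nat_lit 58308002907) (nat_lit 152) (nat_lit 2977479221) (nat_lit 0) (nat_lit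 3852789811) (nat_lit 34) (nat_lit 5) (nat_lit 36) (nat_lit 4) (nat_lit 34) (nat_lit 4) (nat_lit 478) (nat_lit 354) (nat_lit 188)) (XT.lf (nat_lit 0) (nat_lit 6438861709) (nat_lit 152) (nat_lit 41396142487) (nat_lit 76) (nat_lit 18810709689) (nat_lit 32) (nat_lit 5) (nat_lit 34) (nat_lit 5) (nat_lit 33) (nat_lit 4) (nat_lit 479) (nat_lit 354) (nat_lit 187)))) (XT.nd (nat_lit 156) (nat_lit 76) (nat_lit 0) (XT.nd (nat_lit 78) (nat_lit 76) (nat_lit 0) (XT.lf (nat_lit 0) (nat_lit 19992879888) (nat_lit 152) (nat_lit 13892960014) (nat_lit 76) (nat_lit 34309787832) (nat_lit 32) (nat_lit 5) (nat_lit 34) (nat_lit 5) (nat_lit 33) (nat_lit 4) (nat_lit 480) (nat_lit 354) (nat_lit 186)) (XT.lf (nat_lit 0) (nat_lit 14710699234) (nat_lit 76) (nat_lit 19378140985) (nat_lit 152) (nat_lit 35699139415) (nat_lit 31) (nat_lit 5) (nat_lit 32) (nat_lit 5) (nat_lit 33) (nat_lit 4) (nat_lit 481) (nat_lit 354) (nat_lit 185))) (XT.nd (nat_lit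 78) (nat_lit 76) (nat_lit 0) (XT.lf (nat_lit 0) (nat_lit 44445697378) (nat_lit 76) (nat_lit 4296253134) (nat_lit 152) (nat_lit 22682123718) (nat_lit 31) (nat_lit 5) (nat_lit 32) (nat_lit 5) (nat_lit 33) (nat_lit 4) (nat_lit 482) (nat_lit 354) (nat_lit 184)) (XT.lf (nat_lit 0) (nat_lit 1880817870) (nat_lit 76) (nat_lit 62074046350) (nat_lit 76) (nat_lit 9150781406) (nat_lit 30) (nat_lit 4) (nat_lit 31) (nat_lit 5) (nat_lit 31) (nat_lit 4) (nat_lit 483) (nat_lit 354) (nat_lit 183)))))) (XT.nd (nat_lit 43212) (nat_lit 0) (nat_lit 22116) (XT.nd (nat_lit 234) (nat_lit 0) (nat_lit 0) (XT.nd (nat_lit 78) (nat_lit 76) (nat_lit 0) (XT.lf (nat_lit 0) (nat_lit 5004871314) (nat_lit 152) (nat_lit 42773274119) (nat_lit 76) (nat_lit 27048785500) (nat_lit 29) (nat_lit 5) (nat_lit 31) (nat_lit 5) (nat_lit 30) (nat_lit 4) (nat_lit 484) (nat_lit 354) (nat_lit 182)) (XT.nd (nat_lit 78) (nat_lit 76) (nat_lit 0) (XT.lf (nat_lit 0) (nat_lit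 19395552396) (nat_lit 152) (nat_lit 13569801177) (nat_lit 76) (nat_lit 43631955002) (nat_lit 29) (nat_lit 5) (nat_lit 31) (nat_lit 5) (nat_lit 30) (nat_lit 4) (nat_lit 485) (nat_lit 354) (nat_lit 181)) (XT.lf (nat_lit 0) (nat_lit 16827435450) (nat_lit 76) (nat_lit 17546721078) (nat_lit 152) (nat_lit 44041955176) (nat_lit 28) (nat_lit 5) (nat_lit 29) (nat_lit 5) (nat_lit 30) (nat_lit 4) (nat_lit 486) (nat_lit 354) (nat_lit 180)))) (XT.nd (nat_lit 42822) (nat_lit 0) (nat_lit 22952) (XT.nd (nat_lit 78) (nat_lit 0) (nat_lit 0) (XT.lf (nat_lit 0) (nat_lit 48404157365) (nat_lit 76) (nat_lit 1529496669) (nat_lit 152) (nat_lit 30351879067) (nat_lit 28) (nat_lit 5) (nat_lit 29) (nat_lit 5) (nat_lit 30) (nat_lit 4) (nat_lit 487) (nat_lit 354) (nat_lit 179)) (XT.lf (nat_lit 0) (nat_lit 66098439590) (nat_lit 152) (nat_lit 1437143399) (nat_lit 0) (nat_lit 14671299279) (nat_lit 28) (nat_lit 5) (nat_lit 30) (nat_lit 4) (nat_lit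 28) (nat_lit 4) (nat_lit 488) (nat_lit 354) (nat_lit 178))) (XT.nd (nat_lit 78) (nat_lit 0) (nat_lit 0) (XT.lf (nat_lit 0) (nat_lit 245654876) (nat_lit 0) (nat_lit 245654876) (nat_lit 836) (nat_lit 3209006569) (nat_lit 330) (nat_lit 5) (nat_lit 330) (nat_lit 3) (nat_lit 341) (nat_lit 3) (nat_lit 355) (nat_lit 355) (nat_lit 310)) (XT.lf (nat_lit 0) (nat_lit 2512596046) (nat_lit 836) (nat_lit 3300766510) (nat_lit 912) (nat_lit 1652212423) (nat_lit 330) (nat_lit 5) (nat_lit 341) (nat_lit 3) (nat_lit 342) (nat_lit 5) (nat_lit 356) (nat_lit 355) (nat_lit 309))))) (XT.nd (nat_lit 312) (nat_lit 0) (nat_lit 0) (XT.nd (nat_lit 156) (nat_lit 836) (nat_lit 0) (XT.nd (nat_lit 78) (nat_lit 0) (nat_lit 0) (XT.lf (nat_lit 76) (nat_lit 387430530) (nat_lit 0) (nat_lit 3651407904) (nat_lit 912) (nat_lit 3495139961) (nat_lit 331) (nat_lit 5) (nat_lit 330) (nat_lit 5) (nat_lit 342) (nat_lit 5) (nat_lit 357) (nat_lit 355) (nat_lit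 308)) (XT.lf (nat_lit 76) (nat_lit 4222931195) (nat_lit 0) (nat_lit 1364443803) (nat_lit 912) (nat_lit 2017786823) (nat_lit 331) (nat_lit 5) (nat_lit 330) (nat_lit 5) (nat_lit 342) (nat_lit 5) (nat_lit 358) (nat_lit 355) (nat_lit 307))) (XT.nd (nat_lit 78) (nat_lit 912) (nat_lit 0) (XT.lf (nat_lit 76) (nat_lit 462493503) (nat_lit 0) (nat_lit 6678918945) (nat_lit 912) (nat_lit 538319400) (nat_lit 332) (nat_lit 5) (nat_lit 331) (nat_lit 5) (nat_lit 343) (nat_lit 5) (nat_lit 359) (nat_lit 355) (nat_lit 306)) (XT.lf (nat_lit 0) (nat_lit 960116532) (nat_lit 912) (nat_lit 3319749458) (nat_lit 988) (nat_lit 3476595459) (nat_lit 319) (nat_lit 5) (nat_lit 331) (nat_lit 5) (nat_lit 332) (nat_lit 5) (nat_lit 360) (nat_lit 355) (nat_lit 305)))) (XT.nd (nat_lit 156) (nat_lit 0) (nat_lit 76) (XT.nd (nat_lit 78) (nat_lit 0) (nat_lit 76) (XT.lf (nat_lit 76) (nat_lit 670569099) (nat_lit 0) (nat_lit 1775955265) (nat_lit 988) (nat_lit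 5390214059) (nat_lit 320) (nat_lit 5) (nat_lit 319) (nat_lit 5) (nat_lit 332) (nat_lit 5) (nat_lit 361) (nat_lit 355) (nat_lit 304)) (XT.lf (nat_lit 0) (nat_lit 3967911326) (nat_lit 912) (nat_lit 3111110800) (nat_lit 988) (nat_lit 840709912) (nat_lit 320) (nat_lit 5) (nat_lit 332) (nat_lit 5) (nat_lit 333) (nat_lit 5) (nat_lit 362) (nat_lit 355) (nat_lit 303))) (XT.nd (nat_lit 78) (nat_lit 0) (nat_lit 0) (XT.lf (nat_lit 76) (nat_lit 1035909639) (nat_lit 0) (nat_lit 4476875069) (nat_lit 988) (nat_lit 2493114768) (nat_lit 321) (nat_lit 5) (nat_lit 320) (nat_lit 5) (nat_lit 333) (nat_lit 5) (nat_lit 363) (nat_lit 355) (nat_lit 302)) (XT.lf (nat_lit 76) (nat_lit 5339111828) (nat_lit 0) (nat_lit 1747751720) (nat_lit 988) (nat_lit 1008321406) (nat_lit 321) (nat_lit 5) (nat_lit 320) (nat_lit 5) (nat_lit 333) (nat_lit 5) (nat_lit 364) (nat_lit 355) (nat_lit 301))))))) (XT.nd (nat_lit 1092) (nat_lit 4864) (nat_lit 0) (XT.nd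 (nat_lit 546) (nat_lit 4180) (nat_lit 0) (XT.nd (nat_lit 234) (nat_lit 912) (nat_lit 0) (XT.nd (nat_lit 78) (nat_lit 0) (nat_lit 0) (XT.lf (nat_lit 0) (nat_lit 488960609) (nat_lit 988) (nat_lit 6620552060) (nat_lit 1064) (nat_lit 1078160440) (nat_lit 308) (nat_lit 5) (nat_lit 321) (nat_lit 5) (nat_lit 322) (nat_lit 5) (nat_lit 365) (nat_lit 355) (nat_lit 300)) (XT.nd (nat_lit 78) (nat_lit 0) (nat_lit 0) (XT.lf (nat_lit 0) (nat_lit 2009903289) (nat_lit 988) (nat_lit 2266435512) (nat_lit 1064) (nat_lit 4006344552) (nat_lit 308) (nat_lit 5) (nat_lit 321) (nat_lit 5) (nat_lit 322) (nat_lit 5) (nat_lit 366) (nat_lit 355) (nat_lit 299)) (XT.lf (nat_lit 76) (nat_lit 2229500435) (nat_lit 0) (nat_lit 1323354170) (nat_lit 1064) (nat_lit 4828414587) (nat_lit 309) (nat_lit 5) (nat_lit 308) (nat_lit 5) (nat_lit 322) (nat_lit 5) (nat_lit 367) (nat_lit 355) (nat_lit 298)))) (XT.nd (nat_lit 156) (nat_lit 988) (nat_lit 0) (XT.nd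 (nat_lit 78) (nat_lit 0) (nat_lit 0) (XT.lf (nat_lit 0) (nat_lit 5137793724) (nat_lit 988) (nat_lit 1625541412) (nat_lit 1064) (nat_lit 1719622705) (nat_lit 309) (nat_lit 5) (nat_lit 322) (nat_lit 5) (nat_lit 323) (nat_lit 5) (nat_lit 368) (nat_lit 355) (nat_lit 297)) (XT.lf (nat_lit 76) (nat_lit 3050422750) (nat_lit 0) (nat_lit 3719632366) (nat_lit 1064) (nat_lit 1817664549) (nat_lit 310) (nat_lit 5) (nat_lit 309) (nat_lit 5) (nat_lit 323) (nat_lit 5) (nat_lit 369) (nat_lit 355) (nat_lit 296))) (XT.nd (nat_lit 78) (nat_lit 988) (nat_lit 0) (XT.lf (nat_lit 76) (nat_lit 7867833979) (nat_lit 0) (nat_lit 558147387) (nat_lit 1064) (nat_lit 270417351) (nat_lit 310) (nat_lit 5) (nat_lit 309) (nat_lit 5) (nat_lit 323) (nat_lit 5) (nat_lit 370) (nat_lit 355) (nat_lit 295)) (XT.lf (nat_lit 0) (nat_lit 1322028399) (nat_lit 1064) (nat_lit 4778755859) (nat_lit 76) (nat_lit 2706448615) (nat_lit 296) (nat_lit 5) (nat_lit 310)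 (nat_lit 5) (nat_lit 297) (nat_lit 5) (nat_lit 371) (nat_lit 355) (nat_lit 294))))) (XT.nd (nat_lit 234) (nat_lit 1976) (nat_lit 0) (XT.nd (nat_lit 78) (nat_lit 1140) (nat_lit 0) (XT.lf (nat_lit 0) (nat_lit 87467454) (nat_lit 1064) (nat_lit 2844209966) (nat_lit 1140) (nat_lit 5990402347) (nat_lit 282) (nat_lit 5) (nat_lit 296) (nat_lit 5) (nat_lit 297) (nat_lit 5) (nat_lit 372) (nat_lit 355) (nat_lit 293)) (XT.nd (nat_lit 78) (nat_lit 1140) (nat_lit 0) (XT.lf (nat_lit 0) (nat_lit 4604211880) (nat_lit 1140) (nat_lit 3880618926) (nat_lit 76) (nat_lit 555116960) (nat_lit 282) (nat_lit 5) (nat_lit 297) (nat_lit 5) (nat_lit 283) (nat_lit 5) (nat_lit 373) (nat_lit 355) (nat_lit 292)) (XT.lf (nat_lit 0) (nat_lit 1183975242) (nat_lit 1140) (nat_lit 5144584929) (nat_lit 1216) (nat_lit 2832755682) (nat_lit 267) (nat_lit 5) (nat_lit 282) (nat_lit 5) (nat_lit 283) (nat_lit 5) (nat_lit 374) (nat_lit 355) (nat_lit 291)))) (XT.nd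 (nat_lit 156) (nat_lit 684) (nat_lit 0) (XT.nd (nat_lit 78) (nat_lit 1292) (nat_lit 0) (XT.lf (nat_lit 0) (nat_lit 6447417131) (nat_lit 1140) (nat_lit 1659294881) (nat_lit 1216) (nat_lit 1179563576) (nat_lit 267) (nat_lit 5) (nat_lit 282) (nat_lit 5) (nat_lit 283) (nat_lit 5) (nat_lit 375) (nat_lit 355) (nat_lit 290)) (XT.lf (nat_lit 0) (nat_lit 519182482) (nat_lit 1292) (nat_lit 6969693564) (nat_lit 76) (nat_lit 1925784200) (nat_lit 250) (nat_lit 5) (nat_lit 267) (nat_lit 5) (nat_lit 251) (nat_lit 5) (nat_lit 376) (nat_lit 355) (nat_lit 289))) (XT.nd (nat_lit 78) (nat_lit 684) (nat_lit 0) (XT.lf (nat_lit 0) (nat_lit 2254946416) (nat_lit 1292) (nat_lit 1662149623) (nat_lit 76) (nat_lit 5629168844) (nat_lit 250) (nat_lit 5) (nat_lit 267) (nat_lit 5) (nat_lit 251) (nat_lit 5) (nat_lit 377) (nat_lit 355) (nat_lit 288)) (XT.lf (nat_lit 0) (nat_lit 3847443516) (nat_lit 684) (nat_lit 197745245) (nat_lit 760) (nat_lit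 5636568106) (nat_lit 241) (nat_lit 5) (nat_lit 250) (nat_lit 5) (nat_lit 251) (nat_lit 5) (nat_lit 378) (nat_lit 355) (nat_lit 287)))))) (XT.nd (nat_lit 546) (nat_lit 2508) (nat_lit 0) (XT.nd (nat_lit 234) (nat_lit 1140) (nat_lit 0) (XT.nd (nat_lit 78) (nat_lit 1216) (nat_lit 0) (XT.lf (nat_lit 0) (nat_lit 5907153707) (nat_lit 760) (nat_lit 332488195) (nat_lit 76) (nat_lit 3581142287) (nat_lit 241) (nat_lit 5) (nat_lit 251) (nat_lit 5) (nat_lit 242) (nat_lit 5) (nat_lit 379) (nat_lit 355) (nat_lit 286)) (XT.nd (nat_lit 78) (nat_lit 608) (nat_lit 0) (XT.lf (nat_lit 0) (nat_lit 5405898689) (nat_lit 608) (nat_lit 2440128084) (nat_lit 684) (nat_lit 2117334800) (nat_lit 233) (nat_lit 5) (nat_lit 241) (nat_lit 5) (nat_lit 242) (nat_lit 5) (nat_lit 380) (nat_lit 355) (nat_lit 285)) (XT.lf (nat_lit 0) (nat_lit 1189460078) (nat_lit 608) (nat_lit 8650377514) (nat_lit 684) (nat_lit 270485947) (nat_lit 225) (nat_lit 5) (nat_lit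 233) (nat_lit 5) (nat_lit 234) (nat_lit 5) (nat_lit 381) (nat_lit 355) (nat_lit 284)))) (XT.nd (nat_lit 156) (nat_lit 532) (nat_lit 0) (XT.nd (nat_lit 78) (nat_lit 532) (nat_lit 0) (XT.lf (nat_lit 0) (nat_lit 1638652037) (nat_lit 684) (nat_lit 3131416462) (nat_lit 76) (nat_lit 5490003347) (nat_lit 224) (nat_lit 5) (nat_lit 233) (nat_lit 5) (nat_lit 225) (nat_lit 5) (nat_lit 382) (nat_lit 355) (nat_lit 283)) (XT.lf (nat_lit 0) (nat_lit 2852646823) (nat_lit 532) (nat_lit 743420249) (nat_lit 608) (nat_lit 6818281527) (nat_lit 217) (nat_lit 5) (nat_lit 224) (nat_lit 5) (nat_lit 225) (nat_lit 5) (nat_lit 383) (nat_lit 355) (nat_lit 282))) (XT.nd (nat_lit 78) (nat_lit 532) (nat_lit 0) (XT.lf (nat_lit 0) (nat_lit 5646462677) (nat_lit 608) (nat_lit 1557564678) (nat_lit 76) (nat_lit 3368207803) (nat_lit 217) (nat_lit 5) (nat_lit 225) (nat_lit 5) (nat_lit 218) (nat_lit 5) (nat_lit 384) (nat_lit 355) (nat_lit 281)) (XT.lf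 (nat_lit 0) (nat_lit 4678941900) (nat_lit 532) (nat_lit 3102253343) (nat_lit 608) (nat_lit 2952987293) (nat_lit 210) (nat_lit 5) (nat_lit 217) (nat_lit 5) (nat_lit 218) (nat_lit 5) (nat_lit 385) (nat_lit 355) (nat_lit 280))))) (XT.nd (nat_lit 312) (nat_lit 1444) (nat_lit 0) (XT.nd (nat_lit 156) (nat_lit 532) (nat_lit 0) (XT.nd (nat_lit 78) (nat_lit 76) (nat_lit 0) (XT.lf (nat_lit 0) (nat_lit 194565556) (nat_lit 456) (nat_lit 9784971605) (nat_lit 532) (nat_lit 921472868) (nat_lit 204) (nat_lit 5) (nat_lit 210) (nat_lit 5) (nat_lit 211) (nat_lit 5) (nat_lit 386) (nat_lit 355) (nat_lit 279)) (XT.lf (nat_lit 0) (nat_lit 1211873061) (nat_lit 532) (nat_lit 4390096755) (nat_lit 76) (nat_lit 5468630971) (nat_lit 203) (nat_lit 5) (nat_lit 210) (nat_lit 5) (nat_lit 204) (nat_lit 5) (nat_lit 387) (nat_lit 355) (nat_lit 278))) (XT.nd (nat_lit 78) (nat_lit 0) (nat_lit 0) (XT.lf (nat_lit 0) (nat_lit 2116358202) (nat_lit 532)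 (nat_lit 1266790419) (nat_lit 608) (nat_lit 7862091419) (nat_lit 196) (nat_lit 5) (nat_lit 203) (nat_lit 5) (nat_lit 204) (nat_lit 5) (nat_lit 388) (nat_lit 355) (nat_lit 277)) (XT.lf (nat_lit 0) (nat_lit 5667659261) (nat_lit 608) (nat_lit 2579013479) (nat_lit 76) (nat_lit 3177010569) (nat_lit 196) (nat_lit 5) (nat_lit 204) (nat_lit 5) (nat_lit 197) (nat_lit 5) (nat_lit 389) (nat_lit 355) (nat_lit 276)))) (XT.nd (nat_lit 156) (nat_lit 988) (nat_lit 0) (XT.nd (nat_lit 78) (nat_lit 0) (nat_lit 0) (XT.lf (nat_lit 0) (nat_lit 4205771295) (nat_lit 456) (nat_lit 3841284574) (nat_lit 532) (nat_lit 3559641006) (nat_lit 190) (nat_lit 5) (nat_lit 196) (nat_lit 5) (nat_lit 197) (nat_lit 5) (nat_lit 390) (nat_lit 355) (nat_lit 275)) (XT.lf (nat_lit 0) (nat_lit 10504642313) (nat_lit 532) (nat_lit 585952135) (nat_lit 76) (nat_lit 704409459) (nat_lit 190) (nat_lit 5) (nat_lit 197) (nat_lit 5) (nat_lit 191) (nat_lit 5) (nat_lit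 391) (nat_lit 355) (nat_lit 274))) (XT.nd (nat_lit 78) (nat_lit 456) (nat_lit 0) (XT.lf (nat_lit 0) (nat_lit 1102310728) (nat_lit 532) (nat_lit 5506043530) (nat_lit 76) (nat_lit 5378038485) (nat_lit 183) (nat_lit 5) (nat_lit 190) (nat_lit 5) (nat_lit 184) (nat_lit 5) (nat_lit 392) (nat_lit 355) (nat_lit 273)) (XT.lf (nat_lit 0) (nat_lit 1574353942) (nat_lit 456) (nat_lit 1962355285) (nat_lit 532) (nat_lit 8646560991) (nat_lit 177) (nat_lit 5) (nat_lit 183) (nat_lit 5) (nat_lit 184) (nat_lit 5) (nat_lit 393) (nat_lit 355) (nat_lit 272))))))))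
noncomputable def xc138 : XT := (XT.nd (nat_lit 2262) (nat_lit 3268) (nat_lit 0) (XT.nd (nat_lit 1092) (nat_lit 2584) (nat_lit 0) (XT.nd (nat_lit 546) (nat_lit 1520) (nat_lit 0) (XT.nd (nat_lit 234) (nat_lit 1216) (nat_lit 0) (XT.nd (nat_lit 78) (nat_lit 456) (nat_lit 0) (XT.lf (nat_lit 0) (nat_lit 6102584857) (nat_lit 532) (nat_lit 3463272043) (nat_lit 76) (nat_lit 2818450247) (nat_lit 177) (nat_lit 5) (nat_lit 184) (nat_lit 5) (nat_lit 178) (nat_lit 5) (nat_lit 394) (nat_lit 355) (nat_lit 271)) (XT.nd (nat_lit 78) (nat_lit 0) (nat_lit 0) (XT.lf (nat_lit 0) (nat_lit 3923553818) (nat_lit 456) (nat_lit 4854909158) (nat_lit 532) (nat_lit 3811927715) (nat_lit 171) (nat_lit 5) (nat_lit 177) (nat_lit 5) (nat_lit 178) (nat_lit 5) (nat_lit 395) (nat_lit 355) (nat_lit 270)) (XT.lf (nat_lit 0) (nat_lit 11546145144) (nat_lit 532) (nat_lit 1229630740) (nat_lit 76) (nat_lit 26541141) (nat_lit 171) (nat_lit 5) (nat_lit 178)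 (nat_lit 5) (nat_lit 172) (nat_lit 5) (nat_lit 396) (nat_lit 355) (nat_lit 269)))) (XT.nd (nat_lit 156) (nat_lit 380) (nat_lit 0) (XT.nd (nat_lit 78) (nat_lit 380) (nat_lit 0) (XT.lf (nat_lit 0) (nat_lit 1437537034) (nat_lit 456) (nat_lit 6552811927) (nat_lit 76) (nat_lit 5027216982) (nat_lit 165) (nat_lit 5) (nat_lit 171) (nat_lit 5) (nat_lit 166) (nat_lit 5) (nat_lit 397) (nat_lit 355) (nat_lit 268)) (XT.lf (nat_lit 0) (nat_lit 1156324110) (nat_lit 380) (nat_lit 3031225351) (nat_lit 456) (nat_lit 9051333139) (nat_lit 160) (nat_lit 5) (nat_lit 165) (nat_lit 5) (nat_lit 166) (nat_lit 5) (nat_lit 398) (nat_lit 355) (nat_lit 267))) (XT.nd (nat_lit 78) (nat_lit 380) (nat_lit 0) (XT.lf (nat_lit 0) (nat_lit 7084248925) (nat_lit 456) (nat_lit 4284686143) (nat_lit 76) (nat_lit 2095983520) (nat_lit 160) (nat_lit 5) (nat_lit 166) (nat_lit 5) (nat_lit 161) (nat_lit 5) (nat_lit 399) (nat_lit 355) (nat_lit 266)) (XT.lf (nat_lit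 0) (nat_lit 3761109287) (nat_lit 380) (nat_lit 6350963307) (nat_lit 456) (nat_lit 3584341637) (nat_lit 155) (nat_lit 5) (nat_lit 160) (nat_lit 5) (nat_lit 161) (nat_lit 5) (nat_lit 400) (nat_lit 355) (nat_lit 265))))) (XT.nd (nat_lit 234) (nat_lit 760) (nat_lit 0) (XT.nd (nat_lit 78) (nat_lit 760) (nat_lit 0) (XT.lf (nat_lit 0) (nat_lit 12107004877) (nat_lit 380) (nat_lit 1145409368) (nat_lit 456) (nat_lit 681795121) (nat_lit 155) (nat_lit 5) (nat_lit 160) (nat_lit 5) (nat_lit 161) (nat_lit 5) (nat_lit 401) (nat_lit 355) (nat_lit 264)) (XT.nd (nat_lit 78) (nat_lit 304) (nat_lit 0) (XT.lf (nat_lit 0) (nat_lit 2346395347) (nat_lit 456) (nat_lit 7616412697) (nat_lit 76) (nat_lit 4213161559) (nat_lit 149) (nat_lit 5) (nat_lit 155) (nat_lit 5) (nat_lit 150) (nat_lit 5) (nat_lit 402) (nat_lit 355) (nat_lit 263)) (XT.lf (nat_lit 0) (nat_lit 778914271) (nat_lit 304) (nat_lit 4689379097) (nat_lit 380) (nat_lit 8955994493)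 (nat_lit 145) (nat_lit 5) (nat_lit 149) (nat_lit 5) (nat_lit 150) (nat_lit 5) (nat_lit 403) (nat_lit 355) (nat_lit 262)))) (XT.nd (nat_lit 156) (nat_lit 380) (nat_lit 0) (XT.nd (nat_lit 78) (nat_lit 380) (nat_lit 0) (XT.lf (nat_lit 0) (nat_lit 8748013961) (nat_lit 380) (nat_lit 5132633617) (nat_lit 76) (nat_lit 797487668) (nat_lit 145) (nat_lit 5) (nat_lit 150) (nat_lit 5) (nat_lit 146) (nat_lit 5) (nat_lit 404) (nat_lit 355) (nat_lit 261)) (XT.lf (nat_lit 0) (nat_lit 3631555995) (nat_lit 380) (nat_lit 8555867939) (nat_lit 456) (nat_lit 2750339603) (nat_lit 140) (nat_lit 5) (nat_lit 145) (nat_lit 5) (nat_lit 146) (nat_lit 5) (nat_lit 405) (nat_lit 355) (nat_lit 260))) (XT.nd (nat_lit 78) (nat_lit 304) (nat_lit 0) (XT.lf (nat_lit 0) (nat_lit 547010495) (nat_lit 456) (nat_lit 2473789162) (nat_lit 76) (nat_lit 12183261338) (nat_lit 139) (nat_lit 5) (nat_lit 145) (nat_lit 5) (nat_lit 140) (nat_lit 5) (nat_lit 406)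 (nat_lit 355) (nat_lit 259)) (XT.lf (nat_lit 0) (nat_lit 3959647376) (nat_lit 380) (nat_lit 8803334783) (nat_lit 76) (nat_lit 2712402964) (nat_lit 135) (nat_lit 5) (nat_lit 140) (nat_lit 5) (nat_lit 136) (nat_lit 5) (nat_lit 407) (nat_lit 355) (nat_lit 258)))))) (XT.nd (nat_lit 546) (nat_lit 1368) (nat_lit 0) (XT.nd (nat_lit 234) (nat_lit 608) (nat_lit 0) (XT.nd (nat_lit 78) (nat_lit 304) (nat_lit 0) (XT.lf (nat_lit 0) (nat_lit 337419232) (nat_lit 304) (nat_lit 7176498330) (nat_lit 380) (nat_lit 8239757711) (nat_lit 131) (nat_lit 5) (nat_lit 135) (nat_lit 5) (nat_lit 136) (nat_lit 5) (nat_lit 408) (nat_lit 355) (nat_lit 257)) (XT.nd (nat_lit 78) (nat_lit 304) (nat_lit 0) (XT.lf (nat_lit 0) (nat_lit 9905244469) (nat_lit 304) (nat_lit 1339633519) (nat_lit 380) (nat_lit 4793338086) (nat_lit 131) (nat_lit 5) (nat_lit 135) (nat_lit 5) (nat_lit 136) (nat_lit 5) (nat_lit 409) (nat_lit 355) (nat_lit 256)) (XT.lf (nat_lit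 0) (nat_lit 3423424050) (nat_lit 304) (nat_lit 11723796958) (nat_lit 380) (nat_lit 1182292173) (nat_lit 127) (nat_lit 5) (nat_lit 131) (nat_lit 5) (nat_lit 132) (nat_lit 5) (nat_lit 410) (nat_lit 355) (nat_lit 255)))) (XT.nd (nat_lit 156) (nat_lit 228) (nat_lit 0) (XT.nd (nat_lit 78) (nat_lit 304) (nat_lit 0) (XT.lf (nat_lit 0) (nat_lit 2545110377) (nat_lit 380) (nat_lit 3301101736) (nat_lit 76) (nat_lit 10780882948) (nat_lit 126) (nat_lit 5) (nat_lit 131) (nat_lit 5) (nat_lit 127) (nat_lit 5) (nat_lit 411) (nat_lit 355) (nat_lit 254)) (XT.lf (nat_lit 0) (nat_lit 6409745553) (nat_lit 380) (nat_lit 10250342742) (nat_lit 76) (nat_lit 271693105) (nat_lit 122) (nat_lit 5) (nat_lit 127) (nat_lit 5) (nat_lit 123) (nat_lit 5) (nat_lit 412) (nat_lit 355) (nat_lit 253))) (XT.nd (nat_lit 78) (nat_lit 228) (nat_lit 0) (XT.lf (nat_lit 0) (nat_lit 10464303922) (nat_lit 380) (nat_lit 298458763) (nat_lit 76) (nat_lit 6480629407)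 (nat_lit 122) (nat_lit 5) (nat_lit 127) (nat_lit 5) (nat_lit 123) (nat_lit 5) (nat_lit 413) (nat_lit 355) (nat_lit 252)) (XT.lf (nat_lit 0) (nat_lit 10123546302) (nat_lit 228) (nat_lit 4597214177) (nat_lit 304) (nat_lit 2841185972) (nat_lit 119) (nat_lit 5) (nat_lit 122) (nat_lit 5) (nat_lit 123) (nat_lit 5) (nat_lit 414) (nat_lit 355) (nat_lit 251))))) (XT.nd (nat_lit 312) (nat_lit 760) (nat_lit 0) (XT.nd (nat_lit 156) (nat_lit 228) (nat_lit 0) (XT.nd (nat_lit 78) (nat_lit 0) (nat_lit 0) (XT.lf (nat_lit 0) (nat_lit 1223205726) (nat_lit 380) (nat_lit 14911431104) (nat_lit 76) (nat_lit 1754111523) (nat_lit 114) (nat_lit 5) (nat_lit 119) (nat_lit 5) (nat_lit 115) (nat_lit 5) (nat_lit 415) (nat_lit 355) (nat_lit 250)) (XT.lf (nat_lit 0) (nat_lit 5456984614) (nat_lit 380) (nat_lit 4465736184) (nat_lit 76) (nat_lit 8298655703) (nat_lit 114) (nat_lit 5) (nat_lit 119) (nat_lit 5) (nat_lit 115) (nat_lit 5) (nat_lit 416)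 (nat_lit 355) (nat_lit 249))) (XT.nd (nat_lit 78) (nat_lit 0) (nat_lit 0) (XT.lf (nat_lit 0) (nat_lit 6392606211) (nat_lit 228) (nat_lit 3470296551) (nat_lit 304) (nat_lit 8699729789) (nat_lit 111) (nat_lit 5) (nat_lit 114) (nat_lit 5) (nat_lit 115) (nat_lit 5) (nat_lit 417) (nat_lit 355) (nat_lit 248)) (XT.lf (nat_lit 0) (nat_lit 14460888478) (nat_lit 304) (nat_lit 1301118823) (nat_lit 76) (nat_lit 3150325031) (nat_lit 111) (nat_lit 5) (nat_lit 115) (nat_lit 5) (nat_lit 112) (nat_lit 5) (nat_lit 418) (nat_lit 355) (nat_lit 247)))) (XT.nd (nat_lit 156) (nat_lit 228) (nat_lit 0) (XT.nd (nat_lit 78) (nat_lit 228) (nat_lit 0) (XT.lf (nat_lit 0) (nat_lit 41974801) (nat_lit 304) (nat_lit 9239128442) (nat_lit 76) (nat_lit 9987958088) (nat_lit 107) (nat_lit 5) (nat_lit 111) (nat_lit 5) (nat_lit 108) (nat_lit 5) (nat_lit 419) (nat_lit 355) (nat_lit 246)) (XT.lf (nat_lit 0) (nat_lit 2062596468) (nat_lit 228) (nat_lit 2535583420)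 (nat_lit 304) (nat_lit 15036469014) (nat_lit 104) (nat_lit 5) (nat_lit 107) (nat_lit 5) (nat_lit 108) (nat_lit 5) (nat_lit 420) (nat_lit 355) (nat_lit 245))) (XT.nd (nat_lit 78) (nat_lit 228) (nat_lit 0) (XT.lf (nat_lit 0) (nat_lit 9412192525) (nat_lit 304) (nat_lit 6184046242) (nat_lit 76) (nat_lit 4411334138) (nat_lit 104) (nat_lit 5) (nat_lit 108) (nat_lit 5) (nat_lit 105) (nat_lit 5) (nat_lit 421) (nat_lit 355) (nat_lit 244)) (XT.lf (nat_lit 0) (nat_lit 5605540039) (nat_lit 228) (nat_lit 8829012841) (nat_lit 304) (nat_lit 5955216299) (nat_lit 101) (nat_lit 5) (nat_lit 104) (nat_lit 5) (nat_lit 105) (nat_lit 5) (nat_lit 422) (nat_lit 355) (nat_lit 243))))))) (XT.nd (nat_lit 1092) (nat_lit 1444) (nat_lit 0) (XT.nd (nat_lit 546) (nat_lit 836) (nat_lit 0) (XT.nd (nat_lit 234) (nat_lit 456) (nat_lit 0) (XT.nd (nat_lit 78) (nat_lit 532) (nat_lit 0) (XT.lf (nat_lit 0) (nat_lit 17851479831) (nat_lit 228) (nat_lit 1803696638)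 (nat_lit 304) (nat_lit 1126829406) (nat_lit 101) (nat_lit 5) (nat_lit 104) (nat_lit 5) (nat_lit 105) (nat_lit 5) (nat_lit 423) (nat_lit 355) (nat_lit 242)) (XT.nd (nat_lit 78) (nat_lit 228) (nat_lit 0) (XT.lf (nat_lit 0) (nat_lit 3900551412) (nat_lit 304) (nat_lit 11834439160) (nat_lit 76) (nat_lit 5446036061) (nat_lit 97) (nat_lit 5) (nat_lit 101) (nat_lit 5) (nat_lit 98) (nat_lit 5) (nat_lit 424) (nat_lit 355) (nat_lit 241)) (XT.lf (nat_lit 0) (nat_lit 415961304) (nat_lit 228) (nat_lit 8677431347) (nat_lit 304) (nat_lit 12497174157) (nat_lit 94) (nat_lit 5) (nat_lit 97) (nat_lit 5) (nat_lit 98) (nat_lit 5) (nat_lit 425) (nat_lit 355) (nat_lit 240)))) (XT.nd (nat_lit 156) (nat_lit 304) (nat_lit 0) (XT.nd (nat_lit 78) (nat_lit 152) (nat_lit 0) (XT.lf (nat_lit 0) (nat_lit 13252896997) (nat_lit 228) (nat_lit 1294365938) (nat_lit 304) (nat_lit 7461974985) (nat_lit 94) (nat_lit 5) (nat_lit 97) (nat_lit 5) (nat_lit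 98) (nat_lit 5) (nat_lit 426) (nat_lit 355) (nat_lit 239)) (XT.lf (nat_lit 0) (nat_lit 4029223734) (nat_lit 152) (nat_lit 16220982031) (nat_lit 228) (nat_lit 2187701696) (nat_lit 92) (nat_lit 5) (nat_lit 94) (nat_lit 5) (nat_lit 95) (nat_lit 5) (nat_lit 427) (nat_lit 355) (nat_lit 238))) (XT.nd (nat_lit 78) (nat_lit 228) (nat_lit 0) (XT.lf (nat_lit 0) (nat_lit 3269709373) (nat_lit 228) (nat_lit 5567080397) (nat_lit 76) (nat_lit 14039066642) (nat_lit 91) (nat_lit 5) (nat_lit 94) (nat_lit 5) (nat_lit 92) (nat_lit 5) (nat_lit 428) (nat_lit 355) (nat_lit 237)) (XT.lf (nat_lit 0) (nat_lit 7767086361) (nat_lit 228) (nat_lit 1140966666) (nat_lit 304) (nat_lit 14416407386) (nat_lit 88) (nat_lit 5) (nat_lit 91) (nat_lit 5) (nat_lit 92) (nat_lit 5) (nat_lit 429) (nat_lit 355) (nat_lit 236))))) (XT.nd (nat_lit 234) (nat_lit 380) (nat_lit 0) (XT.nd (nat_lit 78) (nat_lit 456) (nat_lit 0) (XT.lf (nat_lit 0) (nat_lit 14824158222)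 (nat_lit 304) (nat_lit 2257903806) (nat_lit 76) (nat_lit 6701203934) (nat_lit 88) (nat_lit 5) (nat_lit 92) (nat_lit 5) (nat_lit 89) (nat_lit 5) (nat_lit 430) (nat_lit 355) (nat_lit 235)) (XT.nd (nat_lit 78) (nat_lit 304) (nat_lit 0) (XT.lf (nat_lit 0) (nat_lit 11634260379) (nat_lit 152) (nat_lit 9393617971) (nat_lit 228) (nat_lit 3224655089) (nat_lit 86) (nat_lit 5) (nat_lit 88) (nat_lit 5) (nat_lit 89) (nat_lit 5) (nat_lit 431) (nat_lit 355) (nat_lit 234)) (XT.lf (nat_lit 0) (nat_lit 1230216726) (nat_lit 228) (nat_lit 1421173813) (nat_lit 304) (nat_lit 22083059889) (nat_lit 82) (nat_lit 5) (nat_lit 85) (nat_lit 5) (nat_lit 86) (nat_lit 5) (nat_lit 432) (nat_lit 355) (nat_lit 233)))) (XT.nd (nat_lit 156) (nat_lit 228) (nat_lit 0) (XT.nd (nat_lit 78) (nat_lit 152) (nat_lit 0) (XT.lf (nat_lit 0) (nat_lit 8819980735) (nat_lit 304) (nat_lit 9594787122) (nat_lit 76) (nat_lit 6809668553) (nat_lit 82) (nat_lit 5) (nat_lit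 86) (nat_lit 5) (nat_lit 83) (nat_lit 5) (nat_lit 433) (nat_lit 355) (nat_lit 232)) (XT.lf (nat_lit 0) (nat_lit 4789838374) (nat_lit 152) (nat_lit 10431399557) (nat_lit 228) (nat_lit 10506457284) (nat_lit 80) (nat_lit 5) (nat_lit 82) (nat_lit 5) (nat_lit 83) (nat_lit 5) (nat_lit 434) (nat_lit 355) (nat_lit 231))) (XT.nd (nat_lit 78) (nat_lit 228) (nat_lit 0) (XT.lf (nat_lit 0) (nat_lit 19781396703) (nat_lit 152) (nat_lit 2117679652) (nat_lit 228) (nat_lit 4344440605) (nat_lit 80) (nat_lit 5) (nat_lit 82) (nat_lit 5) (nat_lit 83) (nat_lit 5) (nat_lit 435) (nat_lit 355) (nat_lit 230)) (XT.lf (nat_lit 0) (nat_lit 2096564671) (nat_lit 228) (nat_lit 18259949122) (nat_lit 76) (nat_lit 6413727412) (nat_lit 77) (nat_lit 5) (nat_lit 80) (nat_lit 5) (nat_lit 78) (nat_lit 5) (nat_lit 436) (nat_lit 355) (nat_lit 229)))))) (XT.nd (nat_lit 546) (nat_lit 760) (nat_lit 0) (XT.nd (nat_lit 234) (nat_lit 532) (nat_lit 0) (XT.nd (nat_lit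 78) (nat_lit 152) (nat_lit 0) (XT.lf (nat_lit 0) (nat_lit 8718312954) (nat_lit 228) (nat_lit 3332075717) (nat_lit 76) (nat_lit 15258844480) (nat_lit 77) (nat_lit 5) (nat_lit 80) (nat_lit 5) (nat_lit 78) (nat_lit 5) (nat_lit 437) (nat_lit 355) (nat_lit 228)) (XT.nd (nat_lit 78) (nat_lit 0) (nat_lit 0) (XT.lf (nat_lit 0) (nat_lit 12262548899) (nat_lit 152) (nat_lit 3382354320) (nat_lit 228) (nat_lit 12216307263) (nat_lit 75) (nat_lit 5) (nat_lit 77) (nat_lit 5) (nat_lit 78) (nat_lit 5) (nat_lit 438) (nat_lit 355) (nat_lit 227)) (XT.lf (nat_lit 0) (nat_lit 22854958516) (nat_lit 228) (nat_lit 109499412) (nat_lit 76) (nat_lit 5463020463) (nat_lit 75) (nat_lit 5) (nat_lit 78) (nat_lit 5) (nat_lit 76) (nat_lit 5) (nat_lit 439) (nat_lit 355) (nat_lit 226)))) (XT.nd (nat_lit 156) (nat_lit 152) (nat_lit 0) (XT.nd (nat_lit 78) (nat_lit 152) (nat_lit 0) (XT.lf (nat_lit 0) (nat_lit 1424557820) (nat_lit 228) (nat_lit 12914111277)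 (nat_lit 76) (nat_lit 14666336923) (nat_lit 72) (nat_lit 5) (nat_lit 75) (nat_lit 5) (nat_lit 73) (nat_lit 5) (nat_lit 440) (nat_lit 355) (nat_lit 225)) (XT.lf (nat_lit 0) (nat_lit 3166451860) (nat_lit 152) (nat_lit 5373393079) (nat_lit 228) (nat_lit 21057751529) (nat_lit 70) (nat_lit 5) (nat_lit 72) (nat_lit 5) (nat_lit 73) (nat_lit 5) (nat_lit 441) (nat_lit 355) (nat_lit 224))) (XT.nd (nat_lit 78) (nat_lit 152) (nat_lit 0) (XT.lf (nat_lit 0) (nat_lit 16026202868) (nat_lit 228) (nat_lit 10268227010) (nat_lit 76) (nat_lit 3908807517) (nat_lit 70) (nat_lit 5) (nat_lit 73) (nat_lit 5) (nat_lit 71) (nat_lit 5) (nat_lit 442) (nat_lit 355) (nat_lit 223)) (XT.lf (nat_lit 0) (nat_lit 6432549696) (nat_lit 152) (nat_lit 17408764603) (nat_lit 228) (nat_lit 6982609469) (nat_lit 68) (nat_lit 5) (nat_lit 70) (nat_lit 5) (nat_lit 71) (nat_lit 5) (nat_lit 443) (nat_lit 355) (nat_lit 222))))) (XT.nd (nat_lit 312) (nat_lit 380)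 (nat_lit 0) (XT.nd (nat_lit 156) (nat_lit 152) (nat_lit 0) (XT.nd (nat_lit 78) (nat_lit 152) (nat_lit 0) (XT.lf (nat_lit 0) (nat_lit 513171339) (nat_lit 228) (nat_lit 7639795168) (nat_lit 76) (nat_lit 23307325900) (nat_lit 67) (nat_lit 5) (nat_lit 70) (nat_lit 5) (nat_lit 68) (nat_lit 5) (nat_lit 444) (nat_lit 355) (nat_lit 221)) (XT.lf (nat_lit 0) (nat_lit 8191146179) (nat_lit 228) (nat_lit 22410014544) (nat_lit 76) (nat_lit 1509588423) (nat_lit 65) (nat_lit 5) (nat_lit 68) (nat_lit 5) (nat_lit 66) (nat_lit 5) (nat_lit 445) (nat_lit 355) (nat_lit 220))) (XT.nd (nat_lit 78) (nat_lit 152) (nat_lit 0) (XT.lf (nat_lit 0) (nat_lit 16247610459) (nat_lit 228) (nat_lit 5160664101) (nat_lit 76) (nat_lit 11368001498) (nat_lit 65) (nat_lit 5) (nat_lit 68) (nat_lit 5) (nat_lit 66) (nat_lit 5) (nat_lit 446) (nat_lit 355) (nat_lit 219)) (XT.lf (nat_lit 0) (nat_lit 12838377977) (nat_lit 152) (nat_lit 11820623337) (nat_lit 228)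 (nat_lit 8799371435) (nat_lit 63) (nat_lit 5) (nat_lit 65) (nat_lit 5) (nat_lit 66) (nat_lit 5) (nat_lit 447) (nat_lit 355) (nat_lit 218)))) (XT.nd (nat_lit 156) (nat_lit 152) (nat_lit 0) (XT.nd (nat_lit 78) (nat_lit 228) (nat_lit 0) (XT.lf (nat_lit 0) (nat_lit 31465047528) (nat_lit 152) (nat_lit 1899743397) (nat_lit 228) (nat_lit 794880625) (nat_lit 63) (nat_lit 5) (nat_lit 65) (nat_lit 5) (nat_lit 66) (nat_lit 5) (nat_lit 448) (nat_lit 355) (nat_lit 217)) (XT.lf (nat_lit 0) (nat_lit 7530349629) (nat_lit 228) (nat_lit 18966526071) (nat_lit 76) (nat_lit 8376206857) (nat_lit 60) (nat_lit 5) (nat_lit 63) (nat_lit 5) (nat_lit 61) (nat_lit 5) (nat_lit 449) (nat_lit 355) (nat_lit 216))) (XT.nd (nat_lit 78) (nat_lit 152) (nat_lit 0) (XT.lf (nat_lit 0) (nat_lit 16125831396) (nat_lit 228) (nat_lit 530863005) (nat_lit 76) (nat_lit 18949872107) (nat_lit 60) (nat_lit 5) (nat_lit 63) (nat_lit 5) (nat_lit 61) (nat_lit 5) (nat_lit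 450) (nat_lit 355) (nat_lit 215)) (XT.lf (nat_lit 0) (nat_lit 18807548568) (nat_lit 152) (nat_lit 6342886424) (nat_lit 228) (nat_lit 11206483083) (nat_lit 58) (nat_lit 5) (nat_lit 60) (nat_lit 5) (nat_lit 61) (nat_lit 5) (nat_lit 451) (nat_lit 355) (nat_lit 214))))))))
noncomputable def xc139 : XT := (XT.nd (nat_lit 2262) (nat_lit 304) (nat_lit 0) (XT.nd (nat_lit 1092) (nat_lit 988) (nat_lit 0) (XT.nd (nat_lit 546) (nat_lit 380) (nat_lit 0) (XT.nd (nat_lit 234) (nat_lit 304) (nat_lit 0) (XT.nd (nat_lit 78) (nat_lit 228) (nat_lit 0) (XT.lf (nat_lit 0) (nat_lit 1579637853) (nat_lit 76) (nat_lit 32918388347) (nat_lit 152) (nat_lit 2630187298) (nat_lit 57) (nat_lit 5) (nat_lit 58) (nat_lit 5) (nat_lit 59) (nat_lit 4) (nat_lit 452) (nat_lit 355) (nat_lit 213)) (XT.nd (nat_lit 78) (nat_lit 152) (nat_lit 0) (XT.lf (nat_lit 0) (nat_lit 6314640102) (nat_lit 152) (nat_lit 16416640049) (nat_lit 76) (nat_lit 15182610656) (nat_lit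 56) (nat_lit 5) (nat_lit 58) (nat_lit 5) (nat_lit 57) (nat_lit 5) (nat_lit 453) (nat_lit 355) (nat_lit 212)) (XT.lf (nat_lit 0) (nat_lit 3310944200) (nat_lit 152) (nat_lit 12186630489) (nat_lit 228) (nat_lit 23224104435) (nat_lit 54) (nat_lit 5) (nat_lit 56) (nat_lit 5) (nat_lit 57) (nat_lit 5) (nat_lit 454) (nat_lit 355) (nat_lit 211)))) (XT.nd (nat_lit 156) (nat_lit 228) (nat_lit 0) (XT.nd (nat_lit 78) (nat_lit 76) (nat_lit 0) (XT.lf (nat_lit 0) (nat_lit 23950170056) (nat_lit 152) (nat_lit 1162510170) (nat_lit 228) (nat_lit 14436321083) (nat_lit 54) (nat_lit 5) (nat_lit 56) (nat_lit 5) (nat_lit 57) (nat_lit 5) (nat_lit 455) (nat_lit 355) (nat_lit 210)) (XT.lf (nat_lit 0) (nat_lit 4786436542) (nat_lit 76) (nat_lit 30364888277) (nat_lit 152) (nat_lit 5245766450) (nat_lit 53) (nat_lit 5) (nat_lit 54) (nat_lit 5) (nat_lit 55) (nat_lit 4) (nat_lit 456) (nat_lit 355) (nat_lit 209))) (XT.nd (nat_lit 78) (nat_lit 152)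 (nat_lit 0) (XT.lf (nat_lit 0) (nat_lit 4299850724) (nat_lit 152) (nat_lit 15232950080) (nat_lit 76) (nat_lit 21731755574) (nat_lit 52) (nat_lit 5) (nat_lit 54) (nat_lit 5) (nat_lit 53) (nat_lit 5) (nat_lit 457) (nat_lit 355) (nat_lit 208)) (XT.lf (nat_lit 0) (nat_lit 5801397128) (nat_lit 152) (nat_lit 8272145872) (nat_lit 228) (nat_lit 28081530679) (nat_lit 50) (nat_lit 5) (nat_lit 52) (nat_lit 5) (nat_lit 53) (nat_lit 5) (nat_lit 458) (nat_lit 355) (nat_lit 207))))) (XT.nd (nat_lit 234) (nat_lit 228) (nat_lit 0) (XT.nd (nat_lit 78) (nat_lit 152) (nat_lit 0) (XT.lf (nat_lit 0) (nat_lit 24319170818) (nat_lit 228) (nat_lit 15338140702) (nat_lit 76) (nat_lit 3409633846) (nat_lit 50) (nat_lit 5) (nat_lit 53) (nat_lit 5) (nat_lit 51) (nat_lit 4) (nat_lit 459) (nat_lit 355) (nat_lit 206)) (XT.nd (nat_lit 78) (nat_lit 76) (nat_lit 0) (XT.lf (nat_lit 0) (nat_lit 6334037826) (nat_lit 76) (nat_lit 28672573230) (nat_lit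 152) (nat_lit 8995529432) (nat_lit 49) (nat_lit 5) (nat_lit 50) (nat_lit 5) (nat_lit 51) (nat_lit 4) (nat_lit 460) (nat_lit 355) (nat_lit 205)) (XT.lf (nat_lit 0) (nat_lit 1176894004) (nat_lit 152) (nat_lit 16017101295) (nat_lit 76) (nat_lit 27766651544) (nat_lit 48) (nat_lit 5) (nat_lit 50) (nat_lit 5) (nat_lit 49) (nat_lit 5) (nat_lit 461) (nat_lit 355) (nat_lit 204)))) (XT.nd (nat_lit 156) (nat_lit 76) (nat_lit 0) (XT.nd (nat_lit 78) (nat_lit 0) (nat_lit 0) (XT.lf (nat_lit 0) (nat_lit 6302262711) (nat_lit 152) (nat_lit 5223917690) (nat_lit 228) (nat_lit 34417481845) (nat_lit 46) (nat_lit 5) (nat_lit 48) (nat_lit 5) (nat_lit 49) (nat_lit 5) (nat_lit 462) (nat_lit 355) (nat_lit 203)) (XT.lf (nat_lit 0) (nat_lit 22409523899) (nat_lit 228) (nat_lit 17416783390) (nat_lit 76) (nat_lit 7123153993) (nat_lit 46) (nat_lit 5) (nat_lit 49) (nat_lit 5) (nat_lit 47) (nat_lit 4) (nat_lit 463) (nat_lit 355) (nat_lit 202)))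 (XT.nd (nat_lit 78) (nat_lit 0) (nat_lit 0) (XT.lf (nat_lit 0) (nat_lit 5515814237) (nat_lit 76) (nat_lit 28200467352) (nat_lit 152) (nat_lit 14266245793) (nat_lit 45) (nat_lit 5) (nat_lit 46) (nat_lit 5) (nat_lit 47) (nat_lit 4) (nat_lit 464) (nat_lit 355) (nat_lit 201)) (XT.lf (nat_lit 0) (nat_lit 29478892137) (nat_lit 76) (nat_lit 16051484205) (nat_lit 152) (nat_lit 3511165589) (nat_lit 45) (nat_lit 5) (nat_lit 46) (nat_lit 5) (nat_lit 47) (nat_lit 4) (nat_lit 465) (nat_lit 355) (nat_lit 200)))))) (XT.nd (nat_lit 546) (nat_lit 456) (nat_lit 0) (XT.nd (nat_lit 234) (nat_lit 228) (nat_lit 0) (XT.nd (nat_lit 78) (nat_lit 76) (nat_lit 0) (XT.lf (nat_lit 0) (nat_lit 4019992392) (nat_lit 152) (nat_lit 3429975833) (nat_lit 228) (nat_lit 42679245558) (nat_lit 42) (nat_lit 5) (nat_lit 44) (nat_lit 5) (nat_lit 45) (nat_lit 5) (nat_lit 466) (nat_lit 355) (nat_lit 199)) (XT.nd (nat_lit 78) (nat_lit 76) (nat_lit 0) (XT.lf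 (nat_lit 0) (nat_lit 18953291242) (nat_lit 228) (nat_lit 22675450247) (nat_lit 76) (nat_lit 9611214051) (nat_lit 42) (nat_lit 5) (nat_lit 45) (nat_lit 5) (nat_lit 43) (nat_lit 4) (nat_lit 467) (nat_lit 355) (nat_lit 198)) (XT.lf (nat_lit 0) (nat_lit 1441645901) (nat_lit 76) (nat_lit 29400538077) (nat_lit 152) (nat_lit 21540621912) (nat_lit 41) (nat_lit 5) (nat_lit 42) (nat_lit 5) (nat_lit 43) (nat_lit 4) (nat_lit 468) (nat_lit 355) (nat_lit 197)))) (XT.nd (nat_lit 156) (nat_lit 152) (nat_lit 0) (XT.nd (nat_lit 78) (nat_lit 76) (nat_lit 0) (XT.lf (nat_lit 0) (nat_lit 26733355634) (nat_lit 76) (nat_lit 16576099437) (nat_lit 152) (nat_lit 10243835758) (nat_lit 41) (nat_lit 5) (nat_lit 42) (nat_lit 5) (nat_lit 43) (nat_lit 4) (nat_lit 469) (nat_lit 355) (nat_lit 196)) (XT.lf (nat_lit 0) (nat_lit 1357569265) (nat_lit 152) (nat_lit 2001919285) (nat_lit 76) (nat_lit 51399214529) (nat_lit 40) (nat_lit 5) (nat_lit 42) (nat_lit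 5) (nat_lit 41) (nat_lit 5) (nat_lit 470) (nat_lit 355) (nat_lit 195))) (XT.nd (nat_lit 78) (nat_lit 0) (nat_lit 0) (XT.lf (nat_lit 0) (nat_lit 13425857444) (nat_lit 228) (nat_lit 32179568854) (nat_lit 76) (nat_lit 10382067106) (nat_lit 38) (nat_lit 5) (nat_lit 41) (nat_lit 5) (nat_lit 39) (nat_lit 4) (nat_lit 471) (nat_lit 355) (nat_lit 194)) (XT.lf (nat_lit 0) (nat_lit 25902973360) (nat_lit 228) (nat_lit 6865995072) (nat_lit 76) (nat_lit 24482776014) (nat_lit 38) (nat_lit 5) (nat_lit 41) (nat_lit 5) (nat_lit 39) (nat_lit 4) (nat_lit 472) (nat_lit 355) (nat_lit 193))))) (XT.nd (nat_lit 312) (nat_lit 228) (nat_lit 0) (XT.nd (nat_lit 156) (nat_lit 152) (nat_lit 0) (XT.nd (nat_lit 78) (nat_lit 0) (nat_lit 0) (XT.lf (nat_lit 0) (nat_lit 19576278197) (nat_lit 76) (nat_lit 19359605870) (nat_lit 152) (nat_lit 19612594883) (nat_lit 37) (nat_lit 5) (nat_lit 38) (nat_lit 5) (nat_lit 39) (nat_lit 4) (nat_lit 473) (nat_lit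 355) (nat_lit 192)) (XT.lf (nat_lit 0) (nat_lit 46939979033) (nat_lit 76) (nat_lit 5482512392) (nat_lit 152) (nat_lit 7459743140) (nat_lit 37) (nat_lit 5) (nat_lit 38) (nat_lit 5) (nat_lit 39) (nat_lit 4) (nat_lit 474) (nat_lit 355) (nat_lit 191))) (XT.nd (nat_lit 78) (nat_lit 0) (nat_lit 0) (XT.lf (nat_lit 0) (nat_lit 5174335376) (nat_lit 152) (nat_lit 47254720186) (nat_lit 76) (nat_lit 8819029044) (nat_lit 35) (nat_lit 5) (nat_lit 37) (nat_lit 5) (nat_lit 36) (nat_lit 4) (nat_lit 475) (nat_lit 355) (nat_lit 190)) (XT.lf (nat_lit 0) (nat_lit 18217291447) (nat_lit 152) (nat_lit 20790433934) (nat_lit 76) (nat_lit 23639575670) (nat_lit 35) (nat_lit 5) (nat_lit 37) (nat_lit 5) (nat_lit 36) (nat_lit 4) (nat_lit 476) (nat_lit 355) (nat_lit 189)))) (XT.nd (nat_lit 156) (nat_lit 152) (nat_lit 0) (XT.nd (nat_lit 78) (nat_lit 0) (nat_lit 0) (XT.lf (nat_lit 0) (nat_lit 6584257726) (nat_lit 76) (nat_lit 25124280066) (nat_lit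 152) (nat_lit 32378246468) (nat_lit 34) (nat_lit 5) (nat_lit 35) (nat_lit 5) (nat_lit 36) (nat_lit 4) (nat_lit 477) (nat_lit 355) (nat_lit 188)) (XT.lf (nat_lit 0) (nat_lit 35194485591) (nat_lit 76) (nat_lit 10613757170) (nat_lit 152) (nat_lit 19755097875) (nat_lit 34) (nat_lit 5) (nat_lit 35) (nat_lit 5) (nat_lit 36) (nat_lit 4) (nat_lit 478) (nat_lit 355) (nat_lit 187))) (XT.nd (nat_lit 78) (nat_lit 152) (nat_lit 0) (XT.lf (nat_lit 0) (nat_lit 60366488435) (nat_lit 152) (nat_lit 2474486453) (nat_lit 0) (nat_lit 4242152630) (nat_lit 34) (nat_lit 5) (nat_lit 36) (nat_lit 4) (nat_lit 34) (nat_lit 4) (nat_lit 479) (nat_lit 355) (nat_lit 186)) (XT.lf (nat_lit 0) (nat_lit 6940946708) (nat_lit 152) (nat_lit 42045354209) (nat_lit 76) (nat_lit 19649502468) (nat_lit 32) (nat_lit 5) (nat_lit 34) (nat_lit 5) (nat_lit 33) (nat_lit 4) (nat_lit 480) (nat_lit 355) (nat_lit 185))))))) (XT.nd (nat_lit 43836) (nat_lit 0) (nat_lit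 18088) (XT.nd (nat_lit 546) (nat_lit 0) (nat_lit 0) (XT.nd (nat_lit 234) (nat_lit 228) (nat_lit 0) (XT.nd (nat_lit 78) (nat_lit 76) (nat_lit 0) (XT.lf (nat_lit 0) (nat_lit 20892587787) (nat_lit 152) (nat_lit 13734338569) (nat_lit 76) (nat_lit 35605558641) (nat_lit 32) (nat_lit 5) (nat_lit 34) (nat_lit 5) (nat_lit 33) (nat_lit 4) (nat_lit 481) (nat_lit 355) (nat_lit 184)) (XT.nd (nat_lit 78) (nat_lit 0) (nat_lit 0) (XT.lf (nat_lit 0) (nat_lit 15721789179) (nat_lit 76) (nat_lit 19686379139) (nat_lit 152) (nat_lit 36464537299) (nat_lit 31) (nat_lit 5) (nat_lit 32) (nat_lit 5) (nat_lit 33) (nat_lit 4) (nat_lit 482) (nat_lit 355) (nat_lit 183)) (XT.lf (nat_lit 0) (nat_lit 46332242054) (nat_lit 76) (nat_lit 4159989198) (nat_lit 152) (nat_lit 23065911412) (nat_lit 31) (nat_lit 5) (nat_lit 32) (nat_lit 5) (nat_lit 33) (nat_lit 4) (nat_lit 483) (nat_lit 355) (nat_lit 182)))) (XT.nd (nat_lit 156) (nat_lit 76) (nat_lit 0)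 (XT.nd (nat_lit 78) (nat_lit 76) (nat_lit 0) (XT.lf (nat_lit 0) (nat_lit 2491038030) (nat_lit 76) (nat_lit 63669903330) (nat_lit 76) (nat_lit 9129237957) (nat_lit 30) (nat_lit 4) (nat_lit 31) (nat_lit 5) (nat_lit 31) (nat_lit 4) (nat_lit 484) (nat_lit 355) (nat_lit 181)) (XT.lf (nat_lit 0) (nat_lit 5436851978) (nat_lit 152) (nat_lit 43513185617) (nat_lit 76) (nat_lit 28113234218) (nat_lit 29) (nat_lit 5) (nat_lit 31) (nat_lit 5) (nat_lit 30) (nat_lit 4) (nat_lit 485) (nat_lit 355) (nat_lit 180))) (XT.nd (nat_lit 78) (nat_lit 76) (nat_lit 0) (XT.lf (nat_lit 0) (nat_lit 20251044720) (nat_lit 152) (nat_lit 13449432372) (nat_lit 76) (nat_lit 45186530306) (nat_lit 29) (nat_lit 5) (nat_lit 31) (nat_lit 5) (nat_lit 30) (nat_lit 4) (nat_lit 486) (nat_lit 355) (nat_lit 179)) (XT.lf (nat_lit 0) (nat_lit 17854550149) (nat_lit 76) (nat_lit 17821507732) (nat_lit 152) (nat_lit 45084405553) (nat_lit 28) (nat_lit 5) (nat_lit 29)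 (nat_lit 5) (nat_lit 30) (nat_lit 4) (nat_lit 487) (nat_lit 355) (nat_lit 178))))) (XT.nd (nat_lit 42978) (nat_lit 0) (nat_lit 22040) (XT.nd (nat_lit 42822) (nat_lit 0) (nat_lit 22952) (XT.lf (nat_lit 0) (nat_lit 50363361343) (nat_lit 76) (nat_lit 1331095182) (nat_lit 152) (nat_lit 30991747790) (nat_lit 28) (nat_lit 5) (nat_lit 29) (nat_lit 5) (nat_lit 30) (nat_lit 4) (nat_lit 488) (nat_lit 355) (nat_lit 177)) (XT.nd (nat_lit 78) (nat_lit 0) (nat_lit 0) (XT.lf (nat_lit 0) (nat_lit 995339225) (nat_lit 0) (nat_lit 995339225) (nat_lit 836) (nat_lit 1775504305) (nat_lit 330) (nat_lit 5) (nat_lit 330) (nat_lit 3) (nat_lit 341) (nat_lit 3) (nat_lit 356) (nat_lit 356) (nat_lit 308)) (XT.lf (nat_lit 0) (nat_lit 5456893970) (nat_lit 836) (nat_lit 1856889813) (nat_lit 912) (nat_lit 288517691) (nat_lit 330) (nat_lit 5) (nat_lit 341) (nat_lit 3) (nat_lit 342) (nat_lit 5) (nat_lit 357) (nat_lit 356) (nat_lit 307)))) (XT.nd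 (nat_lit 156) (nat_lit 0) (nat_lit 0) (XT.nd (nat_lit 78) (nat_lit 912) (nat_lit 0) (XT.lf (nat_lit 76) (nat_lit 1926826671) (nat_lit 0) (nat_lit 5033222071) (nat_lit 912) (nat_lit 714808666) (nat_lit 331) (nat_lit 5) (nat_lit 330) (nat_lit 5) (nat_lit 342) (nat_lit 5) (nat_lit 358) (nat_lit 356) (nat_lit 306)) (XT.lf (nat_lit 0) (nat_lit 708725509) (nat_lit 912) (nat_lit 1924710337) (nat_lit 988) (nat_lit 5117011859) (nat_lit 318) (nat_lit 5) (nat_lit 330) (nat_lit 5) (nat_lit 331) (nat_lit 5) (nat_lit 359) (nat_lit 356) (nat_lit 305))) (XT.nd (nat_lit 78) (nat_lit 0) (nat_lit 76) (XT.lf (nat_lit 76) (nat_lit 2016134510) (nat_lit 0) (nat_lit 111306612) (nat_lit 988) (nat_lit 5701667534) (nat_lit 319) (nat_lit 5) (nat_lit 318) (nat_lit 5) (nat_lit 331) (nat_lit 5) (nat_lit 360) (nat_lit 356) (nat_lit 304)) (XT.lf (nat_lit 0) (nat_lit 3581172912) (nat_lit 912) (nat_lit 1849903687) (nat_lit 988) (nat_lit 2479299134)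 (nat_lit 319) (nat_lit 5) (nat_lit 331) (nat_lit 5) (nat_lit 332) (nat_lit 5) (nat_lit 361) (nat_lit 356) (nat_lit 303)))))) (XT.nd (nat_lit 546) (nat_lit 3116) (nat_lit 0) (XT.nd (nat_lit 234) (nat_lit 912) (nat_lit 0) (XT.nd (nat_lit 78) (nat_lit 0) (nat_lit 0) (XT.lf (nat_lit 76) (nat_lit 2244737776) (nat_lit 0) (nat_lit 2806871186) (nat_lit 988) (nat_lit 2943298450) (nat_lit 320) (nat_lit 5) (nat_lit 319) (nat_lit 5) (nat_lit 332) (nat_lit 5) (nat_lit 362) (nat_lit 356) (nat_lit 302)) (XT.nd (nat_lit 78) (nat_lit 0) (nat_lit 76) (XT.lf (nat_lit 76) (nat_lit 6470412049) (nat_lit 0) (nat_lit 65997452) (nat_lit 988) (nat_lit 1546476792) (nat_lit 320) (nat_lit 5) (nat_lit 319) (nat_lit 5) (nat_lit 332) (nat_lit 5) (nat_lit 363) (nat_lit 356) (nat_lit 301)) (XT.lf (nat_lit 76) (nat_lit 2643977448) (nat_lit 0) (nat_lit 5426851186) (nat_lit 988) (nat_lit 102541918) (nat_lit 321) (nat_lit 5) (nat_lit 320) (nat_lit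 5) (nat_lit 333) (nat_lit 5) (nat_lit 364) (nat_lit 356) (nat_lit 300)))) (XT.nd (nat_lit 156) (nat_lit 0) (nat_lit 76) (XT.nd (nat_lit 78) (nat_lit 0) (nat_lit 76) (XT.lf (nat_lit 0) (nat_lit 1328547753) (nat_lit 988) (nat_lit 1250133280) (nat_lit 1064) (nat_lit 5688380458) (nat_lit 307) (nat_lit 5) (nat_lit 320) (nat_lit 5) (nat_lit 321) (nat_lit 5) (nat_lit 365) (nat_lit 356) (nat_lit 299)) (XT.lf (nat_lit 0) (nat_lit 2790132422) (nat_lit 988) (nat_lit 5179332905) (nat_lit 1064) (nat_lit 394395374) (nat_lit 308) (nat_lit 5) (nat_lit 321) (nat_lit 5) (nat_lit 322) (nat_lit 5) (nat_lit 366) (nat_lit 356) (nat_lit 298))) (XT.nd (nat_lit 78) (nat_lit 0) (nat_lit 0) (XT.lf (nat_lit 0) (nat_lit 4290106208) (nat_lit 988) (nat_lit 742355066) (nat_lit 1064) (nat_lit 3431282579) (nat_lit 308) (nat_lit 5) (nat_lit 321) (nat_lit 5) (nat_lit 322) (nat_lit 5) (nat_lit 367) (nat_lit 356) (nat_lit 297)) (XT.lf (nat_lit 76)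 (nat_lit 3872850395) (nat_lit 0) (nat_lit 1956992163) (nat_lit 1064) (nat_lit 2736953780) (nat_lit 309) (nat_lit 5) (nat_lit 308) (nat_lit 5) (nat_lit 322) (nat_lit 5) (nat_lit 368) (nat_lit 356) (nat_lit 296))))) (XT.nd (nat_lit 312) (nat_lit 2204) (nat_lit 0) (XT.nd (nat_lit 156) (nat_lit 0) (nat_lit 0) (XT.nd (nat_lit 78) (nat_lit 1064) (nat_lit 0) (XT.lf (nat_lit 0) (nat_lit 7393571249) (nat_lit 988) (nat_lit 74224969) (nat_lit 1064) (nat_lit 1205825454) (nat_lit 309) (nat_lit 5) (nat_lit 322) (nat_lit 5) (nat_lit 323) (nat_lit 5) (nat_lit 369) (nat_lit 356) (nat_lit 295)) (XT.lf (nat_lit 0) (nat_lit 241091129) (nat_lit 1064) (nat_lit 4058961030) (nat_lit 1140) (nat_lit 4482805357) (nat_lit 295) (nat_lit 5) (nat_lit 309) (nat_lit 5) (nat_lit 310) (nat_lit 5) (nat_lit 370) (nat_lit 356) (nat_lit 294))) (XT.nd (nat_lit 78) (nat_lit 0) (nat_lit 76) (XT.lf (nat_lit 76) (nat_lit 742836686) (nat_lit 0) (nat_lit 1007473588)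 (nat_lit 1140) (nat_lit 7145648798) (nat_lit 296) (nat_lit 5) (nat_lit 295) (nat_lit 5) (nat_lit 310) (nat_lit 5) (nat_lit 371) (nat_lit 356) (nat_lit 293)) (XT.lf (nat_lit 0) (nat_lit 3330326634) (nat_lit 1064) (nat_lit 3294716841) (nat_lit 76) (nat_lit 2386658160) (nat_lit 296) (nat_lit 5) (nat_lit 310) (nat_lit 5) (nat_lit 297) (nat_lit 5) (nat_lit 372) (nat_lit 356) (nat_lit 292)))) (XT.nd (nat_lit 156) (nat_lit 1216) (nat_lit 0) (XT.nd (nat_lit 78) (nat_lit 0) (nat_lit 0) (XT.lf (nat_lit 0) (nat_lit 1701538253) (nat_lit 1064) (nat_lit 3244878132) (nat_lit 1140) (nat_lit 4184853083) (nat_lit 282) (nat_lit 5) (nat_lit 296) (nat_lit 5) (nat_lit 297) (nat_lit 5) (nat_lit 373) (nat_lit 356) (nat_lit 291)) (XT.lf (nat_lit 0) (nat_lit 6610063851) (nat_lit 1140) (nat_lit 2372813487) (nat_lit 76) (nat_lit 271587546) (nat_lit 282) (nat_lit 5) (nat_lit 297) (nat_lit 5) (nat_lit 283) (nat_lit 5) (nat_lit 374) (nat_lit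 356) (nat_lit 290))) (XT.nd (nat_lit 78) (nat_lit 76) (nat_lit 0) (XT.lf (nat_lit 0) (nat_lit 2827794741) (nat_lit 1140) (nat_lit 5519408041) (nat_lit 1216) (nat_lit 1033458345) (nat_lit 267) (nat_lit 5) (nat_lit 282) (nat_lit 5) (nat_lit 283) (nat_lit 5) (nat_lit 375) (nat_lit 356) (nat_lit 289)) (XT.lf (nat_lit 0) (nat_lit 602457496) (nat_lit 1216) (nat_lit 1314596246) (nat_lit 76) (nat_lit 7593755054) (nat_lit 266) (nat_lit 5) (nat_lit 282) (nat_lit 5) (nat_lit 267) (nat_lit 5) (nat_lit 376) (nat_lit 356) (nat_lit 288))))))))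
noncomputable def xc140 : XT := (XT.nd (nat_lit 2184) (nat_lit 4788) (nat_lit 0) (XT.nd (nat_lit 1092) (nat_lit 3876) (nat_lit 0) (XT.nd (nat_lit 546) (nat_lit 2128) (nat_lit 0) (XT.nd (nat_lit 234) (nat_lit 1292) (nat_lit 0) (XT.nd (nat_lit 78) (nat_lit 684) (nat_lit 0) (XT.lf (nat_lit 0) (nat_lit 2289743994) (nat_lit 1292) (nat_lit 5541744258) (nat_lit 76) (nat_lit 1812385106) (nat_lit 250) (nat_lit 5) (nat_lit 267) (nat_lit 5) (nat_lit 251) (nat_lit 5) (nat_lit 377) (nat_lit 356) (nat_lit 287)) (XT.nd (nat_lit 78) (nat_lit 684) (nat_lit 0) (XT.lf (nat_lit 0) (nat_lit 4026464748) (nat_lit 1292) (nat_lit 122654779) (nat_lit 76) (nat_lit 5631856900) (nat_lit 250) (nat_lit 5) (nat_lit 267) (nat_lit 5) (nat_lit 251) (nat_lit 5) (nat_lit 378) (nat_lit 356) (nat_lit 286)) (XT.lf (nat_lit 0) (nat_lit 5536644200) (nat_lit 684) (nat_lit 299270994) (nat_lit 760) (nat_lit 4085669271) (nat_lit 241) (nat_lit 5) (nat_lit 250)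 (nat_lit 5) (nat_lit 251) (nat_lit 5) (nat_lit 379) (nat_lit 356) (nat_lit 285)))) (XT.nd (nat_lit 156) (nat_lit 684) (nat_lit 0) (XT.nd (nat_lit 78) (nat_lit 0) (nat_lit 0) (XT.lf (nat_lit 0) (nat_lit 1260108342) (nat_lit 608) (nat_lit 6456229091) (nat_lit 684) (nat_lit 2349583068) (nat_lit 233) (nat_lit 5) (nat_lit 241) (nat_lit 5) (nat_lit 242) (nat_lit 5) (nat_lit 380) (nat_lit 356) (nat_lit 284)) (XT.lf (nat_lit 0) (nat_lit 7130587170) (nat_lit 608) (nat_lit 2538516129) (nat_lit 684) (nat_lit 545015492) (nat_lit 233) (nat_lit 5) (nat_lit 241) (nat_lit 5) (nat_lit 242) (nat_lit 5) (nat_lit 381) (nat_lit 356) (nat_lit 283))) (XT.nd (nat_lit 78) (nat_lit 0) (nat_lit 0) (XT.lf (nat_lit 0) (nat_lit 1299285710) (nat_lit 684) (nat_lit 7558929005) (nat_lit 76) (nat_lit 1507842057) (nat_lit 224) (nat_lit 5) (nat_lit 233) (nat_lit 5) (nat_lit 225) (nat_lit 5) (nat_lit 382) (nat_lit 356) (nat_lit 282)) (XT.lf (nat_lit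 0) (nat_lit 3214461828) (nat_lit 684) (nat_lit 1645861594) (nat_lit 76) (nat_lit 5661281826) (nat_lit 224) (nat_lit 5) (nat_lit 233) (nat_lit 5) (nat_lit 225) (nat_lit 5) (nat_lit 383) (nat_lit 356) (nat_lit 281))))) (XT.nd (nat_lit 234) (nat_lit 1064) (nat_lit 0) (XT.nd (nat_lit 78) (nat_lit 532) (nat_lit 0) (XT.lf (nat_lit 0) (nat_lit 4502238321) (nat_lit 532) (nat_lit 698929694) (nat_lit 608) (nat_lit 5480238895) (nat_lit 217) (nat_lit 5) (nat_lit 224) (nat_lit 5) (nat_lit 225) (nat_lit 5) (nat_lit 384) (nat_lit 356) (nat_lit 280)) (XT.nd (nat_lit 78) (nat_lit 532) (nat_lit 0) (XT.lf (nat_lit 0) (nat_lit 7270090525) (nat_lit 608) (nat_lit 42406003) (nat_lit 76) (nat_lit 3532836355) (nat_lit 217) (nat_lit 5) (nat_lit 225) (nat_lit 5) (nat_lit 218) (nat_lit 5) (nat_lit 385) (nat_lit 356) (nat_lit 279)) (XT.lf (nat_lit 0) (nat_lit 6365883167) (nat_lit 532) (nat_lit 3075492178) (nat_lit 608) (nat_lit 1571600913)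 (nat_lit 210) (nat_lit 5) (nat_lit 217) (nat_lit 5) (nat_lit 218) (nat_lit 5) (nat_lit 386) (nat_lit 356) (nat_lit 278)))) (XT.nd (nat_lit 156) (nat_lit 532) (nat_lit 0) (XT.nd (nat_lit 78) (nat_lit 0) (nat_lit 0) (XT.lf (nat_lit 0) (nat_lit 485116241) (nat_lit 532) (nat_lit 9416856212) (nat_lit 76) (nat_lit 1283465428) (nat_lit 203) (nat_lit 5) (nat_lit 210) (nat_lit 5) (nat_lit 204) (nat_lit 5) (nat_lit 387) (nat_lit 356) (nat_lit 277)) (XT.lf (nat_lit 0) (nat_lit 2622707508) (nat_lit 532) (nat_lit 2966791792) (nat_lit 76) (nat_lit 5771592176) (nat_lit 203) (nat_lit 5) (nat_lit 210) (nat_lit 5) (nat_lit 204) (nat_lit 5) (nat_lit 388) (nat_lit 356) (nat_lit 276))) (XT.nd (nat_lit 78) (nat_lit 0) (nat_lit 0) (XT.lf (nat_lit 0) (nat_lit 3719611639) (nat_lit 532) (nat_lit 1114277490) (nat_lit 608) (nat_lit 6707849191) (nat_lit 196) (nat_lit 5) (nat_lit 203) (nat_lit 5) (nat_lit 204) (nat_lit 5) (nat_lit 389) (nat_lit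 356) (nat_lit 275)) (XT.lf (nat_lit 0) (nat_lit 7149414681) (nat_lit 608) (nat_lit 1123577816) (nat_lit 76) (nat_lit 3453679115) (nat_lit 196) (nat_lit 5) (nat_lit 204) (nat_lit 5) (nat_lit 197) (nat_lit 5) (nat_lit 390) (nat_lit 356) (nat_lit 274)))))) (XT.nd (nat_lit 546) (nat_lit 1596) (nat_lit 0) (XT.nd (nat_lit 234) (nat_lit 1292) (nat_lit 0) (XT.nd (nat_lit 78) (nat_lit 532) (nat_lit 0) (XT.lf (nat_lit 0) (nat_lit 5849722991) (nat_lit 456) (nat_lit 3726854411) (nat_lit 532) (nat_lit 2339317445) (nat_lit 190) (nat_lit 5) (nat_lit 196) (nat_lit 5) (nat_lit 197) (nat_lit 5) (nat_lit 391) (nat_lit 356) (nat_lit 273)) (XT.nd (nat_lit 78) (nat_lit 76) (nat_lit 0) (XT.lf (nat_lit 0) (nat_lit 923790711) (nat_lit 456) (nat_lit 11157606420) (nat_lit 532) (nat_lit 29259263) (nat_lit 184) (nat_lit 5) (nat_lit 190) (nat_lit 5) (nat_lit 191) (nat_lit 5) (nat_lit 392) (nat_lit 356) (nat_lit 272)) (XT.lf (nat_lit 0) (nat_lit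 2378510820) (nat_lit 532) (nat_lit 4151657058) (nat_lit 76) (nat_lit 5778193604) (nat_lit 183) (nat_lit 5) (nat_lit 190) (nat_lit 5) (nat_lit 184) (nat_lit 5) (nat_lit 393) (nat_lit 356) (nat_lit 271)))) (XT.nd (nat_lit 156) (nat_lit 836) (nat_lit 0) (XT.nd (nat_lit 78) (nat_lit 0) (nat_lit 0) (XT.lf (nat_lit 0) (nat_lit 3126254614) (nat_lit 456) (nat_lit 1737942777) (nat_lit 532) (nat_lit 7647609793) (nat_lit 177) (nat_lit 5) (nat_lit 183) (nat_lit 5) (nat_lit 184) (nat_lit 5) (nat_lit 394) (nat_lit 356) (nat_lit 270)) (XT.lf (nat_lit 0) (nat_lit 7474118692) (nat_lit 532) (nat_lit 2073084667) (nat_lit 76) (nat_lit 3172669086) (nat_lit 177) (nat_lit 5) (nat_lit 184) (nat_lit 5) (nat_lit 178) (nat_lit 5) (nat_lit 395) (nat_lit 356) (nat_lit 269))) (XT.nd (nat_lit 78) (nat_lit 380) (nat_lit 0) (XT.lf (nat_lit 0) (nat_lit 5520698073) (nat_lit 456) (nat_lit 4689181110) (nat_lit 532) (nat_lit 2722880168) (nat_lit 171)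 (nat_lit 5) (nat_lit 177) (nat_lit 5) (nat_lit 178) (nat_lit 5) (nat_lit 396) (nat_lit 356) (nat_lit 268)) (XT.lf (nat_lit 0) (nat_lit 205240236) (nat_lit 380) (nat_lit 12826209193) (nat_lit 456) (nat_lit 120477090) (nat_lit 166) (nat_lit 5) (nat_lit 171) (nat_lit 5) (nat_lit 172) (nat_lit 5) (nat_lit 397) (nat_lit 356) (nat_lit 267))))) (XT.nd (nat_lit 234) (nat_lit 1140) (nat_lit 0) (XT.nd (nat_lit 78) (nat_lit 380) (nat_lit 0) (XT.lf (nat_lit 0) (nat_lit 2609811570) (nat_lit 456) (nat_lit 5273283216) (nat_lit 76) (nat_lit 5490848050) (nat_lit 165) (nat_lit 5) (nat_lit 171) (nat_lit 5) (nat_lit 166) (nat_lit 5) (nat_lit 398) (nat_lit 356) (nat_lit 266)) (XT.nd (nat_lit 78) (nat_lit 0) (nat_lit 0) (XT.lf (nat_lit 0) (nat_lit 2652655206) (nat_lit 380) (nat_lit 2770831536) (nat_lit 456) (nat_lit 8178985407) (nat_lit 160) (nat_lit 5) (nat_lit 165) (nat_lit 5) (nat_lit 166) (nat_lit 5) (nat_lit 399) (nat_lit 356)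 (nat_lit 265)) (XT.lf (nat_lit 0) (nat_lit 8378026880) (nat_lit 456) (nat_lit 2964837313) (nat_lit 76) (nat_lit 2493304627) (nat_lit 160) (nat_lit 5) (nat_lit 166) (nat_lit 5) (nat_lit 161) (nat_lit 5) (nat_lit 400) (nat_lit 356) (nat_lit 264)))) (XT.nd (nat_lit 156) (nat_lit 684) (nat_lit 0) (XT.nd (nat_lit 78) (nat_lit 76) (nat_lit 0) (XT.lf (nat_lit 0) (nat_lit 5308132084) (nat_lit 380) (nat_lit 6170846750) (nat_lit 456) (nat_lit 2596169260) (nat_lit 155) (nat_lit 5) (nat_lit 160) (nat_lit 5) (nat_lit 161) (nat_lit 5) (nat_lit 401) (nat_lit 356) (nat_lit 263)) (XT.lf (nat_lit 0) (nat_lit 354485035) (nat_lit 456) (nat_lit 461857052) (nat_lit 76) (nat_lit 13504567391) (nat_lit 154) (nat_lit 5) (nat_lit 160) (nat_lit 5) (nat_lit 155) (nat_lit 5) (nat_lit 402) (nat_lit 356) (nat_lit 262))) (XT.nd (nat_lit 78) (nat_lit 304) (nat_lit 0) (XT.lf (nat_lit 0) (nat_lit 3446481514) (nat_lit 456) (nat_lit 6417924819) (nat_lit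 76) (nat_lit 4705720691) (nat_lit 149) (nat_lit 5) (nat_lit 155) (nat_lit 5) (nat_lit 150) (nat_lit 5) (nat_lit 403) (nat_lit 356) (nat_lit 261)) (XT.lf (nat_lit 0) (nat_lit 2215271956) (nat_lit 304) (nat_lit 4430355951) (nat_lit 380) (nat_lit 8180765904) (nat_lit 145) (nat_lit 5) (nat_lit 149) (nat_lit 5) (nat_lit 150) (nat_lit 5) (nat_lit 404) (nat_lit 356) (nat_lit 260))))))) (XT.nd (nat_lit 1092) (nat_lit 2204) (nat_lit 0) (XT.nd (nat_lit 546) (nat_lit 1216) (nat_lit 0) (XT.nd (nat_lit 234) (nat_lit 912) (nat_lit 0) (XT.nd (nat_lit 78) (nat_lit 456) (nat_lit 0) (XT.lf (nat_lit 0) (nat_lit 9997957236) (nat_lit 380) (nat_lit 3888776957) (nat_lit 76) (nat_lit 1201902439) (nat_lit 145) (nat_lit 5) (nat_lit 150) (nat_lit 5) (nat_lit 146) (nat_lit 5) (nat_lit 405) (nat_lit 356) (nat_lit 259)) (XT.nd (nat_lit 78) (nat_lit 76) (nat_lit 0) (XT.lf (nat_lit 0) (nat_lit 5124634072) (nat_lit 380) (nat_lit 8400458334) (nat_lit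 456) (nat_lit 1831431415) (nat_lit 140) (nat_lit 5) (nat_lit 145) (nat_lit 5) (nat_lit 146) (nat_lit 5) (nat_lit 406) (nat_lit 356) (nat_lit 258)) (XT.lf (nat_lit 0) (nat_lit 1516699546) (nat_lit 456) (nat_lit 1185014707) (nat_lit 76) (nat_lit 12929671088) (nat_lit 139) (nat_lit 5) (nat_lit 145) (nat_lit 5) (nat_lit 140) (nat_lit 5) (nat_lit 407) (nat_lit 356) (nat_lit 257)))) (XT.nd (nat_lit 156) (nat_lit 304) (nat_lit 0) (XT.nd (nat_lit 78) (nat_lit 304) (nat_lit 0) (XT.lf (nat_lit 0) (nat_lit 5020875676) (nat_lit 380) (nat_lit 7693413517) (nat_lit 76) (nat_lit 3196890996) (nat_lit 135) (nat_lit 5) (nat_lit 140) (nat_lit 5) (nat_lit 136) (nat_lit 5) (nat_lit 408) (nat_lit 356) (nat_lit 256)) (XT.lf (nat_lit 0) (nat_lit 1708092323) (nat_lit 304) (nat_lit 6959310413) (nat_lit 380) (nat_lit 7530853074) (nat_lit 131) (nat_lit 5) (nat_lit 135) (nat_lit 5) (nat_lit 136) (nat_lit 5) (nat_lit 409) (nat_lit 356) (nat_lit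 255))) (XT.nd (nat_lit 78) (nat_lit 304) (nat_lit 0) (XT.lf (nat_lit 0) (nat_lit 11523324631) (nat_lit 304) (nat_lit 959936246) (nat_lit 380) (nat_lit 4008888356) (nat_lit 131) (nat_lit 5) (nat_lit 135) (nat_lit 5) (nat_lit 136) (nat_lit 5) (nat_lit 410) (nat_lit 356) (nat_lit 254)) (XT.lf (nat_lit 0) (nat_lit 4857049268) (nat_lit 304) (nat_lit 11636093423) (nat_lit 380) (nat_lit 299333816) (nat_lit 127) (nat_lit 5) (nat_lit 131) (nat_lit 5) (nat_lit 132) (nat_lit 5) (nat_lit 411) (nat_lit 356) (nat_lit 253))))) (XT.nd (nat_lit 234) (nat_lit 608) (nat_lit 0) (XT.nd (nat_lit 78) (nat_lit 532) (nat_lit 0) (XT.lf (nat_lit 0) (nat_lit 3495740679) (nat_lit 380) (nat_lit 2090410436) (nat_lit 76) (nat_lit 11513361725) (nat_lit 126) (nat_lit 5) (nat_lit 131) (nat_lit 5) (nat_lit 127) (nat_lit 5) (nat_lit 412) (nat_lit 356) (nat_lit 252)) (XT.nd (nat_lit 78) (nat_lit 228) (nat_lit 0) (XT.lf (nat_lit 0) (nat_lit 7467504274)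 (nat_lit 380) (nat_lit 9239156131) (nat_lit 76) (nat_lit 706948541) (nat_lit 122) (nat_lit 5) (nat_lit 127) (nat_lit 5) (nat_lit 123) (nat_lit 5) (nat_lit 413) (nat_lit 356) (nat_lit 251)) (XT.lf (nat_lit 0) (nat_lit 992237854) (nat_lit 228) (nat_lit 10635791780) (nat_lit 304) (nat_lit 6107013134) (nat_lit 119) (nat_lit 5) (nat_lit 122) (nat_lit 5) (nat_lit 123) (nat_lit 5) (nat_lit 414) (nat_lit 356) (nat_lit 250)))) (XT.nd (nat_lit 156) (nat_lit 228) (nat_lit 0) (XT.nd (nat_lit 78) (nat_lit 380) (nat_lit 0) (XT.lf (nat_lit 0) (nat_lit 11694989092) (nat_lit 228) (nat_lit 4295365505) (nat_lit 304) (nat_lit 2073458498) (nat_lit 119) (nat_lit 5) (nat_lit 122) (nat_lit 5) (nat_lit 123) (nat_lit 5) (nat_lit 415) (nat_lit 356) (nat_lit 249)) (XT.lf (nat_lit 0) (nat_lit 2088392433) (nat_lit 380) (nat_lit 14066273102) (nat_lit 76) (nat_lit 2245746702) (nat_lit 114) (nat_lit 5) (nat_lit 119) (nat_lit 5) (nat_lit 115) (nat_lit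 5) (nat_lit 416) (nat_lit 356) (nat_lit 248))) (XT.nd (nat_lit 78) (nat_lit 228) (nat_lit 0) (XT.lf (nat_lit 0) (nat_lit 6425053896) (nat_lit 380) (nat_lit 3344852992) (nat_lit 76) (nat_lit 8973840455) (nat_lit 114) (nat_lit 5) (nat_lit 119) (nat_lit 5) (nat_lit 115) (nat_lit 5) (nat_lit 417) (nat_lit 356) (nat_lit 247)) (XT.lf (nat_lit 0) (nat_lit 7826937172) (nat_lit 228) (nat_lit 3124728640) (nat_lit 304) (nat_lit 8143923843) (nat_lit 111) (nat_lit 5) (nat_lit 114) (nat_lit 5) (nat_lit 115) (nat_lit 5) (nat_lit 418) (nat_lit 356) (nat_lit 246)))))) (XT.nd (nat_lit 546) (nat_lit 1140) (nat_lit 0) (XT.nd (nat_lit 234) (nat_lit 532) (nat_lit 0) (XT.nd (nat_lit 78) (nat_lit 532) (nat_lit 0) (XT.lf (nat_lit 0) (nat_lit 15668694293) (nat_lit 304) (nat_lit 114762021) (nat_lit 76) (nat_lit 3672894969) (nat_lit 111) (nat_lit 5) (nat_lit 115) (nat_lit 5) (nat_lit 112) (nat_lit 5) (nat_lit 419) (nat_lit 356) (nat_lit 245))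 (XT.nd (nat_lit 78) (nat_lit 228) (nat_lit 0) (XT.lf (nat_lit 0) (nat_lit 814014602) (nat_lit 304) (nat_lit 8287461429) (nat_lit 76) (nat_lit 10722409637) (nat_lit 107) (nat_lit 5) (nat_lit 111) (nat_lit 5) (nat_lit 108) (nat_lit 5) (nat_lit 420) (nat_lit 356) (nat_lit 244)) (XT.lf (nat_lit 0) (nat_lit 3341267770) (nat_lit 228) (nat_lit 2154884716) (nat_lit 304) (nat_lit 14704614596) (nat_lit 104) (nat_lit 5) (nat_lit 107) (nat_lit 5) (nat_lit 108) (nat_lit 5) (nat_lit 421) (nat_lit 356) (nat_lit 243)))) (XT.nd (nat_lit 156) (nat_lit 304) (nat_lit 0) (XT.nd (nat_lit 78) (nat_lit 228) (nat_lit 0) (XT.lf (nat_lit 0) (nat_lit 10436711618) (nat_lit 304) (nat_lit 5170223959) (nat_lit 76) (nat_lit 4978482951) (nat_lit 104) (nat_lit 5) (nat_lit 108) (nat_lit 5) (nat_lit 105) (nat_lit 5) (nat_lit 422) (nat_lit 356) (nat_lit 242)) (XT.lf (nat_lit 0) (nat_lit 6961291639) (nat_lit 228) (nat_lit 8638250826) (nat_lit 304) (nat_lit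 5379847643) (nat_lit 101) (nat_lit 5) (nat_lit 104) (nat_lit 5) (nat_lit 105) (nat_lit 5) (nat_lit 423) (nat_lit 356) (nat_lit 241))) (XT.nd (nat_lit 78) (nat_lit 304) (nat_lit 0) (XT.lf (nat_lit 0) (nat_lit 19540019758) (nat_lit 228) (nat_lit 1415445984) (nat_lit 304) (nat_lit 428571040) (nat_lit 101) (nat_lit 5) (nat_lit 104) (nat_lit 5) (nat_lit 105) (nat_lit 5) (nat_lit 424) (nat_lit 356) (nat_lit 240)) (XT.lf (nat_lit 0) (nat_lit 4729857542) (nat_lit 304) (nat_lit 11016492183) (nat_lit 76) (nat_lit 6048635099) (nat_lit 97) (nat_lit 5) (nat_lit 101) (nat_lit 5) (nat_lit 98) (nat_lit 5) (nat_lit 425) (nat_lit 356) (nat_lit 239))))) (XT.nd (nat_lit 312) (nat_lit 684) (nat_lit 0) (XT.nd (nat_lit 156) (nat_lit 228) (nat_lit 0) (XT.nd (nat_lit 78) (nat_lit 0) (nat_lit 0) (XT.lf (nat_lit 0) (nat_lit 1589920489) (nat_lit 228) (nat_lit 8478982090) (nat_lit 304) (nat_lit 12148199095) (nat_lit 94) (nat_lit 5) (nat_lit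 97) (nat_lit 5) (nat_lit 98) (nat_lit 5) (nat_lit 426) (nat_lit 356) (nat_lit 238)) (XT.lf (nat_lit 0) (nat_lit 14778134729) (nat_lit 228) (nat_lit 887787016) (nat_lit 304) (nat_lit 6983028130) (nat_lit 94) (nat_lit 5) (nat_lit 97) (nat_lit 5) (nat_lit 98) (nat_lit 5) (nat_lit 427) (nat_lit 356) (nat_lit 237))) (XT.nd (nat_lit 78) (nat_lit 76) (nat_lit 0) (XT.lf (nat_lit 0) (nat_lit 5282819854) (nat_lit 152) (nat_lit 16252307149) (nat_lit 228) (nat_lit 1555500128) (nat_lit 92) (nat_lit 5) (nat_lit 94) (nat_lit 5) (nat_lit 95) (nat_lit 5) (nat_lit 428) (nat_lit 356) (nat_lit 236)) (XT.lf (nat_lit 0) (nat_lit 4032087442) (nat_lit 228) (nat_lit 4621054976) (nat_lit 76) (nat_lit 14888971441) (nat_lit 91) (nat_lit 5) (nat_lit 94) (nat_lit 5) (nat_lit 92) (nat_lit 5) (nat_lit 429) (nat_lit 356) (nat_lit 235)))) (XT.nd (nat_lit 156) (nat_lit 456) (nat_lit 0) (XT.nd (nat_lit 78) (nat_lit 0) (nat_lit 0) (XT.lf (nat_lit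 0) (nat_lit 9102224650) (nat_lit 228) (nat_lit 728602903) (nat_lit 304) (nat_lit 14173613652) (nat_lit 88) (nat_lit 5) (nat_lit 91) (nat_lit 5) (nat_lit 92) (nat_lit 5) (nat_lit 430) (nat_lit 356) (nat_lit 234)) (XT.lf (nat_lit 0) (nat_lit 15909490598) (nat_lit 304) (nat_lit 1240606168) (nat_lit 76) (nat_lit 7327364450) (nat_lit 88) (nat_lit 5) (nat_lit 92) (nat_lit 5) (nat_lit 89) (nat_lit 5) (nat_lit 431) (nat_lit 356) (nat_lit 233))) (XT.nd (nat_lit 78) (nat_lit 304) (nat_lit 0) (XT.lf (nat_lit 0) (nat_lit 13057685348) (nat_lit 152) (nat_lit 9233306271) (nat_lit 228) (nat_lit 2670067480) (nat_lit 86) (nat_lit 5) (nat_lit 88) (nat_lit 5) (nat_lit 89) (nat_lit 5) (nat_lit 432) (nat_lit 356) (nat_lit 232)) (XT.lf (nat_lit 0) (nat_lit 2343651081) (nat_lit 228) (nat_lit 1017646429) (nat_lit 304) (nat_lit 22096198147) (nat_lit 82) (nat_lit 5) (nat_lit 85) (nat_lit 5) (nat_lit 86) (nat_lit 5) (nat_lit 433) (nat_lit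 356) (nat_lit 231))))))))
noncomputable def xc141 : XT := (XT.nd (nat_lit 2262) (nat_lit 1520) (nat_lit 0) (XT.nd (nat_lit 1092) (nat_lit 1292) (nat_lit 0) (XT.nd (nat_lit 546) (nat_lit 608) (nat_lit 0) (XT.nd (nat_lit 234) (nat_lit 532) (nat_lit 0) (XT.nd (nat_lit 78) (nat_lit 152) (nat_lit 0) (XT.lf (nat_lit 0) (nat_lit 9700749129) (nat_lit 304) (nat_lit 8823186707) (nat_lit 76) (nat_lit 7438673522) (nat_lit 82) (nat_lit 5) (nat_lit 86) (nat_lit 5) (nat_lit 83) (nat_lit 5) (nat_lit 434) (nat_lit 356) (nat_lit 230)) (XT.nd (nat_lit 78) (nat_lit 0) (nat_lit 0) (XT.lf (nat_lit 0) (nat_lit 5982590848) (nat_lit 152) (nat_lit 10303590706) (nat_lit 228) (nat_lit 10195022436) (nat_lit 80) (nat_lit 5) (nat_lit 82) (nat_lit 5) (nat_lit 83) (nat_lit 5) (nat_lit 435) (nat_lit 356) (nat_lit 229)) (XT.lf (nat_lit 0) (nat_lit 21393340859) (nat_lit 152) (nat_lit 1753296607) (nat_lit 228) (nat_lit 3866396573) (nat_lit 80) (nat_lit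 5) (nat_lit 82) (nat_lit 5) (nat_lit 83) (nat_lit 5) (nat_lit 436) (nat_lit 356) (nat_lit 228)))) (XT.nd (nat_lit 156) (nat_lit 304) (nat_lit 0) (XT.nd (nat_lit 78) (nat_lit 0) (nat_lit 0) (XT.lf (nat_lit 0) (nat_lit 2752548298) (nat_lit 228) (nat_lit 17773819372) (nat_lit 76) (nat_lit 7029121468) (nat_lit 77) (nat_lit 5) (nat_lit 80) (nat_lit 5) (nat_lit 78) (nat_lit 5) (nat_lit 437) (nat_lit 356) (nat_lit 227)) (XT.lf (nat_lit 0) (nat_lit 9555674660) (nat_lit 228) (nat_lit 2428224179) (nat_lit 76) (nat_lit 16127272177) (nat_lit 77) (nat_lit 5) (nat_lit 80) (nat_lit 5) (nat_lit 78) (nat_lit 5) (nat_lit 438) (nat_lit 356) (nat_lit 226))) (XT.nd (nat_lit 78) (nat_lit 152) (nat_lit 0) (XT.lf (nat_lit 0) (nat_lit 13624397864) (nat_lit 152) (nat_lit 3058448208) (nat_lit 228) (nat_lit 11997079978) (nat_lit 75) (nat_lit 5) (nat_lit 77) (nat_lit 5) (nat_lit 78) (nat_lit 5) (nat_lit 439) (nat_lit 356) (nat_lit 225)) (XT.lf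 (nat_lit 0) (nat_lit 882102646) (nat_lit 152) (nat_lit 23222988535) (nat_lit 228) (nat_lit 5158216001) (nat_lit 73) (nat_lit 5) (nat_lit 75) (nat_lit 5) (nat_lit 76) (nat_lit 5) (nat_lit 440) (nat_lit 356) (nat_lit 224))))) (XT.nd (nat_lit 234) (nat_lit 380) (nat_lit 0) (XT.nd (nat_lit 78) (nat_lit 152) (nat_lit 0) (XT.lf (nat_lit 0) (nat_lit 2021905612) (nat_lit 228) (nat_lit 12322350228) (nat_lit 76) (nat_lit 15514204492) (nat_lit 72) (nat_lit 5) (nat_lit 75) (nat_lit 5) (nat_lit 73) (nat_lit 5) (nat_lit 441) (nat_lit 356) (nat_lit 223)) (XT.nd (nat_lit 78) (nat_lit 0) (nat_lit 0) (XT.lf (nat_lit 0) (nat_lit 4231029956) (nat_lit 152) (nat_lit 5112787906) (nat_lit 228) (nat_lit 21125217309) (nat_lit 70) (nat_lit 5) (nat_lit 72) (nat_lit 5) (nat_lit 73) (nat_lit 5) (nat_lit 442) (nat_lit 356) (nat_lit 222)) (XT.lf (nat_lit 0) (nat_lit 17042748414) (nat_lit 228) (nat_lit 9622857253) (nat_lit 76) (nat_lit 4427601831)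 (nat_lit 70) (nat_lit 5) (nat_lit 73) (nat_lit 5) (nat_lit 71) (nat_lit 5) (nat_lit 443) (nat_lit 356) (nat_lit 221)))) (XT.nd (nat_lit 156) (nat_lit 152) (nat_lit 0) (XT.nd (nat_lit 78) (nat_lit 76) (nat_lit 0) (XT.lf (nat_lit 0) (nat_lit 7569595533) (nat_lit 152) (nat_lit 17516187982) (nat_lit 228) (nat_lit 6646928417) (nat_lit 68) (nat_lit 5) (nat_lit 70) (nat_lit 5) (nat_lit 71) (nat_lit 5) (nat_lit 444) (nat_lit 356) (nat_lit 220)) (XT.lf (nat_lit 0) (nat_lit 1047519211) (nat_lit 228) (nat_lit 6942039033) (nat_lit 76) (nat_lit 24398924721) (nat_lit 67) (nat_lit 5) (nat_lit 70) (nat_lit 5) (nat_lit 68) (nat_lit 5) (nat_lit 445) (nat_lit 356) (nat_lit 219))) (XT.nd (nat_lit 78) (nat_lit 0) (nat_lit 0) (XT.lf (nat_lit 0) (nat_lit 8953436267) (nat_lit 228) (nat_lit 22152919773) (nat_lit 76) (nat_lit 1952170722) (nat_lit 65) (nat_lit 5) (nat_lit 68) (nat_lit 5) (nat_lit 66) (nat_lit 5) (nat_lit 446) (nat_lit 356)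 (nat_lit 218)) (XT.lf (nat_lit 0) (nat_lit 17236549164) (nat_lit 228) (nat_lit 4413158581) (nat_lit 76) (nat_lit 12094764500) (nat_lit 65) (nat_lit 5) (nat_lit 68) (nat_lit 5) (nat_lit 66) (nat_lit 5) (nat_lit 447) (nat_lit 356) (nat_lit 217)))))) (XT.nd (nat_lit 546) (nat_lit 608) (nat_lit 0) (XT.nd (nat_lit 234) (nat_lit 304) (nat_lit 0) (XT.nd (nat_lit 78) (nat_lit 228) (nat_lit 0) (XT.lf (nat_lit 0) (nat_lit 14117008432) (nat_lit 152) (nat_lit 11777254882) (nat_lit 228) (nat_lit 8552950438) (nat_lit 63) (nat_lit 5) (nat_lit 65) (nat_lit 5) (nat_lit 66) (nat_lit 5) (nat_lit 448) (nat_lit 356) (nat_lit 216)) (XT.nd (nat_lit 78) (nat_lit 228) (nat_lit 0) (XT.lf (nat_lit 0) (nat_lit 33276454407) (nat_lit 152) (nat_lit 1570340402) (nat_lit 228) (nat_lit 323190985) (nat_lit 63) (nat_lit 5) (nat_lit 65) (nat_lit 5) (nat_lit 66) (nat_lit 5) (nat_lit 449) (nat_lit 356) (nat_lit 215)) (XT.lf (nat_lit 0) (nat_lit 8240058785)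 (nat_lit 228) (nat_lit 18656244629) (nat_lit 76) (nat_lit 9008416094) (nat_lit 60) (nat_lit 5) (nat_lit 63) (nat_lit 5) (nat_lit 61) (nat_lit 5) (nat_lit 450) (nat_lit 356) (nat_lit 214)))) (XT.nd (nat_lit 156) (nat_lit 152) (nat_lit 0) (XT.nd (nat_lit 78) (nat_lit 0) (nat_lit 0) (XT.lf (nat_lit 0) (nat_lit 312985792) (nat_lit 152) (nat_lit 16769336599) (nat_lit 228) (nat_lit 19578219274) (nat_lit 58) (nat_lit 5) (nat_lit 60) (nat_lit 5) (nat_lit 61) (nat_lit 5) (nat_lit 451) (nat_lit 356) (nat_lit 213)) (XT.lf (nat_lit 0) (nat_lit 20217072947) (nat_lit 152) (nat_lit 6152027259) (nat_lit 228) (nat_lit 11064561665) (nat_lit 58) (nat_lit 5) (nat_lit 60) (nat_lit 5) (nat_lit 61) (nat_lit 5) (nat_lit 452) (nat_lit 356) (nat_lit 212))) (XT.nd (nat_lit 78) (nat_lit 76) (nat_lit 0) (XT.lf (nat_lit 0) (nat_lit 2474236637) (nat_lit 76) (nat_lit 33521064510) (nat_lit 152) (nat_lit 2232850692) (nat_lit 57) (nat_lit 5) (nat_lit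 58) (nat_lit 5) (nat_lit 59) (nat_lit 4) (nat_lit 453) (nat_lit 356) (nat_lit 211)) (XT.lf (nat_lit 0) (nat_lit 6957427872) (nat_lit 152) (nat_lit 16077547231) (nat_lit 76) (nat_lit 16002696116) (nat_lit 56) (nat_lit 5) (nat_lit 58) (nat_lit 5) (nat_lit 57) (nat_lit 5) (nat_lit 454) (nat_lit 356) (nat_lit 210))))) (XT.nd (nat_lit 312) (nat_lit 304) (nat_lit 0) (XT.nd (nat_lit 156) (nat_lit 152) (nat_lit 0) (XT.nd (nat_lit 78) (nat_lit 0) (nat_lit 0) (XT.lf (nat_lit 0) (nat_lit 4233711683) (nat_lit 152) (nat_lit 12176849887) (nat_lit 228) (nat_lit 23459291327) (nat_lit 54) (nat_lit 5) (nat_lit 56) (nat_lit 5) (nat_lit 57) (nat_lit 5) (nat_lit 455) (nat_lit 356) (nat_lit 209)) (XT.lf (nat_lit 0) (nat_lit 25468130650) (nat_lit 152) (nat_lit 832939343) (nat_lit 228) (nat_lit 14421317277) (nat_lit 54) (nat_lit 5) (nat_lit 56) (nat_lit 5) (nat_lit 57) (nat_lit 5) (nat_lit 456) (nat_lit 356) (nat_lit 208))) (XT.nd (nat_lit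 78) (nat_lit 76) (nat_lit 0) (XT.lf (nat_lit 0) (nat_lit 5731134201) (nat_lit 76) (nat_lit 30908171495) (nat_lit 152) (nat_lit 4956662263) (nat_lit 53) (nat_lit 5) (nat_lit 54) (nat_lit 5) (nat_lit 55) (nat_lit 4) (nat_lit 457) (nat_lit 356) (nat_lit 207)) (XT.lf (nat_lit 0) (nat_lit 4853860617) (nat_lit 152) (nat_lit 14903677613) (nat_lit 76) (nat_lit 22732173478) (nat_lit 52) (nat_lit 5) (nat_lit 54) (nat_lit 5) (nat_lit 53) (nat_lit 5) (nat_lit 458) (nat_lit 356) (nat_lit 206)))) (XT.nd (nat_lit 156) (nat_lit 152) (nat_lit 0) (XT.nd (nat_lit 78) (nat_lit 0) (nat_lit 0) (XT.lf (nat_lit 0) (nat_lit 6753991571) (nat_lit 152) (nat_lit 8161876955) (nat_lit 228) (nat_lit 28491223758) (nat_lit 50) (nat_lit 5) (nat_lit 52) (nat_lit 5) (nat_lit 53) (nat_lit 5) (nat_lit 459) (nat_lit 356) (nat_lit 205)) (XT.lf (nat_lit 0) (nat_lit 25459973822) (nat_lit 228) (nat_lit 15033488171) (nat_lit 76) (nat_lit 3853125744) (nat_lit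 50) (nat_lit 5) (nat_lit 53) (nat_lit 5) (nat_lit 51) (nat_lit 4) (nat_lit 460) (nat_lit 356) (nat_lit 204))) (XT.nd (nat_lit 78) (nat_lit 76) (nat_lit 0) (XT.lf (nat_lit 0) (nat_lit 7281357706) (nat_lit 76) (nat_lit 29181981669) (nat_lit 152) (nat_lit 8846641124) (nat_lit 49) (nat_lit 5) (nat_lit 50) (nat_lit 5) (nat_lit 51) (nat_lit 4) (nat_lit 461) (nat_lit 356) (nat_lit 203)) (XT.lf (nat_lit 0) (nat_lit 1610824891) (nat_lit 152) (nat_lit 15754412753) (nat_lit 76) (nat_lit 28932243202) (nat_lit 48) (nat_lit 5) (nat_lit 50) (nat_lit 5) (nat_lit 49) (nat_lit 5) (nat_lit 462) (nat_lit 356) (nat_lit 202))))))) (XT.nd (nat_lit 1092) (nat_lit 532) (nat_lit 0) (XT.nd (nat_lit 546) (nat_lit 456) (nat_lit 0) (XT.nd (nat_lit 234) (nat_lit 304) (nat_lit 0) (XT.nd (nat_lit 78) (nat_lit 76) (nat_lit 0) (XT.lf (nat_lit 0) (nat_lit 7227245883) (nat_lit 152) (nat_lit 5038807655) (nat_lit 228) (nat_lit 35044070041) (nat_lit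 46) (nat_lit 5) (nat_lit 48) (nat_lit 5) (nat_lit 49) (nat_lit 5) (nat_lit 463) (nat_lit 356) (nat_lit 201)) (XT.nd (nat_lit 78) (nat_lit 76) (nat_lit 0) (XT.lf (nat_lit 0) (nat_lit 23467609209) (nat_lit 228) (nat_lit 17216492746) (nat_lit 76) (nat_lit 7662244028) (nat_lit 46) (nat_lit 5) (nat_lit 49) (nat_lit 5) (nat_lit 47) (nat_lit 4) (nat_lit 464) (nat_lit 356) (nat_lit 200)) (XT.lf (nat_lit 0) (nat_lit 6396996592) (nat_lit 76) (nat_lit 28712215978) (nat_lit 152) (nat_lit 14301322941) (nat_lit 45) (nat_lit 5) (nat_lit 46) (nat_lit 5) (nat_lit 47) (nat_lit 4) (nat_lit 465) (nat_lit 356) (nat_lit 199)))) (XT.nd (nat_lit 156) (nat_lit 76) (nat_lit 0) (XT.nd (nat_lit 78) (nat_lit 228) (nat_lit 0) (XT.lf (nat_lit 0) (nat_lit 31058120967) (nat_lit 76) (nat_lit 16208499222) (nat_lit 152) (nat_lit 3235034317) (nat_lit 45) (nat_lit 5) (nat_lit 46) (nat_lit 5) (nat_lit 47) (nat_lit 4) (nat_lit 466) (nat_lit 356) (nat_lit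 198)) (XT.lf (nat_lit 0) (nat_lit 4836035448) (nat_lit 152) (nat_lit 3207245451) (nat_lit 228) (nat_lit 43578692545) (nat_lit 42) (nat_lit 5) (nat_lit 44) (nat_lit 5) (nat_lit 45) (nat_lit 5) (nat_lit 467) (nat_lit 356) (nat_lit 197))) (XT.nd (nat_lit 78) (nat_lit 76) (nat_lit 0) (XT.lf (nat_lit 0) (nat_lit 19883971318) (nat_lit 228) (nat_lit 22672772117) (nat_lit 76) (nat_lit 10209526637) (nat_lit 42) (nat_lit 5) (nat_lit 45) (nat_lit 5) (nat_lit 43) (nat_lit 4) (nat_lit 468) (nat_lit 356) (nat_lit 196)) (XT.lf (nat_lit 0) (nat_lit 2161141409) (nat_lit 76) (nat_lit 29964343860) (nat_lit 152) (nat_lit 21818042663) (nat_lit 41) (nat_lit 5) (nat_lit 42) (nat_lit 5) (nat_lit 43) (nat_lit 4) (nat_lit 469) (nat_lit 356) (nat_lit 195))))) (XT.nd (nat_lit 234) (nat_lit 228) (nat_lit 0) (XT.nd (nat_lit 78) (nat_lit 228) (nat_lit 0) (XT.lf (nat_lit 0) (nat_lit 28191905944) (nat_lit 76) (nat_lit 16764440325) (nat_lit 152)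 (nat_lit 10193094611) (nat_lit 41) (nat_lit 5) (nat_lit 42) (nat_lit 5) (nat_lit 43) (nat_lit 4) (nat_lit 470) (nat_lit 356) (nat_lit 194)) (XT.nd (nat_lit 78) (nat_lit 152) (nat_lit 0) (XT.lf (nat_lit 0) (nat_lit 1739140278) (nat_lit 152) (nat_lit 1417747290) (nat_lit 76) (nat_lit 53234332011) (nat_lit 40) (nat_lit 5) (nat_lit 42) (nat_lit 5) (nat_lit 41) (nat_lit 5) (nat_lit 471) (nat_lit 356) (nat_lit 193)) (XT.lf (nat_lit 0) (nat_lit 14168573725) (nat_lit 228) (nat_lit 32499804255) (nat_lit 76) (nat_lit 10988523296) (nat_lit 38) (nat_lit 5) (nat_lit 41) (nat_lit 5) (nat_lit 39) (nat_lit 4) (nat_lit 472) (nat_lit 356) (nat_lit 192)))) (XT.nd (nat_lit 156) (nat_lit 152) (nat_lit 0) (XT.nd (nat_lit 78) (nat_lit 76) (nat_lit 0) (XT.lf (nat_lit 0) (nat_lit 27010101937) (nat_lit 228) (nat_lit 6445614086) (nat_lit 76) (nat_lit 25503661408) (nat_lit 38) (nat_lit 5) (nat_lit 41) (nat_lit 5) (nat_lit 39) (nat_lit 4)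 (nat_lit 473) (nat_lit 356) (nat_lit 191)) (XT.lf (nat_lit 0) (nat_lit 20783786589) (nat_lit 76) (nat_lit 19646562513) (nat_lit 152) (nat_lit 19864774922) (nat_lit 37) (nat_lit 5) (nat_lit 38) (nat_lit 5) (nat_lit 39) (nat_lit 4) (nat_lit 474) (nat_lit 356) (nat_lit 190))) (XT.nd (nat_lit 78) (nat_lit 152) (nat_lit 0) (XT.lf (nat_lit 0) (nat_lit 48950333788) (nat_lit 76) (nat_lit 5361714431) (nat_lit 152) (nat_lit 7357129796) (nat_lit 37) (nat_lit 5) (nat_lit 38) (nat_lit 5) (nat_lit 39) (nat_lit 4) (nat_lit 475) (nat_lit 356) (nat_lit 189)) (XT.lf (nat_lit 0) (nat_lit 5648822465) (nat_lit 152) (nat_lit 48063025027) (nat_lit 76) (nat_lit 9364085800) (nat_lit 35) (nat_lit 5) (nat_lit 37) (nat_lit 5) (nat_lit 36) (nat_lit 4) (nat_lit 476) (nat_lit 356) (nat_lit 188)))))) (XT.nd (nat_lit 546) (nat_lit 228) (nat_lit 0) (XT.nd (nat_lit 234) (nat_lit 228) (nat_lit 0) (XT.nd (nat_lit 78) (nat_lit 76) (nat_lit 0) (XT.lf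 (nat_lit 0) (nat_lit 19073768469) (nat_lit 152) (nat_lit 20822557861) (nat_lit 76) (nat_lit 24621079333) (nat_lit 35) (nat_lit 5) (nat_lit 37) (nat_lit 5) (nat_lit 36) (nat_lit 4) (nat_lit 477) (nat_lit 356) (nat_lit 187)) (XT.nd (nat_lit 78) (nat_lit 0) (nat_lit 0) (XT.lf (nat_lit 0) (nat_lit 7367574656) (nat_lit 76) (nat_lit 25598780601) (nat_lit 152) (nat_lit 33033820475) (nat_lit 34) (nat_lit 5) (nat_lit 35) (nat_lit 5) (nat_lit 36) (nat_lit 4) (nat_lit 478) (nat_lit 356) (nat_lit 186)) (XT.lf (nat_lit 0) (nat_lit 36819047536) (nat_lit 76) (nat_lit 10661074869) (nat_lit 152) (nat_lit 20041174707) (nat_lit 34) (nat_lit 5) (nat_lit 35) (nat_lit 5) (nat_lit 36) (nat_lit 4) (nat_lit 479) (nat_lit 356) (nat_lit 185)))) (XT.nd (nat_lit 156) (nat_lit 76) (nat_lit 0) (XT.nd (nat_lit 78) (nat_lit 152) (nat_lit 0) (XT.lf (nat_lit 0) (nat_lit 62468976575) (nat_lit 152) (nat_lit 1990405329) (nat_lit 0) (nat_lit 4627480292)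 (nat_lit 34) (nat_lit 5) (nat_lit 36) (nat_lit 4) (nat_lit 34) (nat_lit 4) (nat_lit 480) (nat_lit 356) (nat_lit 184)) (XT.lf (nat_lit 0) (nat_lit 7440361034) (nat_lit 152) (nat_lit 42748064112) (nat_lit 76) (nat_lit 20497703245) (nat_lit 32) (nat_lit 5) (nat_lit 34) (nat_lit 5) (nat_lit 33) (nat_lit 4) (nat_lit 481) (nat_lit 356) (nat_lit 183))) (XT.nd (nat_lit 78) (nat_lit 76) (nat_lit 0) (XT.lf (nat_lit 0) (nat_lit 21802070202) (nat_lit 152) (nat_lit 13603989383) (nat_lit 76) (nat_lit 36924905694) (nat_lit 32) (nat_lit 5) (nat_lit 34) (nat_lit 5) (nat_lit 33) (nat_lit 4) (nat_lit 482) (nat_lit 356) (nat_lit 182)) (XT.lf (nat_lit 0) (nat_lit 16730504753) (nat_lit 76) (nat_lit 20019541843) (nat_lit 152) (nat_lit 37270438450) (nat_lit 31) (nat_lit 5) (nat_lit 32) (nat_lit 5) (nat_lit 33) (nat_lit 4) (nat_lit 483) (nat_lit 356) (nat_lit 181))))) (XT.nd (nat_lit 312) (nat_lit 76) (nat_lit 0) (XT.nd (nat_lit 156) (nat_lit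 76) (nat_lit 0) (XT.nd (nat_lit 78) (nat_lit 76) (nat_lit 0) (XT.lf (nat_lit 0) (nat_lit 48243628635) (nat_lit 76) (nat_lit 4034858127) (nat_lit 152) (nat_lit 23478243154) (nat_lit 31) (nat_lit 5) (nat_lit 32) (nat_lit 5) (nat_lit 33) (nat_lit 4) (nat_lit 484) (nat_lit 356) (nat_lit 180)) (XT.lf (nat_lit 0) (nat_lit 3087774660) (nat_lit 76) (nat_lit 65328926426) (nat_lit 76) (nat_lit 9124043654) (nat_lit 30) (nat_lit 4) (nat_lit 31) (nat_lit 5) (nat_lit 31) (nat_lit 4) (nat_lit 485) (nat_lit 356) (nat_lit 179))) (XT.nd (nat_lit 78) (nat_lit 0) (nat_lit 0) (XT.lf (nat_lit 0) (nat_lit 5865613608) (nat_lit 152) (nat_lit 44306481342) (nat_lit 76) (nat_lit 29195094015) (nat_lit 29) (nat_lit 5) (nat_lit 31) (nat_lit 5) (nat_lit 30) (nat_lit 4) (nat_lit 486) (nat_lit 356) (nat_lit 178)) (XT.lf (nat_lit 0) (nat_lit 21116494576) (nat_lit 152) (nat_lit 13355731029) (nat_lit 76) (nat_lit 46773643468) (nat_lit 29) (nat_lit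 5) (nat_lit 31) (nat_lit 5) (nat_lit 30) (nat_lit 4) (nat_lit 487) (nat_lit 356) (nat_lit 177)))) (XT.nd (nat_lit 42978) (nat_lit 0) (nat_lit 21964) (XT.nd (nat_lit 42900) (nat_lit 0) (nat_lit 22952) (XT.lf (nat_lit 0) (nat_lit 18882496613) (nat_lit 76) (nat_lit 18118981714) (nat_lit 152) (nat_lit 46174134177) (nat_lit 28) (nat_lit 5) (nat_lit 29) (nat_lit 5) (nat_lit 30) (nat_lit 4) (nat_lit 488) (nat_lit 356) (nat_lit 176)) (XT.lf (nat_lit 0) (nat_lit 1724902204) (nat_lit 0) (nat_lit 1724902204) (nat_lit 836) (nat_lit 386812171) (nat_lit 330) (nat_lit 5) (nat_lit 330) (nat_lit 3) (nat_lit 341) (nat_lit 3) (nat_lit 357) (nat_lit 357) (nat_lit 306))) (XT.nd (nat_lit 78) (nat_lit 0) (nat_lit 76) (XT.lf (nat_lit 0) (nat_lit 575689077) (nat_lit 988) (nat_lit 474056256) (nat_lit 988) (nat_lit 6697918687) (nat_lit 317) (nat_lit 3) (nat_lit 330) (nat_lit 3) (nat_lit 330) (nat_lit 5) (nat_lit 358) (nat_lit 357) (nat_lit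 305)) (XT.lf (nat_lit 0) (nat_lit 1944609573) (nat_lit 912) (nat_lit 4419210734) (nat_lit 988) (nat_lit 1460457946) (nat_lit 318) (nat_lit 5) (nat_lit 330) (nat_lit 5) (nat_lit 331) (nat_lit 5) (nat_lit 359) (nat_lit 357) (nat_lit 304))))))))
noncomputable def xc142 : XT := (XT.nd (nat_lit 2262) (nat_lit 6764) (nat_lit 0) (XT.nd (nat_lit 1092) (nat_lit 6992) (nat_lit 0) (XT.nd (nat_lit 546) (nat_lit 836) (nat_lit 0) (XT.nd (nat_lit 234) (nat_lit 912) (nat_lit 0) (XT.nd (nat_lit 78) (nat_lit 0) (nat_lit 0) (XT.lf (nat_lit 0) (nat_lit 3318817909) (nat_lit 912) (nat_lit 531787945) (nat_lit 988) (nat_lit 4053678391) (nat_lit 318) (nat_lit 5) (nat_lit 330) (nat_lit 5) (nat_lit 331) (nat_lit 5) (nat_lit 360) (nat_lit 357) (nat_lit 303)) (XT.nd (nat_lit 78) (nat_lit 0) (nat_lit 76) (XT.lf (nat_lit 76) (nat_lit 3513060054) (nat_lit 0) (nat_lit 1205440057) (nat_lit 988) (nat_lit 3268682235) (nat_lit 319) (nat_lit 5) (nat_lit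 318) (nat_lit 5) (nat_lit 331) (nat_lit 5) (nat_lit 361) (nat_lit 357) (nat_lit 302)) (XT.lf (nat_lit 0) (nat_lit 6132055064) (nat_lit 912) (nat_lit 426054720) (nat_lit 988) (nat_lit 1515319931) (nat_lit 319) (nat_lit 5) (nat_lit 331) (nat_lit 5) (nat_lit 332) (nat_lit 5) (nat_lit 362) (nat_lit 357) (nat_lit 301)))) (XT.nd (nat_lit 156) (nat_lit 0) (nat_lit 76) (XT.nd (nat_lit 78) (nat_lit 988) (nat_lit 0) (XT.lf (nat_lit 76) (nat_lit 3776922595) (nat_lit 0) (nat_lit 3812594207) (nat_lit 988) (nat_lit 572720948) (nat_lit 320) (nat_lit 5) (nat_lit 319) (nat_lit 5) (nat_lit 332) (nat_lit 5) (nat_lit 363) (nat_lit 357) (nat_lit 300)) (XT.lf (nat_lit 0) (nat_lit 778886234) (nat_lit 988) (nat_lit 175902505) (nat_lit 1064) (nat_lit 7299950316) (nat_lit 306) (nat_lit 5) (nat_lit 319) (nat_lit 5) (nat_lit 320) (nat_lit 5) (nat_lit 364) (nat_lit 357) (nat_lit 299))) (XT.nd (nat_lit 78) (nat_lit 0) (nat_lit 0) (XT.lf (nat_lit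 0) (nat_lit 2174940427) (nat_lit 988) (nat_lit 4161600737) (nat_lit 1064) (nat_lit 2012858522) (nat_lit 307) (nat_lit 5) (nat_lit 320) (nat_lit 5) (nat_lit 321) (nat_lit 5) (nat_lit 365) (nat_lit 357) (nat_lit 298)) (XT.lf (nat_lit 76) (nat_lit 204369039) (nat_lit 0) (nat_lit 3378133271) (nat_lit 1064) (nat_lit 4865325256) (nat_lit 308) (nat_lit 5) (nat_lit 307) (nat_lit 5) (nat_lit 321) (nat_lit 5) (nat_lit 366) (nat_lit 357) (nat_lit 297))))) (XT.nd (nat_lit 234) (nat_lit 912) (nat_lit 0) (XT.nd (nat_lit 78) (nat_lit 0) (nat_lit 76) (XT.lf (nat_lit 76) (nat_lit 4757595657) (nat_lit 0) (nat_lit 274124156) (nat_lit 1064) (nat_lit 3517521347) (nat_lit 308) (nat_lit 5) (nat_lit 307) (nat_lit 5) (nat_lit 321) (nat_lit 5) (nat_lit 367) (nat_lit 357) (nat_lit 296)) (XT.nd (nat_lit 78) (nat_lit 0) (nat_lit 0) (XT.lf (nat_lit 76) (nat_lit 750705223) (nat_lit 0) (nat_lit 5767794554) (nat_lit 1064) (nat_lit 2135390088)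 (nat_lit 309) (nat_lit 5) (nat_lit 308) (nat_lit 5) (nat_lit 322) (nat_lit 5) (nat_lit 368) (nat_lit 357) (nat_lit 295)) (XT.lf (nat_lit 76) (nat_lit 5475005317) (nat_lit 0) (nat_lit 2575544860) (nat_lit 1064) (nat_lit 711122678) (nat_lit 309) (nat_lit 5) (nat_lit 308) (nat_lit 5) (nat_lit 322) (nat_lit 5) (nat_lit 369) (nat_lit 357) (nat_lit 294)))) (XT.nd (nat_lit 156) (nat_lit 0) (nat_lit 0) (XT.nd (nat_lit 78) (nat_lit 0) (nat_lit 0) (XT.lf (nat_lit 0) (nat_lit 722783286) (nat_lit 1064) (nat_lit 7420059331) (nat_lit 1140) (nat_lit 730192917) (nat_lit 295) (nat_lit 5) (nat_lit 309) (nat_lit 5) (nat_lit 310) (nat_lit 5) (nat_lit 370) (nat_lit 357) (nat_lit 293)) (XT.lf (nat_lit 0) (nat_lit 2205862139) (nat_lit 1064) (nat_lit 2647637095) (nat_lit 1140) (nat_lit 4133428754) (nat_lit 295) (nat_lit 5) (nat_lit 309) (nat_lit 5) (nat_lit 310) (nat_lit 5) (nat_lit 371) (nat_lit 357) (nat_lit 292))) (XT.nd (nat_lit 78)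 (nat_lit 0) (nat_lit 76) (XT.lf (nat_lit 76) (nat_lit 2283184231) (nat_lit 0) (nat_lit 1434750494) (nat_lit 1140) (nat_lit 5386780632) (nat_lit 296) (nat_lit 5) (nat_lit 295) (nat_lit 5) (nat_lit 310) (nat_lit 5) (nat_lit 372) (nat_lit 357) (nat_lit 291)) (XT.lf (nat_lit 0) (nat_lit 5285865977) (nat_lit 1064) (nat_lit 1859576166) (nat_lit 76) (nat_lit 2080292107) (nat_lit 296) (nat_lit 5) (nat_lit 310) (nat_lit 5) (nat_lit 297) (nat_lit 5) (nat_lit 373) (nat_lit 357) (nat_lit 290)))))) (XT.nd (nat_lit 546) (nat_lit 2888) (nat_lit 0) (XT.nd (nat_lit 234) (nat_lit 1900) (nat_lit 0) (XT.nd (nat_lit 78) (nat_lit 1216) (nat_lit 0) (XT.lf (nat_lit 0) (nat_lit 3271527539) (nat_lit 1064) (nat_lit 3639464429) (nat_lit 1140) (nat_lit 2439099463) (nat_lit 282) (nat_lit 5) (nat_lit 296) (nat_lit 5) (nat_lit 297) (nat_lit 5) (nat_lit 374) (nat_lit 357) (nat_lit 289)) (XT.nd (nat_lit 78) (nat_lit 1216) (nat_lit 0) (XT.lf (nat_lit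 0) (nat_lit 8565627792) (nat_lit 1064) (nat_lit 3280028) (nat_lit 1140) (nat_lit 909762490) (nat_lit 282) (nat_lit 5) (nat_lit 296) (nat_lit 5) (nat_lit 297) (nat_lit 5) (nat_lit 375) (nat_lit 357) (nat_lit 288)) (XT.lf (nat_lit 0) (nat_lit 697765626) (nat_lit 1216) (nat_lit 5188007382) (nat_lit 76) (nat_lit 3723794120) (nat_lit 266) (nat_lit 5) (nat_lit 282) (nat_lit 5) (nat_lit 267) (nat_lit 5) (nat_lit 376) (nat_lit 357) (nat_lit 287)))) (XT.nd (nat_lit 156) (nat_lit 684) (nat_lit 0) (XT.nd (nat_lit 78) (nat_lit 0) (nat_lit 0) (XT.lf (nat_lit 0) (nat_lit 155022699) (nat_lit 1216) (nat_lit 2157732901) (nat_lit 1292) (nat_lit 7432050424) (nat_lit 250) (nat_lit 5) (nat_lit 266) (nat_lit 5) (nat_lit 267) (nat_lit 5) (nat_lit 377) (nat_lit 357) (nat_lit 286)) (XT.lf (nat_lit 0) (nat_lit 4012678974) (nat_lit 1292) (nat_lit 4164929272) (nat_lit 76) (nat_lit 1705410049) (nat_lit 250) (nat_lit 5) (nat_lit 267) (nat_lit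 5) (nat_lit 251) (nat_lit 5) (nat_lit 378) (nat_lit 357) (nat_lit 285))) (XT.nd (nat_lit 78) (nat_lit 0) (nat_lit 0) (XT.lf (nat_lit 0) (nat_lit 1399090477) (nat_lit 684) (nat_lit 4367677962) (nat_lit 760) (nat_lit 4258523849) (nat_lit 241) (nat_lit 5) (nat_lit 250) (nat_lit 5) (nat_lit 251) (nat_lit 5) (nat_lit 379) (nat_lit 357) (nat_lit 284)) (XT.lf (nat_lit 0) (nat_lit 7186179646) (nat_lit 684) (nat_lit 398355064) (nat_lit 760) (nat_lit 2586978270) (nat_lit 241) (nat_lit 5) (nat_lit 250) (nat_lit 5) (nat_lit 251) (nat_lit 5) (nat_lit 380) (nat_lit 357) (nat_lit 283))))) (XT.nd (nat_lit 312) (nat_lit 1596) (nat_lit 0) (XT.nd (nat_lit 156) (nat_lit 608) (nat_lit 0) (XT.nd (nat_lit 78) (nat_lit 76) (nat_lit 0) (XT.lf (nat_lit 0) (nat_lit 2814913068) (nat_lit 608) (nat_lit 6674366646) (nat_lit 684) (nat_lit 831877014) (nat_lit 233) (nat_lit 5) (nat_lit 241) (nat_lit 5) (nat_lit 242) (nat_lit 5) (nat_lit 381) (nat_lit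 357) (nat_lit 282)) (XT.lf (nat_lit 0) (nat_lit 961435081) (nat_lit 684) (nat_lit 1667266449) (nat_lit 76) (nat_lit 7846178062) (nat_lit 232) (nat_lit 5) (nat_lit 241) (nat_lit 5) (nat_lit 233) (nat_lit 5) (nat_lit 382) (nat_lit 357) (nat_lit 281))) (XT.nd (nat_lit 78) (nat_lit 0) (nat_lit 0) (XT.lf (nat_lit 0) (nat_lit 2820448971) (nat_lit 684) (nat_lit 6252204291) (nat_lit 76) (nat_lit 1559464094) (nat_lit 224) (nat_lit 5) (nat_lit 233) (nat_lit 5) (nat_lit 225) (nat_lit 5) (nat_lit 383) (nat_lit 357) (nat_lit 280)) (XT.lf (nat_lit 0) (nat_lit 4749909945) (nat_lit 684) (nat_lit 206409691) (nat_lit 76) (nat_lit 5837321033) (nat_lit 224) (nat_lit 5) (nat_lit 233) (nat_lit 5) (nat_lit 225) (nat_lit 5) (nat_lit 384) (nat_lit 357) (nat_lit 279)))) (XT.nd (nat_lit 156) (nat_lit 532) (nat_lit 0) (XT.nd (nat_lit 78) (nat_lit 532) (nat_lit 0) (XT.lf (nat_lit 0) (nat_lit 6111536872) (nat_lit 532) (nat_lit 656938623) (nat_lit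 608) (nat_lit 4190606023) (nat_lit 217) (nat_lit 5) (nat_lit 224) (nat_lit 5) (nat_lit 225) (nat_lit 5) (nat_lit 385) (nat_lit 357) (nat_lit 278)) (XT.lf (nat_lit 0) (nat_lit 1456979729) (nat_lit 532) (nat_lit 7415973881) (nat_lit 608) (nat_lit 2255779530) (nat_lit 210) (nat_lit 5) (nat_lit 217) (nat_lit 5) (nat_lit 218) (nat_lit 5) (nat_lit 386) (nat_lit 357) (nat_lit 277))) (XT.nd (nat_lit 78) (nat_lit 532) (nat_lit 0) (XT.lf (nat_lit 0) (nat_lit 8014653055) (nat_lit 532) (nat_lit 3054806838) (nat_lit 608) (nat_lit 233155577) (nat_lit 210) (nat_lit 5) (nat_lit 217) (nat_lit 5) (nat_lit 218) (nat_lit 5) (nat_lit 387) (nat_lit 357) (nat_lit 276)) (XT.lf (nat_lit 0) (nat_lit 1834114636) (nat_lit 532) (nat_lit 8189645524) (nat_lit 76) (nat_lit 1456825970) (nat_lit 203) (nat_lit 5) (nat_lit 210) (nat_lit 5) (nat_lit 204) (nat_lit 5) (nat_lit 388) (nat_lit 357) (nat_lit 275))))))) (XT.nd (nat_lit 1092) (nat_lit 3116)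 (nat_lit 0) (XT.nd (nat_lit 546) (nat_lit 1672) (nat_lit 0) (XT.nd (nat_lit 234) (nat_lit 988) (nat_lit 0) (XT.nd (nat_lit 78) (nat_lit 988) (nat_lit 0) (XT.lf (nat_lit 0) (nat_lit 3996966314) (nat_lit 532) (nat_lit 1590051494) (nat_lit 76) (nat_lit 6075668659) (nat_lit 203) (nat_lit 5) (nat_lit 210) (nat_lit 5) (nat_lit 204) (nat_lit 5) (nat_lit 389) (nat_lit 357) (nat_lit 274)) (XT.nd (nat_lit 78) (nat_lit 456) (nat_lit 0) (XT.lf (nat_lit 0) (nat_lit 5282574001) (nat_lit 532) (nat_lit 968125608) (nat_lit 608) (nat_lit 5598777408) (nat_lit 196) (nat_lit 5) (nat_lit 203) (nat_lit 5) (nat_lit 204) (nat_lit 5) (nat_lit 390) (nat_lit 357) (nat_lit 273)) (XT.lf (nat_lit 0) (nat_lit 293254020) (nat_lit 456) (nat_lit 8309889263) (nat_lit 532) (nat_lit 3437801929) (nat_lit 190) (nat_lit 5) (nat_lit 196) (nat_lit 5) (nat_lit 197) (nat_lit 5) (nat_lit 391) (nat_lit 357) (nat_lit 272)))) (XT.nd (nat_lit 156) (nat_lit 456)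 (nat_lit 0) (XT.nd (nat_lit 78) (nat_lit 532) (nat_lit 0) (XT.lf (nat_lit 0) (nat_lit 7455866539) (nat_lit 456) (nat_lit 3622175267) (nat_lit 532) (nat_lit 1158565880) (nat_lit 190) (nat_lit 5) (nat_lit 196) (nat_lit 5) (nat_lit 197) (nat_lit 5) (nat_lit 392) (nat_lit 357) (nat_lit 271)) (XT.lf (nat_lit 0) (nat_lit 1177374119) (nat_lit 532) (nat_lit 10046873436) (nat_lit 76) (nat_lit 1213209996) (nat_lit 183) (nat_lit 5) (nat_lit 190) (nat_lit 5) (nat_lit 184) (nat_lit 5) (nat_lit 393) (nat_lit 357) (nat_lit 270))) (XT.nd (nat_lit 78) (nat_lit 456) (nat_lit 0) (XT.lf (nat_lit 0) (nat_lit 3621636124) (nat_lit 532) (nat_lit 2843868399) (nat_lit 76) (nat_lit 6176644478) (nat_lit 183) (nat_lit 5) (nat_lit 190) (nat_lit 5) (nat_lit 184) (nat_lit 5) (nat_lit 394) (nat_lit 357) (nat_lit 269)) (XT.lf (nat_lit 0) (nat_lit 4638338090) (nat_lit 456) (nat_lit 1523059506) (nat_lit 532) (nat_lit 6690924383) (nat_lit 177) (nat_lit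 5) (nat_lit 183) (nat_lit 5) (nat_lit 184) (nat_lit 5) (nat_lit 395) (nat_lit 357) (nat_lit 268))))) (XT.nd (nat_lit 234) (nat_lit 760) (nat_lit 0) (XT.nd (nat_lit 78) (nat_lit 912) (nat_lit 0) (XT.lf (nat_lit 0) (nat_lit 8818576290) (nat_lit 532) (nat_lit 726958291) (nat_lit 76) (nat_lit 3522034597) (nat_lit 177) (nat_lit 5) (nat_lit 184) (nat_lit 5) (nat_lit 178) (nat_lit 5) (nat_lit 396) (nat_lit 357) (nat_lit 267)) (XT.nd (nat_lit 78) (nat_lit 456) (nat_lit 0) (XT.lf (nat_lit 0) (nat_lit 7080830882) (nat_lit 456) (nat_lit 4536355438) (nat_lit 532) (nat_lit 1670241587) (nat_lit 171) (nat_lit 5) (nat_lit 177) (nat_lit 5) (nat_lit 178) (nat_lit 5) (nat_lit 397) (nat_lit 357) (nat_lit 266)) (XT.lf (nat_lit 0) (nat_lit 974590673) (nat_lit 456) (nat_lit 11900774545) (nat_lit 76) (nat_lit 637999459) (nat_lit 165) (nat_lit 5) (nat_lit 171) (nat_lit 5) (nat_lit 166) (nat_lit 5) (nat_lit 398) (nat_lit 357) (nat_lit 265))))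 (XT.nd (nat_lit 156) (nat_lit 380) (nat_lit 0) (XT.nd (nat_lit 78) (nat_lit 380) (nat_lit 0) (XT.lf (nat_lit 0) (nat_lit 3752436603) (nat_lit 456) (nat_lit 4040103572) (nat_lit 76) (nat_lit 5950431215) (nat_lit 165) (nat_lit 5) (nat_lit 171) (nat_lit 5) (nat_lit 166) (nat_lit 5) (nat_lit 399) (nat_lit 357) (nat_lit 264)) (XT.lf (nat_lit 0) (nat_lit 4109972040) (nat_lit 380) (nat_lit 2522793720) (nat_lit 456) (nat_lit 7346131078) (nat_lit 160) (nat_lit 5) (nat_lit 165) (nat_lit 5) (nat_lit 166) (nat_lit 5) (nat_lit 400) (nat_lit 357) (nat_lit 263))) (XT.nd (nat_lit 78) (nat_lit 380) (nat_lit 0) (XT.lf (nat_lit 0) (nat_lit 9648549973) (nat_lit 456) (nat_lit 1688536496) (nat_lit 76) (nat_lit 2883347052) (nat_lit 160) (nat_lit 5) (nat_lit 166) (nat_lit 5) (nat_lit 161) (nat_lit 5) (nat_lit 401) (nat_lit 357) (nat_lit 262)) (XT.lf (nat_lit 0) (nat_lit 6819237219) (nat_lit 380) (nat_lit 6006603262) (nat_lit 456) (nat_lit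 1641249524) (nat_lit 155) (nat_lit 5) (nat_lit 160) (nat_lit 5) (nat_lit 161) (nat_lit 5) (nat_lit 402) (nat_lit 357) (nat_lit 261)))))) (XT.nd (nat_lit 546) (nat_lit 1596) (nat_lit 0) (XT.nd (nat_lit 234) (nat_lit 760) (nat_lit 0) (XT.nd (nat_lit 78) (nat_lit 304) (nat_lit 0) (XT.lf (nat_lit 0) (nat_lit 873611981) (nat_lit 380) (nat_lit 483061677) (nat_lit 456) (nat_lit 13363892367) (nat_lit 149) (nat_lit 5) (nat_lit 154) (nat_lit 5) (nat_lit 155) (nat_lit 5) (nat_lit 403) (nat_lit 357) (nat_lit 260)) (XT.nd (nat_lit 78) (nat_lit 304) (nat_lit 0) (XT.lf (nat_lit 0) (nat_lit 4520461601) (nat_lit 456) (nat_lit 5265396808) (nat_lit 76) (nat_lit 5192037269) (nat_lit 149) (nat_lit 5) (nat_lit 155) (nat_lit 5) (nat_lit 150) (nat_lit 5) (nat_lit 404) (nat_lit 357) (nat_lit 259)) (XT.lf (nat_lit 0) (nat_lit 3613608950) (nat_lit 304) (nat_lit 4186506785) (nat_lit 380) (nat_lit 7442205071) (nat_lit 145) (nat_lit 5) (nat_lit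 149) (nat_lit 5) (nat_lit 150) (nat_lit 5) (nat_lit 405) (nat_lit 357) (nat_lit 258)))) (XT.nd (nat_lit 156) (nat_lit 380) (nat_lit 0) (XT.nd (nat_lit 78) (nat_lit 380) (nat_lit 0) (XT.lf (nat_lit 0) (nat_lit 11228712106) (nat_lit 380) (nat_lit 2687846082) (nat_lit 76) (nat_lit 1596607962) (nat_lit 145) (nat_lit 5) (nat_lit 150) (nat_lit 5) (nat_lit 146) (nat_lit 5) (nat_lit 406) (nat_lit 357) (nat_lit 257)) (XT.lf (nat_lit 0) (nat_lit 6583049688) (nat_lit 380) (nat_lit 8264041843) (nat_lit 456) (nat_lit 942441492) (nat_lit 140) (nat_lit 5) (nat_lit 145) (nat_lit 5) (nat_lit 146) (nat_lit 5) (nat_lit 407) (nat_lit 357) (nat_lit 256))) (XT.nd (nat_lit 78) (nat_lit 0) (nat_lit 0) (XT.lf (nat_lit 0) (nat_lit 65459232) (nat_lit 304) (nat_lit 2395927170) (nat_lit 380) (nat_lit 13611777230) (nat_lit 135) (nat_lit 5) (nat_lit 139) (nat_lit 5) (nat_lit 140) (nat_lit 5) (nat_lit 408) (nat_lit 357) (nat_lit 255)) (XT.lf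 (nat_lit 0) (nat_lit 6059840977) (nat_lit 380) (nat_lit 6629069056) (nat_lit 76) (nat_lit 3672773164) (nat_lit 135) (nat_lit 5) (nat_lit 140) (nat_lit 5) (nat_lit 136) (nat_lit 5) (nat_lit 409) (nat_lit 357) (nat_lit 254))))) (XT.nd (nat_lit 312) (nat_lit 912) (nat_lit 0) (XT.nd (nat_lit 156) (nat_lit 380) (nat_lit 0) (XT.nd (nat_lit 78) (nat_lit 0) (nat_lit 0) (XT.lf (nat_lit 0) (nat_lit 3041784440) (nat_lit 304) (nat_lit 6760433144) (nat_lit 380) (nat_lit 6855565199) (nat_lit 131) (nat_lit 5) (nat_lit 135) (nat_lit 5) (nat_lit 136) (nat_lit 5) (nat_lit 410) (nat_lit 357) (nat_lit 253)) (XT.lf (nat_lit 0) (nat_lit 13114120824) (nat_lit 304) (nat_lit 592951245) (nat_lit 380) (nat_lit 3254190475) (nat_lit 131) (nat_lit 5) (nat_lit 135) (nat_lit 5) (nat_lit 136) (nat_lit 5) (nat_lit 411) (nat_lit 357) (nat_lit 252))) (XT.nd (nat_lit 78) (nat_lit 0) (nat_lit 0) (XT.lf (nat_lit 0) (nat_lit 546515094) (nat_lit 380)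 (nat_lit 11018949315) (nat_lit 76) (nat_lit 5705249020) (nat_lit 126) (nat_lit 5) (nat_lit 131) (nat_lit 5) (nat_lit 127) (nat_lit 5) (nat_lit 412) (nat_lit 357) (nat_lit 251)) (XT.lf (nat_lit 0) (nat_lit 4424702815) (nat_lit 380) (nat_lit 918581932) (nat_lit 76) (nat_lit 12244333591) (nat_lit 126) (nat_lit 5) (nat_lit 131) (nat_lit 5) (nat_lit 127) (nat_lit 5) (nat_lit 413) (nat_lit 357) (nat_lit 250)))) (XT.nd (nat_lit 156) (nat_lit 380) (nat_lit 0) (XT.nd (nat_lit 78) (nat_lit 228) (nat_lit 0) (XT.lf (nat_lit 0) (nat_lit 8507314448) (nat_lit 380) (nat_lit 8273332517) (nat_lit 76) (nat_lit 1130744087) (nat_lit 122) (nat_lit 5) (nat_lit 127) (nat_lit 5) (nat_lit 123) (nat_lit 5) (nat_lit 414) (nat_lit 357) (nat_lit 249)) (XT.lf (nat_lit 0) (nat_lit 2252817029) (nat_lit 228) (nat_lit 10527909128) (nat_lit 304) (nat_lit 5462104059) (nat_lit 119) (nat_lit 5) (nat_lit 122) (nat_lit 5) (nat_lit 123) (nat_lit 5) (nat_lit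 415) (nat_lit 357) (nat_lit 248))) (XT.nd (nat_lit 78) (nat_lit 380) (nat_lit 0) (XT.lf (nat_lit 0) (nat_lit 13240801910) (nat_lit 228) (nat_lit 4009705688) (nat_lit 304) (nat_lit 1331662768) (nat_lit 119) (nat_lit 5) (nat_lit 122) (nat_lit 5) (nat_lit 123) (nat_lit 5) (nat_lit 416) (nat_lit 357) (nat_lit 247)) (XT.lf (nat_lit 0) (nat_lit 2931975996) (nat_lit 380) (nat_lit 13269955201) (nat_lit 76) (nat_lit 2726929860) (nat_lit 114) (nat_lit 5) (nat_lit 119) (nat_lit 5) (nat_lit 115) (nat_lit 5) (nat_lit 417) (nat_lit 357) (nat_lit 246))))))))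
noncomputable def xc143 : XT := (XT.nd (nat_lit 2262) (nat_lit 2280) (nat_lit 0) (XT.nd (nat_lit 1092) (nat_lit 1596) (nat_lit 0) (XT.nd (nat_lit 546) (nat_lit 988) (nat_lit 0) (XT.nd (nat_lit 234) (nat_lit 532) (nat_lit 0) (XT.nd (nat_lit 78) (nat_lit 456) (nat_lit 0) (XT.lf (nat_lit 0) (nat_lit 7375991717) (nat_lit 380) (nat_lit 2262377132) (nat_lit 76) (nat_lit 9644813685) (nat_lit 114) (nat_lit 5) (nat_lit 119) (nat_lit 5) (nat_lit 115) (nat_lit 5) (nat_lit 418) (nat_lit 357) (nat_lit 245)) (XT.nd (nat_lit 78) (nat_lit 228) (nat_lit 0) (XT.lf (nat_lit 0) (nat_lit 9232970449) (nat_lit 228) (nat_lit 2794606981) (nat_lit 304) (nat_lit 7618331257) (nat_lit 111) (nat_lit 5) (nat_lit 114) (nat_lit 5) (nat_lit 115) (nat_lit 5) (nat_lit 419) (nat_lit 357) (nat_lit 244)) (XT.lf (nat_lit 0) (nat_lit 1057478274) (nat_lit 228) (nat_lit 15820991567) (nat_lit 304) (nat_lit 3139256454) (nat_lit 108) (nat_lit 5) (nat_lit 111)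 (nat_lit 5) (nat_lit 112) (nat_lit 5) (nat_lit 420) (nat_lit 357) (nat_lit 243)))) (XT.nd (nat_lit 156) (nat_lit 228) (nat_lit 0) (XT.nd (nat_lit 78) (nat_lit 228) (nat_lit 0) (XT.lf (nat_lit 0) (nat_lit 1564969640) (nat_lit 304) (nat_lit 7377784897) (nat_lit 76) (nat_lit 11453934699) (nat_lit 107) (nat_lit 5) (nat_lit 111) (nat_lit 5) (nat_lit 108) (nat_lit 5) (nat_lit 421) (nat_lit 357) (nat_lit 242)) (XT.lf (nat_lit 0) (nat_lit 4588450291) (nat_lit 228) (nat_lit 1788985299) (nat_lit 304) (nat_lit 14407748991) (nat_lit 104) (nat_lit 5) (nat_lit 107) (nat_lit 5) (nat_lit 108) (nat_lit 5) (nat_lit 422) (nat_lit 357) (nat_lit 241))) (XT.nd (nat_lit 78) (nat_lit 228) (nat_lit 0) (XT.lf (nat_lit 0) (nat_lit 11449363647) (nat_lit 304) (nat_lit 4194834241) (nat_lit 76) (nat_lit 5537686426) (nat_lit 104) (nat_lit 5) (nat_lit 108) (nat_lit 5) (nat_lit 105) (nat_lit 5) (nat_lit 423) (nat_lit 357) (nat_lit 240)) (XT.lf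 (nat_lit 0) (nat_lit 8289543526) (nat_lit 228) (nat_lit 8467921115) (nat_lit 304) (nat_lit 4830502055) (nat_lit 101) (nat_lit 5) (nat_lit 104) (nat_lit 5) (nat_lit 105) (nat_lit 5) (nat_lit 424) (nat_lit 357) (nat_lit 239))))) (XT.nd (nat_lit 234) (nat_lit 456) (nat_lit 0) (XT.nd (nat_lit 78) (nat_lit 456) (nat_lit 0) (XT.lf (nat_lit 0) (nat_lit 243760342) (nat_lit 304) (nat_lit 794719329) (nat_lit 76) (nat_lit 20966807380) (nat_lit 100) (nat_lit 5) (nat_lit 104) (nat_lit 5) (nat_lit 101) (nat_lit 5) (nat_lit 425) (nat_lit 357) (nat_lit 238)) (XT.nd (nat_lit 78) (nat_lit 228) (nat_lit 0) (XT.lf (nat_lit 0) (nat_lit 5543154520) (nat_lit 304) (nat_lit 10241340656) (nat_lit 76) (nat_lit 6644099200) (nat_lit 97) (nat_lit 5) (nat_lit 101) (nat_lit 5) (nat_lit 98) (nat_lit 5) (nat_lit 426) (nat_lit 357) (nat_lit 237)) (XT.lf (nat_lit 0) (nat_lit 2732424727) (nat_lit 228) (nat_lit 8300914756) (nat_lit 304) (nat_lit 11830309044)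 (nat_lit 94) (nat_lit 5) (nat_lit 97) (nat_lit 5) (nat_lit 98) (nat_lit 5) (nat_lit 427) (nat_lit 357) (nat_lit 236)))) (XT.nd (nat_lit 156) (nat_lit 304) (nat_lit 0) (XT.nd (nat_lit 78) (nat_lit 152) (nat_lit 0) (XT.lf (nat_lit 0) (nat_lit 16284397822) (nat_lit 228) (nat_lit 494579076) (nat_lit 304) (nat_lit 6530056815) (nat_lit 94) (nat_lit 5) (nat_lit 97) (nat_lit 5) (nat_lit 98) (nat_lit 5) (nat_lit 428) (nat_lit 357) (nat_lit 235)) (XT.lf (nat_lit 0) (nat_lit 6509001130) (nat_lit 152) (nat_lit 16310708352) (nat_lit 228) (nat_lit 944390959) (nat_lit 92) (nat_lit 5) (nat_lit 94) (nat_lit 5) (nat_lit 95) (nat_lit 5) (nat_lit 429) (nat_lit 357) (nat_lit 234))) (XT.nd (nat_lit 78) (nat_lit 228) (nat_lit 0) (XT.lf (nat_lit 0) (nat_lit 4779204074) (nat_lit 228) (nat_lit 3710541716) (nat_lit 76) (nat_lit 15739762366) (nat_lit 91) (nat_lit 5) (nat_lit 94) (nat_lit 5) (nat_lit 92) (nat_lit 5) (nat_lit 430) (nat_lit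 357) (nat_lit 233)) (XT.lf (nat_lit 0) (nat_lit 10414150564) (nat_lit 228) (nat_lit 329504479) (nat_lit 304) (nat_lit 13962300282) (nat_lit 88) (nat_lit 5) (nat_lit 91) (nat_lit 5) (nat_lit 92) (nat_lit 5) (nat_lit 431) (nat_lit 357) (nat_lit 232)))))) (XT.nd (nat_lit 546) (nat_lit 760) (nat_lit 0) (XT.nd (nat_lit 234) (nat_lit 380) (nat_lit 0) (XT.nd (nat_lit 78) (nat_lit 456) (nat_lit 0) (XT.lf (nat_lit 0) (nat_lit 16990609447) (nat_lit 304) (nat_lit 255075034) (nat_lit 76) (nat_lit 7947905901) (nat_lit 88) (nat_lit 5) (nat_lit 92) (nat_lit 5) (nat_lit 89) (nat_lit 5) (nat_lit 432) (nat_lit 357) (nat_lit 231)) (XT.nd (nat_lit 78) (nat_lit 304) (nat_lit 0) (XT.lf (nat_lit 0) (nat_lit 14462138273) (nat_lit 152) (nat_lit 9093564730) (nat_lit 228) (nat_lit 2136231093) (nat_lit 86) (nat_lit 5) (nat_lit 88) (nat_lit 5) (nat_lit 89) (nat_lit 5) (nat_lit 433) (nat_lit 357) (nat_lit 230)) (XT.lf (nat_lit 0) (nat_lit 3428691363)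 (nat_lit 228) (nat_lit 627624781) (nat_lit 304) (nat_lit 22147006102) (nat_lit 82) (nat_lit 5) (nat_lit 85) (nat_lit 5) (nat_lit 86) (nat_lit 5) (nat_lit 434) (nat_lit 357) (nat_lit 229)))) (XT.nd (nat_lit 156) (nat_lit 228) (nat_lit 0) (XT.nd (nat_lit 78) (nat_lit 152) (nat_lit 0) (XT.lf (nat_lit 0) (nat_lit 10572569956) (nat_lit 304) (nat_lit 8089254701) (nat_lit 76) (nat_lit 8062168266) (nat_lit 82) (nat_lit 5) (nat_lit 86) (nat_lit 5) (nat_lit 83) (nat_lit 5) (nat_lit 435) (nat_lit 357) (nat_lit 228)) (XT.lf (nat_lit 0) (nat_lit 7150905714) (nat_lit 152) (nat_lit 10197248490) (nat_lit 228) (nat_lit 9910215586) (nat_lit 80) (nat_lit 5) (nat_lit 82) (nat_lit 5) (nat_lit 83) (nat_lit 5) (nat_lit 436) (nat_lit 357) (nat_lit 227))) (XT.nd (nat_lit 78) (nat_lit 228) (nat_lit 0) (XT.lf (nat_lit 0) (nat_lit 22995177143) (nat_lit 152) (nat_lit 1402546052) (nat_lit 228) (nat_lit 3408934564) (nat_lit 80) (nat_lit 5) (nat_lit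 82) (nat_lit 5) (nat_lit 83) (nat_lit 5) (nat_lit 437) (nat_lit 357) (nat_lit 226)) (XT.lf (nat_lit 0) (nat_lit 3394165832) (nat_lit 228) (nat_lit 17332457439) (nat_lit 76) (nat_lit 7638696435) (nat_lit 77) (nat_lit 5) (nat_lit 80) (nat_lit 5) (nat_lit 78) (nat_lit 5) (nat_lit 438) (nat_lit 357) (nat_lit 225))))) (XT.nd (nat_lit 312) (nat_lit 380) (nat_lit 0) (XT.nd (nat_lit 156) (nat_lit 228) (nat_lit 0) (XT.nd (nat_lit 78) (nat_lit 152) (nat_lit 0) (XT.lf (nat_lit 0) (nat_lit 10385103234) (nat_lit 228) (nat_lit 1554880114) (nat_lit 76) (nat_lit 16998179006) (nat_lit 77) (nat_lit 5) (nat_lit 80) (nat_lit 5) (nat_lit 78) (nat_lit 5) (nat_lit 439) (nat_lit 357) (nat_lit 224)) (XT.lf (nat_lit 0) (nat_lit 14970044210) (nat_lit 152) (nat_lit 2749243279) (nat_lit 228) (nat_lit 11804898398) (nat_lit 75) (nat_lit 5) (nat_lit 77) (nat_lit 5) (nat_lit 78) (nat_lit 5) (nat_lit 440) (nat_lit 357) (nat_lit 223))) (XT.nd (nat_lit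 78) (nat_lit 76) (nat_lit 0) (XT.lf (nat_lit 0) (nat_lit 1848457960) (nat_lit 152) (nat_lit 23512908437) (nat_lit 228) (nat_lit 4763788788) (nat_lit 73) (nat_lit 5) (nat_lit 75) (nat_lit 5) (nat_lit 76) (nat_lit 5) (nat_lit 441) (nat_lit 357) (nat_lit 222)) (XT.lf (nat_lit 0) (nat_lit 2605336893) (nat_lit 228) (nat_lit 11769045537) (nat_lit 76) (nat_lit 16364094253) (nat_lit 72) (nat_lit 5) (nat_lit 75) (nat_lit 5) (nat_lit 73) (nat_lit 5) (nat_lit 442) (nat_lit 357) (nat_lit 221)))) (XT.nd (nat_lit 156) (nat_lit 228) (nat_lit 0) (XT.nd (nat_lit 78) (nat_lit 0) (nat_lit 0) (XT.lf (nat_lit 0) (nat_lit 5271887277) (nat_lit 152) (nat_lit 4868578024) (nat_lit 228) (nat_lit 21227098283) (nat_lit 70) (nat_lit 5) (nat_lit 72) (nat_lit 5) (nat_lit 73) (nat_lit 5) (nat_lit 443) (nat_lit 357) (nat_lit 220)) (XT.lf (nat_lit 0) (nat_lit 18059035540) (nat_lit 228) (nat_lit 9012856415) (nat_lit 76) (nat_lit 4938910505) (nat_lit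 70) (nat_lit 5) (nat_lit 73) (nat_lit 5) (nat_lit 71) (nat_lit 5) (nat_lit 444) (nat_lit 357) (nat_lit 219))) (XT.nd (nat_lit 78) (nat_lit 76) (nat_lit 0) (XT.lf (nat_lit 0) (nat_lit 8686559302) (nat_lit 152) (nat_lit 17650647550) (nat_lit 228) (nat_lit 6332471310) (nat_lit 68) (nat_lit 5) (nat_lit 70) (nat_lit 5) (nat_lit 71) (nat_lit 5) (nat_lit 445) (nat_lit 357) (nat_lit 218)) (XT.lf (nat_lit 0) (nat_lit 1568107510) (nat_lit 228) (nat_lit 6276560935) (nat_lit 76) (nat_lit 25500747343) (nat_lit 67) (nat_lit 5) (nat_lit 70) (nat_lit 5) (nat_lit 68) (nat_lit 5) (nat_lit 446) (nat_lit 357) (nat_lit 217))))))) (XT.nd (nat_lit 1092) (nat_lit 988) (nat_lit 0) (XT.nd (nat_lit 546) (nat_lit 608) (nat_lit 0) (XT.nd (nat_lit 234) (nat_lit 380) (nat_lit 0) (XT.nd (nat_lit 78) (nat_lit 152) (nat_lit 0) (XT.lf (nat_lit 0) (nat_lit 9708942647) (nat_lit 228) (nat_lit 21941463246) (nat_lit 76) (nat_lit 2385224151) (nat_lit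 65) (nat_lit 5) (nat_lit 68) (nat_lit 5) (nat_lit 66) (nat_lit 5) (nat_lit 447) (nat_lit 357) (nat_lit 216)) (XT.nd (nat_lit 78) (nat_lit 152) (nat_lit 0) (XT.lf (nat_lit 0) (nat_lit 18226367282) (nat_lit 228) (nat_lit 3695025066) (nat_lit 76) (nat_lit 12821188316) (nat_lit 65) (nat_lit 5) (nat_lit 68) (nat_lit 5) (nat_lit 66) (nat_lit 5) (nat_lit 448) (nat_lit 357) (nat_lit 215)) (XT.lf (nat_lit 0) (nat_lit 15382708445) (nat_lit 152) (nat_lit 11755431463) (nat_lit 228) (nat_lit 8328435981) (nat_lit 63) (nat_lit 5) (nat_lit 65) (nat_lit 5) (nat_lit 66) (nat_lit 5) (nat_lit 449) (nat_lit 357) (nat_lit 214)))) (XT.nd (nat_lit 156) (nat_lit 152) (nat_lit 0) (XT.nd (nat_lit 78) (nat_lit 152) (nat_lit 0) (XT.lf (nat_lit 0) (nat_lit 131584751) (nat_lit 228) (nat_lit 1120322489) (nat_lit 76) (nat_lit 34959494500) (nat_lit 62) (nat_lit 5) (nat_lit 65) (nat_lit 5) (nat_lit 63) (nat_lit 5) (nat_lit 450) (nat_lit 357) (nat_lit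 213)) (XT.lf (nat_lit 0) (nat_lit 8943287193) (nat_lit 228) (nat_lit 18387128852) (nat_lit 76) (nat_lit 9637725068) (nat_lit 60) (nat_lit 5) (nat_lit 63) (nat_lit 5) (nat_lit 61) (nat_lit 5) (nat_lit 451) (nat_lit 357) (nat_lit 212))) (XT.nd (nat_lit 78) (nat_lit 0) (nat_lit 0) (XT.lf (nat_lit 0) (nat_lit 1143052961) (nat_lit 152) (nat_lit 16902372272) (nat_lit 228) (nat_lit 19701375648) (nat_lit 58) (nat_lit 5) (nat_lit 60) (nat_lit 5) (nat_lit 61) (nat_lit 5) (nat_lit 452) (nat_lit 357) (nat_lit 211)) (XT.lf (nat_lit 0) (nat_lit 21620359499) (nat_lit 152) (nat_lit 5977321645) (nat_lit 228) (nat_lit 10945828413) (nat_lit 58) (nat_lit 5) (nat_lit 60) (nat_lit 5) (nat_lit 61) (nat_lit 5) (nat_lit 453) (nat_lit 357) (nat_lit 210))))) (XT.nd (nat_lit 234) (nat_lit 304) (nat_lit 0) (XT.nd (nat_lit 78) (nat_lit 228) (nat_lit 0) (XT.lf (nat_lit 0) (nat_lit 3347040084) (nat_lit 76) (nat_lit 34163914386) (nat_lit 152)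 (nat_lit 1850932239) (nat_lit 57) (nat_lit 5) (nat_lit 58) (nat_lit 5) (nat_lit 59) (nat_lit 4) (nat_lit 454) (nat_lit 357) (nat_lit 209)) (XT.nd (nat_lit 78) (nat_lit 152) (nat_lit 0) (XT.lf (nat_lit 0) (nat_lit 7593475213) (nat_lit 152) (nat_lit 15776018411) (nat_lit 76) (nat_lit 16826454198) (nat_lit 56) (nat_lit 5) (nat_lit 58) (nat_lit 5) (nat_lit 57) (nat_lit 5) (nat_lit 455) (nat_lit 357) (nat_lit 208)) (XT.lf (nat_lit 0) (nat_lit 5136893414) (nat_lit 152) (nat_lit 12188324187) (nat_lit 228) (nat_lit 23728027893) (nat_lit 54) (nat_lit 5) (nat_lit 56) (nat_lit 5) (nat_lit 57) (nat_lit 5) (nat_lit 456) (nat_lit 357) (nat_lit 207)))) (XT.nd (nat_lit 156) (nat_lit 228) (nat_lit 0) (XT.nd (nat_lit 78) (nat_lit 76) (nat_lit 0) (XT.lf (nat_lit 0) (nat_lit 26985738046) (nat_lit 152) (nat_lit 514402090) (nat_lit 228) (nat_lit 14431585753) (nat_lit 54) (nat_lit 5) (nat_lit 56) (nat_lit 5) (nat_lit 57) (nat_lit 5)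 (nat_lit 457) (nat_lit 357) (nat_lit 206)) (XT.lf (nat_lit 0) (nat_lit 6658186112) (nat_lit 76) (nat_lit 31488858595) (nat_lit 152) (nat_lit 4684514567) (nat_lit 53) (nat_lit 5) (nat_lit 54) (nat_lit 5) (nat_lit 55) (nat_lit 4) (nat_lit 458) (nat_lit 357) (nat_lit 205))) (XT.nd (nat_lit 78) (nat_lit 152) (nat_lit 0) (XT.lf (nat_lit 0) (nat_lit 5400093244) (nat_lit 152) (nat_lit 14609661567) (nat_lit 76) (nat_lit 23742600589) (nat_lit 52) (nat_lit 5) (nat_lit 54) (nat_lit 5) (nat_lit 53) (nat_lit 5) (nat_lit 459) (nat_lit 357) (nat_lit 204)) (XT.lf (nat_lit 0) (nat_lit 7690471746) (nat_lit 152) (nat_lit 8068875507) (nat_lit 228) (nat_lit 28938049413) (nat_lit 50) (nat_lit 5) (nat_lit 52) (nat_lit 5) (nat_lit 53) (nat_lit 5) (nat_lit 460) (nat_lit 357) (nat_lit 203)))))) (XT.nd (nat_lit 546) (nat_lit 608) (nat_lit 0) (XT.nd (nat_lit 234) (nat_lit 228) (nat_lit 0) (XT.nd (nat_lit 78) (nat_lit 152) (nat_lit 0) (XT.lf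 (nat_lit 0) (nat_lit 26611394753) (nat_lit 228) (nat_lit 14763598526) (nat_lit 76) (nat_lit 4290335957) (nat_lit 50) (nat_lit 5) (nat_lit 53) (nat_lit 5) (nat_lit 51) (nat_lit 4) (nat_lit 461) (nat_lit 357) (nat_lit 202)) (XT.nd (nat_lit 78) (nat_lit 76) (nat_lit 0) (XT.lf (nat_lit 0) (nat_lit 8213625136) (nat_lit 76) (nat_lit 29726807923) (nat_lit 152) (nat_lit 8717324370) (nat_lit 49) (nat_lit 5) (nat_lit 50) (nat_lit 5) (nat_lit 51) (nat_lit 4) (nat_lit 462) (nat_lit 357) (nat_lit 201)) (XT.lf (nat_lit 0) (nat_lit 2034891053) (nat_lit 152) (nat_lit 15526506366) (nat_lit 76) (nat_lit 30113710462) (nat_lit 48) (nat_lit 5) (nat_lit 50) (nat_lit 5) (nat_lit 49) (nat_lit 5) (nat_lit 463) (nat_lit 357) (nat_lit 200)))) (XT.nd (nat_lit 156) (nat_lit 76) (nat_lit 0) (XT.nd (nat_lit 78) (nat_lit 0) (nat_lit 0) (XT.lf (nat_lit 0) (nat_lit 8137734001) (nat_lit 152) (nat_lit 4867766620) (nat_lit 228) (nat_lit 35712758284)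 (nat_lit 46) (nat_lit 5) (nat_lit 48) (nat_lit 5) (nat_lit 49) (nat_lit 5) (nat_lit 464) (nat_lit 357) (nat_lit 199)) (XT.lf (nat_lit 0) (nat_lit 24535290604) (nat_lit 228) (nat_lit 17051684724) (nat_lit 76) (nat_lit 8198827737) (nat_lit 46) (nat_lit 5) (nat_lit 49) (nat_lit 5) (nat_lit 47) (nat_lit 4) (nat_lit 465) (nat_lit 357) (nat_lit 198))) (XT.nd (nat_lit 78) (nat_lit 0) (nat_lit 0) (XT.lf (nat_lit 0) (nat_lit 7263529855) (nat_lit 76) (nat_lit 29258505264) (nat_lit 152) (nat_lit 14360007057) (nat_lit 45) (nat_lit 5) (nat_lit 46) (nat_lit 5) (nat_lit 47) (nat_lit 4) (nat_lit 466) (nat_lit 357) (nat_lit 197)) (XT.lf (nat_lit 0) (nat_lit 32644838737) (nat_lit 76) (nat_lit 16388854011) (nat_lit 152) (nat_lit 2972516830) (nat_lit 45) (nat_lit 5) (nat_lit 46) (nat_lit 5) (nat_lit 47) (nat_lit 4) (nat_lit 467) (nat_lit 357) (nat_lit 196))))) (XT.nd (nat_lit 312) (nat_lit 304) (nat_lit 0) (XT.nd (nat_lit 156) (nat_lit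 76) (nat_lit 0) (XT.nd (nat_lit 78) (nat_lit 0) (nat_lit 0) (XT.lf (nat_lit 0) (nat_lit 5636638506) (nat_lit 152) (nat_lit 2996525632) (nat_lit 228) (nat_lit 44526989903) (nat_lit 42) (nat_lit 5) (nat_lit 44) (nat_lit 5) (nat_lit 45) (nat_lit 5) (nat_lit 468) (nat_lit 357) (nat_lit 195)) (XT.lf (nat_lit 0) (nat_lit 20821786846) (nat_lit 228) (nat_lit 22709217288) (nat_lit 76) (nat_lit 10807994701) (nat_lit 42) (nat_lit 5) (nat_lit 45) (nat_lit 5) (nat_lit 43) (nat_lit 4) (nat_lit 469) (nat_lit 357) (nat_lit 194))) (XT.nd (nat_lit 78) (nat_lit 0) (nat_lit 0) (XT.lf (nat_lit 0) (nat_lit 2863402487) (nat_lit 76) (nat_lit 30563330393) (nat_lit 152) (nat_lit 22124956545) (nat_lit 41) (nat_lit 5) (nat_lit 42) (nat_lit 5) (nat_lit 43) (nat_lit 4) (nat_lit 470) (nat_lit 357) (nat_lit 193)) (XT.lf (nat_lit 0) (nat_lit 29656524129) (nat_lit 76) (nat_lit 16976165978) (nat_lit 152) (nat_lit 10161385121) (nat_lit 41) (nat_lit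 5) (nat_lit 42) (nat_lit 5) (nat_lit 43) (nat_lit 4) (nat_lit 471) (nat_lit 357) (nat_lit 192)))) (XT.nd (nat_lit 156) (nat_lit 76) (nat_lit 0) (XT.nd (nat_lit 78) (nat_lit 152) (nat_lit 0) (XT.lf (nat_lit 0) (nat_lit 2112592585) (nat_lit 152) (nat_lit 853031548) (nat_lit 76) (nat_lit 55107675521) (nat_lit 40) (nat_lit 5) (nat_lit 42) (nat_lit 5) (nat_lit 41) (nat_lit 5) (nat_lit 472) (nat_lit 357) (nat_lit 191)) (XT.lf (nat_lit 0) (nat_lit 14914057516) (nat_lit 228) (nat_lit 32866681064) (nat_lit 76) (nat_lit 11596239299) (nat_lit 38) (nat_lit 5) (nat_lit 41) (nat_lit 5) (nat_lit 39) (nat_lit 4) (nat_lit 473) (nat_lit 357) (nat_lit 190))) (XT.nd (nat_lit 78) (nat_lit 76) (nat_lit 0) (XT.lf (nat_lit 0) (nat_lit 28131498761) (nat_lit 228) (nat_lit 6048577344) (nat_lit 76) (nat_lit 26538732710) (nat_lit 38) (nat_lit 5) (nat_lit 41) (nat_lit 5) (nat_lit 39) (nat_lit 4) (nat_lit 474) (nat_lit 357) (nat_lit 189)) (XT.lf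 (nat_lit 0) (nat_lit 21991917065) (nat_lit 76) (nat_lit 19958994987) (nat_lit 152) (nat_lit 20143819491) (nat_lit 37) (nat_lit 5) (nat_lit 38) (nat_lit 5) (nat_lit 39) (nat_lit 4) (nat_lit 475) (nat_lit 357) (nat_lit 188))))))))
noncomputable def xc144 : XT := (XT.nd (nat_lit 45084) (nat_lit 0) (nat_lit 9956) (XT.nd (nat_lit 43992) (nat_lit 0) (nat_lit 20140) (XT.nd (nat_lit 546) (nat_lit 228) (nat_lit 0) (XT.nd (nat_lit 234) (nat_lit 228) (nat_lit 0) (XT.nd (nat_lit 78) (nat_lit 152) (nat_lit 0) (XT.lf (nat_lit 0) (nat_lit 50986433004) (nat_lit 76) (nat_lit 5253668388) (nat_lit 152) (nat_lit 7270175071) (nat_lit 37) (nat_lit 5) (nat_lit 38) (nat_lit 5) (nat_lit 39) (nat_lit 4) (nat_lit 476) (nat_lit 357) (nat_lit 187)) (XT.nd (nat_lit 78) (nat_lit 0) (nat_lit 0) (XT.lf (nat_lit 0) (nat_lit 6119217507) (nat_lit 152) (nat_lit 48930557437) (nat_lit 76) (nat_lit 9909393221) (nat_lit 35) (nat_lit 5) (nat_lit 37) (nat_lit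 5) (nat_lit 36) (nat_lit 4) (nat_lit 477) (nat_lit 357) (nat_lit 186)) (XT.lf (nat_lit 0) (nat_lit 19938146929) (nat_lit 152) (nat_lit 20889605139) (nat_lit 76) (nat_lit 25616396030) (nat_lit 35) (nat_lit 5) (nat_lit 37) (nat_lit 5) (nat_lit 36) (nat_lit 4) (nat_lit 478) (nat_lit 357) (nat_lit 185)))) (XT.nd (nat_lit 156) (nat_lit 152) (nat_lit 0) (XT.nd (nat_lit 78) (nat_lit 0) (nat_lit 0) (XT.lf (nat_lit 0) (nat_lit 8140764398) (nat_lit 76) (nat_lit 26103544975) (nat_lit 152) (nat_lit 33727188386) (nat_lit 34) (nat_lit 5) (nat_lit 35) (nat_lit 5) (nat_lit 36) (nat_lit 4) (nat_lit 479) (nat_lit 357) (nat_lit 184)) (XT.lf (nat_lit 0) (nat_lit 38459699061) (nat_lit 76) (nat_lit 10725374062) (nat_lit 152) (nat_lit 20353432567) (nat_lit 34) (nat_lit 5) (nat_lit 35) (nat_lit 5) (nat_lit 36) (nat_lit 4) (nat_lit 480) (nat_lit 357) (nat_lit 183))) (XT.nd (nat_lit 78) (nat_lit 152) (nat_lit 0) (XT.lf (nat_lit 0) (nat_lit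 64617806441) (nat_lit 152) (nat_lit 1523851377) (nat_lit 0) (nat_lit 5009553908) (nat_lit 34) (nat_lit 5) (nat_lit 36) (nat_lit 4) (nat_lit 34) (nat_lit 4) (nat_lit 481) (nat_lit 357) (nat_lit 182)) (XT.lf (nat_lit 0) (nat_lit 7938042526) (nat_lit 152) (nat_lit 43503924149) (nat_lit 76) (nat_lit 21356498705) (nat_lit 32) (nat_lit 5) (nat_lit 34) (nat_lit 5) (nat_lit 33) (nat_lit 4) (nat_lit 482) (nat_lit 357) (nat_lit 181))))) (XT.nd (nat_lit 234) (nat_lit 152) (nat_lit 0) (XT.nd (nat_lit 78) (nat_lit 76) (nat_lit 0) (XT.lf (nat_lit 0) (nat_lit 22722608678) (nat_lit 152) (nat_lit 13500864514) (nat_lit 76) (nat_lit 38269414382) (nat_lit 32) (nat_lit 5) (nat_lit 34) (nat_lit 5) (nat_lit 33) (nat_lit 4) (nat_lit 483) (nat_lit 357) (nat_lit 180)) (XT.nd (nat_lit 78) (nat_lit 0) (nat_lit 0) (XT.lf (nat_lit 0) (nat_lit 17738652244) (nat_lit 76) (nat_lit 20377476887) (nat_lit 152) (nat_lit 38117051021) (nat_lit 31) (nat_lit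 5) (nat_lit 32) (nat_lit 5) (nat_lit 33) (nat_lit 4) (nat_lit 484) (nat_lit 357) (nat_lit 179)) (XT.lf (nat_lit 0) (nat_lit 50182425211) (nat_lit 76) (nat_lit 3920320170) (nat_lit 152) (nat_lit 23918997650) (nat_lit 31) (nat_lit 5) (nat_lit 32) (nat_lit 5) (nat_lit 33) (nat_lit 4) (nat_lit 485) (nat_lit 357) (nat_lit 178)))) (XT.nd (nat_lit 156) (nat_lit 0) (nat_lit 0) (XT.nd (nat_lit 78) (nat_lit 76) (nat_lit 0) (XT.lf (nat_lit 0) (nat_lit 3672448139) (nat_lit 76) (nat_lit 67052132890) (nat_lit 76) (nat_lit 9134713365) (nat_lit 30) (nat_lit 4) (nat_lit 31) (nat_lit 5) (nat_lit 31) (nat_lit 4) (nat_lit 486) (nat_lit 357) (nat_lit 177)) (XT.lf (nat_lit 0) (nat_lit 6291988341) (nat_lit 152) (nat_lit 45152972564) (nat_lit 76) (nat_lit 30295720867) (nat_lit 29) (nat_lit 5) (nat_lit 31) (nat_lit 5) (nat_lit 30) (nat_lit 4) (nat_lit 487) (nat_lit 357) (nat_lit 176))) (XT.nd (nat_lit 42978) (nat_lit 0) (nat_lit 21888)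 (XT.lf (nat_lit 0) (nat_lit 21993102350) (nat_lit 152) (nat_lit 13287759058) (nat_lit 76) (nat_lit 48395079987) (nat_lit 29) (nat_lit 5) (nat_lit 31) (nat_lit 5) (nat_lit 30) (nat_lit 4) (nat_lit 488) (nat_lit 357) (nat_lit 175)) (XT.lf (nat_lit 0) (nat_lit 942018466) (nat_lit 988) (nat_lit 1484655262) (nat_lit 988) (nat_lit 1484655262) (nat_lit 317) (nat_lit 3) (nat_lit 330) (nat_lit 3) (nat_lit 330) (nat_lit 5) (nat_lit 358) (nat_lit 358) (nat_lit 304)))))) (XT.nd (nat_lit 546) (nat_lit 912) (nat_lit 0) (XT.nd (nat_lit 234) (nat_lit 836) (nat_lit 0) (XT.nd (nat_lit 78) (nat_lit 0) (nat_lit 76) (XT.lf (nat_lit 76) (nat_lit 861703441) (nat_lit 0) (nat_lit 2327229745) (nat_lit 988) (nat_lit 4712269579) (nat_lit 318) (nat_lit 5) (nat_lit 317) (nat_lit 3) (nat_lit 330) (nat_lit 5) (nat_lit 359) (nat_lit 358) (nat_lit 303)) (XT.nd (nat_lit 78) (nat_lit 0) (nat_lit 0) (XT.lf (nat_lit 0) (nat_lit 4516375661) (nat_lit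 912) (nat_lit 3143375695) (nat_lit 988) (nat_lit 322869914) (nat_lit 318) (nat_lit 5) (nat_lit 330) (nat_lit 5) (nat_lit 331) (nat_lit 5) (nat_lit 360) (nat_lit 358) (nat_lit 302)) (XT.lf (nat_lit 76) (nat_lit 835960691) (nat_lit 0) (nat_lit 5030678686) (nat_lit 988) (nat_lit 2200371806) (nat_lit 319) (nat_lit 5) (nat_lit 318) (nat_lit 5) (nat_lit 331) (nat_lit 5) (nat_lit 361) (nat_lit 358) (nat_lit 301)))) (XT.nd (nat_lit 156) (nat_lit 0) (nat_lit 0) (XT.nd (nat_lit 78) (nat_lit 912) (nat_lit 0) (XT.lf (nat_lit 76) (nat_lit 4972435746) (nat_lit 0) (nat_lit 2269781453) (nat_lit 988) (nat_lit 912189657) (nat_lit 319) (nat_lit 5) (nat_lit 318) (nat_lit 5) (nat_lit 331) (nat_lit 5) (nat_lit 362) (nat_lit 358) (nat_lit 300)) (XT.lf (nat_lit 0) (nat_lit 375733580) (nat_lit 988) (nat_lit 7274433300) (nat_lit 1064) (nat_lit 595079544) (nat_lit 306) (nat_lit 5) (nat_lit 319) (nat_lit 5) (nat_lit 320) (nat_lit 5) (nat_lit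 363) (nat_lit 358) (nat_lit 299))) (XT.nd (nat_lit 78) (nat_lit 0) (nat_lit 0) (XT.lf (nat_lit 0) (nat_lit 1694108235) (nat_lit 988) (nat_lit 3084374673) (nat_lit 1064) (nat_lit 3559769588) (nat_lit 306) (nat_lit 5) (nat_lit 319) (nat_lit 5) (nat_lit 320) (nat_lit 5) (nat_lit 364) (nat_lit 358) (nat_lit 298)) (XT.lf (nat_lit 76) (nat_lit 1228055499) (nat_lit 0) (nat_lit 1792312519) (nat_lit 1064) (nat_lit 5414646927) (nat_lit 307) (nat_lit 5) (nat_lit 306) (nat_lit 5) (nat_lit 320) (nat_lit 5) (nat_lit 365) (nat_lit 358) (nat_lit 297))))) (XT.nd (nat_lit 234) (nat_lit 988) (nat_lit 0) (XT.nd (nat_lit 78) (nat_lit 0) (nat_lit 0) (XT.lf (nat_lit 0) (nat_lit 4387891168) (nat_lit 988) (nat_lit 2841770757) (nat_lit 1064) (nat_lit 1304989816) (nat_lit 307) (nat_lit 5) (nat_lit 320) (nat_lit 5) (nat_lit 321) (nat_lit 5) (nat_lit 366) (nat_lit 358) (nat_lit 296)) (XT.nd (nat_lit 78) (nat_lit 0) (nat_lit 0) (XT.lf (nat_lit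 76) (nat_lit 1641014603) (nat_lit 0) (nat_lit 4147861842) (nat_lit 1064) (nat_lit 2848643383) (nat_lit 308) (nat_lit 5) (nat_lit 307) (nat_lit 5) (nat_lit 321) (nat_lit 5) (nat_lit 367) (nat_lit 358) (nat_lit 295)) (XT.lf (nat_lit 76) (nat_lit 6289172549) (nat_lit 0) (nat_lit 931264942) (nat_lit 1064) (nat_lit 1523394919) (nat_lit 308) (nat_lit 5) (nat_lit 307) (nat_lit 5) (nat_lit 321) (nat_lit 5) (nat_lit 368) (nat_lit 358) (nat_lit 294)))) (XT.nd (nat_lit 156) (nat_lit 0) (nat_lit 76) (XT.nd (nat_lit 78) (nat_lit 1064) (nat_lit 0) (XT.lf (nat_lit 76) (nat_lit 2215915127) (nat_lit 0) (nat_lit 6484365218) (nat_lit 1064) (nat_lit 152908377) (nat_lit 309) (nat_lit 5) (nat_lit 308) (nat_lit 5) (nat_lit 322) (nat_lit 5) (nat_lit 369) (nat_lit 358) (nat_lit 293)) (XT.lf (nat_lit 0) (nat_lit 1229999590) (nat_lit 1064) (nat_lit 1938096690) (nat_lit 1140) (nat_lit 5797503990) (nat_lit 294) (nat_lit 5) (nat_lit 308) (nat_lit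 5) (nat_lit 309) (nat_lit 5) (nat_lit 370) (nat_lit 358) (nat_lit 292))) (XT.nd (nat_lit 78) (nat_lit 0) (nat_lit 0) (XT.lf (nat_lit 0) (nat_lit 2644989384) (nat_lit 1064) (nat_lit 6154221532) (nat_lit 1140) (nat_lit 282330973) (nat_lit 295) (nat_lit 5) (nat_lit 309) (nat_lit 5) (nat_lit 310) (nat_lit 5) (nat_lit 371) (nat_lit 358) (nat_lit 291)) (XT.lf (nat_lit 0) (nat_lit 4117205575) (nat_lit 1064) (nat_lit 1281979239) (nat_lit 1140) (nat_lit 3801346441) (nat_lit 295) (nat_lit 5) (nat_lit 309) (nat_lit 5) (nat_lit 310) (nat_lit 5) (nat_lit 372) (nat_lit 358) (nat_lit 290))))))) (XT.nd (nat_lit 1092) (nat_lit 4332) (nat_lit 0) (XT.nd (nat_lit 546) (nat_lit 2508) (nat_lit 0) (XT.nd (nat_lit 234) (nat_lit 2432) (nat_lit 0) (XT.nd (nat_lit 78) (nat_lit 988) (nat_lit 0) (XT.lf (nat_lit 76) (nat_lit 3782599208) (nat_lit 0) (nat_lit 1852053259) (nat_lit 1140) (nat_lit 3688418332) (nat_lit 296) (nat_lit 5) (nat_lit 295)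 (nat_lit 5) (nat_lit 310) (nat_lit 5) (nat_lit 373) (nat_lit 358) (nat_lit 289)) (XT.nd (nat_lit 78) (nat_lit 1064) (nat_lit 0) (XT.lf (nat_lit 0) (nat_lit 7193550773) (nat_lit 1064) (nat_lit 469438125) (nat_lit 76) (nat_lit 1786431857) (nat_lit 296) (nat_lit 5) (nat_lit 310) (nat_lit 5) (nat_lit 297) (nat_lit 5) (nat_lit 374) (nat_lit 358) (nat_lit 288)) (XT.lf (nat_lit 0) (nat_lit 4801422954) (nat_lit 1064) (nat_lit 4028825526) (nat_lit 1140) (nat_lit 748393465) (nat_lit 282) (nat_lit 5) (nat_lit 296) (nat_lit 5) (nat_lit 297) (nat_lit 5) (nat_lit 375) (nat_lit 358) (nat_lit 287)))) (XT.nd (nat_lit 156) (nat_lit 1216) (nat_lit 0) (XT.nd (nat_lit 78) (nat_lit 0) (nat_lit 0) (XT.lf (nat_lit 0) (nat_lit 502403015) (nat_lit 1140) (nat_lit 262743097) (nat_lit 1216) (nat_lit 8947076744) (nat_lit 266) (nat_lit 5) (nat_lit 281) (nat_lit 5) (nat_lit 282) (nat_lit 5) (nat_lit 376) (nat_lit 358) (nat_lit 286)) (XT.lf (nat_lit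 0) (nat_lit 2360188116) (nat_lit 1216) (nat_lit 3881480824) (nat_lit 76) (nat_lit 3606396531) (nat_lit 266) (nat_lit 5) (nat_lit 282) (nat_lit 5) (nat_lit 267) (nat_lit 5) (nat_lit 377) (nat_lit 358) (nat_lit 285))) (XT.nd (nat_lit 78) (nat_lit 0) (nat_lit 0) (XT.lf (nat_lit 0) (nat_lit 1607505191) (nat_lit 1216) (nat_lit 2382229669) (nat_lit 1292) (nat_lit 5998659307) (nat_lit 250) (nat_lit 5) (nat_lit 266) (nat_lit 5) (nat_lit 267) (nat_lit 5) (nat_lit 378) (nat_lit 358) (nat_lit 284)) (XT.lf (nat_lit 0) (nat_lit 5692341707) (nat_lit 1292) (nat_lit 2835388212) (nat_lit 76) (nat_lit 1604487695) (nat_lit 250) (nat_lit 5) (nat_lit 267) (nat_lit 5) (nat_lit 251) (nat_lit 5) (nat_lit 379) (nat_lit 358) (nat_lit 283))))) (XT.nd (nat_lit 234) (nat_lit 1140) (nat_lit 0) (XT.nd (nat_lit 78) (nat_lit 684) (nat_lit 0) (XT.lf (nat_lit 0) (nat_lit 2881292433) (nat_lit 684) (nat_lit 4586189796) (nat_lit 760) (nat_lit 2812239681)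 (nat_lit 241) (nat_lit 5) (nat_lit 250) (nat_lit 5) (nat_lit 251) (nat_lit 5) (nat_lit 380) (nat_lit 358) (nat_lit 282)) (XT.nd (nat_lit 78) (nat_lit 684) (nat_lit 0) (XT.lf (nat_lit 0) (nat_lit 8800045852) (nat_lit 684) (nat_lit 495239206) (nat_lit 760) (nat_lit 1136393557) (nat_lit 241) (nat_lit 5) (nat_lit 250) (nat_lit 5) (nat_lit 251) (nat_lit 5) (nat_lit 381) (nat_lit 358) (nat_lit 281)) (XT.lf (nat_lit 0) (nat_lit 627698974) (nat_lit 684) (nat_lit 6263607255) (nat_lit 76) (nat_lit 3695242342) (nat_lit 232) (nat_lit 5) (nat_lit 241) (nat_lit 5) (nat_lit 233) (nat_lit 5) (nat_lit 382) (nat_lit 358) (nat_lit 280)))) (XT.nd (nat_lit 156) (nat_lit 532) (nat_lit 0) (XT.nd (nat_lit 78) (nat_lit 608) (nat_lit 0) (XT.lf (nat_lit 0) (nat_lit 2415338710) (nat_lit 684) (nat_lit 300209385) (nat_lit 76) (nat_lit 8030383757) (nat_lit 232) (nat_lit 5) (nat_lit 241) (nat_lit 5) (nat_lit 233) (nat_lit 5) (nat_lit 383) (nat_lit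 358) (nat_lit 279)) (XT.lf (nat_lit 0) (nat_lit 4302163665) (nat_lit 684) (nat_lit 4994306584) (nat_lit 76) (nat_lit 1612268165) (nat_lit 224) (nat_lit 5) (nat_lit 233) (nat_lit 5) (nat_lit 225) (nat_lit 5) (nat_lit 384) (nat_lit 358) (nat_lit 278))) (XT.nd (nat_lit 78) (nat_lit 0) (nat_lit 0) (XT.lf (nat_lit 0) (nat_lit 1214459444) (nat_lit 532) (nat_lit 5046030882) (nat_lit 608) (nat_lit 4815500150) (nat_lit 217) (nat_lit 5) (nat_lit 224) (nat_lit 5) (nat_lit 225) (nat_lit 5) (nat_lit 385) (nat_lit 358) (nat_lit 277)) (XT.lf (nat_lit 0) (nat_lit 7684487465) (nat_lit 532) (nat_lit 617301921) (nat_lit 608) (nat_lit 2945752012) (nat_lit 217) (nat_lit 5) (nat_lit 224) (nat_lit 5) (nat_lit 225) (nat_lit 5) (nat_lit 386) (nat_lit 358) (nat_lit 276)))))) (XT.nd (nat_lit 546) (nat_lit 2280) (nat_lit 0) (XT.nd (nat_lit 234) (nat_lit 988) (nat_lit 0) (XT.nd (nat_lit 78) (nat_lit 532) (nat_lit 0) (XT.lf (nat_lit 0) (nat_lit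 2916022512) (nat_lit 532) (nat_lit 7528792802) (nat_lit 608) (nat_lit 978216641) (nat_lit 210) (nat_lit 5) (nat_lit 217) (nat_lit 5) (nat_lit 218) (nat_lit 5) (nat_lit 387) (nat_lit 358) (nat_lit 275)) (XT.nd (nat_lit 78) (nat_lit 456) (nat_lit 0) (XT.lf (nat_lit 0) (nat_lit 1045104757) (nat_lit 608) (nat_lit 1984326471) (nat_lit 76) (nat_lit 8573544470) (nat_lit 209) (nat_lit 5) (nat_lit 217) (nat_lit 5) (nat_lit 210) (nat_lit 5) (nat_lit 388) (nat_lit 358) (nat_lit 274)) (XT.lf (nat_lit 0) (nat_lit 3146980386) (nat_lit 532) (nat_lit 7012282412) (nat_lit 76) (nat_lit 1627646008) (nat_lit 203) (nat_lit 5) (nat_lit 210) (nat_lit 5) (nat_lit 204) (nat_lit 5) (nat_lit 389) (nat_lit 358) (nat_lit 273)))) (XT.nd (nat_lit 156) (nat_lit 456) (nat_lit 0) (XT.nd (nat_lit 78) (nat_lit 532) (nat_lit 0) (XT.lf (nat_lit 0) (nat_lit 5338081431) (nat_lit 532) (nat_lit 256148691) (nat_lit 76) (nat_lit 6381351592) (nat_lit 203)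 (nat_lit 5) (nat_lit 210) (nat_lit 5) (nat_lit 204) (nat_lit 5) (nat_lit 390) (nat_lit 358) (nat_lit 272)) (XT.lf (nat_lit 0) (nat_lit 6809110428) (nat_lit 532) (nat_lit 827897808) (nat_lit 608) (nat_lit 4531650468) (nat_lit 196) (nat_lit 5) (nat_lit 203) (nat_lit 5) (nat_lit 204) (nat_lit 5) (nat_lit 391) (nat_lit 358) (nat_lit 271))) (XT.nd (nat_lit 78) (nat_lit 0) (nat_lit 0) (XT.lf (nat_lit 0) (nat_lit 1691034027) (nat_lit 456) (nat_lit 8349006546) (nat_lit 532) (nat_lit 2326439785) (nat_lit 190) (nat_lit 5) (nat_lit 196) (nat_lit 5) (nat_lit 197) (nat_lit 5) (nat_lit 392) (nat_lit 358) (nat_lit 270)) (XT.lf (nat_lit 0) (nat_lit 9028069125) (nat_lit 456) (nat_lit 3526782860) (nat_lit 532) (nat_lit 14200331) (nat_lit 190) (nat_lit 5) (nat_lit 196) (nat_lit 5) (nat_lit 197) (nat_lit 5) (nat_lit 393) (nat_lit 358) (nat_lit 269))))) (XT.nd (nat_lit 312) (nat_lit 836) (nat_lit 0) (XT.nd (nat_lit 156) (nat_lit 912)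 (nat_lit 0) (XT.nd (nat_lit 78) (nat_lit 0) (nat_lit 0) (XT.lf (nat_lit 0) (nat_lit 2350336099) (nat_lit 532) (nat_lit 8957659862) (nat_lit 76) (nat_lit 1468154903) (nat_lit 183) (nat_lit 5) (nat_lit 190) (nat_lit 5) (nat_lit 184) (nat_lit 5) (nat_lit 394) (nat_lit 358) (nat_lit 268)) (XT.lf (nat_lit 0) (nat_lit 4834790796) (nat_lit 532) (nat_lit 1579068162) (nat_lit 76) (nat_lit 6574126926) (nat_lit 183) (nat_lit 5) (nat_lit 190) (nat_lit 5) (nat_lit 184) (nat_lit 5) (nat_lit 395) (nat_lit 358) (nat_lit 267))) (XT.nd (nat_lit 78) (nat_lit 456) (nat_lit 0) (XT.lf (nat_lit 0) (nat_lit 6114368088) (nat_lit 456) (nat_lit 1317057866) (nat_lit 532) (nat_lit 5773626190) (nat_lit 177) (nat_lit 5) (nat_lit 183) (nat_lit 5) (nat_lit 184) (nat_lit 5) (nat_lit 396) (nat_lit 358) (nat_lit 266)) (XT.lf (nat_lit 0) (nat_lit 590226043) (nat_lit 456) (nat_lit 9554509169) (nat_lit 532) (nat_lit 3282737360) (nat_lit 171) (nat_lit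 5) (nat_lit 177) (nat_lit 5) (nat_lit 178) (nat_lit 5) (nat_lit 397) (nat_lit 358) (nat_lit 265)))) (XT.nd (nat_lit 156) (nat_lit 380) (nat_lit 0) (XT.nd (nat_lit 78) (nat_lit 456) (nat_lit 0) (XT.lf (nat_lit 0) (nat_lit 8607716990) (nat_lit 456) (nat_lit 4395793161) (nat_lit 532) (nat_lit 651138742) (nat_lit 171) (nat_lit 5) (nat_lit 177) (nat_lit 5) (nat_lit 178) (nat_lit 5) (nat_lit 398) (nat_lit 358) (nat_lit 264)) (XT.lf (nat_lit 0) (nat_lit 2037159156) (nat_lit 456) (nat_lit 10906945217) (nat_lit 76) (nat_lit 943409078) (nat_lit 165) (nat_lit 5) (nat_lit 171) (nat_lit 5) (nat_lit 166) (nat_lit 5) (nat_lit 399) (nat_lit 358) (nat_lit 263))) (XT.nd (nat_lit 78) (nat_lit 380) (nat_lit 0) (XT.lf (nat_lit 0) (nat_lit 4868243451) (nat_lit 456) (nat_lit 2849799336) (nat_lit 76) (nat_lit 6406875836) (nat_lit 165) (nat_lit 5) (nat_lit 171) (nat_lit 5) (nat_lit 166) (nat_lit 5) (nat_lit 400) (nat_lit 358) (nat_lit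 262)) (XT.lf (nat_lit 0) (nat_lit 5531920629) (nat_lit 380) (nat_lit 2286324866) (nat_lit 456) (nat_lit 6550185582) (nat_lit 160) (nat_lit 5) (nat_lit 165) (nat_lit 5) (nat_lit 166) (nat_lit 5) (nat_lit 401) (nat_lit 358) (nat_lit 261))))))))
noncomputable def xc145 : XT := (XT.nd (nat_lit 2262) (nat_lit 2964) (nat_lit 0) (XT.nd (nat_lit 1092) (nat_lit 2280) (nat_lit 0) (XT.nd (nat_lit 546) (nat_lit 1368) (nat_lit 0) (XT.nd (nat_lit 234) (nat_lit 684) (nat_lit 0) (XT.nd (nat_lit 78) (nat_lit 836) (nat_lit 0) (XT.lf (nat_lit 0) (nat_lit 10898683525) (nat_lit 456) (nat_lit 452317356) (nat_lit 76) (nat_lit 3266994495) (nat_lit 160) (nat_lit 5) (nat_lit 166) (nat_lit 5) (nat_lit 161) (nat_lit 5) (nat_lit 402) (nat_lit 358) (nat_lit 260)) (XT.nd (nat_lit 78) (nat_lit 456) (nat_lit 0) (XT.lf (nat_lit 0) (nat_lit 8298073146) (nat_lit 380) (nat_lit 5857487672) (nat_lit 456) (nat_lit 716969418) (nat_lit 155) (nat_lit 5)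 (nat_lit 160) (nat_lit 5) (nat_lit 161) (nat_lit 5) (nat_lit 403) (nat_lit 358) (nat_lit 259)) (XT.lf (nat_lit 0) (nat_lit 2180612463) (nat_lit 380) (nat_lit 155792344) (nat_lit 456) (nat_lit 12797396021) (nat_lit 149) (nat_lit 5) (nat_lit 154) (nat_lit 5) (nat_lit 155) (nat_lit 5) (nat_lit 404) (nat_lit 358) (nat_lit 258)))) (XT.nd (nat_lit 156) (nat_lit 380) (nat_lit 0) (XT.nd (nat_lit 78) (nat_lit 304) (nat_lit 0) (XT.lf (nat_lit 0) (nat_lit 5570945504) (nat_lit 456) (nat_lit 4155505234) (nat_lit 76) (nat_lit 5673130612) (nat_lit 149) (nat_lit 5) (nat_lit 155) (nat_lit 5) (nat_lit 150) (nat_lit 5) (nat_lit 405) (nat_lit 358) (nat_lit 257)) (XT.lf (nat_lit 0) (nat_lit 4977440761) (nat_lit 304) (nat_lit 3956969700) (nat_lit 380) (nat_lit 6737972109) (nat_lit 145) (nat_lit 5) (nat_lit 149) (nat_lit 5) (nat_lit 150) (nat_lit 5) (nat_lit 406) (nat_lit 358) (nat_lit 256))) (XT.nd (nat_lit 78) (nat_lit 380) (nat_lit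 0) (XT.lf (nat_lit 0) (nat_lit 12442956966) (nat_lit 380) (nat_lit 1526522577) (nat_lit 76) (nat_lit 1982566762) (nat_lit 145) (nat_lit 5) (nat_lit 150) (nat_lit 5) (nat_lit 146) (nat_lit 5) (nat_lit 407) (nat_lit 358) (nat_lit 255)) (XT.lf (nat_lit 0) (nat_lit 8010323998) (nat_lit 380) (nat_lit 8145830342) (nat_lit 456) (nat_lit 80967479) (nat_lit 140) (nat_lit 5) (nat_lit 145) (nat_lit 5) (nat_lit 146) (nat_lit 5) (nat_lit 408) (nat_lit 358) (nat_lit 254))))) (XT.nd (nat_lit 234) (nat_lit 684) (nat_lit 0) (XT.nd (nat_lit 78) (nat_lit 304) (nat_lit 0) (XT.lf (nat_lit 0) (nat_lit 1302521530) (nat_lit 304) (nat_lit 2091554796) (nat_lit 380) (nat_lit 13135339846) (nat_lit 135) (nat_lit 5) (nat_lit 139) (nat_lit 5) (nat_lit 140) (nat_lit 5) (nat_lit 409) (nat_lit 358) (nat_lit 253)) (XT.nd (nat_lit 78) (nat_lit 304) (nat_lit 0) (XT.lf (nat_lit 0) (nat_lit 7078980944) (nat_lit 380) (nat_lit 5607140990) (nat_lit 76)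 (nat_lit 4141119652) (nat_lit 135) (nat_lit 5) (nat_lit 140) (nat_lit 5) (nat_lit 136) (nat_lit 5) (nat_lit 410) (nat_lit 358) (nat_lit 252)) (XT.lf (nat_lit 0) (nat_lit 4341869482) (nat_lit 304) (nat_lit 6578990713) (nat_lit 380) (nat_lit 6211752027) (nat_lit 131) (nat_lit 5) (nat_lit 135) (nat_lit 5) (nat_lit 136) (nat_lit 5) (nat_lit 411) (nat_lit 358) (nat_lit 251)))) (XT.nd (nat_lit 156) (nat_lit 304) (nat_lit 0) (XT.nd (nat_lit 78) (nat_lit 380) (nat_lit 0) (XT.lf (nat_lit 0) (nat_lit 14681167273) (nat_lit 304) (nat_lit 237676262) (nat_lit 380) (nat_lit 2527078201) (nat_lit 131) (nat_lit 5) (nat_lit 135) (nat_lit 5) (nat_lit 136) (nat_lit 5) (nat_lit 412) (nat_lit 358) (nat_lit 250)) (XT.lf (nat_lit 0) (nat_lit 1362997844) (nat_lit 380) (nat_lit 10150934478) (nat_lit 76) (nat_lit 6250747281) (nat_lit 126) (nat_lit 5) (nat_lit 131) (nat_lit 5) (nat_lit 127) (nat_lit 5) (nat_lit 413) (nat_lit 358) (nat_lit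 249))) (XT.nd (nat_lit 78) (nat_lit 0) (nat_lit 0) (XT.lf (nat_lit 0) (nat_lit 221863080) (nat_lit 304) (nat_lit 5114497286) (nat_lit 380) (nat_lit 12755370863) (nat_lit 122) (nat_lit 5) (nat_lit 126) (nat_lit 5) (nat_lit 127) (nat_lit 5) (nat_lit 414) (nat_lit 358) (nat_lit 248)) (XT.lf (nat_lit 0) (nat_lit 9531489528) (nat_lit 380) (nat_lit 7349887383) (nat_lit 76) (nat_lit 1544143353) (nat_lit 122) (nat_lit 5) (nat_lit 127) (nat_lit 5) (nat_lit 123) (nat_lit 5) (nat_lit 415) (nat_lit 358) (nat_lit 247)))))) (XT.nd (nat_lit 546) (nat_lit 1140) (nat_lit 0) (XT.nd (nat_lit 234) (nat_lit 532) (nat_lit 0) (XT.nd (nat_lit 78) (nat_lit 380) (nat_lit 0) (XT.lf (nat_lit 0) (nat_lit 3480559933) (nat_lit 228) (nat_lit 10441299041) (nat_lit 304) (nat_lit 4845385156) (nat_lit 119) (nat_lit 5) (nat_lit 122) (nat_lit 5) (nat_lit 123) (nat_lit 5) (nat_lit 416) (nat_lit 358) (nat_lit 246)) (XT.nd (nat_lit 78) (nat_lit 380) (nat_lit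 0) (XT.lf (nat_lit 0) (nat_lit 14764393339) (nat_lit 228) (nat_lit 3739271266) (nat_lit 304) (nat_lit 613766026) (nat_lit 119) (nat_lit 5) (nat_lit 122) (nat_lit 5) (nat_lit 123) (nat_lit 5) (nat_lit 417) (nat_lit 358) (nat_lit 245)) (XT.lf (nat_lit 0) (nat_lit 3756038386) (nat_lit 380) (nat_lit 12519683517) (nat_lit 76) (nat_lit 3198794083) (nat_lit 114) (nat_lit 5) (nat_lit 119) (nat_lit 5) (nat_lit 115) (nat_lit 5) (nat_lit 418) (nat_lit 358) (nat_lit 244)))) (XT.nd (nat_lit 156) (nat_lit 304) (nat_lit 0) (XT.nd (nat_lit 78) (nat_lit 228) (nat_lit 0) (XT.lf (nat_lit 0) (nat_lit 8311934682) (nat_lit 380) (nat_lit 1215325785) (nat_lit 76) (nat_lit 10312853559) (nat_lit 114) (nat_lit 5) (nat_lit 119) (nat_lit 5) (nat_lit 115) (nat_lit 5) (nat_lit 419) (nat_lit 358) (nat_lit 243)) (XT.lf (nat_lit 0) (nat_lit 10613951608) (nat_lit 228) (nat_lit 2478913172) (nat_lit 304) (nat_lit 7121166893) (nat_lit 111) (nat_lit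 5) (nat_lit 114) (nat_lit 5) (nat_lit 115) (nat_lit 5) (nat_lit 420) (nat_lit 358) (nat_lit 242))) (XT.nd (nat_lit 78) (nat_lit 76) (nat_lit 0) (XT.lf (nat_lit 0) (nat_lit 2199614221) (nat_lit 228) (nat_lit 15883554130) (nat_lit 304) (nat_lit 2514022436) (nat_lit 108) (nat_lit 5) (nat_lit 111) (nat_lit 5) (nat_lit 112) (nat_lit 5) (nat_lit 421) (nat_lit 358) (nat_lit 241)) (XT.lf (nat_lit 0) (nat_lit 2296747271) (nat_lit 304) (nat_lit 6507309250) (nat_lit 76) (nat_lit 12183878287) (nat_lit 107) (nat_lit 5) (nat_lit 111) (nat_lit 5) (nat_lit 108) (nat_lit 5) (nat_lit 422) (nat_lit 358) (nat_lit 240))))) (XT.nd (nat_lit 312) (nat_lit 380) (nat_lit 0) (XT.nd (nat_lit 156) (nat_lit 532) (nat_lit 0) (XT.nd (nat_lit 78) (nat_lit 0) (nat_lit 0) (XT.lf (nat_lit 0) (nat_lit 5807208982) (nat_lit 228) (nat_lit 1436823999) (nat_lit 304) (nat_lit 14144341869) (nat_lit 104) (nat_lit 5) (nat_lit 107) (nat_lit 5) (nat_lit 108)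 (nat_lit 5) (nat_lit 423) (nat_lit 358) (nat_lit 239)) (XT.lf (nat_lit 0) (nat_lit 12452238166) (nat_lit 304) (nat_lit 3255077952) (nat_lit 76) (nat_lit 6090138996) (nat_lit 104) (nat_lit 5) (nat_lit 108) (nat_lit 5) (nat_lit 105) (nat_lit 5) (nat_lit 424) (nat_lit 358) (nat_lit 238))) (XT.nd (nat_lit 78) (nat_lit 304) (nat_lit 0) (XT.lf (nat_lit 0) (nat_lit 9593384077) (nat_lit 228) (nat_lit 8317135262) (nat_lit 304) (nat_lit 4305475541) (nat_lit 101) (nat_lit 5) (nat_lit 104) (nat_lit 5) (nat_lit 105) (nat_lit 5) (nat_lit 425) (nat_lit 358) (nat_lit 237)) (XT.lf (nat_lit 0) (nat_lit 222999520) (nat_lit 228) (nat_lit 667953746) (nat_lit 304) (nat_lit 21755200889) (nat_lit 97) (nat_lit 5) (nat_lit 100) (nat_lit 5) (nat_lit 101) (nat_lit 5) (nat_lit 426) (nat_lit 358) (nat_lit 236)))) (XT.nd (nat_lit 156) (nat_lit 152) (nat_lit 0) (XT.nd (nat_lit 78) (nat_lit 228) (nat_lit 0) (XT.lf (nat_lit 0) (nat_lit 6342309228)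 (nat_lit 304) (nat_lit 9506403204) (nat_lit 76) (nat_lit 7233661640) (nat_lit 97) (nat_lit 5) (nat_lit 101) (nat_lit 5) (nat_lit 98) (nat_lit 5) (nat_lit 427) (nat_lit 358) (nat_lit 235)) (XT.lf (nat_lit 0) (nat_lit 3846357712) (nat_lit 228) (nat_lit 8142329043) (nat_lit 304) (nat_lit 11542051171) (nat_lit 94) (nat_lit 5) (nat_lit 97) (nat_lit 5) (nat_lit 98) (nat_lit 5) (nat_lit 428) (nat_lit 358) (nat_lit 234))) (XT.nd (nat_lit 78) (nat_lit 152) (nat_lit 0) (XT.lf (nat_lit 0) (nat_lit 17774832906) (nat_lit 228) (nat_lit 113675521) (nat_lit 304) (nat_lit 6101524399) (nat_lit 94) (nat_lit 5) (nat_lit 97) (nat_lit 5) (nat_lit 98) (nat_lit 5) (nat_lit 429) (nat_lit 358) (nat_lit 233)) (XT.lf (nat_lit 0) (nat_lit 7710677688) (nat_lit 152) (nat_lit 16395497591) (nat_lit 228) (nat_lit 352707444) (nat_lit 92) (nat_lit 5) (nat_lit 94) (nat_lit 5) (nat_lit 95) (nat_lit 5) (nat_lit 430) (nat_lit 358) (nat_lit 232)))))))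 (XT.nd (nat_lit 1092) (nat_lit 1292) (nat_lit 0) (XT.nd (nat_lit 546) (nat_lit 760) (nat_lit 0) (XT.nd (nat_lit 234) (nat_lit 456) (nat_lit 0) (XT.nd (nat_lit 78) (nat_lit 380) (nat_lit 0) (XT.lf (nat_lit 0) (nat_lit 5512790403) (nat_lit 228) (nat_lit 2832938269) (nat_lit 76) (nat_lit 16592878777) (nat_lit 91) (nat_lit 5) (nat_lit 94) (nat_lit 5) (nat_lit 92) (nat_lit 5) (nat_lit 431) (nat_lit 358) (nat_lit 231)) (XT.nd (nat_lit 78) (nat_lit 152) (nat_lit 0) (XT.lf (nat_lit 0) (nat_lit 11648949003) (nat_lit 304) (nat_lit 13724335980) (nat_lit 76) (nat_lit 56282146) (nat_lit 88) (nat_lit 5) (nat_lit 92) (nat_lit 5) (nat_lit 89) (nat_lit 5) (nat_lit 432) (nat_lit 358) (nat_lit 230)) (XT.lf (nat_lit 0) (nat_lit 715269523) (nat_lit 152) (nat_lit 17361105396) (nat_lit 228) (nat_lit 7855666683) (nat_lit 86) (nat_lit 5) (nat_lit 88) (nat_lit 5) (nat_lit 89) (nat_lit 5) (nat_lit 433) (nat_lit 358) (nat_lit 229)))) (XT.nd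 (nat_lit 156) (nat_lit 152) (nat_lit 0) (XT.nd (nat_lit 78) (nat_lit 304) (nat_lit 0) (XT.lf (nat_lit 0) (nat_lit 15850590380) (nat_lit 152) (nat_lit 8973553565) (nat_lit 228) (nat_lit 1621622190) (nat_lit 86) (nat_lit 5) (nat_lit 88) (nat_lit 5) (nat_lit 89) (nat_lit 5) (nat_lit 434) (nat_lit 358) (nat_lit 228)) (XT.lf (nat_lit 0) (nat_lit 4488033158) (nat_lit 228) (nat_lit 250043835) (nat_lit 304) (nat_lit 22234474077) (nat_lit 82) (nat_lit 5) (nat_lit 85) (nat_lit 5) (nat_lit 86) (nat_lit 5) (nat_lit 435) (nat_lit 358) (nat_lit 227))) (XT.nd (nat_lit 78) (nat_lit 152) (nat_lit 0) (XT.lf (nat_lit 0) (nat_lit 11437205207) (nat_lit 304) (nat_lit 7390630045) (nat_lit 76) (nat_lit 8681387012) (nat_lit 82) (nat_lit 5) (nat_lit 86) (nat_lit 5) (nat_lit 83) (nat_lit 5) (nat_lit 436) (nat_lit 358) (nat_lit 226)) (XT.lf (nat_lit 0) (nat_lit 8297506729) (nat_lit 152) (nat_lit 10111564534) (nat_lit 228) (nat_lit 9650770688)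 (nat_lit 80) (nat_lit 5) (nat_lit 82) (nat_lit 5) (nat_lit 83) (nat_lit 5) (nat_lit 437) (nat_lit 358) (nat_lit 225))))) (XT.nd (nat_lit 234) (nat_lit 532) (nat_lit 0) (XT.nd (nat_lit 78) (nat_lit 228) (nat_lit 0) (XT.lf (nat_lit 0) (nat_lit 24589958519) (nat_lit 152) (nat_lit 1064426889) (nat_lit 228) (nat_lit 2970667295) (nat_lit 80) (nat_lit 5) (nat_lit 82) (nat_lit 5) (nat_lit 83) (nat_lit 5) (nat_lit 438) (nat_lit 358) (nat_lit 224)) (XT.nd (nat_lit 78) (nat_lit 0) (nat_lit 0) (XT.lf (nat_lit 0) (nat_lit 4022940647) (nat_lit 228) (nat_lit 16933799327) (nat_lit 76) (nat_lit 8243671565) (nat_lit 77) (nat_lit 5) (nat_lit 80) (nat_lit 5) (nat_lit 78) (nat_lit 5) (nat_lit 439) (nat_lit 358) (nat_lit 223)) (XT.lf (nat_lit 0) (nat_lit 11208258117) (nat_lit 228) (nat_lit 709650949) (nat_lit 76) (nat_lit 17872992566) (nat_lit 77) (nat_lit 5) (nat_lit 80) (nat_lit 5) (nat_lit 78) (nat_lit 5) (nat_lit 440) (nat_lit 358)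 (nat_lit 222)))) (XT.nd (nat_lit 156) (nat_lit 228) (nat_lit 0) (XT.nd (nat_lit 78) (nat_lit 152) (nat_lit 0) (XT.lf (nat_lit 0) (nat_lit 16302277226) (nat_lit 152) (nat_lit 2453778852) (nat_lit 228) (nat_lit 11638643823) (nat_lit 75) (nat_lit 5) (nat_lit 77) (nat_lit 5) (nat_lit 78) (nat_lit 5) (nat_lit 441) (nat_lit 358) (nat_lit 221)) (XT.lf (nat_lit 0) (nat_lit 2789850275) (nat_lit 152) (nat_lit 23834876184) (nat_lit 228) (nat_lit 4389053575) (nat_lit 73) (nat_lit 5) (nat_lit 75) (nat_lit 5) (nat_lit 76) (nat_lit 5) (nat_lit 442) (nat_lit 358) (nat_lit 220))) (XT.nd (nat_lit 78) (nat_lit 152) (nat_lit 0) (XT.lf (nat_lit 0) (nat_lit 3176261741) (nat_lit 228) (nat_lit 11252124257) (nat_lit 76) (nat_lit 17217410922) (nat_lit 72) (nat_lit 5) (nat_lit 75) (nat_lit 5) (nat_lit 73) (nat_lit 5) (nat_lit 443) (nat_lit 358) (nat_lit 219)) (XT.lf (nat_lit 0) (nat_lit 6291507202) (nat_lit 152) (nat_lit 4639865340) (nat_lit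 228) (nat_lit 21362567518) (nat_lit 70) (nat_lit 5) (nat_lit 72) (nat_lit 5) (nat_lit 73) (nat_lit 5) (nat_lit 444) (nat_lit 358) (nat_lit 218)))))) (XT.nd (nat_lit 546) (nat_lit 684) (nat_lit 0) (XT.nd (nat_lit 234) (nat_lit 380) (nat_lit 0) (XT.nd (nat_lit 78) (nat_lit 228) (nat_lit 0) (XT.lf (nat_lit 0) (nat_lit 19076821947) (nat_lit 228) (nat_lit 8436143837) (nat_lit 76) (nat_lit 5443832104) (nat_lit 70) (nat_lit 5) (nat_lit 73) (nat_lit 5) (nat_lit 71) (nat_lit 5) (nat_lit 445) (nat_lit 358) (nat_lit 217)) (XT.nd (nat_lit 78) (nat_lit 76) (nat_lit 0) (XT.lf (nat_lit 0) (nat_lit 9785949467) (nat_lit 152) (nat_lit 17811587402) (nat_lit 228) (nat_lit 6038078440) (nat_lit 68) (nat_lit 5) (nat_lit 70) (nat_lit 5) (nat_lit 71) (nat_lit 5) (nat_lit 446) (nat_lit 358) (nat_lit 216)) (XT.lf (nat_lit 0) (nat_lit 2076233516) (nat_lit 228) (nat_lit 5641274702) (nat_lit 76) (nat_lit 26614393462) (nat_lit 67) (nat_lit 5)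 (nat_lit 70) (nat_lit 5) (nat_lit 68) (nat_lit 5) (nat_lit 447) (nat_lit 358) (nat_lit 215)))) (XT.nd (nat_lit 156) (nat_lit 228) (nat_lit 0) (XT.nd (nat_lit 78) (nat_lit 0) (nat_lit 0) (XT.lf (nat_lit 0) (nat_lit 10459163978) (nat_lit 228) (nat_lit 21773951540) (nat_lit 76) (nat_lit 2809772023) (nat_lit 65) (nat_lit 5) (nat_lit 68) (nat_lit 5) (nat_lit 66) (nat_lit 5) (nat_lit 448) (nat_lit 358) (nat_lit 214)) (XT.lf (nat_lit 0) (nat_lit 19218743788) (nat_lit 228) (nat_lit 3004171348) (nat_lit 76) (nat_lit 13548533817) (nat_lit 65) (nat_lit 5) (nat_lit 68) (nat_lit 5) (nat_lit 66) (nat_lit 5) (nat_lit 449) (nat_lit 358) (nat_lit 213))) (XT.nd (nat_lit 78) (nat_lit 76) (nat_lit 0) (XT.lf (nat_lit 0) (nat_lit 16638034320) (nat_lit 152) (nat_lit 11754487974) (nat_lit 228) (nat_lit 8124803370) (nat_lit 63) (nat_lit 5) (nat_lit 65) (nat_lit 5) (nat_lit 66) (nat_lit 5) (nat_lit 450) (nat_lit 358) (nat_lit 212)) (XT.lf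 (nat_lit 0) (nat_lit 567218266) (nat_lit 228) (nat_lit 374579792) (nat_lit 76) (nat_lit 36342957115) (nat_lit 62) (nat_lit 5) (nat_lit 65) (nat_lit 5) (nat_lit 63) (nat_lit 5) (nat_lit 451) (nat_lit 358) (nat_lit 211))))) (XT.nd (nat_lit 312) (nat_lit 304) (nat_lit 0) (XT.nd (nat_lit 156) (nat_lit 76) (nat_lit 0) (XT.nd (nat_lit 78) (nat_lit 152) (nat_lit 0) (XT.lf (nat_lit 0) (nat_lit 9641434658) (nat_lit 228) (nat_lit 18157516292) (nat_lit 76) (nat_lit 10265302000) (nat_lit 60) (nat_lit 5) (nat_lit 63) (nat_lit 5) (nat_lit 61) (nat_lit 5) (nat_lit 452) (nat_lit 358) (nat_lit 210)) (XT.lf (nat_lit 0) (nat_lit 1950911893) (nat_lit 152) (nat_lit 17060641079) (nat_lit 228) (nat_lit 19854873130) (nat_lit 58) (nat_lit 5) (nat_lit 60) (nat_lit 5) (nat_lit 61) (nat_lit 5) (nat_lit 453) (nat_lit 358) (nat_lit 209))) (XT.nd (nat_lit 78) (nat_lit 76) (nat_lit 0) (XT.lf (nat_lit 0) (nat_lit 23020006540) (nat_lit 152) (nat_lit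 5817998226) (nat_lit 228) (nat_lit 10849403472) (nat_lit 58) (nat_lit 5) (nat_lit 60) (nat_lit 5) (nat_lit 61) (nat_lit 5) (nat_lit 454) (nat_lit 358) (nat_lit 208)) (XT.lf (nat_lit 0) (nat_lit 4200186085) (nat_lit 76) (nat_lit 34846874932) (nat_lit 152) (nat_lit 1483325158) (nat_lit 57) (nat_lit 5) (nat_lit 58) (nat_lit 5) (nat_lit 59) (nat_lit 4) (nat_lit 455) (nat_lit 358) (nat_lit 207)))) (XT.nd (nat_lit 156) (nat_lit 76) (nat_lit 0) (XT.nd (nat_lit 78) (nat_lit 152) (nat_lit 0) (XT.lf (nat_lit 0) (nat_lit 8224073799) (nat_lit 152) (nat_lit 15510440225) (nat_lit 76) (nat_lit 17655196546) (nat_lit 56) (nat_lit 5) (nat_lit 58) (nat_lit 5) (nat_lit 57) (nat_lit 5) (nat_lit 456) (nat_lit 358) (nat_lit 206)) (XT.lf (nat_lit 0) (nat_lit 6022615242) (nat_lit 152) (nat_lit 12220454074) (nat_lit 228) (nat_lit 24029799757) (nat_lit 54) (nat_lit 5) (nat_lit 56) (nat_lit 5) (nat_lit 57) (nat_lit 5) (nat_lit 457) (nat_lit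 358) (nat_lit 205))) (XT.nd (nat_lit 78) (nat_lit 76) (nat_lit 0) (XT.lf (nat_lit 0) (nat_lit 28505616038) (nat_lit 152) (nat_lit 206028484) (nat_lit 228) (nat_lit 14466408109) (nat_lit 54) (nat_lit 5) (nat_lit 56) (nat_lit 5) (nat_lit 57) (nat_lit 5) (nat_lit 458) (nat_lit 358) (nat_lit 204)) (XT.lf (nat_lit 0) (nat_lit 7569702723) (nat_lit 76) (nat_lit 32106860158) (nat_lit 152) (nat_lit 4428360811) (nat_lit 53) (nat_lit 5) (nat_lit 54) (nat_lit 5) (nat_lit 55) (nat_lit 4) (nat_lit 459) (nat_lit 358) (nat_lit 203))))))))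
noncomputable def xc146 : XT := (XT.nd (nat_lit 45240) (nat_lit 0) (nat_lit 14212) (XT.nd (nat_lit 1092) (nat_lit 760) (nat_lit 0) (XT.nd (nat_lit 546) (nat_lit 456) (nat_lit 0) (XT.nd (nat_lit 234) (nat_lit 304) (nat_lit 0) (XT.nd (nat_lit 78) (nat_lit 152) (nat_lit 0) (XT.lf (nat_lit 0) (nat_lit 5939715805) (nat_lit 152) (nat_lit 14349368727) (nat_lit 76) (nat_lit 24764485457) (nat_lit 52) (nat_lit 5) (nat_lit 54) (nat_lit 5) (nat_lit 53) (nat_lit 5) (nat_lit 460) (nat_lit 358) (nat_lit 202)) (XT.nd (nat_lit 78) (nat_lit 0) (nat_lit 0) (XT.lf (nat_lit 0) (nat_lit 8612919737) (nat_lit 152) (nat_lit 7992478434) (nat_lit 228) (nat_lit 29421695601) (nat_lit 50) (nat_lit 5) (nat_lit 52) (nat_lit 5) (nat_lit 53) (nat_lit 5) (nat_lit 461) (nat_lit 358) (nat_lit 201)) (XT.lf (nat_lit 0) (nat_lit 27775107240) (nat_lit 228) (nat_lit 14526994474) (nat_lit 76) (nat_lit 4722200377) (nat_lit 50) (nat_lit 5) (nat_lit 53) (nat_lit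 5) (nat_lit 51) (nat_lit 4) (nat_lit 462) (nat_lit 358) (nat_lit 200)))) (XT.nd (nat_lit 156) (nat_lit 152) (nat_lit 0) (XT.nd (nat_lit 78) (nat_lit 76) (nat_lit 0) (XT.lf (nat_lit 0) (nat_lit 9132884016) (nat_lit 76) (nat_lit 30306958662) (nat_lit 152) (nat_lit 8606786425) (nat_lit 49) (nat_lit 5) (nat_lit 50) (nat_lit 5) (nat_lit 51) (nat_lit 4) (nat_lit 463) (nat_lit 358) (nat_lit 199)) (XT.lf (nat_lit 0) (nat_lit 2450110105) (nat_lit 152) (nat_lit 15331976579) (nat_lit 76) (nat_lit 31312625559) (nat_lit 48) (nat_lit 5) (nat_lit 50) (nat_lit 5) (nat_lit 49) (nat_lit 5) (nat_lit 464) (nat_lit 358) (nat_lit 198))) (XT.nd (nat_lit 78) (nat_lit 0) (nat_lit 0) (XT.lf (nat_lit 0) (nat_lit 9035717225) (nat_lit 152) (nat_lit 4710090255) (nat_lit 228) (nat_lit 36423471923) (nat_lit 46) (nat_lit 5) (nat_lit 48) (nat_lit 5) (nat_lit 49) (nat_lit 5) (nat_lit 465) (nat_lit 358) (nat_lit 197)) (XT.lf (nat_lit 0) (nat_lit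 25614127263) (nat_lit 228) (nat_lit 16921042029) (nat_lit 76) (nat_lit 8733902182) (nat_lit 46) (nat_lit 5) (nat_lit 49) (nat_lit 5) (nat_lit 47) (nat_lit 4) (nat_lit 466) (nat_lit 358) (nat_lit 196))))) (XT.nd (nat_lit 234) (nat_lit 152) (nat_lit 0) (XT.nd (nat_lit 78) (nat_lit 228) (nat_lit 0) (XT.lf (nat_lit 0) (nat_lit 8117332975) (nat_lit 76) (nat_lit 29839269949) (nat_lit 152) (nat_lit 14441711622) (nat_lit 45) (nat_lit 5) (nat_lit 46) (nat_lit 5) (nat_lit 47) (nat_lit 4) (nat_lit 467) (nat_lit 358) (nat_lit 195)) (XT.nd (nat_lit 78) (nat_lit 228) (nat_lit 0) (XT.lf (nat_lit 0) (nat_lit 34241559845) (nat_lit 76) (nat_lit 16592179366) (nat_lit 152) (nat_lit 2722764522) (nat_lit 45) (nat_lit 5) (nat_lit 46) (nat_lit 5) (nat_lit 47) (nat_lit 4) (nat_lit 468) (nat_lit 358) (nat_lit 194)) (XT.lf (nat_lit 0) (nat_lit 6423630012) (nat_lit 152) (nat_lit 2797103668) (nat_lit 228) (nat_lit 45524347891) (nat_lit 42)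 (nat_lit 5) (nat_lit 44) (nat_lit 5) (nat_lit 45) (nat_lit 5) (nat_lit 469) (nat_lit 358) (nat_lit 193)))) (XT.nd (nat_lit 156) (nat_lit 76) (nat_lit 0) (XT.nd (nat_lit 78) (nat_lit 76) (nat_lit 0) (XT.lf (nat_lit 0) (nat_lit 21768145031) (nat_lit 228) (nat_lit 22783709008) (nat_lit 76) (nat_lit 11407644350) (nat_lit 42) (nat_lit 5) (nat_lit 45) (nat_lit 5) (nat_lit 43) (nat_lit 4) (nat_lit 470) (nat_lit 358) (nat_lit 192)) (XT.lf (nat_lit 0) (nat_lit 3550140490) (nat_lit 76) (nat_lit 31197504523) (nat_lit 152) (nat_lit 22461033078) (nat_lit 41) (nat_lit 5) (nat_lit 42) (nat_lit 5) (nat_lit 43) (nat_lit 4) (nat_lit 471) (nat_lit 358) (nat_lit 191))) (XT.nd (nat_lit 78) (nat_lit 76) (nat_lit 0) (XT.lf (nat_lit 0) (nat_lit 31129555705) (nat_lit 76) (nat_lit 17210959907) (nat_lit 152) (nat_lit 10148098361) (nat_lit 41) (nat_lit 5) (nat_lit 42) (nat_lit 5) (nat_lit 43) (nat_lit 4) (nat_lit 472) (nat_lit 358) (nat_lit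 190)) (XT.lf (nat_lit 0) (nat_lit 2478805785) (nat_lit 152) (nat_lit 306232863) (nat_lit 76) (nat_lit 57021357809) (nat_lit 40) (nat_lit 5) (nat_lit 42) (nat_lit 5) (nat_lit 41) (nat_lit 5) (nat_lit 473) (nat_lit 358) (nat_lit 189)))))) (XT.nd (nat_lit 546) (nat_lit 304) (nat_lit 0) (XT.nd (nat_lit 234) (nat_lit 228) (nat_lit 0) (XT.nd (nat_lit 78) (nat_lit 76) (nat_lit 0) (XT.lf (nat_lit 0) (nat_lit 15663512023) (nat_lit 228) (nat_lit 33279472598) (nat_lit 76) (nat_lit 12206224984) (nat_lit 38) (nat_lit 5) (nat_lit 41) (nat_lit 5) (nat_lit 39) (nat_lit 4) (nat_lit 474) (nat_lit 358) (nat_lit 188)) (XT.nd (nat_lit 78) (nat_lit 76) (nat_lit 0) (XT.lf (nat_lit 0) (nat_lit 29268679435) (nat_lit 228) (nat_lit 5673521172) (nat_lit 76) (nat_lit 27589359260) (nat_lit 38) (nat_lit 5) (nat_lit 41) (nat_lit 5) (nat_lit 39) (nat_lit 4) (nat_lit 475) (nat_lit 358) (nat_lit 187)) (XT.lf (nat_lit 0) (nat_lit 23202732055) (nat_lit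 76) (nat_lit 20296699326) (nat_lit 152) (nat_lit 20449426678) (nat_lit 37) (nat_lit 5) (nat_lit 38) (nat_lit 5) (nat_lit 39) (nat_lit 4) (nat_lit 476) (nat_lit 358) (nat_lit 186)))) (XT.nd (nat_lit 156) (nat_lit 76) (nat_lit 0) (XT.nd (nat_lit 78) (nat_lit 152) (nat_lit 0) (XT.lf (nat_lit 0) (nat_lit 53051033255) (nat_lit 76) (nat_lit 5157816778) (nat_lit 152) (nat_lit 7198273141) (nat_lit 37) (nat_lit 5) (nat_lit 38) (nat_lit 5) (nat_lit 39) (nat_lit 4) (nat_lit 477) (nat_lit 358) (nat_lit 185)) (XT.lf (nat_lit 0) (nat_lit 6586449765) (nat_lit 152) (nat_lit 49857086337) (nat_lit 76) (nat_lit 10455883093) (nat_lit 35) (nat_lit 5) (nat_lit 37) (nat_lit 5) (nat_lit 36) (nat_lit 4) (nat_lit 478) (nat_lit 358) (nat_lit 184))) (XT.nd (nat_lit 78) (nat_lit 76) (nat_lit 0) (XT.lf (nat_lit 0) (nat_lit 20811685253) (nat_lit 152) (nat_lit 20990674048) (nat_lit 76) (nat_lit 26626837499) (nat_lit 35) (nat_lit 5) (nat_lit 37)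 (nat_lit 5) (nat_lit 36) (nat_lit 4) (nat_lit 479) (nat_lit 358) (nat_lit 183)) (XT.lf (nat_lit 0) (nat_lit 8905453445) (nat_lit 76) (nat_lit 26638560981) (nat_lit 152) (nat_lit 34458443473) (nat_lit 34) (nat_lit 5) (nat_lit 35) (nat_lit 5) (nat_lit 36) (nat_lit 4) (nat_lit 480) (nat_lit 358) (nat_lit 182))))) (XT.nd (nat_lit 234) (nat_lit 152) (nat_lit 0) (XT.nd (nat_lit 78) (nat_lit 152) (nat_lit 0) (XT.lf (nat_lit 0) (nat_lit 40118796942) (nat_lit 76) (nat_lit 10806270873) (nat_lit 152) (nat_lit 20691646646) (nat_lit 34) (nat_lit 5) (nat_lit 35) (nat_lit 5) (nat_lit 36) (nat_lit 4) (nat_lit 481) (nat_lit 358) (nat_lit 181)) (XT.nd (nat_lit 78) (nat_lit 152) (nat_lit 0) (XT.lf (nat_lit 0) (nat_lit 66815328823) (nat_lit 152) (nat_lit 1073510635) (nat_lit 0) (nat_lit 5389126232) (nat_lit 34) (nat_lit 5) (nat_lit 36) (nat_lit 4) (nat_lit 34) (nat_lit 4) (nat_lit 482) (nat_lit 358) (nat_lit 180)) (XT.lf (nat_lit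 0) (nat_lit 8434898724) (nat_lit 152) (nat_lit 44312687941) (nat_lit 76) (nat_lit 22227059217) (nat_lit 32) (nat_lit 5) (nat_lit 34) (nat_lit 5) (nat_lit 33) (nat_lit 4) (nat_lit 483) (nat_lit 358) (nat_lit 179)))) (XT.nd (nat_lit 156) (nat_lit 76) (nat_lit 0) (XT.nd (nat_lit 78) (nat_lit 76) (nat_lit 0) (XT.lf (nat_lit 0) (nat_lit 23655466475) (nat_lit 152) (nat_lit 13423993428) (nat_lit 76) (nat_lit 39640667252) (nat_lit 32) (nat_lit 5) (nat_lit 34) (nat_lit 5) (nat_lit 33) (nat_lit 4) (nat_lit 484) (nat_lit 358) (nat_lit 178)) (XT.lf (nat_lit 0) (nat_lit 18747984353) (nat_lit 76) (nat_lit 20760079155) (nat_lit 152) (nat_lit 39004647213) (nat_lit 31) (nat_lit 5) (nat_lit 32) (nat_lit 5) (nat_lit 33) (nat_lit 4) (nat_lit 485) (nat_lit 358) (nat_lit 177))) (XT.nd (nat_lit 78) (nat_lit 76) (nat_lit 0) (XT.lf (nat_lit 0) (nat_lit 52151172279) (nat_lit 76) (nat_lit 3815869543) (nat_lit 152) (nat_lit 24388106086) (nat_lit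 31) (nat_lit 5) (nat_lit 32) (nat_lit 5) (nat_lit 33) (nat_lit 4) (nat_lit 486) (nat_lit 358) (nat_lit 176)) (XT.lf (nat_lit 0) (nat_lit 4246416699) (nat_lit 76) (nat_lit 68840620876) (nat_lit 76) (nat_lit 9160803405) (nat_lit 30) (nat_lit 4) (nat_lit 31) (nat_lit 5) (nat_lit 31) (nat_lit 4) (nat_lit 487) (nat_lit 358) (nat_lit 175))))))) (XT.nd (nat_lit 1092) (nat_lit 5776) (nat_lit 0) (XT.nd (nat_lit 546) (nat_lit 912) (nat_lit 0) (XT.nd (nat_lit 234) (nat_lit 912) (nat_lit 0) (XT.nd (nat_lit 78) (nat_lit 0) (nat_lit 0) (XT.lf (nat_lit 0) (nat_lit 2226439320) (nat_lit 988) (nat_lit 882026742) (nat_lit 988) (nat_lit 882026742) (nat_lit 317) (nat_lit 3) (nat_lit 330) (nat_lit 3) (nat_lit 330) (nat_lit 5) (nat_lit 359) (nat_lit 359) (nat_lit 302)) (XT.nd (nat_lit 78) (nat_lit 0) (nat_lit 0) (XT.lf (nat_lit 76) (nat_lit 2169201329) (nat_lit 0) (nat_lit 3566866038) (nat_lit 988) (nat_lit 2327673615) (nat_lit 318)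 (nat_lit 5) (nat_lit 317) (nat_lit 3) (nat_lit 330) (nat_lit 5) (nat_lit 360) (nat_lit 359) (nat_lit 301)) (XT.lf (nat_lit 76) (nat_lit 6232098372) (nat_lit 0) (nat_lit 796572462) (nat_lit 988) (nat_lit 1121198858) (nat_lit 318) (nat_lit 5) (nat_lit 317) (nat_lit 3) (nat_lit 330) (nat_lit 5) (nat_lit 361) (nat_lit 359) (nat_lit 300)))) (XT.nd (nat_lit 156) (nat_lit 0) (nat_lit 0) (XT.nd (nat_lit 78) (nat_lit 0) (nat_lit 0) (XT.lf (nat_lit 0) (nat_lit 114401434) (nat_lit 988) (nat_lit 6064273638) (nat_lit 1064) (nat_lit 2060030313) (nat_lit 305) (nat_lit 5) (nat_lit 318) (nat_lit 5) (nat_lit 319) (nat_lit 5) (nat_lit 362) (nat_lit 359) (nat_lit 299)) (XT.lf (nat_lit 0) (nat_lit 1347282743) (nat_lit 988) (nat_lit 1946143799) (nat_lit 1064) (nat_lit 5036980837) (nat_lit 305) (nat_lit 5) (nat_lit 318) (nat_lit 5) (nat_lit 319) (nat_lit 5) (nat_lit 363) (nat_lit 359) (nat_lit 298))) (XT.nd (nat_lit 78) (nat_lit 0) (nat_lit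 76) (XT.lf (nat_lit 76) (nat_lit 2315418510) (nat_lit 0) (nat_lit 280594702) (nat_lit 1064) (nat_lit 5829497550) (nat_lit 306) (nat_lit 5) (nat_lit 305) (nat_lit 5) (nat_lit 319) (nat_lit 5) (nat_lit 364) (nat_lit 359) (nat_lit 297)) (XT.lf (nat_lit 0) (nat_lit 3886980392) (nat_lit 988) (nat_lit 1831982326) (nat_lit 1064) (nat_lit 2804377025) (nat_lit 306) (nat_lit 5) (nat_lit 319) (nat_lit 5) (nat_lit 320) (nat_lit 5) (nat_lit 365) (nat_lit 359) (nat_lit 296))))) (XT.nd (nat_lit 234) (nat_lit 988) (nat_lit 0) (XT.nd (nat_lit 78) (nat_lit 0) (nat_lit 76) (XT.lf (nat_lit 76) (nat_lit 2596635225) (nat_lit 0) (nat_lit 2606804450) (nat_lit 1064) (nat_lit 3421076307) (nat_lit 307) (nat_lit 5) (nat_lit 306) (nat_lit 5) (nat_lit 320) (nat_lit 5) (nat_lit 366) (nat_lit 359) (nat_lit 295)) (XT.nd (nat_lit 78) (nat_lit 0) (nat_lit 0) (XT.lf (nat_lit 0) (nat_lit 6543943521) (nat_lit 988) (nat_lit 1565276304) (nat_lit 1064)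 (nat_lit 619985997) (nat_lit 307) (nat_lit 5) (nat_lit 320) (nat_lit 5) (nat_lit 321) (nat_lit 5) (nat_lit 367) (nat_lit 359) (nat_lit 294)) (XT.lf (nat_lit 76) (nat_lit 3038642150) (nat_lit 0) (nat_lit 4902314262) (nat_lit 1064) (nat_lit 895605531) (nat_lit 308) (nat_lit 5) (nat_lit 307) (nat_lit 5) (nat_lit 321) (nat_lit 5) (nat_lit 368) (nat_lit 359) (nat_lit 293)))) (XT.nd (nat_lit 156) (nat_lit 0) (nat_lit 76) (XT.nd (nat_lit 78) (nat_lit 0) (nat_lit 76) (XT.lf (nat_lit 0) (nat_lit 402025586) (nat_lit 1064) (nat_lit 1164784202) (nat_lit 1140) (nat_lit 7380885876) (nat_lit 293) (nat_lit 5) (nat_lit 307) (nat_lit 5) (nat_lit 308) (nat_lit 5) (nat_lit 369) (nat_lit 359) (nat_lit 292)) (XT.lf (nat_lit 0) (nat_lit 1736998151) (nat_lit 1064) (nat_lit 5436693339) (nat_lit 1140) (nat_lit 1887726667) (nat_lit 294) (nat_lit 5) (nat_lit 308) (nat_lit 5) (nat_lit 309) (nat_lit 5) (nat_lit 370) (nat_lit 359) (nat_lit 291)))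 (XT.nd (nat_lit 78) (nat_lit 0) (nat_lit 0) (XT.lf (nat_lit 0) (nat_lit 3103230134) (nat_lit 1064) (nat_lit 638778891) (nat_lit 1140) (nat_lit 5436819790) (nat_lit 294) (nat_lit 5) (nat_lit 308) (nat_lit 5) (nat_lit 309) (nat_lit 5) (nat_lit 371) (nat_lit 359) (nat_lit 290)) (XT.lf (nat_lit 76) (nat_lit 4362228748) (nat_lit 0) (nat_lit 155025341) (nat_lit 1140) (nat_lit 4782315978) (nat_lit 295) (nat_lit 5) (nat_lit 294) (nat_lit 5) (nat_lit 309) (nat_lit 5) (nat_lit 372) (nat_lit 359) (nat_lit 289)))))) (XT.nd (nat_lit 546) (nat_lit 2508) (nat_lit 0) (XT.nd (nat_lit 234) (nat_lit 2432) (nat_lit 0) (XT.nd (nat_lit 78) (nat_lit 988) (nat_lit 0) (XT.lf (nat_lit 76) (nat_lit 42524250) (nat_lit 0) (nat_lit 5937853666) (nat_lit 1140) (nat_lit 3443367332) (nat_lit 296) (nat_lit 5) (nat_lit 295) (nat_lit 5) (nat_lit 310) (nat_lit 5) (nat_lit 373) (nat_lit 359) (nat_lit 288)) (XT.nd (nat_lit 78) (nat_lit 988) (nat_lit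 0) (XT.lf (nat_lit 76) (nat_lit 5244856003) (nat_lit 0) (nat_lit 2260391038) (nat_lit 1140) (nat_lit 2045874805) (nat_lit 296) (nat_lit 5) (nat_lit 295) (nat_lit 5) (nat_lit 310) (nat_lit 5) (nat_lit 374) (nat_lit 359) (nat_lit 287)) (XT.lf (nat_lit 0) (nat_lit 896903854) (nat_lit 1064) (nat_lit 8169777846) (nat_lit 1140) (nat_lit 615924831) (nat_lit 282) (nat_lit 5) (nat_lit 296) (nat_lit 5) (nat_lit 297) (nat_lit 5) (nat_lit 375) (nat_lit 359) (nat_lit 286)))) (XT.nd (nat_lit 156) (nat_lit 1216) (nat_lit 0) (XT.nd (nat_lit 78) (nat_lit 1140) (nat_lit 0) (XT.lf (nat_lit 0) (nat_lit 874378006) (nat_lit 1140) (nat_lit 3530576631) (nat_lit 76) (nat_lit 5411819438) (nat_lit 281) (nat_lit 5) (nat_lit 296) (nat_lit 5) (nat_lit 282) (nat_lit 5) (nat_lit 376) (nat_lit 359) (nat_lit 285)) (XT.lf (nat_lit 0) (nat_lit 1886469797) (nat_lit 1140) (nat_lit 497490613) (nat_lit 1216) (nat_lit 7571225194) (nat_lit 266) (nat_lit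 5) (nat_lit 281) (nat_lit 5) (nat_lit 282) (nat_lit 5) (nat_lit 377) (nat_lit 359) (nat_lit 284))) (XT.nd (nat_lit 78) (nat_lit 1216) (nat_lit 0) (XT.lf (nat_lit 0) (nat_lit 3978255067) (nat_lit 1216) (nat_lit 2619692825) (nat_lit 76) (nat_lit 3498628947) (nat_lit 266) (nat_lit 5) (nat_lit 282) (nat_lit 5) (nat_lit 267) (nat_lit 5) (nat_lit 378) (nat_lit 359) (nat_lit 283)) (XT.lf (nat_lit 0) (nat_lit 3020450688) (nat_lit 1216) (nat_lit 2604290188) (nat_lit 1292) (nat_lit 4617347873) (nat_lit 250) (nat_lit 5) (nat_lit 266) (nat_lit 5) (nat_lit 267) (nat_lit 5) (nat_lit 379) (nat_lit 359) (nat_lit 282))))) (XT.nd (nat_lit 312) (nat_lit 1140) (nat_lit 0) (XT.nd (nat_lit 156) (nat_lit 684) (nat_lit 0) (XT.nd (nat_lit 78) (nat_lit 684) (nat_lit 0) (XT.lf (nat_lit 0) (nat_lit 7332885136) (nat_lit 1292) (nat_lit 1549454536) (nat_lit 76) (nat_lit 1509267952) (nat_lit 250) (nat_lit 5) (nat_lit 267) (nat_lit 5) (nat_lit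 251) (nat_lit 5) (nat_lit 380) (nat_lit 359) (nat_lit 281)) (XT.lf (nat_lit 0) (nat_lit 4325285398) (nat_lit 684) (nat_lit 4806235189) (nat_lit 760) (nat_lit 1412923318) (nat_lit 241) (nat_lit 5) (nat_lit 250) (nat_lit 5) (nat_lit 251) (nat_lit 5) (nat_lit 381) (nat_lit 359) (nat_lit 280))) (XT.nd (nat_lit 78) (nat_lit 608) (nat_lit 0) (XT.lf (nat_lit 0) (nat_lit 264715743) (nat_lit 760) (nat_lit 322765489) (nat_lit 76) (nat_lit 10114672153) (nat_lit 240) (nat_lit 5) (nat_lit 250) (nat_lit 5) (nat_lit 241) (nat_lit 5) (nat_lit 382) (nat_lit 359) (nat_lit 279)) (XT.lf (nat_lit 0) (nat_lit 2030083901) (nat_lit 684) (nat_lit 5075714446) (nat_lit 76) (nat_lit 3756410635) (nat_lit 232) (nat_lit 5) (nat_lit 241) (nat_lit 5) (nat_lit 233) (nat_lit 5) (nat_lit 383) (nat_lit 359) (nat_lit 278)))) (XT.nd (nat_lit 156) (nat_lit 532) (nat_lit 0) (XT.nd (nat_lit 78) (nat_lit 0) (nat_lit 0) (XT.lf (nat_lit 0) (nat_lit 1046943115)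 (nat_lit 608) (nat_lit 2794175884) (nat_lit 684) (nat_lit 7186174286) (nat_lit 224) (nat_lit 5) (nat_lit 232) (nat_lit 5) (nat_lit 233) (nat_lit 5) (nat_lit 384) (nat_lit 359) (nat_lit 277)) (XT.lf (nat_lit 0) (nat_lit 5748130474) (nat_lit 684) (nat_lit 3781647482) (nat_lit 76) (nat_lit 1666310777) (nat_lit 224) (nat_lit 5) (nat_lit 233) (nat_lit 5) (nat_lit 225) (nat_lit 5) (nat_lit 385) (nat_lit 359) (nat_lit 276))) (XT.nd (nat_lit 78) (nat_lit 0) (nat_lit 0) (XT.lf (nat_lit 0) (nat_lit 2600023797) (nat_lit 532) (nat_lit 5139795440) (nat_lit 608) (nat_lit 3629312541) (nat_lit 217) (nat_lit 5) (nat_lit 224) (nat_lit 5) (nat_lit 225) (nat_lit 5) (nat_lit 386) (nat_lit 359) (nat_lit 275)) (XT.lf (nat_lit 0) (nat_lit 9224857595) (nat_lit 532) (nat_lit 579882757) (nat_lit 608) (nat_lit 1742228830) (nat_lit 217) (nat_lit 5) (nat_lit 224) (nat_lit 5) (nat_lit 225) (nat_lit 5) (nat_lit 387) (nat_lit 359) (nat_lit 274))))))))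
noncomputable def xc147 : XT := (XT.nd (nat_lit 2262) (nat_lit 3952) (nat_lit 0) (XT.nd (nat_lit 1092) (nat_lit 3268) (nat_lit 0) (XT.nd (nat_lit 546) (nat_lit 1824) (nat_lit 0) (XT.nd (nat_lit 234) (nat_lit 1064) (nat_lit 0) (XT.nd (nat_lit 78) (nat_lit 456) (nat_lit 0) (XT.lf (nat_lit 0) (nat_lit 255368730) (nat_lit 608) (nat_lit 7393343786) (nat_lit 76) (nat_lit 4079643198) (nat_lit 209) (nat_lit 5) (nat_lit 217) (nat_lit 5) (nat_lit 210) (nat_lit 5) (nat_lit 388) (nat_lit 359) (nat_lit 273)) (XT.nd (nat_lit 78) (nat_lit 456) (nat_lit 0) (XT.lf (nat_lit 0) (nat_lit 2283516817) (nat_lit 608) (nat_lit 724253715) (nat_lit 76) (nat_lit 8906733506) (nat_lit 209) (nat_lit 5) (nat_lit 217) (nat_lit 5) (nat_lit 210) (nat_lit 5) (nat_lit 389) (nat_lit 359) (nat_lit 272)) (XT.lf (nat_lit 0) (nat_lit 4427026815) (nat_lit 532) (nat_lit 5881287439) (nat_lit 76) (nat_lit 1796293712) (nat_lit 203) (nat_lit 5) (nat_lit 210)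 (nat_lit 5) (nat_lit 204) (nat_lit 5) (nat_lit 390) (nat_lit 359) (nat_lit 271)))) (XT.nd (nat_lit 156) (nat_lit 532) (nat_lit 0) (XT.nd (nat_lit 78) (nat_lit 0) (nat_lit 0) (XT.lf (nat_lit 0) (nat_lit 1059128873) (nat_lit 532) (nat_lit 5600379895) (nat_lit 608) (nat_lit 5640172730) (nat_lit 196) (nat_lit 5) (nat_lit 203) (nat_lit 5) (nat_lit 204) (nat_lit 5) (nat_lit 391) (nat_lit 359) (nat_lit 270)) (XT.lf (nat_lit 0) (nat_lit 8302910753) (nat_lit 532) (nat_lit 693180055) (nat_lit 608) (nat_lit 3503408954) (nat_lit 196) (nat_lit 5) (nat_lit 203) (nat_lit 5) (nat_lit 204) (nat_lit 5) (nat_lit 392) (nat_lit 359) (nat_lit 269))) (XT.nd (nat_lit 78) (nat_lit 76) (nat_lit 0) (XT.lf (nat_lit 0) (nat_lit 3051014164) (nat_lit 456) (nat_lit 8401362504) (nat_lit 532) (nat_lit 1251453828) (nat_lit 190) (nat_lit 5) (nat_lit 196) (nat_lit 5) (nat_lit 197) (nat_lit 5) (nat_lit 393) (nat_lit 359) (nat_lit 268)) (XT.lf (nat_lit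 0) (nat_lit 1075407019) (nat_lit 532) (nat_lit 2353975903) (nat_lit 76) (nat_lit 9483760323) (nat_lit 189) (nat_lit 5) (nat_lit 196) (nat_lit 5) (nat_lit 190) (nat_lit 5) (nat_lit 394) (nat_lit 359) (nat_lit 267))))) (XT.nd (nat_lit 234) (nat_lit 912) (nat_lit 0) (XT.nd (nat_lit 78) (nat_lit 456) (nat_lit 0) (XT.lf (nat_lit 0) (nat_lit 3493181704) (nat_lit 532) (nat_lit 7915597145) (nat_lit 76) (nat_lit 1718202573) (nat_lit 183) (nat_lit 5) (nat_lit 190) (nat_lit 5) (nat_lit 184) (nat_lit 5) (nat_lit 395) (nat_lit 359) (nat_lit 266)) (XT.nd (nat_lit 78) (nat_lit 456) (nat_lit 0) (XT.lf (nat_lit 0) (nat_lit 6020936969) (nat_lit 532) (nat_lit 353826117) (nat_lit 76) (nat_lit 6971353669) (nat_lit 183) (nat_lit 5) (nat_lit 190) (nat_lit 5) (nat_lit 184) (nat_lit 5) (nat_lit 396) (nat_lit 359) (nat_lit 265)) (XT.lf (nat_lit 0) (nat_lit 7557936612) (nat_lit 456) (nat_lit 1119324410) (nat_lit 532) (nat_lit 4892988314)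 (nat_lit 177) (nat_lit 5) (nat_lit 183) (nat_lit 5) (nat_lit 184) (nat_lit 5) (nat_lit 397) (nat_lit 359) (nat_lit 264)))) (XT.nd (nat_lit 156) (nat_lit 380) (nat_lit 0) (XT.nd (nat_lit 78) (nat_lit 76) (nat_lit 0) (XT.lf (nat_lit 0) (nat_lit 1884108729) (nat_lit 456) (nat_lit 9572549355) (nat_lit 532) (nat_lit 2343151430) (nat_lit 171) (nat_lit 5) (nat_lit 177) (nat_lit 5) (nat_lit 178) (nat_lit 5) (nat_lit 398) (nat_lit 359) (nat_lit 263)) (XT.lf (nat_lit 0) (nat_lit 330580944) (nat_lit 532) (nat_lit 3932975861) (nat_lit 76) (nat_lit 9771035068) (nat_lit 170) (nat_lit 5) (nat_lit 177) (nat_lit 5) (nat_lit 171) (nat_lit 5) (nat_lit 399) (nat_lit 359) (nat_lit 262))) (XT.nd (nat_lit 78) (nat_lit 0) (nat_lit 0) (XT.lf (nat_lit 0) (nat_lit 3072287281) (nat_lit 456) (nat_lit 9960845474) (nat_lit 76) (nat_lit 1241547937) (nat_lit 165) (nat_lit 5) (nat_lit 171) (nat_lit 5) (nat_lit 166) (nat_lit 5) (nat_lit 400) (nat_lit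 359) (nat_lit 261)) (XT.lf (nat_lit 0) (nat_lit 5959934784) (nat_lit 456) (nat_lit 1699071859) (nat_lit 76) (nat_lit 6861059379) (nat_lit 165) (nat_lit 5) (nat_lit 171) (nat_lit 5) (nat_lit 166) (nat_lit 5) (nat_lit 401) (nat_lit 359) (nat_lit 260)))))) (XT.nd (nat_lit 546) (nat_lit 1748) (nat_lit 0) (XT.nd (nat_lit 234) (nat_lit 684) (nat_lit 0) (XT.nd (nat_lit 78) (nat_lit 456) (nat_lit 0) (XT.lf (nat_lit 0) (nat_lit 6921979887) (nat_lit 380) (nat_lit 2060680787) (nat_lit 456) (nat_lit 5788703188) (nat_lit 160) (nat_lit 5) (nat_lit 165) (nat_lit 5) (nat_lit 166) (nat_lit 5) (nat_lit 402) (nat_lit 359) (nat_lit 259)) (XT.nd (nat_lit 78) (nat_lit 76) (nat_lit 0) (XT.lf (nat_lit 0) (nat_lit 761985536) (nat_lit 380) (nat_lit 11376513426) (nat_lit 456) (nat_lit 2890433041) (nat_lit 155) (nat_lit 5) (nat_lit 160) (nat_lit 5) (nat_lit 161) (nat_lit 5) (nat_lit 403) (nat_lit 359) (nat_lit 258)) (XT.lf (nat_lit 0) (nat_lit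 175659235) (nat_lit 456) (nat_lit 5545369519) (nat_lit 76) (nat_lit 9570693434) (nat_lit 154) (nat_lit 5) (nat_lit 160) (nat_lit 5) (nat_lit 155) (nat_lit 5) (nat_lit 404) (nat_lit 359) (nat_lit 257)))) (XT.nd (nat_lit 156) (nat_lit 304) (nat_lit 0) (XT.nd (nat_lit 78) (nat_lit 0) (nat_lit 0) (XT.lf (nat_lit 0) (nat_lit 3293177809) (nat_lit 456) (nat_lit 12109315812) (nat_lit 76) (nat_lit 158521685) (nat_lit 149) (nat_lit 5) (nat_lit 155) (nat_lit 5) (nat_lit 150) (nat_lit 5) (nat_lit 405) (nat_lit 359) (nat_lit 256)) (XT.lf (nat_lit 0) (nat_lit 6600426641) (nat_lit 456) (nat_lit 3085096889) (nat_lit 76) (nat_lit 6149981354) (nat_lit 149) (nat_lit 5) (nat_lit 155) (nat_lit 5) (nat_lit 150) (nat_lit 5) (nat_lit 406) (nat_lit 359) (nat_lit 255))) (XT.nd (nat_lit 78) (nat_lit 0) (nat_lit 0) (XT.lf (nat_lit 0) (nat_lit 6310121079) (nat_lit 304) (nat_lit 3740932548) (nat_lit 380) (nat_lit 6065854401) (nat_lit 145) (nat_lit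 5) (nat_lit 149) (nat_lit 5) (nat_lit 150) (nat_lit 5) (nat_lit 407) (nat_lit 359) (nat_lit 254)) (XT.lf (nat_lit 0) (nat_lit 13643263771) (nat_lit 380) (nat_lit 401652888) (nat_lit 76) (nat_lit 2360698267) (nat_lit 145) (nat_lit 5) (nat_lit 150) (nat_lit 5) (nat_lit 146) (nat_lit 5) (nat_lit 408) (nat_lit 359) (nat_lit 253))))) (XT.nd (nat_lit 312) (nat_lit 684) (nat_lit 0) (XT.nd (nat_lit 156) (nat_lit 304) (nat_lit 0) (XT.nd (nat_lit 78) (nat_lit 304) (nat_lit 0) (XT.lf (nat_lit 0) (nat_lit 740537473) (nat_lit 456) (nat_lit 7297074563) (nat_lit 76) (nat_lit 8661806523) (nat_lit 139) (nat_lit 5) (nat_lit 145) (nat_lit 5) (nat_lit 140) (nat_lit 5) (nat_lit 409) (nat_lit 359) (nat_lit 252)) (XT.lf (nat_lit 0) (nat_lit 2505795989) (nat_lit 304) (nat_lit 1799649551) (nat_lit 380) (nat_lit 12695399948) (nat_lit 135) (nat_lit 5) (nat_lit 139) (nat_lit 5) (nat_lit 140) (nat_lit 5) (nat_lit 410) (nat_lit 359) (nat_lit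 251))) (XT.nd (nat_lit 78) (nat_lit 304) (nat_lit 0) (XT.lf (nat_lit 0) (nat_lit 8080628096) (nat_lit 380) (nat_lit 4624634004) (nat_lit 76) (nat_lit 4602956497) (nat_lit 135) (nat_lit 5) (nat_lit 140) (nat_lit 5) (nat_lit 136) (nat_lit 5) (nat_lit 411) (nat_lit 359) (nat_lit 250)) (XT.lf (nat_lit 0) (nat_lit 5611565202) (nat_lit 304) (nat_lit 6414162842) (nat_lit 380) (nat_lit 5597388094) (nat_lit 131) (nat_lit 5) (nat_lit 135) (nat_lit 5) (nat_lit 136) (nat_lit 5) (nat_lit 412) (nat_lit 359) (nat_lit 249)))) (XT.nd (nat_lit 156) (nat_lit 304) (nat_lit 0) (XT.nd (nat_lit 78) (nat_lit 380) (nat_lit 0) (XT.lf (nat_lit 0) (nat_lit 16122039794) (nat_lit 380) (nat_lit 1719681322) (nat_lit 76) (nat_lit 104756733) (nat_lit 131) (nat_lit 5) (nat_lit 136) (nat_lit 5) (nat_lit 132) (nat_lit 5) (nat_lit 413) (nat_lit 359) (nat_lit 248)) (XT.lf (nat_lit 0) (nat_lit 2158046792) (nat_lit 380) (nat_lit 9325682781) (nat_lit 76)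 (nat_lit 6791121798) (nat_lit 126) (nat_lit 5) (nat_lit 131) (nat_lit 5) (nat_lit 127) (nat_lit 5) (nat_lit 414) (nat_lit 359) (nat_lit 247))) (XT.nd (nat_lit 78) (nat_lit 0) (nat_lit 0) (XT.lf (nat_lit 0) (nat_lit 1347222431) (nat_lit 304) (nat_lit 4892175623) (nat_lit 380) (nat_lit 12372657044) (nat_lit 122) (nat_lit 5) (nat_lit 126) (nat_lit 5) (nat_lit 127) (nat_lit 5) (nat_lit 415) (nat_lit 359) (nat_lit 246)) (XT.lf (nat_lit 0) (nat_lit 10542248660) (nat_lit 380) (nat_lit 6465996117) (nat_lit 76) (nat_lit 1948161068) (nat_lit 122) (nat_lit 5) (nat_lit 127) (nat_lit 5) (nat_lit 123) (nat_lit 5) (nat_lit 416) (nat_lit 359) (nat_lit 245))))))) (XT.nd (nat_lit 1092) (nat_lit 1824) (nat_lit 0) (XT.nd (nat_lit 546) (nat_lit 988) (nat_lit 0) (XT.nd (nat_lit 234) (nat_lit 532) (nat_lit 0) (XT.nd (nat_lit 78) (nat_lit 380) (nat_lit 0) (XT.lf (nat_lit 0) (nat_lit 4678537286) (nat_lit 228) (nat_lit 10375192776) (nat_lit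 304) (nat_lit 4254973288) (nat_lit 119) (nat_lit 5) (nat_lit 122) (nat_lit 5) (nat_lit 123) (nat_lit 5) (nat_lit 417) (nat_lit 359) (nat_lit 244)) (XT.nd (nat_lit 78) (nat_lit 304) (nat_lit 0) (XT.lf (nat_lit 0) (nat_lit 80560803) (nat_lit 304) (nat_lit 3401778748) (nat_lit 76) (nat_lit 16187660107) (nat_lit 118) (nat_lit 5) (nat_lit 122) (nat_lit 5) (nat_lit 119) (nat_lit 5) (nat_lit 418) (nat_lit 359) (nat_lit 243)) (XT.lf (nat_lit 0) (nat_lit 4562567319) (nat_lit 380) (nat_lit 11812824838) (nat_lit 76) (nat_lit 3662423404) (nat_lit 114) (nat_lit 5) (nat_lit 119) (nat_lit 5) (nat_lit 115) (nat_lit 5) (nat_lit 419) (nat_lit 359) (nat_lit 242)))) (XT.nd (nat_lit 156) (nat_lit 304) (nat_lit 0) (XT.nd (nat_lit 78) (nat_lit 228) (nat_lit 0) (XT.lf (nat_lit 0) (nat_lit 9234931344) (nat_lit 380) (nat_lit 200864020) (nat_lit 76) (nat_lit 10979195960) (nat_lit 114) (nat_lit 5) (nat_lit 119) (nat_lit 5) (nat_lit 115) (nat_lit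 5) (nat_lit 420) (nat_lit 359) (nat_lit 241)) (XT.lf (nat_lit 0) (nat_lit 11972988543) (nat_lit 228) (nat_lit 2176683320) (nat_lit 304) (nat_lit 6650746569) (nat_lit 111) (nat_lit 5) (nat_lit 114) (nat_lit 5) (nat_lit 115) (nat_lit 5) (nat_lit 421) (nat_lit 359) (nat_lit 240))) (XT.nd (nat_lit 78) (nat_lit 76) (nat_lit 0) (XT.lf (nat_lit 0) (nat_lit 3312272079) (nat_lit 228) (nat_lit 15971647912) (nat_lit 304) (nat_lit 1911328573) (nat_lit 108) (nat_lit 5) (nat_lit 111) (nat_lit 5) (nat_lit 112) (nat_lit 5) (nat_lit 422) (nat_lit 359) (nat_lit 239)) (XT.lf (nat_lit 0) (nat_lit 3011166271) (nat_lit 304) (nat_lit 5673393648) (nat_lit 76) (nat_lit 12913543515) (nat_lit 107) (nat_lit 5) (nat_lit 111) (nat_lit 5) (nat_lit 108) (nat_lit 5) (nat_lit 423) (nat_lit 359) (nat_lit 238))))) (XT.nd (nat_lit 234) (nat_lit 532) (nat_lit 0) (XT.nd (nat_lit 78) (nat_lit 228) (nat_lit 0) (XT.lf (nat_lit 0) (nat_lit 7000470574) (nat_lit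 228) (nat_lit 1097394212) (nat_lit 304) (nat_lit 13912965092) (nat_lit 104) (nat_lit 5) (nat_lit 107) (nat_lit 5) (nat_lit 108) (nat_lit 5) (nat_lit 424) (nat_lit 359) (nat_lit 237)) (XT.nd (nat_lit 78) (nat_lit 228) (nat_lit 0) (XT.lf (nat_lit 0) (nat_lit 13447347030) (nat_lit 304) (nat_lit 2348298849) (nat_lit 76) (nat_lit 6636988682) (nat_lit 104) (nat_lit 5) (nat_lit 108) (nat_lit 5) (nat_lit 105) (nat_lit 5) (nat_lit 425) (nat_lit 359) (nat_lit 236)) (XT.lf (nat_lit 0) (nat_lit 10875769674) (nat_lit 228) (nat_lit 8185064358) (nat_lit 304) (nat_lit 3803155619) (nat_lit 101) (nat_lit 5) (nat_lit 104) (nat_lit 5) (nat_lit 105) (nat_lit 5) (nat_lit 426) (nat_lit 359) (nat_lit 235)))) (XT.nd (nat_lit 156) (nat_lit 228) (nat_lit 0) (XT.nd (nat_lit 78) (nat_lit 0) (nat_lit 0) (XT.lf (nat_lit 0) (nat_lit 1226815905) (nat_lit 228) (nat_lit 301578771) (nat_lit 304) (nat_lit 21778733077) (nat_lit 97) (nat_lit 5) (nat_lit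 100) (nat_lit 5) (nat_lit 101) (nat_lit 5) (nat_lit 427) (nat_lit 359) (nat_lit 234)) (XT.lf (nat_lit 0) (nat_lit 7129109821) (nat_lit 304) (nat_lit 8809242890) (nat_lit 76) (nat_lit 7818509613) (nat_lit 97) (nat_lit 5) (nat_lit 101) (nat_lit 5) (nat_lit 98) (nat_lit 5) (nat_lit 428) (nat_lit 359) (nat_lit 233))) (XT.nd (nat_lit 78) (nat_lit 0) (nat_lit 0) (XT.lf (nat_lit 0) (nat_lit 4934469948) (nat_lit 228) (nat_lit 8002384421) (nat_lit 304) (nat_lit 11282065988) (nat_lit 94) (nat_lit 5) (nat_lit 97) (nat_lit 5) (nat_lit 98) (nat_lit 5) (nat_lit 429) (nat_lit 359) (nat_lit 232)) (XT.lf (nat_lit 0) (nat_lit 18998989944) (nat_lit 304) (nat_lit 5442503324) (nat_lit 76) (nat_lit 250943720) (nat_lit 94) (nat_lit 5) (nat_lit 98) (nat_lit 5) (nat_lit 95) (nat_lit 5) (nat_lit 430) (nat_lit 359) (nat_lit 231)))))) (XT.nd (nat_lit 546) (nat_lit 912) (nat_lit 0) (XT.nd (nat_lit 234) (nat_lit 456) (nat_lit 0) (XT.nd (nat_lit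 78) (nat_lit 228) (nat_lit 0) (XT.lf (nat_lit 0) (nat_lit 216820020) (nat_lit 228) (nat_lit 16287042821) (nat_lit 76) (nat_lit 8671623212) (nat_lit 91) (nat_lit 5) (nat_lit 94) (nat_lit 5) (nat_lit 92) (nat_lit 5) (nat_lit 431) (nat_lit 359) (nat_lit 230)) (XT.nd (nat_lit 78) (nat_lit 228) (nat_lit 0) (XT.lf (nat_lit 0) (nat_lit 6234503842) (nat_lit 228) (nat_lit 1985774754) (nat_lit 76) (nat_lit 17449722109) (nat_lit 91) (nat_lit 5) (nat_lit 94) (nat_lit 5) (nat_lit 92) (nat_lit 5) (nat_lit 432) (nat_lit 359) (nat_lit 229)) (XT.lf (nat_lit 0) (nat_lit 12551011242) (nat_lit 304) (nat_lit 13200105551) (nat_lit 76) (nat_lit 424686649) (nat_lit 88) (nat_lit 5) (nat_lit 92) (nat_lit 5) (nat_lit 89) (nat_lit 5) (nat_lit 433) (nat_lit 359) (nat_lit 228)))) (XT.nd (nat_lit 156) (nat_lit 304) (nat_lit 0) (XT.nd (nat_lit 78) (nat_lit 0) (nat_lit 0) (XT.lf (nat_lit 0) (nat_lit 1663512035) (nat_lit 152) (nat_lit 17500561755)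 (nat_lit 228) (nat_lit 7529496067) (nat_lit 86) (nat_lit 5) (nat_lit 88) (nat_lit 5) (nat_lit 89) (nat_lit 5) (nat_lit 434) (nat_lit 359) (nat_lit 227)) (XT.lf (nat_lit 0) (nat_lit 17225898795) (nat_lit 152) (nat_lit 8872491432) (nat_lit 228) (nat_lit 1124794529) (nat_lit 86) (nat_lit 5) (nat_lit 88) (nat_lit 5) (nat_lit 89) (nat_lit 5) (nat_lit 435) (nat_lit 359) (nat_lit 226))) (XT.nd (nat_lit 78) (nat_lit 0) (nat_lit 0) (XT.lf (nat_lit 0) (nat_lit 5409256390) (nat_lit 304) (nat_lit 22242692042) (nat_lit 76) (nat_lit 113843297) (nat_lit 82) (nat_lit 5) (nat_lit 86) (nat_lit 5) (nat_lit 83) (nat_lit 5) (nat_lit 436) (nat_lit 359) (nat_lit 225)) (XT.lf (nat_lit 0) (nat_lit 12296353177) (nat_lit 304) (nat_lit 6725081251) (nat_lit 76) (nat_lit 9297520675) (nat_lit 82) (nat_lit 5) (nat_lit 86) (nat_lit 5) (nat_lit 83) (nat_lit 5) (nat_lit 437) (nat_lit 359) (nat_lit 224))))) (XT.nd (nat_lit 312) (nat_lit 380) (nat_lit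 0) (XT.nd (nat_lit 156) (nat_lit 380) (nat_lit 0) (XT.nd (nat_lit 78) (nat_lit 0) (nat_lit 0) (XT.lf (nat_lit 0) (nat_lit 9425000922) (nat_lit 152) (nat_lit 10045789582) (nat_lit 228) (nat_lit 9415502249) (nat_lit 80) (nat_lit 5) (nat_lit 82) (nat_lit 5) (nat_lit 83) (nat_lit 5) (nat_lit 438) (nat_lit 359) (nat_lit 223)) (XT.lf (nat_lit 0) (nat_lit 26180636878) (nat_lit 152) (nat_lit 737988931) (nat_lit 228) (nat_lit 2550280945) (nat_lit 80) (nat_lit 5) (nat_lit 82) (nat_lit 5) (nat_lit 83) (nat_lit 5) (nat_lit 439) (nat_lit 359) (nat_lit 222))) (XT.nd (nat_lit 78) (nat_lit 152) (nat_lit 0) (XT.lf (nat_lit 0) (nat_lit 4640329629) (nat_lit 228) (nat_lit 16575914697) (nat_lit 76) (nat_lit 8845222673) (nat_lit 77) (nat_lit 5) (nat_lit 80) (nat_lit 5) (nat_lit 78) (nat_lit 5) (nat_lit 440) (nat_lit 359) (nat_lit 221)) (XT.lf (nat_lit 0) (nat_lit 111921781) (nat_lit 152) (nat_lit 11915893691) (nat_lit 228) (nat_lit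 18642259686) (nat_lit 75) (nat_lit 5) (nat_lit 77) (nat_lit 5) (nat_lit 78) (nat_lit 5) (nat_lit 441) (nat_lit 359) (nat_lit 220)))) (XT.nd (nat_lit 156) (nat_lit 228) (nat_lit 0) (XT.nd (nat_lit 78) (nat_lit 152) (nat_lit 0) (XT.lf (nat_lit 0) (nat_lit 17623781862) (nat_lit 152) (nat_lit 2171145893) (nat_lit 228) (nat_lit 11497274788) (nat_lit 75) (nat_lit 5) (nat_lit 77) (nat_lit 5) (nat_lit 78) (nat_lit 5) (nat_lit 442) (nat_lit 359) (nat_lit 219)) (XT.lf (nat_lit 0) (nat_lit 3708627860) (nat_lit 152) (nat_lit 24188512811) (nat_lit 228) (nat_lit 4032791468) (nat_lit 73) (nat_lit 5) (nat_lit 75) (nat_lit 5) (nat_lit 76) (nat_lit 5) (nat_lit 443) (nat_lit 359) (nat_lit 218))) (XT.nd (nat_lit 78) (nat_lit 152) (nat_lit 0) (XT.lf (nat_lit 0) (nat_lit 3736027621) (nat_lit 228) (nat_lit 10769636475) (nat_lit 76) (nat_lit 18075524202) (nat_lit 72) (nat_lit 5) (nat_lit 75) (nat_lit 5) (nat_lit 73) (nat_lit 5) (nat_lit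 444) (nat_lit 359) (nat_lit 217)) (XT.lf (nat_lit 0) (nat_lit 7292264206) (nat_lit 152) (nat_lit 4425804608) (nat_lit 228) (nat_lit 21530880011) (nat_lit 70) (nat_lit 5) (nat_lit 72) (nat_lit 5) (nat_lit 73) (nat_lit 5) (nat_lit 445) (nat_lit 359) (nat_lit 216))))))))
noncomputable def xc148 : XT := (XT.nd (nat_lit 2184) (nat_lit 760) (nat_lit 0) (XT.nd (nat_lit 1092) (nat_lit 988) (nat_lit 0) (XT.nd (nat_lit 546) (nat_lit 456) (nat_lit 0) (XT.nd (nat_lit 234) (nat_lit 532) (nat_lit 0) (XT.nd (nat_lit 78) (nat_lit 228) (nat_lit 0) (XT.lf (nat_lit 0) (nat_lit 20097816718) (nat_lit 228) (nat_lit 7890756787) (nat_lit 76) (nat_lit 5943422195) (nat_lit 70) (nat_lit 5) (nat_lit 73) (nat_lit 5) (nat_lit 71) (nat_lit 5) (nat_lit 446) (nat_lit 359) (nat_lit 215)) (XT.nd (nat_lit 78) (nat_lit 76) (nat_lit 0) (XT.lf (nat_lit 0) (nat_lit 10870171166) (nat_lit 152) (nat_lit 17998513424) (nat_lit 228) (nat_lit 5762658432) (nat_lit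 68) (nat_lit 5) (nat_lit 70) (nat_lit 5) (nat_lit 71) (nat_lit 5) (nat_lit 447) (nat_lit 359) (nat_lit 214)) (XT.lf (nat_lit 0) (nat_lit 2573135265) (nat_lit 228) (nat_lit 5034206920) (nat_lit 76) (nat_lit 27741436537) (nat_lit 67) (nat_lit 5) (nat_lit 70) (nat_lit 5) (nat_lit 68) (nat_lit 5) (nat_lit 448) (nat_lit 359) (nat_lit 213)))) (XT.nd (nat_lit 156) (nat_lit 380) (nat_lit 0) (XT.nd (nat_lit 78) (nat_lit 0) (nat_lit 0) (XT.lf (nat_lit 0) (nat_lit 11205546166) (nat_lit 228) (nat_lit 21648816232) (nat_lit 76) (nat_lit 3226793194) (nat_lit 65) (nat_lit 5) (nat_lit 68) (nat_lit 5) (nat_lit 66) (nat_lit 5) (nat_lit 449) (nat_lit 359) (nat_lit 212)) (XT.lf (nat_lit 0) (nat_lit 20215313158) (nat_lit 228) (nat_lit 2338613135) (nat_lit 76) (nat_lit 14278026736) (nat_lit 65) (nat_lit 5) (nat_lit 68) (nat_lit 5) (nat_lit 66) (nat_lit 5) (nat_lit 450) (nat_lit 359) (nat_lit 211))) (XT.nd (nat_lit 78) (nat_lit 228) (nat_lit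 0) (XT.lf (nat_lit 0) (nat_lit 17885450043) (nat_lit 152) (nat_lit 11773814636) (nat_lit 228) (nat_lit 7941093714) (nat_lit 63) (nat_lit 5) (nat_lit 65) (nat_lit 5) (nat_lit 66) (nat_lit 5) (nat_lit 451) (nat_lit 359) (nat_lit 210)) (XT.lf (nat_lit 0) (nat_lit 355738917) (nat_lit 152) (nat_lit 638820908) (nat_lit 228) (nat_lit 37396392397) (nat_lit 60) (nat_lit 5) (nat_lit 62) (nat_lit 5) (nat_lit 63) (nat_lit 5) (nat_lit 452) (nat_lit 359) (nat_lit 209))))) (XT.nd (nat_lit 234) (nat_lit 304) (nat_lit 0) (XT.nd (nat_lit 78) (nat_lit 152) (nat_lit 0) (XT.lf (nat_lit 0) (nat_lit 10335851464) (nat_lit 228) (nat_lit 17965860947) (nat_lit 76) (nat_lit 10892278101) (nat_lit 60) (nat_lit 5) (nat_lit 63) (nat_lit 5) (nat_lit 61) (nat_lit 5) (nat_lit 453) (nat_lit 359) (nat_lit 208)) (XT.nd (nat_lit 78) (nat_lit 0) (nat_lit 0) (XT.lf (nat_lit 0) (nat_lit 2738600663) (nat_lit 152) (nat_lit 17243680633) (nat_lit 228) (nat_lit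 20038092339) (nat_lit 58) (nat_lit 5) (nat_lit 60) (nat_lit 5) (nat_lit 61) (nat_lit 5) (nat_lit 454) (nat_lit 359) (nat_lit 207)) (XT.lf (nat_lit 0) (nat_lit 24418530438) (nat_lit 152) (nat_lit 5673334601) (nat_lit 228) (nat_lit 10774471028) (nat_lit 58) (nat_lit 5) (nat_lit 60) (nat_lit 5) (nat_lit 61) (nat_lit 5) (nat_lit 455) (nat_lit 359) (nat_lit 206)))) (XT.nd (nat_lit 156) (nat_lit 152) (nat_lit 0) (XT.nd (nat_lit 78) (nat_lit 76) (nat_lit 0) (XT.lf (nat_lit 0) (nat_lit 5035716410) (nat_lit 76) (nat_lit 35569954019) (nat_lit 152) (nat_lit 1128979547) (nat_lit 57) (nat_lit 5) (nat_lit 58) (nat_lit 5) (nat_lit 59) (nat_lit 4) (nat_lit 456) (nat_lit 359) (nat_lit 205)) (XT.lf (nat_lit 0) (nat_lit 8850468301) (nat_lit 152) (nat_lit 15279308207) (nat_lit 76) (nat_lit 18490205182) (nat_lit 56) (nat_lit 5) (nat_lit 58) (nat_lit 5) (nat_lit 57) (nat_lit 5) (nat_lit 457) (nat_lit 359) (nat_lit 204))) (XT.nd (nat_lit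 78) (nat_lit 0) (nat_lit 0) (XT.lf (nat_lit 0) (nat_lit 6892911030) (nat_lit 152) (nat_lit 12272693261) (nat_lit 228) (nat_lit 24364164414) (nat_lit 54) (nat_lit 5) (nat_lit 56) (nat_lit 5) (nat_lit 57) (nat_lit 5) (nat_lit 458) (nat_lit 359) (nat_lit 203)) (XT.lf (nat_lit 0) (nat_lit 29938201404) (nat_lit 228) (nat_lit 14433014649) (nat_lit 76) (nat_lit 91193627) (nat_lit 54) (nat_lit 5) (nat_lit 57) (nat_lit 5) (nat_lit 55) (nat_lit 4) (nat_lit 459) (nat_lit 359) (nat_lit 202)))))) (XT.nd (nat_lit 546) (nat_lit 380) (nat_lit 0) (XT.nd (nat_lit 234) (nat_lit 304) (nat_lit 0) (XT.nd (nat_lit 78) (nat_lit 228) (nat_lit 0) (XT.lf (nat_lit 0) (nat_lit 8467706265) (nat_lit 76) (nat_lit 32762153628) (nat_lit 152) (nat_lit 4187294026) (nat_lit 53) (nat_lit 5) (nat_lit 54) (nat_lit 5) (nat_lit 55) (nat_lit 4) (nat_lit 460) (nat_lit 359) (nat_lit 201)) (XT.nd (nat_lit 78) (nat_lit 152) (nat_lit 0) (XT.lf (nat_lit 0) (nat_lit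 6473850124) (nat_lit 152) (nat_lit 14121368605) (nat_lit 76) (nat_lit 25799254171) (nat_lit 52) (nat_lit 5) (nat_lit 54) (nat_lit 5) (nat_lit 53) (nat_lit 5) (nat_lit 461) (nat_lit 359) (nat_lit 200)) (XT.lf (nat_lit 0) (nat_lit 9523332815) (nat_lit 152) (nat_lit 7932070547) (nat_lit 228) (nat_lit 29941922777) (nat_lit 50) (nat_lit 5) (nat_lit 52) (nat_lit 5) (nat_lit 53) (nat_lit 5) (nat_lit 462) (nat_lit 359) (nat_lit 199)))) (XT.nd (nat_lit 156) (nat_lit 228) (nat_lit 0) (XT.nd (nat_lit 78) (nat_lit 76) (nat_lit 0) (XT.lf (nat_lit 0) (nat_lit 28952757332) (nat_lit 228) (nat_lit 14322299068) (nat_lit 76) (nat_lit 5149618431) (nat_lit 50) (nat_lit 5) (nat_lit 53) (nat_lit 5) (nat_lit 51) (nat_lit 4) (nat_lit 463) (nat_lit 359) (nat_lit 198)) (XT.lf (nat_lit 0) (nat_lit 10041096313) (nat_lit 76) (nat_lit 30922404110) (nat_lit 152) (nat_lit 8514289975) (nat_lit 49) (nat_lit 5) (nat_lit 50) (nat_lit 5) (nat_lit 51)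 (nat_lit 4) (nat_lit 464) (nat_lit 359) (nat_lit 197))) (XT.nd (nat_lit 78) (nat_lit 152) (nat_lit 0) (XT.lf (nat_lit 0) (nat_lit 2857454788) (nat_lit 152) (nat_lit 15169516253) (nat_lit 76) (nat_lit 32530544982) (nat_lit 48) (nat_lit 5) (nat_lit 50) (nat_lit 5) (nat_lit 49) (nat_lit 5) (nat_lit 465) (nat_lit 359) (nat_lit 196)) (XT.lf (nat_lit 0) (nat_lit 9923106212) (nat_lit 152) (nat_lit 4565117758) (nat_lit 228) (nat_lit 37176210853) (nat_lit 46) (nat_lit 5) (nat_lit 48) (nat_lit 5) (nat_lit 49) (nat_lit 5) (nat_lit 466) (nat_lit 359) (nat_lit 195))))) (XT.nd (nat_lit 234) (nat_lit 304) (nat_lit 0) (XT.nd (nat_lit 78) (nat_lit 76) (nat_lit 0) (XT.lf (nat_lit 0) (nat_lit 26705652167) (nat_lit 228) (nat_lit 16823344572) (nat_lit 76) (nat_lit 9268432785) (nat_lit 46) (nat_lit 5) (nat_lit 49) (nat_lit 5) (nat_lit 47) (nat_lit 4) (nat_lit 467) (nat_lit 359) (nat_lit 194)) (XT.nd (nat_lit 78) (nat_lit 0) (nat_lit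 0) (XT.lf (nat_lit 0) (nat_lit 8960247087) (nat_lit 76) (nat_lit 30454506042) (nat_lit 152) (nat_lit 14545906841) (nat_lit 45) (nat_lit 5) (nat_lit 46) (nat_lit 5) (nat_lit 47) (nat_lit 4) (nat_lit 468) (nat_lit 359) (nat_lit 193)) (XT.lf (nat_lit 0) (nat_lit 35850742682) (nat_lit 76) (nat_lit 16818156393) (nat_lit 152) (nat_lit 2484975488) (nat_lit 45) (nat_lit 5) (nat_lit 46) (nat_lit 5) (nat_lit 47) (nat_lit 4) (nat_lit 469) (nat_lit 359) (nat_lit 192)))) (XT.nd (nat_lit 156) (nat_lit 76) (nat_lit 0) (XT.nd (nat_lit 78) (nat_lit 0) (nat_lit 0) (XT.lf (nat_lit 0) (nat_lit 7198761714) (nat_lit 152) (nat_lit 2608307067) (nat_lit 228) (nat_lit 46571055131) (nat_lit 42) (nat_lit 5) (nat_lit 44) (nat_lit 5) (nat_lit 45) (nat_lit 5) (nat_lit 470) (nat_lit 359) (nat_lit 191)) (XT.lf (nat_lit 0) (nat_lit 22724426803) (nat_lit 228) (nat_lit 22895267409) (nat_lit 76) (nat_lit 12009473838) (nat_lit 42) (nat_lit 5) (nat_lit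 45) (nat_lit 5) (nat_lit 43) (nat_lit 4) (nat_lit 471) (nat_lit 359) (nat_lit 190))) (XT.nd (nat_lit 78) (nat_lit 0) (nat_lit 0) (XT.lf (nat_lit 0) (nat_lit 4222990192) (nat_lit 76) (nat_lit 31866933493) (nat_lit 152) (nat_lit 22826001630) (nat_lit 41) (nat_lit 5) (nat_lit 42) (nat_lit 5) (nat_lit 43) (nat_lit 4) (nat_lit 472) (nat_lit 359) (nat_lit 189)) (XT.lf (nat_lit 0) (nat_lit 32613292365) (nat_lit 76) (nat_lit 17468554563) (nat_lit 152) (nat_lit 10152674865) (nat_lit 41) (nat_lit 5) (nat_lit 42) (nat_lit 5) (nat_lit 43) (nat_lit 4) (nat_lit 473) (nat_lit 359) (nat_lit 188))))))) (XT.nd (nat_lit 44226) (nat_lit 0) (nat_lit 19912) (XT.nd (nat_lit 546) (nat_lit 304) (nat_lit 0) (XT.nd (nat_lit 234) (nat_lit 228) (nat_lit 0) (XT.nd (nat_lit 78) (nat_lit 0) (nat_lit 0) (XT.lf (nat_lit 0) (nat_lit 228572549) (nat_lit 152) (nat_lit 2612246018) (nat_lit 228) (nat_lit 58751124184) (nat_lit 38) (nat_lit 5) (nat_lit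 40) (nat_lit 5) (nat_lit 41) (nat_lit 5) (nat_lit 474) (nat_lit 359) (nat_lit 187)) (XT.nd (nat_lit 78) (nat_lit 0) (nat_lit 0) (XT.lf (nat_lit 0) (nat_lit 16418112249) (nat_lit 228) (nat_lit 33737552415) (nat_lit 76) (nat_lit 12819464712) (nat_lit 38) (nat_lit 5) (nat_lit 41) (nat_lit 5) (nat_lit 39) (nat_lit 4) (nat_lit 475) (nat_lit 359) (nat_lit 186)) (XT.lf (nat_lit 0) (nat_lit 30423142600) (nat_lit 228) (nat_lit 5319159465) (nat_lit 76) (nat_lit 28656897299) (nat_lit 38) (nat_lit 5) (nat_lit 41) (nat_lit 5) (nat_lit 39) (nat_lit 4) (nat_lit 476) (nat_lit 359) (nat_lit 185)))) (XT.nd (nat_lit 156) (nat_lit 152) (nat_lit 0) (XT.nd (nat_lit 78) (nat_lit 0) (nat_lit 0) (XT.lf (nat_lit 0) (nat_lit 24418238541) (nat_lit 76) (nat_lit 20659521023) (nat_lit 152) (nat_lit 20781349108) (nat_lit 37) (nat_lit 5) (nat_lit 38) (nat_lit 5) (nat_lit 39) (nat_lit 4) (nat_lit 477) (nat_lit 359) (nat_lit 184)) (XT.lf (nat_lit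 0) (nat_lit 55146859907) (nat_lit 76) (nat_lit 5073639356) (nat_lit 152) (nat_lit 7140861752) (nat_lit 37) (nat_lit 5) (nat_lit 38) (nat_lit 5) (nat_lit 39) (nat_lit 4) (nat_lit 478) (nat_lit 359) (nat_lit 183))) (XT.nd (nat_lit 78) (nat_lit 0) (nat_lit 0) (XT.lf (nat_lit 0) (nat_lit 7051415992) (nat_lit 152) (nat_lit 50842488980) (nat_lit 76) (nat_lit 11004462098) (nat_lit 35) (nat_lit 5) (nat_lit 37) (nat_lit 5) (nat_lit 36) (nat_lit 4) (nat_lit 479) (nat_lit 359) (nat_lit 182)) (XT.lf (nat_lit 0) (nat_lit 21695620989) (nat_lit 152) (nat_lit 21124947719) (nat_lit 76) (nat_lit 27653703315) (nat_lit 35) (nat_lit 5) (nat_lit 37) (nat_lit 5) (nat_lit 36) (nat_lit 4) (nat_lit 480) (nat_lit 359) (nat_lit 181))))) (XT.nd (nat_lit 234) (nat_lit 228) (nat_lit 0) (XT.nd (nat_lit 78) (nat_lit 0) (nat_lit 0) (XT.lf (nat_lit 0) (nat_lit 9663206280) (nat_lit 76) (nat_lit 27203868868) (nat_lit 152) (nat_lit 35227741537) (nat_lit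 34) (nat_lit 5) (nat_lit 35) (nat_lit 5) (nat_lit 36) (nat_lit 4) (nat_lit 481) (nat_lit 359) (nat_lit 180)) (XT.nd (nat_lit 78) (nat_lit 0) (nat_lit 0) (XT.lf (nat_lit 0) (nat_lit 41798661075) (nat_lit 76) (nat_lit 10903421191) (nat_lit 152) (nat_lit 21055643385) (nat_lit 34) (nat_lit 5) (nat_lit 35) (nat_lit 5) (nat_lit 36) (nat_lit 4) (nat_lit 482) (nat_lit 359) (nat_lit 179)) (XT.lf (nat_lit 0) (nat_lit 69063909894) (nat_lit 152) (nat_lit 638135331) (nat_lit 0) (nat_lit 5766923789) (nat_lit 34) (nat_lit 5) (nat_lit 36) (nat_lit 4) (nat_lit 34) (nat_lit 4) (nat_lit 483) (nat_lit 359) (nat_lit 178)))) (XT.nd (nat_lit 156) (nat_lit 76) (nat_lit 0) (XT.nd (nat_lit 78) (nat_lit 0) (nat_lit 0) (XT.lf (nat_lit 0) (nat_lit 8931809313) (nat_lit 152) (nat_lit 45174207394) (nat_lit 76) (nat_lit 23110541322) (nat_lit 32) (nat_lit 5) (nat_lit 34) (nat_lit 5) (nat_lit 33) (nat_lit 4) (nat_lit 484) (nat_lit 359) (nat_lit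 177)) (XT.lf (nat_lit 0) (nat_lit 24601891272) (nat_lit 152) (nat_lit 13372479070) (nat_lit 76) (nat_lit 41040246811) (nat_lit 32) (nat_lit 5) (nat_lit 34) (nat_lit 5) (nat_lit 33) (nat_lit 4) (nat_lit 485) (nat_lit 359) (nat_lit 176))) (XT.nd (nat_lit 78) (nat_lit 0) (nat_lit 0) (XT.lf (nat_lit 0) (nat_lit 19760204768) (nat_lit 76) (nat_lit 21167289071) (nat_lit 152) (nat_lit 39933561878) (nat_lit 31) (nat_lit 5) (nat_lit 32) (nat_lit 5) (nat_lit 33) (nat_lit 4) (nat_lit 486) (nat_lit 359) (nat_lit 175)) (XT.lf (nat_lit 0) (nat_lit 54152387919) (nat_lit 76) (nat_lit 3721032563) (nat_lit 152) (nat_lit 24885550481) (nat_lit 31) (nat_lit 5) (nat_lit 32) (nat_lit 5) (nat_lit 33) (nat_lit 4) (nat_lit 487) (nat_lit 359) (nat_lit 174)))))) (XT.nd (nat_lit 546) (nat_lit 836) (nat_lit 0) (XT.nd (nat_lit 234) (nat_lit 0) (nat_lit 76) (XT.nd (nat_lit 78) (nat_lit 988) (nat_lit 0) (XT.lf (nat_lit 0) (nat_lit 3477284058) (nat_lit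 988) (nat_lit 298469466) (nat_lit 988) (nat_lit 298469466) (nat_lit 317) (nat_lit 3) (nat_lit 330) (nat_lit 3) (nat_lit 330) (nat_lit 5) (nat_lit 360) (nat_lit 360) (nat_lit 300)) (XT.nd (nat_lit 78) (nat_lit 988) (nat_lit 0) (XT.lf (nat_lit 76) (nat_lit 3442352385) (nat_lit 0) (nat_lit 4776539001) (nat_lit 988) (nat_lit 16540441) (nat_lit 318) (nat_lit 5) (nat_lit 317) (nat_lit 3) (nat_lit 330) (nat_lit 5) (nat_lit 361) (nat_lit 360) (nat_lit 299)) (XT.lf (nat_lit 0) (nat_lit 1134207163) (nat_lit 988) (nat_lit 745359671) (nat_lit 1064) (nat_lit 6446289257) (nat_lit 304) (nat_lit 5) (nat_lit 317) (nat_lit 3) (nat_lit 318) (nat_lit 5) (nat_lit 362) (nat_lit 360) (nat_lit 298)))) (XT.nd (nat_lit 156) (nat_lit 0) (nat_lit 0) (XT.nd (nat_lit 78) (nat_lit 0) (nat_lit 0) (XT.lf (nat_lit 0) (nat_lit 2320264527) (nat_lit 988) (nat_lit 4962459261) (nat_lit 1064) (nat_lit 1136247001) (nat_lit 305) (nat_lit 5) (nat_lit 318)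 (nat_lit 5) (nat_lit 319) (nat_lit 5) (nat_lit 363) (nat_lit 360) (nat_lit 297)) (XT.lf (nat_lit 0) (nat_lit 3525983797) (nat_lit 988) (nat_lit 758176088) (nat_lit 1064) (nat_lit 4231212377) (nat_lit 305) (nat_lit 5) (nat_lit 318) (nat_lit 5) (nat_lit 319) (nat_lit 5) (nat_lit 364) (nat_lit 360) (nat_lit 296))) (XT.nd (nat_lit 78) (nat_lit 0) (nat_lit 76) (XT.lf (nat_lit 76) (nat_lit 3619013953) (nat_lit 0) (nat_lit 1142745393) (nat_lit 1064) (nat_lit 3853105174) (nat_lit 306) (nat_lit 5) (nat_lit 305) (nat_lit 5) (nat_lit 319) (nat_lit 5) (nat_lit 365) (nat_lit 360) (nat_lit 295)) (XT.lf (nat_lit 0) (nat_lit 6022676343) (nat_lit 988) (nat_lit 619222326) (nat_lit 1064) (nat_lit 2075815669) (nat_lit 306) (nat_lit 5) (nat_lit 319) (nat_lit 5) (nat_lit 320) (nat_lit 5) (nat_lit 366) (nat_lit 360) (nat_lit 294))))) (XT.nd (nat_lit 312) (nat_lit 0) (nat_lit 76) (XT.nd (nat_lit 156) (nat_lit 988) (nat_lit 0) (XT.nd (nat_lit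 78) (nat_lit 0) (nat_lit 0) (XT.lf (nat_lit 76) (nat_lit 3929825130) (nat_lit 0) (nat_lit 3402062553) (nat_lit 1064) (nat_lit 1491462365) (nat_lit 307) (nat_lit 5) (nat_lit 306) (nat_lit 5) (nat_lit 320) (nat_lit 5) (nat_lit 367) (nat_lit 360) (nat_lit 293)) (XT.lf (nat_lit 76) (nat_lit 8604024846) (nat_lit 0) (nat_lit 44874218) (nat_lit 1064) (nat_lit 284214039) (nat_lit 307) (nat_lit 5) (nat_lit 306) (nat_lit 5) (nat_lit 320) (nat_lit 5) (nat_lit 368) (nat_lit 360) (nat_lit 292))) (XT.nd (nat_lit 78) (nat_lit 0) (nat_lit 0) (XT.lf (nat_lit 0) (nat_lit 979511187) (nat_lit 1064) (nat_lit 4653832397) (nat_lit 1140) (nat_lit 3411392684) (nat_lit 293) (nat_lit 5) (nat_lit 307) (nat_lit 5) (nat_lit 308) (nat_lit 5) (nat_lit 369) (nat_lit 360) (nat_lit 291)) (XT.lf (nat_lit 76) (nat_lit 72718068) (nat_lit 0) (nat_lit 2171178073) (nat_lit 1140) (nat_lit 6916686552) (nat_lit 294) (nat_lit 5) (nat_lit 293) (nat_lit 5)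 (nat_lit 308) (nat_lit 5) (nat_lit 370) (nat_lit 360) (nat_lit 290)))) (XT.nd (nat_lit 156) (nat_lit 0) (nat_lit 0) (XT.nd (nat_lit 78) (nat_lit 0) (nat_lit 0) (XT.lf (nat_lit 0) (nat_lit 3571953296) (nat_lit 1064) (nat_lit 4281871130) (nat_lit 1140) (nat_lit 1425320292) (nat_lit 294) (nat_lit 5) (nat_lit 308) (nat_lit 5) (nat_lit 309) (nat_lit 5) (nat_lit 371) (nat_lit 360) (nat_lit 289)) (XT.lf (nat_lit 76) (nat_lit 633965596) (nat_lit 0) (nat_lit 4299373177) (nat_lit 1140) (nat_lit 4468132294) (nat_lit 295) (nat_lit 5) (nat_lit 294) (nat_lit 5) (nat_lit 309) (nat_lit 5) (nat_lit 372) (nat_lit 360) (nat_lit 288))) (XT.nd (nat_lit 78) (nat_lit 0) (nat_lit 76) (XT.lf (nat_lit 76) (nat_lit 5760088034) (nat_lit 0) (nat_lit 585365377) (nat_lit 1140) (nat_lit 3181728880) (nat_lit 295) (nat_lit 5) (nat_lit 294) (nat_lit 5) (nat_lit 309) (nat_lit 5) (nat_lit 373) (nat_lit 360) (nat_lit 287)) (XT.lf (nat_lit 76) (nat_lit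 1353293977) (nat_lit 0) (nat_lit 6458490422) (nat_lit 1140) (nat_lit 1844536238) (nat_lit 296) (nat_lit 5) (nat_lit 295) (nat_lit 5) (nat_lit 310) (nat_lit 5) (nat_lit 374) (nat_lit 360) (nat_lit 286))))))))
noncomputable def xc149 : XT := (XT.nd (nat_lit 2262) (nat_lit 5244) (nat_lit 0) (XT.nd (nat_lit 1092) (nat_lit 4332) (nat_lit 0) (XT.nd (nat_lit 546) (nat_lit 2508) (nat_lit 0) (XT.nd (nat_lit 234) (nat_lit 2356) (nat_lit 0) (XT.nd (nat_lit 78) (nat_lit 1064) (nat_lit 0) (XT.lf (nat_lit 76) (nat_lit 6673555081) (nat_lit 0) (nat_lit 2660728154) (nat_lit 1140) (nat_lit 454695599) (nat_lit 296) (nat_lit 5) (nat_lit 295) (nat_lit 5) (nat_lit 310) (nat_lit 5) (nat_lit 375) (nat_lit 360) (nat_lit 285)) (XT.nd (nat_lit 78) (nat_lit 0) (nat_lit 0) (XT.lf (nat_lit 0) (nat_lit 960677201) (nat_lit 1140) (nat_lit 7700894818) (nat_lit 76) (nat_lit 1263686505) (nat_lit 281) (nat_lit 5) (nat_lit 296) (nat_lit 5) (nat_lit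 282) (nat_lit 5) (nat_lit 376) (nat_lit 360) (nat_lit 284)) (XT.lf (nat_lit 0) (nat_lit 2437211579) (nat_lit 1140) (nat_lit 2333308809) (nat_lit 76) (nat_lit 5294146084) (nat_lit 281) (nat_lit 5) (nat_lit 296) (nat_lit 5) (nat_lit 282) (nat_lit 5) (nat_lit 377) (nat_lit 360) (nat_lit 283)))) (XT.nd (nat_lit 156) (nat_lit 1216) (nat_lit 0) (XT.nd (nat_lit 78) (nat_lit 0) (nat_lit 0) (XT.lf (nat_lit 0) (nat_lit 3233472687) (nat_lit 1140) (nat_lit 726257562) (nat_lit 1216) (nat_lit 6248485570) (nat_lit 266) (nat_lit 5) (nat_lit 281) (nat_lit 5) (nat_lit 282) (nat_lit 5) (nat_lit 378) (nat_lit 360) (nat_lit 282)) (XT.lf (nat_lit 0) (nat_lit 5556044897) (nat_lit 1216) (nat_lit 1399167365) (nat_lit 76) (nat_lit 3400025293) (nat_lit 266) (nat_lit 5) (nat_lit 282) (nat_lit 5) (nat_lit 267) (nat_lit 5) (nat_lit 379) (nat_lit 360) (nat_lit 281))) (XT.nd (nat_lit 78) (nat_lit 0) (nat_lit 0) (XT.lf (nat_lit 0) (nat_lit 4397444020)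 (nat_lit 1216) (nat_lit 2824367833) (nat_lit 1292) (nat_lit 3284220451) (nat_lit 250) (nat_lit 5) (nat_lit 266) (nat_lit 5) (nat_lit 267) (nat_lit 5) (nat_lit 380) (nat_lit 360) (nat_lit 280)) (XT.lf (nat_lit 0) (nat_lit 8938273874) (nat_lit 1292) (nat_lit 303643590) (nat_lit 76) (nat_lit 1419420744) (nat_lit 250) (nat_lit 5) (nat_lit 267) (nat_lit 5) (nat_lit 251) (nat_lit 5) (nat_lit 381) (nat_lit 360) (nat_lit 279))))) (XT.nd (nat_lit 234) (nat_lit 1140) (nat_lit 0) (XT.nd (nat_lit 78) (nat_lit 684) (nat_lit 0) (XT.lf (nat_lit 0) (nat_lit 5734668988) (nat_lit 684) (nat_lit 5028148420) (nat_lit 760) (nat_lit 56796968) (nat_lit 241) (nat_lit 5) (nat_lit 250) (nat_lit 5) (nat_lit 251) (nat_lit 5) (nat_lit 382) (nat_lit 360) (nat_lit 278)) (XT.nd (nat_lit 78) (nat_lit 0) (nat_lit 0) (XT.lf (nat_lit 0) (nat_lit 955462567) (nat_lit 608) (nat_lit 657664578) (nat_lit 684) (nat_lit 9369459825) (nat_lit 232) (nat_lit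 5) (nat_lit 240) (nat_lit 5) (nat_lit 241) (nat_lit 5) (nat_lit 383) (nat_lit 360) (nat_lit 277)) (XT.lf (nat_lit 0) (nat_lit 3395118720) (nat_lit 684) (nat_lit 3931161460) (nat_lit 76) (nat_lit 3822266327) (nat_lit 232) (nat_lit 5) (nat_lit 241) (nat_lit 5) (nat_lit 233) (nat_lit 5) (nat_lit 384) (nat_lit 360) (nat_lit 276)))) (XT.nd (nat_lit 156) (nat_lit 532) (nat_lit 0) (XT.nd (nat_lit 78) (nat_lit 0) (nat_lit 0) (XT.lf (nat_lit 0) (nat_lit 2362461863) (nat_lit 608) (nat_lit 2872382227) (nat_lit 684) (nat_lit 6084520262) (nat_lit 224) (nat_lit 5) (nat_lit 232) (nat_lit 5) (nat_lit 233) (nat_lit 5) (nat_lit 385) (nat_lit 360) (nat_lit 275)) (XT.lf (nat_lit 0) (nat_lit 7161880731) (nat_lit 684) (nat_lit 2610821010) (nat_lit 76) (nat_lit 1721648923) (nat_lit 224) (nat_lit 5) (nat_lit 233) (nat_lit 5) (nat_lit 225) (nat_lit 5) (nat_lit 386) (nat_lit 360) (nat_lit 274))) (XT.nd (nat_lit 78) (nat_lit 0) (nat_lit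 0) (XT.lf (nat_lit 0) (nat_lit 3949709468) (nat_lit 532) (nat_lit 5239680349) (nat_lit 608) (nat_lit 2483924207) (nat_lit 217) (nat_lit 5) (nat_lit 224) (nat_lit 5) (nat_lit 225) (nat_lit 5) (nat_lit 387) (nat_lit 360) (nat_lit 273)) (XT.lf (nat_lit 0) (nat_lit 10736248911) (nat_lit 532) (nat_lit 544552100) (nat_lit 608) (nat_lit 576760054) (nat_lit 217) (nat_lit 5) (nat_lit 224) (nat_lit 5) (nat_lit 225) (nat_lit 5) (nat_lit 388) (nat_lit 360) (nat_lit 272)))))) (XT.nd (nat_lit 546) (nat_lit 2204) (nat_lit 0) (XT.nd (nat_lit 234) (nat_lit 1064) (nat_lit 0) (XT.nd (nat_lit 78) (nat_lit 456) (nat_lit 0) (XT.lf (nat_lit 0) (nat_lit 1434931654) (nat_lit 608) (nat_lit 6333976575) (nat_lit 76) (nat_lit 4275802108) (nat_lit 209) (nat_lit 5) (nat_lit 217) (nat_lit 5) (nat_lit 210) (nat_lit 5) (nat_lit 389) (nat_lit 360) (nat_lit 271)) (XT.nd (nat_lit 78) (nat_lit 0) (nat_lit 0) (XT.lf (nat_lit 0) (nat_lit 507779241) (nat_lit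 456) (nat_lit 2986892963) (nat_lit 532) (nat_lit 8742658339) (nat_lit 203) (nat_lit 5) (nat_lit 209) (nat_lit 5) (nat_lit 210) (nat_lit 5) (nat_lit 390) (nat_lit 360) (nat_lit 270)) (XT.lf (nat_lit 0) (nat_lit 5677414222) (nat_lit 532) (nat_lit 4793362367) (nat_lit 76) (nat_lit 1963122785) (nat_lit 203) (nat_lit 5) (nat_lit 210) (nat_lit 5) (nat_lit 204) (nat_lit 5) (nat_lit 391) (nat_lit 360) (nat_lit 269)))) (XT.nd (nat_lit 156) (nat_lit 532) (nat_lit 0) (XT.nd (nat_lit 78) (nat_lit 0) (nat_lit 0) (XT.lf (nat_lit 0) (nat_lit 2342870712) (nat_lit 532) (nat_lit 5613483828) (nat_lit 608) (nat_lit 4679095360) (nat_lit 196) (nat_lit 5) (nat_lit 203) (nat_lit 5) (nat_lit 204) (nat_lit 5) (nat_lit 392) (nat_lit 360) (nat_lit 268)) (XT.lf (nat_lit 0) (nat_lit 9767500962) (nat_lit 532) (nat_lit 563579861) (nat_lit 608) (nat_lit 2511149522) (nat_lit 196) (nat_lit 5) (nat_lit 203) (nat_lit 5) (nat_lit 204) (nat_lit 5) (nat_lit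 393) (nat_lit 360) (nat_lit 267))) (XT.nd (nat_lit 78) (nat_lit 76) (nat_lit 0) (XT.lf (nat_lit 0) (nat_lit 4376637450) (nat_lit 456) (nat_lit 8466661709) (nat_lit 532) (nat_lit 209933298) (nat_lit 190) (nat_lit 5) (nat_lit 196) (nat_lit 5) (nat_lit 197) (nat_lit 5) (nat_lit 394) (nat_lit 360) (nat_lit 266)) (XT.lf (nat_lit 0) (nat_lit 2134861188) (nat_lit 532) (nat_lit 1205728005) (nat_lit 76) (nat_lit 9928856959) (nat_lit 189) (nat_lit 5) (nat_lit 196) (nat_lit 5) (nat_lit 190) (nat_lit 5) (nat_lit 395) (nat_lit 360) (nat_lit 265))))) (XT.nd (nat_lit 312) (nat_lit 836) (nat_lit 0) (XT.nd (nat_lit 156) (nat_lit 456) (nat_lit 0) (XT.nd (nat_lit 78) (nat_lit 456) (nat_lit 0) (XT.lf (nat_lit 0) (nat_lit 4608756233) (nat_lit 532) (nat_lit 6917517398) (nat_lit 76) (nat_lit 1963926257) (nat_lit 183) (nat_lit 5) (nat_lit 190) (nat_lit 5) (nat_lit 184) (nat_lit 5) (nat_lit 396) (nat_lit 360) (nat_lit 264)) (XT.lf (nat_lit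 0) (nat_lit 851740459) (nat_lit 456) (nat_lit 6339350979) (nat_lit 532) (nat_lit 6525463218) (nat_lit 177) (nat_lit 5) (nat_lit 183) (nat_lit 5) (nat_lit 184) (nat_lit 5) (nat_lit 397) (nat_lit 360) (nat_lit 263))) (XT.nd (nat_lit 78) (nat_lit 456) (nat_lit 0) (XT.lf (nat_lit 0) (nat_lit 8972475146) (nat_lit 456) (nat_lit 929277794) (nat_lit 532) (nat_lit 4046426410) (nat_lit 177) (nat_lit 5) (nat_lit 183) (nat_lit 5) (nat_lit 184) (nat_lit 5) (nat_lit 398) (nat_lit 360) (nat_lit 262)) (XT.lf (nat_lit 0) (nat_lit 3143550177) (nat_lit 456) (nat_lit 9606549205) (nat_lit 532) (nat_lit 1434967275) (nat_lit 171) (nat_lit 5) (nat_lit 177) (nat_lit 5) (nat_lit 178) (nat_lit 5) (nat_lit 399) (nat_lit 360) (nat_lit 261)))) (XT.nd (nat_lit 156) (nat_lit 380) (nat_lit 0) (XT.nd (nat_lit 78) (nat_lit 380) (nat_lit 0) (XT.lf (nat_lit 0) (nat_lit 1271940173) (nat_lit 532) (nat_lit 2864315046) (nat_lit 76) (nat_lit 10291200319)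 (nat_lit 170) (nat_lit 5) (nat_lit 177) (nat_lit 5) (nat_lit 171) (nat_lit 5) (nat_lit 400) (nat_lit 360) (nat_lit 260)) (XT.lf (nat_lit 0) (nat_lit 4082556899) (nat_lit 456) (nat_lit 9059455832) (nat_lit 76) (nat_lit 1533141237) (nat_lit 165) (nat_lit 5) (nat_lit 171) (nat_lit 5) (nat_lit 166) (nat_lit 5) (nat_lit 401) (nat_lit 360) (nat_lit 259))) (XT.nd (nat_lit 78) (nat_lit 380) (nat_lit 0) (XT.lf (nat_lit 0) (nat_lit 7030093021) (nat_lit 456) (nat_lit 584786727) (nat_lit 76) (nat_lit 7313829862) (nat_lit 165) (nat_lit 5) (nat_lit 171) (nat_lit 5) (nat_lit 166) (nat_lit 5) (nat_lit 402) (nat_lit 360) (nat_lit 258)) (XT.lf (nat_lit 0) (nat_lit 8283472480) (nat_lit 380) (nat_lit 1845157610) (nat_lit 456) (nat_lit 5059368749) (nat_lit 160) (nat_lit 5) (nat_lit 165) (nat_lit 5) (nat_lit 166) (nat_lit 5) (nat_lit 403) (nat_lit 360) (nat_lit 257))))))) (XT.nd (nat_lit 1092) (nat_lit 2356) (nat_lit 0) (XT.nd (nat_lit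 546) (nat_lit 1292) (nat_lit 0) (XT.nd (nat_lit 234) (nat_lit 760) (nat_lit 0) (XT.nd (nat_lit 78) (nat_lit 456) (nat_lit 0) (XT.lf (nat_lit 0) (nat_lit 1950972425) (nat_lit 380) (nat_lit 11416440155) (nat_lit 456) (nat_lit 2086239527) (nat_lit 155) (nat_lit 5) (nat_lit 160) (nat_lit 5) (nat_lit 161) (nat_lit 5) (nat_lit 404) (nat_lit 360) (nat_lit 256)) (XT.nd (nat_lit 78) (nat_lit 380) (nat_lit 0) (XT.lf (nat_lit 0) (nat_lit 1029008342) (nat_lit 456) (nat_lit 4562496391) (nat_lit 76) (nat_lit 10133333418) (nat_lit 154) (nat_lit 5) (nat_lit 160) (nat_lit 5) (nat_lit 155) (nat_lit 5) (nat_lit 405) (nat_lit 360) (nat_lit 255)) (XT.lf (nat_lit 0) (nat_lit 4229208843) (nat_lit 456) (nat_lit 11312329750) (nat_lit 76) (nat_lit 461002408) (nat_lit 149) (nat_lit 5) (nat_lit 155) (nat_lit 5) (nat_lit 150) (nat_lit 5) (nat_lit 406) (nat_lit 360) (nat_lit 254)))) (XT.nd (nat_lit 156) (nat_lit 456) (nat_lit 0) (XT.nd (nat_lit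 78) (nat_lit 304) (nat_lit 0) (XT.lf (nat_lit 0) (nat_lit 7611289635) (nat_lit 456) (nat_lit 2051178402) (nat_lit 76) (nat_lit 6623534263) (nat_lit 149) (nat_lit 5) (nat_lit 155) (nat_lit 5) (nat_lit 150) (nat_lit 5) (nat_lit 407) (nat_lit 360) (nat_lit 253)) (XT.lf (nat_lit 0) (nat_lit 7614852268) (nat_lit 304) (nat_lit 3537630086) (nat_lit 380) (nat_lit 5423759083) (nat_lit 145) (nat_lit 5) (nat_lit 149) (nat_lit 5) (nat_lit 150) (nat_lit 5) (nat_lit 408) (nat_lit 360) (nat_lit 252))) (XT.nd (nat_lit 78) (nat_lit 76) (nat_lit 0) (XT.lf (nat_lit 0) (nat_lit 703489524) (nat_lit 380) (nat_lit 14135378405) (nat_lit 456) (nat_lit 2035154493) (nat_lit 140) (nat_lit 5) (nat_lit 145) (nat_lit 5) (nat_lit 146) (nat_lit 5) (nat_lit 409) (nat_lit 360) (nat_lit 251)) (XT.lf (nat_lit 0) (nat_lit 1537856445) (nat_lit 456) (nat_lit 6407752722) (nat_lit 76) (nat_lit 9231376959) (nat_lit 139) (nat_lit 5) (nat_lit 145) (nat_lit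 5) (nat_lit 140) (nat_lit 5) (nat_lit 410) (nat_lit 360) (nat_lit 250))))) (XT.nd (nat_lit 234) (nat_lit 684) (nat_lit 0) (XT.nd (nat_lit 78) (nat_lit 304) (nat_lit 0) (XT.lf (nat_lit 0) (nat_lit 3678338907) (nat_lit 304) (nat_lit 1519345618) (nat_lit 380) (nat_lit 12290136869) (nat_lit 135) (nat_lit 5) (nat_lit 139) (nat_lit 5) (nat_lit 140) (nat_lit 5) (nat_lit 411) (nat_lit 360) (nat_lit 249)) (XT.nd (nat_lit 78) (nat_lit 304) (nat_lit 0) (XT.lf (nat_lit 0) (nat_lit 9067016892) (nat_lit 380) (nat_lit 3678707913) (nat_lit 76) (nat_lit 5059268640) (nat_lit 135) (nat_lit 5) (nat_lit 140) (nat_lit 5) (nat_lit 136) (nat_lit 5) (nat_lit 412) (nat_lit 360) (nat_lit 248)) (XT.lf (nat_lit 0) (nat_lit 6853943297) (nat_lit 304) (nat_lit 6265181758) (nat_lit 380) (nat_lit 5010557646) (nat_lit 131) (nat_lit 5) (nat_lit 135) (nat_lit 5) (nat_lit 136) (nat_lit 5) (nat_lit 413) (nat_lit 360) (nat_lit 247)))) (XT.nd (nat_lit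 156) (nat_lit 304) (nat_lit 0) (XT.nd (nat_lit 78) (nat_lit 380) (nat_lit 0) (XT.lf (nat_lit 0) (nat_lit 17320173777) (nat_lit 380) (nat_lit 710226852) (nat_lit 76) (nat_lit 432893521) (nat_lit 131) (nat_lit 5) (nat_lit 136) (nat_lit 5) (nat_lit 132) (nat_lit 5) (nat_lit 414) (nat_lit 360) (nat_lit 246)) (XT.lf (nat_lit 0) (nat_lit 2933655395) (nat_lit 380) (nat_lit 8540527511) (nat_lit 76) (nat_lit 7327452395) (nat_lit 126) (nat_lit 5) (nat_lit 131) (nat_lit 5) (nat_lit 127) (nat_lit 5) (nat_lit 415) (nat_lit 360) (nat_lit 245))) (XT.nd (nat_lit 78) (nat_lit 0) (nat_lit 0) (XT.lf (nat_lit 0) (nat_lit 2442124408) (nat_lit 304) (nat_lit 4684754275) (nat_lit 380) (nat_lit 12022397463) (nat_lit 122) (nat_lit 5) (nat_lit 126) (nat_lit 5) (nat_lit 127) (nat_lit 5) (nat_lit 416) (nat_lit 360) (nat_lit 244)) (XT.lf (nat_lit 0) (nat_lit 11541723253) (nat_lit 380) (nat_lit 5618984495) (nat_lit 76) (nat_lit 2343766250) (nat_lit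 122) (nat_lit 5) (nat_lit 127) (nat_lit 5) (nat_lit 123) (nat_lit 5) (nat_lit 417) (nat_lit 360) (nat_lit 243)))))) (XT.nd (nat_lit 546) (nat_lit 1216) (nat_lit 0) (XT.nd (nat_lit 234) (nat_lit 532) (nat_lit 0) (XT.nd (nat_lit 78) (nat_lit 380) (nat_lit 0) (XT.lf (nat_lit 0) (nat_lit 5849679111) (nat_lit 228) (nat_lit 10328879292) (nat_lit 304) (nat_lit 3689085469) (nat_lit 119) (nat_lit 5) (nat_lit 122) (nat_lit 5) (nat_lit 123) (nat_lit 5) (nat_lit 418) (nat_lit 360) (nat_lit 242)) (XT.nd (nat_lit 78) (nat_lit 304) (nat_lit 0) (XT.lf (nat_lit 0) (nat_lit 743175310) (nat_lit 304) (nat_lit 2489813097) (nat_lit 76) (nat_lit 17007188347) (nat_lit 118) (nat_lit 5) (nat_lit 122) (nat_lit 5) (nat_lit 119) (nat_lit 5) (nat_lit 419) (nat_lit 360) (nat_lit 241)) (XT.lf (nat_lit 0) (nat_lit 5353462418) (nat_lit 380) (nat_lit 11146897409) (nat_lit 76) (nat_lit 4118856101) (nat_lit 114) (nat_lit 5) (nat_lit 119) (nat_lit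 5) (nat_lit 115) (nat_lit 5) (nat_lit 420) (nat_lit 360) (nat_lit 240)))) (XT.nd (nat_lit 156) (nat_lit 304) (nat_lit 0) (XT.nd (nat_lit 78) (nat_lit 0) (nat_lit 0) (XT.lf (nat_lit 0) (nat_lit 799301656) (nat_lit 228) (nat_lit 9355330014) (nat_lit 304) (nat_lit 10853419573) (nat_lit 111) (nat_lit 5) (nat_lit 114) (nat_lit 5) (nat_lit 115) (nat_lit 5) (nat_lit 421) (nat_lit 360) (nat_lit 239)) (XT.lf (nat_lit 0) (nat_lit 13313060833) (nat_lit 228) (nat_lit 1887004796) (nat_lit 304) (nat_lit 6205481209) (nat_lit 111) (nat_lit 5) (nat_lit 114) (nat_lit 5) (nat_lit 115) (nat_lit 5) (nat_lit 422) (nat_lit 360) (nat_lit 238))) (XT.nd (nat_lit 78) (nat_lit 76) (nat_lit 0) (XT.lf (nat_lit 0) (nat_lit 4398226565) (nat_lit 228) (nat_lit 16084680994) (nat_lit 304) (nat_lit 1329480442) (nat_lit 108) (nat_lit 5) (nat_lit 111) (nat_lit 5) (nat_lit 112) (nat_lit 5) (nat_lit 423) (nat_lit 360) (nat_lit 237)) (XT.lf (nat_lit 0)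 (nat_lit 3709962548) (nat_lit 304) (nat_lit 4873537130) (nat_lit 76) (nat_lit 13644195065) (nat_lit 107) (nat_lit 5) (nat_lit 111) (nat_lit 5) (nat_lit 108) (nat_lit 5) (nat_lit 424) (nat_lit 360) (nat_lit 236))))) (XT.nd (nat_lit 312) (nat_lit 456) (nat_lit 0) (XT.nd (nat_lit 156) (nat_lit 532) (nat_lit 0) (XT.nd (nat_lit 78) (nat_lit 0) (nat_lit 0) (XT.lf (nat_lit 0) (nat_lit 8171032643) (nat_lit 228) (nat_lit 769740577) (nat_lit 304) (nat_lit 13712287277) (nat_lit 104) (nat_lit 5) (nat_lit 107) (nat_lit 5) (nat_lit 108) (nat_lit 5) (nat_lit 425) (nat_lit 360) (nat_lit 235)) (XT.lf (nat_lit 0) (nat_lit 14436630123) (nat_lit 304) (nat_lit 1471974847) (nat_lit 76) (nat_lit 7179340416) (nat_lit 104) (nat_lit 5) (nat_lit 108) (nat_lit 5) (nat_lit 105) (nat_lit 5) (nat_lit 426) (nat_lit 360) (nat_lit 234))) (XT.nd (nat_lit 78) (nat_lit 304) (nat_lit 0) (XT.lf (nat_lit 0) (nat_lit 12139533644) (nat_lit 228) (nat_lit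 8070935865) (nat_lit 304) (nat_lit 3322015875) (nat_lit 101) (nat_lit 5) (nat_lit 104) (nat_lit 5) (nat_lit 105) (nat_lit 5) (nat_lit 427) (nat_lit 360) (nat_lit 233)) (XT.lf (nat_lit 0) (nat_lit 2150417206) (nat_lit 304) (nat_lit 21785995071) (nat_lit 76) (nat_lit 52559691) (nat_lit 97) (nat_lit 5) (nat_lit 101) (nat_lit 5) (nat_lit 98) (nat_lit 5) (nat_lit 428) (nat_lit 360) (nat_lit 232)))) (XT.nd (nat_lit 156) (nat_lit 228) (nat_lit 0) (XT.nd (nat_lit 78) (nat_lit 228) (nat_lit 0) (XT.lf (nat_lit 0) (nat_lit 7905271094) (nat_lit 304) (nat_lit 8147558813) (nat_lit 76) (nat_lit 8399787611) (nat_lit 97) (nat_lit 5) (nat_lit 101) (nat_lit 5) (nat_lit 98) (nat_lit 5) (nat_lit 429) (nat_lit 360) (nat_lit 231)) (XT.lf (nat_lit 0) (nat_lit 5999387358) (nat_lit 228) (nat_lit 7880296945) (nat_lit 304) (nat_lit 11049082290) (nat_lit 94) (nat_lit 5) (nat_lit 97) (nat_lit 5) (nat_lit 98) (nat_lit 5) (nat_lit 430) (nat_lit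 360) (nat_lit 230))) (XT.nd (nat_lit 78) (nat_lit 228) (nat_lit 0) (XT.lf (nat_lit 0) (nat_lit 20110906822) (nat_lit 304) (nat_lit 4702746004) (nat_lit 76) (nat_lit 603221529) (nat_lit 94) (nat_lit 5) (nat_lit 98) (nat_lit 5) (nat_lit 95) (nat_lit 5) (nat_lit 431) (nat_lit 360) (nat_lit 229)) (XT.lf (nat_lit 0) (nat_lit 763450569) (nat_lit 228) (nat_lit 15870652491) (nat_lit 76) (nat_lit 9280370908) (nat_lit 91) (nat_lit 5) (nat_lit 94) (nat_lit 5) (nat_lit 92) (nat_lit 5) (nat_lit 432) (nat_lit 360) (nat_lit 228))))))))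
noncomputable def xc150 : XT := (XT.nd (nat_lit 2262) (nat_lit 1672) (nat_lit 0) (XT.nd (nat_lit 1092) (nat_lit 1292) (nat_lit 0) (XT.nd (nat_lit 546) (nat_lit 760) (nat_lit 0) (XT.nd (nat_lit 234) (nat_lit 456) (nat_lit 0) (XT.nd (nat_lit 78) (nat_lit 380) (nat_lit 0) (XT.lf (nat_lit 0) (nat_lit 6945933082) (nat_lit 228) (nat_lit 1166705653) (nat_lit 76) (nat_lit 18311659403) (nat_lit 91) (nat_lit 5) (nat_lit 94) (nat_lit 5) (nat_lit 92) (nat_lit 5) (nat_lit 433) (nat_lit 360) (nat_lit 227)) (XT.nd (nat_lit 78) (nat_lit 152) (nat_lit 0) (XT.lf (nat_lit 0) (nat_lit 13448414204) (nat_lit 304) (nat_lit 12713876170) (nat_lit 76) (nat_lit 783092288) (nat_lit 88) (nat_lit 5) (nat_lit 92) (nat_lit 5) (nat_lit 89) (nat_lit 5) (nat_lit 434) (nat_lit 360) (nat_lit 226)) (XT.lf (nat_lit 0) (nat_lit 2587000604) (nat_lit 152) (nat_lit 17666094394) (nat_lit 228) (nat_lit 7225792282) (nat_lit 86) (nat_lit 5) (nat_lit 88) (nat_lit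 5) (nat_lit 89) (nat_lit 5) (nat_lit 435) (nat_lit 360) (nat_lit 225)))) (XT.nd (nat_lit 156) (nat_lit 152) (nat_lit 0) (XT.nd (nat_lit 78) (nat_lit 304) (nat_lit 0) (XT.lf (nat_lit 0) (nat_lit 18590814796) (nat_lit 152) (nat_lit 8789652375) (nat_lit 228) (nat_lit 644374611) (nat_lit 86) (nat_lit 5) (nat_lit 88) (nat_lit 5) (nat_lit 89) (nat_lit 5) (nat_lit 436) (nat_lit 360) (nat_lit 224)) (XT.lf (nat_lit 0) (nat_lit 6072535843) (nat_lit 304) (nat_lit 22048547857) (nat_lit 76) (nat_lit 462590685) (nat_lit 82) (nat_lit 5) (nat_lit 86) (nat_lit 5) (nat_lit 83) (nat_lit 5) (nat_lit 437) (nat_lit 360) (nat_lit 223))) (XT.nd (nat_lit 78) (nat_lit 152) (nat_lit 0) (XT.lf (nat_lit 0) (nat_lit 13151653249) (nat_lit 304) (nat_lit 6090498790) (nat_lit 76) (nat_lit 9911720169) (nat_lit 82) (nat_lit 5) (nat_lit 86) (nat_lit 5) (nat_lit 83) (nat_lit 5) (nat_lit 438) (nat_lit 360) (nat_lit 222)) (XT.lf (nat_lit 0) (nat_lit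 10535886488) (nat_lit 152) (nat_lit 9999230488) (nat_lit 228) (nat_lit 9203300939) (nat_lit 80) (nat_lit 5) (nat_lit 82) (nat_lit 5) (nat_lit 83) (nat_lit 5) (nat_lit 439) (nat_lit 360) (nat_lit 221))))) (XT.nd (nat_lit 234) (nat_lit 380) (nat_lit 0) (XT.nd (nat_lit 78) (nat_lit 380) (nat_lit 0) (XT.lf (nat_lit 0) (nat_lit 27770071070) (nat_lit 152) (nat_lit 422329782) (nat_lit 228) (nat_lit 2146530755) (nat_lit 80) (nat_lit 5) (nat_lit 82) (nat_lit 5) (nat_lit 83) (nat_lit 5) (nat_lit 440) (nat_lit 360) (nat_lit 220)) (XT.nd (nat_lit 78) (nat_lit 152) (nat_lit 0) (XT.lf (nat_lit 0) (nat_lit 5247727626) (nat_lit 228) (nat_lit 16256999650) (nat_lit 76) (nat_lit 9444485434) (nat_lit 77) (nat_lit 5) (nat_lit 80) (nat_lit 5) (nat_lit 78) (nat_lit 5) (nat_lit 441) (nat_lit 360) (nat_lit 219)) (XT.lf (nat_lit 0) (nat_lit 923470035) (nat_lit 152) (nat_lit 11927500284) (nat_lit 228) (nat_lit 18725286360) (nat_lit 75) (nat_lit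 5) (nat_lit 77) (nat_lit 5) (nat_lit 78) (nat_lit 5) (nat_lit 442) (nat_lit 360) (nat_lit 218)))) (XT.nd (nat_lit 156) (nat_lit 228) (nat_lit 0) (XT.nd (nat_lit 78) (nat_lit 152) (nat_lit 0) (XT.lf (nat_lit 0) (nat_lit 18937146386) (nat_lit 152) (nat_lit 1900483943) (nat_lit 228) (nat_lit 11379823016) (nat_lit 75) (nat_lit 5) (nat_lit 77) (nat_lit 5) (nat_lit 78) (nat_lit 5) (nat_lit 443) (nat_lit 360) (nat_lit 217)) (XT.lf (nat_lit 0) (nat_lit 4607031646) (nat_lit 152) (nat_lit 24573504930) (nat_lit 228) (nat_lit 3693850890) (nat_lit 73) (nat_lit 5) (nat_lit 75) (nat_lit 5) (nat_lit 76) (nat_lit 5) (nat_lit 444) (nat_lit 360) (nat_lit 216))) (XT.nd (nat_lit 78) (nat_lit 152) (nat_lit 0) (XT.lf (nat_lit 0) (nat_lit 4285923540) (nat_lit 228) (nat_lit 10319748372) (nat_lit 76) (nat_lit 18939772162) (nat_lit 72) (nat_lit 5) (nat_lit 75) (nat_lit 5) (nat_lit 73) (nat_lit 5) (nat_lit 445) (nat_lit 360) (nat_lit 215))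 (XT.lf (nat_lit 0) (nat_lit 8276431122) (nat_lit 152) (nat_lit 4225600434) (nat_lit 228) (nat_lit 21731369015) (nat_lit 70) (nat_lit 5) (nat_lit 72) (nat_lit 5) (nat_lit 73) (nat_lit 5) (nat_lit 446) (nat_lit 360) (nat_lit 214)))))) (XT.nd (nat_lit 546) (nat_lit 532) (nat_lit 0) (XT.nd (nat_lit 234) (nat_lit 532) (nat_lit 0) (XT.nd (nat_lit 78) (nat_lit 228) (nat_lit 0) (XT.lf (nat_lit 0) (nat_lit 21123684684) (nat_lit 228) (nat_lit 7374843648) (nat_lit 76) (nat_lit 6438696420) (nat_lit 70) (nat_lit 5) (nat_lit 73) (nat_lit 5) (nat_lit 71) (nat_lit 5) (nat_lit 447) (nat_lit 360) (nat_lit 213)) (XT.nd (nat_lit 78) (nat_lit 76) (nat_lit 0) (XT.lf (nat_lit 0) (nat_lit 11941533360) (nat_lit 152) (nat_lit 18210990648) (nat_lit 228) (nat_lit 5505184371) (nat_lit 68) (nat_lit 5) (nat_lit 70) (nat_lit 5) (nat_lit 71) (nat_lit 5) (nat_lit 448) (nat_lit 360) (nat_lit 212)) (XT.lf (nat_lit 0) (nat_lit 3059995401) (nat_lit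 228) (nat_lit 4453490245) (nat_lit 76) (nat_lit 28883427273) (nat_lit 67) (nat_lit 5) (nat_lit 70) (nat_lit 5) (nat_lit 68) (nat_lit 5) (nat_lit 449) (nat_lit 360) (nat_lit 211)))) (XT.nd (nat_lit 156) (nat_lit 380) (nat_lit 0) (XT.nd (nat_lit 78) (nat_lit 0) (nat_lit 0) (XT.lf (nat_lit 0) (nat_lit 11949486393) (nat_lit 228) (nat_lit 21564607560) (nat_lit 76) (nat_lit 3637225052) (nat_lit 65) (nat_lit 5) (nat_lit 68) (nat_lit 5) (nat_lit 66) (nat_lit 5) (nat_lit 450) (nat_lit 360) (nat_lit 210)) (XT.lf (nat_lit 0) (nat_lit 21217669487) (nat_lit 228) (nat_lit 1696467492) (nat_lit 76) (nat_lit 15010860802) (nat_lit 65) (nat_lit 5) (nat_lit 68) (nat_lit 5) (nat_lit 66) (nat_lit 5) (nat_lit 451) (nat_lit 360) (nat_lit 209))) (XT.nd (nat_lit 78) (nat_lit 228) (nat_lit 0) (XT.lf (nat_lit 0) (nat_lit 19127334209) (nat_lit 152) (nat_lit 11812854339) (nat_lit 228) (nat_lit 7776410363) (nat_lit 63) (nat_lit 5) (nat_lit 65)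 (nat_lit 5) (nat_lit 66) (nat_lit 5) (nat_lit 452) (nat_lit 360) (nat_lit 208)) (XT.lf (nat_lit 0) (nat_lit 1072636575) (nat_lit 152) (nat_lit 342096112) (nat_lit 228) (nat_lit 38116204222) (nat_lit 60) (nat_lit 5) (nat_lit 62) (nat_lit 5) (nat_lit 63) (nat_lit 5) (nat_lit 453) (nat_lit 360) (nat_lit 207))))) (XT.nd (nat_lit 312) (nat_lit 304) (nat_lit 0) (XT.nd (nat_lit 156) (nat_lit 76) (nat_lit 0) (XT.nd (nat_lit 78) (nat_lit 152) (nat_lit 0) (XT.lf (nat_lit 0) (nat_lit 11027842143) (nat_lit 228) (nat_lit 17810727215) (nat_lit 76) (nat_lit 11519750603) (nat_lit 60) (nat_lit 5) (nat_lit 63) (nat_lit 5) (nat_lit 61) (nat_lit 5) (nat_lit 454) (nat_lit 360) (nat_lit 206)) (XT.lf (nat_lit 0) (nat_lit 3508063248) (nat_lit 152) (nat_lit 17451084672) (nat_lit 228) (nat_lit 20250483121) (nat_lit 58) (nat_lit 5) (nat_lit 60) (nat_lit 5) (nat_lit 61) (nat_lit 5) (nat_lit 455) (nat_lit 360) (nat_lit 205))) (XT.nd (nat_lit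 78) (nat_lit 76) (nat_lit 0) (XT.lf (nat_lit 0) (nat_lit 25818372337) (nat_lit 152) (nat_lit 5542654658) (nat_lit 228) (nat_lit 10720276044) (nat_lit 58) (nat_lit 5) (nat_lit 60) (nat_lit 5) (nat_lit 61) (nat_lit 5) (nat_lit 456) (nat_lit 360) (nat_lit 204)) (XT.lf (nat_lit 0) (nat_lit 5855583022) (nat_lit 76) (nat_lit 36333228376) (nat_lit 152) (nat_lit 786898923) (nat_lit 57) (nat_lit 5) (nat_lit 58) (nat_lit 5) (nat_lit 59) (nat_lit 4) (nat_lit 457) (nat_lit 360) (nat_lit 203)))) (XT.nd (nat_lit 156) (nat_lit 76) (nat_lit 0) (XT.nd (nat_lit 78) (nat_lit 152) (nat_lit 0) (XT.lf (nat_lit 0) (nat_lit 9473859895) (nat_lit 152) (nat_lit 15081221033) (nat_lit 76) (nat_lit 19332735580) (nat_lit 56) (nat_lit 5) (nat_lit 58) (nat_lit 5) (nat_lit 57) (nat_lit 5) (nat_lit 458) (nat_lit 360) (nat_lit 202)) (XT.lf (nat_lit 0) (nat_lit 7749728836) (nat_lit 152) (nat_lit 12344546003) (nat_lit 228) (nat_lit 24730748375) (nat_lit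 54) (nat_lit 5) (nat_lit 56) (nat_lit 5) (nat_lit 57) (nat_lit 5) (nat_lit 459) (nat_lit 360) (nat_lit 201))) (XT.nd (nat_lit 78) (nat_lit 76) (nat_lit 0) (XT.lf (nat_lit 0) (nat_lit 31182513372) (nat_lit 228) (nat_lit 14227344369) (nat_lit 76) (nat_lit 376012570) (nat_lit 54) (nat_lit 5) (nat_lit 57) (nat_lit 5) (nat_lit 55) (nat_lit 4) (nat_lit 460) (nat_lit 360) (nat_lit 200)) (XT.lf (nat_lit 0) (nat_lit 9354136793) (nat_lit 76) (nat_lit 33454781330) (nat_lit 152) (nat_lit 3960459637) (nat_lit 53) (nat_lit 5) (nat_lit 54) (nat_lit 5) (nat_lit 55) (nat_lit 4) (nat_lit 461) (nat_lit 360) (nat_lit 199))))))) (XT.nd (nat_lit 1092) (nat_lit 532) (nat_lit 0) (XT.nd (nat_lit 546) (nat_lit 608) (nat_lit 0) (XT.nd (nat_lit 234) (nat_lit 304) (nat_lit 0) (XT.nd (nat_lit 78) (nat_lit 152) (nat_lit 0) (XT.lf (nat_lit 0) (nat_lit 7003575898) (nat_lit 152) (nat_lit 13924327993) (nat_lit 76) (nat_lit 26848313472) (nat_lit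 52) (nat_lit 5) (nat_lit 54) (nat_lit 5) (nat_lit 53) (nat_lit 5) (nat_lit 462) (nat_lit 360) (nat_lit 198)) (XT.nd (nat_lit 78) (nat_lit 0) (nat_lit 0) (XT.lf (nat_lit 0) (nat_lit 10423629355) (nat_lit 152) (nat_lit 7887082111) (nat_lit 228) (nat_lit 30498561372) (nat_lit 50) (nat_lit 5) (nat_lit 52) (nat_lit 5) (nat_lit 53) (nat_lit 5) (nat_lit 463) (nat_lit 360) (nat_lit 197)) (XT.lf (nat_lit 0) (nat_lit 30145967137) (nat_lit 228) (nat_lit 14148230422) (nat_lit 76) (nat_lit 5573455690) (nat_lit 50) (nat_lit 5) (nat_lit 53) (nat_lit 5) (nat_lit 51) (nat_lit 4) (nat_lit 464) (nat_lit 360) (nat_lit 196)))) (XT.nd (nat_lit 156) (nat_lit 152) (nat_lit 0) (XT.nd (nat_lit 78) (nat_lit 76) (nat_lit 0) (XT.lf (nat_lit 0) (nat_lit 10940147825) (nat_lit 76) (nat_lit 31573176136) (nat_lit 152) (nat_lit 8439150249) (nat_lit 49) (nat_lit 5) (nat_lit 50) (nat_lit 5) (nat_lit 51) (nat_lit 4) (nat_lit 465) (nat_lit 360) (nat_lit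 195)) (XT.lf (nat_lit 0) (nat_lit 3257855951) (nat_lit 152) (nat_lit 15037911550) (nat_lit 76) (nat_lit 33769012616) (nat_lit 48) (nat_lit 5) (nat_lit 50) (nat_lit 5) (nat_lit 49) (nat_lit 5) (nat_lit 466) (nat_lit 360) (nat_lit 194))) (XT.nd (nat_lit 78) (nat_lit 0) (nat_lit 0) (XT.lf (nat_lit 0) (nat_lit 10801737725) (nat_lit 152) (nat_lit 4432229454) (nat_lit 228) (nat_lit 37971047347) (nat_lit 46) (nat_lit 5) (nat_lit 48) (nat_lit 5) (nat_lit 49) (nat_lit 5) (nat_lit 467) (nat_lit 360) (nat_lit 193)) (XT.lf (nat_lit 0) (nat_lit 27811375493) (nat_lit 228) (nat_lit 16757464536) (nat_lit 76) (nat_lit 9803355915) (nat_lit 46) (nat_lit 5) (nat_lit 49) (nat_lit 5) (nat_lit 47) (nat_lit 4) (nat_lit 468) (nat_lit 360) (nat_lit 192))))) (XT.nd (nat_lit 234) (nat_lit 304) (nat_lit 0) (XT.nd (nat_lit 78) (nat_lit 228) (nat_lit 0) (XT.lf (nat_lit 0) (nat_lit 9794040947) (nat_lit 76) (nat_lit 31104269035) (nat_lit 152)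 (nat_lit 14672117085) (nat_lit 45) (nat_lit 5) (nat_lit 46) (nat_lit 5) (nat_lit 47) (nat_lit 4) (nat_lit 469) (nat_lit 360) (nat_lit 191)) (XT.nd (nat_lit 78) (nat_lit 228) (nat_lit 0) (XT.lf (nat_lit 0) (nat_lit 37474795494) (nat_lit 76) (nat_lit 17066514494) (nat_lit 152) (nat_lit 2258391781) (nat_lit 45) (nat_lit 5) (nat_lit 46) (nat_lit 5) (nat_lit 47) (nat_lit 4) (nat_lit 470) (nat_lit 360) (nat_lit 190)) (XT.lf (nat_lit 0) (nat_lit 7963713916) (nat_lit 152) (nat_lit 2429501221) (nat_lit 228) (nat_lit 47667476825) (nat_lit 42) (nat_lit 5) (nat_lit 44) (nat_lit 5) (nat_lit 45) (nat_lit 5) (nat_lit 471) (nat_lit 360) (nat_lit 189)))) (XT.nd (nat_lit 156) (nat_lit 228) (nat_lit 0) (XT.nd (nat_lit 78) (nat_lit 76) (nat_lit 0) (XT.lf (nat_lit 0) (nat_lit 23691989959) (nat_lit 228) (nat_lit 23043004997) (nat_lit 76) (nat_lit 12614456100) (nat_lit 42) (nat_lit 5) (nat_lit 45) (nat_lit 5) (nat_lit 43) (nat_lit 4)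 (nat_lit 472) (nat_lit 360) (nat_lit 188)) (XT.lf (nat_lit 0) (nat_lit 4883514838) (nat_lit 76) (nat_lit 32571743302) (nat_lit 152) (nat_lit 23219649206) (nat_lit 41) (nat_lit 5) (nat_lit 42) (nat_lit 5) (nat_lit 43) (nat_lit 4) (nat_lit 473) (nat_lit 360) (nat_lit 187))) (XT.nd (nat_lit 78) (nat_lit 228) (nat_lit 0) (XT.lf (nat_lit 0) (nat_lit 34109977485) (nat_lit 76) (nat_lit 17748729456) (nat_lit 152) (nat_lit 10174602224) (nat_lit 41) (nat_lit 5) (nat_lit 42) (nat_lit 5) (nat_lit 43) (nat_lit 4) (nat_lit 474) (nat_lit 360) (nat_lit 186)) (XT.lf (nat_lit 0) (nat_lit 754111856) (nat_lit 152) (nat_lit 2445982508) (nat_lit 228) (nat_lit 60231369917) (nat_lit 38) (nat_lit 5) (nat_lit 40) (nat_lit 5) (nat_lit 41) (nat_lit 5) (nat_lit 475) (nat_lit 360) (nat_lit 185)))))) (XT.nd (nat_lit 546) (nat_lit 228) (nat_lit 0) (XT.nd (nat_lit 234) (nat_lit 228) (nat_lit 0) (XT.nd (nat_lit 78) (nat_lit 76) (nat_lit 0) (XT.lf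 (nat_lit 0) (nat_lit 17179007832) (nat_lit 228) (nat_lit 34240390306) (nat_lit 76) (nat_lit 13436919780) (nat_lit 38) (nat_lit 5) (nat_lit 41) (nat_lit 5) (nat_lit 39) (nat_lit 4) (nat_lit 476) (nat_lit 360) (nat_lit 184)) (XT.nd (nat_lit 78) (nat_lit 76) (nat_lit 0) (XT.lf (nat_lit 0) (nat_lit 31596373009) (nat_lit 228) (nat_lit 4984279219) (nat_lit 76) (nat_lit 29742692690) (nat_lit 38) (nat_lit 5) (nat_lit 41) (nat_lit 5) (nat_lit 39) (nat_lit 4) (nat_lit 477) (nat_lit 360) (nat_lit 183)) (XT.lf (nat_lit 0) (nat_lit 25640393130) (nat_lit 76) (nat_lit 21047353328) (nat_lit 152) (nat_lit 21139391927) (nat_lit 37) (nat_lit 5) (nat_lit 38) (nat_lit 5) (nat_lit 39) (nat_lit 4) (nat_lit 478) (nat_lit 360) (nat_lit 182)))) (XT.nd (nat_lit 156) (nat_lit 76) (nat_lit 0) (XT.nd (nat_lit 78) (nat_lit 152) (nat_lit 0) (XT.lf (nat_lit 0) (nat_lit 57276612725) (nat_lit 76) (nat_lit 5000651133) (nat_lit 152) (nat_lit 7097419979)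 (nat_lit 37) (nat_lit 5) (nat_lit 38) (nat_lit 5) (nat_lit 39) (nat_lit 4) (nat_lit 479) (nat_lit 360) (nat_lit 181)) (XT.lf (nat_lit 0) (nat_lit 7514982917) (nat_lit 152) (nat_lit 51886747581) (nat_lit 76) (nat_lit 11556014108) (nat_lit 35) (nat_lit 5) (nat_lit 37) (nat_lit 5) (nat_lit 36) (nat_lit 4) (nat_lit 480) (nat_lit 360) (nat_lit 180))) (XT.nd (nat_lit 78) (nat_lit 76) (nat_lit 0) (XT.lf (nat_lit 0) (nat_lit 22591173546) (nat_lit 152) (nat_lit 21291690259) (nat_lit 76) (nat_lit 28698283490) (nat_lit 35) (nat_lit 5) (nat_lit 37) (nat_lit 5) (nat_lit 36) (nat_lit 4) (nat_lit 481) (nat_lit 360) (nat_lit 179)) (XT.lf (nat_lit 0) (nat_lit 10415529871) (nat_lit 76) (nat_lit 27799559878) (nat_lit 152) (nat_lit 36035299355) (nat_lit 34) (nat_lit 5) (nat_lit 35) (nat_lit 5) (nat_lit 36) (nat_lit 4) (nat_lit 482) (nat_lit 360) (nat_lit 178))))) (XT.nd (nat_lit 312) (nat_lit 76) (nat_lit 0) (XT.nd (nat_lit 156) (nat_lit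 152) (nat_lit 0) (XT.nd (nat_lit 78) (nat_lit 0) (nat_lit 0) (XT.lf (nat_lit 0) (nat_lit 43501579550) (nat_lit 76) (nat_lit 11016518918) (nat_lit 152) (nat_lit 21445298679) (nat_lit 34) (nat_lit 5) (nat_lit 35) (nat_lit 5) (nat_lit 36) (nat_lit 4) (nat_lit 483) (nat_lit 360) (nat_lit 177)) (XT.lf (nat_lit 0) (nat_lit 71365934842) (nat_lit 152) (nat_lit 216539808) (nat_lit 0) (nat_lit 6143648883) (nat_lit 34) (nat_lit 5) (nat_lit 36) (nat_lit 4) (nat_lit 34) (nat_lit 4) (nat_lit 484) (nat_lit 360) (nat_lit 176))) (XT.nd (nat_lit 78) (nat_lit 0) (nat_lit 0) (XT.lf (nat_lit 0) (nat_lit 9429628450) (nat_lit 152) (nat_lit 46088429576) (nat_lit 76) (nat_lit 24008090126) (nat_lit 32) (nat_lit 5) (nat_lit 34) (nat_lit 5) (nat_lit 33) (nat_lit 4) (nat_lit 485) (nat_lit 360) (nat_lit 175)) (XT.lf (nat_lit 0) (nat_lit 25563117775) (nat_lit 152) (nat_lit 13345494180) (nat_lit 76) (nat_lit 42469738259) (nat_lit 32) (nat_lit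 5) (nat_lit 34) (nat_lit 5) (nat_lit 33) (nat_lit 4) (nat_lit 486) (nat_lit 360) (nat_lit 174)))) (XT.nd (nat_lit 43368) (nat_lit 0) (nat_lit 20748) (XT.nd (nat_lit 43290) (nat_lit 0) (nat_lit 20748) (XT.lf (nat_lit 0) (nat_lit 20776972534) (nat_lit 76) (nat_lit 21599091174) (nat_lit 152) (nat_lit 40904191271) (nat_lit 31) (nat_lit 5) (nat_lit 32) (nat_lit 5) (nat_lit 33) (nat_lit 4) (nat_lit 487) (nat_lit 360) (nat_lit 173)) (XT.lf (nat_lit 0) (nat_lit 264953689) (nat_lit 0) (nat_lit 264953689) (nat_lit 988) (nat_lit 3632313158) (nat_lit 304) (nat_lit 5) (nat_lit 304) (nat_lit 3) (nat_lit 317) (nat_lit 3) (nat_lit 361) (nat_lit 361) (nat_lit 298))) (XT.nd (nat_lit 78) (nat_lit 0) (nat_lit 0) (XT.lf (nat_lit 0) (nat_lit 2183788024) (nat_lit 988) (nat_lit 3753364554) (nat_lit 1064) (nat_lit 2478509523) (nat_lit 304) (nat_lit 5) (nat_lit 317) (nat_lit 3) (nat_lit 318) (nat_lit 5) (nat_lit 362) (nat_lit 361) (nat_lit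 297)) (XT.lf (nat_lit 76) (nat_lit 388742493) (nat_lit 0) (nat_lit 2919627942) (nat_lit 1064) (nat_lit 5202258368) (nat_lit 305) (nat_lit 5) (nat_lit 304) (nat_lit 5) (nat_lit 318) (nat_lit 5) (nat_lit 363) (nat_lit 361) (nat_lit 296))))))))
noncomputable def xc151 : XT := (XT.nd (nat_lit 2262) (nat_lit 6764) (nat_lit 0) (XT.nd (nat_lit 1092) (nat_lit 5852) (nat_lit 0) (XT.nd (nat_lit 546) (nat_lit 912) (nat_lit 0) (XT.nd (nat_lit 234) (nat_lit 988) (nat_lit 0) (XT.nd (nat_lit 78) (nat_lit 0) (nat_lit 0) (XT.lf (nat_lit 0) (nat_lit 4465874960) (nat_lit 988) (nat_lit 3901282529) (nat_lit 1064) (nat_lit 241326756) (nat_lit 305) (nat_lit 5) (nat_lit 318) (nat_lit 5) (nat_lit 319) (nat_lit 5) (nat_lit 364) (nat_lit 361) (nat_lit 295)) (XT.nd (nat_lit 78) (nat_lit 0) (nat_lit 0) (XT.lf (nat_lit 76) (nat_lit 401724032) (nat_lit 0) (nat_lit 5249437302) (nat_lit 1064) (nat_lit 3058337154) (nat_lit 306) (nat_lit 5) (nat_lit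 305) (nat_lit 5) (nat_lit 319) (nat_lit 5) (nat_lit 365) (nat_lit 361) (nat_lit 294)) (XT.lf (nat_lit 76) (nat_lit 4890872983) (nat_lit 0) (nat_lit 1981752847) (nat_lit 1064) (nat_lit 1940913145) (nat_lit 306) (nat_lit 5) (nat_lit 305) (nat_lit 5) (nat_lit 319) (nat_lit 5) (nat_lit 366) (nat_lit 361) (nat_lit 293)))) (XT.nd (nat_lit 156) (nat_lit 0) (nat_lit 0) (XT.nd (nat_lit 78) (nat_lit 1064) (nat_lit 0) (XT.lf (nat_lit 76) (nat_lit 568236532) (nat_lit 0) (nat_lit 7543765050) (nat_lit 1064) (nat_lit 809275060) (nat_lit 307) (nat_lit 5) (nat_lit 306) (nat_lit 5) (nat_lit 320) (nat_lit 5) (nat_lit 367) (nat_lit 361) (nat_lit 292)) (XT.lf (nat_lit 0) (nat_lit 371977663) (nat_lit 1064) (nat_lit 3804282658) (nat_lit 1140) (nat_lit 4855217994) (nat_lit 292) (nat_lit 5) (nat_lit 306) (nat_lit 5) (nat_lit 307) (nat_lit 5) (nat_lit 368) (nat_lit 361) (nat_lit 291))) (XT.nd (nat_lit 78) (nat_lit 0) (nat_lit 76) (XT.lf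 (nat_lit 76) (nat_lit 866470821) (nat_lit 0) (nat_lit 678332111) (nat_lit 1140) (nat_lit 7600783509) (nat_lit 293) (nat_lit 5) (nat_lit 292) (nat_lit 5) (nat_lit 307) (nat_lit 5) (nat_lit 369) (nat_lit 361) (nat_lit 290)) (XT.lf (nat_lit 0) (nat_lit 2784732229) (nat_lit 1064) (nat_lit 3559440762) (nat_lit 1140) (nat_lit 2917999666) (nat_lit 293) (nat_lit 5) (nat_lit 307) (nat_lit 5) (nat_lit 308) (nat_lit 5) (nat_lit 370) (nat_lit 361) (nat_lit 289))))) (XT.nd (nat_lit 234) (nat_lit 988) (nat_lit 0) (XT.nd (nat_lit 78) (nat_lit 0) (nat_lit 76) (XT.lf (nat_lit 76) (nat_lit 1296808113) (nat_lit 0) (nat_lit 2750262980) (nat_lit 1140) (nat_lit 5335641079) (nat_lit 294) (nat_lit 5) (nat_lit 293) (nat_lit 5) (nat_lit 308) (nat_lit 5) (nat_lit 371) (nat_lit 361) (nat_lit 288)) (XT.nd (nat_lit 78) (nat_lit 0) (nat_lit 0) (XT.lf (nat_lit 0) (nat_lit 5359614487) (nat_lit 1064) (nat_lit 3168058426) (nat_lit 1140) (nat_lit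 978836641) (nat_lit 294) (nat_lit 5) (nat_lit 308) (nat_lit 5) (nat_lit 309) (nat_lit 5) (nat_lit 372) (nat_lit 361) (nat_lit 287)) (XT.lf (nat_lit 76) (nat_lit 1883074295) (nat_lit 0) (nat_lit 4841644931) (nat_lit 1140) (nat_lit 2908917451) (nat_lit 295) (nat_lit 5) (nat_lit 294) (nat_lit 5) (nat_lit 309) (nat_lit 5) (nat_lit 373) (nat_lit 361) (nat_lit 286)))) (XT.nd (nat_lit 156) (nat_lit 1064) (nat_lit 0) (XT.nd (nat_lit 78) (nat_lit 0) (nat_lit 76) (XT.lf (nat_lit 76) (nat_lit 7127152550) (nat_lit 0) (nat_lit 1004179309) (nat_lit 1140) (nat_lit 1633240152) (nat_lit 295) (nat_lit 5) (nat_lit 294) (nat_lit 5) (nat_lit 309) (nat_lit 5) (nat_lit 374) (nat_lit 361) (nat_lit 285)) (XT.lf (nat_lit 76) (nat_lit 2628216483) (nat_lit 0) (nat_lit 6975085314) (nat_lit 1140) (nat_lit 295449558) (nat_lit 296) (nat_lit 5) (nat_lit 295) (nat_lit 5) (nat_lit 310) (nat_lit 5) (nat_lit 375) (nat_lit 361) (nat_lit 284))) (XT.nd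 (nat_lit 78) (nat_lit 0) (nat_lit 76) (XT.lf (nat_lit 0) (nat_lit 1068098289) (nat_lit 1140) (nat_lit 1975103078) (nat_lit 1216) (nat_lit 6993250257) (nat_lit 280) (nat_lit 5) (nat_lit 295) (nat_lit 5) (nat_lit 296) (nat_lit 5) (nat_lit 376) (nat_lit 361) (nat_lit 283)) (XT.lf (nat_lit 0) (nat_lit 2481344345) (nat_lit 1140) (nat_lit 6666693390) (nat_lit 76) (nat_lit 1029725317) (nat_lit 281) (nat_lit 5) (nat_lit 296) (nat_lit 5) (nat_lit 282) (nat_lit 5) (nat_lit 377) (nat_lit 361) (nat_lit 282)))))) (XT.nd (nat_lit 546) (nat_lit 2204) (nat_lit 0) (XT.nd (nat_lit 234) (nat_lit 2584) (nat_lit 0) (XT.nd (nat_lit 78) (nat_lit 1140) (nat_lit 0) (XT.lf (nat_lit 0) (nat_lit 3958722905) (nat_lit 1140) (nat_lit 1174931110) (nat_lit 76) (nat_lit 5189017279) (nat_lit 281) (nat_lit 5) (nat_lit 296) (nat_lit 5) (nat_lit 282) (nat_lit 5) (nat_lit 378) (nat_lit 361) (nat_lit 281)) (XT.nd (nat_lit 78) (nat_lit 0) (nat_lit 0)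 (XT.lf (nat_lit 0) (nat_lit 4546810919) (nat_lit 1140) (nat_lit 949612100) (nat_lit 1216) (nat_lit 4975033001) (nat_lit 266) (nat_lit 5) (nat_lit 281) (nat_lit 5) (nat_lit 282) (nat_lit 5) (nat_lit 379) (nat_lit 361) (nat_lit 280)) (XT.lf (nat_lit 0) (nat_lit 7097447876) (nat_lit 1216) (nat_lit 216600728) (nat_lit 76) (nat_lit 3310148850) (nat_lit 266) (nat_lit 5) (nat_lit 282) (nat_lit 5) (nat_lit 267) (nat_lit 5) (nat_lit 380) (nat_lit 361) (nat_lit 279)))) (XT.nd (nat_lit 156) (nat_lit 684) (nat_lit 0) (XT.nd (nat_lit 78) (nat_lit 684) (nat_lit 0) (XT.lf (nat_lit 0) (nat_lit 5741903688) (nat_lit 1216) (nat_lit 3042899357) (nat_lit 1292) (nat_lit 1995577813) (nat_lit 250) (nat_lit 5) (nat_lit 266) (nat_lit 5) (nat_lit 267) (nat_lit 5) (nat_lit 381) (nat_lit 361) (nat_lit 278)) (XT.lf (nat_lit 0) (nat_lit 923377101) (nat_lit 684) (nat_lit 9597795486) (nat_lit 760) (nat_lit 420133826) (nat_lit 241) (nat_lit 5)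 (nat_lit 250) (nat_lit 5) (nat_lit 251) (nat_lit 5) (nat_lit 382) (nat_lit 361) (nat_lit 277))) (XT.nd (nat_lit 78) (nat_lit 608) (nat_lit 0) (XT.lf (nat_lit 0) (nat_lit 1235150819) (nat_lit 760) (nat_lit 4004633826) (nat_lit 76) (nat_lit 5865254953) (nat_lit 240) (nat_lit 5) (nat_lit 250) (nat_lit 5) (nat_lit 241) (nat_lit 5) (nat_lit 383) (nat_lit 361) (nat_lit 276)) (XT.lf (nat_lit 0) (nat_lit 2204342673) (nat_lit 608) (nat_lit 723771960) (nat_lit 684) (nat_lit 8345559150) (nat_lit 232) (nat_lit 5) (nat_lit 240) (nat_lit 5) (nat_lit 241) (nat_lit 5) (nat_lit 384) (nat_lit 361) (nat_lit 275))))) (XT.nd (nat_lit 312) (nat_lit 1064) (nat_lit 0) (XT.nd (nat_lit 156) (nat_lit 532) (nat_lit 0) (XT.nd (nat_lit 78) (nat_lit 608) (nat_lit 0) (XT.lf (nat_lit 0) (nat_lit 4726242053) (nat_lit 684) (nat_lit 2826714912) (nat_lit 76) (nat_lit 3892786304) (nat_lit 232) (nat_lit 5) (nat_lit 241) (nat_lit 5) (nat_lit 233) (nat_lit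 5) (nat_lit 385) (nat_lit 361) (nat_lit 274)) (XT.lf (nat_lit 0) (nat_lit 3643732980) (nat_lit 608) (nat_lit 2953257310) (nat_lit 684) (nat_lit 5025431539) (nat_lit 224) (nat_lit 5) (nat_lit 232) (nat_lit 5) (nat_lit 233) (nat_lit 5) (nat_lit 386) (nat_lit 361) (nat_lit 273))) (XT.nd (nat_lit 78) (nat_lit 532) (nat_lit 0) (XT.lf (nat_lit 0) (nat_lit 8546787434) (nat_lit 684) (nat_lit 1478592434) (nat_lit 76) (nat_lit 1778340170) (nat_lit 224) (nat_lit 5) (nat_lit 233) (nat_lit 5) (nat_lit 225) (nat_lit 5) (nat_lit 387) (nat_lit 361) (nat_lit 272)) (XT.lf (nat_lit 0) (nat_lit 5266885790) (nat_lit 532) (nat_lit 5345679362) (nat_lit 608) (nat_lit 1376174320) (nat_lit 217) (nat_lit 5) (nat_lit 224) (nat_lit 5) (nat_lit 225) (nat_lit 5) (nat_lit 388) (nat_lit 361) (nat_lit 271)))) (XT.nd (nat_lit 156) (nat_lit 456) (nat_lit 0) (XT.nd (nat_lit 78) (nat_lit 0) (nat_lit 0) (XT.lf (nat_lit 0) (nat_lit 37999839) (nat_lit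 532) (nat_lit 505329172) (nat_lit 608) (nat_lit 11636027095) (nat_lit 209) (nat_lit 5) (nat_lit 216) (nat_lit 5) (nat_lit 217) (nat_lit 5) (nat_lit 389) (nat_lit 361) (nat_lit 270)) (XT.lf (nat_lit 0) (nat_lit 2582609504) (nat_lit 608) (nat_lit 5316372604) (nat_lit 76) (nat_lit 4473611107) (nat_lit 209) (nat_lit 5) (nat_lit 217) (nat_lit 5) (nat_lit 210) (nat_lit 5) (nat_lit 390) (nat_lit 361) (nat_lit 269))) (XT.nd (nat_lit 78) (nat_lit 0) (nat_lit 0) (XT.lf (nat_lit 0) (nat_lit 1718796442) (nat_lit 456) (nat_lit 2964666748) (nat_lit 532) (nat_lit 7888158518) (nat_lit 203) (nat_lit 5) (nat_lit 209) (nat_lit 5) (nat_lit 210) (nat_lit 5) (nat_lit 391) (nat_lit 361) (nat_lit 268)) (XT.lf (nat_lit 0) (nat_lit 6901159782) (nat_lit 532) (nat_lit 3745379191) (nat_lit 76) (nat_lit 2128473497) (nat_lit 203) (nat_lit 5) (nat_lit 210) (nat_lit 5) (nat_lit 204) (nat_lit 5) (nat_lit 392) (nat_lit 361) (nat_lit 267))))))) (XT.nd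 (nat_lit 1092) (nat_lit 3040) (nat_lit 0) (XT.nd (nat_lit 546) (nat_lit 1748) (nat_lit 0) (XT.nd (nat_lit 234) (nat_lit 912) (nat_lit 0) (XT.nd (nat_lit 78) (nat_lit 532) (nat_lit 0) (XT.lf (nat_lit 0) (nat_lit 3593256724) (nat_lit 532) (nat_lit 5635873202) (nat_lit 608) (nat_lit 3754068512) (nat_lit 196) (nat_lit 5) (nat_lit 203) (nat_lit 5) (nat_lit 204) (nat_lit 5) (nat_lit 393) (nat_lit 361) (nat_lit 266)) (XT.nd (nat_lit 78) (nat_lit 532) (nat_lit 0) (XT.lf (nat_lit 0) (nat_lit 11206254040) (nat_lit 532) (nat_lit 438724983) (nat_lit 608) (nat_lit 1552115358) (nat_lit 196) (nat_lit 5) (nat_lit 203) (nat_lit 5) (nat_lit 204) (nat_lit 5) (nat_lit 394) (nat_lit 361) (nat_lit 265)) (XT.lf (nat_lit 0) (nat_lit 785261900) (nat_lit 532) (nat_lit 7751448121) (nat_lit 76) (nat_lit 4877995950) (nat_lit 189) (nat_lit 5) (nat_lit 196) (nat_lit 5) (nat_lit 190) (nat_lit 5) (nat_lit 395) (nat_lit 361) (nat_lit 264)))) (XT.nd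 (nat_lit 156) (nat_lit 456) (nat_lit 0) (XT.nd (nat_lit 78) (nat_lit 456) (nat_lit 0) (XT.lf (nat_lit 0) (nat_lit 3167133961) (nat_lit 532) (nat_lit 93000632) (nat_lit 76) (nat_lit 10378088325) (nat_lit 189) (nat_lit 5) (nat_lit 196) (nat_lit 5) (nat_lit 190) (nat_lit 5) (nat_lit 396) (nat_lit 361) (nat_lit 263)) (XT.lf (nat_lit 0) (nat_lit 5699775143) (nat_lit 532) (nat_lit 5960420749) (nat_lit 76) (nat_lit 2205875063) (nat_lit 183) (nat_lit 5) (nat_lit 190) (nat_lit 5) (nat_lit 184) (nat_lit 5) (nat_lit 397) (nat_lit 361) (nat_lit 262))) (XT.nd (nat_lit 78) (nat_lit 0) (nat_lit 0) (XT.lf (nat_lit 0) (nat_lit 2030496979) (nat_lit 456) (nat_lit 6312418549) (nat_lit 532) (nat_lit 5756808131) (nat_lit 177) (nat_lit 5) (nat_lit 183) (nat_lit 5) (nat_lit 184) (nat_lit 5) (nat_lit 398) (nat_lit 361) (nat_lit 261)) (XT.lf (nat_lit 0) (nat_lit 10361265232) (nat_lit 456) (nat_lit 746366847) (nat_lit 532) (nat_lit 3231490092)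 (nat_lit 177) (nat_lit 5) (nat_lit 183) (nat_lit 5) (nat_lit 184) (nat_lit 5) (nat_lit 399) (nat_lit 361) (nat_lit 260))))) (XT.nd (nat_lit 234) (nat_lit 836) (nat_lit 0) (XT.nd (nat_lit 78) (nat_lit 456) (nat_lit 0) (XT.lf (nat_lit 0) (nat_lit 4371722444) (nat_lit 456) (nat_lit 9656102424) (nat_lit 532) (nat_lit 555706276) (nat_lit 171) (nat_lit 5) (nat_lit 177) (nat_lit 5) (nat_lit 178) (nat_lit 5) (nat_lit 400) (nat_lit 361) (nat_lit 259)) (XT.nd (nat_lit 78) (nat_lit 380) (nat_lit 0) (XT.lf (nat_lit 0) (nat_lit 2188071608) (nat_lit 532) (nat_lit 1831712976) (nat_lit 76) (nat_lit 10813937835) (nat_lit 170) (nat_lit 5) (nat_lit 177) (nat_lit 5) (nat_lit 171) (nat_lit 5) (nat_lit 401) (nat_lit 361) (nat_lit 258)) (XT.lf (nat_lit 0) (nat_lit 5070431852) (nat_lit 456) (nat_lit 8199921752) (nat_lit 76) (nat_lit 1818881787) (nat_lit 165) (nat_lit 5) (nat_lit 171) (nat_lit 5) (nat_lit 166) (nat_lit 5) (nat_lit 402)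 (nat_lit 361) (nat_lit 257)))) (XT.nd (nat_lit 156) (nat_lit 456) (nat_lit 0) (XT.nd (nat_lit 78) (nat_lit 0) (nat_lit 0) (XT.lf (nat_lit 0) (nat_lit 505908520) (nat_lit 380) (nat_lit 7580142865) (nat_lit 456) (nat_lit 7264962750) (nat_lit 160) (nat_lit 5) (nat_lit 165) (nat_lit 5) (nat_lit 166) (nat_lit 5) (nat_lit 403) (nat_lit 361) (nat_lit 256)) (XT.lf (nat_lit 0) (nat_lit 9619575105) (nat_lit 380) (nat_lit 1639089396) (nat_lit 456) (nat_lit 4359989916) (nat_lit 160) (nat_lit 5) (nat_lit 165) (nat_lit 5) (nat_lit 166) (nat_lit 5) (nat_lit 404) (nat_lit 361) (nat_lit 255))) (XT.nd (nat_lit 78) (nat_lit 76) (nat_lit 0) (XT.lf (nat_lit 0) (nat_lit 3108688442) (nat_lit 380) (nat_lit 11474864480) (nat_lit 456) (nat_lit 1309061886) (nat_lit 155) (nat_lit 5) (nat_lit 160) (nat_lit 5) (nat_lit 161) (nat_lit 5) (nat_lit 405) (nat_lit 361) (nat_lit 254)) (XT.lf (nat_lit 0) (nat_lit 1859274699) (nat_lit 456) (nat_lit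 3616107814) (nat_lit 76) (nat_lit 10697036673) (nat_lit 154) (nat_lit 5) (nat_lit 160) (nat_lit 5) (nat_lit 155) (nat_lit 5) (nat_lit 406) (nat_lit 361) (nat_lit 253)))))) (XT.nd (nat_lit 546) (nat_lit 1596) (nat_lit 0) (XT.nd (nat_lit 234) (nat_lit 760) (nat_lit 0) (XT.nd (nat_lit 78) (nat_lit 304) (nat_lit 0) (XT.lf (nat_lit 0) (nat_lit 5145260055) (nat_lit 456) (nat_lit 10558038095) (nat_lit 76) (nat_lit 755466915) (nat_lit 149) (nat_lit 5) (nat_lit 155) (nat_lit 5) (nat_lit 150) (nat_lit 5) (nat_lit 407) (nat_lit 361) (nat_lit 252)) (XT.nd (nat_lit 78) (nat_lit 304) (nat_lit 0) (XT.lf (nat_lit 0) (nat_lit 8605817592) (nat_lit 456) (nat_lit 1050906427) (nat_lit 76) (nat_lit 7094700907) (nat_lit 149) (nat_lit 5) (nat_lit 155) (nat_lit 5) (nat_lit 150) (nat_lit 5) (nat_lit 408) (nat_lit 361) (nat_lit 251)) (XT.lf (nat_lit 0) (nat_lit 8894695288) (nat_lit 304) (nat_lit 3346341288) (nat_lit 380) (nat_lit 4809705950)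 (nat_lit 145) (nat_lit 5) (nat_lit 149) (nat_lit 5) (nat_lit 150) (nat_lit 5) (nat_lit 409) (nat_lit 361) (nat_lit 250)))) (XT.nd (nat_lit 156) (nat_lit 304) (nat_lit 0) (XT.nd (nat_lit 78) (nat_lit 76) (nat_lit 0) (XT.lf (nat_lit 0) (nat_lit 1785415673) (nat_lit 380) (nat_lit 14243610425) (nat_lit 456) (nat_lit 1328705328) (nat_lit 140) (nat_lit 5) (nat_lit 145) (nat_lit 5) (nat_lit 146) (nat_lit 5) (nat_lit 410) (nat_lit 361) (nat_lit 249)) (XT.lf (nat_lit 0) (nat_lit 2314600912) (nat_lit 456) (nat_lit 5555368395) (nat_lit 76) (nat_lit 9800255529) (nat_lit 139) (nat_lit 5) (nat_lit 145) (nat_lit 5) (nat_lit 140) (nat_lit 5) (nat_lit 411) (nat_lit 361) (nat_lit 248))) (XT.nd (nat_lit 78) (nat_lit 0) (nat_lit 0) (XT.lf (nat_lit 0) (nat_lit 4823064641) (nat_lit 304) (nat_lit 1249822377) (nat_lit 380) (nat_lit 11917842693) (nat_lit 135) (nat_lit 5) (nat_lit 139) (nat_lit 5) (nat_lit 140) (nat_lit 5) (nat_lit 412)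 (nat_lit 361) (nat_lit 247)) (XT.lf (nat_lit 0) (nat_lit 10040290433) (nat_lit 380) (nat_lit 2766668255) (nat_lit 76) (nat_lit 5511002819) (nat_lit 135) (nat_lit 5) (nat_lit 140) (nat_lit 5) (nat_lit 136) (nat_lit 5) (nat_lit 413) (nat_lit 361) (nat_lit 246))))) (XT.nd (nat_lit 312) (nat_lit 608) (nat_lit 0) (XT.nd (nat_lit 156) (nat_lit 380) (nat_lit 0) (XT.nd (nat_lit 78) (nat_lit 304) (nat_lit 0) (XT.lf (nat_lit 0) (nat_lit 8071938954) (nat_lit 304) (nat_lit 6131329341) (nat_lit 380) (nat_lit 4449448142) (nat_lit 131) (nat_lit 5) (nat_lit 135) (nat_lit 5) (nat_lit 136) (nat_lit 5) (nat_lit 414) (nat_lit 361) (nat_lit 245)) (XT.lf (nat_lit 0) (nat_lit 273948658) (nat_lit 304) (nat_lit 18241922822) (nat_lit 380) (nat_lit 480903127) (nat_lit 127) (nat_lit 5) (nat_lit 131) (nat_lit 5) (nat_lit 132) (nat_lit 5) (nat_lit 415) (nat_lit 361) (nat_lit 244))) (XT.nd (nat_lit 78) (nat_lit 304) (nat_lit 0) (XT.lf (nat_lit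 0) (nat_lit 3691725572) (nat_lit 380) (nat_lit 7792948679) (nat_lit 76) (nat_lit 7860780486) (nat_lit 126) (nat_lit 5) (nat_lit 131) (nat_lit 5) (nat_lit 127) (nat_lit 5) (nat_lit 416) (nat_lit 361) (nat_lit 243)) (XT.lf (nat_lit 0) (nat_lit 3509341675) (nat_lit 304) (nat_lit 4491442048) (nat_lit 380) (nat_lit 11703043661) (nat_lit 122) (nat_lit 5) (nat_lit 126) (nat_lit 5) (nat_lit 127) (nat_lit 5) (nat_lit 417) (nat_lit 361) (nat_lit 242)))) (XT.nd (nat_lit 156) (nat_lit 380) (nat_lit 0) (XT.nd (nat_lit 78) (nat_lit 228) (nat_lit 0) (XT.lf (nat_lit 0) (nat_lit 12531963198) (nat_lit 380) (nat_lit 4806319696) (nat_lit 76) (nat_lit 2731885203) (nat_lit 122) (nat_lit 5) (nat_lit 127) (nat_lit 5) (nat_lit 123) (nat_lit 5) (nat_lit 418) (nat_lit 361) (nat_lit 241)) (XT.lf (nat_lit 0) (nat_lit 6996783874) (nat_lit 228) (nat_lit 10301702341) (nat_lit 304) (nat_lit 3146032877) (nat_lit 119) (nat_lit 5) (nat_lit 122) (nat_lit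 5) (nat_lit 123) (nat_lit 5) (nat_lit 419) (nat_lit 361) (nat_lit 240))) (XT.nd (nat_lit 78) (nat_lit 304) (nat_lit 0) (XT.lf (nat_lit 0) (nat_lit 1387770204) (nat_lit 304) (nat_lit 1608697316) (nat_lit 76) (nat_lit 17832135297) (nat_lit 118) (nat_lit 5) (nat_lit 122) (nat_lit 5) (nat_lit 119) (nat_lit 5) (nat_lit 420) (nat_lit 361) (nat_lit 239)) (XT.lf (nat_lit 0) (nat_lit 6130541056) (nat_lit 380) (nat_lit 10519562251) (nat_lit 76) (nat_lit 4569087817) (nat_lit 114) (nat_lit 5) (nat_lit 119) (nat_lit 5) (nat_lit 115) (nat_lit 5) (nat_lit 421) (nat_lit 361) (nat_lit 238))))))))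
noncomputable def xc152 : XT := (XT.nd (nat_lit 2184) (nat_lit 2280) (nat_lit 0) (XT.nd (nat_lit 1092) (nat_lit 1520) (nat_lit 0) (XT.nd (nat_lit 546) (nat_lit 988) (nat_lit 0) (XT.nd (nat_lit 234) (nat_lit 532) (nat_lit 0) (XT.nd (nat_lit 78) (nat_lit 228) (nat_lit 0) (XT.lf (nat_lit 0) (nat_lit 1775593943) (nat_lit 228) (nat_lit 9291350085) (nat_lit 304) (nat_lit 10553014630) (nat_lit 111) (nat_lit 5) (nat_lit 114) (nat_lit 5) (nat_lit 115) (nat_lit 5) (nat_lit 422) (nat_lit 361) (nat_lit 237)) (XT.nd (nat_lit 78) (nat_lit 228) (nat_lit 0) (XT.lf (nat_lit 0) (nat_lit 14637028616) (nat_lit 228) (nat_lit 1609013164) (nat_lit 304) (nat_lit 5783871344) (nat_lit 111) (nat_lit 5) (nat_lit 114) (nat_lit 5) (nat_lit 115) (nat_lit 5) (nat_lit 423) (nat_lit 361) (nat_lit 236)) (XT.lf (nat_lit 0) (nat_lit 5460125594) (nat_lit 228) (nat_lit 16222121645) (nat_lit 304) (nat_lit 766868873) (nat_lit 108) (nat_lit 5) (nat_lit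 111) (nat_lit 5) (nat_lit 112) (nat_lit 5) (nat_lit 424) (nat_lit 361) (nat_lit 235)))) (XT.nd (nat_lit 156) (nat_lit 228) (nat_lit 0) (XT.nd (nat_lit 78) (nat_lit 228) (nat_lit 0) (XT.lf (nat_lit 0) (nat_lit 4394794547) (nat_lit 304) (nat_lit 4105370232) (nat_lit 76) (nat_lit 14377062480) (nat_lit 107) (nat_lit 5) (nat_lit 111) (nat_lit 5) (nat_lit 108) (nat_lit 5) (nat_lit 425) (nat_lit 361) (nat_lit 234)) (XT.lf (nat_lit 0) (nat_lit 9321572192) (nat_lit 228) (nat_lit 452955839) (nat_lit 304) (nat_lit 13541068689) (nat_lit 104) (nat_lit 5) (nat_lit 107) (nat_lit 5) (nat_lit 108) (nat_lit 5) (nat_lit 426) (nat_lit 361) (nat_lit 233))) (XT.nd (nat_lit 78) (nat_lit 228) (nat_lit 0) (XT.lf (nat_lit 0) (nat_lit 15421960794) (nat_lit 304) (nat_lit 623709766) (nat_lit 76) (nat_lit 7718259203) (nat_lit 104) (nat_lit 5) (nat_lit 108) (nat_lit 5) (nat_lit 105) (nat_lit 5) (nat_lit 427) (nat_lit 361) (nat_lit 232)) (XT.lf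 (nat_lit 0) (nat_lit 13387394722) (nat_lit 228) (nat_lit 7974030645) (nat_lit 304) (nat_lit 2860610829) (nat_lit 101) (nat_lit 5) (nat_lit 104) (nat_lit 5) (nat_lit 105) (nat_lit 5) (nat_lit 428) (nat_lit 361) (nat_lit 231))))) (XT.nd (nat_lit 234) (nat_lit 456) (nat_lit 0) (XT.nd (nat_lit 78) (nat_lit 228) (nat_lit 0) (XT.lf (nat_lit 0) (nat_lit 2760840380) (nat_lit 304) (nat_lit 21540583309) (nat_lit 76) (nat_lit 390760472) (nat_lit 97) (nat_lit 5) (nat_lit 101) (nat_lit 5) (nat_lit 98) (nat_lit 5) (nat_lit 429) (nat_lit 361) (nat_lit 230)) (XT.nd (nat_lit 78) (nat_lit 228) (nat_lit 0) (XT.lf (nat_lit 0) (nat_lit 8672439575) (nat_lit 304) (nat_lit 7519178184) (nat_lit 76) (nat_lit 8978600647) (nat_lit 97) (nat_lit 5) (nat_lit 101) (nat_lit 5) (nat_lit 98) (nat_lit 5) (nat_lit 430) (nat_lit 361) (nat_lit 229)) (XT.lf (nat_lit 0) (nat_lit 7043619436) (nat_lit 228) (nat_lit 7775336253) (nat_lit 304) (nat_lit 10841912401)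 (nat_lit 94) (nat_lit 5) (nat_lit 97) (nat_lit 5) (nat_lit 98) (nat_lit 5) (nat_lit 431) (nat_lit 361) (nat_lit 228)))) (XT.nd (nat_lit 156) (nat_lit 228) (nat_lit 0) (XT.nd (nat_lit 78) (nat_lit 228) (nat_lit 0) (XT.lf (nat_lit 0) (nat_lit 21225071222) (nat_lit 304) (nat_lit 3992633719) (nat_lit 76) (nat_lit 946277641) (nat_lit 94) (nat_lit 5) (nat_lit 98) (nat_lit 5) (nat_lit 95) (nat_lit 5) (nat_lit 432) (nat_lit 361) (nat_lit 227)) (XT.lf (nat_lit 0) (nat_lit 1295474596) (nat_lit 228) (nat_lit 15493721247) (nat_lit 76) (nat_lit 9887370026) (nat_lit 91) (nat_lit 5) (nat_lit 94) (nat_lit 5) (nat_lit 92) (nat_lit 5) (nat_lit 433) (nat_lit 361) (nat_lit 226))) (XT.nd (nat_lit 78) (nat_lit 228) (nat_lit 0) (XT.lf (nat_lit 0) (nat_lit 7648602831) (nat_lit 228) (nat_lit 373502143) (nat_lit 76) (nat_lit 19180026653) (nat_lit 91) (nat_lit 5) (nat_lit 94) (nat_lit 5) (nat_lit 92) (nat_lit 5) (nat_lit 434) (nat_lit 361)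 (nat_lit 225)) (XT.lf (nat_lit 0) (nat_lit 14342839037) (nat_lit 304) (nat_lit 12263703666) (nat_lit 76) (nat_lit 1132407508) (nat_lit 88) (nat_lit 5) (nat_lit 92) (nat_lit 5) (nat_lit 89) (nat_lit 5) (nat_lit 435) (nat_lit 361) (nat_lit 224)))))) (XT.nd (nat_lit 546) (nat_lit 684) (nat_lit 0) (XT.nd (nat_lit 234) (nat_lit 380) (nat_lit 0) (XT.nd (nat_lit 78) (nat_lit 304) (nat_lit 0) (XT.lf (nat_lit 0) (nat_lit 3488046580) (nat_lit 152) (nat_lit 17857228877) (nat_lit 228) (nat_lit 6943377939) (nat_lit 86) (nat_lit 5) (nat_lit 88) (nat_lit 5) (nat_lit 89) (nat_lit 5) (nat_lit 436) (nat_lit 361) (nat_lit 223)) (XT.nd (nat_lit 78) (nat_lit 304) (nat_lit 0) (XT.lf (nat_lit 0) (nat_lit 19947991627) (nat_lit 152) (nat_lit 8724362967) (nat_lit 228) (nat_lit 179057198) (nat_lit 86) (nat_lit 5) (nat_lit 88) (nat_lit 5) (nat_lit 89) (nat_lit 5) (nat_lit 437) (nat_lit 361) (nat_lit 222)) (XT.lf (nat_lit 0) (nat_lit 6726954129)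 (nat_lit 304) (nat_lit 21898028662) (nat_lit 76) (nat_lit 801977021) (nat_lit 82) (nat_lit 5) (nat_lit 86) (nat_lit 5) (nat_lit 83) (nat_lit 5) (nat_lit 438) (nat_lit 361) (nat_lit 221)))) (XT.nd (nat_lit 156) (nat_lit 228) (nat_lit 0) (XT.nd (nat_lit 78) (nat_lit 152) (nat_lit 0) (XT.lf (nat_lit 0) (nat_lit 14004690430) (nat_lit 304) (nat_lit 5484887899) (nat_lit 76) (nat_lit 10525099556) (nat_lit 82) (nat_lit 5) (nat_lit 86) (nat_lit 5) (nat_lit 83) (nat_lit 5) (nat_lit 439) (nat_lit 361) (nat_lit 220)) (XT.lf (nat_lit 0) (nat_lit 11632560252) (nat_lit 152) (nat_lit 9971247386) (nat_lit 228) (nat_lit 9013129464) (nat_lit 80) (nat_lit 5) (nat_lit 82) (nat_lit 5) (nat_lit 83) (nat_lit 5) (nat_lit 440) (nat_lit 361) (nat_lit 219))) (XT.nd (nat_lit 78) (nat_lit 228) (nat_lit 0) (XT.lf (nat_lit 0) (nat_lit 29361034532) (nat_lit 152) (nat_lit 116591892) (nat_lit 228) (nat_lit 1758236868) (nat_lit 80) (nat_lit 5) (nat_lit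 82) (nat_lit 5) (nat_lit 83) (nat_lit 5) (nat_lit 441) (nat_lit 361) (nat_lit 218)) (XT.lf (nat_lit 0) (nat_lit 5846471649) (nat_lit 228) (nat_lit 15975369940) (nat_lit 76) (nat_lit 10042558504) (nat_lit 77) (nat_lit 5) (nat_lit 80) (nat_lit 5) (nat_lit 78) (nat_lit 5) (nat_lit 442) (nat_lit 361) (nat_lit 217))))) (XT.nd (nat_lit 234) (nat_lit 380) (nat_lit 0) (XT.nd (nat_lit 78) (nat_lit 152) (nat_lit 0) (XT.lf (nat_lit 0) (nat_lit 1712971289) (nat_lit 152) (nat_lit 11959309441) (nat_lit 228) (nat_lit 18838142023) (nat_lit 75) (nat_lit 5) (nat_lit 77) (nat_lit 5) (nat_lit 78) (nat_lit 5) (nat_lit 443) (nat_lit 361) (nat_lit 216)) (XT.nd (nat_lit 78) (nat_lit 152) (nat_lit 0) (XT.lf (nat_lit 0) (nat_lit 20244869665) (nat_lit 152) (nat_lit 1640978216) (nat_lit 228) (nat_lit 11285389620) (nat_lit 75) (nat_lit 5) (nat_lit 77) (nat_lit 5) (nat_lit 78) (nat_lit 5) (nat_lit 444) (nat_lit 361) (nat_lit 215)) (XT.lf (nat_lit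 0) (nat_lit 5487202204) (nat_lit 152) (nat_lit 24989602278) (nat_lit 228) (nat_lit 3371143632) (nat_lit 73) (nat_lit 5) (nat_lit 75) (nat_lit 5) (nat_lit 76) (nat_lit 5) (nat_lit 445) (nat_lit 361) (nat_lit 214)))) (XT.nd (nat_lit 156) (nat_lit 152) (nat_lit 0) (XT.nd (nat_lit 78) (nat_lit 152) (nat_lit 0) (XT.lf (nat_lit 0) (nat_lit 4827183958) (nat_lit 228) (nat_lit 9900735678) (nat_lit 76) (nat_lit 19811464464) (nat_lit 72) (nat_lit 5) (nat_lit 75) (nat_lit 5) (nat_lit 73) (nat_lit 5) (nat_lit 446) (nat_lit 361) (nat_lit 213)) (XT.lf (nat_lit 0) (nat_lit 9246186013) (nat_lit 152) (nat_lit 4038504451) (nat_lit 228) (nat_lit 21963442619) (nat_lit 70) (nat_lit 5) (nat_lit 72) (nat_lit 5) (nat_lit 73) (nat_lit 5) (nat_lit 447) (nat_lit 361) (nat_lit 212))) (XT.nd (nat_lit 78) (nat_lit 152) (nat_lit 0) (XT.lf (nat_lit 0) (nat_lit 22156050577) (nat_lit 228) (nat_lit 6886657492) (nat_lit 76) (nat_lit 6930633409) (nat_lit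 70) (nat_lit 5) (nat_lit 73) (nat_lit 5) (nat_lit 71) (nat_lit 5) (nat_lit 448) (nat_lit 361) (nat_lit 211)) (XT.lf (nat_lit 0) (nat_lit 13002255617) (nat_lit 152) (nat_lit 18448640776) (nat_lit 228) (nat_lit 5264690157) (nat_lit 68) (nat_lit 5) (nat_lit 70) (nat_lit 5) (nat_lit 71) (nat_lit 5) (nat_lit 449) (nat_lit 361) (nat_lit 210))))))) (XT.nd (nat_lit 1092) (nat_lit 1064) (nat_lit 0) (XT.nd (nat_lit 546) (nat_lit 456) (nat_lit 0) (XT.nd (nat_lit 234) (nat_lit 532) (nat_lit 0) (XT.nd (nat_lit 78) (nat_lit 152) (nat_lit 0) (XT.lf (nat_lit 0) (nat_lit 3537944833) (nat_lit 228) (nat_lit 3897357105) (nat_lit 76) (nat_lit 30041896950) (nat_lit 67) (nat_lit 5) (nat_lit 70) (nat_lit 5) (nat_lit 68) (nat_lit 5) (nat_lit 450) (nat_lit 361) (nat_lit 209)) (XT.nd (nat_lit 78) (nat_lit 0) (nat_lit 0) (XT.lf (nat_lit 0) (nat_lit 12692336940) (nat_lit 228) (nat_lit 21519988469) (nat_lit 76) (nat_lit 4041966332) (nat_lit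 65) (nat_lit 5) (nat_lit 68) (nat_lit 5) (nat_lit 66) (nat_lit 5) (nat_lit 451) (nat_lit 361) (nat_lit 208)) (XT.lf (nat_lit 0) (nat_lit 22227370402) (nat_lit 228) (nat_lit 1075946644) (nat_lit 76) (nat_lit 15748200731) (nat_lit 65) (nat_lit 5) (nat_lit 68) (nat_lit 5) (nat_lit 66) (nat_lit 5) (nat_lit 452) (nat_lit 361) (nat_lit 207)))) (XT.nd (nat_lit 156) (nat_lit 152) (nat_lit 0) (XT.nd (nat_lit 78) (nat_lit 228) (nat_lit 0) (XT.lf (nat_lit 0) (nat_lit 20365986609) (nat_lit 152) (nat_lit 11871100148) (nat_lit 228) (nat_lit 7629915547) (nat_lit 63) (nat_lit 5) (nat_lit 65) (nat_lit 5) (nat_lit 66) (nat_lit 5) (nat_lit 453) (nat_lit 361) (nat_lit 206)) (XT.lf (nat_lit 0) (nat_lit 1770500931) (nat_lit 152) (nat_lit 54602917) (nat_lit 228) (nat_lit 38880691436) (nat_lit 60) (nat_lit 5) (nat_lit 62) (nat_lit 5) (nat_lit 63) (nat_lit 5) (nat_lit 454) (nat_lit 361) (nat_lit 205))) (XT.nd (nat_lit 78) (nat_lit 152)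 (nat_lit 0) (XT.lf (nat_lit 0) (nat_lit 11718669052) (nat_lit 228) (nat_lit 17690784198) (nat_lit 76) (nat_lit 12148785631) (nat_lit 60) (nat_lit 5) (nat_lit 63) (nat_lit 5) (nat_lit 61) (nat_lit 5) (nat_lit 455) (nat_lit 361) (nat_lit 204)) (XT.lf (nat_lit 0) (nat_lit 4261155617) (nat_lit 152) (nat_lit 17682500726) (nat_lit 228) (nat_lit 20491561581) (nat_lit 58) (nat_lit 5) (nat_lit 60) (nat_lit 5) (nat_lit 61) (nat_lit 5) (nat_lit 456) (nat_lit 361) (nat_lit 203))))) (XT.nd (nat_lit 234) (nat_lit 304) (nat_lit 0) (XT.nd (nat_lit 78) (nat_lit 152) (nat_lit 0) (XT.lf (nat_lit 0) (nat_lit 27221904548) (nat_lit 152) (nat_lit 5425326059) (nat_lit 228) (nat_lit 10686121185) (nat_lit 58) (nat_lit 5) (nat_lit 60) (nat_lit 5) (nat_lit 61) (nat_lit 5) (nat_lit 457) (nat_lit 361) (nat_lit 202)) (XT.nd (nat_lit 78) (nat_lit 76) (nat_lit 0) (XT.lf (nat_lit 0) (nat_lit 6661654056) (nat_lit 76) (nat_lit 37136841719) (nat_lit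 152) (nat_lit 456136949) (nat_lit 57) (nat_lit 5) (nat_lit 58) (nat_lit 5) (nat_lit 59) (nat_lit 4) (nat_lit 458) (nat_lit 361) (nat_lit 201)) (XT.lf (nat_lit 0) (nat_lit 10095409601) (nat_lit 152) (nat_lit 14914875103) (nat_lit 76) (nat_lit 20184019602) (nat_lit 56) (nat_lit 5) (nat_lit 58) (nat_lit 5) (nat_lit 57) (nat_lit 5) (nat_lit 459) (nat_lit 361) (nat_lit 200)))) (XT.nd (nat_lit 156) (nat_lit 152) (nat_lit 0) (XT.nd (nat_lit 78) (nat_lit 0) (nat_lit 0) (XT.lf (nat_lit 0) (nat_lit 8594936767) (nat_lit 152) (nat_lit 12435564769) (nat_lit 228) (nat_lit 25129244518) (nat_lit 54) (nat_lit 5) (nat_lit 56) (nat_lit 5) (nat_lit 57) (nat_lit 5) (nat_lit 460) (nat_lit 361) (nat_lit 199)) (XT.lf (nat_lit 0) (nat_lit 32444283360) (nat_lit 228) (nat_lit 14052165718) (nat_lit 76) (nat_lit 653183356) (nat_lit 54) (nat_lit 5) (nat_lit 57) (nat_lit 5) (nat_lit 55) (nat_lit 4) (nat_lit 461) (nat_lit 361) (nat_lit 198)))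 (XT.nd (nat_lit 78) (nat_lit 76) (nat_lit 0) (XT.lf (nat_lit 0) (nat_lit 10230857927) (nat_lit 76) (nat_lit 34184848649) (nat_lit 152) (nat_lit 3747052473) (nat_lit 53) (nat_lit 5) (nat_lit 54) (nat_lit 5) (nat_lit 55) (nat_lit 4) (nat_lit 462) (nat_lit 361) (nat_lit 197)) (XT.lf (nat_lit 0) (nat_lit 7529933782) (nat_lit 152) (nat_lit 13757005829) (nat_lit 76) (nat_lit 27913053739) (nat_lit 52) (nat_lit 5) (nat_lit 54) (nat_lit 5) (nat_lit 53) (nat_lit 5) (nat_lit 463) (nat_lit 361) (nat_lit 196)))))) (XT.nd (nat_lit 546) (nat_lit 532) (nat_lit 0) (XT.nd (nat_lit 234) (nat_lit 304) (nat_lit 0) (XT.nd (nat_lit 78) (nat_lit 76) (nat_lit 0) (XT.lf (nat_lit 0) (nat_lit 11315654435) (nat_lit 152) (nat_lit 7856986542) (nat_lit 228) (nat_lit 31091509457) (nat_lit 50) (nat_lit 5) (nat_lit 52) (nat_lit 5) (nat_lit 53) (nat_lit 5) (nat_lit 464) (nat_lit 361) (nat_lit 195)) (XT.nd (nat_lit 78) (nat_lit 76) (nat_lit 0) (XT.lf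 (nat_lit 0) (nat_lit 31356338314) (nat_lit 228) (nat_lit 14003596725) (nat_lit 76) (nat_lit 5994546349) (nat_lit 50) (nat_lit 5) (nat_lit 53) (nat_lit 5) (nat_lit 51) (nat_lit 4) (nat_lit 465) (nat_lit 361) (nat_lit 194)) (XT.lf (nat_lit 0) (nat_lit 11831853647) (nat_lit 76) (nat_lit 32259366522) (nat_lit 152) (nat_lit 8380732310) (nat_lit 49) (nat_lit 5) (nat_lit 50) (nat_lit 5) (nat_lit 51) (nat_lit 4) (nat_lit 466) (nat_lit 361) (nat_lit 193)))) (XT.nd (nat_lit 156) (nat_lit 76) (nat_lit 0) (XT.nd (nat_lit 78) (nat_lit 152) (nat_lit 0) (XT.lf (nat_lit 0) (nat_lit 3652205373) (nat_lit 152) (nat_lit 14936037123) (nat_lit 76) (nat_lit 35029562761) (nat_lit 48) (nat_lit 5) (nat_lit 50) (nat_lit 5) (nat_lit 49) (nat_lit 5) (nat_lit 467) (nat_lit 361) (nat_lit 192)) (XT.lf (nat_lit 0) (nat_lit 11673379946) (nat_lit 152) (nat_lit 4310844526) (nat_lit 228) (nat_lit 38808124066) (nat_lit 46) (nat_lit 5) (nat_lit 48)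 (nat_lit 5) (nat_lit 49) (nat_lit 5) (nat_lit 468) (nat_lit 361) (nat_lit 191))) (XT.nd (nat_lit 78) (nat_lit 76) (nat_lit 0) (XT.lf (nat_lit 0) (nat_lit 28932787888) (nat_lit 228) (nat_lit 16722361747) (nat_lit 76) (nat_lit 10339581341) (nat_lit 46) (nat_lit 5) (nat_lit 49) (nat_lit 5) (nat_lit 47) (nat_lit 4) (nat_lit 469) (nat_lit 361) (nat_lit 190)) (XT.lf (nat_lit 0) (nat_lit 10620416090) (nat_lit 76) (nat_lit 31788672260) (nat_lit 152) (nat_lit 14819918489) (nat_lit 45) (nat_lit 5) (nat_lit 46) (nat_lit 5) (nat_lit 47) (nat_lit 4) (nat_lit 470) (nat_lit 361) (nat_lit 189))))) (XT.nd (nat_lit 312) (nat_lit 228) (nat_lit 0) (XT.nd (nat_lit 156) (nat_lit 76) (nat_lit 0) (XT.nd (nat_lit 78) (nat_lit 228) (nat_lit 0) (XT.lf (nat_lit 0) (nat_lit 39116081994) (nat_lit 76) (nat_lit 17337029496) (nat_lit 152) (nat_lit 2042296827) (nat_lit 45) (nat_lit 5) (nat_lit 46) (nat_lit 5) (nat_lit 47) (nat_lit 4) (nat_lit 471)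 (nat_lit 361) (nat_lit 188)) (XT.lf (nat_lit 0) (nat_lit 8720100450) (nat_lit 152) (nat_lit 2260087211) (nat_lit 228) (nat_lit 48814053152) (nat_lit 42) (nat_lit 5) (nat_lit 44) (nat_lit 5) (nat_lit 45) (nat_lit 5) (nat_lit 472) (nat_lit 361) (nat_lit 187))) (XT.nd (nat_lit 78) (nat_lit 76) (nat_lit 0) (XT.lf (nat_lit 0) (nat_lit 24672172179) (nat_lit 228) (nat_lit 23226122430) (nat_lit 76) (nat_lit 13223541161) (nat_lit 42) (nat_lit 5) (nat_lit 45) (nat_lit 5) (nat_lit 43) (nat_lit 4) (nat_lit 473) (nat_lit 361) (nat_lit 186)) (XT.lf (nat_lit 0) (nat_lit 5533210914) (nat_lit 76) (nat_lit 33312117209) (nat_lit 152) (nat_lit 23641818404) (nat_lit 41) (nat_lit 5) (nat_lit 42) (nat_lit 5) (nat_lit 43) (nat_lit 4) (nat_lit 474) (nat_lit 361) (nat_lit 185)))) (XT.nd (nat_lit 156) (nat_lit 0) (nat_lit 0) (XT.nd (nat_lit 78) (nat_lit 228) (nat_lit 0) (XT.lf (nat_lit 0) (nat_lit 35621811403) (nat_lit 76) (nat_lit 18051309406)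 (nat_lit 152) (nat_lit 10213412837) (nat_lit 41) (nat_lit 5) (nat_lit 42) (nat_lit 5) (nat_lit 43) (nat_lit 4) (nat_lit 475) (nat_lit 361) (nat_lit 184)) (XT.lf (nat_lit 0) (nat_lit 1265642866) (nat_lit 152) (nat_lit 2288773906) (nat_lit 228) (nat_lit 61772227508) (nat_lit 38) (nat_lit 5) (nat_lit 40) (nat_lit 5) (nat_lit 41) (nat_lit 5) (nat_lit 476) (nat_lit 361) (nat_lit 183))) (XT.nd (nat_lit 78) (nat_lit 0) (nat_lit 0) (XT.lf (nat_lit 0) (nat_lit 17947325767) (nat_lit 228) (nat_lit 34787548588) (nat_lit 76) (nat_lit 14059530746) (nat_lit 38) (nat_lit 5) (nat_lit 41) (nat_lit 5) (nat_lit 39) (nat_lit 4) (nat_lit 477) (nat_lit 361) (nat_lit 182)) (XT.lf (nat_lit 0) (nat_lit 32789844491) (nat_lit 228) (nat_lit 4667736307) (nat_lit 76) (nat_lit 30848083541) (nat_lit 38) (nat_lit 5) (nat_lit 41) (nat_lit 5) (nat_lit 39) (nat_lit 4) (nat_lit 478) (nat_lit 361) (nat_lit 181))))))))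
noncomputable def xc153 : XT := (XT.nd (nat_lit 45552) (nat_lit 0) (nat_lit 8588) (XT.nd (nat_lit 44382) (nat_lit 0) (nat_lit 16568) (XT.nd (nat_lit 546) (nat_lit 76) (nat_lit 0) (XT.nd (nat_lit 234) (nat_lit 152) (nat_lit 0) (XT.nd (nat_lit 78) (nat_lit 152) (nat_lit 0) (XT.lf (nat_lit 0) (nat_lit 26871106886) (nat_lit 76) (nat_lit 21460135672) (nat_lit 152) (nat_lit 21523410942) (nat_lit 37) (nat_lit 5) (nat_lit 38) (nat_lit 5) (nat_lit 39) (nat_lit 4) (nat_lit 479) (nat_lit 361) (nat_lit 180)) (XT.nd (nat_lit 78) (nat_lit 152) (nat_lit 0) (XT.lf (nat_lit 0) (nat_lit 59442971265) (nat_lit 76) (nat_lit 4938400516) (nat_lit 152) (nat_lit 7067466129) (nat_lit 37) (nat_lit 5) (nat_lit 38) (nat_lit 5) (nat_lit 39) (nat_lit 4) (nat_lit 480) (nat_lit 361) (nat_lit 179)) (XT.lf (nat_lit 0) (nat_lit 7977989616) (nat_lit 152) (nat_lit 52989946230) (nat_lit 76) (nat_lit 12111402371) (nat_lit 35) (nat_lit 5) (nat_lit 37)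 (nat_lit 5) (nat_lit 36) (nat_lit 4) (nat_lit 481) (nat_lit 361) (nat_lit 178)))) (XT.nd (nat_lit 156) (nat_lit 76) (nat_lit 0) (XT.nd (nat_lit 78) (nat_lit 76) (nat_lit 0) (XT.lf (nat_lit 0) (nat_lit 23499546822) (nat_lit 152) (nat_lit 21490243123) (nat_lit 76) (nat_lit 29761860965) (nat_lit 35) (nat_lit 5) (nat_lit 37) (nat_lit 5) (nat_lit 36) (nat_lit 4) (nat_lit 482) (nat_lit 361) (nat_lit 177)) (XT.lf (nat_lit 0) (nat_lit 11163877945) (nat_lit 76) (nat_lit 28425774918) (nat_lit 152) (nat_lit 36881393280) (nat_lit 34) (nat_lit 5) (nat_lit 35) (nat_lit 5) (nat_lit 36) (nat_lit 4) (nat_lit 483) (nat_lit 361) (nat_lit 176))) (XT.nd (nat_lit 78) (nat_lit 76) (nat_lit 0) (XT.lf (nat_lit 0) (nat_lit 45229813517) (nat_lit 76) (nat_lit 11145294334) (nat_lit 152) (nat_lit 21860536226) (nat_lit 34) (nat_lit 5) (nat_lit 35) (nat_lit 5) (nat_lit 36) (nat_lit 4) (nat_lit 484) (nat_lit 361) (nat_lit 175)) (XT.lf (nat_lit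 0) (nat_lit 196232529) (nat_lit 76) (nat_lit 73529465196) (nat_lit 76) (nat_lit 6325635298) (nat_lit 33) (nat_lit 4) (nat_lit 34) (nat_lit 5) (nat_lit 34) (nat_lit 4) (nat_lit 485) (nat_lit 361) (nat_lit 174))))) (XT.nd (nat_lit 43524) (nat_lit 0) (nat_lit 20672) (XT.nd (nat_lit 78) (nat_lit 0) (nat_lit 0) (XT.lf (nat_lit 0) (nat_lit 9929186978) (nat_lit 152) (nat_lit 47055393859) (nat_lit 76) (nat_lit 24920841610) (nat_lit 32) (nat_lit 5) (nat_lit 34) (nat_lit 5) (nat_lit 33) (nat_lit 4) (nat_lit 486) (nat_lit 361) (nat_lit 173)) (XT.nd (nat_lit 43368) (nat_lit 0) (nat_lit 20672) (XT.lf (nat_lit 0) (nat_lit 26540370216) (nat_lit 152) (nat_lit 13342277837) (nat_lit 76) (nat_lit 43930732135) (nat_lit 32) (nat_lit 5) (nat_lit 34) (nat_lit 5) (nat_lit 33) (nat_lit 4) (nat_lit 487) (nat_lit 361) (nat_lit 172)) (XT.lf (nat_lit 0) (nat_lit 809581802) (nat_lit 0) (nat_lit 809581802) (nat_lit 988) (nat_lit 2635323348)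 (nat_lit 304) (nat_lit 5) (nat_lit 304) (nat_lit 3) (nat_lit 317) (nat_lit 3) (nat_lit 362) (nat_lit 362) (nat_lit 296)))) (XT.nd (nat_lit 156) (nat_lit 0) (nat_lit 0) (XT.nd (nat_lit 78) (nat_lit 0) (nat_lit 0) (XT.lf (nat_lit 0) (nat_lit 4323476642) (nat_lit 988) (nat_lit 2750550745) (nat_lit 1064) (nat_lit 1531103736) (nat_lit 304) (nat_lit 5) (nat_lit 317) (nat_lit 3) (nat_lit 318) (nat_lit 5) (nat_lit 363) (nat_lit 362) (nat_lit 295)) (XT.lf (nat_lit 76) (nat_lit 1504884075) (nat_lit 0) (nat_lit 3927116517) (nat_lit 1064) (nat_lit 3272462700) (nat_lit 305) (nat_lit 5) (nat_lit 304) (nat_lit 5) (nat_lit 318) (nat_lit 5) (nat_lit 364) (nat_lit 362) (nat_lit 294))) (XT.nd (nat_lit 78) (nat_lit 0) (nat_lit 76) (XT.lf (nat_lit 76) (nat_lit 5923237811) (nat_lit 0) (nat_lit 639593019) (nat_lit 1064) (nat_lit 2244287484) (nat_lit 305) (nat_lit 5) (nat_lit 304) (nat_lit 5) (nat_lit 318) (nat_lit 5) (nat_lit 365) (nat_lit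 362) (nat_lit 293)) (XT.lf (nat_lit 76) (nat_lit 1543182172) (nat_lit 0) (nat_lit 6188206918) (nat_lit 1064) (nat_lit 1181363788) (nat_lit 306) (nat_lit 5) (nat_lit 305) (nat_lit 5) (nat_lit 319) (nat_lit 5) (nat_lit 366) (nat_lit 362) (nat_lit 292)))))) (XT.nd (nat_lit 546) (nat_lit 3192) (nat_lit 0) (XT.nd (nat_lit 234) (nat_lit 0) (nat_lit 0) (XT.nd (nat_lit 78) (nat_lit 988) (nat_lit 0) (XT.lf (nat_lit 76) (nat_lit 6134110259) (nat_lit 0) (nat_lit 2799736012) (nat_lit 1064) (nat_lit 87758519) (nat_lit 306) (nat_lit 5) (nat_lit 305) (nat_lit 5) (nat_lit 319) (nat_lit 5) (nat_lit 367) (nat_lit 362) (nat_lit 291)) (XT.nd (nat_lit 78) (nat_lit 0) (nat_lit 0) (XT.lf (nat_lit 0) (nat_lit 1006214240) (nat_lit 1064) (nat_lit 7409908929) (nat_lit 1140) (nat_lit 717677547) (nat_lit 292) (nat_lit 5) (nat_lit 306) (nat_lit 5) (nat_lit 307) (nat_lit 5) (nat_lit 368) (nat_lit 362) (nat_lit 290)) (XT.lf (nat_lit 0) (nat_lit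 2153527212) (nat_lit 1064) (nat_lit 2767236613) (nat_lit 1140) (nat_lit 4327916506) (nat_lit 292) (nat_lit 5) (nat_lit 306) (nat_lit 5) (nat_lit 307) (nat_lit 5) (nat_lit 369) (nat_lit 362) (nat_lit 289)))) (XT.nd (nat_lit 156) (nat_lit 0) (nat_lit 76) (XT.nd (nat_lit 78) (nat_lit 0) (nat_lit 76) (XT.lf (nat_lit 76) (nat_lit 2032353445) (nat_lit 0) (nat_lit 1288576335) (nat_lit 1140) (nat_lit 6046518511) (nat_lit 293) (nat_lit 5) (nat_lit 292) (nat_lit 5) (nat_lit 307) (nat_lit 5) (nat_lit 370) (nat_lit 362) (nat_lit 288)) (XT.lf (nat_lit 0) (nat_lit 4542169668) (nat_lit 1064) (nat_lit 2503054405) (nat_lit 1140) (nat_lit 2444002473) (nat_lit 293) (nat_lit 5) (nat_lit 307) (nat_lit 5) (nat_lit 308) (nat_lit 5) (nat_lit 371) (nat_lit 362) (nat_lit 287))) (XT.nd (nat_lit 78) (nat_lit 0) (nat_lit 76) (XT.lf (nat_lit 76) (nat_lit 2487478312) (nat_lit 0) (nat_lit 3317217627) (nat_lit 1140) (nat_lit 3809834103) (nat_lit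 294) (nat_lit 5) (nat_lit 293) (nat_lit 5) (nat_lit 308) (nat_lit 5) (nat_lit 372) (nat_lit 362) (nat_lit 286)) (XT.lf (nat_lit 0) (nat_lit 7104437791) (nat_lit 1064) (nat_lit 2092142655) (nat_lit 1140) (nat_lit 547043044) (nat_lit 294) (nat_lit 5) (nat_lit 308) (nat_lit 5) (nat_lit 309) (nat_lit 5) (nat_lit 373) (nat_lit 362) (nat_lit 285))))) (XT.nd (nat_lit 312) (nat_lit 2280) (nat_lit 0) (XT.nd (nat_lit 156) (nat_lit 1064) (nat_lit 0) (XT.nd (nat_lit 78) (nat_lit 0) (nat_lit 0) (XT.lf (nat_lit 76) (nat_lit 3099044072) (nat_lit 0) (nat_lit 5376460269) (nat_lit 1140) (nat_lit 1400126145) (nat_lit 295) (nat_lit 5) (nat_lit 294) (nat_lit 5) (nat_lit 309) (nat_lit 5) (nat_lit 374) (nat_lit 362) (nat_lit 284)) (XT.lf (nat_lit 76) (nat_lit 8466673484) (nat_lit 0) (nat_lit 1412524096) (nat_lit 1140) (nat_lit 132665677) (nat_lit 295) (nat_lit 5) (nat_lit 294) (nat_lit 5) (nat_lit 309) (nat_lit 5) (nat_lit 375) (nat_lit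 362) (nat_lit 283))) (XT.nd (nat_lit 78) (nat_lit 0) (nat_lit 0) (XT.lf (nat_lit 0) (nat_lit 1184436679) (nat_lit 1140) (nat_lit 6292248538) (nat_lit 1216) (nat_lit 2674134268) (nat_lit 280) (nat_lit 5) (nat_lit 295) (nat_lit 5) (nat_lit 296) (nat_lit 5) (nat_lit 376) (nat_lit 362) (nat_lit 282)) (XT.lf (nat_lit 0) (nat_lit 2539764035) (nat_lit 1140) (nat_lit 875640503) (nat_lit 1216) (nat_lit 6878468628) (nat_lit 280) (nat_lit 5) (nat_lit 295) (nat_lit 5) (nat_lit 296) (nat_lit 5) (nat_lit 377) (nat_lit 362) (nat_lit 281)))) (XT.nd (nat_lit 156) (nat_lit 2356) (nat_lit 0) (XT.nd (nat_lit 78) (nat_lit 0) (nat_lit 0) (XT.lf (nat_lit 0) (nat_lit 3961993392) (nat_lit 1140) (nat_lit 5674095198) (nat_lit 76) (nat_lit 804351846) (nat_lit 281) (nat_lit 5) (nat_lit 296) (nat_lit 5) (nat_lit 282) (nat_lit 5) (nat_lit 378) (nat_lit 362) (nat_lit 280)) (XT.lf (nat_lit 0) (nat_lit 5442735773) (nat_lit 1140) (nat_lit 52315942)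 (nat_lit 76) (nat_lit 5095886602) (nat_lit 281) (nat_lit 5) (nat_lit 296) (nat_lit 5) (nat_lit 282) (nat_lit 5) (nat_lit 379) (nat_lit 362) (nat_lit 279))) (XT.nd (nat_lit 78) (nat_lit 1216) (nat_lit 0) (XT.lf (nat_lit 0) (nat_lit 5829726748) (nat_lit 1140) (nat_lit 1168096515) (nat_lit 1216) (nat_lit 3747238901) (nat_lit 266) (nat_lit 5) (nat_lit 281) (nat_lit 5) (nat_lit 282) (nat_lit 5) (nat_lit 380) (nat_lit 362) (nat_lit 278)) (XT.lf (nat_lit 0) (nat_lit 949680902) (nat_lit 1216) (nat_lit 7665626309) (nat_lit 1292) (nat_lit 2288038662) (nat_lit 250) (nat_lit 5) (nat_lit 266) (nat_lit 5) (nat_lit 267) (nat_lit 5) (nat_lit 381) (nat_lit 362) (nat_lit 277))))))) (XT.nd (nat_lit 1092) (nat_lit 3876) (nat_lit 0) (XT.nd (nat_lit 546) (nat_lit 2128) (nat_lit 0) (XT.nd (nat_lit 234) (nat_lit 1216) (nat_lit 0) (XT.nd (nat_lit 78) (nat_lit 760) (nat_lit 0) (XT.lf (nat_lit 0) (nat_lit 7057092600) (nat_lit 1216) (nat_lit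 3260306131) (nat_lit 1292) (nat_lit 747905086) (nat_lit 250) (nat_lit 5) (nat_lit 266) (nat_lit 5) (nat_lit 267) (nat_lit 5) (nat_lit 382) (nat_lit 362) (nat_lit 276)) (XT.nd (nat_lit 78) (nat_lit 0) (nat_lit 0) (XT.lf (nat_lit 0) (nat_lit 830570641) (nat_lit 760) (nat_lit 9117902035) (nat_lit 76) (nat_lit 1283158809) (nat_lit 240) (nat_lit 5) (nat_lit 250) (nat_lit 5) (nat_lit 241) (nat_lit 5) (nat_lit 383) (nat_lit 362) (nat_lit 275)) (XT.lf (nat_lit 0) (nat_lit 2490520110) (nat_lit 760) (nat_lit 2963214185) (nat_lit 76) (nat_lit 5947525508) (nat_lit 240) (nat_lit 5) (nat_lit 250) (nat_lit 5) (nat_lit 241) (nat_lit 5) (nat_lit 384) (nat_lit 362) (nat_lit 274)))) (XT.nd (nat_lit 156) (nat_lit 608) (nat_lit 0) (XT.nd (nat_lit 78) (nat_lit 0) (nat_lit 0) (XT.lf (nat_lit 0) (nat_lit 3420643779) (nat_lit 608) (nat_lit 789200308) (nat_lit 684) (nat_lit 7365852901) (nat_lit 232) (nat_lit 5) (nat_lit 240) (nat_lit 5)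 (nat_lit 241) (nat_lit 5) (nat_lit 385) (nat_lit 362) (nat_lit 273)) (XT.lf (nat_lit 0) (nat_lit 6026733974) (nat_lit 684) (nat_lit 1759304659) (nat_lit 76) (nat_lit 3967956157) (nat_lit 232) (nat_lit 5) (nat_lit 241) (nat_lit 5) (nat_lit 233) (nat_lit 5) (nat_lit 386) (nat_lit 362) (nat_lit 272))) (XT.nd (nat_lit 78) (nat_lit 0) (nat_lit 0) (XT.lf (nat_lit 0) (nat_lit 4893960476) (nat_lit 608) (nat_lit 3036862679) (nat_lit 684) (nat_lit 4005844471) (nat_lit 224) (nat_lit 5) (nat_lit 232) (nat_lit 5) (nat_lit 233) (nat_lit 5) (nat_lit 387) (nat_lit 362) (nat_lit 271)) (XT.lf (nat_lit 0) (nat_lit 9906075665) (nat_lit 684) (nat_lit 381887707) (nat_lit 76) (nat_lit 1836442736) (nat_lit 224) (nat_lit 5) (nat_lit 233) (nat_lit 5) (nat_lit 225) (nat_lit 5) (nat_lit 388) (nat_lit 362) (nat_lit 270))))) (XT.nd (nat_lit 234) (nat_lit 988) (nat_lit 0) (XT.nd (nat_lit 78) (nat_lit 608) (nat_lit 0) (XT.lf (nat_lit 0) (nat_lit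 6554767976) (nat_lit 532) (nat_lit 5457796942) (nat_lit 608) (nat_lit 303058935) (nat_lit 217) (nat_lit 5) (nat_lit 224) (nat_lit 5) (nat_lit 225) (nat_lit 5) (nat_lit 389) (nat_lit 362) (nat_lit 269)) (XT.nd (nat_lit 78) (nat_lit 0) (nat_lit 0) (XT.lf (nat_lit 0) (nat_lit 1179787410) (nat_lit 532) (nat_lit 451635826) (nat_lit 608) (nat_lit 10880849495) (nat_lit 209) (nat_lit 5) (nat_lit 216) (nat_lit 5) (nat_lit 217) (nat_lit 5) (nat_lit 390) (nat_lit 362) (nat_lit 268)) (XT.lf (nat_lit 0) (nat_lit 3701307415) (nat_lit 608) (nat_lit 4337563030) (nat_lit 76) (nat_lit 4673362787) (nat_lit 209) (nat_lit 5) (nat_lit 217) (nat_lit 5) (nat_lit 210) (nat_lit 5) (nat_lit 391) (nat_lit 362) (nat_lit 267)))) (XT.nd (nat_lit 156) (nat_lit 532) (nat_lit 0) (XT.nd (nat_lit 78) (nat_lit 0) (nat_lit 0) (XT.lf (nat_lit 0) (nat_lit 2897501276) (nat_lit 456) (nat_lit 2948193418) (nat_lit 532) (nat_lit 7072131418) (nat_lit 203)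 (nat_lit 5) (nat_lit 209) (nat_lit 5) (nat_lit 210) (nat_lit 5) (nat_lit 392) (nat_lit 362) (nat_lit 266)) (XT.lf (nat_lit 0) (nat_lit 8101146911) (nat_lit 532) (nat_lit 2734369800) (nat_lit 76) (nat_lit 2292673662) (nat_lit 203) (nat_lit 5) (nat_lit 210) (nat_lit 5) (nat_lit 204) (nat_lit 5) (nat_lit 393) (nat_lit 362) (nat_lit 265))) (XT.nd (nat_lit 78) (nat_lit 0) (nat_lit 0) (XT.lf (nat_lit 0) (nat_lit 4813411754) (nat_lit 532) (nat_lit 5667316122) (nat_lit 608) (nat_lit 2862449159) (nat_lit 196) (nat_lit 5) (nat_lit 203) (nat_lit 5) (nat_lit 204) (nat_lit 5) (nat_lit 394) (nat_lit 362) (nat_lit 264)) (XT.lf (nat_lit 0) (nat_lit 12622400232) (nat_lit 532) (nat_lit 318262194) (nat_lit 608) (nat_lit 623687161) (nat_lit 196) (nat_lit 5) (nat_lit 203) (nat_lit 5) (nat_lit 204) (nat_lit 5) (nat_lit 395) (nat_lit 362) (nat_lit 263)))))) (XT.nd (nat_lit 546) (nat_lit 1900) (nat_lit 0) (XT.nd (nat_lit 234) (nat_lit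 988) (nat_lit 0) (XT.nd (nat_lit 78) (nat_lit 456) (nat_lit 0) (XT.lf (nat_lit 0) (nat_lit 1748845910) (nat_lit 532) (nat_lit 6868555435) (nat_lit 76) (nat_lit 5171292777) (nat_lit 189) (nat_lit 5) (nat_lit 196) (nat_lit 5) (nat_lit 190) (nat_lit 5) (nat_lit 396) (nat_lit 362) (nat_lit 262)) (XT.nd (nat_lit 78) (nat_lit 0) (nat_lit 0) (XT.lf (nat_lit 0) (nat_lit 1006803407) (nat_lit 456) (nat_lit 3177669333) (nat_lit 532) (nat_lit 9834982226) (nat_lit 183) (nat_lit 5) (nat_lit 189) (nat_lit 5) (nat_lit 190) (nat_lit 5) (nat_lit 397) (nat_lit 362) (nat_lit 261)) (XT.lf (nat_lit 0) (nat_lit 6768832515) (nat_lit 532) (nat_lit 5041465278) (nat_lit 76) (nat_lit 2444575603) (nat_lit 183) (nat_lit 5) (nat_lit 190) (nat_lit 5) (nat_lit 184) (nat_lit 5) (nat_lit 398) (nat_lit 362) (nat_lit 260)))) (XT.nd (nat_lit 156) (nat_lit 532) (nat_lit 0) (XT.nd (nat_lit 78) (nat_lit 0) (nat_lit 0) (XT.lf (nat_lit 0) (nat_lit 3178417549)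 (nat_lit 456) (nat_lit 6297141319) (nat_lit 532) (nat_lit 5020454987) (nat_lit 177) (nat_lit 5) (nat_lit 183) (nat_lit 5) (nat_lit 184) (nat_lit 5) (nat_lit 399) (nat_lit 362) (nat_lit 259)) (XT.lf (nat_lit 0) (nat_lit 11727448491) (nat_lit 456) (nat_lit 570068739) (nat_lit 532) (nat_lit 2445854806) (nat_lit 177) (nat_lit 5) (nat_lit 183) (nat_lit 5) (nat_lit 184) (nat_lit 5) (nat_lit 400) (nat_lit 362) (nat_lit 258))) (XT.nd (nat_lit 78) (nat_lit 0) (nat_lit 0) (XT.lf (nat_lit 0) (nat_lit 291192875) (nat_lit 532) (nat_lit 9426707986) (nat_lit 76) (nat_lit 5277517993) (nat_lit 170) (nat_lit 5) (nat_lit 177) (nat_lit 5) (nat_lit 171) (nat_lit 5) (nat_lit 401) (nat_lit 362) (nat_lit 257)) (XT.lf (nat_lit 0) (nat_lit 3081287732) (nat_lit 532) (nat_lit 832341130) (nat_lit 76) (nat_lit 11340072915) (nat_lit 170) (nat_lit 5) (nat_lit 177) (nat_lit 5) (nat_lit 171) (nat_lit 5) (nat_lit 402) (nat_lit 362) (nat_lit 256)))))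 (XT.nd (nat_lit 312) (nat_lit 760) (nat_lit 0) (XT.nd (nat_lit 156) (nat_lit 380) (nat_lit 0) (XT.nd (nat_lit 78) (nat_lit 380) (nat_lit 0) (XT.lf (nat_lit 0) (nat_lit 6038265654) (nat_lit 456) (nat_lit 7379543916) (nat_lit 76) (nat_lit 2099432133) (nat_lit 165) (nat_lit 5) (nat_lit 171) (nat_lit 5) (nat_lit 166) (nat_lit 5) (nat_lit 403) (nat_lit 362) (nat_lit 255)) (XT.lf (nat_lit 0) (nat_lit 1577006601) (nat_lit 380) (nat_lit 7553738469) (nat_lit 456) (nat_lit 6656542801) (nat_lit 160) (nat_lit 5) (nat_lit 165) (nat_lit 5) (nat_lit 166) (nat_lit 5) (nat_lit 404) (nat_lit 362) (nat_lit 254))) (XT.nd (nat_lit 78) (nat_lit 380) (nat_lit 0) (XT.lf (nat_lit 0) (nat_lit 10933328209) (nat_lit 380) (nat_lit 1441845881) (nat_lit 456) (nat_lit 3688489777) (nat_lit 160) (nat_lit 5) (nat_lit 165) (nat_lit 5) (nat_lit 166) (nat_lit 5) (nat_lit 405) (nat_lit 362) (nat_lit 253)) (XT.lf (nat_lit 0) (nat_lit 4238038117) (nat_lit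 380) (nat_lit 11551348251) (nat_lit 456) (nat_lit 556774853) (nat_lit 155) (nat_lit 5) (nat_lit 160) (nat_lit 5) (nat_lit 161) (nat_lit 5) (nat_lit 406) (nat_lit 362) (nat_lit 252)))) (XT.nd (nat_lit 156) (nat_lit 304) (nat_lit 0) (XT.nd (nat_lit 78) (nat_lit 380) (nat_lit 0) (XT.lf (nat_lit 0) (nat_lit 2668560440) (nat_lit 456) (nat_lit 2703511334) (nat_lit 76) (nat_lit 11262742997) (nat_lit 154) (nat_lit 5) (nat_lit 160) (nat_lit 5) (nat_lit 155) (nat_lit 5) (nat_lit 407) (nat_lit 362) (nat_lit 251)) (XT.lf (nat_lit 0) (nat_lit 6043490932) (nat_lit 456) (nat_lit 9843898337) (nat_lit 76) (nat_lit 1042655792) (nat_lit 149) (nat_lit 5) (nat_lit 155) (nat_lit 5) (nat_lit 150) (nat_lit 5) (nat_lit 408) (nat_lit 362) (nat_lit 250))) (XT.nd (nat_lit 78) (nat_lit 304) (nat_lit 0) (XT.lf (nat_lit 0) (nat_lit 9586198989) (nat_lit 456) (nat_lit 81578376) (nat_lit 76) (nat_lit 7564362197) (nat_lit 149) (nat_lit 5) (nat_lit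 155) (nat_lit 5) (nat_lit 150) (nat_lit 5) (nat_lit 409) (nat_lit 362) (nat_lit 249)) (XT.lf (nat_lit 0) (nat_lit 10152579084) (nat_lit 304) (nat_lit 3166386819) (nat_lit 380) (nat_lit 4221820763) (nat_lit 145) (nat_lit 5) (nat_lit 149) (nat_lit 5) (nat_lit 150) (nat_lit 5) (nat_lit 410) (nat_lit 362) (nat_lit 248))))))))
noncomputable def xc154 : XT := (XT.nd (nat_lit 2262) (nat_lit 2584) (nat_lit 0) (XT.nd (nat_lit 1092) (nat_lit 2204) (nat_lit 0) (XT.nd (nat_lit 546) (nat_lit 1140) (nat_lit 0) (XT.nd (nat_lit 234) (nat_lit 684) (nat_lit 0) (XT.nd (nat_lit 78) (nat_lit 380) (nat_lit 0) (XT.lf (nat_lit 0) (nat_lit 2838904114) (nat_lit 380) (nat_lit 14373219302) (nat_lit 456) (nat_lit 645120545) (nat_lit 140) (nat_lit 5) (nat_lit 145) (nat_lit 5) (nat_lit 146) (nat_lit 5) (nat_lit 411) (nat_lit 362) (nat_lit 247)) (XT.nd (nat_lit 78) (nat_lit 304) (nat_lit 0) (XT.lf (nat_lit 0) (nat_lit 3072707780) (nat_lit 456)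 (nat_lit 4737377821) (nat_lit 76) (nat_lit 10369442063) (nat_lit 139) (nat_lit 5) (nat_lit 145) (nat_lit 5) (nat_lit 140) (nat_lit 5) (nat_lit 412) (nat_lit 362) (nat_lit 246)) (XT.lf (nat_lit 0) (nat_lit 5942754758) (nat_lit 304) (nat_lit 990301675) (nat_lit 380) (nat_lit 11576916025) (nat_lit 135) (nat_lit 5) (nat_lit 139) (nat_lit 5) (nat_lit 140) (nat_lit 5) (nat_lit 413) (nat_lit 362) (nat_lit 245)))) (XT.nd (nat_lit 156) (nat_lit 380) (nat_lit 0) (XT.nd (nat_lit 78) (nat_lit 304) (nat_lit 0) (XT.lf (nat_lit 0) (nat_lit 11002506814) (nat_lit 380) (nat_lit 1885957400) (nat_lit 76) (nat_lit 5959070315) (nat_lit 135) (nat_lit 5) (nat_lit 140) (nat_lit 5) (nat_lit 136) (nat_lit 5) (nat_lit 414) (nat_lit 362) (nat_lit 244)) (XT.lf (nat_lit 0) (nat_lit 9268359878) (nat_lit 304) (nat_lit 6011934440) (nat_lit 380) (nat_lit 3912344129) (nat_lit 131) (nat_lit 5) (nat_lit 135) (nat_lit 5) (nat_lit 136) (nat_lit 5) (nat_lit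 415) (nat_lit 362) (nat_lit 243))) (XT.nd (nat_lit 78) (nat_lit 0) (nat_lit 0) (XT.lf (nat_lit 0) (nat_lit 164879644) (nat_lit 380) (nat_lit 18305191390) (nat_lit 76) (nat_lit 1077109241) (nat_lit 126) (nat_lit 5) (nat_lit 131) (nat_lit 5) (nat_lit 127) (nat_lit 5) (nat_lit 416) (nat_lit 362) (nat_lit 242)) (XT.lf (nat_lit 0) (nat_lit 4434073639) (nat_lit 380) (nat_lit 7080564400) (nat_lit 76) (nat_lit 8392111977) (nat_lit 126) (nat_lit 5) (nat_lit 131) (nat_lit 5) (nat_lit 127) (nat_lit 5) (nat_lit 417) (nat_lit 362) (nat_lit 241))))) (XT.nd (nat_lit 234) (nat_lit 608) (nat_lit 0) (XT.nd (nat_lit 78) (nat_lit 228) (nat_lit 0) (XT.lf (nat_lit 0) (nat_lit 4551518460) (nat_lit 304) (nat_lit 4311495088) (nat_lit 380) (nat_lit 11413145504) (nat_lit 122) (nat_lit 5) (nat_lit 126) (nat_lit 5) (nat_lit 127) (nat_lit 5) (nat_lit 418) (nat_lit 362) (nat_lit 240)) (XT.nd (nat_lit 78) (nat_lit 228) (nat_lit 0) (XT.lf (nat_lit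 0) (nat_lit 13514942782) (nat_lit 380) (nat_lit 4025601818) (nat_lit 76) (nat_lit 3113404363) (nat_lit 122) (nat_lit 5) (nat_lit 127) (nat_lit 5) (nat_lit 123) (nat_lit 5) (nat_lit 419) (nat_lit 362) (nat_lit 239)) (XT.lf (nat_lit 0) (nat_lit 8122527139) (nat_lit 228) (nat_lit 10293057749) (nat_lit 304) (nat_lit 2624215205) (nat_lit 119) (nat_lit 5) (nat_lit 122) (nat_lit 5) (nat_lit 123) (nat_lit 5) (nat_lit 420) (nat_lit 362) (nat_lit 238)))) (XT.nd (nat_lit 156) (nat_lit 228) (nat_lit 0) (XT.nd (nat_lit 78) (nat_lit 304) (nat_lit 0) (XT.lf (nat_lit 0) (nat_lit 2015980400) (nat_lit 304) (nat_lit 756015476) (nat_lit 76) (nat_lit 18663763793) (nat_lit 118) (nat_lit 5) (nat_lit 122) (nat_lit 5) (nat_lit 119) (nat_lit 5) (nat_lit 421) (nat_lit 362) (nat_lit 237)) (XT.lf (nat_lit 0) (nat_lit 6895543881) (nat_lit 380) (nat_lit 9928614967) (nat_lit 76) (nat_lit 5014074518) (nat_lit 114) (nat_lit 5) (nat_lit 119) (nat_lit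 5) (nat_lit 115) (nat_lit 5) (nat_lit 422) (nat_lit 362) (nat_lit 236))) (XT.nd (nat_lit 78) (nat_lit 0) (nat_lit 0) (XT.lf (nat_lit 0) (nat_lit 2726508322) (nat_lit 228) (nat_lit 9245234495) (nat_lit 304) (nat_lit 10279532931) (nat_lit 111) (nat_lit 5) (nat_lit 114) (nat_lit 5) (nat_lit 115) (nat_lit 5) (nat_lit 423) (nat_lit 362) (nat_lit 235)) (XT.lf (nat_lit 0) (nat_lit 15947640991) (nat_lit 228) (nat_lit 1341889294) (nat_lit 304) (nat_lit 5384501914) (nat_lit 111) (nat_lit 5) (nat_lit 114) (nat_lit 5) (nat_lit 115) (nat_lit 5) (nat_lit 424) (nat_lit 362) (nat_lit 234)))))) (XT.nd (nat_lit 546) (nat_lit 1140) (nat_lit 0) (XT.nd (nat_lit 234) (nat_lit 532) (nat_lit 0) (XT.nd (nat_lit 78) (nat_lit 304) (nat_lit 0) (XT.lf (nat_lit 0) (nat_lit 6500498533) (nat_lit 228) (nat_lit 16383495654) (nat_lit 304) (nat_lit 221964690) (nat_lit 108) (nat_lit 5) (nat_lit 111) (nat_lit 5) (nat_lit 112) (nat_lit 5) (nat_lit 425)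 (nat_lit 362) (nat_lit 233)) (XT.nd (nat_lit 78) (nat_lit 228) (nat_lit 0) (XT.lf (nat_lit 0) (nat_lit 5067248358) (nat_lit 304) (nat_lit 3366647079) (nat_lit 76) (nat_lit 15113343309) (nat_lit 107) (nat_lit 5) (nat_lit 111) (nat_lit 5) (nat_lit 108) (nat_lit 5) (nat_lit 426) (nat_lit 362) (nat_lit 232)) (XT.lf (nat_lit 0) (nat_lit 10454653772) (nat_lit 228) (nat_lit 146177887) (nat_lit 304) (nat_lit 13398156432) (nat_lit 104) (nat_lit 5) (nat_lit 107) (nat_lit 5) (nat_lit 108) (nat_lit 5) (nat_lit 427) (nat_lit 362) (nat_lit 231)))) (XT.nd (nat_lit 156) (nat_lit 304) (nat_lit 0) (XT.nd (nat_lit 78) (nat_lit 0) (nat_lit 0) (XT.lf (nat_lit 0) (nat_lit 202730461) (nat_lit 228) (nat_lit 16204369330) (nat_lit 304) (nat_lit 8053991423) (nat_lit 101) (nat_lit 5) (nat_lit 104) (nat_lit 5) (nat_lit 105) (nat_lit 5) (nat_lit 428) (nat_lit 362) (nat_lit 230)) (XT.lf (nat_lit 0) (nat_lit 14621965068) (nat_lit 228) (nat_lit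 7893680166) (nat_lit 304) (nat_lit 2417571087) (nat_lit 101) (nat_lit 5) (nat_lit 104) (nat_lit 5) (nat_lit 105) (nat_lit 5) (nat_lit 429) (nat_lit 362) (nat_lit 229))) (XT.nd (nat_lit 78) (nat_lit 0) (nat_lit 0) (XT.lf (nat_lit 0) (nat_lit 3358238745) (nat_lit 304) (nat_lit 21339414989) (nat_lit 76) (nat_lit 719783682) (nat_lit 97) (nat_lit 5) (nat_lit 101) (nat_lit 5) (nat_lit 98) (nat_lit 5) (nat_lit 430) (nat_lit 362) (nat_lit 228)) (XT.lf (nat_lit 0) (nat_lit 9432198348) (nat_lit 304) (nat_lit 6922048851) (nat_lit 76) (nat_lit 9556017304) (nat_lit 97) (nat_lit 5) (nat_lit 101) (nat_lit 5) (nat_lit 98) (nat_lit 5) (nat_lit 431) (nat_lit 362) (nat_lit 227))))) (XT.nd (nat_lit 312) (nat_lit 456) (nat_lit 0) (XT.nd (nat_lit 156) (nat_lit 456) (nat_lit 0) (XT.nd (nat_lit 78) (nat_lit 0) (nat_lit 0) (XT.lf (nat_lit 0) (nat_lit 8069566966) (nat_lit 228) (nat_lit 7686822751) (nat_lit 304) (nat_lit 10659447690) (nat_lit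 94) (nat_lit 5) (nat_lit 97) (nat_lit 5) (nat_lit 98) (nat_lit 5) (nat_lit 432) (nat_lit 362) (nat_lit 226)) (XT.lf (nat_lit 0) (nat_lit 22343336409) (nat_lit 304) (nat_lit 3310080122) (nat_lit 76) (nat_lit 1280971434) (nat_lit 94) (nat_lit 5) (nat_lit 98) (nat_lit 5) (nat_lit 95) (nat_lit 5) (nat_lit 433) (nat_lit 362) (nat_lit 225))) (XT.nd (nat_lit 78) (nat_lit 228) (nat_lit 0) (XT.lf (nat_lit 0) (nat_lit 1814233743) (nat_lit 228) (nat_lit 15154450671) (nat_lit 76) (nat_lit 10493716823) (nat_lit 91) (nat_lit 5) (nat_lit 94) (nat_lit 5) (nat_lit 92) (nat_lit 5) (nat_lit 434) (nat_lit 362) (nat_lit 224)) (XT.lf (nat_lit 0) (nat_lit 403835417) (nat_lit 228) (nat_lit 7944024799) (nat_lit 304) (nat_lit 19656178507) (nat_lit 88) (nat_lit 5) (nat_lit 91) (nat_lit 5) (nat_lit 92) (nat_lit 5) (nat_lit 435) (nat_lit 362) (nat_lit 223)))) (XT.nd (nat_lit 156) (nat_lit 304) (nat_lit 0) (XT.nd (nat_lit 78) (nat_lit 152)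 (nat_lit 0) (XT.lf (nat_lit 0) (nat_lit 15235912789) (nat_lit 304) (nat_lit 11847762585) (nat_lit 76) (nat_lit 1473498643) (nat_lit 88) (nat_lit 5) (nat_lit 92) (nat_lit 5) (nat_lit 89) (nat_lit 5) (nat_lit 436) (nat_lit 362) (nat_lit 222)) (XT.lf (nat_lit 0) (nat_lit 4368855343) (nat_lit 152) (nat_lit 18073548675) (nat_lit 228) (nat_lit 6681146606) (nat_lit 86) (nat_lit 5) (nat_lit 88) (nat_lit 5) (nat_lit 89) (nat_lit 5) (nat_lit 437) (nat_lit 362) (nat_lit 221))) (XT.nd (nat_lit 78) (nat_lit 228) (nat_lit 0) (XT.lf (nat_lit 0) (nat_lit 267083438) (nat_lit 228) (nat_lit 8406219158) (nat_lit 76) (nat_lit 21030211468) (nat_lit 85) (nat_lit 5) (nat_lit 88) (nat_lit 5) (nat_lit 86) (nat_lit 5) (nat_lit 438) (nat_lit 362) (nat_lit 220)) (XT.lf (nat_lit 0) (nat_lit 7373896329) (nat_lit 304) (nat_lit 21789604615) (nat_lit 76) (nat_lit 1132859421) (nat_lit 82) (nat_lit 5) (nat_lit 86) (nat_lit 5) (nat_lit 83) (nat_lit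 5) (nat_lit 439) (nat_lit 362) (nat_lit 219))))))) (XT.nd (nat_lit 1092) (nat_lit 1292) (nat_lit 0) (XT.nd (nat_lit 546) (nat_lit 608) (nat_lit 0) (XT.nd (nat_lit 234) (nat_lit 532) (nat_lit 0) (XT.nd (nat_lit 78) (nat_lit 152) (nat_lit 0) (XT.lf (nat_lit 0) (nat_lit 14856999663) (nat_lit 304) (nat_lit 4906361810) (nat_lit 76) (nat_lit 11138739036) (nat_lit 82) (nat_lit 5) (nat_lit 86) (nat_lit 5) (nat_lit 83) (nat_lit 5) (nat_lit 440) (nat_lit 362) (nat_lit 218)) (XT.nd (nat_lit 78) (nat_lit 0) (nat_lit 0) (XT.lf (nat_lit 0) (nat_lit 12717324759) (nat_lit 152) (nat_lit 9961251038) (nat_lit 228) (nat_lit 8844018678) (nat_lit 80) (nat_lit 5) (nat_lit 82) (nat_lit 5) (nat_lit 83) (nat_lit 5) (nat_lit 441) (nat_lit 362) (nat_lit 217)) (XT.lf (nat_lit 0) (nat_lit 30777912990) (nat_lit 228) (nat_lit 1205970845) (nat_lit 76) (nat_lit 176526991) (nat_lit 80) (nat_lit 5) (nat_lit 83) (nat_lit 5) (nat_lit 81) (nat_lit 5)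 (nat_lit 442) (nat_lit 362) (nat_lit 216)))) (XT.nd (nat_lit 156) (nat_lit 152) (nat_lit 0) (XT.nd (nat_lit 78) (nat_lit 152) (nat_lit 0) (XT.lf (nat_lit 0) (nat_lit 6437844868) (nat_lit 228) (nat_lit 15729454584) (nat_lit 76) (nat_lit 10640506487) (nat_lit 77) (nat_lit 5) (nat_lit 80) (nat_lit 5) (nat_lit 78) (nat_lit 5) (nat_lit 443) (nat_lit 362) (nat_lit 215)) (XT.lf (nat_lit 0) (nat_lit 2482427309) (nat_lit 152) (nat_lit 12010787515) (nat_lit 228) (nat_lit 18980152220) (nat_lit 75) (nat_lit 5) (nat_lit 77) (nat_lit 5) (nat_lit 78) (nat_lit 5) (nat_lit 444) (nat_lit 362) (nat_lit 214))) (XT.nd (nat_lit 78) (nat_lit 152) (nat_lit 0) (XT.lf (nat_lit 0) (nat_lit 21549368066) (nat_lit 152) (nat_lit 1391856875) (nat_lit 228) (nat_lit 11213141538) (nat_lit 75) (nat_lit 5) (nat_lit 77) (nat_lit 5) (nat_lit 78) (nat_lit 5) (nat_lit 445) (nat_lit 362) (nat_lit 213)) (XT.lf (nat_lit 0) (nat_lit 6351186363) (nat_lit 152)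 (nat_lit 25436615447) (nat_lit 228) (nat_lit 3063641138) (nat_lit 73) (nat_lit 5) (nat_lit 75) (nat_lit 5) (nat_lit 76) (nat_lit 5) (nat_lit 446) (nat_lit 362) (nat_lit 212))))) (XT.nd (nat_lit 234) (nat_lit 380) (nat_lit 0) (XT.nd (nat_lit 78) (nat_lit 152) (nat_lit 0) (XT.lf (nat_lit 0) (nat_lit 5360992513) (nat_lit 228) (nat_lit 9510977520) (nat_lit 76) (nat_lit 20691885442) (nat_lit 72) (nat_lit 5) (nat_lit 75) (nat_lit 5) (nat_lit 73) (nat_lit 5) (nat_lit 447) (nat_lit 362) (nat_lit 211)) (XT.nd (nat_lit 78) (nat_lit 0) (nat_lit 0) (XT.lf (nat_lit 0) (nat_lit 10203618682) (nat_lit 152) (nat_lit 3863812667) (nat_lit 228) (nat_lit 22226580540) (nat_lit 70) (nat_lit 5) (nat_lit 72) (nat_lit 5) (nat_lit 73) (nat_lit 5) (nat_lit 448) (nat_lit 362) (nat_lit 210)) (XT.lf (nat_lit 0) (nat_lit 23196503000) (nat_lit 228) (nat_lit 6424550019) (nat_lit 76) (nat_lit 7420177536) (nat_lit 70) (nat_lit 5) (nat_lit 73) (nat_lit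 5) (nat_lit 71) (nat_lit 5) (nat_lit 449) (nat_lit 362) (nat_lit 209)))) (XT.nd (nat_lit 156) (nat_lit 152) (nat_lit 0) (XT.nd (nat_lit 78) (nat_lit 76) (nat_lit 0) (XT.lf (nat_lit 0) (nat_lit 14054474530) (nat_lit 152) (nat_lit 18711139879) (nat_lit 228) (nat_lit 5040267072) (nat_lit 68) (nat_lit 5) (nat_lit 70) (nat_lit 5) (nat_lit 71) (nat_lit 5) (nat_lit 450) (nat_lit 362) (nat_lit 208)) (XT.lf (nat_lit 0) (nat_lit 4008066183) (nat_lit 228) (nat_lit 3364133745) (nat_lit 76) (nat_lit 31218360625) (nat_lit 67) (nat_lit 5) (nat_lit 70) (nat_lit 5) (nat_lit 68) (nat_lit 5) (nat_lit 451) (nat_lit 362) (nat_lit 207))) (XT.nd (nat_lit 78) (nat_lit 0) (nat_lit 0) (XT.lf (nat_lit 0) (nat_lit 13435408825) (nat_lit 228) (nat_lit 21513729024) (nat_lit 76) (nat_lit 4441879793) (nat_lit 65) (nat_lit 5) (nat_lit 68) (nat_lit 5) (nat_lit 66) (nat_lit 5) (nat_lit 452) (nat_lit 362) (nat_lit 206)) (XT.lf (nat_lit 0) (nat_lit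 23245940812) (nat_lit 228) (nat_lit 475352132) (nat_lit 76) (nat_lit 16491185075) (nat_lit 65) (nat_lit 5) (nat_lit 68) (nat_lit 5) (nat_lit 66) (nat_lit 5) (nat_lit 453) (nat_lit 362) (nat_lit 205)))))) (XT.nd (nat_lit 546) (nat_lit 608) (nat_lit 0) (XT.nd (nat_lit 234) (nat_lit 304) (nat_lit 0) (XT.nd (nat_lit 78) (nat_lit 228) (nat_lit 0) (XT.lf (nat_lit 0) (nat_lit 21603634482) (nat_lit 152) (nat_lit 11948092969) (nat_lit 228) (nat_lit 7500827221) (nat_lit 63) (nat_lit 5) (nat_lit 65) (nat_lit 5) (nat_lit 66) (nat_lit 5) (nat_lit 454) (nat_lit 362) (nat_lit 204)) (XT.nd (nat_lit 78) (nat_lit 0) (nat_lit 0) (XT.lf (nat_lit 0) (nat_lit 2228822791) (nat_lit 228) (nat_lit 39467603986) (nat_lit 76) (nat_lit 220043362) (nat_lit 60) (nat_lit 5) (nat_lit 63) (nat_lit 5) (nat_lit 61) (nat_lit 5) (nat_lit 455) (nat_lit 362) (nat_lit 203)) (XT.lf (nat_lit 0) (nat_lit 12409555774) (nat_lit 228) (nat_lit 17604800370) (nat_lit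 76) (nat_lit 12780420950) (nat_lit 60) (nat_lit 5) (nat_lit 63) (nat_lit 5) (nat_lit 61) (nat_lit 5) (nat_lit 456) (nat_lit 362) (nat_lit 202)))) (XT.nd (nat_lit 156) (nat_lit 152) (nat_lit 0) (XT.nd (nat_lit 78) (nat_lit 0) (nat_lit 0) (XT.lf (nat_lit 0) (nat_lit 4999651490) (nat_lit 152) (nat_lit 17937627943) (nat_lit 228) (nat_lit 20760907321) (nat_lit 58) (nat_lit 5) (nat_lit 60) (nat_lit 5) (nat_lit 61) (nat_lit 5) (nat_lit 457) (nat_lit 362) (nat_lit 201)) (XT.lf (nat_lit 0) (nat_lit 28631436640) (nat_lit 152) (nat_lit 5320757875) (nat_lit 228) (nat_lit 10671363941) (nat_lit 58) (nat_lit 5) (nat_lit 60) (nat_lit 5) (nat_lit 61) (nat_lit 5) (nat_lit 458) (nat_lit 362) (nat_lit 200))) (XT.nd (nat_lit 78) (nat_lit 76) (nat_lit 0) (XT.lf (nat_lit 0) (nat_lit 7455719479) (nat_lit 76) (nat_lit 37981003048) (nat_lit 152) (nat_lit 135794343) (nat_lit 57) (nat_lit 5) (nat_lit 58) (nat_lit 5) (nat_lit 59) (nat_lit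 4) (nat_lit 459) (nat_lit 362) (nat_lit 199)) (XT.lf (nat_lit 0) (nat_lit 10716241453) (nat_lit 152) (nat_lit 14779059444) (nat_lit 76) (nat_lit 21045268302) (nat_lit 56) (nat_lit 5) (nat_lit 58) (nat_lit 5) (nat_lit 57) (nat_lit 5) (nat_lit 460) (nat_lit 362) (nat_lit 198))))) (XT.nd (nat_lit 312) (nat_lit 304) (nat_lit 0) (XT.nd (nat_lit 156) (nat_lit 152) (nat_lit 0) (XT.nd (nat_lit 78) (nat_lit 0) (nat_lit 0) (XT.lf (nat_lit 0) (nat_lit 9430328527) (nat_lit 152) (nat_lit 12545348072) (nat_lit 228) (nat_lit 25559409620) (nat_lit 54) (nat_lit 5) (nat_lit 56) (nat_lit 5) (nat_lit 57) (nat_lit 5) (nat_lit 461) (nat_lit 362) (nat_lit 197)) (XT.lf (nat_lit 0) (nat_lit 33725175803) (nat_lit 228) (nat_lit 13906288912) (nat_lit 76) (nat_lit 923406069) (nat_lit 54) (nat_lit 5) (nat_lit 57) (nat_lit 5) (nat_lit 55) (nat_lit 4) (nat_lit 462) (nat_lit 362) (nat_lit 196))) (XT.nd (nat_lit 78) (nat_lit 76) (nat_lit 0) (XT.lf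 (nat_lit 0) (nat_lit 11099662288) (nat_lit 76) (nat_lit 34952522376) (nat_lit 152) (nat_lit 3546313936) (nat_lit 53) (nat_lit 5) (nat_lit 54) (nat_lit 5) (nat_lit 55) (nat_lit 4) (nat_lit 463) (nat_lit 362) (nat_lit 195)) (XT.lf (nat_lit 0) (nat_lit 8053928325) (nat_lit 152) (nat_lit 13618248379) (nat_lit 76) (nat_lit 28994851858) (nat_lit 52) (nat_lit 5) (nat_lit 54) (nat_lit 5) (nat_lit 53) (nat_lit 5) (nat_lit 464) (nat_lit 362) (nat_lit 194)))) (XT.nd (nat_lit 156) (nat_lit 152) (nat_lit 0) (XT.nd (nat_lit 78) (nat_lit 0) (nat_lit 0) (XT.lf (nat_lit 0) (nat_lit 12201185147) (nat_lit 152) (nat_lit 7841298238) (nat_lit 228) (nat_lit 31720730605) (nat_lit 50) (nat_lit 5) (nat_lit 52) (nat_lit 5) (nat_lit 53) (nat_lit 5) (nat_lit 465) (nat_lit 362) (nat_lit 193)) (XT.lf (nat_lit 0) (nat_lit 32585455424) (nat_lit 228) (nat_lit 13887291573) (nat_lit 76) (nat_lit 6413695577) (nat_lit 50) (nat_lit 5) (nat_lit 53) (nat_lit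 5) (nat_lit 51) (nat_lit 4) (nat_lit 466) (nat_lit 362) (nat_lit 192))) (XT.nd (nat_lit 78) (nat_lit 76) (nat_lit 0) (XT.lf (nat_lit 0) (nat_lit 12717963359) (nat_lit 76) (nat_lit 32981125368) (nat_lit 152) (nat_lit 8338448515) (nat_lit 49) (nat_lit 5) (nat_lit 50) (nat_lit 5) (nat_lit 51) (nat_lit 4) (nat_lit 467) (nat_lit 362) (nat_lit 191)) (XT.lf (nat_lit 0) (nat_lit 4041358434) (nat_lit 152) (nat_lit 14862851601) (nat_lit 76) (nat_lit 36313723059) (nat_lit 48) (nat_lit 5) (nat_lit 50) (nat_lit 5) (nat_lit 49) (nat_lit 5) (nat_lit 468) (nat_lit 362) (nat_lit 190))))))))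
noncomputable def xc155 : XT := (XT.nd (nat_lit 45630) (nat_lit 0) (nat_lit 11020) (XT.nd (nat_lit 1092) (nat_lit 228) (nat_lit 0) (XT.nd (nat_lit 546) (nat_lit 456) (nat_lit 0) (XT.nd (nat_lit 234) (nat_lit 304) (nat_lit 0) (XT.nd (nat_lit 78) (nat_lit 76) (nat_lit 0) (XT.lf (nat_lit 0) (nat_lit 12539737523) (nat_lit 152) (nat_lit 4200418885) (nat_lit 228) (nat_lit 39687652262) (nat_lit 46) (nat_lit 5) (nat_lit 48) (nat_lit 5) (nat_lit 49) (nat_lit 5) (nat_lit 469) (nat_lit 362) (nat_lit 189)) (XT.nd (nat_lit 78) (nat_lit 76) (nat_lit 0) (XT.lf (nat_lit 0) (nat_lit 30071363597) (nat_lit 228) (nat_lit 16717079328) (nat_lit 76) (nat_lit 10877994579) (nat_lit 46) (nat_lit 5) (nat_lit 49) (nat_lit 5) (nat_lit 47) (nat_lit 4) (nat_lit 470) (nat_lit 362) (nat_lit 188)) (XT.lf (nat_lit 0) (nat_lit 11441011714) (nat_lit 76) (nat_lit 32507885406) (nat_lit 152) (nat_lit 14988936717) (nat_lit 45) (nat_lit 5) (nat_lit 46)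 (nat_lit 5) (nat_lit 47) (nat_lit 4) (nat_lit 471) (nat_lit 362) (nat_lit 187)))) (XT.nd (nat_lit 156) (nat_lit 76) (nat_lit 0) (XT.nd (nat_lit 78) (nat_lit 228) (nat_lit 0) (XT.lf (nat_lit 0) (nat_lit 40776926727) (nat_lit 76) (nat_lit 17629521913) (nat_lit 152) (nat_lit 1836012987) (nat_lit 45) (nat_lit 5) (nat_lit 46) (nat_lit 5) (nat_lit 47) (nat_lit 4) (nat_lit 472) (nat_lit 362) (nat_lit 186)) (XT.lf (nat_lit 0) (nat_lit 9469473390) (nat_lit 152) (nat_lit 2099499738) (nat_lit 228) (nat_lit 50011297842) (nat_lit 42) (nat_lit 5) (nat_lit 44) (nat_lit 5) (nat_lit 45) (nat_lit 5) (nat_lit 473) (nat_lit 362) (nat_lit 185))) (XT.nd (nat_lit 78) (nat_lit 76) (nat_lit 0) (XT.lf (nat_lit 0) (nat_lit 25666293910) (nat_lit 228) (nat_lit 23443904580) (nat_lit 76) (nat_lit 13837658441) (nat_lit 42) (nat_lit 5) (nat_lit 45) (nat_lit 5) (nat_lit 43) (nat_lit 4) (nat_lit 474) (nat_lit 362) (nat_lit 184)) (XT.lf (nat_lit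 0) (nat_lit 6173512672) (nat_lit 76) (nat_lit 34088294382) (nat_lit 152) (nat_lit 24092405525) (nat_lit 41) (nat_lit 5) (nat_lit 42) (nat_lit 5) (nat_lit 43) (nat_lit 4) (nat_lit 475) (nat_lit 362) (nat_lit 183))))) (XT.nd (nat_lit 234) (nat_lit 228) (nat_lit 0) (XT.nd (nat_lit 78) (nat_lit 228) (nat_lit 0) (XT.lf (nat_lit 0) (nat_lit 37150956453) (nat_lit 76) (nat_lit 18376162918) (nat_lit 152) (nat_lit 10268681793) (nat_lit 41) (nat_lit 5) (nat_lit 42) (nat_lit 5) (nat_lit 43) (nat_lit 4) (nat_lit 476) (nat_lit 362) (nat_lit 182)) (XT.nd (nat_lit 78) (nat_lit 0) (nat_lit 0) (XT.lf (nat_lit 0) (nat_lit 1764454507) (nat_lit 152) (nat_lit 2140085745) (nat_lit 228) (nat_lit 63374585108) (nat_lit 38) (nat_lit 5) (nat_lit 40) (nat_lit 5) (nat_lit 41) (nat_lit 5) (nat_lit 477) (nat_lit 362) (nat_lit 181)) (XT.lf (nat_lit 0) (nat_lit 18724173008) (nat_lit 228) (nat_lit 35378678649) (nat_lit 76) (nat_lit 14688219648)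 (nat_lit 38) (nat_lit 5) (nat_lit 41) (nat_lit 5) (nat_lit 39) (nat_lit 4) (nat_lit 478) (nat_lit 362) (nat_lit 180)))) (XT.nd (nat_lit 156) (nat_lit 152) (nat_lit 0) (XT.nd (nat_lit 78) (nat_lit 76) (nat_lit 0) (XT.lf (nat_lit 0) (nat_lit 34005022804) (nat_lit 228) (nat_lit 4368451506) (nat_lit 76) (nat_lit 31974402727) (nat_lit 38) (nat_lit 5) (nat_lit 41) (nat_lit 5) (nat_lit 39) (nat_lit 4) (nat_lit 479) (nat_lit 362) (nat_lit 179)) (XT.lf (nat_lit 0) (nat_lit 28112249954) (nat_lit 76) (nat_lit 21897852217) (nat_lit 152) (nat_lit 21933310893) (nat_lit 37) (nat_lit 5) (nat_lit 38) (nat_lit 5) (nat_lit 39) (nat_lit 4) (nat_lit 480) (nat_lit 362) (nat_lit 178))) (XT.nd (nat_lit 78) (nat_lit 152) (nat_lit 0) (XT.lf (nat_lit 0) (nat_lit 61648600074) (nat_lit 76) (nat_lit 4886467556) (nat_lit 152) (nat_lit 7050555766) (nat_lit 37) (nat_lit 5) (nat_lit 38) (nat_lit 5) (nat_lit 39) (nat_lit 4) (nat_lit 481) (nat_lit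 362) (nat_lit 177)) (XT.lf (nat_lit 0) (nat_lit 8441249760) (nat_lit 152) (nat_lit 54152268070) (nat_lit 76) (nat_lit 12671471598) (nat_lit 35) (nat_lit 5) (nat_lit 37) (nat_lit 5) (nat_lit 36) (nat_lit 4) (nat_lit 482) (nat_lit 362) (nat_lit 176)))))) (XT.nd (nat_lit 43914) (nat_lit 0) (nat_lit 19684) (XT.nd (nat_lit 234) (nat_lit 152) (nat_lit 0) (XT.nd (nat_lit 78) (nat_lit 76) (nat_lit 0) (XT.lf (nat_lit 0) (nat_lit 24421931727) (nat_lit 152) (nat_lit 21720021731) (nat_lit 76) (nat_lit 30845714033) (nat_lit 35) (nat_lit 5) (nat_lit 37) (nat_lit 5) (nat_lit 36) (nat_lit 4) (nat_lit 483) (nat_lit 362) (nat_lit 175)) (XT.nd (nat_lit 78) (nat_lit 0) (nat_lit 0) (XT.lf (nat_lit 0) (nat_lit 11909655041) (nat_lit 76) (nat_lit 29082703358) (nat_lit 152) (nat_lit 37766357978) (nat_lit 34) (nat_lit 5) (nat_lit 35) (nat_lit 5) (nat_lit 36) (nat_lit 4) (nat_lit 484) (nat_lit 362) (nat_lit 174)) (XT.lf (nat_lit 0) (nat_lit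 46985601862) (nat_lit 76) (nat_lit 11289512574) (nat_lit 152) (nat_lit 22301326002) (nat_lit 34) (nat_lit 5) (nat_lit 35) (nat_lit 5) (nat_lit 36) (nat_lit 4) (nat_lit 485) (nat_lit 362) (nat_lit 173)))) (XT.nd (nat_lit 43524) (nat_lit 0) (nat_lit 20672) (XT.nd (nat_lit 78) (nat_lit 76) (nat_lit 0) (XT.lf (nat_lit 0) (nat_lit 601504352) (nat_lit 76) (nat_lit 75544251102) (nat_lit 76) (nat_lit 6300858895) (nat_lit 33) (nat_lit 4) (nat_lit 34) (nat_lit 5) (nat_lit 34) (nat_lit 4) (nat_lit 486) (nat_lit 362) (nat_lit 172)) (XT.lf (nat_lit 0) (nat_lit 10431294536) (nat_lit 152) (nat_lit 48075229297) (nat_lit 76) (nat_lit 25849924847) (nat_lit 32) (nat_lit 5) (nat_lit 34) (nat_lit 5) (nat_lit 33) (nat_lit 4) (nat_lit 487) (nat_lit 362) (nat_lit 171))) (XT.nd (nat_lit 78) (nat_lit 0) (nat_lit 0) (XT.lf (nat_lit 0) (nat_lit 1339741160) (nat_lit 0) (nat_lit 1339741160) (nat_lit 988) (nat_lit 1671910425) (nat_lit 304) (nat_lit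 5) (nat_lit 304) (nat_lit 3) (nat_lit 317) (nat_lit 3) (nat_lit 363) (nat_lit 363) (nat_lit 294)) (XT.lf (nat_lit 0) (nat_lit 6408289790) (nat_lit 988) (nat_lit 1781681890) (nat_lit 1064) (nat_lit 613929042) (nat_lit 304) (nat_lit 5) (nat_lit 317) (nat_lit 3) (nat_lit 318) (nat_lit 5) (nat_lit 364) (nat_lit 363) (nat_lit 293))))) (XT.nd (nat_lit 312) (nat_lit 0) (nat_lit 76) (XT.nd (nat_lit 156) (nat_lit 988) (nat_lit 0) (XT.nd (nat_lit 78) (nat_lit 0) (nat_lit 0) (XT.lf (nat_lit 76) (nat_lit 2591108275) (nat_lit 0) (nat_lit 4912023741) (nat_lit 1064) (nat_lit 1404510256) (nat_lit 305) (nat_lit 5) (nat_lit 304) (nat_lit 5) (nat_lit 318) (nat_lit 5) (nat_lit 365) (nat_lit 363) (nat_lit 292)) (XT.lf (nat_lit 76) (nat_lit 7111689972) (nat_lit 0) (nat_lit 1500619381) (nat_lit 1064) (nat_lit 402755599) (nat_lit 305) (nat_lit 5) (nat_lit 304) (nat_lit 5) (nat_lit 318) (nat_lit 5) (nat_lit 366) (nat_lit 363) (nat_lit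 291))) (XT.nd (nat_lit 78) (nat_lit 0) (nat_lit 0) (XT.lf (nat_lit 0) (nat_lit 626438639) (nat_lit 1064) (nat_lit 6477526140) (nat_lit 1140) (nat_lit 2021287066) (nat_lit 291) (nat_lit 5) (nat_lit 305) (nat_lit 5) (nat_lit 306) (nat_lit 5) (nat_lit 367) (nat_lit 363) (nat_lit 290)) (XT.lf (nat_lit 0) (nat_lit 1677876563) (nat_lit 1064) (nat_lit 1903896087) (nat_lit 1140) (nat_lit 5656880604) (nat_lit 291) (nat_lit 5) (nat_lit 305) (nat_lit 5) (nat_lit 306) (nat_lit 5) (nat_lit 368) (nat_lit 363) (nat_lit 289)))) (XT.nd (nat_lit 156) (nat_lit 0) (nat_lit 0) (XT.nd (nat_lit 78) (nat_lit 0) (nat_lit 0) (XT.lf (nat_lit 0) (nat_lit 2755226122) (nat_lit 1064) (nat_lit 6514561027) (nat_lit 1140) (nat_lit 85850564) (nat_lit 292) (nat_lit 5) (nat_lit 306) (nat_lit 5) (nat_lit 307) (nat_lit 5) (nat_lit 369) (nat_lit 363) (nat_lit 288)) (XT.lf (nat_lit 0) (nat_lit 3886895605) (nat_lit 1064) (nat_lit 1765161314) (nat_lit 1140)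 (nat_lit 3823426517) (nat_lit 292) (nat_lit 5) (nat_lit 306) (nat_lit 5) (nat_lit 307) (nat_lit 5) (nat_lit 370) (nat_lit 363) (nat_lit 287))) (XT.nd (nat_lit 78) (nat_lit 0) (nat_lit 76) (XT.lf (nat_lit 76) (nat_lit 3167778285) (nat_lit 0) (nat_lit 1883265542) (nat_lit 1140) (nat_lit 4547936215) (nat_lit 293) (nat_lit 5) (nat_lit 292) (nat_lit 5) (nat_lit 307) (nat_lit 5) (nat_lit 371) (nat_lit 363) (nat_lit 286)) (XT.lf (nat_lit 0) (nat_lit 6256241782) (nat_lit 1064) (nat_lit 1481747150) (nat_lit 1140) (nat_lit 1988019895) (nat_lit 293) (nat_lit 5) (nat_lit 307) (nat_lit 5) (nat_lit 308) (nat_lit 5) (nat_lit 372) (nat_lit 363) (nat_lit 285))))))) (XT.nd (nat_lit 1092) (nat_lit 4180) (nat_lit 0) (XT.nd (nat_lit 546) (nat_lit 3572) (nat_lit 0) (XT.nd (nat_lit 234) (nat_lit 0) (nat_lit 0) (XT.nd (nat_lit 78) (nat_lit 1064) (nat_lit 0) (XT.lf (nat_lit 76) (nat_lit 3647752540) (nat_lit 0) (nat_lit 3873371688) (nat_lit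 1140) (nat_lit 2335029108) (nat_lit 294) (nat_lit 5) (nat_lit 293) (nat_lit 5) (nat_lit 308) (nat_lit 5) (nat_lit 373) (nat_lit 363) (nat_lit 284)) (XT.nd (nat_lit 78) (nat_lit 1140) (nat_lit 0) (XT.lf (nat_lit 0) (nat_lit 8810675712) (nat_lit 1064) (nat_lit 1051167162) (nat_lit 1140) (nat_lit 128768036) (nat_lit 294) (nat_lit 5) (nat_lit 308) (nat_lit 5) (nat_lit 309) (nat_lit 5) (nat_lit 374) (nat_lit 363) (nat_lit 283)) (XT.lf (nat_lit 0) (nat_lit 61092729) (nat_lit 1140) (nat_lit 5843247740) (nat_lit 1216) (nat_lit 4223224542) (nat_lit 279) (nat_lit 5) (nat_lit 294) (nat_lit 5) (nat_lit 295) (nat_lit 5) (nat_lit 375) (nat_lit 363) (nat_lit 282)))) (XT.nd (nat_lit 156) (nat_lit 0) (nat_lit 76) (XT.nd (nat_lit 78) (nat_lit 0) (nat_lit 76) (XT.lf (nat_lit 0) (nat_lit 1298138770) (nat_lit 1140) (nat_lit 500160459) (nat_lit 1216) (nat_lit 8470512469) (nat_lit 279) (nat_lit 5) (nat_lit 294) (nat_lit 5) (nat_lit 295)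 (nat_lit 5) (nat_lit 376) (nat_lit 363) (nat_lit 281)) (XT.lf (nat_lit 0) (nat_lit 2617661815) (nat_lit 1140) (nat_lit 5356049327) (nat_lit 1216) (nat_lit 2439232920) (nat_lit 280) (nat_lit 5) (nat_lit 295) (nat_lit 5) (nat_lit 296) (nat_lit 5) (nat_lit 377) (nat_lit 363) (nat_lit 280))) (XT.nd (nat_lit 78) (nat_lit 0) (nat_lit 76) (XT.lf (nat_lit 76) (nat_lit 194078091) (nat_lit 0) (nat_lit 3780727021) (nat_lit 1216) (nat_lit 6586663225) (nat_lit 281) (nat_lit 5) (nat_lit 280) (nat_lit 5) (nat_lit 296) (nat_lit 5) (nat_lit 378) (nat_lit 363) (nat_lit 279)) (XT.lf (nat_lit 0) (nat_lit 5406339778) (nat_lit 1140) (nat_lit 4720179121) (nat_lit 76) (nat_lit 586927843) (nat_lit 281) (nat_lit 5) (nat_lit 296) (nat_lit 5) (nat_lit 282) (nat_lit 5) (nat_lit 379) (nat_lit 363) (nat_lit 278))))) (XT.nd (nat_lit 234) (nat_lit 1368) (nat_lit 0) (XT.nd (nat_lit 78) (nat_lit 1216) (nat_lit 0) (XT.lf (nat_lit 0) (nat_lit 1058160116)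 (nat_lit 1140) (nat_lit 5844909591) (nat_lit 1216) (nat_lit 3966255778) (nat_lit 266) (nat_lit 5) (nat_lit 281) (nat_lit 5) (nat_lit 282) (nat_lit 5) (nat_lit 380) (nat_lit 363) (nat_lit 277)) (XT.nd (nat_lit 78) (nat_lit 1216) (nat_lit 0) (XT.lf (nat_lit 0) (nat_lit 7085315602) (nat_lit 1140) (nat_lit 1382228912) (nat_lit 1216) (nat_lit 2561659000) (nat_lit 266) (nat_lit 5) (nat_lit 281) (nat_lit 5) (nat_lit 282) (nat_lit 5) (nat_lit 381) (nat_lit 363) (nat_lit 276)) (XT.lf (nat_lit 0) (nat_lit 2087813854) (nat_lit 1216) (nat_lit 8018041500) (nat_lit 1292) (nat_lit 1087223452) (nat_lit 250) (nat_lit 5) (nat_lit 266) (nat_lit 5) (nat_lit 267) (nat_lit 5) (nat_lit 382) (nat_lit 363) (nat_lit 275)))) (XT.nd (nat_lit 156) (nat_lit 608) (nat_lit 0) (XT.nd (nat_lit 78) (nat_lit 684) (nat_lit 0) (XT.lf (nat_lit 0) (nat_lit 453121664) (nat_lit 1292) (nat_lit 3019298012) (nat_lit 76) (nat_lit 7888430913) (nat_lit 249)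 (nat_lit 5) (nat_lit 266) (nat_lit 5) (nat_lit 250) (nat_lit 5) (nat_lit 383) (nat_lit 363) (nat_lit 274)) (XT.lf (nat_lit 0) (nat_lit 2038317630) (nat_lit 760) (nat_lit 8263712246) (nat_lit 76) (nat_lit 1230695231) (nat_lit 240) (nat_lit 5) (nat_lit 250) (nat_lit 5) (nat_lit 241) (nat_lit 5) (nat_lit 384) (nat_lit 363) (nat_lit 273))) (XT.nd (nat_lit 78) (nat_lit 608) (nat_lit 0) (XT.lf (nat_lit 0) (nat_lit 3713614228) (nat_lit 760) (nat_lit 1957230173) (nat_lit 76) (nat_lit 6037642203) (nat_lit 240) (nat_lit 5) (nat_lit 250) (nat_lit 5) (nat_lit 241) (nat_lit 5) (nat_lit 385) (nat_lit 363) (nat_lit 272)) (XT.lf (nat_lit 0) (nat_lit 4607409408) (nat_lit 608) (nat_lit 854082076) (nat_lit 684) (nat_lit 6427366689) (nat_lit 232) (nat_lit 5) (nat_lit 240) (nat_lit 5) (nat_lit 241) (nat_lit 5) (nat_lit 386) (nat_lit 363) (nat_lit 271)))))) (XT.nd (nat_lit 546) (nat_lit 1976) (nat_lit 0) (XT.nd (nat_lit 234) (nat_lit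 1064) (nat_lit 0) (XT.nd (nat_lit 78) (nat_lit 1140) (nat_lit 0) (XT.lf (nat_lit 0) (nat_lit 7299726264) (nat_lit 684) (nat_lit 726013764) (nat_lit 76) (nat_lit 4047769904) (nat_lit 232) (nat_lit 5) (nat_lit 241) (nat_lit 5) (nat_lit 233) (nat_lit 5) (nat_lit 387) (nat_lit 363) (nat_lit 270)) (XT.nd (nat_lit 78) (nat_lit 532) (nat_lit 0) (XT.lf (nat_lit 0) (nat_lit 6116201580) (nat_lit 608) (nat_lit 3123262791) (nat_lit 684) (nat_lit 3022852669) (nat_lit 224) (nat_lit 5) (nat_lit 232) (nat_lit 5) (nat_lit 233) (nat_lit 5) (nat_lit 388) (nat_lit 363) (nat_lit 269)) (XT.lf (nat_lit 0) (nat_lit 695793952) (nat_lit 532) (nat_lit 10553726900) (nat_lit 608) (nat_lit 1206910018) (nat_lit 217) (nat_lit 5) (nat_lit 224) (nat_lit 5) (nat_lit 225) (nat_lit 5) (nat_lit 389) (nat_lit 363) (nat_lit 268)))) (XT.nd (nat_lit 156) (nat_lit 456) (nat_lit 0) (XT.nd (nat_lit 78) (nat_lit 532) (nat_lit 0) (XT.lf (nat_lit 0) (nat_lit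 723872279) (nat_lit 608) (nat_lit 4844865986) (nat_lit 76) (nat_lit 7085245176) (nat_lit 216) (nat_lit 5) (nat_lit 224) (nat_lit 5) (nat_lit 217) (nat_lit 5) (nat_lit 390) (nat_lit 363) (nat_lit 267)) (XT.lf (nat_lit 0) (nat_lit 2290350772) (nat_lit 532) (nat_lit 400284136) (nat_lit 608) (nat_lit 10166405518) (nat_lit 209) (nat_lit 5) (nat_lit 216) (nat_lit 5) (nat_lit 217) (nat_lit 5) (nat_lit 391) (nat_lit 363) (nat_lit 266))) (XT.nd (nat_lit 78) (nat_lit 456) (nat_lit 0) (XT.lf (nat_lit 0) (nat_lit 4793795997) (nat_lit 608) (nat_lit 3394732289) (nat_lit 76) (nat_lit 4875344561) (nat_lit 209) (nat_lit 5) (nat_lit 217) (nat_lit 5) (nat_lit 210) (nat_lit 5) (nat_lit 392) (nat_lit 363) (nat_lit 265)) (XT.lf (nat_lit 0) (nat_lit 4046864754) (nat_lit 456) (nat_lit 2937277045) (nat_lit 532) (nat_lit 6292051176) (nat_lit 203) (nat_lit 5) (nat_lit 209) (nat_lit 5) (nat_lit 210) (nat_lit 5) (nat_lit 393) (nat_lit 363)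 (nat_lit 264))))) (XT.nd (nat_lit 312) (nat_lit 912) (nat_lit 0) (XT.nd (nat_lit 156) (nat_lit 532) (nat_lit 0) (XT.nd (nat_lit 78) (nat_lit 532) (nat_lit 0) (XT.lf (nat_lit 0) (nat_lit 9280134128) (nat_lit 532) (nat_lit 1757516204) (nat_lit 76) (nat_lit 2456039562) (nat_lit 203) (nat_lit 5) (nat_lit 210) (nat_lit 5) (nat_lit 204) (nat_lit 5) (nat_lit 394) (nat_lit 363) (nat_lit 263)) (XT.lf (nat_lit 0) (nat_lit 6006317574) (nat_lit 532) (nat_lit 5707603044) (nat_lit 608) (nat_lit 2001728792) (nat_lit 196) (nat_lit 5) (nat_lit 203) (nat_lit 5) (nat_lit 204) (nat_lit 5) (nat_lit 395) (nat_lit 363) (nat_lit 262))) (XT.nd (nat_lit 78) (nat_lit 0) (nat_lit 0) (XT.lf (nat_lit 0) (nat_lit 73545296) (nat_lit 456) (nat_lit 198389079) (nat_lit 532) (nat_lit 13672232157) (nat_lit 189) (nat_lit 5) (nat_lit 195) (nat_lit 5) (nat_lit 196) (nat_lit 5) (nat_lit 396) (nat_lit 363) (nat_lit 261)) (XT.lf (nat_lit 0) (nat_lit 2687376093)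 (nat_lit 532) (nat_lit 6023206566) (nat_lit 76) (nat_lit 5464952579) (nat_lit 189) (nat_lit 5) (nat_lit 196) (nat_lit 5) (nat_lit 190) (nat_lit 5) (nat_lit 397) (nat_lit 363) (nat_lit 260)))) (XT.nd (nat_lit 156) (nat_lit 456) (nat_lit 0) (XT.nd (nat_lit 78) (nat_lit 0) (nat_lit 0) (XT.lf (nat_lit 0) (nat_lit 2078105144) (nat_lit 456) (nat_lit 3102166539) (nat_lit 532) (nat_lit 9233428152) (nat_lit 183) (nat_lit 5) (nat_lit 189) (nat_lit 5) (nat_lit 190) (nat_lit 5) (nat_lit 398) (nat_lit 363) (nat_lit 259)) (XT.lf (nat_lit 0) (nat_lit 7818409055) (nat_lit 532) (nat_lit 4157957522) (nat_lit 76) (nat_lit 2680533560) (nat_lit 183) (nat_lit 5) (nat_lit 190) (nat_lit 5) (nat_lit 184) (nat_lit 5) (nat_lit 399) (nat_lit 363) (nat_lit 258))) (XT.nd (nat_lit 78) (nat_lit 0) (nat_lit 0) (XT.lf (nat_lit 0) (nat_lit 4298377165) (nat_lit 456) (nat_lit 6293153506) (nat_lit 532) (nat_lit 4314194861) (nat_lit 177) (nat_lit 5)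 (nat_lit 183) (nat_lit 5) (nat_lit 184) (nat_lit 5) (nat_lit 400) (nat_lit 363) (nat_lit 257)) (XT.lf (nat_lit 0) (nat_lit 13074036110) (nat_lit 456) (nat_lit 399887256) (nat_lit 532) (nat_lit 1687314163) (nat_lit 177) (nat_lit 5) (nat_lit 183) (nat_lit 5) (nat_lit 184) (nat_lit 5) (nat_lit 401) (nat_lit 363) (nat_lit 256))))))))
noncomputable def xc156 : XT := (XT.nd (nat_lit 2184) (nat_lit 3268) (nat_lit 0) (XT.nd (nat_lit 1092) (nat_lit 2584) (nat_lit 0) (XT.nd (nat_lit 546) (nat_lit 1444) (nat_lit 0) (XT.nd (nat_lit 234) (nat_lit 836) (nat_lit 0) (XT.nd (nat_lit 78) (nat_lit 380) (nat_lit 0) (XT.lf (nat_lit 0) (nat_lit 1103398541) (nat_lit 532) (nat_lit 8685894433) (nat_lit 76) (nat_lit 5631685227) (nat_lit 170) (nat_lit 5) (nat_lit 177) (nat_lit 5) (nat_lit 171) (nat_lit 5) (nat_lit 402) (nat_lit 363) (nat_lit 255)) (XT.nd (nat_lit 78) (nat_lit 0) (nat_lit 0) (XT.lf (nat_lit 0) (nat_lit 139205811) (nat_lit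 380) (nat_lit 3815926527) (nat_lit 456) (nat_lit 11732544989) (nat_lit 165) (nat_lit 5) (nat_lit 170) (nat_lit 5) (nat_lit 171) (nat_lit 5) (nat_lit 403) (nat_lit 363) (nat_lit 254)) (XT.lf (nat_lit 0) (nat_lit 6988308756) (nat_lit 456) (nat_lit 6595769061) (nat_lit 76) (nat_lit 2375426590) (nat_lit 165) (nat_lit 5) (nat_lit 171) (nat_lit 5) (nat_lit 166) (nat_lit 5) (nat_lit 404) (nat_lit 363) (nat_lit 253)))) (XT.nd (nat_lit 156) (nat_lit 456) (nat_lit 0) (XT.nd (nat_lit 78) (nat_lit 0) (nat_lit 0) (XT.lf (nat_lit 0) (nat_lit 2619623451) (nat_lit 380) (nat_lit 7541111597) (nat_lit 456) (nat_lit 6077307206) (nat_lit 160) (nat_lit 5) (nat_lit 165) (nat_lit 5) (nat_lit 166) (nat_lit 5) (nat_lit 405) (nat_lit 363) (nat_lit 252)) (XT.lf (nat_lit 0) (nat_lit 12227645193) (nat_lit 380) (nat_lit 1252830359) (nat_lit 456) (nat_lit 3042899927) (nat_lit 160) (nat_lit 5) (nat_lit 165) (nat_lit 5) (nat_lit 166) (nat_lit 5)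 (nat_lit 406) (nat_lit 363) (nat_lit 251))) (XT.nd (nat_lit 78) (nat_lit 0) (nat_lit 0) (XT.lf (nat_lit 0) (nat_lit 169273204) (nat_lit 456) (nat_lit 11474514647) (nat_lit 76) (nat_lit 5170810003) (nat_lit 154) (nat_lit 5) (nat_lit 160) (nat_lit 5) (nat_lit 155) (nat_lit 5) (nat_lit 407) (nat_lit 363) (nat_lit 250)) (XT.lf (nat_lit 0) (nat_lit 3458870341) (nat_lit 456) (nat_lit 1822151113) (nat_lit 76) (nat_lit 11831368263) (nat_lit 154) (nat_lit 5) (nat_lit 160) (nat_lit 5) (nat_lit 155) (nat_lit 5) (nat_lit 408) (nat_lit 363) (nat_lit 249))))) (XT.nd (nat_lit 234) (nat_lit 760) (nat_lit 0) (XT.nd (nat_lit 78) (nat_lit 304) (nat_lit 0) (XT.lf (nat_lit 0) (nat_lit 6925967378) (nat_lit 456) (nat_lit 9167511168) (nat_lit 76) (nat_lit 1323275527) (nat_lit 149) (nat_lit 5) (nat_lit 155) (nat_lit 5) (nat_lit 150) (nat_lit 5) (nat_lit 409) (nat_lit 363) (nat_lit 248)) (XT.nd (nat_lit 78) (nat_lit 0) (nat_lit 0) (XT.lf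 (nat_lit 0) (nat_lit 876479604) (nat_lit 304) (nat_lit 9686479854) (nat_lit 380) (nat_lit 7165316445) (nat_lit 145) (nat_lit 5) (nat_lit 149) (nat_lit 5) (nat_lit 150) (nat_lit 5) (nat_lit 410) (nat_lit 363) (nat_lit 247)) (XT.lf (nat_lit 0) (nat_lit 11391309475) (nat_lit 304) (nat_lit 2997126649) (nat_lit 380) (nat_lit 3658328939) (nat_lit 145) (nat_lit 5) (nat_lit 149) (nat_lit 5) (nat_lit 150) (nat_lit 5) (nat_lit 411) (nat_lit 363) (nat_lit 246)))) (XT.nd (nat_lit 156) (nat_lit 304) (nat_lit 0) (XT.nd (nat_lit 78) (nat_lit 0) (nat_lit 0) (XT.lf (nat_lit 0) (nat_lit 17102647) (nat_lit 456) (nat_lit 14506530259) (nat_lit 76) (nat_lit 3849322017) (nat_lit 139) (nat_lit 5) (nat_lit 145) (nat_lit 5) (nat_lit 140) (nat_lit 5) (nat_lit 412) (nat_lit 363) (nat_lit 245)) (XT.lf (nat_lit 0) (nat_lit 3814025446) (nat_lit 456) (nat_lit 3951370563) (nat_lit 76) (nat_lit 10939907800) (nat_lit 139) (nat_lit 5) (nat_lit 145)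 (nat_lit 5) (nat_lit 140) (nat_lit 5) (nat_lit 413) (nat_lit 363) (nat_lit 244))) (XT.nd (nat_lit 78) (nat_lit 0) (nat_lit 0) (XT.lf (nat_lit 0) (nat_lit 7040066694) (nat_lit 304) (nat_lit 740045249) (nat_lit 380) (nat_lit 11265856130) (nat_lit 135) (nat_lit 5) (nat_lit 139) (nat_lit 5) (nat_lit 140) (nat_lit 5) (nat_lit 414) (nat_lit 363) (nat_lit 243)) (XT.lf (nat_lit 0) (nat_lit 11955645141) (nat_lit 380) (nat_lit 1034146169) (nat_lit 76) (nat_lit 6404349551) (nat_lit 135) (nat_lit 5) (nat_lit 140) (nat_lit 5) (nat_lit 136) (nat_lit 5) (nat_lit 415) (nat_lit 363) (nat_lit 242)))))) (XT.nd (nat_lit 546) (nat_lit 988) (nat_lit 0) (XT.nd (nat_lit 234) (nat_lit 912) (nat_lit 0) (XT.nd (nat_lit 78) (nat_lit 380) (nat_lit 0) (XT.lf (nat_lit 0) (nat_lit 10445894845) (nat_lit 304) (nat_lit 5906370349) (nat_lit 380) (nat_lit 3397621458) (nat_lit 131) (nat_lit 5) (nat_lit 135) (nat_lit 5) (nat_lit 136) (nat_lit 5) (nat_lit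 416) (nat_lit 363) (nat_lit 241)) (XT.nd (nat_lit 78) (nat_lit 0) (nat_lit 0) (XT.lf (nat_lit 0) (nat_lit 783026325) (nat_lit 380) (nat_lit 17935732823) (nat_lit 76) (nat_lit 1396323563) (nat_lit 126) (nat_lit 5) (nat_lit 131) (nat_lit 5) (nat_lit 127) (nat_lit 5) (nat_lit 417) (nat_lit 363) (nat_lit 240)) (XT.lf (nat_lit 0) (nat_lit 5162435937) (nat_lit 380) (nat_lit 6401122780) (nat_lit 76) (nat_lit 8922420041) (nat_lit 126) (nat_lit 5) (nat_lit 131) (nat_lit 5) (nat_lit 127) (nat_lit 5) (nat_lit 418) (nat_lit 363) (nat_lit 239)))) (XT.nd (nat_lit 156) (nat_lit 608) (nat_lit 0) (XT.nd (nat_lit 78) (nat_lit 0) (nat_lit 0) (XT.lf (nat_lit 0) (nat_lit 5571178855) (nat_lit 304) (nat_lit 4144214226) (nat_lit 380) (nat_lit 11151345820) (nat_lit 122) (nat_lit 5) (nat_lit 126) (nat_lit 5) (nat_lit 127) (nat_lit 5) (nat_lit 419) (nat_lit 363) (nat_lit 238)) (XT.lf (nat_lit 0) (nat_lit 14492566283) (nat_lit 380) (nat_lit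 3274555875) (nat_lit 76) (nat_lit 3489172978) (nat_lit 122) (nat_lit 5) (nat_lit 127) (nat_lit 5) (nat_lit 123) (nat_lit 5) (nat_lit 420) (nat_lit 363) (nat_lit 237))) (XT.nd (nat_lit 78) (nat_lit 380) (nat_lit 0) (XT.lf (nat_lit 0) (nat_lit 9229469754) (nat_lit 228) (nat_lit 10302390849) (nat_lit 304) (nat_lit 2122115327) (nat_lit 119) (nat_lit 5) (nat_lit 122) (nat_lit 5) (nat_lit 123) (nat_lit 5) (nat_lit 421) (nat_lit 363) (nat_lit 236)) (XT.lf (nat_lit 0) (nat_lit 71932684) (nat_lit 304) (nat_lit 2558123754) (nat_lit 380) (nat_lit 19432070167) (nat_lit 114) (nat_lit 5) (nat_lit 118) (nat_lit 5) (nat_lit 119) (nat_lit 5) (nat_lit 422) (nat_lit 363) (nat_lit 235))))) (XT.nd (nat_lit 234) (nat_lit 760) (nat_lit 0) (XT.nd (nat_lit 78) (nat_lit 228) (nat_lit 0) (XT.lf (nat_lit 0) (nat_lit 7650140042) (nat_lit 380) (nat_lit 9371978034) (nat_lit 76) (nat_lit 5454735294) (nat_lit 114) (nat_lit 5) (nat_lit 119) (nat_lit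 5) (nat_lit 115) (nat_lit 5) (nat_lit 423) (nat_lit 363) (nat_lit 234)) (XT.nd (nat_lit 78) (nat_lit 0) (nat_lit 0) (XT.lf (nat_lit 0) (nat_lit 3654421548) (nat_lit 228) (nat_lit 9216383505) (nat_lit 304) (nat_lit 10031719336) (nat_lit 111) (nat_lit 5) (nat_lit 114) (nat_lit 5) (nat_lit 115) (nat_lit 5) (nat_lit 424) (nat_lit 363) (nat_lit 233)) (XT.lf (nat_lit 0) (nat_lit 17247543984) (nat_lit 228) (nat_lit 1084856629) (nat_lit 304) (nat_lit 5006037376) (nat_lit 111) (nat_lit 5) (nat_lit 114) (nat_lit 5) (nat_lit 115) (nat_lit 5) (nat_lit 425) (nat_lit 363) (nat_lit 232)))) (XT.nd (nat_lit 156) (nat_lit 456) (nat_lit 0) (XT.nd (nat_lit 78) (nat_lit 0) (nat_lit 0) (XT.lf (nat_lit 0) (nat_lit 300701691) (nat_lit 304) (nat_lit 16264645650) (nat_lit 76) (nat_lit 7218025813) (nat_lit 107) (nat_lit 5) (nat_lit 111) (nat_lit 5) (nat_lit 108) (nat_lit 5) (nat_lit 426) (nat_lit 363) (nat_lit 231)) (XT.lf (nat_lit 0) (nat_lit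 5728842559) (nat_lit 304) (nat_lit 2655237914) (nat_lit 76) (nat_lit 15854206096) (nat_lit 107) (nat_lit 5) (nat_lit 111) (nat_lit 5) (nat_lit 108) (nat_lit 5) (nat_lit 427) (nat_lit 363) (nat_lit 230))) (XT.nd (nat_lit 78) (nat_lit 228) (nat_lit 0) (XT.lf (nat_lit 0) (nat_lit 11422779599) (nat_lit 304) (nat_lit 13132522365) (nat_lit 76) (nat_lit 148458434) (nat_lit 104) (nat_lit 5) (nat_lit 108) (nat_lit 5) (nat_lit 105) (nat_lit 5) (nat_lit 428) (nat_lit 363) (nat_lit 229)) (XT.lf (nat_lit 0) (nat_lit 1017500243) (nat_lit 228) (nat_lit 16380236916) (nat_lit 304) (nat_lit 7782156732) (nat_lit 101) (nat_lit 5) (nat_lit 104) (nat_lit 5) (nat_lit 105) (nat_lit 5) (nat_lit 429) (nat_lit 363) (nat_lit 228))))))) (XT.nd (nat_lit 1092) (nat_lit 1672) (nat_lit 0) (XT.nd (nat_lit 546) (nat_lit 608) (nat_lit 0) (XT.nd (nat_lit 234) (nat_lit 684) (nat_lit 0) (XT.nd (nat_lit 78) (nat_lit 304) (nat_lit 0) (XT.lf (nat_lit 0)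 (nat_lit 15845757873) (nat_lit 228) (nat_lit 7829263878) (nat_lit 304) (nat_lit 1991598770) (nat_lit 101) (nat_lit 5) (nat_lit 104) (nat_lit 5) (nat_lit 105) (nat_lit 5) (nat_lit 430) (nat_lit 363) (nat_lit 227)) (XT.nd (nat_lit 78) (nat_lit 0) (nat_lit 0) (XT.lf (nat_lit 0) (nat_lit 3944020457) (nat_lit 304) (nat_lit 21180855033) (nat_lit 76) (nat_lit 1040463248) (nat_lit 97) (nat_lit 5) (nat_lit 101) (nat_lit 5) (nat_lit 98) (nat_lit 5) (nat_lit 431) (nat_lit 363) (nat_lit 226)) (XT.lf (nat_lit 0) (nat_lit 10186071628) (nat_lit 304) (nat_lit 6354232253) (nat_lit 76) (nat_lit 10133072634) (nat_lit 97) (nat_lit 5) (nat_lit 101) (nat_lit 5) (nat_lit 98) (nat_lit 5) (nat_lit 432) (nat_lit 363) (nat_lit 225)))) (XT.nd (nat_lit 156) (nat_lit 456) (nat_lit 0) (XT.nd (nat_lit 78) (nat_lit 0) (nat_lit 0) (XT.lf (nat_lit 0) (nat_lit 9079529313) (nat_lit 228) (nat_lit 7614124965) (nat_lit 304) (nat_lit 10500654363) (nat_lit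 94) (nat_lit 5) (nat_lit 97) (nat_lit 5) (nat_lit 98) (nat_lit 5) (nat_lit 433) (nat_lit 363) (nat_lit 224)) (XT.lf (nat_lit 0) (nat_lit 23467508732) (nat_lit 304) (nat_lit 2653107090) (nat_lit 76) (nat_lit 1608122853) (nat_lit 94) (nat_lit 5) (nat_lit 98) (nat_lit 5) (nat_lit 95) (nat_lit 5) (nat_lit 434) (nat_lit 363) (nat_lit 223))) (XT.nd (nat_lit 78) (nat_lit 228) (nat_lit 0) (XT.lf (nat_lit 0) (nat_lit 2321007734) (nat_lit 228) (nat_lit 14851159587) (nat_lit 76) (nat_lit 11100474502) (nat_lit 91) (nat_lit 5) (nat_lit 94) (nat_lit 5) (nat_lit 92) (nat_lit 5) (nat_lit 435) (nat_lit 363) (nat_lit 222)) (XT.lf (nat_lit 0) (nat_lit 1166444451) (nat_lit 228) (nat_lit 7878237603) (nat_lit 304) (nat_lit 19786026986) (nat_lit 88) (nat_lit 5) (nat_lit 91) (nat_lit 5) (nat_lit 92) (nat_lit 5) (nat_lit 436) (nat_lit 363) (nat_lit 221))))) (XT.nd (nat_lit 234) (nat_lit 380) (nat_lit 0) (XT.nd (nat_lit 78) (nat_lit 228)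 (nat_lit 0) (XT.lf (nat_lit 0) (nat_lit 16129212796) (nat_lit 304) (nat_lit 11464339594) (nat_lit 76) (nat_lit 1807192630) (nat_lit 88) (nat_lit 5) (nat_lit 92) (nat_lit 5) (nat_lit 89) (nat_lit 5) (nat_lit 437) (nat_lit 363) (nat_lit 220)) (XT.nd (nat_lit 78) (nat_lit 76) (nat_lit 0) (XT.lf (nat_lit 0) (nat_lit 5231533187) (nat_lit 152) (nat_lit 18314692766) (nat_lit 228) (nat_lit 6438058833) (nat_lit 86) (nat_lit 5) (nat_lit 88) (nat_lit 5) (nat_lit 89) (nat_lit 5) (nat_lit 438) (nat_lit 363) (nat_lit 219)) (XT.lf (nat_lit 0) (nat_lit 697297354) (nat_lit 228) (nat_lit 7939647350) (nat_lit 76) (nat_lit 21944956083) (nat_lit 85) (nat_lit 5) (nat_lit 88) (nat_lit 5) (nat_lit 86) (nat_lit 5) (nat_lit 439) (nat_lit 363) (nat_lit 218)))) (XT.nd (nat_lit 156) (nat_lit 152) (nat_lit 0) (XT.nd (nat_lit 78) (nat_lit 0) (nat_lit 0) (XT.lf (nat_lit 0) (nat_lit 8014694306) (nat_lit 304) (nat_lit 21721862922) (nat_lit 76)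 (nat_lit 1456055392) (nat_lit 82) (nat_lit 5) (nat_lit 86) (nat_lit 5) (nat_lit 83) (nat_lit 5) (nat_lit 440) (nat_lit 363) (nat_lit 217)) (XT.lf (nat_lit 0) (nat_lit 15710069933) (nat_lit 304) (nat_lit 4353135352) (nat_lit 76) (nat_lit 11753687798) (nat_lit 82) (nat_lit 5) (nat_lit 86) (nat_lit 5) (nat_lit 83) (nat_lit 5) (nat_lit 441) (nat_lit 363) (nat_lit 216))) (XT.nd (nat_lit 78) (nat_lit 0) (nat_lit 0) (XT.lf (nat_lit 0) (nat_lit 13792394977) (nat_lit 152) (nat_lit 9968700342) (nat_lit 228) (nat_lit 8695063936) (nat_lit 80) (nat_lit 5) (nat_lit 82) (nat_lit 5) (nat_lit 83) (nat_lit 5) (nat_lit 442) (nat_lit 363) (nat_lit 215)) (XT.lf (nat_lit 0) (nat_lit 32094418584) (nat_lit 228) (nat_lit 559759166) (nat_lit 76) (nat_lit 459203570) (nat_lit 80) (nat_lit 5) (nat_lit 83) (nat_lit 5) (nat_lit 81) (nat_lit 5) (nat_lit 443) (nat_lit 363) (nat_lit 214)))))) (XT.nd (nat_lit 546) (nat_lit 912) (nat_lit 0) (XT.nd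 (nat_lit 234) (nat_lit 380) (nat_lit 0) (XT.nd (nat_lit 78) (nat_lit 152) (nat_lit 0) (XT.lf (nat_lit 0) (nat_lit 7023080383) (nat_lit 228) (nat_lit 15517789863) (nat_lit 76) (nat_lit 11239362768) (nat_lit 77) (nat_lit 5) (nat_lit 80) (nat_lit 5) (nat_lit 78) (nat_lit 5) (nat_lit 444) (nat_lit 363) (nat_lit 213)) (XT.nd (nat_lit 78) (nat_lit 0) (nat_lit 0) (XT.lf (nat_lit 0) (nat_lit 3233747032) (nat_lit 152) (nat_lit 12081450279) (nat_lit 228) (nat_lit 19150712349) (nat_lit 75) (nat_lit 5) (nat_lit 77) (nat_lit 5) (nat_lit 78) (nat_lit 5) (nat_lit 445) (nat_lit 363) (nat_lit 212)) (XT.lf (nat_lit 0) (nat_lit 22852982025) (nat_lit 152) (nat_lit 1152388443) (nat_lit 228) (nat_lit 11162308175) (nat_lit 75) (nat_lit 5) (nat_lit 77) (nat_lit 5) (nat_lit 78) (nat_lit 5) (nat_lit 446) (nat_lit 363) (nat_lit 211)))) (XT.nd (nat_lit 156) (nat_lit 152) (nat_lit 0) (XT.nd (nat_lit 78) (nat_lit 76) (nat_lit 0) (XT.lf (nat_lit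 0) (nat_lit 7200943457) (nat_lit 152) (nat_lit 25914413789) (nat_lit 228) (nat_lit 2770370992) (nat_lit 73) (nat_lit 5) (nat_lit 75) (nat_lit 5) (nat_lit 76) (nat_lit 5) (nat_lit 447) (nat_lit 363) (nat_lit 210)) (XT.lf (nat_lit 0) (nat_lit 5888485534) (nat_lit 228) (nat_lit 9148950612) (nat_lit 76) (nat_lit 21582297058) (nat_lit 72) (nat_lit 5) (nat_lit 75) (nat_lit 5) (nat_lit 73) (nat_lit 5) (nat_lit 448) (nat_lit 363) (nat_lit 209))) (XT.nd (nat_lit 78) (nat_lit 0) (nat_lit 0) (XT.lf (nat_lit 0) (nat_lit 11150736847) (nat_lit 152) (nat_lit 3700862952) (nat_lit 228) (nat_lit 22520331150) (nat_lit 70) (nat_lit 5) (nat_lit 72) (nat_lit 5) (nat_lit 73) (nat_lit 5) (nat_lit 449) (nat_lit 363) (nat_lit 208)) (XT.lf (nat_lit 0) (nat_lit 24246598208) (nat_lit 228) (nat_lit 5986965851) (nat_lit 76) (nat_lit 7908241554) (nat_lit 70) (nat_lit 5) (nat_lit 73) (nat_lit 5) (nat_lit 71) (nat_lit 5) (nat_lit 450) (nat_lit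 363) (nat_lit 207))))) (XT.nd (nat_lit 312) (nat_lit 380) (nat_lit 0) (XT.nd (nat_lit 156) (nat_lit 304) (nat_lit 0) (XT.nd (nat_lit 78) (nat_lit 76) (nat_lit 0) (XT.lf (nat_lit 0) (nat_lit 15100249820) (nat_lit 152) (nat_lit 18998216256) (nat_lit 228) (nat_lit 4831060540) (nat_lit 68) (nat_lit 5) (nat_lit 70) (nat_lit 5) (nat_lit 71) (nat_lit 5) (nat_lit 451) (nat_lit 363) (nat_lit 206)) (XT.lf (nat_lit 0) (nat_lit 4471397060) (nat_lit 228) (nat_lit 2852234614) (nat_lit 76) (nat_lit 32414320216) (nat_lit 67) (nat_lit 5) (nat_lit 70) (nat_lit 5) (nat_lit 68) (nat_lit 5) (nat_lit 452) (nat_lit 363) (nat_lit 205))) (XT.nd (nat_lit 78) (nat_lit 152) (nat_lit 0) (XT.lf (nat_lit 0) (nat_lit 14179975263) (nat_lit 228) (nat_lit 21544701174) (nat_lit 76) (nat_lit 4837794751) (nat_lit 65) (nat_lit 5) (nat_lit 68) (nat_lit 5) (nat_lit 66) (nat_lit 5) (nat_lit 453) (nat_lit 363) (nat_lit 204)) (XT.lf (nat_lit 0) (nat_lit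 109058852) (nat_lit 152) (nat_lit 24166865974) (nat_lit 228) (nat_lit 17132918430) (nat_lit 63) (nat_lit 5) (nat_lit 65) (nat_lit 5) (nat_lit 66) (nat_lit 5) (nat_lit 454) (nat_lit 363) (nat_lit 203)))) (XT.nd (nat_lit 156) (nat_lit 152) (nat_lit 0) (XT.nd (nat_lit 78) (nat_lit 228) (nat_lit 0) (XT.lf (nat_lit 0) (nat_lit 22842438469) (nat_lit 152) (nat_lit 12043419363) (nat_lit 228) (nat_lit 7388416095) (nat_lit 63) (nat_lit 5) (nat_lit 65) (nat_lit 5) (nat_lit 66) (nat_lit 5) (nat_lit 455) (nat_lit 363) (nat_lit 202)) (XT.lf (nat_lit 0) (nat_lit 2625130825) (nat_lit 228) (nat_lit 40052887100) (nat_lit 76) (nat_lit 486034711) (nat_lit 60) (nat_lit 5) (nat_lit 63) (nat_lit 5) (nat_lit 61) (nat_lit 5) (nat_lit 456) (nat_lit 363) (nat_lit 201))) (XT.nd (nat_lit 78) (nat_lit 152) (nat_lit 0) (XT.lf (nat_lit 0) (nat_lit 13101690360) (nat_lit 228) (nat_lit 17551638551) (nat_lit 76) (nat_lit 13415668577) (nat_lit 60)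 (nat_lit 5) (nat_lit 63) (nat_lit 5) (nat_lit 61) (nat_lit 5) (nat_lit 457) (nat_lit 363) (nat_lit 200)) (XT.lf (nat_lit 0) (nat_lit 5725247788) (nat_lit 152) (nat_lit 18216215067) (nat_lit 228) (nat_lit 21058160871) (nat_lit 58) (nat_lit 5) (nat_lit 60) (nat_lit 5) (nat_lit 61) (nat_lit 5) (nat_lit 458) (nat_lit 363) (nat_lit 199))))))))
noncomputable def xc157 : XT := (XT.nd (nat_lit 45708) (nat_lit 0) (nat_lit 13376) (XT.nd (nat_lit 1092) (nat_lit 912) (nat_lit 0) (XT.nd (nat_lit 546) (nat_lit 532) (nat_lit 0) (XT.nd (nat_lit 234) (nat_lit 304) (nat_lit 0) (XT.nd (nat_lit 78) (nat_lit 152) (nat_lit 0) (XT.lf (nat_lit 0) (nat_lit 30049221247) (nat_lit 152) (nat_lit 5228398365) (nat_lit 228) (nat_lit 10675413917) (nat_lit 58) (nat_lit 5) (nat_lit 60) (nat_lit 5) (nat_lit 61) (nat_lit 5) (nat_lit 459) (nat_lit 363) (nat_lit 198)) (XT.nd (nat_lit 78) (nat_lit 0) (nat_lit 0) (XT.lf (nat_lit 0) (nat_lit 171569472)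 (nat_lit 152) (nat_lit 38692683114) (nat_lit 76) (nat_lit 8066194459) (nat_lit 56) (nat_lit 5) (nat_lit 58) (nat_lit 5) (nat_lit 57) (nat_lit 5) (nat_lit 460) (nat_lit 363) (nat_lit 197)) (XT.lf (nat_lit 0) (nat_lit 11337445506) (nat_lit 152) (nat_lit 14672650936) (nat_lit 76) (nat_lit 21917674624) (nat_lit 56) (nat_lit 5) (nat_lit 58) (nat_lit 5) (nat_lit 57) (nat_lit 5) (nat_lit 461) (nat_lit 363) (nat_lit 196)))) (XT.nd (nat_lit 156) (nat_lit 152) (nat_lit 0) (XT.nd (nat_lit 78) (nat_lit 0) (nat_lit 0) (XT.lf (nat_lit 0) (nat_lit 10257628672) (nat_lit 152) (nat_lit 12673538432) (nat_lit 228) (nat_lit 26021062081) (nat_lit 54) (nat_lit 5) (nat_lit 56) (nat_lit 5) (nat_lit 57) (nat_lit 5) (nat_lit 462) (nat_lit 363) (nat_lit 195)) (XT.lf (nat_lit 0) (nat_lit 35026839591) (nat_lit 228) (nat_lit 13788609282) (nat_lit 76) (nat_lit 1187348435) (nat_lit 54) (nat_lit 5) (nat_lit 57) (nat_lit 5) (nat_lit 55) (nat_lit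 4) (nat_lit 463) (nat_lit 363) (nat_lit 194))) (XT.nd (nat_lit 78) (nat_lit 76) (nat_lit 0) (XT.lf (nat_lit 0) (nat_lit 11962276647) (nat_lit 76) (nat_lit 35758029207) (nat_lit 152) (nat_lit 3357529340) (nat_lit 53) (nat_lit 5) (nat_lit 54) (nat_lit 5) (nat_lit 55) (nat_lit 4) (nat_lit 464) (nat_lit 363) (nat_lit 193)) (XT.lf (nat_lit 0) (nat_lit 8576530744) (nat_lit 152) (nat_lit 13506984704) (nat_lit 76) (nat_lit 30095073987) (nat_lit 52) (nat_lit 5) (nat_lit 54) (nat_lit 5) (nat_lit 53) (nat_lit 5) (nat_lit 465) (nat_lit 363) (nat_lit 192))))) (XT.nd (nat_lit 234) (nat_lit 304) (nat_lit 0) (XT.nd (nat_lit 78) (nat_lit 76) (nat_lit 0) (XT.lf (nat_lit 0) (nat_lit 13081935641) (nat_lit 152) (nat_lit 7839570553) (nat_lit 228) (nat_lit 32386251914) (nat_lit 50) (nat_lit 5) (nat_lit 52) (nat_lit 5) (nat_lit 53) (nat_lit 5) (nat_lit 466) (nat_lit 363) (nat_lit 191)) (XT.nd (nat_lit 78) (nat_lit 76) (nat_lit 0) (XT.lf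 (nat_lit 0) (nat_lit 33834889160) (nat_lit 228) (nat_lit 13798289569) (nat_lit 76) (nat_lit 6831681745) (nat_lit 50) (nat_lit 5) (nat_lit 53) (nat_lit 5) (nat_lit 51) (nat_lit 4) (nat_lit 467) (nat_lit 363) (nat_lit 190)) (XT.lf (nat_lit 0) (nat_lit 13600165945) (nat_lit 76) (nat_lit 33738659658) (nat_lit 152) (nat_lit 8311756118) (nat_lit 49) (nat_lit 5) (nat_lit 50) (nat_lit 5) (nat_lit 51) (nat_lit 4) (nat_lit 468) (nat_lit 363) (nat_lit 189)))) (XT.nd (nat_lit 156) (nat_lit 76) (nat_lit 0) (XT.nd (nat_lit 78) (nat_lit 152) (nat_lit 0) (XT.lf (nat_lit 0) (nat_lit 4426136656) (nat_lit 152) (nat_lit 14817393351) (nat_lit 76) (nat_lit 37623017317) (nat_lit 48) (nat_lit 5) (nat_lit 50) (nat_lit 5) (nat_lit 49) (nat_lit 5) (nat_lit 469) (nat_lit 363) (nat_lit 188)) (XT.lf (nat_lit 0) (nat_lit 13402456351) (nat_lit 152) (nat_lit 4100443162) (nat_lit 228) (nat_lit 40609910141) (nat_lit 46) (nat_lit 5) (nat_lit 48)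 (nat_lit 5) (nat_lit 49) (nat_lit 5) (nat_lit 470) (nat_lit 363) (nat_lit 187))) (XT.nd (nat_lit 78) (nat_lit 76) (nat_lit 0) (XT.lf (nat_lit 0) (nat_lit 31228563485) (nat_lit 228) (nat_lit 16740739629) (nat_lit 76) (nat_lit 11419459120) (nat_lit 46) (nat_lit 5) (nat_lit 49) (nat_lit 5) (nat_lit 47) (nat_lit 4) (nat_lit 471) (nat_lit 363) (nat_lit 186)) (XT.lf (nat_lit 0) (nat_lit 12257409320) (nat_lit 76) (nat_lit 33262133164) (nat_lit 152) (nat_lit 15178844871) (nat_lit 45) (nat_lit 5) (nat_lit 46) (nat_lit 5) (nat_lit 47) (nat_lit 4) (nat_lit 472) (nat_lit 363) (nat_lit 185)))))) (XT.nd (nat_lit 546) (nat_lit 380) (nat_lit 0) (XT.nd (nat_lit 234) (nat_lit 304) (nat_lit 0) (XT.nd (nat_lit 78) (nat_lit 228) (nat_lit 0) (XT.lf (nat_lit 0) (nat_lit 42459620213) (nat_lit 76) (nat_lit 17943855333) (nat_lit 152) (nat_lit 1638899253) (nat_lit 45) (nat_lit 5) (nat_lit 46) (nat_lit 5) (nat_lit 47) (nat_lit 4) (nat_lit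 473) (nat_lit 363) (nat_lit 184)) (XT.nd (nat_lit 78) (nat_lit 0) (nat_lit 0) (XT.lf (nat_lit 0) (nat_lit 10213327530) (nat_lit 152) (nat_lit 1947205166) (nat_lit 228) (nat_lit 51259796920) (nat_lit 42) (nat_lit 5) (nat_lit 44) (nat_lit 5) (nat_lit 45) (nat_lit 5) (nat_lit 474) (nat_lit 363) (nat_lit 183)) (XT.lf (nat_lit 0) (nat_lit 26675661147) (nat_lit 228) (nat_lit 23695716841) (nat_lit 76) (nat_lit 14457718956) (nat_lit 42) (nat_lit 5) (nat_lit 45) (nat_lit 5) (nat_lit 43) (nat_lit 4) (nat_lit 475) (nat_lit 363) (nat_lit 182)))) (XT.nd (nat_lit 156) (nat_lit 228) (nat_lit 0) (XT.nd (nat_lit 78) (nat_lit 0) (nat_lit 0) (XT.lf (nat_lit 0) (nat_lit 6805796410) (nat_lit 76) (nat_lit 34900568679) (nat_lit 152) (nat_lit 24571358828) (nat_lit 41) (nat_lit 5) (nat_lit 42) (nat_lit 5) (nat_lit 43) (nat_lit 4) (nat_lit 476) (nat_lit 363) (nat_lit 181)) (XT.lf (nat_lit 0) (nat_lit 38699541805) (nat_lit 76) (nat_lit 18723200685)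 (nat_lit 152) (nat_lit 10340024905) (nat_lit 41) (nat_lit 5) (nat_lit 42) (nat_lit 5) (nat_lit 43) (nat_lit 4) (nat_lit 477) (nat_lit 363) (nat_lit 180))) (XT.nd (nat_lit 78) (nat_lit 0) (nat_lit 0) (XT.lf (nat_lit 0) (nat_lit 2251776261) (nat_lit 152) (nat_lit 1999413798) (nat_lit 228) (nat_lit 65039410912) (nat_lit 38) (nat_lit 5) (nat_lit 40) (nat_lit 5) (nat_lit 41) (nat_lit 5) (nat_lit 478) (nat_lit 363) (nat_lit 179)) (XT.lf (nat_lit 0) (nat_lit 19510638953) (nat_lit 228) (nat_lit 36013517756) (nat_lit 76) (nat_lit 15323892141) (nat_lit 38) (nat_lit 5) (nat_lit 41) (nat_lit 5) (nat_lit 39) (nat_lit 4) (nat_lit 479) (nat_lit 363) (nat_lit 178))))) (XT.nd (nat_lit 312) (nat_lit 152) (nat_lit 0) (XT.nd (nat_lit 156) (nat_lit 152) (nat_lit 0) (XT.nd (nat_lit 78) (nat_lit 76) (nat_lit 0) (XT.lf (nat_lit 0) (nat_lit 35243368396) (nat_lit 228) (nat_lit 4085406748) (nat_lit 76) (nat_lit 33122980346) (nat_lit 38)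 (nat_lit 5) (nat_lit 41) (nat_lit 5) (nat_lit 39) (nat_lit 4) (nat_lit 480) (nat_lit 363) (nat_lit 177)) (XT.lf (nat_lit 0) (nat_lit 29365655969) (nat_lit 76) (nat_lit 22360530525) (nat_lit 152) (nat_lit 22369043862) (nat_lit 37) (nat_lit 5) (nat_lit 38) (nat_lit 5) (nat_lit 39) (nat_lit 4) (nat_lit 481) (nat_lit 363) (nat_lit 176))) (XT.nd (nat_lit 78) (nat_lit 152) (nat_lit 0) (XT.lf (nat_lit 0) (nat_lit 63896153723) (nat_lit 76) (nat_lit 4844462303) (nat_lit 152) (nat_lit 7046279859) (nat_lit 37) (nat_lit 5) (nat_lit 38) (nat_lit 5) (nat_lit 39) (nat_lit 4) (nat_lit 482) (nat_lit 363) (nat_lit 175)) (XT.lf (nat_lit 0) (nat_lit 8905553758) (nat_lit 152) (nat_lit 55373992728) (nat_lit 76) (nat_lit 13237049959) (nat_lit 35) (nat_lit 5) (nat_lit 37) (nat_lit 5) (nat_lit 36) (nat_lit 4) (nat_lit 483) (nat_lit 363) (nat_lit 174)))) (XT.nd (nat_lit 156) (nat_lit 76) (nat_lit 0) (XT.nd (nat_lit 78) (nat_lit 76) (nat_lit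 0) (XT.lf (nat_lit 0) (nat_lit 25359508616) (nat_lit 152) (nat_lit 21980512301) (nat_lit 76) (nat_lit 31951118670) (nat_lit 35) (nat_lit 5) (nat_lit 37) (nat_lit 5) (nat_lit 36) (nat_lit 4) (nat_lit 484) (nat_lit 363) (nat_lit 173)) (XT.lf (nat_lit 0) (nat_lit 12654220362) (nat_lit 76) (nat_lit 29770581944) (nat_lit 152) (nat_lit 38690585309) (nat_lit 34) (nat_lit 5) (nat_lit 35) (nat_lit 5) (nat_lit 36) (nat_lit 4) (nat_lit 485) (nat_lit 363) (nat_lit 172))) (XT.nd (nat_lit 78) (nat_lit 76) (nat_lit 0) (XT.lf (nat_lit 0) (nat_lit 48771165714) (nat_lit 76) (nat_lit 11448972209) (nat_lit 152) (nat_lit 22767682860) (nat_lit 34) (nat_lit 5) (nat_lit 35) (nat_lit 5) (nat_lit 36) (nat_lit 4) (nat_lit 486) (nat_lit 363) (nat_lit 171)) (XT.lf (nat_lit 0) (nat_lit 996008007) (nat_lit 76) (nat_lit 77630450396) (nat_lit 76) (nat_lit 6287654987) (nat_lit 33) (nat_lit 4) (nat_lit 34) (nat_lit 5) (nat_lit 34) (nat_lit 4) (nat_lit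 487) (nat_lit 363) (nat_lit 170))))))) (XT.nd (nat_lit 1092) (nat_lit 5244) (nat_lit 0) (XT.nd (nat_lit 546) (nat_lit 912) (nat_lit 0) (XT.nd (nat_lit 234) (nat_lit 0) (nat_lit 0) (XT.nd (nat_lit 78) (nat_lit 1064) (nat_lit 0) (XT.lf (nat_lit 0) (nat_lit 1856766182) (nat_lit 0) (nat_lit 1856766182) (nat_lit 988) (nat_lit 739437309) (nat_lit 304) (nat_lit 5) (nat_lit 304) (nat_lit 3) (nat_lit 317) (nat_lit 3) (nat_lit 364) (nat_lit 364) (nat_lit 292)) (XT.nd (nat_lit 78) (nat_lit 1064) (nat_lit 0) (XT.lf (nat_lit 0) (nat_lit 8165159767) (nat_lit 0) (nat_lit 280957049) (nat_lit 988) (nat_lit 565844473) (nat_lit 304) (nat_lit 5) (nat_lit 304) (nat_lit 3) (nat_lit 317) (nat_lit 3) (nat_lit 365) (nat_lit 364) (nat_lit 291)) (XT.lf (nat_lit 0) (nat_lit 398682502) (nat_lit 1064) (nat_lit 5473995041) (nat_lit 1140) (nat_lit 3247448668) (nat_lit 290) (nat_lit 5) (nat_lit 304) (nat_lit 5) (nat_lit 305) (nat_lit 5) (nat_lit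 366) (nat_lit 364) (nat_lit 290)))) (XT.nd (nat_lit 156) (nat_lit 0) (nat_lit 76) (XT.nd (nat_lit 78) (nat_lit 0) (nat_lit 76) (XT.lf (nat_lit 0) (nat_lit 1357430315) (nat_lit 1064) (nat_lit 968013857) (nat_lit 1140) (nat_lit 6906636524) (nat_lit 290) (nat_lit 5) (nat_lit 304) (nat_lit 5) (nat_lit 305) (nat_lit 5) (nat_lit 367) (nat_lit 364) (nat_lit 289)) (XT.lf (nat_lit 0) (nat_lit 2360284206) (nat_lit 1064) (nat_lit 5633643784) (nat_lit 1140) (nat_lit 1353017579) (nat_lit 291) (nat_lit 5) (nat_lit 305) (nat_lit 5) (nat_lit 306) (nat_lit 5) (nat_lit 368) (nat_lit 364) (nat_lit 288))) (XT.nd (nat_lit 78) (nat_lit 0) (nat_lit 0) (XT.lf (nat_lit 0) (nat_lit 3393312285) (nat_lit 1064) (nat_lit 953043901) (nat_lit 1140) (nat_lit 5118909256) (nat_lit 291) (nat_lit 5) (nat_lit 305) (nat_lit 5) (nat_lit 306) (nat_lit 5) (nat_lit 369) (nat_lit 364) (nat_lit 287)) (XT.lf (nat_lit 76) (nat_lit 3925288936) (nat_lit 0) (nat_lit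 537922653) (nat_lit 1140) (nat_lit 5123758282) (nat_lit 292) (nat_lit 5) (nat_lit 291) (nat_lit 5) (nat_lit 306) (nat_lit 5) (nat_lit 370) (nat_lit 364) (nat_lit 286))))) (XT.nd (nat_lit 234) (nat_lit 1064) (nat_lit 0) (XT.nd (nat_lit 78) (nat_lit 0) (nat_lit 0) (XT.lf (nat_lit 0) (nat_lit 5576471253) (nat_lit 1064) (nat_lit 795312499) (nat_lit 1140) (nat_lit 3340214821) (nat_lit 292) (nat_lit 5) (nat_lit 306) (nat_lit 5) (nat_lit 307) (nat_lit 5) (nat_lit 371) (nat_lit 364) (nat_lit 285)) (XT.nd (nat_lit 78) (nat_lit 0) (nat_lit 76) (XT.lf (nat_lit 76) (nat_lit 4275587802) (nat_lit 0) (nat_lit 2463876918) (nat_lit 1140) (nat_lit 3100834050) (nat_lit 293) (nat_lit 5) (nat_lit 292) (nat_lit 5) (nat_lit 307) (nat_lit 5) (nat_lit 372) (nat_lit 364) (nat_lit 284)) (XT.lf (nat_lit 0) (nat_lit 7931163481) (nat_lit 1064) (nat_lit 492738458) (nat_lit 1140) (nat_lit 1548741978) (nat_lit 293) (nat_lit 5) (nat_lit 307) (nat_lit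 5) (nat_lit 308) (nat_lit 5) (nat_lit 373) (nat_lit 364) (nat_lit 283)))) (XT.nd (nat_lit 156) (nat_lit 0) (nat_lit 76) (XT.nd (nat_lit 78) (nat_lit 1140) (nat_lit 0) (XT.lf (nat_lit 76) (nat_lit 4780514251) (nat_lit 0) (nat_lit 4419997508) (nat_lit 1140) (nat_lit 907200806) (nat_lit 294) (nat_lit 5) (nat_lit 293) (nat_lit 5) (nat_lit 308) (nat_lit 5) (nat_lit 374) (nat_lit 364) (nat_lit 282)) (XT.lf (nat_lit 0) (nat_lit 232943034) (nat_lit 1140) (nat_lit 47322029) (nat_lit 1216) (nat_lit 9967194504) (nat_lit 278) (nat_lit 5) (nat_lit 293) (nat_lit 5) (nat_lit 294) (nat_lit 5) (nat_lit 375) (nat_lit 364) (nat_lit 281))) (XT.nd (nat_lit 78) (nat_lit 0) (nat_lit 0) (XT.lf (nat_lit 0) (nat_lit 1453331307) (nat_lit 1140) (nat_lit 4960223341) (nat_lit 1216) (nat_lit 3975655894) (nat_lit 279) (nat_lit 5) (nat_lit 294) (nat_lit 5) (nat_lit 295) (nat_lit 5) (nat_lit 376) (nat_lit 364) (nat_lit 280)) (XT.lf (nat_lit 76)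 (nat_lit 522528055) (nat_lit 0) (nat_lit 2169486277) (nat_lit 1216) (nat_lit 7843758196) (nat_lit 280) (nat_lit 5) (nat_lit 279) (nat_lit 5) (nat_lit 295) (nat_lit 5) (nat_lit 377) (nat_lit 364) (nat_lit 279)))))) (XT.nd (nat_lit 546) (nat_lit 3040) (nat_lit 0) (XT.nd (nat_lit 234) (nat_lit 2356) (nat_lit 0) (XT.nd (nat_lit 78) (nat_lit 0) (nat_lit 0) (XT.lf (nat_lit 0) (nat_lit 4013650465) (nat_lit 1140) (nat_lit 4456341828) (nat_lit 1216) (nat_lit 2215374017) (nat_lit 280) (nat_lit 5) (nat_lit 295) (nat_lit 5) (nat_lit 296) (nat_lit 5) (nat_lit 378) (nat_lit 364) (nat_lit 278)) (XT.nd (nat_lit 78) (nat_lit 0) (nat_lit 76) (XT.lf (nat_lit 76) (nat_lit 1249893442) (nat_lit 0) (nat_lit 4133335207) (nat_lit 1216) (nat_lit 5455978929) (nat_lit 281) (nat_lit 5) (nat_lit 280) (nat_lit 5) (nat_lit 296) (nat_lit 5) (nat_lit 379) (nat_lit 364) (nat_lit 277)) (XT.lf (nat_lit 0) (nat_lit 6817928203) (nat_lit 1140) (nat_lit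 3802175736) (nat_lit 76) (nat_lit 376847340) (nat_lit 281) (nat_lit 5) (nat_lit 296) (nat_lit 5) (nat_lit 282) (nat_lit 5) (nat_lit 380) (nat_lit 364) (nat_lit 276)))) (XT.nd (nat_lit 156) (nat_lit 1292) (nat_lit 0) (XT.nd (nat_lit 78) (nat_lit 0) (nat_lit 0) (XT.lf (nat_lit 0) (nat_lit 2139125357) (nat_lit 1140) (nat_lit 6194130181) (nat_lit 1216) (nat_lit 2825052123) (nat_lit 266) (nat_lit 5) (nat_lit 281) (nat_lit 5) (nat_lit 282) (nat_lit 5) (nat_lit 381) (nat_lit 364) (nat_lit 275)) (XT.lf (nat_lit 0) (nat_lit 8316535690) (nat_lit 1140) (nat_lit 1592504811) (nat_lit 1216) (nat_lit 1415022043) (nat_lit 266) (nat_lit 5) (nat_lit 281) (nat_lit 5) (nat_lit 282) (nat_lit 5) (nat_lit 382) (nat_lit 364) (nat_lit 274))) (XT.nd (nat_lit 78) (nat_lit 0) (nat_lit 0) (XT.lf (nat_lit 0) (nat_lit 75246669) (nat_lit 1292) (nat_lit 8297993709) (nat_lit 76) (nat_lit 3120386261) (nat_lit 249) (nat_lit 5) (nat_lit 266) (nat_lit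 5) (nat_lit 250) (nat_lit 5) (nat_lit 383) (nat_lit 364) (nat_lit 273)) (XT.lf (nat_lit 0) (nat_lit 1605778140) (nat_lit 1292) (nat_lit 2071367628) (nat_lit 76) (nat_lit 7989998815) (nat_lit 249) (nat_lit 5) (nat_lit 266) (nat_lit 5) (nat_lit 250) (nat_lit 5) (nat_lit 384) (nat_lit 364) (nat_lit 272))))) (XT.nd (nat_lit 312) (nat_lit 1140) (nat_lit 0) (XT.nd (nat_lit 156) (nat_lit 1216) (nat_lit 0) (XT.nd (nat_lit 78) (nat_lit 0) (nat_lit 0) (XT.lf (nat_lit 0) (nat_lit 3214397755) (nat_lit 760) (nat_lit 7448632897) (nat_lit 76) (nat_lit 1181879126) (nat_lit 240) (nat_lit 5) (nat_lit 250) (nat_lit 5) (nat_lit 241) (nat_lit 5) (nat_lit 385) (nat_lit 364) (nat_lit 271)) (XT.lf (nat_lit 0) (nat_lit 4907479544) (nat_lit 760) (nat_lit 983917257) (nat_lit 76) (nat_lit 6135531700) (nat_lit 240) (nat_lit 5) (nat_lit 250) (nat_lit 5) (nat_lit 241) (nat_lit 5) (nat_lit 386) (nat_lit 364) (nat_lit 270))) (XT.nd (nat_lit 78)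 (nat_lit 608) (nat_lit 0) (XT.lf (nat_lit 0) (nat_lit 5767543572) (nat_lit 608) (nat_lit 918544917) (nat_lit 684) (nat_lit 5527283740) (nat_lit 232) (nat_lit 5) (nat_lit 240) (nat_lit 5) (nat_lit 241) (nat_lit 5) (nat_lit 387) (nat_lit 364) (nat_lit 269)) (XT.lf (nat_lit 0) (nat_lit 281422561) (nat_lit 608) (nat_lit 8269494777) (nat_lit 684) (nat_lit 3853512379) (nat_lit 224) (nat_lit 5) (nat_lit 232) (nat_lit 5) (nat_lit 233) (nat_lit 5) (nat_lit 388) (nat_lit 364) (nat_lit 268)))) (XT.nd (nat_lit 156) (nat_lit 608) (nat_lit 0) (XT.nd (nat_lit 78) (nat_lit 532) (nat_lit 0) (XT.lf (nat_lit 0) (nat_lit 7313376278) (nat_lit 608) (nat_lit 3212525036) (nat_lit 684) (nat_lit 2073697419) (nat_lit 224) (nat_lit 5) (nat_lit 232) (nat_lit 5) (nat_lit 233) (nat_lit 5) (nat_lit 389) (nat_lit 364) (nat_lit 267)) (XT.lf (nat_lit 0) (nat_lit 1750664014) (nat_lit 532) (nat_lit 10826180557) (nat_lit 608) (nat_lit 223282890) (nat_lit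 217) (nat_lit 5) (nat_lit 224) (nat_lit 5) (nat_lit 225) (nat_lit 5) (nat_lit 390) (nat_lit 364) (nat_lit 266))) (XT.nd (nat_lit 78) (nat_lit 532) (nat_lit 0) (XT.lf (nat_lit 0) (nat_lit 1716397948) (nat_lit 608) (nat_lit 3966727203) (nat_lit 76) (nat_lit 7321069606) (nat_lit 216) (nat_lit 5) (nat_lit 224) (nat_lit 5) (nat_lit 217) (nat_lit 5) (nat_lit 391) (nat_lit 364) (nat_lit 265)) (XT.lf (nat_lit 0) (nat_lit 3372511893) (nat_lit 532) (nat_lit 351117465) (nat_lit 608) (nat_lit 9490278386) (nat_lit 209) (nat_lit 5) (nat_lit 216) (nat_lit 5) (nat_lit 217) (nat_lit 5) (nat_lit 392) (nat_lit 364) (nat_lit 264))))))))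
noncomputable def xc158 : XT := (XT.nd (nat_lit 2262) (nat_lit 3952) (nat_lit 0) (XT.nd (nat_lit 1092) (nat_lit 2888) (nat_lit 0) (XT.nd (nat_lit 546) (nat_lit 1748) (nat_lit 0) (XT.nd (nat_lit 234) (nat_lit 1520) (nat_lit 0) (XT.nd (nat_lit 78) (nat_lit 456) (nat_lit 0) (XT.lf (nat_lit 0) (nat_lit 5862720028) (nat_lit 608) (nat_lit 2485208783) (nat_lit 76) (nat_lit 5079839312) (nat_lit 209) (nat_lit 5) (nat_lit 217) (nat_lit 5) (nat_lit 210) (nat_lit 5) (nat_lit 393) (nat_lit 364) (nat_lit 263)) (XT.nd (nat_lit 78) (nat_lit 0) (nat_lit 0) (XT.lf (nat_lit 0) (nat_lit 5169720824) (nat_lit 456) (nat_lit 2931736976) (nat_lit 532) (nat_lit 5545527402) (nat_lit 203) (nat_lit 5) (nat_lit 209) (nat_lit 5) (nat_lit 210) (nat_lit 5) (nat_lit 394) (nat_lit 364) (nat_lit 262)) (XT.lf (nat_lit 0) (nat_lit 10440763442) (nat_lit 532) (nat_lit 812141313) (nat_lit 76) (nat_lit 2618876835) (nat_lit 203) (nat_lit 5) (nat_lit 210)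 (nat_lit 5) (nat_lit 204) (nat_lit 5) (nat_lit 395) (nat_lit 364) (nat_lit 261)))) (XT.nd (nat_lit 156) (nat_lit 456) (nat_lit 0) (XT.nd (nat_lit 78) (nat_lit 532) (nat_lit 0) (XT.lf (nat_lit 0) (nat_lit 7174822180) (nat_lit 532) (nat_lit 5756545753) (nat_lit 608) (nat_lit 1169525172) (nat_lit 196) (nat_lit 5) (nat_lit 203) (nat_lit 5) (nat_lit 204) (nat_lit 5) (nat_lit 396) (nat_lit 364) (nat_lit 260)) (XT.lf (nat_lit 0) (nat_lit 1071853224) (nat_lit 456) (nat_lit 67177782) (nat_lit 532) (nat_lit 13197461526) (nat_lit 189) (nat_lit 5) (nat_lit 195) (nat_lit 5) (nat_lit 196) (nat_lit 5) (nat_lit 397) (nat_lit 364) (nat_lit 259))) (XT.nd (nat_lit 78) (nat_lit 456) (nat_lit 0) (XT.lf (nat_lit 0) (nat_lit 3603198438) (nat_lit 532) (nat_lit 5212852209) (nat_lit 76) (nat_lit 5759470502) (nat_lit 189) (nat_lit 5) (nat_lit 196) (nat_lit 5) (nat_lit 190) (nat_lit 5) (nat_lit 398) (nat_lit 364) (nat_lit 258)) (XT.lf (nat_lit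 0) (nat_lit 3121782670) (nat_lit 456) (nat_lit 3034205167) (nat_lit 532) (nat_lit 8665296166) (nat_lit 183) (nat_lit 5) (nat_lit 189) (nat_lit 5) (nat_lit 190) (nat_lit 5) (nat_lit 399) (nat_lit 364) (nat_lit 257))))) (XT.nd (nat_lit 234) (nat_lit 1292) (nat_lit 0) (XT.nd (nat_lit 78) (nat_lit 456) (nat_lit 0) (XT.lf (nat_lit 0) (nat_lit 8850879664) (nat_lit 532) (nat_lit 3307343515) (nat_lit 76) (nat_lit 2914235163) (nat_lit 183) (nat_lit 5) (nat_lit 190) (nat_lit 5) (nat_lit 184) (nat_lit 5) (nat_lit 400) (nat_lit 364) (nat_lit 256)) (XT.nd (nat_lit 78) (nat_lit 0) (nat_lit 0) (XT.lf (nat_lit 0) (nat_lit 5393118932) (nat_lit 456) (nat_lit 6300119426) (nat_lit 532) (nat_lit 3635934991) (nat_lit 177) (nat_lit 5) (nat_lit 183) (nat_lit 5) (nat_lit 184) (nat_lit 5) (nat_lit 401) (nat_lit 364) (nat_lit 255)) (XT.lf (nat_lit 0) (nat_lit 14403917826) (nat_lit 456) (nat_lit 235351169) (nat_lit 532) (nat_lit 953772699)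 (nat_lit 177) (nat_lit 5) (nat_lit 183) (nat_lit 5) (nat_lit 184) (nat_lit 5) (nat_lit 402) (nat_lit 364) (nat_lit 254)))) (XT.nd (nat_lit 156) (nat_lit 380) (nat_lit 0) (XT.nd (nat_lit 78) (nat_lit 380) (nat_lit 0) (XT.lf (nat_lit 0) (nat_lit 1893847918) (nat_lit 532) (nat_lit 7981616150) (nat_lit 76) (nat_lit 5985235364) (nat_lit 170) (nat_lit 5) (nat_lit 177) (nat_lit 5) (nat_lit 171) (nat_lit 5) (nat_lit 403) (nat_lit 364) (nat_lit 253)) (XT.lf (nat_lit 0) (nat_lit 1098777738) (nat_lit 380) (nat_lit 3719481177) (nat_lit 456) (nat_lit 11317532328) (nat_lit 165) (nat_lit 5) (nat_lit 170) (nat_lit 5) (nat_lit 171) (nat_lit 5) (nat_lit 404) (nat_lit 364) (nat_lit 252))) (XT.nd (nat_lit 78) (nat_lit 380) (nat_lit 0) (XT.lf (nat_lit 0) (nat_lit 7922715426) (nat_lit 456) (nat_lit 5846181324) (nat_lit 76) (nat_lit 2647473150) (nat_lit 165) (nat_lit 5) (nat_lit 171) (nat_lit 5) (nat_lit 166) (nat_lit 5) (nat_lit 405)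 (nat_lit 364) (nat_lit 251)) (XT.lf (nat_lit 0) (nat_lit 3636384132) (nat_lit 380) (nat_lit 7541839218) (nat_lit 456) (nat_lit 5525408418) (nat_lit 160) (nat_lit 5) (nat_lit 165) (nat_lit 5) (nat_lit 166) (nat_lit 5) (nat_lit 406) (nat_lit 364) (nat_lit 250)))))) (XT.nd (nat_lit 546) (nat_lit 1292) (nat_lit 0) (XT.nd (nat_lit 234) (nat_lit 1140) (nat_lit 0) (XT.nd (nat_lit 78) (nat_lit 456) (nat_lit 0) (XT.lf (nat_lit 0) (nat_lit 13505321129) (nat_lit 380) (nat_lit 1071477671) (nat_lit 456) (nat_lit 2421353911) (nat_lit 160) (nat_lit 5) (nat_lit 165) (nat_lit 5) (nat_lit 166) (nat_lit 5) (nat_lit 407) (nat_lit 364) (nat_lit 249)) (XT.nd (nat_lit 78) (nat_lit 0) (nat_lit 0) (XT.lf (nat_lit 0) (nat_lit 863917504) (nat_lit 456) (nat_lit 10884317503) (nat_lit 76) (nat_lit 5549956611) (nat_lit 154) (nat_lit 5) (nat_lit 160) (nat_lit 5) (nat_lit 155) (nat_lit 5) (nat_lit 408) (nat_lit 364) (nat_lit 248)) (XT.lf (nat_lit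 0) (nat_lit 4232118105) (nat_lit 456) (nat_lit 969599545) (nat_lit 76) (nat_lit 12403806697) (nat_lit 154) (nat_lit 5) (nat_lit 160) (nat_lit 5) (nat_lit 155) (nat_lit 5) (nat_lit 409) (nat_lit 364) (nat_lit 247)))) (XT.nd (nat_lit 156) (nat_lit 456) (nat_lit 0) (XT.nd (nat_lit 78) (nat_lit 304) (nat_lit 0) (XT.lf (nat_lit 0) (nat_lit 7794667993) (nat_lit 456) (nat_lit 8526612174) (nat_lit 76) (nat_lit 1598000714) (nat_lit 149) (nat_lit 5) (nat_lit 155) (nat_lit 5) (nat_lit 150) (nat_lit 5) (nat_lit 410) (nat_lit 364) (nat_lit 246)) (XT.lf (nat_lit 0) (nat_lit 1809718670) (nat_lit 304) (nat_lit 9720519128) (nat_lit 380) (nat_lit 6710230844) (nat_lit 145) (nat_lit 5) (nat_lit 149) (nat_lit 5) (nat_lit 150) (nat_lit 5) (nat_lit 411) (nat_lit 364) (nat_lit 245))) (XT.nd (nat_lit 78) (nat_lit 456) (nat_lit 0) (XT.lf (nat_lit 0) (nat_lit 12613577572) (nat_lit 304) (nat_lit 2837957806) (nat_lit 380) (nat_lit 3117549589)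 (nat_lit 145) (nat_lit 5) (nat_lit 149) (nat_lit 5) (nat_lit 150) (nat_lit 5) (nat_lit 412) (nat_lit 364) (nat_lit 244)) (XT.lf (nat_lit 0) (nat_lit 647845272) (nat_lit 456) (nat_lit 14040630445) (nat_lit 76) (nat_lit 4216629324) (nat_lit 139) (nat_lit 5) (nat_lit 145) (nat_lit 5) (nat_lit 140) (nat_lit 5) (nat_lit 413) (nat_lit 364) (nat_lit 243))))) (XT.nd (nat_lit 312) (nat_lit 684) (nat_lit 0) (XT.nd (nat_lit 156) (nat_lit 304) (nat_lit 0) (XT.nd (nat_lit 78) (nat_lit 304) (nat_lit 0) (XT.lf (nat_lit 0) (nat_lit 4540319555) (nat_lit 456) (nat_lit 3195061464) (nat_lit 76) (nat_lit 11512597895) (nat_lit 139) (nat_lit 5) (nat_lit 145) (nat_lit 5) (nat_lit 140) (nat_lit 5) (nat_lit 414) (nat_lit 364) (nat_lit 242)) (XT.lf (nat_lit 0) (nat_lit 8117541948) (nat_lit 304) (nat_lit 498352294) (nat_lit 380) (nat_lit 10983257418) (nat_lit 135) (nat_lit 5) (nat_lit 139) (nat_lit 5) (nat_lit 140) (nat_lit 5) (nat_lit 415)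 (nat_lit 364) (nat_lit 241))) (XT.nd (nat_lit 78) (nat_lit 304) (nat_lit 0) (XT.lf (nat_lit 0) (nat_lit 12901611247) (nat_lit 380) (nat_lit 208925899) (nat_lit 76) (nat_lit 6847688566) (nat_lit 135) (nat_lit 5) (nat_lit 140) (nat_lit 5) (nat_lit 136) (nat_lit 5) (nat_lit 416) (nat_lit 364) (nat_lit 240)) (XT.lf (nat_lit 0) (nat_lit 11607121789) (nat_lit 304) (nat_lit 5814052435) (nat_lit 380) (nat_lit 2903741832) (nat_lit 131) (nat_lit 5) (nat_lit 135) (nat_lit 5) (nat_lit 136) (nat_lit 5) (nat_lit 417) (nat_lit 364) (nat_lit 239)))) (XT.nd (nat_lit 156) (nat_lit 304) (nat_lit 0) (XT.nd (nat_lit 78) (nat_lit 0) (nat_lit 0) (XT.lf (nat_lit 0) (nat_lit 1384517201) (nat_lit 380) (nat_lit 17607922718) (nat_lit 76) (nat_lit 1708645022) (nat_lit 126) (nat_lit 5) (nat_lit 131) (nat_lit 5) (nat_lit 127) (nat_lit 5) (nat_lit 418) (nat_lit 364) (nat_lit 238)) (XT.lf (nat_lit 0) (nat_lit 5878474147) (nat_lit 380) (nat_lit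 5752494240) (nat_lit 76) (nat_lit 9452647741) (nat_lit 126) (nat_lit 5) (nat_lit 131) (nat_lit 5) (nat_lit 127) (nat_lit 5) (nat_lit 419) (nat_lit 364) (nat_lit 237))) (XT.nd (nat_lit 78) (nat_lit 0) (nat_lit 0) (XT.lf (nat_lit 0) (nat_lit 6570734658) (nat_lit 304) (nat_lit 3988942467) (nat_lit 380) (nat_lit 10916375355) (nat_lit 122) (nat_lit 5) (nat_lit 126) (nat_lit 5) (nat_lit 127) (nat_lit 5) (nat_lit 420) (nat_lit 364) (nat_lit 236)) (XT.lf (nat_lit 0) (nat_lit 15466673291) (nat_lit 380) (nat_lit 2551024245) (nat_lit 76) (nat_lit 3860005660) (nat_lit 122) (nat_lit 5) (nat_lit 127) (nat_lit 5) (nat_lit 123) (nat_lit 5) (nat_lit 421) (nat_lit 364) (nat_lit 235))))))) (XT.nd (nat_lit 1092) (nat_lit 1824) (nat_lit 0) (XT.nd (nat_lit 546) (nat_lit 988) (nat_lit 0) (XT.nd (nat_lit 234) (nat_lit 532) (nat_lit 0) (XT.nd (nat_lit 78) (nat_lit 380) (nat_lit 0) (XT.lf (nat_lit 0) (nat_lit 10320065602) (nat_lit 228)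 (nat_lit 10329194092) (nat_lit 304) (nat_lit 1638294260) (nat_lit 119) (nat_lit 5) (nat_lit 122) (nat_lit 5) (nat_lit 123) (nat_lit 5) (nat_lit 422) (nat_lit 364) (nat_lit 234)) (XT.nd (nat_lit 78) (nat_lit 0) (nat_lit 0) (XT.lf (nat_lit 0) (nat_lit 890497679) (nat_lit 304) (nat_lit 2347474403) (nat_lit 380) (nat_lit 19470055570) (nat_lit 114) (nat_lit 5) (nat_lit 118) (nat_lit 5) (nat_lit 119) (nat_lit 5) (nat_lit 423) (nat_lit 364) (nat_lit 233)) (XT.lf (nat_lit 0) (nat_lit 8395932155) (nat_lit 380) (nat_lit 8847693523) (nat_lit 76) (nat_lit 5891955012) (nat_lit 114) (nat_lit 5) (nat_lit 119) (nat_lit 5) (nat_lit 115) (nat_lit 5) (nat_lit 424) (nat_lit 364) (nat_lit 232)))) (XT.nd (nat_lit 156) (nat_lit 304) (nat_lit 0) (XT.nd (nat_lit 78) (nat_lit 0) (nat_lit 0) (XT.lf (nat_lit 0) (nat_lit 4561601538) (nat_lit 228) (nat_lit 9204244580) (nat_lit 304) (nat_lit 9808399464) (nat_lit 111) (nat_lit 5) (nat_lit 114)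 (nat_lit 5) (nat_lit 115) (nat_lit 5) (nat_lit 425) (nat_lit 364) (nat_lit 231)) (XT.lf (nat_lit 0) (nat_lit 18539288113) (nat_lit 228) (nat_lit 837178609) (nat_lit 304) (nat_lit 4647217088) (nat_lit 111) (nat_lit 5) (nat_lit 114) (nat_lit 5) (nat_lit 115) (nat_lit 5) (nat_lit 426) (nat_lit 364) (nat_lit 230))) (XT.nd (nat_lit 78) (nat_lit 0) (nat_lit 0) (XT.lf (nat_lit 0) (nat_lit 804457451) (nat_lit 304) (nat_lit 15963838828) (nat_lit 76) (nat_lit 7713656382) (nat_lit 107) (nat_lit 5) (nat_lit 111) (nat_lit 5) (nat_lit 108) (nat_lit 5) (nat_lit 427) (nat_lit 364) (nat_lit 229)) (XT.lf (nat_lit 0) (nat_lit 6381032796) (nat_lit 304) (nat_lit 1969122050) (nat_lit 76) (nat_lit 16600793245) (nat_lit 107) (nat_lit 5) (nat_lit 111) (nat_lit 5) (nat_lit 108) (nat_lit 5) (nat_lit 428) (nat_lit 364) (nat_lit 228))))) (XT.nd (nat_lit 234) (nat_lit 532) (nat_lit 0) (XT.nd (nat_lit 78) (nat_lit 228) (nat_lit 0) (XT.lf (nat_lit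 0) (nat_lit 12241822961) (nat_lit 304) (nat_lit 12756684972) (nat_lit 76) (nat_lit 431999403) (nat_lit 104) (nat_lit 5) (nat_lit 108) (nat_lit 5) (nat_lit 105) (nat_lit 5) (nat_lit 429) (nat_lit 364) (nat_lit 227)) (XT.nd (nat_lit 78) (nat_lit 0) (nat_lit 0) (XT.lf (nat_lit 0) (nat_lit 1810291127) (nat_lit 228) (nat_lit 16579190924) (nat_lit 304) (nat_lit 7531641386) (nat_lit 101) (nat_lit 5) (nat_lit 104) (nat_lit 5) (nat_lit 105) (nat_lit 5) (nat_lit 430) (nat_lit 364) (nat_lit 226)) (XT.lf (nat_lit 0) (nat_lit 17061194567) (nat_lit 228) (nat_lit 7780206747) (nat_lit 304) (nat_lit 1581463191) (nat_lit 101) (nat_lit 5) (nat_lit 104) (nat_lit 5) (nat_lit 105) (nat_lit 5) (nat_lit 431) (nat_lit 364) (nat_lit 225)))) (XT.nd (nat_lit 156) (nat_lit 228) (nat_lit 0) (XT.nd (nat_lit 78) (nat_lit 0) (nat_lit 0) (XT.lf (nat_lit 0) (nat_lit 4519532652) (nat_lit 304) (nat_lit 21063389359) (nat_lit 76) (nat_lit 1353594438)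 (nat_lit 97) (nat_lit 5) (nat_lit 101) (nat_lit 5) (nat_lit 98) (nat_lit 5) (nat_lit 432) (nat_lit 364) (nat_lit 224)) (XT.lf (nat_lit 0) (nat_lit 10935529099) (nat_lit 304) (nat_lit 5813896769) (nat_lit 76) (nat_lit 10710770922) (nat_lit 97) (nat_lit 5) (nat_lit 101) (nat_lit 5) (nat_lit 98) (nat_lit 5) (nat_lit 433) (nat_lit 364) (nat_lit 223))) (XT.nd (nat_lit 78) (nat_lit 0) (nat_lit 0) (XT.lf (nat_lit 0) (nat_lit 10075711344) (nat_lit 228) (nat_lit 7556657048) (nat_lit 304) (nat_lit 10364569499) (nat_lit 94) (nat_lit 5) (nat_lit 97) (nat_lit 5) (nat_lit 98) (nat_lit 5) (nat_lit 434) (nat_lit 364) (nat_lit 222)) (XT.lf (nat_lit 0) (nat_lit 24599352103) (nat_lit 304) (nat_lit 2019838172) (nat_lit 76) (nat_lit 1928514976) (nat_lit 94) (nat_lit 5) (nat_lit 98) (nat_lit 5) (nat_lit 95) (nat_lit 5) (nat_lit 435) (nat_lit 364) (nat_lit 221)))))) (XT.nd (nat_lit 546) (nat_lit 912) (nat_lit 0) (XT.nd (nat_lit 234)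 (nat_lit 456) (nat_lit 0) (XT.nd (nat_lit 78) (nat_lit 228) (nat_lit 0) (XT.lf (nat_lit 0) (nat_lit 2817018377) (nat_lit 228) (nat_lit 14582277744) (nat_lit 76) (nat_lit 11708676006) (nat_lit 91) (nat_lit 5) (nat_lit 94) (nat_lit 5) (nat_lit 92) (nat_lit 5) (nat_lit 436) (nat_lit 364) (nat_lit 220)) (XT.nd (nat_lit 78) (nat_lit 0) (nat_lit 0) (XT.lf (nat_lit 0) (nat_lit 1908850331) (nat_lit 228) (nat_lit 7827933831) (nat_lit 304) (nat_lit 19946167437) (nat_lit 88) (nat_lit 5) (nat_lit 91) (nat_lit 5) (nat_lit 92) (nat_lit 5) (nat_lit 437) (nat_lit 364) (nat_lit 219)) (XT.lf (nat_lit 0) (nat_lit 17024270841) (nat_lit 304) (nat_lit 11111827262) (nat_lit 76) (nat_lit 2134279583) (nat_lit 88) (nat_lit 5) (nat_lit 92) (nat_lit 5) (nat_lit 89) (nat_lit 5) (nat_lit 438) (nat_lit 364) (nat_lit 218)))) (XT.nd (nat_lit 156) (nat_lit 228) (nat_lit 0) (XT.nd (nat_lit 78) (nat_lit 76) (nat_lit 0) (XT.lf (nat_lit 0) (nat_lit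 6078093835) (nat_lit 152) (nat_lit 18580353391) (nat_lit 228) (nat_lit 6213138414) (nat_lit 86) (nat_lit 5) (nat_lit 88) (nat_lit 5) (nat_lit 89) (nat_lit 5) (nat_lit 439) (nat_lit 364) (nat_lit 217)) (XT.lf (nat_lit 0) (nat_lit 1116181600) (nat_lit 228) (nat_lit 7500338059) (nat_lit 76) (nat_lit 22870849558) (nat_lit 85) (nat_lit 5) (nat_lit 88) (nat_lit 5) (nat_lit 86) (nat_lit 5) (nat_lit 440) (nat_lit 364) (nat_lit 216))) (XT.nd (nat_lit 78) (nat_lit 0) (nat_lit 0) (XT.lf (nat_lit 0) (nat_lit 8650630552) (nat_lit 304) (nat_lit 21693502002) (nat_lit 76) (nat_lit 1772345394) (nat_lit 82) (nat_lit 5) (nat_lit 86) (nat_lit 5) (nat_lit 83) (nat_lit 5) (nat_lit 441) (nat_lit 364) (nat_lit 215)) (XT.lf (nat_lit 0) (nat_lit 16565348163) (nat_lit 304) (nat_lit 3823518920) (nat_lit 76) (nat_lit 12370966724) (nat_lit 82) (nat_lit 5) (nat_lit 86) (nat_lit 5) (nat_lit 83) (nat_lit 5) (nat_lit 442) (nat_lit 364) (nat_lit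 214))))) (XT.nd (nat_lit 312) (nat_lit 380) (nat_lit 0) (XT.nd (nat_lit 156) (nat_lit 228) (nat_lit 0) (XT.nd (nat_lit 78) (nat_lit 152) (nat_lit 0) (XT.lf (nat_lit 0) (nat_lit 14859904667) (nat_lit 152) (nat_lit 9993100002) (nat_lit 228) (nat_lit 8565421648) (nat_lit 80) (nat_lit 5) (nat_lit 82) (nat_lit 5) (nat_lit 83) (nat_lit 5) (nat_lit 443) (nat_lit 364) (nat_lit 213)) (XT.lf (nat_lit 0) (nat_lit 67993639) (nat_lit 152) (nat_lit 33360509838) (nat_lit 228) (nat_lit 667097613) (nat_lit 78) (nat_lit 5) (nat_lit 80) (nat_lit 5) (nat_lit 81) (nat_lit 5) (nat_lit 444) (nat_lit 364) (nat_lit 212))) (XT.nd (nat_lit 78) (nat_lit 152) (nat_lit 0) (XT.lf (nat_lit 0) (nat_lit 7603364810) (nat_lit 228) (nat_lit 15339013672) (nat_lit 76) (nat_lit 11840132195) (nat_lit 77) (nat_lit 5) (nat_lit 80) (nat_lit 5) (nat_lit 78) (nat_lit 5) (nat_lit 445) (nat_lit 364) (nat_lit 211)) (XT.lf (nat_lit 0) (nat_lit 3968752566) (nat_lit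 152) (nat_lit 12170860644) (nat_lit 228) (nat_lit 19349284584) (nat_lit 75) (nat_lit 5) (nat_lit 77) (nat_lit 5) (nat_lit 78) (nat_lit 5) (nat_lit 446) (nat_lit 364) (nat_lit 210)))) (XT.nd (nat_lit 156) (nat_lit 228) (nat_lit 0) (XT.nd (nat_lit 78) (nat_lit 152) (nat_lit 0) (XT.lf (nat_lit 0) (nat_lit 24157982285) (nat_lit 152) (nat_lit 921879375) (nat_lit 228) (nat_lit 11132178260) (nat_lit 75) (nat_lit 5) (nat_lit 77) (nat_lit 5) (nat_lit 78) (nat_lit 5) (nat_lit 447) (nat_lit 364) (nat_lit 209)) (XT.lf (nat_lit 0) (nat_lit 8038351253) (nat_lit 152) (nat_lit 26422923475) (nat_lit 228) (nat_lit 2490413615) (nat_lit 73) (nat_lit 5) (nat_lit 75) (nat_lit 5) (nat_lit 76) (nat_lit 5) (nat_lit 448) (nat_lit 364) (nat_lit 208))) (XT.nd (nat_lit 78) (nat_lit 152) (nat_lit 0) (XT.lf (nat_lit 0) (nat_lit 6410755374) (nat_lit 228) (nat_lit 8813223792) (nat_lit 76) (nat_lit 22483941718) (nat_lit 72) (nat_lit 5) (nat_lit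 75) (nat_lit 5) (nat_lit 73) (nat_lit 5) (nat_lit 449) (nat_lit 364) (nat_lit 207)) (XT.lf (nat_lit 0) (nat_lit 12089471983) (nat_lit 152) (nat_lit 3549032685) (nat_lit 228) (nat_lit 22844308691) (nat_lit 70) (nat_lit 5) (nat_lit 72) (nat_lit 5) (nat_lit 73) (nat_lit 5) (nat_lit 450) (nat_lit 364) (nat_lit 206))))))))
noncomputable def xc159 : XT := (XT.nd (nat_lit 2262) (nat_lit 304) (nat_lit 0) (XT.nd (nat_lit 1092) (nat_lit 1216) (nat_lit 0) (XT.nd (nat_lit 546) (nat_lit 456) (nat_lit 0) (XT.nd (nat_lit 234) (nat_lit 532) (nat_lit 0) (XT.nd (nat_lit 78) (nat_lit 228) (nat_lit 0) (XT.lf (nat_lit 0) (nat_lit 25307863737) (nat_lit 228) (nat_lit 5572437142) (nat_lit 76) (nat_lit 8395709077) (nat_lit 70) (nat_lit 5) (nat_lit 73) (nat_lit 5) (nat_lit 71) (nat_lit 5) (nat_lit 451) (nat_lit 364) (nat_lit 205)) (XT.nd (nat_lit 78) (nat_lit 76) (nat_lit 0) (XT.lf (nat_lit 0) (nat_lit 16141570119) (nat_lit 152) (nat_lit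 19309648446) (nat_lit 228) (nat_lit 4636267081) (nat_lit 68) (nat_lit 5) (nat_lit 70) (nat_lit 5) (nat_lit 71) (nat_lit 5) (nat_lit 452) (nat_lit 364) (nat_lit 204)) (XT.lf (nat_lit 0) (nat_lit 4928933158) (nat_lit 228) (nat_lit 2360157064) (nat_lit 76) (nat_lit 33631267470) (nat_lit 67) (nat_lit 5) (nat_lit 70) (nat_lit 5) (nat_lit 68) (nat_lit 5) (nat_lit 453) (nat_lit 364) (nat_lit 203)))) (XT.nd (nat_lit 156) (nat_lit 228) (nat_lit 0) (XT.nd (nat_lit 78) (nat_lit 152) (nat_lit 0) (XT.lf (nat_lit 0) (nat_lit 14927274957) (nat_lit 228) (nat_lit 21611873843) (nat_lit 76) (nat_lit 5230509482) (nat_lit 65) (nat_lit 5) (nat_lit 68) (nat_lit 5) (nat_lit 66) (nat_lit 5) (nat_lit 454) (nat_lit 364) (nat_lit 202)) (XT.lf (nat_lit 0) (nat_lit 685820863) (nat_lit 152) (nat_lit 24636419142) (nat_lit 228) (nat_lit 17319298271) (nat_lit 63) (nat_lit 5) (nat_lit 65) (nat_lit 5) (nat_lit 66) (nat_lit 5) (nat_lit 455) (nat_lit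 364) (nat_lit 201))) (XT.nd (nat_lit 78) (nat_lit 228) (nat_lit 0) (XT.lf (nat_lit 0) (nat_lit 24084498269) (nat_lit 152) (nat_lit 12156709506) (nat_lit 228) (nat_lit 7292002838) (nat_lit 63) (nat_lit 5) (nat_lit 65) (nat_lit 5) (nat_lit 66) (nat_lit 5) (nat_lit 456) (nat_lit 364) (nat_lit 200)) (XT.lf (nat_lit 0) (nat_lit 3014416704) (nat_lit 228) (nat_lit 40690099122) (nat_lit 76) (nat_lit 745115752) (nat_lit 60) (nat_lit 5) (nat_lit 63) (nat_lit 5) (nat_lit 61) (nat_lit 5) (nat_lit 457) (nat_lit 364) (nat_lit 199))))) (XT.nd (nat_lit 234) (nat_lit 304) (nat_lit 0) (XT.nd (nat_lit 78) (nat_lit 152) (nat_lit 0) (XT.lf (nat_lit 0) (nat_lit 13796228406) (nat_lit 228) (nat_lit 17530251210) (nat_lit 76) (nat_lit 14055517274) (nat_lit 60) (nat_lit 5) (nat_lit 63) (nat_lit 5) (nat_lit 61) (nat_lit 5) (nat_lit 458) (nat_lit 364) (nat_lit 198)) (XT.nd (nat_lit 78) (nat_lit 0) (nat_lit 0) (XT.lf (nat_lit 0) (nat_lit 6439569792)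 (nat_lit 152) (nat_lit 18518058561) (nat_lit 228) (nat_lit 21383021288) (nat_lit 58) (nat_lit 5) (nat_lit 60) (nat_lit 5) (nat_lit 61) (nat_lit 5) (nat_lit 459) (nat_lit 364) (nat_lit 197)) (XT.lf (nat_lit 0) (nat_lit 31477459603) (nat_lit 152) (nat_lit 5147732881) (nat_lit 228) (nat_lit 10697730306) (nat_lit 58) (nat_lit 5) (nat_lit 60) (nat_lit 5) (nat_lit 61) (nat_lit 5) (nat_lit 460) (nat_lit 364) (nat_lit 196)))) (XT.nd (nat_lit 156) (nat_lit 152) (nat_lit 0) (XT.nd (nat_lit 78) (nat_lit 0) (nat_lit 0) (XT.lf (nat_lit 0) (nat_lit 467703750) (nat_lit 152) (nat_lit 39319696334) (nat_lit 76) (nat_lit 8542207742) (nat_lit 56) (nat_lit 5) (nat_lit 58) (nat_lit 5) (nat_lit 57) (nat_lit 5) (nat_lit 461) (nat_lit 364) (nat_lit 195)) (XT.lf (nat_lit 0) (nat_lit 11960080711) (nat_lit 152) (nat_lit 14594609810) (nat_lit 76) (nat_lit 22802415978) (nat_lit 56) (nat_lit 5) (nat_lit 58) (nat_lit 5) (nat_lit 57) (nat_lit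 5) (nat_lit 462) (nat_lit 364) (nat_lit 194))) (XT.nd (nat_lit 78) (nat_lit 0) (nat_lit 0) (XT.lf (nat_lit 0) (nat_lit 11078497591) (nat_lit 152) (nat_lit 12819820480) (nat_lit 228) (nat_lit 26514079816) (nat_lit 54) (nat_lit 5) (nat_lit 56) (nat_lit 5) (nat_lit 57) (nat_lit 5) (nat_lit 463) (nat_lit 364) (nat_lit 193)) (XT.lf (nat_lit 0) (nat_lit 36350911357) (nat_lit 228) (nat_lit 13698102891) (nat_lit 76) (nat_lit 1445647920) (nat_lit 54) (nat_lit 5) (nat_lit 57) (nat_lit 5) (nat_lit 55) (nat_lit 4) (nat_lit 464) (nat_lit 364) (nat_lit 192)))))) (XT.nd (nat_lit 546) (nat_lit 608) (nat_lit 0) (XT.nd (nat_lit 234) (nat_lit 304) (nat_lit 0) (XT.nd (nat_lit 78) (nat_lit 228) (nat_lit 0) (XT.lf (nat_lit 0) (nat_lit 12820366826) (nat_lit 76) (nat_lit 36601654389) (nat_lit 152) (nat_lit 3180025402) (nat_lit 53) (nat_lit 5) (nat_lit 54) (nat_lit 5) (nat_lit 55) (nat_lit 4) (nat_lit 465) (nat_lit 364) (nat_lit 191))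 (XT.nd (nat_lit 78) (nat_lit 152) (nat_lit 0) (XT.lf (nat_lit 0) (nat_lit 9098681571) (nat_lit 152) (nat_lit 13422222403) (nat_lit 76) (nat_lit 31215078222) (nat_lit 52) (nat_lit 5) (nat_lit 54) (nat_lit 5) (nat_lit 53) (nat_lit 5) (nat_lit 466) (nat_lit 364) (nat_lit 190)) (XT.lf (nat_lit 0) (nat_lit 13959561907) (nat_lit 152) (nat_lit 7851393891) (nat_lit 228) (nat_lit 33088162208) (nat_lit 50) (nat_lit 5) (nat_lit 52) (nat_lit 5) (nat_lit 53) (nat_lit 5) (nat_lit 467) (nat_lit 364) (nat_lit 189)))) (XT.nd (nat_lit 156) (nat_lit 228) (nat_lit 0) (XT.nd (nat_lit 78) (nat_lit 76) (nat_lit 0) (XT.lf (nat_lit 0) (nat_lit 35106199454) (nat_lit 228) (nat_lit 13735642205) (nat_lit 76) (nat_lit 7249258553) (nat_lit 50) (nat_lit 5) (nat_lit 53) (nat_lit 5) (nat_lit 51) (nat_lit 4) (nat_lit 468) (nat_lit 364) (nat_lit 188)) (XT.lf (nat_lit 0) (nat_lit 14480094464) (nat_lit 76) (nat_lit 34532231954) (nat_lit 152) (nat_lit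 8300155034) (nat_lit 49) (nat_lit 5) (nat_lit 50) (nat_lit 5) (nat_lit 51) (nat_lit 4) (nat_lit 469) (nat_lit 364) (nat_lit 187))) (XT.nd (nat_lit 78) (nat_lit 152) (nat_lit 0) (XT.lf (nat_lit 0) (nat_lit 4807330095) (nat_lit 152) (nat_lit 14798776497) (nat_lit 76) (nat_lit 38958968245) (nat_lit 48) (nat_lit 5) (nat_lit 50) (nat_lit 5) (nat_lit 49) (nat_lit 5) (nat_lit 470) (nat_lit 364) (nat_lit 186)) (XT.lf (nat_lit 0) (nat_lit 14263128120) (nat_lit 152) (nat_lit 4010440819) (nat_lit 228) (nat_lit 41575241388) (nat_lit 46) (nat_lit 5) (nat_lit 48) (nat_lit 5) (nat_lit 49) (nat_lit 5) (nat_lit 471) (nat_lit 364) (nat_lit 185))))) (XT.nd (nat_lit 312) (nat_lit 304) (nat_lit 0) (XT.nd (nat_lit 156) (nat_lit 228) (nat_lit 0) (XT.nd (nat_lit 78) (nat_lit 76) (nat_lit 0) (XT.lf (nat_lit 0) (nat_lit 32405837941) (nat_lit 228) (nat_lit 16792540402) (nat_lit 76) (nat_lit 11964818559) (nat_lit 46) (nat_lit 5) (nat_lit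 49) (nat_lit 5) (nat_lit 47) (nat_lit 4) (nat_lit 472) (nat_lit 364) (nat_lit 184)) (XT.lf (nat_lit 0) (nat_lit 13071137119) (nat_lit 76) (nat_lit 34051694017) (nat_lit 152) (nat_lit 15389361554) (nat_lit 45) (nat_lit 5) (nat_lit 46) (nat_lit 5) (nat_lit 47) (nat_lit 4) (nat_lit 473) (nat_lit 364) (nat_lit 183))) (XT.nd (nat_lit 78) (nat_lit 228) (nat_lit 0) (XT.lf (nat_lit 0) (nat_lit 44166423887) (nat_lit 76) (nat_lit 18279934932) (nat_lit 152) (nat_lit 1450349082) (nat_lit 45) (nat_lit 5) (nat_lit 46) (nat_lit 5) (nat_lit 47) (nat_lit 4) (nat_lit 474) (nat_lit 364) (nat_lit 182)) (XT.lf (nat_lit 0) (nat_lit 10953104619) (nat_lit 152) (nat_lit 1802699684) (nat_lit 228) (nat_lit 52560207609) (nat_lit 42) (nat_lit 5) (nat_lit 44) (nat_lit 5) (nat_lit 45) (nat_lit 5) (nat_lit 475) (nat_lit 364) (nat_lit 181)))) (XT.nd (nat_lit 156) (nat_lit 228) (nat_lit 0) (XT.nd (nat_lit 78) (nat_lit 76) (nat_lit 0) (XT.lf (nat_lit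 0) (nat_lit 27701568101) (nat_lit 228) (nat_lit 23981001697) (nat_lit 76) (nat_lit 15084617422) (nat_lit 42) (nat_lit 5) (nat_lit 45) (nat_lit 5) (nat_lit 43) (nat_lit 4) (nat_lit 476) (nat_lit 364) (nat_lit 180)) (XT.lf (nat_lit 0) (nat_lit 7431384533) (nat_lit 76) (nat_lit 35749287564) (nat_lit 152) (nat_lit 25078676930) (nat_lit 41) (nat_lit 5) (nat_lit 42) (nat_lit 5) (nat_lit 43) (nat_lit 4) (nat_lit 477) (nat_lit 364) (nat_lit 179))) (XT.nd (nat_lit 78) (nat_lit 228) (nat_lit 0) (XT.lf (nat_lit 0) (nat_lit 40269668090) (nat_lit 76) (nat_lit 19092374205) (nat_lit 152) (nat_lit 10427096853) (nat_lit 41) (nat_lit 5) (nat_lit 42) (nat_lit 5) (nat_lit 43) (nat_lit 4) (nat_lit 478) (nat_lit 364) (nat_lit 178)) (XT.lf (nat_lit 0) (nat_lit 2728782013) (nat_lit 152) (nat_lit 1866282327) (nat_lit 228) (nat_lit 66767752491) (nat_lit 38) (nat_lit 5) (nat_lit 40) (nat_lit 5) (nat_lit 41) (nat_lit 5) (nat_lit 479) (nat_lit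 364) (nat_lit 177))))))) (XT.nd (nat_lit 44694) (nat_lit 0) (nat_lit 15656) (XT.nd (nat_lit 44148) (nat_lit 0) (nat_lit 19380) (XT.nd (nat_lit 234) (nat_lit 228) (nat_lit 0) (XT.nd (nat_lit 78) (nat_lit 76) (nat_lit 0) (XT.lf (nat_lit 0) (nat_lit 20307797839) (nat_lit 228) (nat_lit 36691886101) (nat_lit 76) (nat_lit 15967439523) (nat_lit 38) (nat_lit 5) (nat_lit 41) (nat_lit 5) (nat_lit 39) (nat_lit 4) (nat_lit 480) (nat_lit 364) (nat_lit 176)) (XT.nd (nat_lit 78) (nat_lit 76) (nat_lit 0) (XT.lf (nat_lit 0) (nat_lit 36506339076) (nat_lit 228) (nat_lit 3817641584) (nat_lit 76) (nat_lit 34295146084) (nat_lit 38) (nat_lit 5) (nat_lit 41) (nat_lit 5) (nat_lit 39) (nat_lit 4) (nat_lit 481) (nat_lit 364) (nat_lit 175)) (XT.lf (nat_lit 0) (nat_lit 30633126276) (nat_lit 76) (nat_lit 22848240344) (nat_lit 152) (nat_lit 22830607820) (nat_lit 37) (nat_lit 5) (nat_lit 38) (nat_lit 5) (nat_lit 39) (nat_lit 4) (nat_lit 482)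 (nat_lit 364) (nat_lit 174)))) (XT.nd (nat_lit 156) (nat_lit 76) (nat_lit 0) (XT.nd (nat_lit 78) (nat_lit 152) (nat_lit 0) (XT.lf (nat_lit 0) (nat_lit 66188281663) (nat_lit 76) (nat_lit 4812023262) (nat_lit 152) (nat_lit 7054263052) (nat_lit 37) (nat_lit 5) (nat_lit 38) (nat_lit 5) (nat_lit 39) (nat_lit 4) (nat_lit 483) (nat_lit 364) (nat_lit 173)) (XT.lf (nat_lit 0) (nat_lit 9371670795) (nat_lit 152) (nat_lit 56655493983) (nat_lit 76) (nat_lit 13808950987) (nat_lit 35) (nat_lit 5) (nat_lit 37) (nat_lit 5) (nat_lit 36) (nat_lit 4) (nat_lit 484) (nat_lit 364) (nat_lit 172))) (XT.nd (nat_lit 78) (nat_lit 76) (nat_lit 0) (XT.lf (nat_lit 0) (nat_lit 26313449626) (nat_lit 152) (nat_lit 22271268906) (nat_lit 76) (nat_lit 33079350802) (nat_lit 35) (nat_lit 5) (nat_lit 37) (nat_lit 5) (nat_lit 36) (nat_lit 4) (nat_lit 485) (nat_lit 364) (nat_lit 171)) (XT.lf (nat_lit 0) (nat_lit 13398891435) (nat_lit 76) (nat_lit 30489693828)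 (nat_lit 152) (nat_lit 39654523333) (nat_lit 34) (nat_lit 5) (nat_lit 35) (nat_lit 5) (nat_lit 36) (nat_lit 4) (nat_lit 486) (nat_lit 364) (nat_lit 170))))) (XT.nd (nat_lit 234) (nat_lit 0) (nat_lit 76) (XT.nd (nat_lit 78) (nat_lit 0) (nat_lit 0) (XT.lf (nat_lit 0) (nat_lit 161390996) (nat_lit 1140) (nat_lit 2198909072) (nat_lit 1140) (nat_lit 2198909072) (nat_lit 289) (nat_lit 3) (nat_lit 304) (nat_lit 3) (nat_lit 304) (nat_lit 5) (nat_lit 365) (nat_lit 365) (nat_lit 290)) (XT.nd (nat_lit 78) (nat_lit 0) (nat_lit 76) (XT.lf (nat_lit 76) (nat_lit 42694762) (nat_lit 0) (nat_lit 1149665777) (nat_lit 1140) (nat_lit 8036582812) (nat_lit 290) (nat_lit 5) (nat_lit 289) (nat_lit 3) (nat_lit 304) (nat_lit 5) (nat_lit 366) (nat_lit 365) (nat_lit 289)) (XT.lf (nat_lit 0) (nat_lit 2123432874) (nat_lit 1064) (nat_lit 4678530723) (nat_lit 1140) (nat_lit 2539770444) (nat_lit 290) (nat_lit 5) (nat_lit 304) (nat_lit 5) (nat_lit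 305) (nat_lit 5) (nat_lit 367) (nat_lit 365) (nat_lit 288)))) (XT.nd (nat_lit 156) (nat_lit 0) (nat_lit 76) (XT.nd (nat_lit 78) (nat_lit 0) (nat_lit 76) (XT.lf (nat_lit 0) (nat_lit 3061056037) (nat_lit 1064) (nat_lit 65322069) (nat_lit 1140) (nat_lit 6332183499) (nat_lit 290) (nat_lit 5) (nat_lit 304) (nat_lit 5) (nat_lit 305) (nat_lit 5) (nat_lit 368) (nat_lit 365) (nat_lit 287)) (XT.lf (nat_lit 0) (nat_lit 4047694115) (nat_lit 1064) (nat_lit 4824042351) (nat_lit 1140) (nat_lit 706542314) (nat_lit 291) (nat_lit 5) (nat_lit 305) (nat_lit 5) (nat_lit 306) (nat_lit 5) (nat_lit 369) (nat_lit 365) (nat_lit 286))) (XT.nd (nat_lit 78) (nat_lit 0) (nat_lit 0) (XT.lf (nat_lit 0) (nat_lit 5064627560) (nat_lit 1064) (nat_lit 31527697) (nat_lit 1140) (nat_lit 4605422367) (nat_lit 291) (nat_lit 5) (nat_lit 305) (nat_lit 5) (nat_lit 306) (nat_lit 5) (nat_lit 370) (nat_lit 365) (nat_lit 285)) (XT.lf (nat_lit 76) (nat_lit 4983840346)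 (nat_lit 0) (nat_lit 1146112917) (nat_lit 1140) (nat_lit 3698096360) (nat_lit 292) (nat_lit 5) (nat_lit 291) (nat_lit 5) (nat_lit 306) (nat_lit 5) (nat_lit 371) (nat_lit 365) (nat_lit 284)))))) (XT.nd (nat_lit 546) (nat_lit 2888) (nat_lit 0) (XT.nd (nat_lit 234) (nat_lit 1064) (nat_lit 0) (XT.nd (nat_lit 78) (nat_lit 0) (nat_lit 0) (XT.lf (nat_lit 76) (nat_lit 147802832) (nat_lit 0) (nat_lit 7080057265) (nat_lit 1140) (nat_lit 2730447450) (nat_lit 293) (nat_lit 5) (nat_lit 292) (nat_lit 5) (nat_lit 307) (nat_lit 5) (nat_lit 372) (nat_lit 365) (nat_lit 283)) (XT.nd (nat_lit 78) (nat_lit 0) (nat_lit 76) (XT.lf (nat_lit 76) (nat_lit 5358494109) (nat_lit 0) (nat_lit 3031820382) (nat_lit 1140) (nat_lit 1701220510) (nat_lit 293) (nat_lit 5) (nat_lit 292) (nat_lit 5) (nat_lit 307) (nat_lit 5) (nat_lit 373) (nat_lit 365) (nat_lit 282)) (XT.lf (nat_lit 76) (nat_lit 475902163) (nat_lit 0) (nat_lit 9099631990) (nat_lit 1140)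 (nat_lit 653598185) (nat_lit 294) (nat_lit 5) (nat_lit 293) (nat_lit 5) (nat_lit 308) (nat_lit 5) (nat_lit 374) (nat_lit 365) (nat_lit 281)))) (XT.nd (nat_lit 156) (nat_lit 0) (nat_lit 76) (XT.nd (nat_lit 78) (nat_lit 0) (nat_lit 0) (XT.lf (nat_lit 0) (nat_lit 468160638) (nat_lit 1140) (nat_lit 4485425823) (nat_lit 1216) (nat_lit 5415627391) (nat_lit 278) (nat_lit 5) (nat_lit 293) (nat_lit 5) (nat_lit 294) (nat_lit 5) (nat_lit 375) (nat_lit 365) (nat_lit 280)) (XT.lf (nat_lit 76) (nat_lit 933163074) (nat_lit 0) (nat_lit 659761327) (nat_lit 1216) (nat_lit 8920913582) (nat_lit 279) (nat_lit 5) (nat_lit 278) (nat_lit 5) (nat_lit 294) (nat_lit 5) (nat_lit 376) (nat_lit 365) (nat_lit 279))) (XT.nd (nat_lit 78) (nat_lit 0) (nat_lit 0) (XT.lf (nat_lit 0) (nat_lit 2807522062) (nat_lit 1140) (nat_lit 4111460212) (nat_lit 1216) (nat_lit 3742144551) (nat_lit 279) (nat_lit 5) (nat_lit 294) (nat_lit 5) (nat_lit 295) (nat_lit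 5) (nat_lit 377) (nat_lit 365) (nat_lit 278)) (XT.lf (nat_lit 76) (nat_lit 1525993630) (nat_lit 0) (nat_lit 2528694639) (nat_lit 1216) (nat_lit 6758270603) (nat_lit 280) (nat_lit 5) (nat_lit 279) (nat_lit 5) (nat_lit 295) (nat_lit 5) (nat_lit 378) (nat_lit 365) (nat_lit 277))))) (XT.nd (nat_lit 312) (nat_lit 1976) (nat_lit 0) (XT.nd (nat_lit 156) (nat_lit 1064) (nat_lit 0) (XT.nd (nat_lit 78) (nat_lit 0) (nat_lit 0) (XT.lf (nat_lit 0) (nat_lit 5375891250) (nat_lit 1140) (nat_lit 3590513770) (nat_lit 1216) (nat_lit 2001850422) (nat_lit 280) (nat_lit 5) (nat_lit 295) (nat_lit 5) (nat_lit 296) (nat_lit 5) (nat_lit 379) (nat_lit 365) (nat_lit 276)) (XT.lf (nat_lit 76) (nat_lit 2277109359) (nat_lit 0) (nat_lit 4482791363) (nat_lit 1216) (nat_lit 4367623051) (nat_lit 281) (nat_lit 5) (nat_lit 280) (nat_lit 5) (nat_lit 296) (nat_lit 5) (nat_lit 380) (nat_lit 365) (nat_lit 275))) (XT.nd (nat_lit 78) (nat_lit 1140) (nat_lit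 0) (XT.lf (nat_lit 0) (nat_lit 8200143711) (nat_lit 1140) (nat_lit 2917458126) (nat_lit 76) (nat_lit 173534664) (nat_lit 281) (nat_lit 5) (nat_lit 296) (nat_lit 5) (nat_lit 282) (nat_lit 5) (nat_lit 381) (nat_lit 365) (nat_lit 274)) (XT.lf (nat_lit 0) (nat_lit 3192290011) (nat_lit 1140) (nat_lit 6543846350) (nat_lit 1216) (nat_lit 1721952495) (nat_lit 266) (nat_lit 5) (nat_lit 281) (nat_lit 5) (nat_lit 282) (nat_lit 5) (nat_lit 382) (nat_lit 365) (nat_lit 273)))) (XT.nd (nat_lit 156) (nat_lit 684) (nat_lit 0) (XT.nd (nat_lit 78) (nat_lit 1292) (nat_lit 0) (XT.lf (nat_lit 0) (nat_lit 9526217093) (nat_lit 1140) (nat_lit 1799398658) (nat_lit 1216) (nat_lit 304219121) (nat_lit 266) (nat_lit 5) (nat_lit 281) (nat_lit 5) (nat_lit 282) (nat_lit 5) (nat_lit 383) (nat_lit 365) (nat_lit 272)) (XT.lf (nat_lit 0) (nat_lit 1183390307) (nat_lit 1292) (nat_lit 7538672041) (nat_lit 76) (nat_lit 3082847340) (nat_lit 249) (nat_lit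 5) (nat_lit 266) (nat_lit 5) (nat_lit 250) (nat_lit 5) (nat_lit 384) (nat_lit 365) (nat_lit 271))) (XT.nd (nat_lit 78) (nat_lit 684) (nat_lit 0) (XT.lf (nat_lit 0) (nat_lit 2727627443) (nat_lit 1292) (nat_lit 1154614017) (nat_lit 76) (nat_lit 8102368188) (nat_lit 249) (nat_lit 5) (nat_lit 266) (nat_lit 5) (nat_lit 250) (nat_lit 5) (nat_lit 385) (nat_lit 365) (nat_lit 270)) (XT.lf (nat_lit 0) (nat_lit 4361758707) (nat_lit 760) (nat_lit 6670121184) (nat_lit 76) (nat_lit 1136520191) (nat_lit 240) (nat_lit 5) (nat_lit 250) (nat_lit 5) (nat_lit 241) (nat_lit 5) (nat_lit 386) (nat_lit 365) (nat_lit 269))))))))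
noncomputable def xc160 : XT := (XT.nd (nat_lit 2184) (nat_lit 4332) (nat_lit 0) (XT.nd (nat_lit 1092) (nat_lit 3344) (nat_lit 0) (XT.nd (nat_lit 546) (nat_lit 1976) (nat_lit 0) (XT.nd (nat_lit 234) (nat_lit 1140) (nat_lit 0) (XT.nd (nat_lit 78) (nat_lit 1216) (nat_lit 0) (XT.lf (nat_lit 0) (nat_lit 6075023367) (nat_lit 760) (nat_lit 40647687) (nat_lit 76) (nat_lit 6241136186) (nat_lit 240) (nat_lit 5) (nat_lit 250) (nat_lit 5) (nat_lit 241) (nat_lit 5) (nat_lit 387) (nat_lit 365) (nat_lit 268)) (XT.nd (nat_lit 78) (nat_lit 608) (nat_lit 0) (XT.lf (nat_lit 0) (nat_lit 6903819839) (nat_lit 608) (nat_lit 982712048) (nat_lit 684) (nat_lit 4662935461) (nat_lit 232) (nat_lit 5) (nat_lit 240) (nat_lit 5) (nat_lit 241) (nat_lit 5) (nat_lit 388) (nat_lit 365) (nat_lit 267)) (XT.lf (nat_lit 0) (nat_lit 1274028977) (nat_lit 608) (nat_lit 8513273175) (nat_lit 684) (nat_lit 2959563547) (nat_lit 224) (nat_lit 5) (nat_lit 232)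 (nat_lit 5) (nat_lit 233) (nat_lit 5) (nat_lit 389) (nat_lit 365) (nat_lit 266)))) (XT.nd (nat_lit 156) (nat_lit 532) (nat_lit 0) (XT.nd (nat_lit 78) (nat_lit 608) (nat_lit 0) (XT.lf (nat_lit 0) (nat_lit 8488276341) (nat_lit 608) (nat_lit 3304719773) (nat_lit 684) (nat_lit 1155758629) (nat_lit 224) (nat_lit 5) (nat_lit 232) (nat_lit 5) (nat_lit 233) (nat_lit 5) (nat_lit 390) (nat_lit 365) (nat_lit 265)) (XT.lf (nat_lit 0) (nat_lit 717039882) (nat_lit 608) (nat_lit 10385062104) (nat_lit 76) (nat_lit 2053543983) (nat_lit 216) (nat_lit 5) (nat_lit 224) (nat_lit 5) (nat_lit 217) (nat_lit 5) (nat_lit 391) (nat_lit 365) (nat_lit 264))) (XT.nd (nat_lit 78) (nat_lit 532) (nat_lit 0) (XT.lf (nat_lit 0) (nat_lit 2682970950) (nat_lit 608) (nat_lit 3120996469) (nat_lit 76) (nat_lit 7562633144) (nat_lit 216) (nat_lit 5) (nat_lit 224) (nat_lit 5) (nat_lit 217) (nat_lit 5) (nat_lit 392) (nat_lit 365) (nat_lit 263)) (XT.lf (nat_lit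 0) (nat_lit 4428961637) (nat_lit 532) (nat_lit 303987500) (nat_lit 608) (nat_lit 8850187702) (nat_lit 209) (nat_lit 5) (nat_lit 216) (nat_lit 5) (nat_lit 217) (nat_lit 5) (nat_lit 393) (nat_lit 365) (nat_lit 262))))) (XT.nd (nat_lit 234) (nat_lit 988) (nat_lit 0) (XT.nd (nat_lit 78) (nat_lit 988) (nat_lit 0) (XT.lf (nat_lit 0) (nat_lit 6910606673) (nat_lit 608) (nat_lit 1606456087) (nat_lit 76) (nat_lit 5287126012) (nat_lit 209) (nat_lit 5) (nat_lit 217) (nat_lit 5) (nat_lit 210) (nat_lit 5) (nat_lit 394) (nat_lit 365) (nat_lit 261)) (XT.nd (nat_lit 78) (nat_lit 532) (nat_lit 0) (XT.lf (nat_lit 0) (nat_lit 6268775242) (nat_lit 456) (nat_lit 2931407079) (nat_lit 532) (nat_lit 4830297117) (nat_lit 203) (nat_lit 5) (nat_lit 209) (nat_lit 5) (nat_lit 210) (nat_lit 5) (nat_lit 395) (nat_lit 365) (nat_lit 260)) (XT.lf (nat_lit 0) (nat_lit 106375549) (nat_lit 532) (nat_lit 11480215292) (nat_lit 608) (nat_lit 2676128299)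 (nat_lit 196) (nat_lit 5) (nat_lit 203) (nat_lit 5) (nat_lit 204) (nat_lit 5) (nat_lit 396) (nat_lit 365) (nat_lit 259)))) (XT.nd (nat_lit 156) (nat_lit 456) (nat_lit 0) (XT.nd (nat_lit 78) (nat_lit 532) (nat_lit 0) (XT.lf (nat_lit 0) (nat_lit 8321648596) (nat_lit 532) (nat_lit 5813976424) (nat_lit 608) (nat_lit 363574558) (nat_lit 196) (nat_lit 5) (nat_lit 203) (nat_lit 5) (nat_lit 204) (nat_lit 5) (nat_lit 397) (nat_lit 365) (nat_lit 258)) (XT.lf (nat_lit 0) (nat_lit 1983411627) (nat_lit 532) (nat_lit 12699728358) (nat_lit 76) (nat_lit 58923445) (nat_lit 189) (nat_lit 5) (nat_lit 196) (nat_lit 5) (nat_lit 190) (nat_lit 5) (nat_lit 398) (nat_lit 365) (nat_lit 257))) (XT.nd (nat_lit 78) (nat_lit 456) (nat_lit 0) (XT.lf (nat_lit 0) (nat_lit 4498551495) (nat_lit 532) (nat_lit 4435077578) (nat_lit 76) (nat_lit 6055328748) (nat_lit 189) (nat_lit 5) (nat_lit 196) (nat_lit 5) (nat_lit 190) (nat_lit 5) (nat_lit 399) (nat_lit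 365) (nat_lit 256)) (XT.lf (nat_lit 0) (nat_lit 4140437915) (nat_lit 456) (nat_lit 2973448526) (nat_lit 532) (nat_lit 8128634417) (nat_lit 183) (nat_lit 5) (nat_lit 189) (nat_lit 5) (nat_lit 190) (nat_lit 5) (nat_lit 400) (nat_lit 365) (nat_lit 255)))))) (XT.nd (nat_lit 546) (nat_lit 1596) (nat_lit 0) (XT.nd (nat_lit 234) (nat_lit 1292) (nat_lit 0) (XT.nd (nat_lit 78) (nat_lit 456) (nat_lit 0) (XT.lf (nat_lit 0) (nat_lit 9868520614) (nat_lit 532) (nat_lit 2487200325) (nat_lit 76) (nat_lit 3146148594) (nat_lit 183) (nat_lit 5) (nat_lit 190) (nat_lit 5) (nat_lit 184) (nat_lit 5) (nat_lit 401) (nat_lit 365) (nat_lit 254)) (XT.nd (nat_lit 78) (nat_lit 0) (nat_lit 0) (XT.lf (nat_lit 0) (nat_lit 6465262628) (nat_lit 456) (nat_lit 6317732034) (nat_lit 532) (nat_lit 2983691789) (nat_lit 177) (nat_lit 5) (nat_lit 183) (nat_lit 5) (nat_lit 184) (nat_lit 5) (nat_lit 402) (nat_lit 365) (nat_lit 253)) (XT.lf (nat_lit 0) (nat_lit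 15719870437) (nat_lit 456) (nat_lit 76012700) (nat_lit 532) (nat_lit 243239034) (nat_lit 177) (nat_lit 5) (nat_lit 183) (nat_lit 5) (nat_lit 184) (nat_lit 5) (nat_lit 403) (nat_lit 365) (nat_lit 252)))) (XT.nd (nat_lit 156) (nat_lit 380) (nat_lit 0) (XT.nd (nat_lit 78) (nat_lit 380) (nat_lit 0) (XT.lf (nat_lit 0) (nat_lit 2664535936) (nat_lit 532) (nat_lit 7311596150) (nat_lit 76) (nat_lit 6338795233) (nat_lit 170) (nat_lit 5) (nat_lit 177) (nat_lit 5) (nat_lit 171) (nat_lit 5) (nat_lit 404) (nat_lit 365) (nat_lit 251)) (XT.lf (nat_lit 0) (nat_lit 2032293197) (nat_lit 380) (nat_lit 3632250319) (nat_lit 456) (nat_lit 10934097594) (nat_lit 165) (nat_lit 5) (nat_lit 170) (nat_lit 5) (nat_lit 171) (nat_lit 5) (nat_lit 405) (nat_lit 365) (nat_lit 250))) (XT.nd (nat_lit 78) (nat_lit 380) (nat_lit 0) (XT.lf (nat_lit 0) (nat_lit 8843550255) (nat_lit 456) (nat_lit 5128494081) (nat_lit 76) (nat_lit 2916155297) (nat_lit 165)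 (nat_lit 5) (nat_lit 171) (nat_lit 5) (nat_lit 166) (nat_lit 5) (nat_lit 406) (nat_lit 365) (nat_lit 249)) (XT.lf (nat_lit 0) (nat_lit 4629792724) (nat_lit 380) (nat_lit 7555533619) (nat_lit 456) (nat_lit 4999099785) (nat_lit 160) (nat_lit 5) (nat_lit 165) (nat_lit 5) (nat_lit 166) (nat_lit 5) (nat_lit 407) (nat_lit 365) (nat_lit 248))))) (XT.nd (nat_lit 234) (nat_lit 1140) (nat_lit 0) (XT.nd (nat_lit 78) (nat_lit 456) (nat_lit 0) (XT.lf (nat_lit 0) (nat_lit 14769041023) (nat_lit 380) (nat_lit 897252316) (nat_lit 456) (nat_lit 1822081047) (nat_lit 160) (nat_lit 5) (nat_lit 165) (nat_lit 5) (nat_lit 166) (nat_lit 5) (nat_lit 408) (nat_lit 365) (nat_lit 247)) (XT.nd (nat_lit 78) (nat_lit 0) (nat_lit 0) (XT.lf (nat_lit 0) (nat_lit 1539817218) (nat_lit 456) (nat_lit 10330054697) (nat_lit 76) (nat_lit 5927617819) (nat_lit 154) (nat_lit 5) (nat_lit 160) (nat_lit 5) (nat_lit 155) (nat_lit 5) (nat_lit 409) (nat_lit 365)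 (nat_lit 246)) (XT.lf (nat_lit 0) (nat_lit 4990132317) (nat_lit 456) (nat_lit 143549346) (nat_lit 76) (nat_lit 12980933044) (nat_lit 154) (nat_lit 5) (nat_lit 160) (nat_lit 5) (nat_lit 155) (nat_lit 5) (nat_lit 410) (nat_lit 365) (nat_lit 245)))) (XT.nd (nat_lit 156) (nat_lit 456) (nat_lit 0) (XT.nd (nat_lit 78) (nat_lit 304) (nat_lit 0) (XT.lf (nat_lit 0) (nat_lit 8651490023) (nat_lit 456) (nat_lit 7919064015) (nat_lit 76) (nat_lit 1867476150) (nat_lit 149) (nat_lit 5) (nat_lit 155) (nat_lit 5) (nat_lit 150) (nat_lit 5) (nat_lit 411) (nat_lit 365) (nat_lit 244)) (XT.lf (nat_lit 0) (nat_lit 2718892573) (nat_lit 304) (nat_lit 9770306894) (nat_lit 380) (nat_lit 6279956005) (nat_lit 145) (nat_lit 5) (nat_lit 149) (nat_lit 5) (nat_lit 150) (nat_lit 5) (nat_lit 412) (nat_lit 365) (nat_lit 243))) (XT.nd (nat_lit 78) (nat_lit 456) (nat_lit 0) (XT.lf (nat_lit 0) (nat_lit 13821967757) (nat_lit 304) (nat_lit 2688312261)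 (nat_lit 380) (nat_lit 2597889898) (nat_lit 145) (nat_lit 5) (nat_lit 149) (nat_lit 5) (nat_lit 150) (nat_lit 5) (nat_lit 413) (nat_lit 365) (nat_lit 242)) (XT.lf (nat_lit 0) (nat_lit 1261332422) (nat_lit 456) (nat_lit 13612480217) (nat_lit 76) (nat_lit 4580499913) (nat_lit 139) (nat_lit 5) (nat_lit 145) (nat_lit 5) (nat_lit 140) (nat_lit 5) (nat_lit 414) (nat_lit 365) (nat_lit 241))))))) (XT.nd (nat_lit 1092) (nat_lit 1900) (nat_lit 0) (XT.nd (nat_lit 546) (nat_lit 1140) (nat_lit 0) (XT.nd (nat_lit 234) (nat_lit 684) (nat_lit 0) (XT.nd (nat_lit 78) (nat_lit 608) (nat_lit 0) (XT.lf (nat_lit 0) (nat_lit 5253278454) (nat_lit 456) (nat_lit 2466283074) (nat_lit 76) (nat_lit 12088433801) (nat_lit 139) (nat_lit 5) (nat_lit 145) (nat_lit 5) (nat_lit 140) (nat_lit 5) (nat_lit 415) (nat_lit 365) (nat_lit 240)) (XT.nd (nat_lit 78) (nat_lit 304) (nat_lit 0) (XT.lf (nat_lit 0) (nat_lit 9177613830) (nat_lit 304) (nat_lit 264557164)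 (nat_lit 380) (nat_lit 10727804255) (nat_lit 135) (nat_lit 5) (nat_lit 139) (nat_lit 5) (nat_lit 140) (nat_lit 5) (nat_lit 416) (nat_lit 365) (nat_lit 239)) (XT.lf (nat_lit 0) (nat_lit 603678982) (nat_lit 304) (nat_lit 13244367048) (nat_lit 380) (nat_lit 6692031302) (nat_lit 131) (nat_lit 5) (nat_lit 135) (nat_lit 5) (nat_lit 136) (nat_lit 5) (nat_lit 417) (nat_lit 365) (nat_lit 238)))) (XT.nd (nat_lit 156) (nat_lit 304) (nat_lit 0) (XT.nd (nat_lit 78) (nat_lit 380) (nat_lit 0) (XT.lf (nat_lit 0) (nat_lit 12754515477) (nat_lit 304) (nat_lit 5734435904) (nat_lit 380) (nat_lit 2429247648) (nat_lit 131) (nat_lit 5) (nat_lit 135) (nat_lit 5) (nat_lit 136) (nat_lit 5) (nat_lit 418) (nat_lit 365) (nat_lit 237)) (XT.lf (nat_lit 0) (nat_lit 1970873233) (nat_lit 380) (nat_lit 17319983484) (nat_lit 76) (nat_lit 2014812235) (nat_lit 126) (nat_lit 5) (nat_lit 131) (nat_lit 5) (nat_lit 127) (nat_lit 5) (nat_lit 419) (nat_lit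 365) (nat_lit 236))) (XT.nd (nat_lit 78) (nat_lit 304) (nat_lit 0) (XT.lf (nat_lit 0) (nat_lit 6583780329) (nat_lit 380) (nat_lit 5132664295) (nat_lit 76) (nat_lit 9983710535) (nat_lit 126) (nat_lit 5) (nat_lit 131) (nat_lit 5) (nat_lit 127) (nat_lit 5) (nat_lit 420) (nat_lit 365) (nat_lit 235)) (XT.lf (nat_lit 0) (nat_lit 7552492796) (nat_lit 304) (nat_lit 3845062635) (nat_lit 380) (nat_lit 10707048028) (nat_lit 122) (nat_lit 5) (nat_lit 126) (nat_lit 5) (nat_lit 127) (nat_lit 5) (nat_lit 421) (nat_lit 365) (nat_lit 234))))) (XT.nd (nat_lit 234) (nat_lit 532) (nat_lit 0) (XT.nd (nat_lit 78) (nat_lit 608) (nat_lit 0) (XT.lf (nat_lit 0) (nat_lit 16439043760) (nat_lit 380) (nat_lit 1852959528) (nat_lit 76) (nat_lit 4226684795) (nat_lit 122) (nat_lit 5) (nat_lit 127) (nat_lit 5) (nat_lit 123) (nat_lit 5) (nat_lit 422) (nat_lit 365) (nat_lit 233)) (XT.nd (nat_lit 78) (nat_lit 380) (nat_lit 0) (XT.lf (nat_lit 0) (nat_lit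 11396668941) (nat_lit 228) (nat_lit 10373004799) (nat_lit 304) (nat_lit 1171386413) (nat_lit 119) (nat_lit 5) (nat_lit 122) (nat_lit 5) (nat_lit 123) (nat_lit 5) (nat_lit 423) (nat_lit 365) (nat_lit 232)) (XT.lf (nat_lit 0) (nat_lit 1686754522) (nat_lit 304) (nat_lit 2147003109) (nat_lit 380) (nat_lit 19540464428) (nat_lit 114) (nat_lit 5) (nat_lit 118) (nat_lit 5) (nat_lit 119) (nat_lit 5) (nat_lit 424) (nat_lit 365) (nat_lit 231)))) (XT.nd (nat_lit 156) (nat_lit 304) (nat_lit 0) (XT.nd (nat_lit 78) (nat_lit 228) (nat_lit 0) (XT.lf (nat_lit 0) (nat_lit 9134460993) (nat_lit 380) (nat_lit 8353916249) (nat_lit 76) (nat_lit 6326586846) (nat_lit 114) (nat_lit 5) (nat_lit 119) (nat_lit 5) (nat_lit 115) (nat_lit 5) (nat_lit 425) (nat_lit 365) (nat_lit 230)) (XT.lf (nat_lit 0) (nat_lit 5450214448) (nat_lit 228) (nat_lit 9208310054) (nat_lit 304) (nat_lit 9608475323) (nat_lit 111) (nat_lit 5) (nat_lit 114) (nat_lit 5)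 (nat_lit 115) (nat_lit 5) (nat_lit 426) (nat_lit 365) (nat_lit 229))) (XT.nd (nat_lit 78) (nat_lit 304) (nat_lit 0) (XT.lf (nat_lit 0) (nat_lit 19825335555) (nat_lit 228) (nat_lit 598156235) (nat_lit 304) (nat_lit 4306850954) (nat_lit 111) (nat_lit 5) (nat_lit 114) (nat_lit 5) (nat_lit 115) (nat_lit 5) (nat_lit 427) (nat_lit 365) (nat_lit 228)) (XT.lf (nat_lit 0) (nat_lit 1294926088) (nat_lit 304) (nat_lit 15699285059) (nat_lit 76) (nat_lit 8208134972) (nat_lit 107) (nat_lit 5) (nat_lit 111) (nat_lit 5) (nat_lit 108) (nat_lit 5) (nat_lit 428) (nat_lit 365) (nat_lit 227)))))) (XT.nd (nat_lit 546) (nat_lit 912) (nat_lit 0) (XT.nd (nat_lit 234) (nat_lit 532) (nat_lit 0) (XT.nd (nat_lit 78) (nat_lit 456) (nat_lit 0) (XT.lf (nat_lit 0) (nat_lit 7025216123) (nat_lit 304) (nat_lit 1306381213) (nat_lit 76) (nat_lit 17354223740) (nat_lit 107) (nat_lit 5) (nat_lit 111) (nat_lit 5) (nat_lit 108) (nat_lit 5) (nat_lit 429)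 (nat_lit 365) (nat_lit 226)) (XT.nd (nat_lit 78) (nat_lit 228) (nat_lit 0) (XT.lf (nat_lit 0) (nat_lit 13058092612) (nat_lit 304) (nat_lit 12413762877) (nat_lit 76) (nat_lit 708025854) (nat_lit 104) (nat_lit 5) (nat_lit 108) (nat_lit 5) (nat_lit 105) (nat_lit 5) (nat_lit 430) (nat_lit 365) (nat_lit 225)) (XT.lf (nat_lit 0) (nat_lit 2583108558) (nat_lit 228) (nat_lit 16800901557) (nat_lit 304) (nat_lit 7301393014) (nat_lit 101) (nat_lit 5) (nat_lit 104) (nat_lit 5) (nat_lit 105) (nat_lit 5) (nat_lit 431) (nat_lit 365) (nat_lit 224)))) (XT.nd (nat_lit 156) (nat_lit 228) (nat_lit 0) (XT.nd (nat_lit 78) (nat_lit 304) (nat_lit 0) (XT.lf (nat_lit 0) (nat_lit 18270611663) (nat_lit 228) (nat_lit 7745976934) (nat_lit 304) (nat_lit 1185996783) (nat_lit 101) (nat_lit 5) (nat_lit 104) (nat_lit 5) (nat_lit 105) (nat_lit 5) (nat_lit 432) (nat_lit 365) (nat_lit 223)) (XT.lf (nat_lit 0) (nat_lit 5086065547) (nat_lit 304) (nat_lit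 20985618758) (nat_lit 76) (nat_lit 1659936357) (nat_lit 97) (nat_lit 5) (nat_lit 101) (nat_lit 5) (nat_lit 98) (nat_lit 5) (nat_lit 433) (nat_lit 365) (nat_lit 222))) (XT.nd (nat_lit 78) (nat_lit 228) (nat_lit 0) (XT.lf (nat_lit 0) (nat_lit 11681990034) (nat_lit 304) (nat_lit 5299311457) (nat_lit 76) (nat_lit 11290088309) (nat_lit 97) (nat_lit 5) (nat_lit 101) (nat_lit 5) (nat_lit 98) (nat_lit 5) (nat_lit 434) (nat_lit 365) (nat_lit 221)) (XT.lf (nat_lit 0) (nat_lit 11060229977) (nat_lit 228) (nat_lit 7513876444) (nat_lit 304) (nat_lit 10250297333) (nat_lit 94) (nat_lit 5) (nat_lit 97) (nat_lit 5) (nat_lit 98) (nat_lit 5) (nat_lit 435) (nat_lit 365) (nat_lit 220))))) (XT.nd (nat_lit 312) (nat_lit 456) (nat_lit 0) (XT.nd (nat_lit 156) (nat_lit 228) (nat_lit 0) (XT.nd (nat_lit 78) (nat_lit 228) (nat_lit 0) (XT.lf (nat_lit 0) (nat_lit 25740592265) (nat_lit 304) (nat_lit 1408492388) (nat_lit 76) (nat_lit 2242896429)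 (nat_lit 94) (nat_lit 5) (nat_lit 98) (nat_lit 5) (nat_lit 95) (nat_lit 5) (nat_lit 436) (nat_lit 365) (nat_lit 219)) (XT.lf (nat_lit 0) (nat_lit 3303433360) (nat_lit 228) (nat_lit 14346339882) (nat_lit 76) (nat_lit 12319326681) (nat_lit 91) (nat_lit 5) (nat_lit 94) (nat_lit 5) (nat_lit 92) (nat_lit 5) (nat_lit 437) (nat_lit 365) (nat_lit 218))) (XT.nd (nat_lit 78) (nat_lit 0) (nat_lit 0) (XT.lf (nat_lit 0) (nat_lit 2632920014) (nat_lit 228) (nat_lit 7792575880) (nat_lit 304) (nat_lit 20135993351) (nat_lit 88) (nat_lit 5) (nat_lit 91) (nat_lit 5) (nat_lit 92) (nat_lit 5) (nat_lit 438) (nat_lit 365) (nat_lit 217)) (XT.lf (nat_lit 0) (nat_lit 17922577117) (nat_lit 304) (nat_lit 10788718210) (nat_lit 76) (nat_lit 2455515222) (nat_lit 88) (nat_lit 5) (nat_lit 92) (nat_lit 5) (nat_lit 89) (nat_lit 5) (nat_lit 439) (nat_lit 365) (nat_lit 216)))) (XT.nd (nat_lit 156) (nat_lit 228) (nat_lit 0) (XT.nd (nat_lit 78) (nat_lit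 76) (nat_lit 0) (XT.lf (nat_lit 0) (nat_lit 6910464599) (nat_lit 152) (nat_lit 18870273977) (nat_lit 228) (nat_lit 6005468862) (nat_lit 86) (nat_lit 5) (nat_lit 88) (nat_lit 5) (nat_lit 89) (nat_lit 5) (nat_lit 440) (nat_lit 365) (nat_lit 215)) (XT.lf (nat_lit 0) (nat_lit 1524787536) (nat_lit 228) (nat_lit 7086740687) (nat_lit 76) (nat_lit 23809161673) (nat_lit 85) (nat_lit 5) (nat_lit 88) (nat_lit 5) (nat_lit 86) (nat_lit 5) (nat_lit 441) (nat_lit 365) (nat_lit 214))) (XT.nd (nat_lit 78) (nat_lit 0) (nat_lit 0) (XT.lf (nat_lit 0) (nat_lit 9282941831) (nat_lit 304) (nat_lit 21703326002) (nat_lit 76) (nat_lit 2082475263) (nat_lit 82) (nat_lit 5) (nat_lit 86) (nat_lit 5) (nat_lit 83) (nat_lit 5) (nat_lit 442) (nat_lit 365) (nat_lit 213)) (XT.lf (nat_lit 0) (nat_lit 17424242940) (nat_lit 304) (nat_lit 3315912779) (nat_lit 76) (nat_lit 12991570975) (nat_lit 82) (nat_lit 5) (nat_lit 86) (nat_lit 5) (nat_lit 83) (nat_lit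 5) (nat_lit 443) (nat_lit 365) (nat_lit 212))))))))
noncomputable def xc161 : XT := (XT.nd (nat_lit 2262) (nat_lit 836) (nat_lit 0) (XT.nd (nat_lit 1092) (nat_lit 1292) (nat_lit 0) (XT.nd (nat_lit 546) (nat_lit 684) (nat_lit 0) (XT.nd (nat_lit 234) (nat_lit 380) (nat_lit 0) (XT.nd (nat_lit 78) (nat_lit 228) (nat_lit 0) (XT.lf (nat_lit 0) (nat_lit 15921912421) (nat_lit 152) (nat_lit 10033998336) (nat_lit 228) (nat_lit 8454306056) (nat_lit 80) (nat_lit 5) (nat_lit 82) (nat_lit 5) (nat_lit 83) (nat_lit 5) (nat_lit 444) (nat_lit 365) (nat_lit 211)) (XT.nd (nat_lit 78) (nat_lit 76) (nat_lit 0) (XT.lf (nat_lit 0) (nat_lit 688395307) (nat_lit 152) (nat_lit 34098232205) (nat_lit 228) (nat_lit 321141977) (nat_lit 78) (nat_lit 5) (nat_lit 80) (nat_lit 5) (nat_lit 81) (nat_lit 5) (nat_lit 445) (nat_lit 365) (nat_lit 210)) (XT.lf (nat_lit 0) (nat_lit 8179841676) (nat_lit 228) (nat_lit 15191860219) (nat_lit 76) (nat_lit 12443793644)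 (nat_lit 77) (nat_lit 5) (nat_lit 80) (nat_lit 5) (nat_lit 78) (nat_lit 5) (nat_lit 446) (nat_lit 365) (nat_lit 209)))) (XT.nd (nat_lit 156) (nat_lit 228) (nat_lit 0) (XT.nd (nat_lit 78) (nat_lit 0) (nat_lit 0) (XT.lf (nat_lit 0) (nat_lit 4689184851) (nat_lit 152) (nat_lit 12278626539) (nat_lit 228) (nat_lit 19575395005) (nat_lit 75) (nat_lit 5) (nat_lit 77) (nat_lit 5) (nat_lit 78) (nat_lit 5) (nat_lit 447) (nat_lit 365) (nat_lit 208)) (XT.lf (nat_lit 0) (nat_lit 25466575839) (nat_lit 152) (nat_lit 699671752) (nat_lit 228) (nat_lit 11122096892) (nat_lit 75) (nat_lit 5) (nat_lit 77) (nat_lit 5) (nat_lit 78) (nat_lit 5) (nat_lit 448) (nat_lit 365) (nat_lit 207))) (XT.nd (nat_lit 78) (nat_lit 76) (nat_lit 0) (XT.lf (nat_lit 0) (nat_lit 8865211558) (nat_lit 152) (nat_lit 26962125717) (nat_lit 228) (nat_lit 2222899134) (nat_lit 73) (nat_lit 5) (nat_lit 75) (nat_lit 5) (nat_lit 76) (nat_lit 5) (nat_lit 449) (nat_lit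 365) (nat_lit 206)) (XT.lf (nat_lit 0) (nat_lit 6928853579) (nat_lit 228) (nat_lit 8502452877) (nat_lit 76) (nat_lit 23398044991) (nat_lit 72) (nat_lit 5) (nat_lit 75) (nat_lit 5) (nat_lit 73) (nat_lit 5) (nat_lit 450) (nat_lit 365) (nat_lit 205))))) (XT.nd (nat_lit 234) (nat_lit 380) (nat_lit 0) (XT.nd (nat_lit 78) (nat_lit 152) (nat_lit 0) (XT.lf (nat_lit 0) (nat_lit 13021684874) (nat_lit 152) (nat_lit 3407736529) (nat_lit 228) (nat_lit 23198190696) (nat_lit 70) (nat_lit 5) (nat_lit 72) (nat_lit 5) (nat_lit 73) (nat_lit 5) (nat_lit 451) (nat_lit 365) (nat_lit 204)) (XT.nd (nat_lit 78) (nat_lit 152) (nat_lit 0) (XT.lf (nat_lit 0) (nat_lit 26381801866) (nat_lit 228) (nat_lit 5179578506) (nat_lit 76) (nat_lit 8883436958) (nat_lit 70) (nat_lit 5) (nat_lit 73) (nat_lit 5) (nat_lit 71) (nat_lit 5) (nat_lit 452) (nat_lit 365) (nat_lit 203)) (XT.lf (nat_lit 0) (nat_lit 17180358466) (nat_lit 152) (nat_lit 19645263379)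 (nat_lit 228) (nat_lit 4455131439) (nat_lit 68) (nat_lit 5) (nat_lit 70) (nat_lit 5) (nat_lit 71) (nat_lit 5) (nat_lit 453) (nat_lit 365) (nat_lit 202)))) (XT.nd (nat_lit 156) (nat_lit 152) (nat_lit 0) (XT.nd (nat_lit 78) (nat_lit 152) (nat_lit 0) (XT.lf (nat_lit 0) (nat_lit 5381631189) (nat_lit 228) (nat_lit 1886476350) (nat_lit 76) (nat_lit 34870686828) (nat_lit 67) (nat_lit 5) (nat_lit 70) (nat_lit 5) (nat_lit 68) (nat_lit 5) (nat_lit 454) (nat_lit 365) (nat_lit 201)) (XT.lf (nat_lit 0) (nat_lit 15678515240) (nat_lit 228) (nat_lit 21714308325) (nat_lit 76) (nat_lit 5620793499) (nat_lit 65) (nat_lit 5) (nat_lit 68) (nat_lit 5) (nat_lit 66) (nat_lit 5) (nat_lit 455) (nat_lit 365) (nat_lit 200))) (XT.nd (nat_lit 78) (nat_lit 0) (nat_lit 0) (XT.lf (nat_lit 0) (nat_lit 1246965048) (nat_lit 152) (nat_lit 25134722942) (nat_lit 228) (nat_lit 17530075531) (nat_lit 63) (nat_lit 5) (nat_lit 65) (nat_lit 5) (nat_lit 66)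 (nat_lit 5) (nat_lit 456) (nat_lit 365) (nat_lit 199)) (XT.lf (nat_lit 0) (nat_lit 25331858032) (nat_lit 152) (nat_lit 12287635282) (nat_lit 228) (nat_lit 7210955458) (nat_lit 63) (nat_lit 5) (nat_lit 65) (nat_lit 5) (nat_lit 66) (nat_lit 5) (nat_lit 457) (nat_lit 365) (nat_lit 198)))))) (XT.nd (nat_lit 546) (nat_lit 608) (nat_lit 0) (XT.nd (nat_lit 234) (nat_lit 304) (nat_lit 0) (XT.nd (nat_lit 78) (nat_lit 152) (nat_lit 0) (XT.lf (nat_lit 0) (nat_lit 3397555355) (nat_lit 228) (nat_lit 41378824914) (nat_lit 76) (nat_lit 997933923) (nat_lit 60) (nat_lit 5) (nat_lit 63) (nat_lit 5) (nat_lit 61) (nat_lit 5) (nat_lit 458) (nat_lit 365) (nat_lit 197)) (XT.nd (nat_lit 78) (nat_lit 152) (nat_lit 0) (XT.lf (nat_lit 0) (nat_lit 14494295986) (nat_lit 228) (nat_lit 17539676046) (nat_lit 76) (nat_lit 14700934927) (nat_lit 60) (nat_lit 5) (nat_lit 63) (nat_lit 5) (nat_lit 61) (nat_lit 5) (nat_lit 459) (nat_lit 365) (nat_lit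 196)) (XT.lf (nat_lit 0) (nat_lit 7144176030) (nat_lit 152) (nat_lit 18843000866) (nat_lit 228) (nat_lit 21735243937) (nat_lit 58) (nat_lit 5) (nat_lit 60) (nat_lit 5) (nat_lit 61) (nat_lit 5) (nat_lit 460) (nat_lit 365) (nat_lit 195)))) (XT.nd (nat_lit 156) (nat_lit 152) (nat_lit 0) (XT.nd (nat_lit 78) (nat_lit 152) (nat_lit 0) (XT.lf (nat_lit 0) (nat_lit 32918306833) (nat_lit 152) (nat_lit 5078281904) (nat_lit 228) (nat_lit 10737819507) (nat_lit 58) (nat_lit 5) (nat_lit 60) (nat_lit 5) (nat_lit 61) (nat_lit 5) (nat_lit 461) (nat_lit 365) (nat_lit 194)) (XT.lf (nat_lit 0) (nat_lit 756018201) (nat_lit 152) (nat_lit 39996160376) (nat_lit 76) (nat_lit 9019067290) (nat_lit 56) (nat_lit 5) (nat_lit 58) (nat_lit 5) (nat_lit 57) (nat_lit 5) (nat_lit 462) (nat_lit 365) (nat_lit 193))) (XT.nd (nat_lit 78) (nat_lit 152) (nat_lit 0) (XT.lf (nat_lit 0) (nat_lit 12585177635) (nat_lit 152) (nat_lit 14543975436) (nat_lit 76)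 (nat_lit 23700656725) (nat_lit 56) (nat_lit 5) (nat_lit 58) (nat_lit 5) (nat_lit 57) (nat_lit 5) (nat_lit 463) (nat_lit 365) (nat_lit 192)) (XT.lf (nat_lit 0) (nat_lit 11894536239) (nat_lit 152) (nat_lit 12983919191) (nat_lit 228) (nat_lit 27038398311) (nat_lit 54) (nat_lit 5) (nat_lit 56) (nat_lit 5) (nat_lit 57) (nat_lit 5) (nat_lit 464) (nat_lit 365) (nat_lit 191))))) (XT.nd (nat_lit 312) (nat_lit 304) (nat_lit 0) (XT.nd (nat_lit 156) (nat_lit 228) (nat_lit 0) (XT.nd (nat_lit 78) (nat_lit 76) (nat_lit 0) (XT.lf (nat_lit 0) (nat_lit 37699018658) (nat_lit 228) (nat_lit 13633822422) (nat_lit 76) (nat_lit 1698913702) (nat_lit 54) (nat_lit 5) (nat_lit 57) (nat_lit 5) (nat_lit 55) (nat_lit 4) (nat_lit 465) (nat_lit 365) (nat_lit 190)) (XT.lf (nat_lit 0) (nat_lit 13675542331) (nat_lit 76) (nat_lit 37483740505) (nat_lit 152) (nat_lit 3013167876) (nat_lit 53) (nat_lit 5) (nat_lit 54) (nat_lit 5) (nat_lit 55) (nat_lit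 4) (nat_lit 466) (nat_lit 365) (nat_lit 189))) (XT.nd (nat_lit 78) (nat_lit 152) (nat_lit 0) (XT.lf (nat_lit 0) (nat_lit 9621293168) (nat_lit 152) (nat_lit 13363043621) (nat_lit 76) (nat_lit 32356217170) (nat_lit 52) (nat_lit 5) (nat_lit 54) (nat_lit 5) (nat_lit 53) (nat_lit 5) (nat_lit 467) (nat_lit 365) (nat_lit 188)) (XT.lf (nat_lit 0) (nat_lit 14835666322) (nat_lit 152) (nat_lit 7876393924) (nat_lit 228) (nat_lit 33826610388) (nat_lit 50) (nat_lit 5) (nat_lit 52) (nat_lit 5) (nat_lit 53) (nat_lit 5) (nat_lit 468) (nat_lit 365) (nat_lit 187)))) (XT.nd (nat_lit 156) (nat_lit 228) (nat_lit 0) (XT.nd (nat_lit 78) (nat_lit 76) (nat_lit 0) (XT.lf (nat_lit 0) (nat_lit 36400938476) (nat_lit 228) (nat_lit 13698473983) (nat_lit 76) (nat_lit 7667157043) (nat_lit 50) (nat_lit 5) (nat_lit 53) (nat_lit 5) (nat_lit 51) (nat_lit 4) (nat_lit 469) (nat_lit 365) (nat_lit 186)) (XT.lf (nat_lit 0) (nat_lit 15359330497) (nat_lit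 76) (nat_lit 35362159236) (nat_lit 152) (nat_lit 8303185731) (nat_lit 49) (nat_lit 5) (nat_lit 50) (nat_lit 5) (nat_lit 51) (nat_lit 4) (nat_lit 470) (nat_lit 365) (nat_lit 185))) (XT.nd (nat_lit 78) (nat_lit 152) (nat_lit 0) (XT.lf (nat_lit 0) (nat_lit 5185699625) (nat_lit 152) (nat_lit 14806187192) (nat_lit 76) (nat_lit 40323100105) (nat_lit 48) (nat_lit 5) (nat_lit 50) (nat_lit 5) (nat_lit 49) (nat_lit 5) (nat_lit 471) (nat_lit 365) (nat_lit 184)) (XT.lf (nat_lit 0) (nat_lit 15123294637) (nat_lit 152) (nat_lit 3929966375) (nat_lit 228) (nat_lit 42584053860) (nat_lit 46) (nat_lit 5) (nat_lit 48) (nat_lit 5) (nat_lit 49) (nat_lit 5) (nat_lit 472) (nat_lit 365) (nat_lit 183))))))) (XT.nd (nat_lit 44772) (nat_lit 0) (nat_lit 18468) (XT.nd (nat_lit 546) (nat_lit 456) (nat_lit 0) (XT.nd (nat_lit 234) (nat_lit 304) (nat_lit 0) (XT.nd (nat_lit 78) (nat_lit 76) (nat_lit 0) (XT.lf (nat_lit 0) (nat_lit 33604629680) (nat_lit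 228) (nat_lit 16871751231) (nat_lit 76) (nat_lit 12514898628) (nat_lit 46) (nat_lit 5) (nat_lit 49) (nat_lit 5) (nat_lit 47) (nat_lit 4) (nat_lit 473) (nat_lit 365) (nat_lit 182)) (XT.nd (nat_lit 78) (nat_lit 0) (nat_lit 0) (XT.lf (nat_lit 0) (nat_lit 13883674211) (nat_lit 76) (nat_lit 34876899147) (nat_lit 152) (nat_lit 15620249053) (nat_lit 45) (nat_lit 5) (nat_lit 46) (nat_lit 5) (nat_lit 47) (nat_lit 4) (nat_lit 474) (nat_lit 365) (nat_lit 181)) (XT.lf (nat_lit 0) (nat_lit 45899574834) (nat_lit 76) (nat_lit 18637706097) (nat_lit 152) (nat_lit 1269788343) (nat_lit 45) (nat_lit 5) (nat_lit 46) (nat_lit 5) (nat_lit 47) (nat_lit 4) (nat_lit 475) (nat_lit 365) (nat_lit 180)))) (XT.nd (nat_lit 156) (nat_lit 76) (nat_lit 0) (XT.nd (nat_lit 78) (nat_lit 0) (nat_lit 0) (XT.lf (nat_lit 0) (nat_lit 11690197393) (nat_lit 152) (nat_lit 1665507570) (nat_lit 228) (nat_lit 53913257386) (nat_lit 42) (nat_lit 5) (nat_lit 44)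 (nat_lit 5) (nat_lit 45) (nat_lit 5) (nat_lit 476) (nat_lit 365) (nat_lit 179)) (XT.lf (nat_lit 0) (nat_lit 28745299770) (nat_lit 228) (nat_lit 24299275513) (nat_lit 76) (nat_lit 15719234272) (nat_lit 42) (nat_lit 5) (nat_lit 45) (nat_lit 5) (nat_lit 43) (nat_lit 4) (nat_lit 477) (nat_lit 365) (nat_lit 178))) (XT.nd (nat_lit 78) (nat_lit 0) (nat_lit 0) (XT.lf (nat_lit 0) (nat_lit 8051549400) (nat_lit 76) (nat_lit 36634851142) (nat_lit 152) (nat_lit 25614407336) (nat_lit 41) (nat_lit 5) (nat_lit 42) (nat_lit 5) (nat_lit 43) (nat_lit 4) (nat_lit 478) (nat_lit 365) (nat_lit 177)) (XT.lf (nat_lit 0) (nat_lit 41863411852) (nat_lit 76) (nat_lit 19483674510) (nat_lit 152) (nat_lit 10529589466) (nat_lit 41) (nat_lit 5) (nat_lit 42) (nat_lit 5) (nat_lit 43) (nat_lit 4) (nat_lit 479) (nat_lit 365) (nat_lit 176))))) (XT.nd (nat_lit 234) (nat_lit 228) (nat_lit 0) (XT.nd (nat_lit 78) (nat_lit 0) (nat_lit 0) (XT.lf (nat_lit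 0) (nat_lit 3196593690) (nat_lit 152) (nat_lit 1740242440) (nat_lit 228) (nat_lit 68560736288) (nat_lit 38) (nat_lit 5) (nat_lit 40) (nat_lit 5) (nat_lit 41) (nat_lit 5) (nat_lit 480) (nat_lit 365) (nat_lit 175)) (XT.nd (nat_lit 78) (nat_lit 0) (nat_lit 0) (XT.lf (nat_lit 0) (nat_lit 21116711024) (nat_lit 228) (nat_lit 37413684075) (nat_lit 76) (nat_lit 16619740698) (nat_lit 38) (nat_lit 5) (nat_lit 41) (nat_lit 5) (nat_lit 39) (nat_lit 4) (nat_lit 481) (nat_lit 365) (nat_lit 174)) (XT.lf (nat_lit 0) (nat_lit 37795392598) (nat_lit 228) (nat_lit 3564249852) (nat_lit 76) (nat_lit 35492231524) (nat_lit 38) (nat_lit 5) (nat_lit 41) (nat_lit 5) (nat_lit 39) (nat_lit 4) (nat_lit 482) (nat_lit 365) (nat_lit 173)))) (XT.nd (nat_lit 156) (nat_lit 152) (nat_lit 0) (XT.nd (nat_lit 78) (nat_lit 0) (nat_lit 0) (XT.lf (nat_lit 0) (nat_lit 31916433975) (nat_lit 76) (nat_lit 23361092496) (nat_lit 152) (nat_lit 23318045275) (nat_lit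 37) (nat_lit 5) (nat_lit 38) (nat_lit 5) (nat_lit 39) (nat_lit 4) (nat_lit 483) (nat_lit 365) (nat_lit 172)) (XT.lf (nat_lit 0) (nat_lit 68527632939) (nat_lit 76) (nat_lit 4788815942) (nat_lit 152) (nat_lit 7074162032) (nat_lit 37) (nat_lit 5) (nat_lit 38) (nat_lit 5) (nat_lit 39) (nat_lit 4) (nat_lit 484) (nat_lit 365) (nat_lit 171))) (XT.nd (nat_lit 78) (nat_lit 0) (nat_lit 0) (XT.lf (nat_lit 0) (nat_lit 9840350775) (nat_lit 152) (nat_lit 57997237673) (nat_lit 76) (nat_lit 14387975413) (nat_lit 35) (nat_lit 5) (nat_lit 37) (nat_lit 5) (nat_lit 36) (nat_lit 4) (nat_lit 485) (nat_lit 365) (nat_lit 170)) (XT.lf (nat_lit 0) (nat_lit 27284920937) (nat_lit 152) (nat_lit 22591910731) (nat_lit 76) (nat_lit 34231688507) (nat_lit 35) (nat_lit 5) (nat_lit 37) (nat_lit 5) (nat_lit 36) (nat_lit 4) (nat_lit 486) (nat_lit 365) (nat_lit 169)))))) (XT.nd (nat_lit 546) (nat_lit 836) (nat_lit 0) (XT.nd (nat_lit 234) (nat_lit 0)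 (nat_lit 76) (XT.nd (nat_lit 78) (nat_lit 0) (nat_lit 0) (XT.lf (nat_lit 0) (nat_lit 1022250700) (nat_lit 1140) (nat_lit 1823874023) (nat_lit 1140) (nat_lit 1823874023) (nat_lit 289) (nat_lit 3) (nat_lit 304) (nat_lit 3) (nat_lit 304) (nat_lit 5) (nat_lit 366) (nat_lit 366) (nat_lit 288)) (XT.nd (nat_lit 78) (nat_lit 0) (nat_lit 76) (XT.lf (nat_lit 76) (nat_lit 917333142) (nat_lit 0) (nat_lit 1981364281) (nat_lit 1140) (nat_lit 6556402818) (nat_lit 290) (nat_lit 5) (nat_lit 289) (nat_lit 3) (nat_lit 304) (nat_lit 5) (nat_lit 367) (nat_lit 366) (nat_lit 287)) (XT.lf (nat_lit 0) (nat_lit 3801604611) (nat_lit 1064) (nat_lit 3914292272) (nat_lit 1140) (nat_lit 1857078003) (nat_lit 290) (nat_lit 5) (nat_lit 304) (nat_lit 5) (nat_lit 305) (nat_lit 5) (nat_lit 368) (nat_lit 366) (nat_lit 286)))) (XT.nd (nat_lit 156) (nat_lit 0) (nat_lit 76) (XT.nd (nat_lit 78) (nat_lit 0) (nat_lit 76) (XT.lf (nat_lit 76) (nat_lit 827105029)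 (nat_lit 0) (nat_lit 3901178716) (nat_lit 1140) (nat_lit 4966212522) (nat_lit 291) (nat_lit 5) (nat_lit 290) (nat_lit 5) (nat_lit 305) (nat_lit 5) (nat_lit 369) (nat_lit 366) (nat_lit 285)) (XT.lf (nat_lit 0) (nat_lit 5692926789) (nat_lit 1064) (nat_lit 4046329136) (nat_lit 1140) (nat_lit 80113178) (nat_lit 291) (nat_lit 5) (nat_lit 305) (nat_lit 5) (nat_lit 306) (nat_lit 5) (nat_lit 370) (nat_lit 366) (nat_lit 284))) (XT.nd (nat_lit 78) (nat_lit 0) (nat_lit 0) (XT.lf (nat_lit 76) (nat_lit 880271194) (nat_lit 0) (nat_lit 5824176169) (nat_lit 1140) (nat_lit 3243013019) (nat_lit 292) (nat_lit 5) (nat_lit 291) (nat_lit 5) (nat_lit 306) (nat_lit 5) (nat_lit 371) (nat_lit 366) (nat_lit 283)) (XT.lf (nat_lit 76) (nat_lit 6020142945) (nat_lit 0) (nat_lit 1738562649) (nat_lit 1140) (nat_lit 2320327147) (nat_lit 292) (nat_lit 5) (nat_lit 291) (nat_lit 5) (nat_lit 306) (nat_lit 5) (nat_lit 372) (nat_lit 366) (nat_lit 282)))))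 (XT.nd (nat_lit 312) (nat_lit 0) (nat_lit 0) (XT.nd (nat_lit 156) (nat_lit 1064) (nat_lit 0) (XT.nd (nat_lit 78) (nat_lit 0) (nat_lit 0) (XT.lf (nat_lit 76) (nat_lit 1079070580) (nat_lit 0) (nat_lit 7772096999) (nat_lit 1140) (nat_lit 1363197221) (nat_lit 293) (nat_lit 5) (nat_lit 292) (nat_lit 5) (nat_lit 307) (nat_lit 5) (nat_lit 373) (nat_lit 366) (nat_lit 281)) (XT.lf (nat_lit 76) (nat_lit 6419087440) (nat_lit 0) (nat_lit 3588442970) (nat_lit 1140) (nat_lit 345302123) (nat_lit 293) (nat_lit 5) (nat_lit 292) (nat_lit 5) (nat_lit 307) (nat_lit 5) (nat_lit 374) (nat_lit 366) (nat_lit 280))) (XT.nd (nat_lit 78) (nat_lit 0) (nat_lit 0) (XT.lf (nat_lit 0) (nat_lit 683953487) (nat_lit 1140) (nat_lit 9075660419) (nat_lit 1216) (nat_lit 735810273) (nat_lit 278) (nat_lit 5) (nat_lit 293) (nat_lit 5) (nat_lit 294) (nat_lit 5) (nat_lit 375) (nat_lit 366) (nat_lit 279)) (XT.lf (nat_lit 0) (nat_lit 1787082100) (nat_lit 1140)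 (nat_lit 3684362003) (nat_lit 1216) (nat_lit 5169257556) (nat_lit 278) (nat_lit 5) (nat_lit 293) (nat_lit 5) (nat_lit 294) (nat_lit 5) (nat_lit 376) (nat_lit 366) (nat_lit 278)))) (XT.nd (nat_lit 156) (nat_lit 0) (nat_lit 76) (XT.nd (nat_lit 78) (nat_lit 0) (nat_lit 76) (XT.lf (nat_lit 76) (nat_lit 1887611752) (nat_lit 0) (nat_lit 1028876550) (nat_lit 1216) (nat_lit 7874062109) (nat_lit 279) (nat_lit 5) (nat_lit 278) (nat_lit 5) (nat_lit 294) (nat_lit 5) (nat_lit 377) (nat_lit 366) (nat_lit 277)) (XT.lf (nat_lit 0) (nat_lit 4127105265) (nat_lit 1140) (nat_lit 3294498778) (nat_lit 1216) (nat_lit 3521878941) (nat_lit 279) (nat_lit 5) (nat_lit 294) (nat_lit 5) (nat_lit 295) (nat_lit 5) (nat_lit 378) (nat_lit 366) (nat_lit 276))) (XT.nd (nat_lit 78) (nat_lit 0) (nat_lit 76) (XT.lf (nat_lit 76) (nat_lit 2502860000) (nat_lit 0) (nat_lit 2881795344) (nat_lit 1216) (nat_lit 5716037725) (nat_lit 280) (nat_lit 5) (nat_lit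 279) (nat_lit 5) (nat_lit 295) (nat_lit 5) (nat_lit 379) (nat_lit 366) (nat_lit 275)) (XT.lf (nat_lit 0) (nat_lit 6707713064) (nat_lit 1140) (nat_lit 2756087310) (nat_lit 1216) (nat_lit 1797993394) (nat_lit 280) (nat_lit 5) (nat_lit 295) (nat_lit 5) (nat_lit 296) (nat_lit 5) (nat_lit 380) (nat_lit 366) (nat_lit 274))))))))
noncomputable def xc162 : XT := (XT.nd (nat_lit 2184) (nat_lit 5016) (nat_lit 0) (XT.nd (nat_lit 1092) (nat_lit 3724) (nat_lit 0) (XT.nd (nat_lit 546) (nat_lit 2356) (nat_lit 0) (XT.nd (nat_lit 234) (nat_lit 1976) (nat_lit 0) (XT.nd (nat_lit 78) (nat_lit 1064) (nat_lit 0) (XT.lf (nat_lit 76) (nat_lit 3278327828) (nat_lit 0) (nat_lit 4829789102) (nat_lit 1216) (nat_lit 3318488442) (nat_lit 281) (nat_lit 5) (nat_lit 280) (nat_lit 5) (nat_lit 296) (nat_lit 5) (nat_lit 381) (nat_lit 366) (nat_lit 273)) (XT.nd (nat_lit 78) (nat_lit 1064) (nat_lit 0) (XT.lf (nat_lit 76) (nat_lit 9532426849) (nat_lit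 0) (nat_lit 24026274) (nat_lit 1216) (nat_lit 2039737893) (nat_lit 281) (nat_lit 5) (nat_lit 280) (nat_lit 5) (nat_lit 296) (nat_lit 5) (nat_lit 382) (nat_lit 366) (nat_lit 272)) (XT.lf (nat_lit 0) (nat_lit 4220277481) (nat_lit 1140) (nat_lit 6894645918) (nat_lit 1216) (nat_lit 653947397) (nat_lit 266) (nat_lit 5) (nat_lit 281) (nat_lit 5) (nat_lit 282) (nat_lit 5) (nat_lit 383) (nat_lit 366) (nat_lit 271)))) (XT.nd (nat_lit 156) (nat_lit 684) (nat_lit 0) (XT.nd (nat_lit 78) (nat_lit 1216) (nat_lit 0) (XT.lf (nat_lit 0) (nat_lit 758608616) (nat_lit 1216) (nat_lit 1237096180) (nat_lit 76) (nat_lit 9950801297) (nat_lit 265) (nat_lit 5) (nat_lit 281) (nat_lit 5) (nat_lit 266) (nat_lit 5) (nat_lit 384) (nat_lit 366) (nat_lit 270)) (XT.lf (nat_lit 0) (nat_lit 2261295861) (nat_lit 1292) (nat_lit 6814449057) (nat_lit 76) (nat_lit 3051710826) (nat_lit 249) (nat_lit 5) (nat_lit 266) (nat_lit 5) (nat_lit 250) (nat_lit 5)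 (nat_lit 385) (nat_lit 366) (nat_lit 269))) (XT.nd (nat_lit 78) (nat_lit 684) (nat_lit 0) (XT.lf (nat_lit 0) (nat_lit 3821498834) (nat_lit 1292) (nat_lit 266550355) (nat_lit 76) (nat_lit 8225417938) (nat_lit 249) (nat_lit 5) (nat_lit 266) (nat_lit 5) (nat_lit 250) (nat_lit 5) (nat_lit 386) (nat_lit 366) (nat_lit 268)) (XT.lf (nat_lit 0) (nat_lit 5483212863) (nat_lit 760) (nat_lit 5925771337) (nat_lit 76) (nat_lit 1094439616) (nat_lit 240) (nat_lit 5) (nat_lit 250) (nat_lit 5) (nat_lit 241) (nat_lit 5) (nat_lit 387) (nat_lit 366) (nat_lit 267))))) (XT.nd (nat_lit 234) (nat_lit 1140) (nat_lit 0) (XT.nd (nat_lit 78) (nat_lit 608) (nat_lit 0) (XT.lf (nat_lit 0) (nat_lit 892493779) (nat_lit 608) (nat_lit 6335108411) (nat_lit 684) (nat_lit 5470498233) (nat_lit 232) (nat_lit 5) (nat_lit 240) (nat_lit 5) (nat_lit 241) (nat_lit 5) (nat_lit 388) (nat_lit 366) (nat_lit 266)) (XT.nd (nat_lit 78) (nat_lit 608) (nat_lit 0) (XT.lf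 (nat_lit 0) (nat_lit 8018889905) (nat_lit 608) (nat_lit 1046702583) (nat_lit 684) (nat_lit 3831792522) (nat_lit 232) (nat_lit 5) (nat_lit 240) (nat_lit 5) (nat_lit 241) (nat_lit 5) (nat_lit 389) (nat_lit 366) (nat_lit 265)) (XT.lf (nat_lit 0) (nat_lit 2239918560) (nat_lit 608) (nat_lit 8764612133) (nat_lit 684) (nat_lit 2096748791) (nat_lit 224) (nat_lit 5) (nat_lit 232) (nat_lit 5) (nat_lit 233) (nat_lit 5) (nat_lit 390) (nat_lit 366) (nat_lit 264)))) (XT.nd (nat_lit 156) (nat_lit 532) (nat_lit 0) (XT.nd (nat_lit 78) (nat_lit 608) (nat_lit 0) (XT.lf (nat_lit 0) (nat_lit 9643573868) (nat_lit 608) (nat_lit 3399920359) (nat_lit 684) (nat_lit 266546279) (nat_lit 224) (nat_lit 5) (nat_lit 232) (nat_lit 5) (nat_lit 233) (nat_lit 5) (nat_lit 391) (nat_lit 366) (nat_lit 263)) (XT.lf (nat_lit 0) (nat_lit 1626979296) (nat_lit 608) (nat_lit 9759980423) (nat_lit 76) (nat_lit 2136442973) (nat_lit 216) (nat_lit 5) (nat_lit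 224) (nat_lit 5) (nat_lit 217) (nat_lit 5) (nat_lit 392) (nat_lit 366) (nat_lit 262))) (XT.nd (nat_lit 78) (nat_lit 532) (nat_lit 0) (XT.lf (nat_lit 0) (nat_lit 3626011745) (nat_lit 608) (nat_lit 2305273409) (nat_lit 76) (nat_lit 7810184634) (nat_lit 216) (nat_lit 5) (nat_lit 224) (nat_lit 5) (nat_lit 217) (nat_lit 5) (nat_lit 393) (nat_lit 366) (nat_lit 261)) (XT.lf (nat_lit 0) (nat_lit 5462268216) (nat_lit 532) (nat_lit 258753757) (nat_lit 608) (nat_lit 8243981545) (nat_lit 209) (nat_lit 5) (nat_lit 216) (nat_lit 5) (nat_lit 217) (nat_lit 5) (nat_lit 394) (nat_lit 366) (nat_lit 260)))))) (XT.nd (nat_lit 546) (nat_lit 1748) (nat_lit 0) (XT.nd (nat_lit 234) (nat_lit 988) (nat_lit 0) (XT.nd (nat_lit 78) (nat_lit 988) (nat_lit 0) (XT.lf (nat_lit 0) (nat_lit 7939873261) (nat_lit 608) (nat_lit 756064644) (nat_lit 76) (nat_lit 5497480316) (nat_lit 209) (nat_lit 5) (nat_lit 217) (nat_lit 5) (nat_lit 210) (nat_lit 5)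 (nat_lit 395) (nat_lit 366) (nat_lit 259)) (XT.nd (nat_lit 78) (nat_lit 532) (nat_lit 0) (XT.lf (nat_lit 0) (nat_lit 7346613966) (nat_lit 456) (nat_lit 2936135033) (nat_lit 532) (nat_lit 4144217147) (nat_lit 203) (nat_lit 5) (nat_lit 209) (nat_lit 5) (nat_lit 210) (nat_lit 5) (nat_lit 396) (nat_lit 366) (nat_lit 258)) (XT.lf (nat_lit 0) (nat_lit 1014015116) (nat_lit 532) (nat_lit 11712713303) (nat_lit 608) (nat_lit 1939871984) (nat_lit 196) (nat_lit 5) (nat_lit 203) (nat_lit 5) (nat_lit 204) (nat_lit 5) (nat_lit 397) (nat_lit 366) (nat_lit 257)))) (XT.nd (nat_lit 156) (nat_lit 456) (nat_lit 0) (XT.nd (nat_lit 78) (nat_lit 456) (nat_lit 0) (XT.lf (nat_lit 0) (nat_lit 410113580) (nat_lit 608) (nat_lit 5465491815) (nat_lit 76) (nat_lit 9035148277) (nat_lit 195) (nat_lit 5) (nat_lit 203) (nat_lit 5) (nat_lit 196) (nat_lit 5) (nat_lit 398) (nat_lit 366) (nat_lit 256)) (XT.lf (nat_lit 0) (nat_lit 2807241261) (nat_lit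 532) (nat_lit 12173768561) (nat_lit 76) (nat_lit 180180596) (nat_lit 189) (nat_lit 5) (nat_lit 196) (nat_lit 5) (nat_lit 190) (nat_lit 5) (nat_lit 399) (nat_lit 366) (nat_lit 255))) (XT.nd (nat_lit 78) (nat_lit 456) (nat_lit 0) (XT.lf (nat_lit 0) (nat_lit 5375573365) (nat_lit 532) (nat_lit 3687594324) (nat_lit 76) (nat_lit 6352997783) (nat_lit 189) (nat_lit 5) (nat_lit 196) (nat_lit 5) (nat_lit 190) (nat_lit 5) (nat_lit 400) (nat_lit 366) (nat_lit 254)) (XT.lf (nat_lit 0) (nat_lit 5136553931) (nat_lit 456) (nat_lit 2919582139) (nat_lit 532) (nat_lit 7621602098) (nat_lit 183) (nat_lit 5) (nat_lit 189) (nat_lit 5) (nat_lit 190) (nat_lit 5) (nat_lit 401) (nat_lit 366) (nat_lit 253))))) (XT.nd (nat_lit 234) (nat_lit 760) (nat_lit 0) (XT.nd (nat_lit 78) (nat_lit 988) (nat_lit 0) (XT.lf (nat_lit 0) (nat_lit 10873516341) (nat_lit 532) (nat_lit 1695228064) (nat_lit 76) (nat_lit 3376725318) (nat_lit 183) (nat_lit 5) (nat_lit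 190) (nat_lit 5) (nat_lit 184) (nat_lit 5) (nat_lit 402) (nat_lit 366) (nat_lit 252)) (XT.nd (nat_lit 78) (nat_lit 532) (nat_lit 0) (XT.lf (nat_lit 0) (nat_lit 7517312814) (nat_lit 456) (nat_lit 6345711564) (nat_lit 532) (nat_lit 2355584246) (nat_lit 177) (nat_lit 5) (nat_lit 183) (nat_lit 5) (nat_lit 184) (nat_lit 5) (nat_lit 403) (nat_lit 366) (nat_lit 251)) (XT.lf (nat_lit 0) (nat_lit 443424497) (nat_lit 532) (nat_lit 15969594247) (nat_lit 76) (nat_lit 86505421) (nat_lit 170) (nat_lit 5) (nat_lit 177) (nat_lit 5) (nat_lit 171) (nat_lit 5) (nat_lit 404) (nat_lit 366) (nat_lit 250)))) (XT.nd (nat_lit 156) (nat_lit 380) (nat_lit 0) (XT.nd (nat_lit 78) (nat_lit 380) (nat_lit 0) (XT.lf (nat_lit 0) (nat_lit 3417365389) (nat_lit 532) (nat_lit 6673682761) (nat_lit 76) (nat_lit 6692973426) (nat_lit 170) (nat_lit 5) (nat_lit 177) (nat_lit 5) (nat_lit 171) (nat_lit 5) (nat_lit 405) (nat_lit 366) (nat_lit 249)) (XT.lf (nat_lit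 0) (nat_lit 2942118744) (nat_lit 380) (nat_lit 3553815346) (nat_lit 456) (nat_lit 10580660721) (nat_lit 165) (nat_lit 5) (nat_lit 170) (nat_lit 5) (nat_lit 171) (nat_lit 5) (nat_lit 406) (nat_lit 366) (nat_lit 248))) (XT.nd (nat_lit 78) (nat_lit 380) (nat_lit 0) (XT.lf (nat_lit 0) (nat_lit 9752794332) (nat_lit 456) (nat_lit 4440542246) (nat_lit 76) (nat_lit 3182033728) (nat_lit 165) (nat_lit 5) (nat_lit 171) (nat_lit 5) (nat_lit 166) (nat_lit 5) (nat_lit 407) (nat_lit 366) (nat_lit 247)) (XT.lf (nat_lit 0) (nat_lit 5602240157) (nat_lit 380) (nat_lit 7581840710) (nat_lit 456) (nat_lit 4496729592) (nat_lit 160) (nat_lit 5) (nat_lit 165) (nat_lit 5) (nat_lit 166) (nat_lit 5) (nat_lit 408) (nat_lit 366) (nat_lit 246))))))) (XT.nd (nat_lit 1092) (nat_lit 2128) (nat_lit 0) (XT.nd (nat_lit 546) (nat_lit 1292) (nat_lit 0) (XT.nd (nat_lit 234) (nat_lit 760) (nat_lit 0) (XT.nd (nat_lit 78) (nat_lit 836) (nat_lit 0) (XT.lf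 (nat_lit 0) (nat_lit 16021387643) (nat_lit 380) (nat_lit 729646664) (nat_lit 456) (nat_lit 1243400579) (nat_lit 160) (nat_lit 5) (nat_lit 165) (nat_lit 5) (nat_lit 166) (nat_lit 5) (nat_lit 409) (nat_lit 366) (nat_lit 245)) (XT.nd (nat_lit 78) (nat_lit 380) (nat_lit 0) (XT.lf (nat_lit 0) (nat_lit 2198682286) (nat_lit 456) (nat_lit 9809725090) (nat_lit 76) (nat_lit 6304487272) (nat_lit 154) (nat_lit 5) (nat_lit 160) (nat_lit 5) (nat_lit 155) (nat_lit 5) (nat_lit 410) (nat_lit 366) (nat_lit 244)) (XT.lf (nat_lit 0) (nat_lit 671293277) (nat_lit 380) (nat_lit 5069821669) (nat_lit 456) (nat_lit 12898764249) (nat_lit 149) (nat_lit 5) (nat_lit 154) (nat_lit 5) (nat_lit 155) (nat_lit 5) (nat_lit 411) (nat_lit 366) (nat_lit 243)))) (XT.nd (nat_lit 156) (nat_lit 456) (nat_lit 0) (XT.nd (nat_lit 78) (nat_lit 304) (nat_lit 0) (XT.lf (nat_lit 0) (nat_lit 9498254999) (nat_lit 456) (nat_lit 7342849033) (nat_lit 76) (nat_lit 2132318809)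 (nat_lit 149) (nat_lit 5) (nat_lit 155) (nat_lit 5) (nat_lit 150) (nat_lit 5) (nat_lit 412) (nat_lit 366) (nat_lit 242)) (XT.lf (nat_lit 0) (nat_lit 3606267950) (nat_lit 304) (nat_lit 9835470199) (nat_lit 380) (nat_lit 5873028298) (nat_lit 145) (nat_lit 5) (nat_lit 149) (nat_lit 5) (nat_lit 150) (nat_lit 5) (nat_lit 413) (nat_lit 366) (nat_lit 241))) (XT.nd (nat_lit 78) (nat_lit 456) (nat_lit 0) (XT.lf (nat_lit 0) (nat_lit 15018965236) (nat_lit 304) (nat_lit 2547654928) (nat_lit 380) (nat_lit 2097839811) (nat_lit 145) (nat_lit 5) (nat_lit 149) (nat_lit 5) (nat_lit 150) (nat_lit 5) (nat_lit 414) (nat_lit 366) (nat_lit 240)) (XT.lf (nat_lit 0) (nat_lit 1859123183) (nat_lit 456) (nat_lit 13220242746) (nat_lit 76) (nat_lit 4941660512) (nat_lit 139) (nat_lit 5) (nat_lit 145) (nat_lit 5) (nat_lit 140) (nat_lit 5) (nat_lit 415) (nat_lit 366) (nat_lit 239))))) (XT.nd (nat_lit 234) (nat_lit 684) (nat_lit 0) (XT.nd (nat_lit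 78) (nat_lit 608) (nat_lit 0) (XT.lf (nat_lit 0) (nat_lit 5954518350) (nat_lit 456) (nat_lit 1762978481) (nat_lit 76) (nat_lit 12668315555) (nat_lit 139) (nat_lit 5) (nat_lit 145) (nat_lit 5) (nat_lit 140) (nat_lit 5) (nat_lit 416) (nat_lit 366) (nat_lit 238)) (XT.nd (nat_lit 78) (nat_lit 304) (nat_lit 0) (XT.lf (nat_lit 0) (nat_lit 10222614810) (nat_lit 304) (nat_lit 38027200) (nat_lit 380) (nat_lit 10498266070) (nat_lit 135) (nat_lit 5) (nat_lit 139) (nat_lit 5) (nat_lit 140) (nat_lit 5) (nat_lit 417) (nat_lit 366) (nat_lit 237)) (XT.lf (nat_lit 0) (nat_lit 1397692298) (nat_lit 304) (nat_lit 13395059124) (nat_lit 380) (nat_lit 6347543272) (nat_lit 131) (nat_lit 5) (nat_lit 135) (nat_lit 5) (nat_lit 136) (nat_lit 5) (nat_lit 418) (nat_lit 366) (nat_lit 236)))) (XT.nd (nat_lit 156) (nat_lit 304) (nat_lit 0) (XT.nd (nat_lit 78) (nat_lit 380) (nat_lit 0) (XT.lf (nat_lit 0) (nat_lit 13890454773) (nat_lit 304) (nat_lit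 5667013704) (nat_lit 380) (nat_lit 1972757147) (nat_lit 131) (nat_lit 5) (nat_lit 135) (nat_lit 5) (nat_lit 136) (nat_lit 5) (nat_lit 419) (nat_lit 366) (nat_lit 235)) (XT.lf (nat_lit 0) (nat_lit 2543545020) (nat_lit 380) (nat_lit 17070257966) (nat_lit 76) (nat_lit 2315531711) (nat_lit 126) (nat_lit 5) (nat_lit 131) (nat_lit 5) (nat_lit 127) (nat_lit 5) (nat_lit 420) (nat_lit 366) (nat_lit 234))) (XT.nd (nat_lit 78) (nat_lit 304) (nat_lit 0) (XT.lf (nat_lit 0) (nat_lit 7279881691) (nat_lit 380) (nat_lit 4539726727) (nat_lit 76) (nat_lit 10516498656) (nat_lit 126) (nat_lit 5) (nat_lit 131) (nat_lit 5) (nat_lit 127) (nat_lit 5) (nat_lit 421) (nat_lit 366) (nat_lit 233)) (XT.lf (nat_lit 0) (nat_lit 8518662356) (nat_lit 304) (nat_lit 3711995147) (nat_lit 380) (nat_lit 10522256465) (nat_lit 122) (nat_lit 5) (nat_lit 126) (nat_lit 5) (nat_lit 127) (nat_lit 5) (nat_lit 422) (nat_lit 366) (nat_lit 232)))))) (XT.nd (nat_lit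 546) (nat_lit 988) (nat_lit 0) (XT.nd (nat_lit 234) (nat_lit 532) (nat_lit 0) (XT.nd (nat_lit 78) (nat_lit 608) (nat_lit 0) (XT.lf (nat_lit 0) (nat_lit 17411402809) (nat_lit 380) (nat_lit 1178417817) (nat_lit 76) (nat_lit 4589962824) (nat_lit 122) (nat_lit 5) (nat_lit 127) (nat_lit 5) (nat_lit 123) (nat_lit 5) (nat_lit 423) (nat_lit 366) (nat_lit 231)) (XT.nd (nat_lit 78) (nat_lit 380) (nat_lit 0) (XT.lf (nat_lit 0) (nat_lit 12461541364) (nat_lit 228) (nat_lit 10433403053) (nat_lit 304) (nat_lit 720095095) (nat_lit 119) (nat_lit 5) (nat_lit 122) (nat_lit 5) (nat_lit 123) (nat_lit 5) (nat_lit 424) (nat_lit 366) (nat_lit 230)) (XT.lf (nat_lit 0) (nat_lit 2462724216) (nat_lit 304) (nat_lit 1956068187) (nat_lit 380) (nat_lit 19642473620) (nat_lit 114) (nat_lit 5) (nat_lit 118) (nat_lit 5) (nat_lit 119) (nat_lit 5) (nat_lit 425) (nat_lit 366) (nat_lit 229)))) (XT.nd (nat_lit 156) (nat_lit 304) (nat_lit 0) (XT.nd (nat_lit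 78) (nat_lit 228) (nat_lit 0) (XT.lf (nat_lit 0) (nat_lit 9867209945) (nat_lit 380) (nat_lit 7888907307) (nat_lit 76) (nat_lit 6759454659) (nat_lit 114) (nat_lit 5) (nat_lit 119) (nat_lit 5) (nat_lit 115) (nat_lit 5) (nat_lit 426) (nat_lit 366) (nat_lit 228)) (XT.lf (nat_lit 0) (nat_lit 6322331366) (nat_lit 228) (nat_lit 9228114956) (nat_lit 304) (nat_lit 9430921188) (nat_lit 111) (nat_lit 5) (nat_lit 114) (nat_lit 5) (nat_lit 115) (nat_lit 5) (nat_lit 427) (nat_lit 366) (nat_lit 227))) (XT.nd (nat_lit 78) (nat_lit 304) (nat_lit 0) (XT.lf (nat_lit 0) (nat_lit 21108066966) (nat_lit 228) (nat_lit 367125777) (nat_lit 304) (nat_lit 3983815323) (nat_lit 111) (nat_lit 5) (nat_lit 114) (nat_lit 5) (nat_lit 115) (nat_lit 5) (nat_lit 428) (nat_lit 366) (nat_lit 226)) (XT.lf (nat_lit 0) (nat_lit 1773339252) (nat_lit 304) (nat_lit 15469472835) (nat_lit 76) (nat_lit 8702346689) (nat_lit 107) (nat_lit 5) (nat_lit 111) (nat_lit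 5) (nat_lit 108) (nat_lit 5) (nat_lit 429) (nat_lit 366) (nat_lit 225))))) (XT.nd (nat_lit 312) (nat_lit 532) (nat_lit 0) (XT.nd (nat_lit 156) (nat_lit 228) (nat_lit 0) (XT.nd (nat_lit 78) (nat_lit 228) (nat_lit 0) (XT.lf (nat_lit 0) (nat_lit 7662735113) (nat_lit 304) (nat_lit 665193255) (nat_lit 76) (nat_lit 18115595761) (nat_lit 107) (nat_lit 5) (nat_lit 111) (nat_lit 5) (nat_lit 108) (nat_lit 5) (nat_lit 430) (nat_lit 366) (nat_lit 224)) (XT.lf (nat_lit 0) (nat_lit 13873075056) (nat_lit 304) (nat_lit 12102206827) (nat_lit 76) (nat_lit 977232006) (nat_lit 104) (nat_lit 5) (nat_lit 108) (nat_lit 5) (nat_lit 105) (nat_lit 5) (nat_lit 431) (nat_lit 366) (nat_lit 223))) (XT.nd (nat_lit 78) (nat_lit 0) (nat_lit 0) (XT.lf (nat_lit 0) (nat_lit 3337865173) (nat_lit 228) (nat_lit 17045087812) (nat_lit 304) (nat_lit 7090424800) (nat_lit 101) (nat_lit 5) (nat_lit 104) (nat_lit 5) (nat_lit 105) (nat_lit 5) (nat_lit 432)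 (nat_lit 366) (nat_lit 222)) (XT.lf (nat_lit 0) (nat_lit 19476267254) (nat_lit 228) (nat_lit 7726083630) (nat_lit 304) (nat_lit 804091245) (nat_lit 101) (nat_lit 5) (nat_lit 104) (nat_lit 5) (nat_lit 105) (nat_lit 5) (nat_lit 433) (nat_lit 366) (nat_lit 221)))) (XT.nd (nat_lit 156) (nat_lit 228) (nat_lit 0) (XT.nd (nat_lit 78) (nat_lit 0) (nat_lit 0) (XT.lf (nat_lit 0) (nat_lit 5644856312) (nat_lit 304) (nat_lit 20946253130) (nat_lit 76) (nat_lit 1960214311) (nat_lit 97) (nat_lit 5) (nat_lit 101) (nat_lit 5) (nat_lit 98) (nat_lit 5) (nat_lit 434) (nat_lit 366) (nat_lit 220)) (XT.lf (nat_lit 0) (nat_lit 12426827210) (nat_lit 304) (nat_lit 4808840130) (nat_lit 76) (nat_lit 11871975291) (nat_lit 97) (nat_lit 5) (nat_lit 101) (nat_lit 5) (nat_lit 98) (nat_lit 5) (nat_lit 435) (nat_lit 366) (nat_lit 219))) (XT.nd (nat_lit 78) (nat_lit 0) (nat_lit 0) (XT.lf (nat_lit 0) (nat_lit 12035120383) (nat_lit 228) (nat_lit 7485281695)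 (nat_lit 304) (nat_lit 10157005752) (nat_lit 94) (nat_lit 5) (nat_lit 97) (nat_lit 5) (nat_lit 98) (nat_lit 5) (nat_lit 436) (nat_lit 366) (nat_lit 218)) (XT.lf (nat_lit 0) (nat_lit 26892920881) (nat_lit 304) (nat_lit 817378390) (nat_lit 76) (nat_lit 2551983683) (nat_lit 94) (nat_lit 5) (nat_lit 98) (nat_lit 5) (nat_lit 95) (nat_lit 5) (nat_lit 437) (nat_lit 366) (nat_lit 217))))))))
noncomputable def xc163 : XT := (XT.nd (nat_lit 2262) (nat_lit 1444) (nat_lit 0) (XT.nd (nat_lit 1092) (nat_lit 1368) (nat_lit 0) (XT.nd (nat_lit 546) (nat_lit 760) (nat_lit 0) (XT.nd (nat_lit 234) (nat_lit 456) (nat_lit 0) (XT.nd (nat_lit 78) (nat_lit 228) (nat_lit 0) (XT.lf (nat_lit 0) (nat_lit 3781369833) (nat_lit 228) (nat_lit 14141980154) (nat_lit 76) (nat_lit 12933406806) (nat_lit 91) (nat_lit 5) (nat_lit 94) (nat_lit 5) (nat_lit 92) (nat_lit 5) (nat_lit 438) (nat_lit 366) (nat_lit 216)) (XT.nd (nat_lit 78) (nat_lit 0) (nat_lit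 0) (XT.lf (nat_lit 0) (nat_lit 3340434499) (nat_lit 228) (nat_lit 7771667544) (nat_lit 304) (nat_lit 20354967007) (nat_lit 88) (nat_lit 5) (nat_lit 91) (nat_lit 5) (nat_lit 92) (nat_lit 5) (nat_lit 439) (nat_lit 366) (nat_lit 215)) (XT.lf (nat_lit 0) (nat_lit 18825584010) (nat_lit 304) (nat_lit 10493599599) (nat_lit 76) (nat_lit 2771623182) (nat_lit 88) (nat_lit 5) (nat_lit 92) (nat_lit 5) (nat_lit 89) (nat_lit 5) (nat_lit 440) (nat_lit 366) (nat_lit 214)))) (XT.nd (nat_lit 156) (nat_lit 228) (nat_lit 0) (XT.nd (nat_lit 78) (nat_lit 76) (nat_lit 0) (XT.lf (nat_lit 0) (nat_lit 7730492223) (nat_lit 152) (nat_lit 19184247201) (nat_lit 228) (nat_lit 5814190092) (nat_lit 86) (nat_lit 5) (nat_lit 88) (nat_lit 5) (nat_lit 89) (nat_lit 5) (nat_lit 441) (nat_lit 366) (nat_lit 213)) (XT.lf (nat_lit 0) (nat_lit 1924118199) (nat_lit 228) (nat_lit 6697394078) (nat_lit 76) (nat_lit 24761146606) (nat_lit 85) (nat_lit 5) (nat_lit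 88) (nat_lit 5) (nat_lit 86) (nat_lit 5) (nat_lit 442) (nat_lit 366) (nat_lit 212))) (XT.nd (nat_lit 78) (nat_lit 0) (nat_lit 0) (XT.lf (nat_lit 0) (nat_lit 9912822641) (nat_lit 304) (nat_lit 21750239656) (nat_lit 76) (nat_lit 2387158500) (nat_lit 82) (nat_lit 5) (nat_lit 86) (nat_lit 5) (nat_lit 83) (nat_lit 5) (nat_lit 443) (nat_lit 366) (nat_lit 211)) (XT.lf (nat_lit 0) (nat_lit 18288128049) (nat_lit 304) (nat_lit 2828801690) (nat_lit 76) (nat_lit 13616472453) (nat_lit 82) (nat_lit 5) (nat_lit 86) (nat_lit 5) (nat_lit 83) (nat_lit 5) (nat_lit 444) (nat_lit 366) (nat_lit 210))))) (XT.nd (nat_lit 234) (nat_lit 380) (nat_lit 0) (XT.nd (nat_lit 78) (nat_lit 228) (nat_lit 0) (XT.lf (nat_lit 0) (nat_lit 16980407398) (nat_lit 152) (nat_lit 10090985234) (nat_lit 228) (nat_lit 8360986193) (nat_lit 80) (nat_lit 5) (nat_lit 82) (nat_lit 5) (nat_lit 83) (nat_lit 5) (nat_lit 445) (nat_lit 366) (nat_lit 209)) (XT.nd (nat_lit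 78) (nat_lit 0) (nat_lit 0) (XT.lf (nat_lit 0) (nat_lit 13907448) (nat_lit 228) (nat_lit 34859140966) (nat_lit 76) (nat_lit 1277864637) (nat_lit 77) (nat_lit 5) (nat_lit 80) (nat_lit 5) (nat_lit 78) (nat_lit 5) (nat_lit 446) (nat_lit 366) (nat_lit 208)) (XT.lf (nat_lit 0) (nat_lit 8753614645) (nat_lit 228) (nat_lit 15075155036) (nat_lit 76) (nat_lit 13051302460) (nat_lit 77) (nat_lit 5) (nat_lit 80) (nat_lit 5) (nat_lit 78) (nat_lit 5) (nat_lit 447) (nat_lit 366) (nat_lit 207)))) (XT.nd (nat_lit 156) (nat_lit 228) (nat_lit 0) (XT.nd (nat_lit 78) (nat_lit 0) (nat_lit 0) (XT.lf (nat_lit 0) (nat_lit 5396709023) (nat_lit 152) (nat_lit 12404398924) (nat_lit 228) (nat_lit 19828630918) (nat_lit 75) (nat_lit 5) (nat_lit 77) (nat_lit 5) (nat_lit 78) (nat_lit 5) (nat_lit 448) (nat_lit 366) (nat_lit 206)) (XT.lf (nat_lit 0) (nat_lit 26780911586) (nat_lit 152) (nat_lit 485141117) (nat_lit 228) (nat_lit 11131462773) (nat_lit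 75) (nat_lit 5) (nat_lit 77) (nat_lit 5) (nat_lit 78) (nat_lit 5) (nat_lit 449) (nat_lit 366) (nat_lit 205))) (XT.nd (nat_lit 78) (nat_lit 76) (nat_lit 0) (XT.lf (nat_lit 0) (nat_lit 9683255535) (nat_lit 152) (nat_lit 27532055128) (nat_lit 228) (nat_lit 1967004442) (nat_lit 73) (nat_lit 5) (nat_lit 75) (nat_lit 5) (nat_lit 76) (nat_lit 5) (nat_lit 450) (nat_lit 366) (nat_lit 204)) (XT.lf (nat_lit 0) (nat_lit 7443793882) (nat_lit 228) (nat_lit 8215375809) (nat_lit 76) (nat_lit 24325818202) (nat_lit 72) (nat_lit 5) (nat_lit 75) (nat_lit 5) (nat_lit 73) (nat_lit 5) (nat_lit 451) (nat_lit 366) (nat_lit 203)))))) (XT.nd (nat_lit 546) (nat_lit 684) (nat_lit 0) (XT.nd (nat_lit 234) (nat_lit 380) (nat_lit 0) (XT.nd (nat_lit 78) (nat_lit 152) (nat_lit 0) (XT.lf (nat_lit 0) (nat_lit 13949170872) (nat_lit 152) (nat_lit 3276424336) (nat_lit 228) (nat_lit 23581715590) (nat_lit 70) (nat_lit 5) (nat_lit 72) (nat_lit 5) (nat_lit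 73) (nat_lit 5) (nat_lit 452) (nat_lit 366) (nat_lit 202)) (XT.nd (nat_lit 78) (nat_lit 152) (nat_lit 0) (XT.lf (nat_lit 0) (nat_lit 27469892945) (nat_lit 228) (nat_lit 4807082225) (nat_lit 76) (nat_lit 9372257541) (nat_lit 70) (nat_lit 5) (nat_lit 73) (nat_lit 5) (nat_lit 71) (nat_lit 5) (nat_lit 453) (nat_lit 366) (nat_lit 201)) (XT.lf (nat_lit 0) (nat_lit 18218477527) (nat_lit 152) (nat_lit 20004934675) (nat_lit 228) (nat_lit 4286943876) (nat_lit 68) (nat_lit 5) (nat_lit 70) (nat_lit 5) (nat_lit 71) (nat_lit 5) (nat_lit 454) (nat_lit 366) (nat_lit 200)))) (XT.nd (nat_lit 156) (nat_lit 152) (nat_lit 0) (XT.nd (nat_lit 78) (nat_lit 152) (nat_lit 0) (XT.lf (nat_lit 0) (nat_lit 5830411670) (nat_lit 228) (nat_lit 1429840905) (nat_lit 76) (nat_lit 36134058196) (nat_lit 67) (nat_lit 5) (nat_lit 70) (nat_lit 5) (nat_lit 68) (nat_lit 5) (nat_lit 455) (nat_lit 366) (nat_lit 199)) (XT.lf (nat_lit 0) (nat_lit 16434875066)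 (nat_lit 228) (nat_lit 21851153983) (nat_lit 76) (nat_lit 6009389717) (nat_lit 65) (nat_lit 5) (nat_lit 68) (nat_lit 5) (nat_lit 66) (nat_lit 5) (nat_lit 456) (nat_lit 366) (nat_lit 198))) (XT.nd (nat_lit 78) (nat_lit 0) (nat_lit 0) (XT.lf (nat_lit 0) (nat_lit 1793912654) (nat_lit 152) (nat_lit 25661798116) (nat_lit 228) (nat_lit 17764902588) (nat_lit 63) (nat_lit 5) (nat_lit 65) (nat_lit 5) (nat_lit 66) (nat_lit 5) (nat_lit 457) (nat_lit 366) (nat_lit 197)) (XT.lf (nat_lit 0) (nat_lit 26586511496) (nat_lit 152) (nat_lit 12435908502) (nat_lit 228) (nat_lit 7144686832) (nat_lit 63) (nat_lit 5) (nat_lit 65) (nat_lit 5) (nat_lit 66) (nat_lit 5) (nat_lit 458) (nat_lit 366) (nat_lit 196))))) (XT.nd (nat_lit 312) (nat_lit 304) (nat_lit 0) (XT.nd (nat_lit 156) (nat_lit 152) (nat_lit 0) (XT.nd (nat_lit 78) (nat_lit 0) (nat_lit 0) (XT.lf (nat_lit 0) (nat_lit 3775385635) (nat_lit 228) (nat_lit 42118750146) (nat_lit 76) (nat_lit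 1245107022) (nat_lit 60) (nat_lit 5) (nat_lit 63) (nat_lit 5) (nat_lit 61) (nat_lit 5) (nat_lit 459) (nat_lit 366) (nat_lit 195)) (XT.lf (nat_lit 0) (nat_lit 15196992457) (nat_lit 228) (nat_lit 17579031847) (nat_lit 76) (nat_lit 15352870821) (nat_lit 60) (nat_lit 5) (nat_lit 63) (nat_lit 5) (nat_lit 61) (nat_lit 5) (nat_lit 460) (nat_lit 366) (nat_lit 194))) (XT.nd (nat_lit 78) (nat_lit 0) (nat_lit 0) (XT.lf (nat_lit 0) (nat_lit 7840562905) (nat_lit 152) (nat_lit 19190928793) (nat_lit 228) (nat_lit 22114638432) (nat_lit 58) (nat_lit 5) (nat_lit 60) (nat_lit 5) (nat_lit 61) (nat_lit 5) (nat_lit 461) (nat_lit 366) (nat_lit 193)) (XT.lf (nat_lit 0) (nat_lit 34373877002) (nat_lit 152) (nat_lit 5019599197) (nat_lit 228) (nat_lit 10795232905) (nat_lit 58) (nat_lit 5) (nat_lit 60) (nat_lit 5) (nat_lit 61) (nat_lit 5) (nat_lit 462) (nat_lit 366) (nat_lit 192)))) (XT.nd (nat_lit 156) (nat_lit 152) (nat_lit 0) (XT.nd (nat_lit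 78) (nat_lit 0) (nat_lit 0) (XT.lf (nat_lit 0) (nat_lit 1037237100) (nat_lit 152) (nat_lit 40721799878) (nat_lit 76) (nat_lit 9497569666) (nat_lit 56) (nat_lit 5) (nat_lit 58) (nat_lit 5) (nat_lit 57) (nat_lit 5) (nat_lit 463) (nat_lit 366) (nat_lit 191)) (XT.lf (nat_lit 0) (nat_lit 13213741074) (nat_lit 152) (nat_lit 14519862361) (nat_lit 76) (nat_lit 24613550560) (nat_lit 56) (nat_lit 5) (nat_lit 58) (nat_lit 5) (nat_lit 57) (nat_lit 5) (nat_lit 464) (nat_lit 366) (nat_lit 190))) (XT.nd (nat_lit 78) (nat_lit 0) (nat_lit 0) (XT.lf (nat_lit 0) (nat_lit 12707290623) (nat_lit 152) (nat_lit 13165598230) (nat_lit 228) (nat_lit 27594008834) (nat_lit 54) (nat_lit 5) (nat_lit 56) (nat_lit 5) (nat_lit 57) (nat_lit 5) (nat_lit 465) (nat_lit 366) (nat_lit 189)) (XT.lf (nat_lit 0) (nat_lit 39072783033) (nat_lit 228) (nat_lit 13594893316) (nat_lit 76) (nat_lit 1947728548) (nat_lit 54) (nat_lit 5) (nat_lit 57) (nat_lit 5) (nat_lit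 55) (nat_lit 4) (nat_lit 466) (nat_lit 366) (nat_lit 188))))))) (XT.nd (nat_lit 1092) (nat_lit 456) (nat_lit 0) (XT.nd (nat_lit 546) (nat_lit 380) (nat_lit 0) (XT.nd (nat_lit 234) (nat_lit 304) (nat_lit 0) (XT.nd (nat_lit 78) (nat_lit 228) (nat_lit 0) (XT.lf (nat_lit 0) (nat_lit 14529360774) (nat_lit 76) (nat_lit 38404686393) (nat_lit 152) (nat_lit 2856359322) (nat_lit 53) (nat_lit 5) (nat_lit 54) (nat_lit 5) (nat_lit 55) (nat_lit 4) (nat_lit 467) (nat_lit 366) (nat_lit 187)) (XT.nd (nat_lit 78) (nat_lit 152) (nat_lit 0) (XT.lf (nat_lit 0) (nat_lit 10145252116) (nat_lit 152) (nat_lit 13328601294) (nat_lit 76) (nat_lit 33519840438) (nat_lit 52) (nat_lit 5) (nat_lit 54) (nat_lit 5) (nat_lit 53) (nat_lit 5) (nat_lit 468) (nat_lit 366) (nat_lit 186)) (XT.lf (nat_lit 0) (nat_lit 15711801970) (nat_lit 152) (nat_lit 7914229917) (nat_lit 228) (nat_lit 34601803944) (nat_lit 50) (nat_lit 5) (nat_lit 52) (nat_lit 5) (nat_lit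 53) (nat_lit 5) (nat_lit 469) (nat_lit 366) (nat_lit 185)))) (XT.nd (nat_lit 156) (nat_lit 228) (nat_lit 0) (XT.nd (nat_lit 78) (nat_lit 76) (nat_lit 0) (XT.lf (nat_lit 0) (nat_lit 37720653536) (nat_lit 228) (nat_lit 13685978784) (nat_lit 76) (nat_lit 8086087518) (nat_lit 50) (nat_lit 5) (nat_lit 53) (nat_lit 5) (nat_lit 51) (nat_lit 4) (nat_lit 470) (nat_lit 366) (nat_lit 184)) (XT.lf (nat_lit 0) (nat_lit 16239408365) (nat_lit 76) (nat_lit 36228811857) (nat_lit 152) (nat_lit 8320427260) (nat_lit 49) (nat_lit 5) (nat_lit 50) (nat_lit 5) (nat_lit 51) (nat_lit 4) (nat_lit 471) (nat_lit 366) (nat_lit 183))) (XT.nd (nat_lit 78) (nat_lit 152) (nat_lit 0) (XT.lf (nat_lit 0) (nat_lit 5561979095) (nat_lit 152) (nat_lit 14838880112) (nat_lit 76) (nat_lit 41716941296) (nat_lit 48) (nat_lit 5) (nat_lit 50) (nat_lit 5) (nat_lit 49) (nat_lit 5) (nat_lit 472) (nat_lit 366) (nat_lit 182)) (XT.lf (nat_lit 0) (nat_lit 15984451930)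 (nat_lit 152) (nat_lit 3858603731) (nat_lit 228) (nat_lit 43636818410) (nat_lit 46) (nat_lit 5) (nat_lit 48) (nat_lit 5) (nat_lit 49) (nat_lit 5) (nat_lit 473) (nat_lit 366) (nat_lit 181))))) (XT.nd (nat_lit 234) (nat_lit 304) (nat_lit 0) (XT.nd (nat_lit 78) (nat_lit 76) (nat_lit 0) (XT.lf (nat_lit 0) (nat_lit 34826376451) (nat_lit 228) (nat_lit 16977710174) (nat_lit 76) (nat_lit 13070509139) (nat_lit 46) (nat_lit 5) (nat_lit 49) (nat_lit 5) (nat_lit 47) (nat_lit 4) (nat_lit 474) (nat_lit 366) (nat_lit 180)) (XT.nd (nat_lit 78) (nat_lit 0) (nat_lit 0) (XT.lf (nat_lit 0) (nat_lit 14696454564) (nat_lit 76) (nat_lit 35738131477) (nat_lit 152) (nat_lit 15871311658) (nat_lit 45) (nat_lit 5) (nat_lit 46) (nat_lit 5) (nat_lit 47) (nat_lit 4) (nat_lit 475) (nat_lit 366) (nat_lit 179)) (XT.lf (nat_lit 0) (nat_lit 47661290358) (nat_lit 76) (nat_lit 19017153159) (nat_lit 152) (nat_lit 1096673385) (nat_lit 45) (nat_lit 5)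 (nat_lit 46) (nat_lit 5) (nat_lit 47) (nat_lit 4) (nat_lit 476) (nat_lit 366) (nat_lit 178)))) (XT.nd (nat_lit 156) (nat_lit 76) (nat_lit 0) (XT.nd (nat_lit 78) (nat_lit 0) (nat_lit 0) (XT.lf (nat_lit 0) (nat_lit 12425953399) (nat_lit 152) (nat_lit 1535179551) (nat_lit 228) (nat_lit 55319743192) (nat_lit 42) (nat_lit 5) (nat_lit 44) (nat_lit 5) (nat_lit 45) (nat_lit 5) (nat_lit 477) (nat_lit 366) (nat_lit 177)) (XT.lf (nat_lit 0) (nat_lit 29808134421) (nat_lit 228) (nat_lit 24650125553) (nat_lit 76) (nat_lit 16362437587) (nat_lit 42) (nat_lit 5) (nat_lit 45) (nat_lit 5) (nat_lit 43) (nat_lit 4) (nat_lit 478) (nat_lit 366) (nat_lit 176))) (XT.nd (nat_lit 78) (nat_lit 0) (nat_lit 0) (XT.lf (nat_lit 0) (nat_lit 8667516968) (nat_lit 76) (nat_lit 37557711316) (nat_lit 152) (nat_lit 26178645098) (nat_lit 41) (nat_lit 5) (nat_lit 42) (nat_lit 5) (nat_lit 43) (nat_lit 4) (nat_lit 479) (nat_lit 366) (nat_lit 175)) (XT.lf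 (nat_lit 0) (nat_lit 43482829825) (nat_lit 76) (nat_lit 19897130997) (nat_lit 152) (nat_lit 10647230103) (nat_lit 41) (nat_lit 5) (nat_lit 42) (nat_lit 5) (nat_lit 43) (nat_lit 4) (nat_lit 480) (nat_lit 366) (nat_lit 174)))))) (XT.nd (nat_lit 44304) (nat_lit 0) (nat_lit 18392) (XT.nd (nat_lit 234) (nat_lit 228) (nat_lit 0) (XT.nd (nat_lit 78) (nat_lit 0) (nat_lit 0) (XT.lf (nat_lit 0) (nat_lit 3656284712) (nat_lit 152) (nat_lit 1620870528) (nat_lit 228) (nat_lit 70419567259) (nat_lit 38) (nat_lit 5) (nat_lit 40) (nat_lit 5) (nat_lit 41) (nat_lit 5) (nat_lit 481) (nat_lit 366) (nat_lit 173)) (XT.nd (nat_lit 78) (nat_lit 0) (nat_lit 0) (XT.lf (nat_lit 0) (nat_lit 21938429200) (nat_lit 228) (nat_lit 38178889764) (nat_lit 76) (nat_lit 17281664042) (nat_lit 38) (nat_lit 5) (nat_lit 41) (nat_lit 5) (nat_lit 39) (nat_lit 4) (nat_lit 482) (nat_lit 366) (nat_lit 172)) (XT.lf (nat_lit 0) (nat_lit 39111989177) (nat_lit 228)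 (nat_lit 3324376538) (nat_lit 76) (nat_lit 36715572376) (nat_lit 38) (nat_lit 5) (nat_lit 41) (nat_lit 5) (nat_lit 39) (nat_lit 4) (nat_lit 483) (nat_lit 366) (nat_lit 171)))) (XT.nd (nat_lit 156) (nat_lit 152) (nat_lit 0) (XT.nd (nat_lit 78) (nat_lit 0) (nat_lit 0) (XT.lf (nat_lit 0) (nat_lit 33217327796) (nat_lit 76) (nat_lit 23899237876) (nat_lit 152) (nat_lit 23831442059) (nat_lit 37) (nat_lit 5) (nat_lit 38) (nat_lit 5) (nat_lit 39) (nat_lit 4) (nat_lit 484) (nat_lit 366) (nat_lit 170)) (XT.lf (nat_lit 0) (nat_lit 70916860764) (nat_lit 76) (nat_lit 4774531493) (nat_lit 152) (nat_lit 7105664005) (nat_lit 37) (nat_lit 5) (nat_lit 38) (nat_lit 5) (nat_lit 39) (nat_lit 4) (nat_lit 485) (nat_lit 366) (nat_lit 169))) (XT.nd (nat_lit 43836) (nat_lit 0) (nat_lit 19304) (XT.lf (nat_lit 0) (nat_lit 10312326174) (nat_lit 152) (nat_lit 59399779811) (nat_lit 76) (nat_lit 14974912909) (nat_lit 35) (nat_lit 5) (nat_lit 37)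 (nat_lit 5) (nat_lit 36) (nat_lit 4) (nat_lit 486) (nat_lit 366) (nat_lit 168)) (XT.lf (nat_lit 0) (nat_lit 1859797260) (nat_lit 1140) (nat_lit 1462903260) (nat_lit 1140) (nat_lit 1462903260) (nat_lit 289) (nat_lit 3) (nat_lit 304) (nat_lit 3) (nat_lit 304) (nat_lit 5) (nat_lit 367) (nat_lit 367) (nat_lit 286))))) (XT.nd (nat_lit 312) (nat_lit 912) (nat_lit 0) (XT.nd (nat_lit 156) (nat_lit 0) (nat_lit 76) (XT.nd (nat_lit 78) (nat_lit 0) (nat_lit 76) (XT.lf (nat_lit 76) (nat_lit 1768076379) (nat_lit 0) (nat_lit 2792250709) (nat_lit 1140) (nat_lit 5130625794) (nat_lit 290) (nat_lit 5) (nat_lit 289) (nat_lit 3) (nat_lit 304) (nat_lit 5) (nat_lit 368) (nat_lit 367) (nat_lit 285)) (XT.lf (nat_lit 0) (nat_lit 5437444388) (nat_lit 1064) (nat_lit 3179054086) (nat_lit 1140) (nat_lit 1197467924) (nat_lit 290) (nat_lit 5) (nat_lit 304) (nat_lit 5) (nat_lit 305) (nat_lit 5) (nat_lit 369) (nat_lit 367) (nat_lit 284))) (XT.nd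 (nat_lit 78) (nat_lit 0) (nat_lit 0) (XT.lf (nat_lit 76) (nat_lit 1696225655) (nat_lit 0) (nat_lit 4659490214) (nat_lit 1140) (nat_lit 3584519638) (nat_lit 291) (nat_lit 5) (nat_lit 290) (nat_lit 5) (nat_lit 305) (nat_lit 5) (nat_lit 370) (nat_lit 367) (nat_lit 283)) (XT.lf (nat_lit 76) (nat_lit 6766780417) (nat_lit 0) (nat_lit 538439374) (nat_lit 1140) (nat_lit 2764972471) (nat_lit 291) (nat_lit 5) (nat_lit 290) (nat_lit 5) (nat_lit 305) (nat_lit 5) (nat_lit 371) (nat_lit 367) (nat_lit 282)))) (XT.nd (nat_lit 156) (nat_lit 1064) (nat_lit 0) (XT.nd (nat_lit 78) (nat_lit 0) (nat_lit 0) (XT.lf (nat_lit 76) (nat_lit 1767637960) (nat_lit 0) (nat_lit 6540713439) (nat_lit 1140) (nat_lit 1894951852) (nat_lit 292) (nat_lit 5) (nat_lit 291) (nat_lit 5) (nat_lit 306) (nat_lit 5) (nat_lit 372) (nat_lit 367) (nat_lit 281)) (XT.lf (nat_lit 76) (nat_lit 7036629398) (nat_lit 0) (nat_lit 2316750582) (nat_lit 1140) (nat_lit 986683023)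 (nat_lit 292) (nat_lit 5) (nat_lit 291) (nat_lit 5) (nat_lit 306) (nat_lit 5) (nat_lit 373) (nat_lit 367) (nat_lit 280))) (XT.nd (nat_lit 78) (nat_lit 1140) (nat_lit 0) (XT.lf (nat_lit 76) (nat_lit 1985072317) (nat_lit 0) (nat_lit 8457364740) (nat_lit 1140) (nat_lit 38117407) (nat_lit 293) (nat_lit 5) (nat_lit 292) (nat_lit 5) (nat_lit 307) (nat_lit 5) (nat_lit 374) (nat_lit 367) (nat_lit 279)) (XT.lf (nat_lit 0) (nat_lit 951590329) (nat_lit 1140) (nat_lit 3173833463) (nat_lit 1216) (nat_lit 6498644634) (nat_lit 277) (nat_lit 5) (nat_lit 292) (nat_lit 5) (nat_lit 293) (nat_lit 5) (nat_lit 375) (nat_lit 367) (nat_lit 278))))))))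
noncomputable def xc164 : XT := (XT.nd (nat_lit 2184) (nat_lit 6004) (nat_lit 0) (XT.nd (nat_lit 1092) (nat_lit 3724) (nat_lit 0) (XT.nd (nat_lit 546) (nat_lit 3496) (nat_lit 0) (XT.nd (nat_lit 234) (nat_lit 0) (nat_lit 76) (XT.nd (nat_lit 78) (nat_lit 0) (nat_lit 0) (XT.lf (nat_lit 0) (nat_lit 1971342619) (nat_lit 1140) (nat_lit 8439554897) (nat_lit 1216) (nat_lit 360953846) (nat_lit 278) (nat_lit 5) (nat_lit 293) (nat_lit 5) (nat_lit 294) (nat_lit 5) (nat_lit 376) (nat_lit 367) (nat_lit 277)) (XT.nd (nat_lit 78) (nat_lit 0) (nat_lit 0) (XT.lf (nat_lit 0) (nat_lit 3070665949) (nat_lit 1140) (nat_lit 2912975062) (nat_lit 1216) (nat_lit 4938965637) (nat_lit 278) (nat_lit 5) (nat_lit 293) (nat_lit 5) (nat_lit 294) (nat_lit 5) (nat_lit 377) (nat_lit 367) (nat_lit 276)) (XT.lf (nat_lit 76) (nat_lit 2817511652) (nat_lit 0) (nat_lit 1389012696) (nat_lit 1216) (nat_lit 6871261558) (nat_lit 279) (nat_lit 5) (nat_lit 278)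 (nat_lit 5) (nat_lit 294) (nat_lit 5) (nat_lit 378) (nat_lit 367) (nat_lit 275)))) (XT.nd (nat_lit 156) (nat_lit 0) (nat_lit 76) (XT.nd (nat_lit 78) (nat_lit 0) (nat_lit 0) (XT.lf (nat_lit 0) (nat_lit 5415361387) (nat_lit 1140) (nat_lit 2507005868) (nat_lit 1216) (nat_lit 3314093942) (nat_lit 279) (nat_lit 5) (nat_lit 294) (nat_lit 5) (nat_lit 295) (nat_lit 5) (nat_lit 379) (nat_lit 367) (nat_lit 274)) (XT.lf (nat_lit 76) (nat_lit 3455584184) (nat_lit 0) (nat_lit 3229574368) (nat_lit 1216) (nat_lit 4714004863) (nat_lit 280) (nat_lit 5) (nat_lit 279) (nat_lit 5) (nat_lit 295) (nat_lit 5) (nat_lit 380) (nat_lit 367) (nat_lit 273))) (XT.nd (nat_lit 78) (nat_lit 0) (nat_lit 0) (XT.lf (nat_lit 0) (nat_lit 8012295456) (nat_lit 1140) (nat_lit 1950710854) (nat_lit 1216) (nat_lit 1603170314) (nat_lit 280) (nat_lit 5) (nat_lit 295) (nat_lit 5) (nat_lit 296) (nat_lit 5) (nat_lit 381) (nat_lit 367) (nat_lit 272)) (XT.lf (nat_lit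 76) (nat_lit 4256030277) (nat_lit 0) (nat_lit 5174997599) (nat_lit 1216) (nat_lit 2305625995) (nat_lit 281) (nat_lit 5) (nat_lit 280) (nat_lit 5) (nat_lit 296) (nat_lit 5) (nat_lit 382) (nat_lit 367) (nat_lit 271))))) (XT.nd (nat_lit 234) (nat_lit 2508) (nat_lit 0) (XT.nd (nat_lit 78) (nat_lit 1140) (nat_lit 0) (XT.lf (nat_lit 76) (nat_lit 10672140057) (nat_lit 0) (nat_lit 219227474) (nat_lit 1216) (nat_lit 1020913428) (nat_lit 281) (nat_lit 5) (nat_lit 280) (nat_lit 5) (nat_lit 296) (nat_lit 5) (nat_lit 383) (nat_lit 367) (nat_lit 270)) (XT.nd (nat_lit 78) (nat_lit 0) (nat_lit 0) (XT.lf (nat_lit 0) (nat_lit 374373806) (nat_lit 1216) (nat_lit 6868947202) (nat_lit 76) (nat_lit 4847437156) (nat_lit 265) (nat_lit 5) (nat_lit 281) (nat_lit 5) (nat_lit 266) (nat_lit 5) (nat_lit 384) (nat_lit 367) (nat_lit 269)) (XT.lf (nat_lit 0) (nat_lit 1786023117) (nat_lit 1216) (nat_lit 400782671) (nat_lit 76) (nat_lit 10087636266)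 (nat_lit 265) (nat_lit 5) (nat_lit 281) (nat_lit 5) (nat_lit 266) (nat_lit 5) (nat_lit 385) (nat_lit 367) (nat_lit 268)))) (XT.nd (nat_lit 156) (nat_lit 608) (nat_lit 0) (XT.nd (nat_lit 78) (nat_lit 684) (nat_lit 0) (XT.lf (nat_lit 0) (nat_lit 3311700336) (nat_lit 1292) (nat_lit 6123055264) (nat_lit 76) (nat_lit 3026736622) (nat_lit 249) (nat_lit 5) (nat_lit 266) (nat_lit 5) (nat_lit 250) (nat_lit 5) (nat_lit 386) (nat_lit 367) (nat_lit 267)) (XT.lf (nat_lit 0) (nat_lit 607033757) (nat_lit 684) (nat_lit 4288892405) (nat_lit 760) (nat_lit 7757850317) (nat_lit 240) (nat_lit 5) (nat_lit 249) (nat_lit 5) (nat_lit 250) (nat_lit 5) (nat_lit 387) (nat_lit 367) (nat_lit 266))) (XT.nd (nat_lit 78) (nat_lit 608) (nat_lit 0) (XT.lf (nat_lit 0) (nat_lit 6581446070) (nat_lit 760) (nat_lit 5213306487) (nat_lit 76) (nat_lit 1055469449) (nat_lit 240) (nat_lit 5) (nat_lit 250) (nat_lit 5) (nat_lit 241) (nat_lit 5) (nat_lit 388)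 (nat_lit 367) (nat_lit 265)) (XT.lf (nat_lit 0) (nat_lit 1800778758) (nat_lit 608) (nat_lit 6558665716) (nat_lit 684) (nat_lit 4691864633) (nat_lit 232) (nat_lit 5) (nat_lit 240) (nat_lit 5) (nat_lit 241) (nat_lit 5) (nat_lit 389) (nat_lit 367) (nat_lit 264)))))) (XT.nd (nat_lit 546) (nat_lit 1520) (nat_lit 0) (XT.nd (nat_lit 234) (nat_lit 1520) (nat_lit 0) (XT.nd (nat_lit 78) (nat_lit 684) (nat_lit 0) (XT.lf (nat_lit 0) (nat_lit 9115291715) (nat_lit 608) (nat_lit 1110631867) (nat_lit 684) (nat_lit 3031456446) (nat_lit 232) (nat_lit 5) (nat_lit 240) (nat_lit 5) (nat_lit 241) (nat_lit 5) (nat_lit 390) (nat_lit 367) (nat_lit 263)) (XT.nd (nat_lit 78) (nat_lit 76) (nat_lit 0) (XT.lf (nat_lit 0) (nat_lit 3181532851) (nat_lit 608) (nat_lit 9023724277) (nat_lit 684) (nat_lit 1262675420) (nat_lit 224) (nat_lit 5) (nat_lit 232) (nat_lit 5) (nat_lit 233) (nat_lit 5) (nat_lit 391) (nat_lit 367) (nat_lit 262)) (XT.lf (nat_lit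 0) (nat_lit 584671546) (nat_lit 684) (nat_lit 2907627610) (nat_lit 76) (nat_lit 10191253788) (nat_lit 223) (nat_lit 5) (nat_lit 232) (nat_lit 5) (nat_lit 224) (nat_lit 5) (nat_lit 392) (nat_lit 367) (nat_lit 261)))) (XT.nd (nat_lit 156) (nat_lit 988) (nat_lit 0) (XT.nd (nat_lit 78) (nat_lit 0) (nat_lit 0) (XT.lf (nat_lit 0) (nat_lit 2513217478) (nat_lit 608) (nat_lit 9169912889) (nat_lit 76) (nat_lit 2220606645) (nat_lit 216) (nat_lit 5) (nat_lit 224) (nat_lit 5) (nat_lit 217) (nat_lit 5) (nat_lit 393) (nat_lit 367) (nat_lit 260)) (XT.lf (nat_lit 0) (nat_lit 4547829771) (nat_lit 608) (nat_lit 1517279236) (nat_lit 76) (nat_lit 8063975982) (nat_lit 216) (nat_lit 5) (nat_lit 224) (nat_lit 5) (nat_lit 217) (nat_lit 5) (nat_lit 394) (nat_lit 367) (nat_lit 259))) (XT.nd (nat_lit 78) (nat_lit 456) (nat_lit 0) (XT.lf (nat_lit 0) (nat_lit 6474885183) (nat_lit 532) (nat_lit 215283106) (nat_lit 608) (nat_lit 7669629026) (nat_lit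 209) (nat_lit 5) (nat_lit 216) (nat_lit 5) (nat_lit 217) (nat_lit 5) (nat_lit 395) (nat_lit 367) (nat_lit 258)) (XT.lf (nat_lit 0) (nat_lit 69614508) (nat_lit 456) (nat_lit 8883889315) (nat_lit 532) (nat_lit 5642229799) (nat_lit 203) (nat_lit 5) (nat_lit 209) (nat_lit 5) (nat_lit 210) (nat_lit 5) (nat_lit 396) (nat_lit 367) (nat_lit 257))))) (XT.nd (nat_lit 234) (nat_lit 912) (nat_lit 0) (XT.nd (nat_lit 78) (nat_lit 608) (nat_lit 0) (XT.lf (nat_lit 0) (nat_lit 8405711100) (nat_lit 456) (nat_lit 2945781665) (nat_lit 532) (nat_lit 3485256940) (nat_lit 203) (nat_lit 5) (nat_lit 209) (nat_lit 5) (nat_lit 210) (nat_lit 5) (nat_lit 397) (nat_lit 367) (nat_lit 256)) (XT.nd (nat_lit 78) (nat_lit 76) (nat_lit 0) (XT.lf (nat_lit 0) (nat_lit 1896964839) (nat_lit 532) (nat_lit 11958610257) (nat_lit 608) (nat_lit 1228400726) (nat_lit 196) (nat_lit 5) (nat_lit 203) (nat_lit 5) (nat_lit 204) (nat_lit 5) (nat_lit 398) (nat_lit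 367) (nat_lit 255)) (XT.lf (nat_lit 0) (nat_lit 1155085371) (nat_lit 608) (nat_lit 4786977590) (nat_lit 76) (nat_lit 9393834147) (nat_lit 195) (nat_lit 5) (nat_lit 203) (nat_lit 5) (nat_lit 196) (nat_lit 5) (nat_lit 399) (nat_lit 367) (nat_lit 254)))) (XT.nd (nat_lit 156) (nat_lit 456) (nat_lit 0) (XT.nd (nat_lit 78) (nat_lit 0) (nat_lit 0) (XT.lf (nat_lit 0) (nat_lit 3611910272) (nat_lit 532) (nat_lit 11684092704) (nat_lit 76) (nat_lit 298216278) (nat_lit 189) (nat_lit 5) (nat_lit 196) (nat_lit 5) (nat_lit 190) (nat_lit 5) (nat_lit 400) (nat_lit 367) (nat_lit 253)) (XT.lf (nat_lit 0) (nat_lit 6236308307) (nat_lit 532) (nat_lit 2968232918) (nat_lit 76) (nat_lit 6652937488) (nat_lit 189) (nat_lit 5) (nat_lit 196) (nat_lit 5) (nat_lit 190) (nat_lit 5) (nat_lit 401) (nat_lit 367) (nat_lit 252))) (XT.nd (nat_lit 78) (nat_lit 0) (nat_lit 0) (XT.lf (nat_lit 0) (nat_lit 6112502636) (nat_lit 456) (nat_lit 2872312555) (nat_lit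 532) (nat_lit 7142463046) (nat_lit 183) (nat_lit 5) (nat_lit 189) (nat_lit 5) (nat_lit 190) (nat_lit 5) (nat_lit 402) (nat_lit 367) (nat_lit 251)) (XT.lf (nat_lit 0) (nat_lit 11867965876) (nat_lit 532) (nat_lit 929242348) (nat_lit 76) (nat_lit 3606401351) (nat_lit 183) (nat_lit 5) (nat_lit 190) (nat_lit 5) (nat_lit 184) (nat_lit 5) (nat_lit 403) (nat_lit 367) (nat_lit 250))))))) (XT.nd (nat_lit 1092) (nat_lit 2660) (nat_lit 0) (XT.nd (nat_lit 546) (nat_lit 1596) (nat_lit 0) (XT.nd (nat_lit 234) (nat_lit 760) (nat_lit 0) (XT.nd (nat_lit 78) (nat_lit 532) (nat_lit 0) (XT.lf (nat_lit 0) (nat_lit 8551666496) (nat_lit 456) (nat_lit 6383804249) (nat_lit 532) (nat_lit 1749827702) (nat_lit 177) (nat_lit 5) (nat_lit 183) (nat_lit 5) (nat_lit 184) (nat_lit 5) (nat_lit 404) (nat_lit 367) (nat_lit 249)) (XT.nd (nat_lit 78) (nat_lit 0) (nat_lit 0) (XT.lf (nat_lit 0) (nat_lit 1110021770) (nat_lit 532) (nat_lit 15616389576) (nat_lit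 76) (nat_lit 248337803) (nat_lit 170) (nat_lit 5) (nat_lit 177) (nat_lit 5) (nat_lit 171) (nat_lit 5) (nat_lit 405) (nat_lit 367) (nat_lit 248)) (XT.lf (nat_lit 0) (nat_lit 4154152892) (nat_lit 532) (nat_lit 6065842274) (nat_lit 76) (nat_lit 7048361870) (nat_lit 170) (nat_lit 5) (nat_lit 177) (nat_lit 5) (nat_lit 171) (nat_lit 5) (nat_lit 406) (nat_lit 367) (nat_lit 247)))) (XT.nd (nat_lit 156) (nat_lit 380) (nat_lit 0) (XT.nd (nat_lit 78) (nat_lit 0) (nat_lit 0) (XT.lf (nat_lit 0) (nat_lit 3830511208) (nat_lit 380) (nat_lit 3483784993) (nat_lit 456) (nat_lit 10255739321) (nat_lit 165) (nat_lit 5) (nat_lit 170) (nat_lit 5) (nat_lit 171) (nat_lit 5) (nat_lit 407) (nat_lit 367) (nat_lit 246)) (XT.lf (nat_lit 0) (nat_lit 10652351080) (nat_lit 456) (nat_lit 3780275002) (nat_lit 76) (nat_lit 3445647980) (nat_lit 165) (nat_lit 5) (nat_lit 171) (nat_lit 5) (nat_lit 166) (nat_lit 5) (nat_lit 408) (nat_lit 367) (nat_lit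 245))) (XT.nd (nat_lit 78) (nat_lit 0) (nat_lit 0) (XT.lf (nat_lit 0) (nat_lit 6556011623) (nat_lit 380) (nat_lit 7620438435) (nat_lit 456) (nat_lit 4016735461) (nat_lit 160) (nat_lit 5) (nat_lit 165) (nat_lit 5) (nat_lit 166) (nat_lit 5) (nat_lit 409) (nat_lit 367) (nat_lit 244)) (XT.lf (nat_lit 0) (nat_lit 17264848943) (nat_lit 380) (nat_lit 568179272) (nat_lit 456) (nat_lit 683716170) (nat_lit 160) (nat_lit 5) (nat_lit 165) (nat_lit 5) (nat_lit 166) (nat_lit 5) (nat_lit 410) (nat_lit 367) (nat_lit 243))))) (XT.nd (nat_lit 234) (nat_lit 760) (nat_lit 0) (XT.nd (nat_lit 78) (nat_lit 380) (nat_lit 0) (XT.lf (nat_lit 0) (nat_lit 2842143511) (nat_lit 456) (nat_lit 9321444265) (nat_lit 76) (nat_lit 6681237046) (nat_lit 154) (nat_lit 5) (nat_lit 160) (nat_lit 5) (nat_lit 155) (nat_lit 5) (nat_lit 411) (nat_lit 367) (nat_lit 242)) (XT.nd (nat_lit 78) (nat_lit 0) (nat_lit 0) (XT.lf (nat_lit 0) (nat_lit 1466332373) (nat_lit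 380) (nat_lit 5015145183) (nat_lit 456) (nat_lit 12700426331) (nat_lit 149) (nat_lit 5) (nat_lit 154) (nat_lit 5) (nat_lit 155) (nat_lit 5) (nat_lit 412) (nat_lit 367) (nat_lit 241)) (XT.lf (nat_lit 0) (nat_lit 10336714078) (nat_lit 456) (nat_lit 6796062299) (nat_lit 76) (nat_lit 2393119720) (nat_lit 149) (nat_lit 5) (nat_lit 155) (nat_lit 5) (nat_lit 150) (nat_lit 5) (nat_lit 413) (nat_lit 367) (nat_lit 240)))) (XT.nd (nat_lit 156) (nat_lit 456) (nat_lit 0) (XT.nd (nat_lit 78) (nat_lit 0) (nat_lit 0) (XT.lf (nat_lit 0) (nat_lit 4474007878) (nat_lit 304) (nat_lit 9915673430) (nat_lit 380) (nat_lit 5488066929) (nat_lit 145) (nat_lit 5) (nat_lit 149) (nat_lit 5) (nat_lit 150) (nat_lit 5) (nat_lit 414) (nat_lit 367) (nat_lit 239)) (XT.lf (nat_lit 0) (nat_lit 16206963212) (nat_lit 304) (nat_lit 2415481784) (nat_lit 380) (nat_lit 1615967027) (nat_lit 145) (nat_lit 5) (nat_lit 149) (nat_lit 5) (nat_lit 150) (nat_lit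 5) (nat_lit 415) (nat_lit 367) (nat_lit 238))) (XT.nd (nat_lit 78) (nat_lit 0) (nat_lit 0) (XT.lf (nat_lit 0) (nat_lit 2442704202) (nat_lit 456) (nat_lit 12862196548) (nat_lit 76) (nat_lit 5300812016) (nat_lit 139) (nat_lit 5) (nat_lit 145) (nat_lit 5) (nat_lit 140) (nat_lit 5) (nat_lit 416) (nat_lit 367) (nat_lit 237)) (XT.lf (nat_lit 0) (nat_lit 6645588194) (nat_lit 456) (nat_lit 1083194553) (nat_lit 76) (nat_lit 13253123943) (nat_lit 139) (nat_lit 5) (nat_lit 145) (nat_lit 5) (nat_lit 140) (nat_lit 5) (nat_lit 417) (nat_lit 367) (nat_lit 236)))))) (XT.nd (nat_lit 546) (nat_lit 1368) (nat_lit 0) (XT.nd (nat_lit 234) (nat_lit 684) (nat_lit 0) (XT.nd (nat_lit 78) (nat_lit 304) (nat_lit 0) (XT.lf (nat_lit 0) (nat_lit 11074692101) (nat_lit 380) (nat_lit 10113401402) (nat_lit 76) (nat_lit 178290975) (nat_lit 135) (nat_lit 5) (nat_lit 140) (nat_lit 5) (nat_lit 136) (nat_lit 5) (nat_lit 418) (nat_lit 367) (nat_lit 235))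 (XT.nd (nat_lit 78) (nat_lit 0) (nat_lit 0) (XT.lf (nat_lit 0) (nat_lit 2170986011) (nat_lit 304) (nat_lit 13564430046) (nat_lit 380) (nat_lit 6024020123) (nat_lit 131) (nat_lit 5) (nat_lit 135) (nat_lit 5) (nat_lit 136) (nat_lit 5) (nat_lit 419) (nat_lit 367) (nat_lit 234)) (XT.lf (nat_lit 0) (nat_lit 15017229526) (nat_lit 304) (nat_lit 5611314550) (nat_lit 380) (nat_lit 1532959815) (nat_lit 131) (nat_lit 5) (nat_lit 135) (nat_lit 5) (nat_lit 136) (nat_lit 5) (nat_lit 420) (nat_lit 367) (nat_lit 233)))) (XT.nd (nat_lit 156) (nat_lit 304) (nat_lit 0) (XT.nd (nat_lit 78) (nat_lit 0) (nat_lit 0) (XT.lf (nat_lit 0) (nat_lit 3103917343) (nat_lit 380) (nat_lit 16857203087) (nat_lit 76) (nat_lit 2611479997) (nat_lit 126) (nat_lit 5) (nat_lit 131) (nat_lit 5) (nat_lit 127) (nat_lit 5) (nat_lit 421) (nat_lit 367) (nat_lit 232)) (XT.lf (nat_lit 0) (nat_lit 7968245105) (nat_lit 380) (nat_lit 3971877152) (nat_lit 76) (nat_lit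 11051879377) (nat_lit 126) (nat_lit 5) (nat_lit 131) (nat_lit 5) (nat_lit 127) (nat_lit 5) (nat_lit 422) (nat_lit 367) (nat_lit 231))) (XT.nd (nat_lit 78) (nat_lit 0) (nat_lit 0) (XT.lf (nat_lit 0) (nat_lit 9471361237) (nat_lit 304) (nat_lit 3589195923) (nat_lit 380) (nat_lit 10360967797) (nat_lit 122) (nat_lit 5) (nat_lit 126) (nat_lit 5) (nat_lit 127) (nat_lit 5) (nat_lit 423) (nat_lit 367) (nat_lit 230)) (XT.lf (nat_lit 0) (nat_lit 18385425294) (nat_lit 380) (nat_lit 525552331) (nat_lit 76) (nat_lit 4950564419) (nat_lit 122) (nat_lit 5) (nat_lit 127) (nat_lit 5) (nat_lit 123) (nat_lit 5) (nat_lit 424) (nat_lit 367) (nat_lit 229))))) (XT.nd (nat_lit 312) (nat_lit 532) (nat_lit 0) (XT.nd (nat_lit 156) (nat_lit 228) (nat_lit 0) (XT.nd (nat_lit 78) (nat_lit 380) (nat_lit 0) (XT.lf (nat_lit 0) (nat_lit 13516858389) (nat_lit 228) (nat_lit 10510009735) (nat_lit 304) (nat_lit 283188276) (nat_lit 119) (nat_lit 5) (nat_lit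 122) (nat_lit 5) (nat_lit 123) (nat_lit 5) (nat_lit 425) (nat_lit 367) (nat_lit 228)) (XT.lf (nat_lit 0) (nat_lit 3220333964) (nat_lit 304) (nat_lit 1774063067) (nat_lit 380) (nat_lit 19775338421) (nat_lit 114) (nat_lit 5) (nat_lit 118) (nat_lit 5) (nat_lit 119) (nat_lit 5) (nat_lit 426) (nat_lit 367) (nat_lit 227))) (XT.nd (nat_lit 78) (nat_lit 228) (nat_lit 0) (XT.lf (nat_lit 0) (nat_lit 10595609241) (nat_lit 380) (nat_lit 7451027981) (nat_lit 76) (nat_lit 7191355282) (nat_lit 114) (nat_lit 5) (nat_lit 119) (nat_lit 5) (nat_lit 115) (nat_lit 5) (nat_lit 427) (nat_lit 367) (nat_lit 226)) (XT.lf (nat_lit 0) (nat_lit 7179934651) (nat_lit 228) (nat_lit 9263234962) (nat_lit 304) (nat_lit 9274779736) (nat_lit 111) (nat_lit 5) (nat_lit 114) (nat_lit 5) (nat_lit 115) (nat_lit 5) (nat_lit 428) (nat_lit 367) (nat_lit 225)))) (XT.nd (nat_lit 156) (nat_lit 228) (nat_lit 0) (XT.nd (nat_lit 78) (nat_lit 304) (nat_lit 0) (XT.lf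 (nat_lit 0) (nat_lit 22389787950) (nat_lit 228) (nat_lit 143456597) (nat_lit 304) (nat_lit 3677049116) (nat_lit 111) (nat_lit 5) (nat_lit 114) (nat_lit 5) (nat_lit 115) (nat_lit 5) (nat_lit 429) (nat_lit 367) (nat_lit 224)) (XT.lf (nat_lit 0) (nat_lit 2240871960) (nat_lit 304) (nat_lit 15272994502) (nat_lit 76) (nat_lit 9197150399) (nat_lit 107) (nat_lit 5) (nat_lit 111) (nat_lit 5) (nat_lit 108) (nat_lit 5) (nat_lit 430) (nat_lit 367) (nat_lit 223))) (XT.nd (nat_lit 78) (nat_lit 228) (nat_lit 0) (XT.lf (nat_lit 0) (nat_lit 8294881759) (nat_lit 304) (nat_lit 43826220) (nat_lit 76) (nat_lit 18885989177) (nat_lit 107) (nat_lit 5) (nat_lit 111) (nat_lit 5) (nat_lit 108) (nat_lit 5) (nat_lit 431) (nat_lit 367) (nat_lit 222)) (XT.lf (nat_lit 0) (nat_lit 14688211286) (nat_lit 304) (nat_lit 11820566711) (nat_lit 76) (nat_lit 1240280116) (nat_lit 104) (nat_lit 5) (nat_lit 108) (nat_lit 5) (nat_lit 105) (nat_lit 5) (nat_lit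 432) (nat_lit 367) (nat_lit 221))))))))
noncomputable def xc165 : XT := (XT.nd (nat_lit 2262) (nat_lit 1748) (nat_lit 0) (XT.nd (nat_lit 1092) (nat_lit 1520) (nat_lit 0) (XT.nd (nat_lit 546) (nat_lit 836) (nat_lit 0) (XT.nd (nat_lit 234) (nat_lit 456) (nat_lit 0) (XT.nd (nat_lit 78) (nat_lit 304) (nat_lit 0) (XT.lf (nat_lit 0) (nat_lit 4076386799) (nat_lit 228) (nat_lit 17311515580) (nat_lit 304) (nat_lit 6897811874) (nat_lit 101) (nat_lit 5) (nat_lit 104) (nat_lit 5) (nat_lit 105) (nat_lit 5) (nat_lit 433) (nat_lit 367) (nat_lit 220)) (XT.nd (nat_lit 78) (nat_lit 304) (nat_lit 0) (XT.lf (nat_lit 0) (nat_lit 20680347185) (nat_lit 228) (nat_lit 7720075006) (nat_lit 304) (nat_lit 434693914) (nat_lit 101) (nat_lit 5) (nat_lit 104) (nat_lit 5) (nat_lit 105) (nat_lit 5) (nat_lit 434) (nat_lit 367) (nat_lit 219)) (XT.lf (nat_lit 0) (nat_lit 6197092754) (nat_lit 304) (nat_lit 20944106093) (nat_lit 76) (nat_lit 2255122034)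 (nat_lit 97) (nat_lit 5) (nat_lit 101) (nat_lit 5) (nat_lit 98) (nat_lit 5) (nat_lit 435) (nat_lit 367) (nat_lit 218)))) (XT.nd (nat_lit 156) (nat_lit 228) (nat_lit 0) (XT.nd (nat_lit 78) (nat_lit 228) (nat_lit 0) (XT.lf (nat_lit 0) (nat_lit 13171370621) (nat_lit 304) (nat_lit 4340935789) (nat_lit 76) (nat_lit 12457359107) (nat_lit 97) (nat_lit 5) (nat_lit 101) (nat_lit 5) (nat_lit 98) (nat_lit 5) (nat_lit 436) (nat_lit 367) (nat_lit 217)) (XT.lf (nat_lit 0) (nat_lit 13002341877) (nat_lit 228) (nat_lit 7470410376) (nat_lit 304) (nat_lit 10083923012) (nat_lit 94) (nat_lit 5) (nat_lit 97) (nat_lit 5) (nat_lit 98) (nat_lit 5) (nat_lit 437) (nat_lit 367) (nat_lit 216))) (XT.nd (nat_lit 78) (nat_lit 228) (nat_lit 0) (XT.lf (nat_lit 0) (nat_lit 28057999438) (nat_lit 304) (nat_lit 244888929) (nat_lit 76) (nat_lit 2856463225) (nat_lit 94) (nat_lit 5) (nat_lit 98) (nat_lit 5) (nat_lit 95) (nat_lit 5) (nat_lit 438) (nat_lit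 367) (nat_lit 215)) (XT.lf (nat_lit 0) (nat_lit 4251897810) (nat_lit 228) (nat_lit 13967926877) (nat_lit 76) (nat_lit 13551874016) (nat_lit 91) (nat_lit 5) (nat_lit 94) (nat_lit 5) (nat_lit 92) (nat_lit 5) (nat_lit 439) (nat_lit 367) (nat_lit 214))))) (XT.nd (nat_lit 234) (nat_lit 456) (nat_lit 0) (XT.nd (nat_lit 78) (nat_lit 152) (nat_lit 0) (XT.lf (nat_lit 0) (nat_lit 4033094405) (nat_lit 228) (nat_lit 7764751954) (nat_lit 304) (nat_lit 20602616541) (nat_lit 88) (nat_lit 5) (nat_lit 91) (nat_lit 5) (nat_lit 92) (nat_lit 5) (nat_lit 440) (nat_lit 367) (nat_lit 213)) (XT.nd (nat_lit 78) (nat_lit 152) (nat_lit 0) (XT.lf (nat_lit 0) (nat_lit 19734709698) (nat_lit 304) (nat_lit 10225147941) (nat_lit 76) (nat_lit 3083297189) (nat_lit 88) (nat_lit 5) (nat_lit 92) (nat_lit 5) (nat_lit 89) (nat_lit 5) (nat_lit 441) (nat_lit 367) (nat_lit 212)) (XT.lf (nat_lit 0) (nat_lit 8539948403) (nat_lit 152) (nat_lit 19522113203)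 (nat_lit 228) (nat_lit 5638495297) (nat_lit 86) (nat_lit 5) (nat_lit 88) (nat_lit 5) (nat_lit 89) (nat_lit 5) (nat_lit 442) (nat_lit 367) (nat_lit 211)))) (XT.nd (nat_lit 156) (nat_lit 152) (nat_lit 0) (XT.nd (nat_lit 78) (nat_lit 228) (nat_lit 0) (XT.lf (nat_lit 0) (nat_lit 2315131440) (nat_lit 228) (nat_lit 6330921396) (nat_lit 76) (nat_lit 25728045556) (nat_lit 85) (nat_lit 5) (nat_lit 88) (nat_lit 5) (nat_lit 86) (nat_lit 5) (nat_lit 443) (nat_lit 367) (nat_lit 210)) (XT.lf (nat_lit 0) (nat_lit 10541428506) (nat_lit 304) (nat_lit 21833243476) (nat_lit 76) (nat_lit 2687078449) (nat_lit 82) (nat_lit 5) (nat_lit 86) (nat_lit 5) (nat_lit 83) (nat_lit 5) (nat_lit 444) (nat_lit 367) (nat_lit 209))) (XT.nd (nat_lit 78) (nat_lit 152) (nat_lit 0) (XT.lf (nat_lit 0) (nat_lit 19158345857) (nat_lit 304) (nat_lit 2360749848) (nat_lit 76) (nat_lit 14246622155) (nat_lit 82) (nat_lit 5) (nat_lit 86) (nat_lit 5) (nat_lit 83)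 (nat_lit 5) (nat_lit 445) (nat_lit 367) (nat_lit 208)) (XT.lf (nat_lit 0) (nat_lit 18037314769) (nat_lit 152) (nat_lit 10163690234) (nat_lit 228) (nat_lit 8284783029) (nat_lit 80) (nat_lit 5) (nat_lit 82) (nat_lit 5) (nat_lit 83) (nat_lit 5) (nat_lit 446) (nat_lit 367) (nat_lit 207)))))) (XT.nd (nat_lit 546) (nat_lit 760) (nat_lit 0) (XT.nd (nat_lit 234) (nat_lit 380) (nat_lit 0) (XT.nd (nat_lit 78) (nat_lit 152) (nat_lit 0) (XT.lf (nat_lit 0) (nat_lit 333137991) (nat_lit 228) (nat_lit 35349127827) (nat_lit 76) (nat_lit 1543574370) (nat_lit 77) (nat_lit 5) (nat_lit 80) (nat_lit 5) (nat_lit 78) (nat_lit 5) (nat_lit 447) (nat_lit 367) (nat_lit 206)) (XT.nd (nat_lit 78) (nat_lit 152) (nat_lit 0) (XT.lf (nat_lit 0) (nat_lit 9325750579) (nat_lit 228) (nat_lit 14987810301) (nat_lit 76) (nat_lit 13663592790) (nat_lit 77) (nat_lit 5) (nat_lit 80) (nat_lit 5) (nat_lit 78) (nat_lit 5) (nat_lit 448) (nat_lit 367) (nat_lit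 205)) (XT.lf (nat_lit 0) (nat_lit 6092919490) (nat_lit 152) (nat_lit 12547869932) (nat_lit 228) (nat_lit 20108638363) (nat_lit 75) (nat_lit 5) (nat_lit 77) (nat_lit 5) (nat_lit 78) (nat_lit 5) (nat_lit 449) (nat_lit 367) (nat_lit 204)))) (XT.nd (nat_lit 156) (nat_lit 228) (nat_lit 0) (XT.nd (nat_lit 78) (nat_lit 152) (nat_lit 0) (XT.lf (nat_lit 0) (nat_lit 28103085726) (nat_lit 152) (nat_lit 277694419) (nat_lit 228) (nat_lit 11159725605) (nat_lit 75) (nat_lit 5) (nat_lit 77) (nat_lit 5) (nat_lit 78) (nat_lit 5) (nat_lit 450) (nat_lit 367) (nat_lit 203)) (XT.lf (nat_lit 0) (nat_lit 10494148743) (nat_lit 152) (nat_lit 28132798231) (nat_lit 228) (nat_lit 1721950416) (nat_lit 73) (nat_lit 5) (nat_lit 75) (nat_lit 5) (nat_lit 76) (nat_lit 5) (nat_lit 451) (nat_lit 367) (nat_lit 202))) (XT.nd (nat_lit 78) (nat_lit 152) (nat_lit 0) (XT.lf (nat_lit 0) (nat_lit 7956555050) (nat_lit 228) (nat_lit 7950808094) (nat_lit 76)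 (nat_lit 25268460936) (nat_lit 72) (nat_lit 5) (nat_lit 75) (nat_lit 5) (nat_lit 73) (nat_lit 5) (nat_lit 452) (nat_lit 367) (nat_lit 201)) (XT.lf (nat_lit 0) (nat_lit 14873664899) (nat_lit 152) (nat_lit 3154579175) (nat_lit 228) (nat_lit 23994680464) (nat_lit 70) (nat_lit 5) (nat_lit 72) (nat_lit 5) (nat_lit 73) (nat_lit 5) (nat_lit 453) (nat_lit 367) (nat_lit 200))))) (XT.nd (nat_lit 312) (nat_lit 380) (nat_lit 0) (XT.nd (nat_lit 156) (nat_lit 228) (nat_lit 0) (XT.nd (nat_lit 78) (nat_lit 152) (nat_lit 0) (XT.lf (nat_lit 0) (nat_lit 28573598577) (nat_lit 228) (nat_lit 4453713735) (nat_lit 76) (nat_lit 9862980810) (nat_lit 70) (nat_lit 5) (nat_lit 73) (nat_lit 5) (nat_lit 71) (nat_lit 5) (nat_lit 454) (nat_lit 367) (nat_lit 199)) (XT.lf (nat_lit 0) (nat_lit 19257734565) (nat_lit 152) (nat_lit 20388581060) (nat_lit 228) (nat_lit 4131037623) (nat_lit 68) (nat_lit 5) (nat_lit 70) (nat_lit 5) (nat_lit 71) (nat_lit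 5) (nat_lit 455) (nat_lit 367) (nat_lit 198))) (XT.nd (nat_lit 78) (nat_lit 152) (nat_lit 0) (XT.lf (nat_lit 0) (nat_lit 6276161559) (nat_lit 228) (nat_lit 988967884) (nat_lit 76) (nat_lit 37422859622) (nat_lit 67) (nat_lit 5) (nat_lit 70) (nat_lit 5) (nat_lit 68) (nat_lit 5) (nat_lit 456) (nat_lit 367) (nat_lit 197)) (XT.lf (nat_lit 0) (nat_lit 17197507865) (nat_lit 228) (nat_lit 22021644214) (nat_lit 76) (nat_lit 6397016505) (nat_lit 65) (nat_lit 5) (nat_lit 68) (nat_lit 5) (nat_lit 66) (nat_lit 5) (nat_lit 457) (nat_lit 367) (nat_lit 196)))) (XT.nd (nat_lit 156) (nat_lit 228) (nat_lit 0) (XT.nd (nat_lit 78) (nat_lit 0) (nat_lit 0) (XT.lf (nat_lit 0) (nat_lit 2328019086) (nat_lit 152) (nat_lit 26217714352) (nat_lit 228) (nat_lit 18023483365) (nat_lit 63) (nat_lit 5) (nat_lit 65) (nat_lit 5) (nat_lit 66) (nat_lit 5) (nat_lit 458) (nat_lit 367) (nat_lit 195)) (XT.lf (nat_lit 0) (nat_lit 27850406892) (nat_lit 152)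 (nat_lit 12601279245) (nat_lit 228) (nat_lit 7092652388) (nat_lit 63) (nat_lit 5) (nat_lit 65) (nat_lit 5) (nat_lit 66) (nat_lit 5) (nat_lit 459) (nat_lit 367) (nat_lit 194))) (XT.nd (nat_lit 78) (nat_lit 0) (nat_lit 0) (XT.lf (nat_lit 0) (nat_lit 4148712827) (nat_lit 228) (nat_lit 42909657815) (nat_lit 76) (nat_lit 1487225133) (nat_lit 60) (nat_lit 5) (nat_lit 63) (nat_lit 5) (nat_lit 61) (nat_lit 5) (nat_lit 460) (nat_lit 367) (nat_lit 193)) (XT.lf (nat_lit 0) (nat_lit 15905393127) (nat_lit 228) (nat_lit 17647514612) (nat_lit 76) (nat_lit 16012257819) (nat_lit 60) (nat_lit 5) (nat_lit 63) (nat_lit 5) (nat_lit 61) (nat_lit 5) (nat_lit 461) (nat_lit 367) (nat_lit 192))))))) (XT.nd (nat_lit 1092) (nat_lit 684) (nat_lit 0) (XT.nd (nat_lit 546) (nat_lit 532) (nat_lit 0) (XT.nd (nat_lit 234) (nat_lit 228) (nat_lit 0) (XT.nd (nat_lit 78) (nat_lit 152) (nat_lit 0) (XT.lf (nat_lit 0) (nat_lit 8530169078) (nat_lit 152)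 (nat_lit 19561772030) (nat_lit 228) (nat_lit 22521066724) (nat_lit 58) (nat_lit 5) (nat_lit 60) (nat_lit 5) (nat_lit 61) (nat_lit 5) (nat_lit 462) (nat_lit 367) (nat_lit 191)) (XT.nd (nat_lit 78) (nat_lit 152) (nat_lit 0) (XT.lf (nat_lit 0) (nat_lit 35846247959) (nat_lit 152) (nat_lit 4971270060) (nat_lit 228) (nat_lit 10869564784) (nat_lit 58) (nat_lit 5) (nat_lit 60) (nat_lit 5) (nat_lit 61) (nat_lit 5) (nat_lit 463) (nat_lit 367) (nat_lit 190)) (XT.lf (nat_lit 0) (nat_lit 1312051407) (nat_lit 152) (nat_lit 41496432186) (nat_lit 76) (nat_lit 9978491060) (nat_lit 56) (nat_lit 5) (nat_lit 58) (nat_lit 5) (nat_lit 57) (nat_lit 5) (nat_lit 464) (nat_lit 367) (nat_lit 189)))) (XT.nd (nat_lit 156) (nat_lit 76) (nat_lit 0) (XT.nd (nat_lit 78) (nat_lit 152) (nat_lit 0) (XT.lf (nat_lit 0) (nat_lit 13846752524) (nat_lit 152) (nat_lit 14521456593) (nat_lit 76) (nat_lit 25542242809) (nat_lit 56) (nat_lit 5) (nat_lit 58)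 (nat_lit 5) (nat_lit 57) (nat_lit 5) (nat_lit 465) (nat_lit 367) (nat_lit 188)) (XT.lf (nat_lit 0) (nat_lit 13518256062) (nat_lit 152) (nat_lit 13364658422) (nat_lit 228) (nat_lit 28180956796) (nat_lit 54) (nat_lit 5) (nat_lit 56) (nat_lit 5) (nat_lit 57) (nat_lit 5) (nat_lit 466) (nat_lit 367) (nat_lit 187))) (XT.nd (nat_lit 78) (nat_lit 76) (nat_lit 0) (XT.lf (nat_lit 0) (nat_lit 40473822982) (nat_lit 228) (nat_lit 13580510142) (nat_lit 76) (nat_lit 2192650588) (nat_lit 54) (nat_lit 5) (nat_lit 57) (nat_lit 5) (nat_lit 55) (nat_lit 4) (nat_lit 467) (nat_lit 367) (nat_lit 186)) (XT.lf (nat_lit 0) (nat_lit 15383332061) (nat_lit 76) (nat_lit 39364946198) (nat_lit 152) (nat_lit 2709037010) (nat_lit 53) (nat_lit 5) (nat_lit 54) (nat_lit 5) (nat_lit 55) (nat_lit 4) (nat_lit 468) (nat_lit 367) (nat_lit 185))))) (XT.nd (nat_lit 234) (nat_lit 304) (nat_lit 0) (XT.nd (nat_lit 78) (nat_lit 152) (nat_lit 0) (XT.lf (nat_lit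 0) (nat_lit 10671421493) (nat_lit 152) (nat_lit 13318115629) (nat_lit 76) (nat_lit 34707297045) (nat_lit 52) (nat_lit 5) (nat_lit 54) (nat_lit 5) (nat_lit 53) (nat_lit 5) (nat_lit 469) (nat_lit 367) (nat_lit 184)) (XT.nd (nat_lit 78) (nat_lit 0) (nat_lit 0) (XT.lf (nat_lit 0) (nat_lit 16589476755) (nat_lit 152) (nat_lit 7964593167) (nat_lit 228) (nat_lit 35414007600) (nat_lit 50) (nat_lit 5) (nat_lit 52) (nat_lit 5) (nat_lit 53) (nat_lit 5) (nat_lit 470) (nat_lit 367) (nat_lit 183)) (XT.lf (nat_lit 0) (nat_lit 39066889889) (nat_lit 228) (nat_lit 13697416458) (nat_lit 76) (nat_lit 8506741369) (nat_lit 50) (nat_lit 5) (nat_lit 53) (nat_lit 5) (nat_lit 51) (nat_lit 4) (nat_lit 471) (nat_lit 367) (nat_lit 182)))) (XT.nd (nat_lit 156) (nat_lit 152) (nat_lit 0) (XT.nd (nat_lit 78) (nat_lit 76) (nat_lit 0) (XT.lf (nat_lit 0) (nat_lit 17121819152) (nat_lit 76) (nat_lit 37132612628) (nat_lit 152) (nat_lit 8351495405) (nat_lit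 49) (nat_lit 5) (nat_lit 50) (nat_lit 5) (nat_lit 51) (nat_lit 4) (nat_lit 472) (nat_lit 367) (nat_lit 181)) (XT.lf (nat_lit 0) (nat_lit 5936877379) (nat_lit 152) (nat_lit 14896175184) (nat_lit 76) (nat_lit 43142026864) (nat_lit 48) (nat_lit 5) (nat_lit 50) (nat_lit 5) (nat_lit 49) (nat_lit 5) (nat_lit 473) (nat_lit 367) (nat_lit 180))) (XT.nd (nat_lit 78) (nat_lit 0) (nat_lit 0) (XT.lf (nat_lit 0) (nat_lit 16848054159) (nat_lit 152) (nat_lit 3795964600) (nat_lit 228) (nat_lit 44734067873) (nat_lit 46) (nat_lit 5) (nat_lit 48) (nat_lit 5) (nat_lit 49) (nat_lit 5) (nat_lit 474) (nat_lit 367) (nat_lit 179)) (XT.lf (nat_lit 0) (nat_lit 36072513659) (nat_lit 228) (nat_lit 17109820635) (nat_lit 76) (nat_lit 13632445841) (nat_lit 46) (nat_lit 5) (nat_lit 49) (nat_lit 5) (nat_lit 47) (nat_lit 4) (nat_lit 475) (nat_lit 367) (nat_lit 178)))))) (XT.nd (nat_lit 546) (nat_lit 76) (nat_lit 0) (XT.nd (nat_lit 234) (nat_lit 304)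 (nat_lit 0) (XT.nd (nat_lit 78) (nat_lit 228) (nat_lit 0) (XT.lf (nat_lit 0) (nat_lit 15510870801) (nat_lit 76) (nat_lit 36635824819) (nat_lit 152) (nat_lit 16142394107) (nat_lit 45) (nat_lit 5) (nat_lit 46) (nat_lit 5) (nat_lit 47) (nat_lit 4) (nat_lit 476) (nat_lit 367) (nat_lit 177)) (XT.nd (nat_lit 78) (nat_lit 228) (nat_lit 0) (XT.lf (nat_lit 0) (nat_lit 49453772370) (nat_lit 76) (nat_lit 19418298237) (nat_lit 152) (nat_lit 930489217) (nat_lit 45) (nat_lit 5) (nat_lit 46) (nat_lit 5) (nat_lit 47) (nat_lit 4) (nat_lit 477) (nat_lit 367) (nat_lit 176)) (XT.lf (nat_lit 0) (nat_lit 13161678636) (nat_lit 152) (nat_lit 1411291262) (nat_lit 228) (nat_lit 56780530779) (nat_lit 42) (nat_lit 5) (nat_lit 44) (nat_lit 5) (nat_lit 45) (nat_lit 5) (nat_lit 478) (nat_lit 367) (nat_lit 175)))) (XT.nd (nat_lit 156) (nat_lit 228) (nat_lit 0) (XT.nd (nat_lit 78) (nat_lit 76) (nat_lit 0) (XT.lf (nat_lit 0) (nat_lit 30891345989)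 (nat_lit 228) (nat_lit 25033207200) (nat_lit 76) (nat_lit 17015084951) (nat_lit 42) (nat_lit 5) (nat_lit 45) (nat_lit 5) (nat_lit 43) (nat_lit 4) (nat_lit 479) (nat_lit 367) (nat_lit 174)) (XT.lf (nat_lit 0) (nat_lit 9280470262) (nat_lit 76) (nat_lit 38518371056) (nat_lit 152) (nat_lit 26771531589) (nat_lit 41) (nat_lit 5) (nat_lit 42) (nat_lit 5) (nat_lit 43) (nat_lit 4) (nat_lit 480) (nat_lit 367) (nat_lit 173))) (XT.nd (nat_lit 78) (nat_lit 228) (nat_lit 0) (XT.lf (nat_lit 0) (nat_lit 45129963054) (nat_lit 76) (nat_lit 20332810364) (nat_lit 152) (nat_lit 10779780150) (nat_lit 41) (nat_lit 5) (nat_lit 42) (nat_lit 5) (nat_lit 43) (nat_lit 4) (nat_lit 481) (nat_lit 367) (nat_lit 172)) (XT.lf (nat_lit 0) (nat_lit 4108883245) (nat_lit 152) (nat_lit 1507766806) (nat_lit 228) (nat_lit 72345528658) (nat_lit 38) (nat_lit 5) (nat_lit 40) (nat_lit 5) (nat_lit 41) (nat_lit 5) (nat_lit 482) (nat_lit 367) (nat_lit 171)))))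 (XT.nd (nat_lit 44148) (nat_lit 0) (nat_lit 19152) (XT.nd (nat_lit 156) (nat_lit 76) (nat_lit 0) (XT.nd (nat_lit 78) (nat_lit 0) (nat_lit 0) (XT.lf (nat_lit 0) (nat_lit 22773994503) (nat_lit 228) (nat_lit 38987556641) (nat_lit 76) (nat_lit 17954069212) (nat_lit 38) (nat_lit 5) (nat_lit 41) (nat_lit 5) (nat_lit 39) (nat_lit 4) (nat_lit 483) (nat_lit 367) (nat_lit 170)) (XT.lf (nat_lit 0) (nat_lit 40457593928) (nat_lit 228) (nat_lit 3097214810) (nat_lit 76) (nat_lit 37966510662) (nat_lit 38) (nat_lit 5) (nat_lit 41) (nat_lit 5) (nat_lit 39) (nat_lit 4) (nat_lit 484) (nat_lit 367) (nat_lit 169))) (XT.nd (nat_lit 78) (nat_lit 0) (nat_lit 0) (XT.lf (nat_lit 0) (nat_lit 34537535821) (nat_lit 76) (nat_lit 24462866538) (nat_lit 152) (nat_lit 24370926206) (nat_lit 37) (nat_lit 5) (nat_lit 38) (nat_lit 5) (nat_lit 39) (nat_lit 4) (nat_lit 485) (nat_lit 367) (nat_lit 168)) (XT.lf (nat_lit 0) (nat_lit 73358626966) (nat_lit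 76) (nat_lit 4768885425) (nat_lit 152) (nat_lit 7148485270) (nat_lit 37) (nat_lit 5) (nat_lit 38) (nat_lit 5) (nat_lit 39) (nat_lit 4) (nat_lit 486) (nat_lit 367) (nat_lit 167)))) (XT.nd (nat_lit 156) (nat_lit 0) (nat_lit 76) (XT.nd (nat_lit 78) (nat_lit 0) (nat_lit 0) (XT.lf (nat_lit 0) (nat_lit 2676152060) (nat_lit 1140) (nat_lit 1114965507) (nat_lit 1140) (nat_lit 1114965507) (nat_lit 289) (nat_lit 3) (nat_lit 304) (nat_lit 3) (nat_lit 304) (nat_lit 5) (nat_lit 368) (nat_lit 368) (nat_lit 284)) (XT.lf (nat_lit 76) (nat_lit 2597085531) (nat_lit 0) (nat_lit 3584327684) (nat_lit 1140) (nat_lit 3755211823) (nat_lit 290) (nat_lit 5) (nat_lit 289) (nat_lit 3) (nat_lit 304) (nat_lit 5) (nat_lit 369) (nat_lit 368) (nat_lit 283))) (XT.nd (nat_lit 78) (nat_lit 0) (nat_lit 0) (XT.lf (nat_lit 0) (nat_lit 7035002294) (nat_lit 1064) (nat_lit 2470705326) (nat_lit 1140) (nat_lit 559131976) (nat_lit 290) (nat_lit 5) (nat_lit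 304) (nat_lit 5) (nat_lit 305) (nat_lit 5) (nat_lit 370) (nat_lit 368) (nat_lit 282)) (XT.lf (nat_lit 76) (nat_lit 2542953196) (nat_lit 0) (nat_lit 5403739183) (nat_lit 1140) (nat_lit 2249243219) (nat_lit 291) (nat_lit 5) (nat_lit 290) (nat_lit 5) (nat_lit 305) (nat_lit 5) (nat_lit 371) (nat_lit 368) (nat_lit 281))))))))
noncomputable def xc166 : XT := (XT.nd (nat_lit 2262) (nat_lit 6384) (nat_lit 0) (XT.nd (nat_lit 1092) (nat_lit 5320) (nat_lit 0) (XT.nd (nat_lit 546) (nat_lit 836) (nat_lit 0) (XT.nd (nat_lit 234) (nat_lit 0) (nat_lit 76) (XT.nd (nat_lit 78) (nat_lit 1064) (nat_lit 0) (XT.lf (nat_lit 76) (nat_lit 7742444773) (nat_lit 0) (nat_lit 1141451063) (nat_lit 1140) (nat_lit 1447133287) (nat_lit 291) (nat_lit 5) (nat_lit 290) (nat_lit 5) (nat_lit 305) (nat_lit 5) (nat_lit 372) (nat_lit 368) (nat_lit 280)) (XT.nd (nat_lit 78) (nat_lit 1140) (nat_lit 0) (XT.lf (nat_lit 76) (nat_lit 2632203182) (nat_lit 0)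 (nat_lit 7247644603) (nat_lit 1140) (nat_lit 589417943) (nat_lit 292) (nat_lit 5) (nat_lit 291) (nat_lit 5) (nat_lit 306) (nat_lit 5) (nat_lit 373) (nat_lit 368) (nat_lit 279)) (XT.lf (nat_lit 0) (nat_lit 300438590) (nat_lit 1140) (nat_lit 2578615387) (nat_lit 1216) (nat_lit 7732154958) (nat_lit 276) (nat_lit 5) (nat_lit 291) (nat_lit 5) (nat_lit 292) (nat_lit 5) (nat_lit 374) (nat_lit 368) (nat_lit 278)))) (XT.nd (nat_lit 156) (nat_lit 0) (nat_lit 0) (XT.nd (nat_lit 78) (nat_lit 0) (nat_lit 0) (XT.lf (nat_lit 0) (nat_lit 1223943334) (nat_lit 1140) (nat_lit 7900935086) (nat_lit 1216) (nat_lit 1631801430) (nat_lit 277) (nat_lit 5) (nat_lit 292) (nat_lit 5) (nat_lit 293) (nat_lit 5) (nat_lit 375) (nat_lit 368) (nat_lit 277)) (XT.lf (nat_lit 0) (nat_lit 2205806137) (nat_lit 1140) (nat_lit 2444743490) (nat_lit 1216) (nat_lit 6255053889) (nat_lit 277) (nat_lit 5) (nat_lit 292) (nat_lit 5) (nat_lit 293) (nat_lit 5) (nat_lit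 376) (nat_lit 368) (nat_lit 276))) (XT.nd (nat_lit 78) (nat_lit 0) (nat_lit 76) (XT.lf (nat_lit 76) (nat_lit 3222243190) (nat_lit 0) (nat_lit 2409849) (nat_lit 1216) (nat_lit 7834123985) (nat_lit 278) (nat_lit 5) (nat_lit 277) (nat_lit 5) (nat_lit 293) (nat_lit 5) (nat_lit 377) (nat_lit 368) (nat_lit 275)) (XT.lf (nat_lit 0) (nat_lit 4322151925) (nat_lit 1140) (nat_lit 2169072202) (nat_lit 1216) (nat_lit 4723886754) (nat_lit 278) (nat_lit 5) (nat_lit 293) (nat_lit 5) (nat_lit 294) (nat_lit 5) (nat_lit 378) (nat_lit 368) (nat_lit 274))))) (XT.nd (nat_lit 234) (nat_lit 988) (nat_lit 0) (XT.nd (nat_lit 78) (nat_lit 0) (nat_lit 76) (XT.lf (nat_lit 76) (nat_lit 3725179190) (nat_lit 0) (nat_lit 1741051489) (nat_lit 1216) (nat_lit 5909501945) (nat_lit 279) (nat_lit 5) (nat_lit 278) (nat_lit 5) (nat_lit 294) (nat_lit 5) (nat_lit 379) (nat_lit 368) (nat_lit 273)) (XT.nd (nat_lit 78) (nat_lit 0) (nat_lit 0) (XT.lf (nat_lit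 0) (nat_lit 6675421404) (nat_lit 1140) (nat_lit 1746767017) (nat_lit 1216) (nat_lit 3118068209) (nat_lit 279) (nat_lit 5) (nat_lit 294) (nat_lit 5) (nat_lit 295) (nat_lit 5) (nat_lit 380) (nat_lit 368) (nat_lit 272)) (XT.lf (nat_lit 76) (nat_lit 4386510060) (nat_lit 0) (nat_lit 3572785629) (nat_lit 1216) (nat_lit 3749275519) (nat_lit 280) (nat_lit 5) (nat_lit 279) (nat_lit 5) (nat_lit 295) (nat_lit 5) (nat_lit 381) (nat_lit 368) (nat_lit 271)))) (XT.nd (nat_lit 156) (nat_lit 1140) (nat_lit 0) (XT.nd (nat_lit 78) (nat_lit 0) (nat_lit 0) (XT.lf (nat_lit 0) (nat_lit 9292678458) (nat_lit 1140) (nat_lit 1172151328) (nat_lit 1216) (nat_lit 1416782548) (nat_lit 280) (nat_lit 5) (nat_lit 295) (nat_lit 5) (nat_lit 296) (nat_lit 5) (nat_lit 382) (nat_lit 368) (nat_lit 270)) (XT.lf (nat_lit 76) (nat_lit 5212585362) (nat_lit 0) (nat_lit 5519063461) (nat_lit 1216) (nat_lit 1326234968) (nat_lit 281) (nat_lit 5) (nat_lit 280)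 (nat_lit 5) (nat_lit 296) (nat_lit 5) (nat_lit 383) (nat_lit 368) (nat_lit 269))) (XT.nd (nat_lit 78) (nat_lit 1140) (nat_lit 0) (XT.lf (nat_lit 76) (nat_lit 11797036469) (nat_lit 0) (nat_lit 409120739) (nat_lit 1216) (nat_lit 33521600) (nat_lit 281) (nat_lit 5) (nat_lit 280) (nat_lit 5) (nat_lit 296) (nat_lit 5) (nat_lit 384) (nat_lit 368) (nat_lit 268)) (XT.lf (nat_lit 0) (nat_lit 1360999430) (nat_lit 1216) (nat_lit 6227028827) (nat_lit 76) (nat_lit 4835880592) (nat_lit 265) (nat_lit 5) (nat_lit 281) (nat_lit 5) (nat_lit 266) (nat_lit 5) (nat_lit 385) (nat_lit 368) (nat_lit 267)))))) (XT.nd (nat_lit 546) (nat_lit 2204) (nat_lit 0) (XT.nd (nat_lit 234) (nat_lit 1216) (nat_lit 0) (XT.nd (nat_lit 78) (nat_lit 684) (nat_lit 0) (XT.lf (nat_lit 0) (nat_lit 418651391) (nat_lit 1216) (nat_lit 2371961617) (nat_lit 1292) (nat_lit 9823230840) (nat_lit 249) (nat_lit 5) (nat_lit 265) (nat_lit 5) (nat_lit 266) (nat_lit 5)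 (nat_lit 386) (nat_lit 368) (nat_lit 266)) (XT.nd (nat_lit 78) (nat_lit 684) (nat_lit 0) (XT.lf (nat_lit 0) (nat_lit 4337213660) (nat_lit 1292) (nat_lit 5462343806) (nat_lit 76) (nat_lit 3007702233) (nat_lit 249) (nat_lit 5) (nat_lit 266) (nat_lit 5) (nat_lit 250) (nat_lit 5) (nat_lit 387) (nat_lit 368) (nat_lit 265)) (XT.lf (nat_lit 0) (nat_lit 1461369424) (nat_lit 684) (nat_lit 4488658578) (nat_lit 760) (nat_lit 7055861148) (nat_lit 240) (nat_lit 5) (nat_lit 249) (nat_lit 5) (nat_lit 250) (nat_lit 5) (nat_lit 388) (nat_lit 368) (nat_lit 264)))) (XT.nd (nat_lit 156) (nat_lit 608) (nat_lit 0) (XT.nd (nat_lit 78) (nat_lit 608) (nat_lit 0) (XT.lf (nat_lit 0) (nat_lit 7659025961) (nat_lit 760) (nat_lit 4530570995) (nat_lit 76) (nat_lit 1019451983) (nat_lit 240) (nat_lit 5) (nat_lit 250) (nat_lit 5) (nat_lit 241) (nat_lit 5) (nat_lit 389) (nat_lit 368) (nat_lit 263)) (XT.lf (nat_lit 0) (nat_lit 2685709997) (nat_lit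 608) (nat_lit 6787006470) (nat_lit 684) (nat_lit 3943989648) (nat_lit 232) (nat_lit 5) (nat_lit 240) (nat_lit 5) (nat_lit 241) (nat_lit 5) (nat_lit 390) (nat_lit 368) (nat_lit 262))) (XT.nd (nat_lit 78) (nat_lit 608) (nat_lit 0) (XT.lf (nat_lit 0) (nat_lit 10195457143) (nat_lit 608) (nat_lit 1174611778) (nat_lit 684) (nat_lit 2259651670) (nat_lit 232) (nat_lit 5) (nat_lit 240) (nat_lit 5) (nat_lit 241) (nat_lit 5) (nat_lit 391) (nat_lit 368) (nat_lit 261)) (XT.lf (nat_lit 0) (nat_lit 4101200474) (nat_lit 608) (nat_lit 9290829425) (nat_lit 684) (nat_lit 455069931) (nat_lit 224) (nat_lit 5) (nat_lit 232) (nat_lit 5) (nat_lit 233) (nat_lit 5) (nat_lit 392) (nat_lit 368) (nat_lit 260))))) (XT.nd (nat_lit 312) (nat_lit 1064) (nat_lit 0) (XT.nd (nat_lit 156) (nat_lit 532) (nat_lit 0) (XT.nd (nat_lit 78) (nat_lit 532) (nat_lit 0) (XT.lf (nat_lit 0) (nat_lit 1407053711) (nat_lit 684) (nat_lit 2178385560) (nat_lit 76) (nat_lit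 10484237238) (nat_lit 223) (nat_lit 5) (nat_lit 232) (nat_lit 5) (nat_lit 224) (nat_lit 5) (nat_lit 393) (nat_lit 368) (nat_lit 259)) (XT.lf (nat_lit 0) (nat_lit 3377970966) (nat_lit 608) (nat_lit 8612823504) (nat_lit 76) (nat_lit 2306143106) (nat_lit 216) (nat_lit 5) (nat_lit 224) (nat_lit 5) (nat_lit 217) (nat_lit 5) (nat_lit 394) (nat_lit 368) (nat_lit 258))) (XT.nd (nat_lit 78) (nat_lit 532) (nat_lit 0) (XT.lf (nat_lit 0) (nat_lit 5450630648) (nat_lit 608) (nat_lit 754849290) (nat_lit 76) (nat_lit 8324262505) (nat_lit 216) (nat_lit 5) (nat_lit 224) (nat_lit 5) (nat_lit 217) (nat_lit 5) (nat_lit 395) (nat_lit 368) (nat_lit 257)) (XT.lf (nat_lit 0) (nat_lit 7469158999) (nat_lit 532) (nat_lit 173449335) (nat_lit 608) (nat_lit 7125213263) (nat_lit 209) (nat_lit 5) (nat_lit 216) (nat_lit 5) (nat_lit 217) (nat_lit 5) (nat_lit 396) (nat_lit 368) (nat_lit 256)))) (XT.nd (nat_lit 156) (nat_lit 608) (nat_lit 0) (XT.nd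 (nat_lit 78) (nat_lit 0) (nat_lit 0) (XT.lf (nat_lit 0) (nat_lit 885973541) (nat_lit 456) (nat_lit 9074253160) (nat_lit 532) (nat_lit 5051024147) (nat_lit 203) (nat_lit 5) (nat_lit 209) (nat_lit 5) (nat_lit 210) (nat_lit 5) (nat_lit 397) (nat_lit 368) (nat_lit 255)) (XT.lf (nat_lit 0) (nat_lit 9448436411) (nat_lit 456) (nat_lit 2960220325) (nat_lit 532) (nat_lit 2851491788) (nat_lit 203) (nat_lit 5) (nat_lit 209) (nat_lit 5) (nat_lit 210) (nat_lit 5) (nat_lit 398) (nat_lit 368) (nat_lit 254))) (XT.nd (nat_lit 78) (nat_lit 76) (nat_lit 0) (XT.lf (nat_lit 0) (nat_lit 2757464385) (nat_lit 532) (nat_lit 12217939358) (nat_lit 608) (nat_lit 539767388) (nat_lit 196) (nat_lit 5) (nat_lit 203) (nat_lit 5) (nat_lit 204) (nat_lit 5) (nat_lit 399) (nat_lit 368) (nat_lit 253)) (XT.lf (nat_lit 0) (nat_lit 1880348152) (nat_lit 608) (nat_lit 4136469678) (nat_lit 76) (nat_lit 9758250192) (nat_lit 195) (nat_lit 5) (nat_lit 203)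 (nat_lit 5) (nat_lit 196) (nat_lit 5) (nat_lit 400) (nat_lit 368) (nat_lit 252))))))) (XT.nd (nat_lit 1092) (nat_lit 2888) (nat_lit 0) (XT.nd (nat_lit 546) (nat_lit 1596) (nat_lit 0) (XT.nd (nat_lit 234) (nat_lit 988) (nat_lit 0) (XT.nd (nat_lit 78) (nat_lit 456) (nat_lit 0) (XT.lf (nat_lit 0) (nat_lit 4399362473) (nat_lit 532) (nat_lit 11228800693) (nat_lit 76) (nat_lit 413327593) (nat_lit 189) (nat_lit 5) (nat_lit 196) (nat_lit 5) (nat_lit 190) (nat_lit 5) (nat_lit 401) (nat_lit 368) (nat_lit 251)) (XT.nd (nat_lit 78) (nat_lit 456) (nat_lit 0) (XT.lf (nat_lit 0) (nat_lit 7082712986) (nat_lit 532) (nat_lit 2274935447) (nat_lit 76) (nat_lit 6955598259) (nat_lit 189) (nat_lit 5) (nat_lit 196) (nat_lit 5) (nat_lit 190) (nat_lit 5) (nat_lit 402) (nat_lit 368) (nat_lit 250)) (XT.lf (nat_lit 0) (nat_lit 7070552130) (nat_lit 456) (nat_lit 2831366230) (nat_lit 532) (nat_lit 6689579698) (nat_lit 183) (nat_lit 5) (nat_lit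 189) (nat_lit 5) (nat_lit 190) (nat_lit 5) (nat_lit 403) (nat_lit 368) (nat_lit 249)))) (XT.nd (nat_lit 156) (nat_lit 532) (nat_lit 0) (XT.nd (nat_lit 78) (nat_lit 456) (nat_lit 0) (XT.lf (nat_lit 0) (nat_lit 12853888956) (nat_lit 532) (nat_lit 187167164) (nat_lit 76) (nat_lit 3835598457) (nat_lit 183) (nat_lit 5) (nat_lit 190) (nat_lit 5) (nat_lit 184) (nat_lit 5) (nat_lit 404) (nat_lit 368) (nat_lit 248)) (XT.lf (nat_lit 0) (nat_lit 9570620392) (nat_lit 456) (nat_lit 6431781134) (nat_lit 532) (nat_lit 1164727971) (nat_lit 177) (nat_lit 5) (nat_lit 183) (nat_lit 5) (nat_lit 184) (nat_lit 5) (nat_lit 405) (nat_lit 368) (nat_lit 247))) (XT.nd (nat_lit 78) (nat_lit 0) (nat_lit 0) (XT.lf (nat_lit 0) (nat_lit 1759115182) (nat_lit 532) (nat_lit 15300365759) (nat_lit 76) (nat_lit 405884288) (nat_lit 170) (nat_lit 5) (nat_lit 177) (nat_lit 5) (nat_lit 171) (nat_lit 5) (nat_lit 406) (nat_lit 368) (nat_lit 246)) (XT.lf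 (nat_lit 0) (nat_lit 4876634527) (nat_lit 532) (nat_lit 5486152004) (nat_lit 76) (nat_lit 7405537339) (nat_lit 170) (nat_lit 5) (nat_lit 177) (nat_lit 5) (nat_lit 171) (nat_lit 5) (nat_lit 407) (nat_lit 368) (nat_lit 245))))) (XT.nd (nat_lit 234) (nat_lit 836) (nat_lit 0) (XT.nd (nat_lit 78) (nat_lit 380) (nat_lit 0) (XT.lf (nat_lit 0) (nat_lit 4699624773) (nat_lit 380) (nat_lit 3421793864) (nat_lit 456) (nat_lit 9957943293) (nat_lit 165) (nat_lit 5) (nat_lit 170) (nat_lit 5) (nat_lit 171) (nat_lit 5) (nat_lit 408) (nat_lit 368) (nat_lit 244)) (XT.nd (nat_lit 78) (nat_lit 380) (nat_lit 0) (XT.lf (nat_lit 0) (nat_lit 11544051802) (nat_lit 456) (nat_lit 3145748940) (nat_lit 76) (nat_lit 3707517975) (nat_lit 165) (nat_lit 5) (nat_lit 171) (nat_lit 5) (nat_lit 166) (nat_lit 5) (nat_lit 409) (nat_lit 368) (nat_lit 243)) (XT.lf (nat_lit 0) (nat_lit 7493293594) (nat_lit 380) (nat_lit 7671035285) (nat_lit 456) (nat_lit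 3557639053) (nat_lit 160) (nat_lit 5) (nat_lit 165) (nat_lit 5) (nat_lit 166) (nat_lit 5) (nat_lit 410) (nat_lit 368) (nat_lit 242)))) (XT.nd (nat_lit 156) (nat_lit 380) (nat_lit 0) (XT.nd (nat_lit 78) (nat_lit 456) (nat_lit 0) (XT.lf (nat_lit 0) (nat_lit 18501825113) (nat_lit 380) (nat_lit 412393287) (nat_lit 456) (nat_lit 141510692) (nat_lit 160) (nat_lit 5) (nat_lit 165) (nat_lit 5) (nat_lit 166) (nat_lit 5) (nat_lit 411) (nat_lit 368) (nat_lit 241)) (XT.lf (nat_lit 0) (nat_lit 3471757666) (nat_lit 456) (nat_lit 8863437882) (nat_lit 76) (nat_lit 7058519435) (nat_lit 154) (nat_lit 5) (nat_lit 160) (nat_lit 5) (nat_lit 155) (nat_lit 5) (nat_lit 412) (nat_lit 368) (nat_lit 240))) (XT.nd (nat_lit 78) (nat_lit 0) (nat_lit 0) (XT.lf (nat_lit 0) (nat_lit 2240740195) (nat_lit 380) (nat_lit 4970697911) (nat_lit 456) (nat_lit 12529736938) (nat_lit 149) (nat_lit 5) (nat_lit 154) (nat_lit 5) (nat_lit 155) (nat_lit 5) (nat_lit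 413) (nat_lit 368) (nat_lit 239)) (XT.lf (nat_lit 0) (nat_lit 11168553109) (nat_lit 456) (nat_lit 6276905045) (nat_lit 76) (nat_lit 2650445733) (nat_lit 149) (nat_lit 5) (nat_lit 155) (nat_lit 5) (nat_lit 150) (nat_lit 5) (nat_lit 414) (nat_lit 368) (nat_lit 238)))))) (XT.nd (nat_lit 546) (nat_lit 1520) (nat_lit 0) (XT.nd (nat_lit 234) (nat_lit 608) (nat_lit 0) (XT.nd (nat_lit 78) (nat_lit 456) (nat_lit 0) (XT.lf (nat_lit 0) (nat_lit 5324178618) (nat_lit 304) (nat_lit 10010616651) (nat_lit 380) (nat_lit 5123769152) (nat_lit 145) (nat_lit 5) (nat_lit 149) (nat_lit 5) (nat_lit 150) (nat_lit 5) (nat_lit 415) (nat_lit 368) (nat_lit 237)) (XT.nd (nat_lit 78) (nat_lit 456) (nat_lit 0) (XT.lf (nat_lit 0) (nat_lit 17388269685) (nat_lit 304) (nat_lit 2291318100) (nat_lit 380) (nat_lit 1150912266) (nat_lit 145) (nat_lit 5) (nat_lit 149) (nat_lit 5) (nat_lit 150) (nat_lit 5) (nat_lit 416) (nat_lit 368) (nat_lit 236)) (XT.lf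 (nat_lit 0) (nat_lit 3013494351) (nat_lit 456) (nat_lit 12536729160) (nat_lit 76) (nat_lit 5658631446) (nat_lit 139) (nat_lit 5) (nat_lit 145) (nat_lit 5) (nat_lit 140) (nat_lit 5) (nat_lit 417) (nat_lit 368) (nat_lit 235)))) (XT.nd (nat_lit 156) (nat_lit 304) (nat_lit 0) (XT.nd (nat_lit 78) (nat_lit 304) (nat_lit 0) (XT.lf (nat_lit 0) (nat_lit 7327974309) (nat_lit 456) (nat_lit 425075551) (nat_lit 76) (nat_lit 13843722583) (nat_lit 139) (nat_lit 5) (nat_lit 145) (nat_lit 5) (nat_lit 140) (nat_lit 5) (nat_lit 418) (nat_lit 368) (nat_lit 234)) (XT.lf (nat_lit 0) (nat_lit 11884458867) (nat_lit 380) (nat_lit 9720598184) (nat_lit 76) (nat_lit 387895226) (nat_lit 135) (nat_lit 5) (nat_lit 140) (nat_lit 5) (nat_lit 136) (nat_lit 5) (nat_lit 419) (nat_lit 368) (nat_lit 233))) (XT.nd (nat_lit 78) (nat_lit 0) (nat_lit 0) (XT.lf (nat_lit 0) (nat_lit 2925495309) (nat_lit 304) (nat_lit 13752227447) (nat_lit 380) (nat_lit 5720294079)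 (nat_lit 131) (nat_lit 5) (nat_lit 135) (nat_lit 5) (nat_lit 136) (nat_lit 5) (nat_lit 420) (nat_lit 368) (nat_lit 232)) (XT.lf (nat_lit 0) (nat_lit 16137047110) (nat_lit 304) (nat_lit 5566901074) (nat_lit 380) (nat_lit 1108612058) (nat_lit 131) (nat_lit 5) (nat_lit 135) (nat_lit 5) (nat_lit 136) (nat_lit 5) (nat_lit 421) (nat_lit 368) (nat_lit 231))))) (XT.nd (nat_lit 312) (nat_lit 608) (nat_lit 0) (XT.nd (nat_lit 156) (nat_lit 532) (nat_lit 0) (XT.nd (nat_lit 78) (nat_lit 0) (nat_lit 0) (XT.lf (nat_lit 0) (nat_lit 3653313469) (nat_lit 380) (nat_lit 16679383862) (nat_lit 76) (nat_lit 2903305719) (nat_lit 126) (nat_lit 5) (nat_lit 131) (nat_lit 5) (nat_lit 127) (nat_lit 5) (nat_lit 422) (nat_lit 368) (nat_lit 230)) (XT.lf (nat_lit 0) (nat_lit 8650281395) (nat_lit 380) (nat_lit 3427406944) (nat_lit 76) (nat_lit 11590699178) (nat_lit 126) (nat_lit 5) (nat_lit 131) (nat_lit 5) (nat_lit 127) (nat_lit 5) (nat_lit 423)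 (nat_lit 368) (nat_lit 229))) (XT.nd (nat_lit 78) (nat_lit 228) (nat_lit 0) (XT.lf (nat_lit 0) (nat_lit 10412622454) (nat_lit 304) (nat_lit 3476154411) (nat_lit 380) (nat_lit 10222219715) (nat_lit 122) (nat_lit 5) (nat_lit 126) (nat_lit 5) (nat_lit 127) (nat_lit 5) (nat_lit 424) (nat_lit 368) (nat_lit 228)) (XT.lf (nat_lit 0) (nat_lit 109529911) (nat_lit 228) (nat_lit 19254263107) (nat_lit 304) (nat_lit 5200711491) (nat_lit 119) (nat_lit 5) (nat_lit 122) (nat_lit 5) (nat_lit 123) (nat_lit 5) (nat_lit 425) (nat_lit 368) (nat_lit 227)))) (XT.nd (nat_lit 156) (nat_lit 228) (nat_lit 0) (XT.nd (nat_lit 78) (nat_lit 304) (nat_lit 0) (XT.lf (nat_lit 0) (nat_lit 137763649) (nat_lit 304) (nat_lit 10463329888) (nat_lit 76) (nat_lit 14425560922) (nat_lit 118) (nat_lit 5) (nat_lit 122) (nat_lit 5) (nat_lit 119) (nat_lit 5) (nat_lit 426) (nat_lit 368) (nat_lit 226)) (XT.lf (nat_lit 0) (nat_lit 3961423219) (nat_lit 304) (nat_lit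 1600414220) (nat_lit 380) (nat_lit 19938388933) (nat_lit 114) (nat_lit 5) (nat_lit 118) (nat_lit 5) (nat_lit 119) (nat_lit 5) (nat_lit 427) (nat_lit 368) (nat_lit 225))) (XT.nd (nat_lit 78) (nat_lit 228) (nat_lit 0) (XT.lf (nat_lit 0) (nat_lit 11321039963) (nat_lit 380) (nat_lit 7038734006) (nat_lit 76) (nat_lit 7623060672) (nat_lit 114) (nat_lit 5) (nat_lit 119) (nat_lit 5) (nat_lit 115) (nat_lit 5) (nat_lit 428) (nat_lit 368) (nat_lit 224)) (XT.lf (nat_lit 0) (nat_lit 8024923928) (nat_lit 228) (nat_lit 9313284484) (nat_lit 304) (nat_lit 9139158403) (nat_lit 111) (nat_lit 5) (nat_lit 114) (nat_lit 5) (nat_lit 115) (nat_lit 5) (nat_lit 429) (nat_lit 368) (nat_lit 223))))))))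
noncomputable def xc167 : XT := (XT.nd (nat_lit 2262) (nat_lit 2128) (nat_lit 0) (XT.nd (nat_lit 1092) (nat_lit 1596) (nat_lit 0) (XT.nd (nat_lit 546) (nat_lit 836) (nat_lit 0) (XT.nd (nat_lit 234) (nat_lit 532) (nat_lit 0) (XT.nd (nat_lit 78) (nat_lit 532) (nat_lit 0) (XT.lf (nat_lit 0) (nat_lit 23599990376) (nat_lit 304) (nat_lit 3312805335) (nat_lit 76) (nat_lit 72017604) (nat_lit 111) (nat_lit 5) (nat_lit 115) (nat_lit 5) (nat_lit 112) (nat_lit 5) (nat_lit 430) (nat_lit 368) (nat_lit 222)) (XT.nd (nat_lit 78) (nat_lit 228) (nat_lit 0) (XT.lf (nat_lit 0) (nat_lit 2698646267) (nat_lit 304) (nat_lit 15108540810) (nat_lit 76) (nat_lit 9693380972) (nat_lit 107) (nat_lit 5) (nat_lit 111) (nat_lit 5) (nat_lit 108) (nat_lit 5) (nat_lit 431) (nat_lit 368) (nat_lit 221)) (XT.lf (nat_lit 0) (nat_lit 570499777) (nat_lit 228) (nat_lit 8357885386) (nat_lit 304) (nat_lit 19101452156) (nat_lit 104) (nat_lit 5) (nat_lit 107)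 (nat_lit 5) (nat_lit 108) (nat_lit 5) (nat_lit 432) (nat_lit 368) (nat_lit 220)))) (XT.nd (nat_lit 156) (nat_lit 304) (nat_lit 0) (XT.nd (nat_lit 78) (nat_lit 228) (nat_lit 0) (XT.lf (nat_lit 0) (nat_lit 15504900587) (nat_lit 304) (nat_lit 11567486171) (nat_lit 76) (nat_lit 1497802545) (nat_lit 104) (nat_lit 5) (nat_lit 108) (nat_lit 5) (nat_lit 105) (nat_lit 5) (nat_lit 433) (nat_lit 368) (nat_lit 219)) (XT.lf (nat_lit 0) (nat_lit 4800418125) (nat_lit 228) (nat_lit 17599995870) (nat_lit 304) (nat_lit 6722687911) (nat_lit 101) (nat_lit 5) (nat_lit 104) (nat_lit 5) (nat_lit 105) (nat_lit 5) (nat_lit 434) (nat_lit 368) (nat_lit 218))) (XT.nd (nat_lit 78) (nat_lit 304) (nat_lit 0) (XT.lf (nat_lit 0) (nat_lit 21884970923) (nat_lit 228) (nat_lit 7727536307) (nat_lit 304) (nat_lit 76804324) (nat_lit 101) (nat_lit 5) (nat_lit 104) (nat_lit 5) (nat_lit 105) (nat_lit 5) (nat_lit 435) (nat_lit 368) (nat_lit 217)) (XT.lf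 (nat_lit 0) (nat_lit 6743916793) (nat_lit 304) (nat_lit 20978089912) (nat_lit 76) (nat_lit 2545323809) (nat_lit 97) (nat_lit 5) (nat_lit 101) (nat_lit 5) (nat_lit 98) (nat_lit 5) (nat_lit 436) (nat_lit 368) (nat_lit 216))))) (XT.nd (nat_lit 234) (nat_lit 456) (nat_lit 0) (XT.nd (nat_lit 78) (nat_lit 380) (nat_lit 0) (XT.lf (nat_lit 0) (nat_lit 13916911018) (nat_lit 304) (nat_lit 3894135354) (nat_lit 76) (nat_lit 13047146010) (nat_lit 97) (nat_lit 5) (nat_lit 101) (nat_lit 5) (nat_lit 98) (nat_lit 5) (nat_lit 437) (nat_lit 368) (nat_lit 215)) (XT.nd (nat_lit 78) (nat_lit 152) (nat_lit 0) (XT.lf (nat_lit 0) (nat_lit 13963783500) (nat_lit 228) (nat_lit 7468837166) (nat_lit 304) (nat_lit 10030334649) (nat_lit 94) (nat_lit 5) (nat_lit 97) (nat_lit 5) (nat_lit 98) (nat_lit 5) (nat_lit 438) (nat_lit 368) (nat_lit 214)) (XT.lf (nat_lit 0) (nat_lit 316683996) (nat_lit 152) (nat_lit 28923823150) (nat_lit 228) (nat_lit 2843353774)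 (nat_lit 92) (nat_lit 5) (nat_lit 94) (nat_lit 5) (nat_lit 95) (nat_lit 5) (nat_lit 439) (nat_lit 368) (nat_lit 213)))) (XT.nd (nat_lit 156) (nat_lit 152) (nat_lit 0) (XT.nd (nat_lit 78) (nat_lit 228) (nat_lit 0) (XT.lf (nat_lit 0) (nat_lit 4716043378) (nat_lit 228) (nat_lit 13822997598) (nat_lit 76) (nat_lit 14175665608) (nat_lit 91) (nat_lit 5) (nat_lit 94) (nat_lit 5) (nat_lit 92) (nat_lit 5) (nat_lit 440) (nat_lit 368) (nat_lit 212)) (XT.lf (nat_lit 0) (nat_lit 4712525234) (nat_lit 228) (nat_lit 7771409645) (nat_lit 304) (nat_lit 20878533216) (nat_lit 88) (nat_lit 5) (nat_lit 91) (nat_lit 5) (nat_lit 92) (nat_lit 5) (nat_lit 441) (nat_lit 368) (nat_lit 211))) (XT.nd (nat_lit 78) (nat_lit 152) (nat_lit 0) (XT.lf (nat_lit 0) (nat_lit 20651341589) (nat_lit 304) (nat_lit 9982124223) (nat_lit 76) (nat_lit 3391203129) (nat_lit 88) (nat_lit 5) (nat_lit 92) (nat_lit 5) (nat_lit 89) (nat_lit 5) (nat_lit 442) (nat_lit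 368) (nat_lit 210)) (XT.lf (nat_lit 0) (nat_lit 9340535029) (nat_lit 152) (nat_lit 19883757922) (nat_lit 228) (nat_lit 5477628007) (nat_lit 86) (nat_lit 5) (nat_lit 88) (nat_lit 5) (nat_lit 89) (nat_lit 5) (nat_lit 443) (nat_lit 368) (nat_lit 209)))))) (XT.nd (nat_lit 546) (nat_lit 760) (nat_lit 0) (XT.nd (nat_lit 234) (nat_lit 532) (nat_lit 0) (XT.nd (nat_lit 78) (nat_lit 228) (nat_lit 0) (XT.lf (nat_lit 0) (nat_lit 2698742886) (nat_lit 228) (nat_lit 5986025299) (nat_lit 76) (nat_lit 26711089253) (nat_lit 85) (nat_lit 5) (nat_lit 88) (nat_lit 5) (nat_lit 86) (nat_lit 5) (nat_lit 444) (nat_lit 368) (nat_lit 208)) (XT.nd (nat_lit 78) (nat_lit 0) (nat_lit 0) (XT.lf (nat_lit 0) (nat_lit 11169879095) (nat_lit 304) (nat_lit 21951429233) (nat_lit 76) (nat_lit 2982890343) (nat_lit 82) (nat_lit 5) (nat_lit 86) (nat_lit 5) (nat_lit 83) (nat_lit 5) (nat_lit 445) (nat_lit 368) (nat_lit 207)) (XT.lf (nat_lit 0) (nat_lit 20036210538)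 (nat_lit 304) (nat_lit 1910396084) (nat_lit 76) (nat_lit 14882952413) (nat_lit 82) (nat_lit 5) (nat_lit 86) (nat_lit 5) (nat_lit 83) (nat_lit 5) (nat_lit 446) (nat_lit 368) (nat_lit 206)))) (XT.nd (nat_lit 156) (nat_lit 152) (nat_lit 0) (XT.nd (nat_lit 78) (nat_lit 228) (nat_lit 0) (XT.lf (nat_lit 0) (nat_lit 19094500901) (nat_lit 152) (nat_lit 10251780734) (nat_lit 228) (nat_lit 8225066788) (nat_lit 80) (nat_lit 5) (nat_lit 82) (nat_lit 5) (nat_lit 83) (nat_lit 5) (nat_lit 447) (nat_lit 368) (nat_lit 205)) (XT.lf (nat_lit 0) (nat_lit 643644261) (nat_lit 228) (nat_lit 35885718762) (nat_lit 76) (nat_lit 1804203208) (nat_lit 77) (nat_lit 5) (nat_lit 80) (nat_lit 5) (nat_lit 78) (nat_lit 5) (nat_lit 448) (nat_lit 368) (nat_lit 204))) (XT.nd (nat_lit 78) (nat_lit 152) (nat_lit 0) (XT.lf (nat_lit 0) (nat_lit 9897282446) (nat_lit 228) (nat_lit 14928820436) (nat_lit 76) (nat_lit 14281579804) (nat_lit 77) (nat_lit 5) (nat_lit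 80) (nat_lit 5) (nat_lit 78) (nat_lit 5) (nat_lit 449) (nat_lit 368) (nat_lit 203)) (XT.lf (nat_lit 0) (nat_lit 6779344738) (nat_lit 152) (nat_lit 12708771145) (nat_lit 228) (nat_lit 20415119795) (nat_lit 75) (nat_lit 5) (nat_lit 77) (nat_lit 5) (nat_lit 78) (nat_lit 5) (nat_lit 450) (nat_lit 368) (nat_lit 202))))) (XT.nd (nat_lit 312) (nat_lit 380) (nat_lit 0) (XT.nd (nat_lit 156) (nat_lit 228) (nat_lit 0) (XT.nd (nat_lit 78) (nat_lit 152) (nat_lit 0) (XT.lf (nat_lit 0) (nat_lit 29435146903) (nat_lit 152) (nat_lit 76768082) (nat_lit 228) (nat_lit 11206383666) (nat_lit 75) (nat_lit 5) (nat_lit 77) (nat_lit 5) (nat_lit 78) (nat_lit 5) (nat_lit 451) (nat_lit 368) (nat_lit 201)) (XT.lf (nat_lit 0) (nat_lit 11299495914) (nat_lit 152) (nat_lit 28764492094) (nat_lit 228) (nat_lit 1486999297) (nat_lit 73) (nat_lit 5) (nat_lit 75) (nat_lit 5) (nat_lit 76) (nat_lit 5) (nat_lit 452) (nat_lit 368) (nat_lit 200))) (XT.nd (nat_lit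 78) (nat_lit 152) (nat_lit 0) (XT.lf (nat_lit 0) (nat_lit 8468083591) (nat_lit 228) (nat_lit 7707638503) (nat_lit 76) (nat_lit 26227163447) (nat_lit 72) (nat_lit 5) (nat_lit 75) (nat_lit 5) (nat_lit 73) (nat_lit 5) (nat_lit 453) (nat_lit 368) (nat_lit 199)) (XT.lf (nat_lit 0) (nat_lit 15796846192) (nat_lit 152) (nat_lit 3041715474) (nat_lit 228) (nat_lit 24436939019) (nat_lit 70) (nat_lit 5) (nat_lit 72) (nat_lit 5) (nat_lit 73) (nat_lit 5) (nat_lit 454) (nat_lit 368) (nat_lit 198)))) (XT.nd (nat_lit 156) (nat_lit 228) (nat_lit 0) (XT.nd (nat_lit 78) (nat_lit 152) (nat_lit 0) (XT.lf (nat_lit 0) (nat_lit 29694364687) (nat_lit 228) (nat_lit 4118307373) (nat_lit 76) (nat_lit 10356396431) (nat_lit 70) (nat_lit 5) (nat_lit 73) (nat_lit 5) (nat_lit 71) (nat_lit 5) (nat_lit 455) (nat_lit 368) (nat_lit 197)) (XT.lf (nat_lit 0) (nat_lit 20299886162) (nat_lit 152) (nat_lit 20796164918) (nat_lit 228) (nat_lit 3986786483)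 (nat_lit 68) (nat_lit 5) (nat_lit 70) (nat_lit 5) (nat_lit 71) (nat_lit 5) (nat_lit 456) (nat_lit 368) (nat_lit 196))) (XT.nd (nat_lit 78) (nat_lit 152) (nat_lit 0) (XT.lf (nat_lit 0) (nat_lit 6719736762) (nat_lit 228) (nat_lit 562638948) (nat_lit 76) (nat_lit 38738569900) (nat_lit 67) (nat_lit 5) (nat_lit 70) (nat_lit 5) (nat_lit 68) (nat_lit 5) (nat_lit 457) (nat_lit 368) (nat_lit 195)) (XT.lf (nat_lit 0) (nat_lit 17967544278) (nat_lit 228) (nat_lit 22225092683) (nat_lit 76) (nat_lit 6784369639) (nat_lit 65) (nat_lit 5) (nat_lit 68) (nat_lit 5) (nat_lit 66) (nat_lit 5) (nat_lit 458) (nat_lit 368) (nat_lit 194))))))) (XT.nd (nat_lit 1092) (nat_lit 988) (nat_lit 0) (XT.nd (nat_lit 546) (nat_lit 456) (nat_lit 0) (XT.nd (nat_lit 234) (nat_lit 304) (nat_lit 0) (XT.nd (nat_lit 78) (nat_lit 228) (nat_lit 0) (XT.lf (nat_lit 0) (nat_lit 2850578154) (nat_lit 152) (nat_lit 26802588975) (nat_lit 228) (nat_lit 18305571313)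 (nat_lit 63) (nat_lit 5) (nat_lit 65) (nat_lit 5) (nat_lit 66) (nat_lit 5) (nat_lit 459) (nat_lit 368) (nat_lit 193)) (XT.nd (nat_lit 78) (nat_lit 228) (nat_lit 0) (XT.lf (nat_lit 0) (nat_lit 29125451618) (nat_lit 152) (nat_lit 12783534314) (nat_lit 228) (nat_lit 7054347928) (nat_lit 63) (nat_lit 5) (nat_lit 65) (nat_lit 5) (nat_lit 66) (nat_lit 5) (nat_lit 460) (nat_lit 368) (nat_lit 192)) (XT.lf (nat_lit 0) (nat_lit 4518311004) (nat_lit 228) (nat_lit 43751425035) (nat_lit 76) (nat_lit 1724852444) (nat_lit 60) (nat_lit 5) (nat_lit 63) (nat_lit 5) (nat_lit 61) (nat_lit 5) (nat_lit 461) (nat_lit 368) (nat_lit 191)))) (XT.nd (nat_lit 156) (nat_lit 152) (nat_lit 0) (XT.nd (nat_lit 78) (nat_lit 152) (nat_lit 0) (XT.lf (nat_lit 0) (nat_lit 16620551807) (nat_lit 228) (nat_lit 17744393920) (nat_lit 76) (nat_lit 16680014444) (nat_lit 60) (nat_lit 5) (nat_lit 63) (nat_lit 5) (nat_lit 61) (nat_lit 5) (nat_lit 462) (nat_lit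 368) (nat_lit 190)) (XT.lf (nat_lit 0) (nat_lit 9214379633) (nat_lit 152) (nat_lit 19955501781) (nat_lit 228) (nat_lit 22954441339) (nat_lit 58) (nat_lit 5) (nat_lit 60) (nat_lit 5) (nat_lit 61) (nat_lit 5) (nat_lit 463) (nat_lit 368) (nat_lit 189))) (XT.nd (nat_lit 78) (nat_lit 152) (nat_lit 0) (XT.lf (nat_lit 0) (nat_lit 37337465963) (nat_lit 152) (nat_lit 4932909705) (nat_lit 228) (nat_lit 10960450381) (nat_lit 58) (nat_lit 5) (nat_lit 60) (nat_lit 5) (nat_lit 61) (nat_lit 5) (nat_lit 464) (nat_lit 368) (nat_lit 188)) (XT.lf (nat_lit 0) (nat_lit 1581120927) (nat_lit 152) (nat_lit 42319964337) (nat_lit 76) (nat_lit 10462589221) (nat_lit 56) (nat_lit 5) (nat_lit 58) (nat_lit 5) (nat_lit 57) (nat_lit 5) (nat_lit 465) (nat_lit 368) (nat_lit 187))))) (XT.nd (nat_lit 234) (nat_lit 304) (nat_lit 0) (XT.nd (nat_lit 78) (nat_lit 152) (nat_lit 0) (XT.lf (nat_lit 0) (nat_lit 14485172554) (nat_lit 152) (nat_lit 14548012121)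 (nat_lit 76) (nat_lit 26487872646) (nat_lit 56) (nat_lit 5) (nat_lit 58) (nat_lit 5) (nat_lit 57) (nat_lit 5) (nat_lit 466) (nat_lit 368) (nat_lit 186)) (XT.nd (nat_lit 78) (nat_lit 0) (nat_lit 0) (XT.lf (nat_lit 0) (nat_lit 14328881245) (nat_lit 152) (nat_lit 13580936327) (nat_lit 228) (nat_lit 28799340252) (nat_lit 54) (nat_lit 5) (nat_lit 56) (nat_lit 5) (nat_lit 57) (nat_lit 5) (nat_lit 467) (nat_lit 368) (nat_lit 185)) (XT.lf (nat_lit 0) (nat_lit 41903756833) (nat_lit 228) (nat_lit 13589933201) (nat_lit 76) (nat_lit 2434214989) (nat_lit 54) (nat_lit 5) (nat_lit 57) (nat_lit 5) (nat_lit 55) (nat_lit 4) (nat_lit 468) (nat_lit 368) (nat_lit 184)))) (XT.nd (nat_lit 156) (nat_lit 152) (nat_lit 0) (XT.nd (nat_lit 78) (nat_lit 76) (nat_lit 0) (XT.lf (nat_lit 0) (nat_lit 16238922384) (nat_lit 76) (nat_lit 40365028539) (nat_lit 152) (nat_lit 2570670932) (nat_lit 53) (nat_lit 5) (nat_lit 54) (nat_lit 5) (nat_lit 55)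 (nat_lit 4) (nat_lit 469) (nat_lit 368) (nat_lit 183)) (XT.lf (nat_lit 0) (nat_lit 11200643045) (nat_lit 152) (nat_lit 13330870802) (nat_lit 76) (nat_lit 35919937762) (nat_lit 52) (nat_lit 5) (nat_lit 54) (nat_lit 5) (nat_lit 53) (nat_lit 5) (nat_lit 470) (nat_lit 368) (nat_lit 182))) (XT.nd (nat_lit 78) (nat_lit 0) (nat_lit 0) (XT.lf (nat_lit 0) (nat_lit 17470157312) (nat_lit 152) (nat_lit 8027205533) (nat_lit 228) (nat_lit 36263542106) (nat_lit 50) (nat_lit 5) (nat_lit 52) (nat_lit 5) (nat_lit 53) (nat_lit 5) (nat_lit 471) (nat_lit 368) (nat_lit 181)) (XT.lf (nat_lit 0) (nat_lit 40441193452) (nat_lit 228) (nat_lit 13732109628) (nat_lit 76) (nat_lit 8929792819) (nat_lit 50) (nat_lit 5) (nat_lit 53) (nat_lit 5) (nat_lit 51) (nat_lit 4) (nat_lit 472) (nat_lit 368) (nat_lit 180)))))) (XT.nd (nat_lit 546) (nat_lit 380) (nat_lit 0) (XT.nd (nat_lit 234) (nat_lit 304) (nat_lit 0) (XT.nd (nat_lit 78) (nat_lit 228) (nat_lit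 0) (XT.lf (nat_lit 0) (nat_lit 18008014528) (nat_lit 76) (nat_lit 38074036021) (nat_lit 152) (nat_lit 8396040953) (nat_lit 49) (nat_lit 5) (nat_lit 50) (nat_lit 5) (nat_lit 51) (nat_lit 4) (nat_lit 473) (nat_lit 368) (nat_lit 179)) (XT.nd (nat_lit 78) (nat_lit 152) (nat_lit 0) (XT.lf (nat_lit 0) (nat_lit 6311080327) (nat_lit 152) (nat_lit 14977454509) (nat_lit 76) (nat_lit 44599900950) (nat_lit 48) (nat_lit 5) (nat_lit 50) (nat_lit 5) (nat_lit 49) (nat_lit 5) (nat_lit 474) (nat_lit 368) (nat_lit 178)) (XT.lf (nat_lit 0) (nat_lit 17715517343) (nat_lit 152) (nat_lit 3741687027) (nat_lit 228) (nat_lit 45876396168) (nat_lit 46) (nat_lit 5) (nat_lit 48) (nat_lit 5) (nat_lit 49) (nat_lit 5) (nat_lit 475) (nat_lit 368) (nat_lit 177)))) (XT.nd (nat_lit 156) (nat_lit 228) (nat_lit 0) (XT.nd (nat_lit 78) (nat_lit 76) (nat_lit 0) (XT.lf (nat_lit 0) (nat_lit 37344476905) (nat_lit 228) (nat_lit 17267548430) (nat_lit 76) (nat_lit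 14201492198) (nat_lit 46) (nat_lit 5) (nat_lit 49) (nat_lit 5) (nat_lit 47) (nat_lit 4) (nat_lit 476) (nat_lit 368) (nat_lit 176)) (XT.lf (nat_lit 0) (nat_lit 16328277801) (nat_lit 76) (nat_lit 37570463139) (nat_lit 152) (nat_lit 16433380135) (nat_lit 45) (nat_lit 5) (nat_lit 46) (nat_lit 5) (nat_lit 47) (nat_lit 4) (nat_lit 477) (nat_lit 368) (nat_lit 175))) (XT.nd (nat_lit 78) (nat_lit 228) (nat_lit 0) (XT.lf (nat_lit 0) (nat_lit 51279211634) (nat_lit 76) (nat_lit 19841200170) (nat_lit 152) (nat_lit 770747781) (nat_lit 45) (nat_lit 5) (nat_lit 46) (nat_lit 5) (nat_lit 47) (nat_lit 4) (nat_lit 478) (nat_lit 368) (nat_lit 174)) (XT.lf (nat_lit 0) (nat_lit 13898641008) (nat_lit 152) (nat_lit 1293441786) (nat_lit 228) (nat_lit 58296554197) (nat_lit 42) (nat_lit 5) (nat_lit 44) (nat_lit 5) (nat_lit 45) (nat_lit 5) (nat_lit 479) (nat_lit 368) (nat_lit 173))))) (XT.nd (nat_lit 312) (nat_lit 76) (nat_lit 0) (XT.nd (nat_lit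 156) (nat_lit 228) (nat_lit 0) (XT.nd (nat_lit 78) (nat_lit 76) (nat_lit 0) (XT.lf (nat_lit 0) (nat_lit 31996206395) (nat_lit 228) (nat_lit 25448241385) (nat_lit 76) (nat_lit 17678025232) (nat_lit 42) (nat_lit 5) (nat_lit 45) (nat_lit 5) (nat_lit 43) (nat_lit 4) (nat_lit 480) (nat_lit 368) (nat_lit 172)) (XT.lf (nat_lit 0) (nat_lit 9891552655) (nat_lit 76) (nat_lit 39517383776) (nat_lit 152) (nat_lit 27393253404) (nat_lit 41) (nat_lit 5) (nat_lit 42) (nat_lit 5) (nat_lit 43) (nat_lit 4) (nat_lit 481) (nat_lit 368) (nat_lit 171))) (XT.nd (nat_lit 78) (nat_lit 228) (nat_lit 0) (XT.lf (nat_lit 0) (nat_lit 46806840864) (nat_lit 76) (nat_lit 20790815635) (nat_lit 152) (nat_lit 10927033620) (nat_lit 41) (nat_lit 5) (nat_lit 42) (nat_lit 5) (nat_lit 43) (nat_lit 4) (nat_lit 482) (nat_lit 368) (nat_lit 170)) (XT.lf (nat_lit 0) (nat_lit 4555375298) (nat_lit 152) (nat_lit 1400553927) (nat_lit 228) (nat_lit 74339981974) (nat_lit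 38) (nat_lit 5) (nat_lit 40) (nat_lit 5) (nat_lit 41) (nat_lit 5) (nat_lit 483) (nat_lit 368) (nat_lit 169)))) (XT.nd (nat_lit 156) (nat_lit 76) (nat_lit 0) (XT.nd (nat_lit 78) (nat_lit 0) (nat_lit 0) (XT.lf (nat_lit 0) (nat_lit 23624442567) (nat_lit 228) (nat_lit 39839811472) (nat_lit 76) (nat_lit 18637808876) (nat_lit 38) (nat_lit 5) (nat_lit 41) (nat_lit 5) (nat_lit 39) (nat_lit 4) (nat_lit 484) (nat_lit 368) (nat_lit 168)) (XT.lf (nat_lit 0) (nat_lit 41833679249) (nat_lit 228) (nat_lit 2882003226) (nat_lit 76) (nat_lit 39246396844) (nat_lit 38) (nat_lit 5) (nat_lit 41) (nat_lit 5) (nat_lit 39) (nat_lit 4) (nat_lit 485) (nat_lit 368) (nat_lit 167))) (XT.nd (nat_lit 43992) (nat_lit 0) (nat_lit 19152) (XT.lf (nat_lit 0) (nat_lit 35878769060) (nat_lit 76) (nat_lit 25052206891) (nat_lit 152) (nat_lit 24936666948) (nat_lit 37) (nat_lit 5) (nat_lit 38) (nat_lit 5) (nat_lit 39) (nat_lit 4) (nat_lit 486) (nat_lit 368)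 (nat_lit 166)) (XT.lf (nat_lit 0) (nat_lit 3473338198) (nat_lit 1140) (nat_lit 779081971) (nat_lit 1140) (nat_lit 779081971) (nat_lit 289) (nat_lit 3) (nat_lit 304) (nat_lit 3) (nat_lit 304) (nat_lit 5) (nat_lit 369) (nat_lit 369) (nat_lit 282))))))))
noncomputable def xc168 : XT := (XT.nd (nat_lit 2184) (nat_lit 6840) (nat_lit 0) (XT.nd (nat_lit 1092) (nat_lit 5092) (nat_lit 0) (XT.nd (nat_lit 546) (nat_lit 0) (nat_lit 76) (XT.nd (nat_lit 234) (nat_lit 988) (nat_lit 0) (XT.nd (nat_lit 78) (nat_lit 0) (nat_lit 0) (XT.lf (nat_lit 76) (nat_lit 3406421286) (nat_lit 0) (nat_lit 4359507109) (nat_lit 1140) (nat_lit 2426325388) (nat_lit 290) (nat_lit 5) (nat_lit 289) (nat_lit 3) (nat_lit 304) (nat_lit 5) (nat_lit 370) (nat_lit 369) (nat_lit 281)) (XT.nd (nat_lit 78) (nat_lit 0) (nat_lit 76) (XT.lf (nat_lit 76) (nat_lit 8537893420) (nat_lit 0) (nat_lit 60835895) (nat_lit 1140) (nat_lit 1726991836) (nat_lit 290) (nat_lit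 5) (nat_lit 289) (nat_lit 3) (nat_lit 304) (nat_lit 5) (nat_lit 371) (nat_lit 369) (nat_lit 280)) (XT.lf (nat_lit 76) (nat_lit 3369398047) (nat_lit 0) (nat_lit 6135616900) (nat_lit 1140) (nat_lit 956731818) (nat_lit 291) (nat_lit 5) (nat_lit 290) (nat_lit 5) (nat_lit 305) (nat_lit 5) (nat_lit 372) (nat_lit 369) (nat_lit 279)))) (XT.nd (nat_lit 156) (nat_lit 0) (nat_lit 0) (XT.nd (nat_lit 78) (nat_lit 1064) (nat_lit 0) (XT.lf (nat_lit 76) (nat_lit 8703025160) (nat_lit 0) (nat_lit 1728865024) (nat_lit 1140) (nat_lit 170169910) (nat_lit 291) (nat_lit 5) (nat_lit 290) (nat_lit 5) (nat_lit 305) (nat_lit 5) (nat_lit 373) (nat_lit 369) (nat_lit 278)) (XT.lf (nat_lit 0) (nat_lit 663863470) (nat_lit 1140) (nat_lit 7275899682) (nat_lit 1216) (nat_lit 2805552678) (nat_lit 276) (nat_lit 5) (nat_lit 291) (nat_lit 5) (nat_lit 292) (nat_lit 5) (nat_lit 374) (nat_lit 369) (nat_lit 277))) (XT.nd (nat_lit 78) (nat_lit 0) (nat_lit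 76) (XT.lf (nat_lit 0) (nat_lit 1531895667) (nat_lit 1140) (nat_lit 1888557422) (nat_lit 1216) (nat_lit 7472001879) (nat_lit 276) (nat_lit 5) (nat_lit 291) (nat_lit 5) (nat_lit 292) (nat_lit 5) (nat_lit 375) (nat_lit 369) (nat_lit 276)) (XT.lf (nat_lit 0) (nat_lit 2450630661) (nat_lit 1140) (nat_lit 7337667044) (nat_lit 1216) (nat_lit 1254978693) (nat_lit 277) (nat_lit 5) (nat_lit 292) (nat_lit 5) (nat_lit 293) (nat_lit 5) (nat_lit 376) (nat_lit 369) (nat_lit 275))))) (XT.nd (nat_lit 234) (nat_lit 0) (nat_lit 76) (XT.nd (nat_lit 78) (nat_lit 0) (nat_lit 0) (XT.lf (nat_lit 0) (nat_lit 3427290057) (nat_lit 1140) (nat_lit 1741099296) (nat_lit 1216) (nat_lit 6029329991) (nat_lit 277) (nat_lit 5) (nat_lit 292) (nat_lit 5) (nat_lit 293) (nat_lit 5) (nat_lit 377) (nat_lit 369) (nat_lit 274)) (XT.nd (nat_lit 78) (nat_lit 0) (nat_lit 76) (XT.lf (nat_lit 76) (nat_lit 4088279470) (nat_lit 0) (nat_lit 362168743) (nat_lit 1216)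 (nat_lit 6905838914) (nat_lit 278) (nat_lit 5) (nat_lit 277) (nat_lit 5) (nat_lit 293) (nat_lit 5) (nat_lit 378) (nat_lit 369) (nat_lit 273)) (XT.lf (nat_lit 0) (nat_lit 5544630128) (nat_lit 1140) (nat_lit 1450571825) (nat_lit 1216) (nat_lit 4523207418) (nat_lit 278) (nat_lit 5) (nat_lit 293) (nat_lit 5) (nat_lit 294) (nat_lit 5) (nat_lit 379) (nat_lit 369) (nat_lit 272)))) (XT.nd (nat_lit 156) (nat_lit 0) (nat_lit 76) (XT.nd (nat_lit 78) (nat_lit 0) (nat_lit 76) (XT.lf (nat_lit 76) (nat_lit 4612825026) (nat_lit 0) (nat_lit 2085835030) (nat_lit 1216) (nat_lit 4985931636) (nat_lit 279) (nat_lit 5) (nat_lit 278) (nat_lit 5) (nat_lit 294) (nat_lit 5) (nat_lit 380) (nat_lit 369) (nat_lit 271)) (XT.lf (nat_lit 0) (nat_lit 7910276539) (nat_lit 1140) (nat_lit 1011679193) (nat_lit 1216) (nat_lit 2933121661) (nat_lit 279) (nat_lit 5) (nat_lit 294) (nat_lit 5) (nat_lit 295) (nat_lit 5) (nat_lit 381) (nat_lit 369) (nat_lit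 270))) (XT.nd (nat_lit 78) (nat_lit 0) (nat_lit 76) (XT.lf (nat_lit 76) (nat_lit 5297875698) (nat_lit 0) (nat_lit 3912153221) (nat_lit 1216) (nat_lit 2819101801) (nat_lit 280) (nat_lit 5) (nat_lit 279) (nat_lit 5) (nat_lit 295) (nat_lit 5) (nat_lit 382) (nat_lit 369) (nat_lit 269)) (XT.lf (nat_lit 0) (nat_lit 10551771885) (nat_lit 1140) (nat_lit 418286882) (nat_lit 1216) (nat_lit 1238263426) (nat_lit 280) (nat_lit 5) (nat_lit 295) (nat_lit 5) (nat_lit 296) (nat_lit 5) (nat_lit 383) (nat_lit 369) (nat_lit 268)))))) (XT.nd (nat_lit 546) (nat_lit 2356) (nat_lit 0) (XT.nd (nat_lit 234) (nat_lit 1824) (nat_lit 0) (XT.nd (nat_lit 78) (nat_lit 1216) (nat_lit 0) (XT.lf (nat_lit 76) (nat_lit 6150256331) (nat_lit 0) (nat_lit 5862612492) (nat_lit 1216) (nat_lit 377653832) (nat_lit 281) (nat_lit 5) (nat_lit 280) (nat_lit 5) (nat_lit 296) (nat_lit 5) (nat_lit 384) (nat_lit 369) (nat_lit 267)) (XT.nd (nat_lit 78) (nat_lit 0)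 (nat_lit 76) (XT.lf (nat_lit 76) (nat_lit 328381550) (nat_lit 0) (nat_lit 581777441) (nat_lit 1292) (nat_lit 11668098573) (nat_lit 265) (nat_lit 5) (nat_lit 264) (nat_lit 5) (nat_lit 281) (nat_lit 5) (nat_lit 385) (nat_lit 369) (nat_lit 266)) (XT.lf (nat_lit 0) (nat_lit 2321232194) (nat_lit 1216) (nat_lit 5614530811) (nat_lit 76) (nat_lit 4832988607) (nat_lit 265) (nat_lit 5) (nat_lit 281) (nat_lit 5) (nat_lit 266) (nat_lit 5) (nat_lit 386) (nat_lit 369) (nat_lit 265)))) (XT.nd (nat_lit 156) (nat_lit 684) (nat_lit 0) (XT.nd (nat_lit 78) (nat_lit 0) (nat_lit 0) (XT.lf (nat_lit 0) (nat_lit 1222683452) (nat_lit 1216) (nat_lit 2551880124) (nat_lit 1292) (nat_lit 9190404721) (nat_lit 249) (nat_lit 5) (nat_lit 265) (nat_lit 5) (nat_lit 266) (nat_lit 5) (nat_lit 387) (nat_lit 369) (nat_lit 264)) (XT.lf (nat_lit 0) (nat_lit 5340326879) (nat_lit 1292) (nat_lit 4830283198) (nat_lit 76) (nat_lit 2994401877) (nat_lit 249)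 (nat_lit 5) (nat_lit 266) (nat_lit 5) (nat_lit 250) (nat_lit 5) (nat_lit 388) (nat_lit 369) (nat_lit 263))) (XT.nd (nat_lit 78) (nat_lit 0) (nat_lit 0) (XT.lf (nat_lit 0) (nat_lit 2293338184) (nat_lit 684) (nat_lit 4690336340) (nat_lit 760) (nat_lit 6386469325) (nat_lit 240) (nat_lit 5) (nat_lit 249) (nat_lit 5) (nat_lit 250) (nat_lit 5) (nat_lit 389) (nat_lit 369) (nat_lit 262)) (XT.lf (nat_lit 0) (nat_lit 8718409812) (nat_lit 760) (nat_lit 3875523201) (nat_lit 76) (nat_lit 986239192) (nat_lit 240) (nat_lit 5) (nat_lit 250) (nat_lit 5) (nat_lit 241) (nat_lit 5) (nat_lit 390) (nat_lit 369) (nat_lit 261))))) (XT.nd (nat_lit 234) (nat_lit 1064) (nat_lit 0) (XT.nd (nat_lit 78) (nat_lit 684) (nat_lit 0) (XT.lf (nat_lit 0) (nat_lit 3549491662) (nat_lit 608) (nat_lit 7020384581) (nat_lit 684) (nat_lit 3224689464) (nat_lit 232) (nat_lit 5) (nat_lit 240) (nat_lit 5) (nat_lit 241) (nat_lit 5) (nat_lit 391) (nat_lit 369)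 (nat_lit 260)) (XT.nd (nat_lit 78) (nat_lit 684) (nat_lit 0) (XT.lf (nat_lit 0) (nat_lit 11261719270) (nat_lit 608) (nat_lit 1238751021) (nat_lit 684) (nat_lit 1514218042) (nat_lit 232) (nat_lit 5) (nat_lit 240) (nat_lit 5) (nat_lit 241) (nat_lit 5) (nat_lit 392) (nat_lit 369) (nat_lit 259)) (XT.lf (nat_lit 0) (nat_lit 321824443) (nat_lit 684) (nat_lit 9241080521) (nat_lit 76) (nat_lit 4676070191) (nat_lit 223) (nat_lit 5) (nat_lit 232) (nat_lit 5) (nat_lit 224) (nat_lit 5) (nat_lit 393) (nat_lit 369) (nat_lit 258)))) (XT.nd (nat_lit 156) (nat_lit 532) (nat_lit 0) (XT.nd (nat_lit 78) (nat_lit 532) (nat_lit 0) (XT.lf (nat_lit 0) (nat_lit 2207906117) (nat_lit 684) (nat_lit 1474135016) (nat_lit 76) (nat_lit 10786742333) (nat_lit 223) (nat_lit 5) (nat_lit 232) (nat_lit 5) (nat_lit 224) (nat_lit 5) (nat_lit 394) (nat_lit 369) (nat_lit 257)) (XT.lf (nat_lit 0) (nat_lit 4223354740) (nat_lit 608) (nat_lit 8086792362) (nat_lit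 76) (nat_lit 2393159675) (nat_lit 216) (nat_lit 5) (nat_lit 224) (nat_lit 5) (nat_lit 217) (nat_lit 5) (nat_lit 395) (nat_lit 369) (nat_lit 256))) (XT.nd (nat_lit 78) (nat_lit 532) (nat_lit 0) (XT.lf (nat_lit 0) (nat_lit 6336523009) (nat_lit 608) (nat_lit 15925986) (nat_lit 76) (nat_lit 8591303270) (nat_lit 216) (nat_lit 5) (nat_lit 224) (nat_lit 5) (nat_lit 217) (nat_lit 5) (nat_lit 396) (nat_lit 369) (nat_lit 255)) (XT.lf (nat_lit 0) (nat_lit 8447336192) (nat_lit 532) (nat_lit 133132725) (nat_lit 608) (nat_lit 6608924762) (nat_lit 209) (nat_lit 5) (nat_lit 216) (nat_lit 5) (nat_lit 217) (nat_lit 5) (nat_lit 397) (nat_lit 369) (nat_lit 254))))))) (XT.nd (nat_lit 1092) (nat_lit 3116) (nat_lit 0) (XT.nd (nat_lit 546) (nat_lit 1748) (nat_lit 0) (XT.nd (nat_lit 234) (nat_lit 912) (nat_lit 0) (XT.nd (nat_lit 78) (nat_lit 608) (nat_lit 0) (XT.lf (nat_lit 0) (nat_lit 1680080881) (nat_lit 456) (nat_lit 9274699405) (nat_lit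 532) (nat_lit 4485736561) (nat_lit 203) (nat_lit 5) (nat_lit 209) (nat_lit 5) (nat_lit 210) (nat_lit 5) (nat_lit 398) (nat_lit 369) (nat_lit 253)) (XT.nd (nat_lit 78) (nat_lit 608) (nat_lit 0) (XT.lf (nat_lit 0) (nat_lit 10477062449) (nat_lit 456) (nat_lit 2979336304) (nat_lit 532) (nat_lit 2241096434) (nat_lit 203) (nat_lit 5) (nat_lit 209) (nat_lit 5) (nat_lit 210) (nat_lit 5) (nat_lit 399) (nat_lit 369) (nat_lit 252)) (XT.lf (nat_lit 0) (nat_lit 125383739) (nat_lit 608) (nat_lit 12364106106) (nat_lit 76) (nat_lit 3470999660) (nat_lit 195) (nat_lit 5) (nat_lit 203) (nat_lit 5) (nat_lit 196) (nat_lit 5) (nat_lit 400) (nat_lit 369) (nat_lit 251)))) (XT.nd (nat_lit 156) (nat_lit 456) (nat_lit 0) (XT.nd (nat_lit 78) (nat_lit 456) (nat_lit 0) (XT.lf (nat_lit 0) (nat_lit 2587724966) (nat_lit 608) (nat_lit 3512032107) (nat_lit 76) (nat_lit 10128857081) (nat_lit 195) (nat_lit 5) (nat_lit 203) (nat_lit 5) (nat_lit 196)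 (nat_lit 5) (nat_lit 401) (nat_lit 369) (nat_lit 250)) (XT.lf (nat_lit 0) (nat_lit 5171455416) (nat_lit 532) (nat_lit 10806106987) (nat_lit 76) (nat_lit 525797952) (nat_lit 189) (nat_lit 5) (nat_lit 196) (nat_lit 5) (nat_lit 190) (nat_lit 5) (nat_lit 402) (nat_lit 369) (nat_lit 249))) (XT.nd (nat_lit 78) (nat_lit 456) (nat_lit 0) (XT.lf (nat_lit 0) (nat_lit 7916662404) (nat_lit 532) (nat_lit 1605748824) (nat_lit 76) (nat_lit 7261422063) (nat_lit 189) (nat_lit 5) (nat_lit 196) (nat_lit 5) (nat_lit 190) (nat_lit 5) (nat_lit 403) (nat_lit 369) (nat_lit 248)) (XT.lf (nat_lit 0) (nat_lit 8012873628) (nat_lit 456) (nat_lit 2796488476) (nat_lit 532) (nat_lit 6261407404) (nat_lit 183) (nat_lit 5) (nat_lit 189) (nat_lit 5) (nat_lit 190) (nat_lit 5) (nat_lit 404) (nat_lit 369) (nat_lit 247))))) (XT.nd (nat_lit 234) (nat_lit 760) (nat_lit 0) (XT.nd (nat_lit 78) (nat_lit 532) (nat_lit 0) (XT.lf (nat_lit 0) (nat_lit 543579038)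 (nat_lit 456) (nat_lit 13294877980) (nat_lit 532) (nat_lit 3526371465) (nat_lit 177) (nat_lit 5) (nat_lit 183) (nat_lit 5) (nat_lit 184) (nat_lit 5) (nat_lit 405) (nat_lit 369) (nat_lit 246)) (XT.nd (nat_lit 78) (nat_lit 532) (nat_lit 0) (XT.lf (nat_lit 0) (nat_lit 10576377801) (nat_lit 456) (nat_lit 6489436950) (nat_lit 532) (nat_lit 598675784) (nat_lit 177) (nat_lit 5) (nat_lit 183) (nat_lit 5) (nat_lit 184) (nat_lit 5) (nat_lit 406) (nat_lit 369) (nat_lit 245)) (XT.lf (nat_lit 0) (nat_lit 2392332373) (nat_lit 532) (nat_lit 15019895626) (nat_lit 76) (nat_lit 559541023) (nat_lit 170) (nat_lit 5) (nat_lit 177) (nat_lit 5) (nat_lit 171) (nat_lit 5) (nat_lit 407) (nat_lit 369) (nat_lit 244)))) (XT.nd (nat_lit 156) (nat_lit 380) (nat_lit 0) (XT.nd (nat_lit 78) (nat_lit 380) (nat_lit 0) (XT.lf (nat_lit 0) (nat_lit 5586471170) (nat_lit 532) (nat_lit 4932793744) (nat_lit 76) (nat_lit 7765062884) (nat_lit 170) (nat_lit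 5) (nat_lit 177) (nat_lit 5) (nat_lit 171) (nat_lit 5) (nat_lit 408) (nat_lit 369) (nat_lit 243)) (XT.lf (nat_lit 0) (nat_lit 5551517681) (nat_lit 380) (nat_lit 3367501051) (nat_lit 456) (nat_lit 9685969736) (nat_lit 165) (nat_lit 5) (nat_lit 170) (nat_lit 5) (nat_lit 171) (nat_lit 5) (nat_lit 409) (nat_lit 369) (nat_lit 242))) (XT.nd (nat_lit 78) (nat_lit 380) (nat_lit 0) (XT.lf (nat_lit 0) (nat_lit 12429660932) (nat_lit 456) (nat_lit 2535121586) (nat_lit 76) (nat_lit 3968145490) (nat_lit 165) (nat_lit 5) (nat_lit 171) (nat_lit 5) (nat_lit 166) (nat_lit 5) (nat_lit 410) (nat_lit 369) (nat_lit 241)) (XT.lf (nat_lit 0) (nat_lit 8416180462) (nat_lit 380) (nat_lit 7733368904) (nat_lit 456) (nat_lit 3118041076) (nat_lit 160) (nat_lit 5) (nat_lit 165) (nat_lit 5) (nat_lit 166) (nat_lit 5) (nat_lit 411) (nat_lit 369) (nat_lit 240)))))) (XT.nd (nat_lit 546) (nat_lit 1520) (nat_lit 0) (XT.nd (nat_lit 234) (nat_lit 760)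 (nat_lit 0) (XT.nd (nat_lit 78) (nat_lit 380) (nat_lit 0) (XT.lf (nat_lit 0) (nat_lit 121476614) (nat_lit 380) (nat_lit 256843710) (nat_lit 456) (nat_lit 19233365239) (nat_lit 154) (nat_lit 5) (nat_lit 159) (nat_lit 5) (nat_lit 160) (nat_lit 5) (nat_lit 412) (nat_lit 369) (nat_lit 239)) (XT.nd (nat_lit 78) (nat_lit 380) (nat_lit 0) (XT.lf (nat_lit 0) (nat_lit 4089012338) (nat_lit 456) (nat_lit 8434035419) (nat_lit 76) (nat_lit 7436968654) (nat_lit 154) (nat_lit 5) (nat_lit 160) (nat_lit 5) (nat_lit 155) (nat_lit 5) (nat_lit 413) (nat_lit 369) (nat_lit 238)) (XT.lf (nat_lit 0) (nat_lit 2996451279) (nat_lit 380) (nat_lit 4936105372) (nat_lit 456) (nat_lit 12385596826) (nat_lit 149) (nat_lit 5) (nat_lit 154) (nat_lit 5) (nat_lit 155) (nat_lit 5) (nat_lit 414) (nat_lit 369) (nat_lit 237)))) (XT.nd (nat_lit 156) (nat_lit 456) (nat_lit 0) (XT.nd (nat_lit 78) (nat_lit 304) (nat_lit 0) (XT.lf (nat_lit 0) (nat_lit 11995397438)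 (nat_lit 456) (nat_lit 5783678477) (nat_lit 76) (nat_lit 2904841207) (nat_lit 149) (nat_lit 5) (nat_lit 155) (nat_lit 5) (nat_lit 150) (nat_lit 5) (nat_lit 415) (nat_lit 369) (nat_lit 236)) (XT.lf (nat_lit 0) (nat_lit 6158755993) (nat_lit 304) (nat_lit 10120034046) (nat_lit 380) (nat_lit 4778905750) (nat_lit 145) (nat_lit 5) (nat_lit 149) (nat_lit 5) (nat_lit 150) (nat_lit 5) (nat_lit 416) (nat_lit 369) (nat_lit 235))) (XT.nd (nat_lit 78) (nat_lit 456) (nat_lit 0) (XT.lf (nat_lit 0) (nat_lit 18565113907) (nat_lit 304) (nat_lit 2174716765) (nat_lit 380) (nat_lit 701384802) (nat_lit 145) (nat_lit 5) (nat_lit 149) (nat_lit 5) (nat_lit 150) (nat_lit 5) (nat_lit 417) (nat_lit 369) (nat_lit 234)) (XT.lf (nat_lit 0) (nat_lit 3572849152) (nat_lit 456) (nat_lit 12242331192) (nat_lit 76) (nat_lit 6015773808) (nat_lit 139) (nat_lit 5) (nat_lit 145) (nat_lit 5) (nat_lit 140) (nat_lit 5) (nat_lit 418) (nat_lit 369) (nat_lit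 233))))) (XT.nd (nat_lit 312) (nat_lit 912) (nat_lit 0) (XT.nd (nat_lit 156) (nat_lit 304) (nat_lit 0) (XT.nd (nat_lit 78) (nat_lit 0) (nat_lit 0) (XT.lf (nat_lit 0) (nat_lit 217384865) (nat_lit 304) (nat_lit 7787809542) (nat_lit 380) (nat_lit 14225664680) (nat_lit 135) (nat_lit 5) (nat_lit 139) (nat_lit 5) (nat_lit 140) (nat_lit 5) (nat_lit 419) (nat_lit 369) (nat_lit 232)) (XT.lf (nat_lit 0) (nat_lit 12691106690) (nat_lit 380) (nat_lit 9355975899) (nat_lit 76) (nat_lit 592062501) (nat_lit 135) (nat_lit 5) (nat_lit 140) (nat_lit 5) (nat_lit 136) (nat_lit 5) (nat_lit 420) (nat_lit 369) (nat_lit 231))) (XT.nd (nat_lit 78) (nat_lit 0) (nat_lit 0) (XT.lf (nat_lit 0) (nat_lit 3663066671) (nat_lit 304) (nat_lit 13958238044) (nat_lit 380) (nat_lit 5435265474) (nat_lit 131) (nat_lit 5) (nat_lit 135) (nat_lit 5) (nat_lit 136) (nat_lit 5) (nat_lit 421) (nat_lit 369) (nat_lit 230)) (XT.lf (nat_lit 0) (nat_lit 17252038622)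 (nat_lit 304) (nat_lit 5533368081) (nat_lit 380) (nat_lit 698533112) (nat_lit 131) (nat_lit 5) (nat_lit 135) (nat_lit 5) (nat_lit 136) (nat_lit 5) (nat_lit 422) (nat_lit 369) (nat_lit 229)))) (XT.nd (nat_lit 156) (nat_lit 532) (nat_lit 0) (XT.nd (nat_lit 78) (nat_lit 0) (nat_lit 0) (XT.lf (nat_lit 0) (nat_lit 4192999220) (nat_lit 380) (nat_lit 16535467784) (nat_lit 76) (nat_lit 3191631511) (nat_lit 126) (nat_lit 5) (nat_lit 131) (nat_lit 5) (nat_lit 127) (nat_lit 5) (nat_lit 423) (nat_lit 369) (nat_lit 228)) (XT.lf (nat_lit 0) (nat_lit 9327349397) (nat_lit 380) (nat_lit 2904697508) (nat_lit 76) (nat_lit 12133785805) (nat_lit 126) (nat_lit 5) (nat_lit 131) (nat_lit 5) (nat_lit 127) (nat_lit 5) (nat_lit 424) (nat_lit 369) (nat_lit 227))) (XT.nd (nat_lit 78) (nat_lit 228) (nat_lit 0) (XT.lf (nat_lit 0) (nat_lit 11344400109) (nat_lit 304) (nat_lit 3372391735) (nat_lit 380) (nat_lit 10105116757) (nat_lit 122) (nat_lit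 5) (nat_lit 126) (nat_lit 5) (nat_lit 127) (nat_lit 5) (nat_lit 425) (nat_lit 369) (nat_lit 226)) (XT.lf (nat_lit 0) (nat_lit 736458112) (nat_lit 228) (nat_lit 19615555713) (nat_lit 304) (nat_lit 4937131534) (nat_lit 119) (nat_lit 5) (nat_lit 122) (nat_lit 5) (nat_lit 123) (nat_lit 5) (nat_lit 426) (nat_lit 369) (nat_lit 225))))))))
noncomputable def xc169 : XT := (XT.nd (nat_lit 2262) (nat_lit 2432) (nat_lit 0) (XT.nd (nat_lit 1092) (nat_lit 1672) (nat_lit 0) (XT.nd (nat_lit 546) (nat_lit 912) (nat_lit 0) (XT.nd (nat_lit 234) (nat_lit 760) (nat_lit 0) (XT.nd (nat_lit 78) (nat_lit 304) (nat_lit 0) (XT.lf (nat_lit 0) (nat_lit 541327014) (nat_lit 304) (nat_lit 10163731605) (nat_lit 76) (nat_lit 15060341795) (nat_lit 118) (nat_lit 5) (nat_lit 122) (nat_lit 5) (nat_lit 119) (nat_lit 5) (nat_lit 427) (nat_lit 369) (nat_lit 224)) (XT.nd (nat_lit 78) (nat_lit 0) (nat_lit 0) (XT.lf (nat_lit 0) (nat_lit 4687749407) (nat_lit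 304) (nat_lit 1434579217) (nat_lit 380) (nat_lit 20131026753) (nat_lit 114) (nat_lit 5) (nat_lit 118) (nat_lit 5) (nat_lit 119) (nat_lit 5) (nat_lit 428) (nat_lit 369) (nat_lit 223)) (XT.lf (nat_lit 0) (nat_lit 12044837855) (nat_lit 380) (nat_lit 6650570157) (nat_lit 76) (nat_lit 8055319964) (nat_lit 114) (nat_lit 5) (nat_lit 119) (nat_lit 5) (nat_lit 115) (nat_lit 5) (nat_lit 429) (nat_lit 369) (nat_lit 222)))) (XT.nd (nat_lit 156) (nat_lit 532) (nat_lit 0) (XT.nd (nat_lit 78) (nat_lit 0) (nat_lit 0) (XT.lf (nat_lit 0) (nat_lit 8859121771) (nat_lit 228) (nat_lit 9377914871) (nat_lit 304) (nat_lit 9023225959) (nat_lit 111) (nat_lit 5) (nat_lit 114) (nat_lit 5) (nat_lit 115) (nat_lit 5) (nat_lit 430) (nat_lit 369) (nat_lit 221)) (XT.lf (nat_lit 0) (nat_lit 24677646845) (nat_lit 304) (nat_lit 2826936231) (nat_lit 76) (nat_lit 278622062) (nat_lit 111) (nat_lit 5) (nat_lit 115) (nat_lit 5) (nat_lit 112) (nat_lit 5)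 (nat_lit 431) (nat_lit 369) (nat_lit 220))) (XT.nd (nat_lit 78) (nat_lit 228) (nat_lit 0) (XT.lf (nat_lit 0) (nat_lit 3147734742) (nat_lit 304) (nat_lit 14974895793) (nat_lit 76) (nat_lit 10191851419) (nat_lit 107) (nat_lit 5) (nat_lit 111) (nat_lit 5) (nat_lit 108) (nat_lit 5) (nat_lit 432) (nat_lit 369) (nat_lit 219)) (XT.lf (nat_lit 0) (nat_lit 1168762078) (nat_lit 228) (nat_lit 8390467864) (nat_lit 304) (nat_lit 19300555162) (nat_lit 104) (nat_lit 5) (nat_lit 107) (nat_lit 5) (nat_lit 108) (nat_lit 5) (nat_lit 433) (nat_lit 369) (nat_lit 218))))) (XT.nd (nat_lit 234) (nat_lit 608) (nat_lit 0) (XT.nd (nat_lit 78) (nat_lit 304) (nat_lit 0) (XT.lf (nat_lit 0) (nat_lit 16324504162) (nat_lit 304) (nat_lit 11341697540) (nat_lit 76) (nat_lit 1750403721) (nat_lit 104) (nat_lit 5) (nat_lit 108) (nat_lit 5) (nat_lit 105) (nat_lit 5) (nat_lit 434) (nat_lit 369) (nat_lit 217)) (XT.nd (nat_lit 78) (nat_lit 76) (nat_lit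 0) (XT.lf (nat_lit 0) (nat_lit 5511628069) (nat_lit 228) (nat_lit 17910383175) (nat_lit 304) (nat_lit 6564241939) (nat_lit 101) (nat_lit 5) (nat_lit 104) (nat_lit 5) (nat_lit 105) (nat_lit 5) (nat_lit 435) (nat_lit 369) (nat_lit 216)) (XT.lf (nat_lit 0) (nat_lit 265250034) (nat_lit 304) (nat_lit 7480159516) (nat_lit 76) (nat_lit 22824268599) (nat_lit 100) (nat_lit 5) (nat_lit 104) (nat_lit 5) (nat_lit 101) (nat_lit 5) (nat_lit 436) (nat_lit 369) (nat_lit 215)))) (XT.nd (nat_lit 156) (nat_lit 380) (nat_lit 0) (XT.nd (nat_lit 78) (nat_lit 0) (nat_lit 0) (XT.lf (nat_lit 0) (nat_lit 7286427771) (nat_lit 304) (nat_lit 21047210756) (nat_lit 76) (nat_lit 2831456465) (nat_lit 97) (nat_lit 5) (nat_lit 101) (nat_lit 5) (nat_lit 98) (nat_lit 5) (nat_lit 437) (nat_lit 369) (nat_lit 214)) (XT.lf (nat_lit 0) (nat_lit 14664703275) (nat_lit 304) (nat_lit 3467054703) (nat_lit 76) (nat_lit 13642223440) (nat_lit 97) (nat_lit 5) (nat_lit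 101) (nat_lit 5) (nat_lit 98) (nat_lit 5) (nat_lit 438) (nat_lit 369) (nat_lit 213))) (XT.nd (nat_lit 78) (nat_lit 152) (nat_lit 0) (XT.lf (nat_lit 0) (nat_lit 14921269318) (nat_lit 228) (nat_lit 7480172032) (nat_lit 304) (nat_lit 9995580579) (nat_lit 94) (nat_lit 5) (nat_lit 97) (nat_lit 5) (nat_lit 98) (nat_lit 5) (nat_lit 439) (nat_lit 369) (nat_lit 212)) (XT.lf (nat_lit 0) (nat_lit 867177614) (nat_lit 152) (nat_lit 29574081955) (nat_lit 228) (nat_lit 2595365642) (nat_lit 92) (nat_lit 5) (nat_lit 94) (nat_lit 5) (nat_lit 95) (nat_lit 5) (nat_lit 440) (nat_lit 369) (nat_lit 211)))))) (XT.nd (nat_lit 546) (nat_lit 912) (nat_lit 0) (XT.nd (nat_lit 234) (nat_lit 456) (nat_lit 0) (XT.nd (nat_lit 78) (nat_lit 228) (nat_lit 0) (XT.lf (nat_lit 0) (nat_lit 5174791749) (nat_lit 228) (nat_lit 13706094458) (nat_lit 76) (nat_lit 14805700749) (nat_lit 91) (nat_lit 5) (nat_lit 94) (nat_lit 5) (nat_lit 92) (nat_lit 5) (nat_lit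 441) (nat_lit 369) (nat_lit 210)) (XT.nd (nat_lit 78) (nat_lit 0) (nat_lit 0) (XT.lf (nat_lit 0) (nat_lit 5380282363) (nat_lit 228) (nat_lit 7791256744) (nat_lit 304) (nat_lit 21182368879) (nat_lit 88) (nat_lit 5) (nat_lit 91) (nat_lit 5) (nat_lit 92) (nat_lit 5) (nat_lit 442) (nat_lit 369) (nat_lit 209)) (XT.lf (nat_lit 0) (nat_lit 21576839608) (nat_lit 304) (nat_lit 9763369309) (nat_lit 76) (nat_lit 3695981003) (nat_lit 88) (nat_lit 5) (nat_lit 92) (nat_lit 5) (nat_lit 89) (nat_lit 5) (nat_lit 443) (nat_lit 369) (nat_lit 208)))) (XT.nd (nat_lit 156) (nat_lit 228) (nat_lit 0) (XT.nd (nat_lit 78) (nat_lit 76) (nat_lit 0) (XT.lf (nat_lit 0) (nat_lit 10133889146) (nat_lit 152) (nat_lit 20269111571) (nat_lit 228) (nat_lit 5330879320) (nat_lit 86) (nat_lit 5) (nat_lit 88) (nat_lit 5) (nat_lit 89) (nat_lit 5) (nat_lit 444) (nat_lit 369) (nat_lit 207)) (XT.lf (nat_lit 0) (nat_lit 3075828750) (nat_lit 228) (nat_lit 5661483389)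 (nat_lit 76) (nat_lit 27711500383) (nat_lit 85) (nat_lit 5) (nat_lit 88) (nat_lit 5) (nat_lit 86) (nat_lit 5) (nat_lit 445) (nat_lit 369) (nat_lit 206))) (XT.nd (nat_lit 78) (nat_lit 0) (nat_lit 0) (XT.lf (nat_lit 0) (nat_lit 11799261201) (nat_lit 304) (nat_lit 22103975741) (nat_lit 76) (nat_lit 3275223261) (nat_lit 82) (nat_lit 5) (nat_lit 86) (nat_lit 5) (nat_lit 83) (nat_lit 5) (nat_lit 446) (nat_lit 369) (nat_lit 205)) (XT.lf (nat_lit 0) (nat_lit 20923011158) (nat_lit 304) (nat_lit 1476449356) (nat_lit 76) (nat_lit 15526379051) (nat_lit 82) (nat_lit 5) (nat_lit 86) (nat_lit 5) (nat_lit 83) (nat_lit 5) (nat_lit 447) (nat_lit 369) (nat_lit 204))))) (XT.nd (nat_lit 312) (nat_lit 380) (nat_lit 0) (XT.nd (nat_lit 156) (nat_lit 152) (nat_lit 0) (XT.nd (nat_lit 78) (nat_lit 228) (nat_lit 0) (XT.lf (nat_lit 0) (nat_lit 20153778277) (nat_lit 152) (nat_lit 10354960317) (nat_lit 228) (nat_lit 8181254429) (nat_lit 80)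 (nat_lit 5) (nat_lit 82) (nat_lit 5) (nat_lit 83) (nat_lit 5) (nat_lit 448) (nat_lit 369) (nat_lit 203)) (XT.lf (nat_lit 0) (nat_lit 946215093) (nat_lit 228) (nat_lit 36468480447) (nat_lit 76) (nat_lit 2060347975) (nat_lit 77) (nat_lit 5) (nat_lit 80) (nat_lit 5) (nat_lit 78) (nat_lit 5) (nat_lit 449) (nat_lit 369) (nat_lit 202))) (XT.nd (nat_lit 78) (nat_lit 152) (nat_lit 0) (XT.lf (nat_lit 0) (nat_lit 10469212089) (nat_lit 228) (nat_lit 14897257983) (nat_lit 76) (nat_lit 14906161830) (nat_lit 77) (nat_lit 5) (nat_lit 80) (nat_lit 5) (nat_lit 78) (nat_lit 5) (nat_lit 450) (nat_lit 369) (nat_lit 201)) (XT.lf (nat_lit 0) (nat_lit 7457451881) (nat_lit 152) (nat_lit 12886871979) (nat_lit 228) (nat_lit 20747831925) (nat_lit 75) (nat_lit 5) (nat_lit 77) (nat_lit 5) (nat_lit 78) (nat_lit 5) (nat_lit 451) (nat_lit 369) (nat_lit 200)))) (XT.nd (nat_lit 156) (nat_lit 228) (nat_lit 0) (XT.nd (nat_lit 78) (nat_lit 152) (nat_lit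 0) (XT.lf (nat_lit 0) (nat_lit 30662063248) (nat_lit 228) (nat_lit 11153943653) (nat_lit 76) (nat_lit 115867830) (nat_lit 75) (nat_lit 5) (nat_lit 78) (nat_lit 5) (nat_lit 76) (nat_lit 5) (nat_lit 452) (nat_lit 369) (nat_lit 199)) (XT.lf (nat_lit 0) (nat_lit 12100845490) (nat_lit 152) (nat_lit 29427323092) (nat_lit 228) (nat_lit 1261452209) (nat_lit 73) (nat_lit 5) (nat_lit 75) (nat_lit 5) (nat_lit 76) (nat_lit 5) (nat_lit 453) (nat_lit 369) (nat_lit 198))) (XT.nd (nat_lit 78) (nat_lit 152) (nat_lit 0) (XT.lf (nat_lit 0) (nat_lit 8979296321) (nat_lit 228) (nat_lit 7484825020) (nat_lit 76) (nat_lit 27203108979) (nat_lit 72) (nat_lit 5) (nat_lit 75) (nat_lit 5) (nat_lit 73) (nat_lit 5) (nat_lit 454) (nat_lit 369) (nat_lit 197)) (XT.lf (nat_lit 0) (nat_lit 16720342817) (nat_lit 152) (nat_lit 2937377273) (nat_lit 228) (nat_lit 24908399666) (nat_lit 70) (nat_lit 5) (nat_lit 72) (nat_lit 5) (nat_lit 73) (nat_lit 5) (nat_lit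 455) (nat_lit 369) (nat_lit 196))))))) (XT.nd (nat_lit 1092) (nat_lit 1216) (nat_lit 0) (XT.nd (nat_lit 546) (nat_lit 456) (nat_lit 0) (XT.nd (nat_lit 234) (nat_lit 532) (nat_lit 0) (XT.nd (nat_lit 78) (nat_lit 228) (nat_lit 0) (XT.lf (nat_lit 0) (nat_lit 30833624464) (nat_lit 228) (nat_lit 3799762359) (nat_lit 76) (nat_lit 10853275709) (nat_lit 70) (nat_lit 5) (nat_lit 73) (nat_lit 5) (nat_lit 71) (nat_lit 5) (nat_lit 456) (nat_lit 369) (nat_lit 195)) (XT.nd (nat_lit 78) (nat_lit 76) (nat_lit 0) (XT.lf (nat_lit 0) (nat_lit 21346642725) (nat_lit 152) (nat_lit 21227690949) (nat_lit 228) (nat_lit 3853602567) (nat_lit 68) (nat_lit 5) (nat_lit 70) (nat_lit 5) (nat_lit 71) (nat_lit 5) (nat_lit 457) (nat_lit 369) (nat_lit 194)) (XT.lf (nat_lit 0) (nat_lit 7161964511) (nat_lit 228) (nat_lit 149696293) (nat_lit 76) (nat_lit 40082671090) (nat_lit 67) (nat_lit 5) (nat_lit 70) (nat_lit 5) (nat_lit 68) (nat_lit 5) (nat_lit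 458) (nat_lit 369) (nat_lit 193)))) (XT.nd (nat_lit 156) (nat_lit 228) (nat_lit 0) (XT.nd (nat_lit 78) (nat_lit 152) (nat_lit 0) (XT.lf (nat_lit 0) (nat_lit 18746094762) (nat_lit 228) (nat_lit 22460889806) (nat_lit 76) (nat_lit 7172124161) (nat_lit 65) (nat_lit 5) (nat_lit 68) (nat_lit 5) (nat_lit 66) (nat_lit 5) (nat_lit 459) (nat_lit 369) (nat_lit 192)) (XT.lf (nat_lit 0) (nat_lit 3362826100) (nat_lit 152) (nat_lit 27416585762) (nat_lit 228) (nat_lit 18610967548) (nat_lit 63) (nat_lit 5) (nat_lit 65) (nat_lit 5) (nat_lit 66) (nat_lit 5) (nat_lit 460) (nat_lit 369) (nat_lit 191))) (XT.nd (nat_lit 78) (nat_lit 228) (nat_lit 0) (XT.lf (nat_lit 0) (nat_lit 30413516722) (nat_lit 152) (nat_lit 12982495798) (nat_lit 228) (nat_lit 7029307584) (nat_lit 63) (nat_lit 5) (nat_lit 65) (nat_lit 5) (nat_lit 66) (nat_lit 5) (nat_lit 461) (nat_lit 369) (nat_lit 190)) (XT.lf (nat_lit 0) (nat_lit 4884925272) (nat_lit 228) (nat_lit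 44644020086) (nat_lit 76) (nat_lit 1958528978) (nat_lit 60) (nat_lit 5) (nat_lit 63) (nat_lit 5) (nat_lit 61) (nat_lit 5) (nat_lit 462) (nat_lit 369) (nat_lit 189))))) (XT.nd (nat_lit 234) (nat_lit 304) (nat_lit 0) (XT.nd (nat_lit 78) (nat_lit 152) (nat_lit 0) (XT.lf (nat_lit 0) (nat_lit 17343503252) (nat_lit 228) (nat_lit 17869009525) (nat_lit 76) (nat_lit 17357046878) (nat_lit 60) (nat_lit 5) (nat_lit 63) (nat_lit 5) (nat_lit 61) (nat_lit 5) (nat_lit 463) (nat_lit 369) (nat_lit 188)) (XT.nd (nat_lit 78) (nat_lit 0) (nat_lit 0) (XT.lf (nat_lit 0) (nat_lit 9894530017) (nat_lit 152) (nat_lit 20372129498) (nat_lit 228) (nat_lit 23414723757) (nat_lit 58) (nat_lit 5) (nat_lit 60) (nat_lit 5) (nat_lit 61) (nat_lit 5) (nat_lit 464) (nat_lit 369) (nat_lit 187)) (XT.lf (nat_lit 0) (nat_lit 38849550132) (nat_lit 152) (nat_lit 4904161718) (nat_lit 228) (nat_lit 11067564066) (nat_lit 58) (nat_lit 5) (nat_lit 60) (nat_lit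 5) (nat_lit 61) (nat_lit 5) (nat_lit 465) (nat_lit 369) (nat_lit 186)))) (XT.nd (nat_lit 156) (nat_lit 152) (nat_lit 0) (XT.nd (nat_lit 78) (nat_lit 0) (nat_lit 0) (XT.lf (nat_lit 0) (nat_lit 1845076356) (nat_lit 152) (nat_lit 43192390287) (nat_lit 76) (nat_lit 10950605298) (nat_lit 56) (nat_lit 5) (nat_lit 58) (nat_lit 5) (nat_lit 57) (nat_lit 5) (nat_lit 466) (nat_lit 369) (nat_lit 185)) (XT.lf (nat_lit 0) (nat_lit 15129943071) (nat_lit 152) (nat_lit 14598847649) (nat_lit 76) (nat_lit 27451575234) (nat_lit 56) (nat_lit 5) (nat_lit 58) (nat_lit 5) (nat_lit 57) (nat_lit 5) (nat_lit 467) (nat_lit 369) (nat_lit 184))) (XT.nd (nat_lit 78) (nat_lit 0) (nat_lit 0) (XT.lf (nat_lit 0) (nat_lit 15140572078) (nat_lit 152) (nat_lit 13814302914) (nat_lit 228) (nat_lit 29449308538) (nat_lit 54) (nat_lit 5) (nat_lit 56) (nat_lit 5) (nat_lit 57) (nat_lit 5) (nat_lit 468) (nat_lit 369) (nat_lit 183)) (XT.lf (nat_lit 0) (nat_lit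 43364205536) (nat_lit 228) (nat_lit 13622485334) (nat_lit 76) (nat_lit 2672935551) (nat_lit 54) (nat_lit 5) (nat_lit 57) (nat_lit 5) (nat_lit 55) (nat_lit 4) (nat_lit 469) (nat_lit 369) (nat_lit 182)))))) (XT.nd (nat_lit 546) (nat_lit 608) (nat_lit 0) (XT.nd (nat_lit 234) (nat_lit 304) (nat_lit 0) (XT.nd (nat_lit 78) (nat_lit 228) (nat_lit 0) (XT.lf (nat_lit 0) (nat_lit 17097558018) (nat_lit 76) (nat_lit 41405495801) (nat_lit 152) (nat_lit 2440761946) (nat_lit 53) (nat_lit 5) (nat_lit 54) (nat_lit 5) (nat_lit 55) (nat_lit 4) (nat_lit 470) (nat_lit 369) (nat_lit 181)) (XT.nd (nat_lit 78) (nat_lit 152) (nat_lit 0) (XT.lf (nat_lit 0) (nat_lit 11733739260) (nat_lit 152) (nat_lit 13366211860) (nat_lit 76) (nat_lit 37159117389) (nat_lit 52) (nat_lit 5) (nat_lit 54) (nat_lit 5) (nat_lit 53) (nat_lit 5) (nat_lit 471) (nat_lit 369) (nat_lit 180)) (XT.lf (nat_lit 0) (nat_lit 18355272734) (nat_lit 152) (nat_lit 8101818070)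 (nat_lit 228) (nat_lit 37150783158) (nat_lit 50) (nat_lit 5) (nat_lit 52) (nat_lit 5) (nat_lit 53) (nat_lit 5) (nat_lit 472) (nat_lit 369) (nat_lit 179)))) (XT.nd (nat_lit 156) (nat_lit 228) (nat_lit 0) (XT.nd (nat_lit 78) (nat_lit 76) (nat_lit 0) (XT.lf (nat_lit 0) (nat_lit 41845113455) (nat_lit 228) (nat_lit 13789440695) (nat_lit 76) (nat_lit 9355900581) (nat_lit 50) (nat_lit 5) (nat_lit 53) (nat_lit 5) (nat_lit 51) (nat_lit 4) (nat_lit 473) (nat_lit 369) (nat_lit 178)) (XT.lf (nat_lit 0) (nat_lit 18899410399) (nat_lit 76) (nat_lit 39053607478) (nat_lit 152) (nat_lit 8453748071) (nat_lit 49) (nat_lit 5) (nat_lit 50) (nat_lit 5) (nat_lit 51) (nat_lit 4) (nat_lit 474) (nat_lit 369) (nat_lit 177))) (XT.nd (nat_lit 78) (nat_lit 152) (nat_lit 0) (XT.lf (nat_lit 0) (nat_lit 6685252615) (nat_lit 152) (nat_lit 15082159490) (nat_lit 76) (nat_lit 46092119186) (nat_lit 48) (nat_lit 5) (nat_lit 50) (nat_lit 5) (nat_lit 49)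 (nat_lit 5) (nat_lit 475) (nat_lit 369) (nat_lit 176)) (XT.lf (nat_lit 0) (nat_lit 18588222903) (nat_lit 152) (nat_lit 3695433998) (nat_lit 228) (nat_lit 47064457549) (nat_lit 46) (nat_lit 5) (nat_lit 48) (nat_lit 5) (nat_lit 49) (nat_lit 5) (nat_lit 476) (nat_lit 369) (nat_lit 175))))) (XT.nd (nat_lit 312) (nat_lit 304) (nat_lit 0) (XT.nd (nat_lit 156) (nat_lit 228) (nat_lit 0) (XT.nd (nat_lit 78) (nat_lit 76) (nat_lit 0) (XT.lf (nat_lit 0) (nat_lit 38643704449) (nat_lit 228) (nat_lit 17450419049) (nat_lit 76) (nat_lit 14778421103) (nat_lit 46) (nat_lit 5) (nat_lit 49) (nat_lit 5) (nat_lit 47) (nat_lit 4) (nat_lit 477) (nat_lit 369) (nat_lit 174)) (XT.lf (nat_lit 0) (nat_lit 17149996128) (nat_lit 76) (nat_lit 38542579933) (nat_lit 152) (nat_lit 16744191138) (nat_lit 45) (nat_lit 5) (nat_lit 46) (nat_lit 5) (nat_lit 47) (nat_lit 4) (nat_lit 478) (nat_lit 369) (nat_lit 173))) (XT.nd (nat_lit 78) (nat_lit 228) (nat_lit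 0) (XT.lf (nat_lit 0) (nat_lit 53139791860) (nat_lit 76) (nat_lit 20285953553) (nat_lit 152) (nat_lit 616986331) (nat_lit 45) (nat_lit 5) (nat_lit 46) (nat_lit 5) (nat_lit 47) (nat_lit 4) (nat_lit 479) (nat_lit 369) (nat_lit 172)) (XT.lf (nat_lit 0) (nat_lit 14638073623) (nat_lit 152) (nat_lit 1181252284) (nat_lit 228) (nat_lit 59868815414) (nat_lit 42) (nat_lit 5) (nat_lit 44) (nat_lit 5) (nat_lit 45) (nat_lit 5) (nat_lit 480) (nat_lit 369) (nat_lit 171)))) (XT.nd (nat_lit 156) (nat_lit 228) (nat_lit 0) (XT.nd (nat_lit 78) (nat_lit 76) (nat_lit 0) (XT.lf (nat_lit 0) (nat_lit 33123987794) (nat_lit 228) (nat_lit 25895012191) (nat_lit 76) (nat_lit 18352100302) (nat_lit 42) (nat_lit 5) (nat_lit 45) (nat_lit 5) (nat_lit 43) (nat_lit 4) (nat_lit 481) (nat_lit 369) (nat_lit 170)) (XT.lf (nat_lit 0) (nat_lit 10501871000) (nat_lit 76) (nat_lit 40555352824) (nat_lit 152) (nat_lit 28044041362) (nat_lit 41) (nat_lit 5) (nat_lit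 42) (nat_lit 5) (nat_lit 43) (nat_lit 4) (nat_lit 482) (nat_lit 369) (nat_lit 169))) (XT.nd (nat_lit 78) (nat_lit 228) (nat_lit 0) (XT.lf (nat_lit 0) (nat_lit 48515484697) (nat_lit 76) (nat_lit 21271285283) (nat_lit 152) (nat_lit 11088815847) (nat_lit 41) (nat_lit 5) (nat_lit 42) (nat_lit 5) (nat_lit 43) (nat_lit 4) (nat_lit 483) (nat_lit 369) (nat_lit 168)) (XT.lf (nat_lit 0) (nat_lit 4996707644) (nat_lit 152) (nat_lit 1298875679) (nat_lit 228) (nat_lit 76404366988) (nat_lit 38) (nat_lit 5) (nat_lit 40) (nat_lit 5) (nat_lit 41) (nat_lit 5) (nat_lit 484) (nat_lit 369) (nat_lit 167))))))))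
noncomputable def xc170 : XT := (XT.nd (nat_lit 46254) (nat_lit 0) (nat_lit 6688) (XT.nd (nat_lit 45084) (nat_lit 0) (nat_lit 13528) (XT.nd (nat_lit 44538) (nat_lit 0) (nat_lit 18088) (XT.nd (nat_lit 44226) (nat_lit 0) (nat_lit 18012) (XT.nd (nat_lit 78) (nat_lit 0) (nat_lit 0) (XT.lf (nat_lit 0) (nat_lit 24490804488) (nat_lit 228) (nat_lit 40735852391) (nat_lit 76) (nat_lit 19333730386) (nat_lit 38) (nat_lit 5) (nat_lit 41) (nat_lit 5) (nat_lit 39) (nat_lit 4) (nat_lit 485) (nat_lit 369) (nat_lit 166)) (XT.nd (nat_lit 44070) (nat_lit 0) (nat_lit 19076) (XT.lf (nat_lit 0) (nat_lit 43241727145) (nat_lit 228) (nat_lit 2678023105) (nat_lit 76) (nat_lit 40556591899) (nat_lit 38) (nat_lit 5) (nat_lit 41) (nat_lit 5) (nat_lit 39) (nat_lit 4) (nat_lit 486) (nat_lit 369) (nat_lit 165)) (XT.lf (nat_lit 0) (nat_lit 4253286837) (nat_lit 1140) (nat_lit 454323125) (nat_lit 1140) (nat_lit 454323125) (nat_lit 289) (nat_lit 3)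 (nat_lit 304) (nat_lit 3) (nat_lit 304) (nat_lit 5) (nat_lit 370) (nat_lit 370) (nat_lit 280)))) (XT.nd (nat_lit 156) (nat_lit 1064) (nat_lit 0) (XT.nd (nat_lit 78) (nat_lit 0) (nat_lit 0) (XT.lf (nat_lit 76) (nat_lit 4198050430) (nat_lit 0) (nat_lit 5119616098) (nat_lit 1140) (nat_lit 1140322814) (nat_lit 290) (nat_lit 5) (nat_lit 289) (nat_lit 3) (nat_lit 304) (nat_lit 5) (nat_lit 371) (nat_lit 370) (nat_lit 279)) (XT.lf (nat_lit 76) (nat_lit 9463386053) (nat_lit 0) (nat_lit 673654929) (nat_lit 1140) (nat_lit 459585731) (nat_lit 290) (nat_lit 5) (nat_lit 289) (nat_lit 3) (nat_lit 304) (nat_lit 5) (nat_lit 372) (nat_lit 370) (nat_lit 278))) (XT.nd (nat_lit 78) (nat_lit 0) (nat_lit 0) (XT.lf (nat_lit 0) (nat_lit 290700498) (nat_lit 1140) (nat_lit 6563108072) (nat_lit 1216) (nat_lit 3883938202) (nat_lit 275) (nat_lit 5) (nat_lit 290) (nat_lit 5) (nat_lit 291) (nat_lit 5) (nat_lit 373) (nat_lit 370) (nat_lit 277))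 (XT.lf (nat_lit 0) (nat_lit 1048441268) (nat_lit 1140) (nat_lit 1243118688) (nat_lit 1216) (nat_lit 8591586686) (nat_lit 275) (nat_lit 5) (nat_lit 290) (nat_lit 5) (nat_lit 291) (nat_lit 5) (nat_lit 374) (nat_lit 370) (nat_lit 276))))) (XT.nd (nat_lit 234) (nat_lit 0) (nat_lit 76) (XT.nd (nat_lit 78) (nat_lit 0) (nat_lit 0) (XT.lf (nat_lit 0) (nat_lit 1870618130) (nat_lit 1140) (nat_lit 6749112180) (nat_lit 1216) (nat_lit 2411935057) (nat_lit 276) (nat_lit 5) (nat_lit 291) (nat_lit 5) (nat_lit 292) (nat_lit 5) (nat_lit 375) (nat_lit 370) (nat_lit 275)) (XT.nd (nat_lit 78) (nat_lit 0) (nat_lit 76) (XT.lf (nat_lit 0) (nat_lit 2730123173) (nat_lit 1140) (nat_lit 1221850559) (nat_lit 1216) (nat_lit 7232293778) (nat_lit 276) (nat_lit 5) (nat_lit 291) (nat_lit 5) (nat_lit 292) (nat_lit 5) (nat_lit 376) (nat_lit 370) (nat_lit 274)) (XT.lf (nat_lit 0) (nat_lit 3645809518) (nat_lit 1140) (nat_lit 6803441231) (nat_lit 1216)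 (nat_lit 891292602) (nat_lit 277) (nat_lit 5) (nat_lit 292) (nat_lit 5) (nat_lit 293) (nat_lit 5) (nat_lit 377) (nat_lit 370) (nat_lit 273)))) (XT.nd (nat_lit 156) (nat_lit 0) (nat_lit 76) (XT.nd (nat_lit 78) (nat_lit 0) (nat_lit 0) (XT.lf (nat_lit 0) (nat_lit 4619098989) (nat_lit 1140) (nat_lit 1060947979) (nat_lit 1216) (nat_lit 5820563822) (nat_lit 277) (nat_lit 5) (nat_lit 292) (nat_lit 5) (nat_lit 293) (nat_lit 5) (nat_lit 378) (nat_lit 370) (nat_lit 272)) (XT.lf (nat_lit 76) (nat_lit 4936131911) (nat_lit 0) (nat_lit 712072921) (nat_lit 1216) (nat_lit 6016483975) (nat_lit 278) (nat_lit 5) (nat_lit 277) (nat_lit 5) (nat_lit 293) (nat_lit 5) (nat_lit 379) (nat_lit 370) (nat_lit 271))) (XT.nd (nat_lit 78) (nat_lit 0) (nat_lit 0) (XT.lf (nat_lit 0) (nat_lit 6741050704) (nat_lit 1140) (nat_lit 755496706) (nat_lit 1216) (nat_lit 4336162629) (nat_lit 278) (nat_lit 5) (nat_lit 293) (nat_lit 5) (nat_lit 294) (nat_lit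 5) (nat_lit 380) (nat_lit 370) (nat_lit 270)) (XT.lf (nat_lit 76) (nat_lit 5482560950) (nat_lit 0) (nat_lit 2424168396) (nat_lit 1216) (nat_lit 4097847819) (nat_lit 279) (nat_lit 5) (nat_lit 278) (nat_lit 5) (nat_lit 294) (nat_lit 5) (nat_lit 381) (nat_lit 370) (nat_lit 269)))))) (XT.nd (nat_lit 546) (nat_lit 2508) (nat_lit 0) (XT.nd (nat_lit 234) (nat_lit 2280) (nat_lit 0) (XT.nd (nat_lit 78) (nat_lit 0) (nat_lit 0) (XT.lf (nat_lit 0) (nat_lit 9122787486) (nat_lit 1140) (nat_lit 299743929) (nat_lit 1216) (nat_lit 2758613100) (nat_lit 279) (nat_lit 5) (nat_lit 294) (nat_lit 5) (nat_lit 295) (nat_lit 5) (nat_lit 382) (nat_lit 370) (nat_lit 268)) (XT.nd (nat_lit 78) (nat_lit 0) (nat_lit 76) (XT.lf (nat_lit 76) (nat_lit 6191820299) (nat_lit 0) (nat_lit 4248373528) (nat_lit 1216) (nat_lit 1920875360) (nat_lit 280) (nat_lit 5) (nat_lit 279) (nat_lit 5) (nat_lit 295) (nat_lit 5) (nat_lit 383) (nat_lit 370) (nat_lit 267))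 (XT.lf (nat_lit 76) (nat_lit 319127329) (nat_lit 0) (nat_lit 11476304451) (nat_lit 1216) (nat_lit 751016650) (nat_lit 281) (nat_lit 5) (nat_lit 280) (nat_lit 5) (nat_lit 296) (nat_lit 5) (nat_lit 384) (nat_lit 370) (nat_lit 266)))) (XT.nd (nat_lit 156) (nat_lit 1140) (nat_lit 0) (XT.nd (nat_lit 78) (nat_lit 0) (nat_lit 0) (XT.lf (nat_lit 0) (nat_lit 532059336) (nat_lit 1216) (nat_lit 5668819287) (nat_lit 1292) (nat_lit 6533775898) (nat_lit 264) (nat_lit 5) (nat_lit 280) (nat_lit 5) (nat_lit 281) (nat_lit 5) (nat_lit 385) (nat_lit 370) (nat_lit 265)) (XT.lf (nat_lit 76) (nat_lit 1085747742) (nat_lit 0) (nat_lit 745748496) (nat_lit 1292) (nat_lit 11097004176) (nat_lit 265) (nat_lit 5) (nat_lit 264) (nat_lit 5) (nat_lit 281) (nat_lit 5) (nat_lit 386) (nat_lit 370) (nat_lit 264))) (XT.nd (nat_lit 78) (nat_lit 1216) (nat_lit 0) (XT.lf (nat_lit 0) (nat_lit 3257494460) (nat_lit 1216) (nat_lit 5029541455) (nat_lit 76)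 (nat_lit 4838503854) (nat_lit 265) (nat_lit 5) (nat_lit 281) (nat_lit 5) (nat_lit 266) (nat_lit 5) (nat_lit 387) (nat_lit 370) (nat_lit 263)) (XT.lf (nat_lit 0) (nat_lit 2005402714) (nat_lit 1216) (nat_lit 2730952937) (nat_lit 1292) (nat_lit 8591837436) (nat_lit 249) (nat_lit 5) (nat_lit 265) (nat_lit 5) (nat_lit 266) (nat_lit 5) (nat_lit 388) (nat_lit 370) (nat_lit 262))))) (XT.nd (nat_lit 312) (nat_lit 1216) (nat_lit 0) (XT.nd (nat_lit 156) (nat_lit 608) (nat_lit 0) (XT.nd (nat_lit 78) (nat_lit 684) (nat_lit 0) (XT.lf (nat_lit 0) (nat_lit 6323419906) (nat_lit 1292) (nat_lit 4224950463) (nat_lit 76) (nat_lit 2986645637) (nat_lit 249) (nat_lit 5) (nat_lit 266) (nat_lit 5) (nat_lit 250) (nat_lit 5) (nat_lit 389) (nat_lit 370) (nat_lit 261)) (XT.lf (nat_lit 0) (nat_lit 3105024255) (nat_lit 684) (nat_lit 4894217327) (nat_lit 760) (nat_lit 5747572635) (nat_lit 240) (nat_lit 5) (nat_lit 249) (nat_lit 5) (nat_lit 250)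 (nat_lit 5) (nat_lit 390) (nat_lit 370) (nat_lit 260))) (XT.nd (nat_lit 78) (nat_lit 608) (nat_lit 0) (XT.lf (nat_lit 0) (nat_lit 9761951995) (nat_lit 760) (nat_lit 3246228596) (nat_lit 76) (nat_lit 955692187) (nat_lit 240) (nat_lit 5) (nat_lit 250) (nat_lit 5) (nat_lit 241) (nat_lit 5) (nat_lit 391) (nat_lit 370) (nat_lit 259)) (XT.lf (nat_lit 0) (nat_lit 4394227299) (nat_lit 608) (nat_lit 7259055235) (nat_lit 684) (nat_lit 2531893082) (nat_lit 232) (nat_lit 5) (nat_lit 240) (nat_lit 5) (nat_lit 241) (nat_lit 5) (nat_lit 392) (nat_lit 370) (nat_lit 258)))) (XT.nd (nat_lit 156) (nat_lit 532) (nat_lit 0) (XT.nd (nat_lit 78) (nat_lit 684) (nat_lit 0) (XT.lf (nat_lit 0) (nat_lit 12316319281) (nat_lit 608) (nat_lit 1303155412) (nat_lit 684) (nat_lit 793103742) (nat_lit 232) (nat_lit 5) (nat_lit 240) (nat_lit 5) (nat_lit 241) (nat_lit 5) (nat_lit 393) (nat_lit 370) (nat_lit 257)) (XT.lf (nat_lit 0) (nat_lit 1068023637)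 (nat_lit 684) (nat_lit 8771126422) (nat_lit 76) (nat_lit 4804680431) (nat_lit 223) (nat_lit 5) (nat_lit 232) (nat_lit 5) (nat_lit 224) (nat_lit 5) (nat_lit 394) (nat_lit 370) (nat_lit 256))) (XT.nd (nat_lit 78) (nat_lit 532) (nat_lit 0) (XT.lf (nat_lit 0) (nat_lit 2989235010) (nat_lit 684) (nat_lit 792935266) (nat_lit 76) (nat_lit 11099012693) (nat_lit 223) (nat_lit 5) (nat_lit 232) (nat_lit 5) (nat_lit 224) (nat_lit 5) (nat_lit 395) (nat_lit 370) (nat_lit 255)) (XT.lf (nat_lit 0) (nat_lit 5051388820) (nat_lit 608) (nat_lit 7590008965) (nat_lit 76) (nat_lit 2481763095) (nat_lit 216) (nat_lit 5) (nat_lit 224) (nat_lit 5) (nat_lit 217) (nat_lit 5) (nat_lit 396) (nat_lit 370) (nat_lit 254))))))) (XT.nd (nat_lit 1092) (nat_lit 2964) (nat_lit 0) (XT.nd (nat_lit 546) (nat_lit 1824) (nat_lit 0) (XT.nd (nat_lit 234) (nat_lit 1064) (nat_lit 0) (XT.nd (nat_lit 78) (nat_lit 456) (nat_lit 0) (XT.lf (nat_lit 0) (nat_lit 715408041)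 (nat_lit 532) (nat_lit 6498993848) (nat_lit 608) (nat_lit 8156830324) (nat_lit 209) (nat_lit 5) (nat_lit 216) (nat_lit 5) (nat_lit 217) (nat_lit 5) (nat_lit 397) (nat_lit 370) (nat_lit 253)) (XT.nd (nat_lit 78) (nat_lit 456) (nat_lit 0) (XT.lf (nat_lit 0) (nat_lit 9411570137) (nat_lit 532) (nat_lit 94219656) (nat_lit 608) (nat_lit 6119055170) (nat_lit 209) (nat_lit 5) (nat_lit 216) (nat_lit 5) (nat_lit 217) (nat_lit 5) (nat_lit 398) (nat_lit 370) (nat_lit 252)) (XT.lf (nat_lit 0) (nat_lit 2453952187) (nat_lit 456) (nat_lit 9485279581) (nat_lit 532) (nat_lit 3944638651) (nat_lit 203) (nat_lit 5) (nat_lit 209) (nat_lit 5) (nat_lit 210) (nat_lit 5) (nat_lit 399) (nat_lit 370) (nat_lit 251)))) (XT.nd (nat_lit 156) (nat_lit 456) (nat_lit 0) (XT.nd (nat_lit 78) (nat_lit 608) (nat_lit 0) (XT.lf (nat_lit 0) (nat_lit 11493771293) (nat_lit 456) (nat_lit 3003026290) (nat_lit 532) (nat_lit 1652339029) (nat_lit 203) (nat_lit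 5) (nat_lit 209) (nat_lit 5) (nat_lit 210) (nat_lit 5) (nat_lit 400) (nat_lit 370) (nat_lit 250)) (XT.lf (nat_lit 0) (nat_lit 761151435) (nat_lit 608) (nat_lit 12008299521) (nat_lit 76) (nat_lit 3650721285) (nat_lit 195) (nat_lit 5) (nat_lit 203) (nat_lit 5) (nat_lit 196) (nat_lit 5) (nat_lit 401) (nat_lit 370) (nat_lit 249))) (XT.nd (nat_lit 78) (nat_lit 456) (nat_lit 0) (XT.lf (nat_lit 0) (nat_lit 3278954951) (nat_lit 608) (nat_lit 2911830188) (nat_lit 76) (nat_lit 10506112730) (nat_lit 195) (nat_lit 5) (nat_lit 203) (nat_lit 5) (nat_lit 196) (nat_lit 5) (nat_lit 402) (nat_lit 370) (nat_lit 248)) (XT.lf (nat_lit 0) (nat_lit 5929966096) (nat_lit 532) (nat_lit 10414334190) (nat_lit 76) (nat_lit 635897964) (nat_lit 189) (nat_lit 5) (nat_lit 196) (nat_lit 5) (nat_lit 190) (nat_lit 5) (nat_lit 403) (nat_lit 370) (nat_lit 247))))) (XT.nd (nat_lit 234) (nat_lit 912) (nat_lit 0) (XT.nd (nat_lit 78) (nat_lit 912) (nat_lit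 0) (XT.lf (nat_lit 0) (nat_lit 8739955496) (nat_lit 532) (nat_lit 958818370) (nat_lit 76) (nat_lit 7570843436) (nat_lit 189) (nat_lit 5) (nat_lit 196) (nat_lit 5) (nat_lit 190) (nat_lit 5) (nat_lit 404) (nat_lit 370) (nat_lit 246)) (XT.nd (nat_lit 78) (nat_lit 456) (nat_lit 0) (XT.lf (nat_lit 0) (nat_lit 8941548021) (nat_lit 456) (nat_lit 2767442475) (nat_lit 532) (nat_lit 5856489060) (nat_lit 183) (nat_lit 5) (nat_lit 189) (nat_lit 5) (nat_lit 190) (nat_lit 5) (nat_lit 405) (nat_lit 370) (nat_lit 245)) (XT.lf (nat_lit 0) (nat_lit 1257593980) (nat_lit 456) (nat_lit 13562367408) (nat_lit 532) (nat_lit 3048673263) (nat_lit 177) (nat_lit 5) (nat_lit 183) (nat_lit 5) (nat_lit 184) (nat_lit 5) (nat_lit 406) (nat_lit 370) (nat_lit 244)))) (XT.nd (nat_lit 156) (nat_lit 380) (nat_lit 0) (XT.nd (nat_lit 78) (nat_lit 532) (nat_lit 0) (XT.lf (nat_lit 0) (nat_lit 11571055126) (nat_lit 456) (nat_lit 6556589077) (nat_lit 532)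 (nat_lit 50141547) (nat_lit 177) (nat_lit 5) (nat_lit 183) (nat_lit 5) (nat_lit 184) (nat_lit 5) (nat_lit 407) (nat_lit 370) (nat_lit 243)) (XT.lf (nat_lit 0) (nat_lit 3011226235) (nat_lit 532) (nat_lit 14773460631) (nat_lit 76) (nat_lit 709685918) (nat_lit 170) (nat_lit 5) (nat_lit 177) (nat_lit 5) (nat_lit 171) (nat_lit 5) (nat_lit 408) (nat_lit 370) (nat_lit 242))) (XT.nd (nat_lit 78) (nat_lit 380) (nat_lit 0) (XT.lf (nat_lit 0) (nat_lit 6285253548) (nat_lit 532) (nat_lit 4404047591) (nat_lit 76) (nat_lit 8127489201) (nat_lit 170) (nat_lit 5) (nat_lit 177) (nat_lit 5) (nat_lit 171) (nat_lit 5) (nat_lit 409) (nat_lit 370) (nat_lit 241)) (XT.lf (nat_lit 0) (nat_lit 6388158570) (nat_lit 380) (nat_lit 3320588833) (nat_lit 456) (nat_lit 9438598168) (nat_lit 165) (nat_lit 5) (nat_lit 170) (nat_lit 5) (nat_lit 171) (nat_lit 5) (nat_lit 410) (nat_lit 370) (nat_lit 240)))))) (XT.nd (nat_lit 546) (nat_lit 1444) (nat_lit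 0) (XT.nd (nat_lit 234) (nat_lit 684) (nat_lit 0) (XT.nd (nat_lit 78) (nat_lit 836) (nat_lit 0) (XT.lf (nat_lit 0) (nat_lit 13310881023) (nat_lit 456) (nat_lit 1946645284) (nat_lit 76) (nat_lit 4228015546) (nat_lit 165) (nat_lit 5) (nat_lit 171) (nat_lit 5) (nat_lit 166) (nat_lit 5) (nat_lit 411) (nat_lit 370) (nat_lit 239)) (XT.nd (nat_lit 78) (nat_lit 456) (nat_lit 0) (XT.lf (nat_lit 0) (nat_lit 9326680825) (nat_lit 380) (nat_lit 7807204792) (nat_lit 456) (nat_lit 2696616573) (nat_lit 160) (nat_lit 5) (nat_lit 165) (nat_lit 5) (nat_lit 166) (nat_lit 5) (nat_lit 412) (nat_lit 370) (nat_lit 238)) (XT.lf (nat_lit 0) (nat_lit 786750870) (nat_lit 380) (nat_lit 99489637) (nat_lit 456) (nat_lit 19298784948) (nat_lit 154) (nat_lit 5) (nat_lit 159) (nat_lit 5) (nat_lit 160) (nat_lit 5) (nat_lit 413) (nat_lit 370) (nat_lit 237)))) (XT.nd (nat_lit 156) (nat_lit 304) (nat_lit 0) (XT.nd (nat_lit 78) (nat_lit 380) (nat_lit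 0) (XT.lf (nat_lit 0) (nat_lit 4695330500) (nat_lit 456) (nat_lit 8031664268) (nat_lit 76) (nat_lit 7817202453) (nat_lit 154) (nat_lit 5) (nat_lit 160) (nat_lit 5) (nat_lit 155) (nat_lit 5) (nat_lit 414) (nat_lit 370) (nat_lit 236)) (XT.lf (nat_lit 0) (nat_lit 3735311617) (nat_lit 380) (nat_lit 4911020962) (nat_lit 456) (nat_lit 12266984487) (nat_lit 149) (nat_lit 5) (nat_lit 154) (nat_lit 5) (nat_lit 155) (nat_lit 5) (nat_lit 415) (nat_lit 370) (nat_lit 235))) (XT.nd (nat_lit 78) (nat_lit 304) (nat_lit 0) (XT.lf (nat_lit 0) (nat_lit 12818816469) (nat_lit 456) (nat_lit 5314777936) (nat_lit 76) (nat_lit 3156829597) (nat_lit 149) (nat_lit 5) (nat_lit 155) (nat_lit 5) (nat_lit 150) (nat_lit 5) (nat_lit 416) (nat_lit 370) (nat_lit 234)) (XT.lf (nat_lit 0) (nat_lit 6979631422) (nat_lit 304) (nat_lit 10243692467) (nat_lit 380) (nat_lit 4452316774) (nat_lit 145) (nat_lit 5) (nat_lit 149) (nat_lit 5) (nat_lit 150) (nat_lit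 5) (nat_lit 417) (nat_lit 370) (nat_lit 233))))) (XT.nd (nat_lit 312) (nat_lit 684) (nat_lit 0) (XT.nd (nat_lit 156) (nat_lit 304) (nat_lit 0) (XT.nd (nat_lit 78) (nat_lit 456) (nat_lit 0) (XT.lf (nat_lit 0) (nat_lit 19739652518) (nat_lit 304) (nat_lit 2065256715) (nat_lit 380) (nat_lit 266158241) (nat_lit 145) (nat_lit 5) (nat_lit 149) (nat_lit 5) (nat_lit 150) (nat_lit 5) (nat_lit 418) (nat_lit 370) (nat_lit 232)) (XT.lf (nat_lit 0) (nat_lit 4122064949) (nat_lit 456) (nat_lit 11977590718) (nat_lit 76) (nat_lit 6372873866) (nat_lit 139) (nat_lit 5) (nat_lit 145) (nat_lit 5) (nat_lit 140) (nat_lit 5) (nat_lit 419) (nat_lit 370) (nat_lit 231))) (XT.nd (nat_lit 78) (nat_lit 0) (nat_lit 0) (XT.lf (nat_lit 0) (nat_lit 849720640) (nat_lit 304) (nat_lit 7830800962) (nat_lit 380) (nat_lit 14204118474) (nat_lit 135) (nat_lit 5) (nat_lit 139) (nat_lit 5) (nat_lit 140) (nat_lit 5) (nat_lit 420) (nat_lit 370) (nat_lit 230))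 (XT.lf (nat_lit 0) (nat_lit 13496115560) (nat_lit 380) (nat_lit 9018085820) (nat_lit 76) (nat_lit 791302762) (nat_lit 135) (nat_lit 5) (nat_lit 140) (nat_lit 5) (nat_lit 136) (nat_lit 5) (nat_lit 421) (nat_lit 370) (nat_lit 229)))) (XT.nd (nat_lit 156) (nat_lit 380) (nat_lit 0) (XT.nd (nat_lit 78) (nat_lit 0) (nat_lit 0) (XT.lf (nat_lit 0) (nat_lit 4385463622) (nat_lit 304) (nat_lit 14182286132) (nat_lit 380) (nat_lit 5167898867) (nat_lit 131) (nat_lit 5) (nat_lit 135) (nat_lit 5) (nat_lit 136) (nat_lit 5) (nat_lit 422) (nat_lit 370) (nat_lit 228)) (XT.lf (nat_lit 0) (nat_lit 18364264782) (nat_lit 304) (nat_lit 5510340916) (nat_lit 380) (nat_lit 301601172) (nat_lit 131) (nat_lit 5) (nat_lit 135) (nat_lit 5) (nat_lit 136) (nat_lit 5) (nat_lit 423) (nat_lit 370) (nat_lit 227))) (XT.nd (nat_lit 78) (nat_lit 0) (nat_lit 0) (XT.lf (nat_lit 0) (nat_lit 4724186828) (nat_lit 380) (nat_lit 16424219541) (nat_lit 76) (nat_lit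 3477055846) (nat_lit 126) (nat_lit 5) (nat_lit 131) (nat_lit 5) (nat_lit 127) (nat_lit 5) (nat_lit 424) (nat_lit 370) (nat_lit 226)) (XT.lf (nat_lit 0) (nat_lit 10000759812) (nat_lit 380) (nat_lit 2402214864) (nat_lit 76) (nat_lit 12681950242) (nat_lit 126) (nat_lit 5) (nat_lit 131) (nat_lit 5) (nat_lit 127) (nat_lit 5) (nat_lit 425) (nat_lit 370) (nat_lit 225))))))))
noncomputable def xc171 : XT := (XT.nd (nat_lit 2262) (nat_lit 2432) (nat_lit 0) (XT.nd (nat_lit 1092) (nat_lit 1824) (nat_lit 0) (XT.nd (nat_lit 546) (nat_lit 1064) (nat_lit 0) (XT.nd (nat_lit 234) (nat_lit 532) (nat_lit 0) (XT.nd (nat_lit 78) (nat_lit 304) (nat_lit 0) (XT.lf (nat_lit 0) (nat_lit 12268575058) (nat_lit 304) (nat_lit 3277458945) (nat_lit 380) (nat_lit 10008826815) (nat_lit 122) (nat_lit 5) (nat_lit 126) (nat_lit 5) (nat_lit 127) (nat_lit 5) (nat_lit 426) (nat_lit 370) (nat_lit 224)) (XT.nd (nat_lit 78) (nat_lit 76) (nat_lit 0) (XT.lf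 (nat_lit 0) (nat_lit 1346394540) (nat_lit 228) (nat_lit 20000105628) (nat_lit 304) (nat_lit 4689731010) (nat_lit 119) (nat_lit 5) (nat_lit 122) (nat_lit 5) (nat_lit 123) (nat_lit 5) (nat_lit 427) (nat_lit 370) (nat_lit 223)) (XT.lf (nat_lit 0) (nat_lit 934068338) (nat_lit 304) (nat_lit 9890362679) (nat_lit 76) (nat_lit 15702569662) (nat_lit 118) (nat_lit 5) (nat_lit 122) (nat_lit 5) (nat_lit 119) (nat_lit 5) (nat_lit 428) (nat_lit 370) (nat_lit 222)))) (XT.nd (nat_lit 156) (nat_lit 228) (nat_lit 0) (XT.nd (nat_lit 78) (nat_lit 0) (nat_lit 0) (XT.lf (nat_lit 0) (nat_lit 5400993343) (nat_lit 304) (nat_lit 1276044881) (nat_lit 380) (nat_lit 20352721862) (nat_lit 114) (nat_lit 5) (nat_lit 118) (nat_lit 5) (nat_lit 119) (nat_lit 5) (nat_lit 429) (nat_lit 370) (nat_lit 221)) (XT.lf (nat_lit 0) (nat_lit 12768296944) (nat_lit 380) (nat_lit 6285165150) (nat_lit 76) (nat_lit 8488861429) (nat_lit 114) (nat_lit 5) (nat_lit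 119) (nat_lit 5) (nat_lit 115) (nat_lit 5) (nat_lit 430) (nat_lit 370) (nat_lit 220))) (XT.nd (nat_lit 78) (nat_lit 0) (nat_lit 0) (XT.lf (nat_lit 0) (nat_lit 9684279084) (nat_lit 228) (nat_lit 9456812740) (nat_lit 304) (nat_lit 8926209289) (nat_lit 111) (nat_lit 5) (nat_lit 114) (nat_lit 5) (nat_lit 115) (nat_lit 5) (nat_lit 431) (nat_lit 370) (nat_lit 219)) (XT.lf (nat_lit 0) (nat_lit 25766413198) (nat_lit 304) (nat_lit 2360086986) (nat_lit 76) (nat_lit 479688735) (nat_lit 111) (nat_lit 5) (nat_lit 115) (nat_lit 5) (nat_lit 112) (nat_lit 5) (nat_lit 432) (nat_lit 370) (nat_lit 218))))) (XT.nd (nat_lit 234) (nat_lit 532) (nat_lit 0) (XT.nd (nat_lit 78) (nat_lit 228) (nat_lit 0) (XT.lf (nat_lit 0) (nat_lit 3589163755) (nat_lit 304) (nat_lit 14870931957) (nat_lit 76) (nat_lit 10693354928) (nat_lit 107) (nat_lit 5) (nat_lit 111) (nat_lit 5) (nat_lit 108) (nat_lit 5) (nat_lit 433) (nat_lit 370) (nat_lit 217)) (XT.nd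 (nat_lit 78) (nat_lit 0) (nat_lit 0) (XT.lf (nat_lit 0) (nat_lit 1751612016) (nat_lit 228) (nat_lit 8436550752) (nat_lit 304) (nat_lit 19527096976) (nat_lit 104) (nat_lit 5) (nat_lit 107) (nat_lit 5) (nat_lit 108) (nat_lit 5) (nat_lit 434) (nat_lit 370) (nat_lit 216)) (XT.lf (nat_lit 0) (nat_lit 17148348588) (nat_lit 304) (nat_lit 11142017072) (nat_lit 76) (nat_lit 1998661991) (nat_lit 104) (nat_lit 5) (nat_lit 108) (nat_lit 5) (nat_lit 105) (nat_lit 5) (nat_lit 435) (nat_lit 370) (nat_lit 215)))) (XT.nd (nat_lit 156) (nat_lit 228) (nat_lit 0) (XT.nd (nat_lit 78) (nat_lit 76) (nat_lit 0) (XT.lf (nat_lit 0) (nat_lit 6211614860) (nat_lit 228) (nat_lit 18242573950) (nat_lit 304) (nat_lit 6421715329) (nat_lit 101) (nat_lit 5) (nat_lit 104) (nat_lit 5) (nat_lit 105) (nat_lit 5) (nat_lit 436) (nat_lit 370) (nat_lit 214)) (XT.lf (nat_lit 0) (nat_lit 596343360) (nat_lit 304) (nat_lit 7179019107) (nat_lit 76) (nat_lit 23701663763)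 (nat_lit 100) (nat_lit 5) (nat_lit 104) (nat_lit 5) (nat_lit 101) (nat_lit 5) (nat_lit 437) (nat_lit 370) (nat_lit 213))) (XT.nd (nat_lit 78) (nat_lit 0) (nat_lit 0) (XT.lf (nat_lit 0) (nat_lit 7825685581) (nat_lit 304) (nat_lit 21150564252) (nat_lit 76) (nat_lit 3114131276) (nat_lit 97) (nat_lit 5) (nat_lit 101) (nat_lit 5) (nat_lit 98) (nat_lit 5) (nat_lit 438) (nat_lit 370) (nat_lit 212)) (XT.lf (nat_lit 0) (nat_lit 15415969593) (nat_lit 304) (nat_lit 3058383988) (nat_lit 76) (nat_lit 14243462102) (nat_lit 97) (nat_lit 5) (nat_lit 101) (nat_lit 5) (nat_lit 98) (nat_lit 5) (nat_lit 439) (nat_lit 370) (nat_lit 211)))))) (XT.nd (nat_lit 546) (nat_lit 912) (nat_lit 0) (XT.nd (nat_lit 234) (nat_lit 456) (nat_lit 0) (XT.nd (nat_lit 78) (nat_lit 228) (nat_lit 0) (XT.lf (nat_lit 0) (nat_lit 15876563456) (nat_lit 228) (nat_lit 7504058531) (nat_lit 304) (nat_lit 9979052380) (nat_lit 94) (nat_lit 5) (nat_lit 97) (nat_lit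 5) (nat_lit 98) (nat_lit 5) (nat_lit 440) (nat_lit 370) (nat_lit 210)) (XT.nd (nat_lit 78) (nat_lit 76) (nat_lit 0) (XT.lf (nat_lit 0) (nat_lit 1403130824) (nat_lit 152) (nat_lit 30256331381) (nat_lit 228) (nat_lit 2359070003) (nat_lit 92) (nat_lit 5) (nat_lit 94) (nat_lit 5) (nat_lit 95) (nat_lit 5) (nat_lit 441) (nat_lit 370) (nat_lit 209)) (XT.lf (nat_lit 0) (nat_lit 5629090143) (nat_lit 228) (nat_lit 13616199840) (nat_lit 76) (nat_lit 15442882586) (nat_lit 91) (nat_lit 5) (nat_lit 94) (nat_lit 5) (nat_lit 92) (nat_lit 5) (nat_lit 442) (nat_lit 370) (nat_lit 208)))) (XT.nd (nat_lit 156) (nat_lit 228) (nat_lit 0) (XT.nd (nat_lit 78) (nat_lit 0) (nat_lit 0) (XT.lf (nat_lit 0) (nat_lit 6037855761) (nat_lit 228) (nat_lit 7823943272) (nat_lit 304) (nat_lit 21513833599) (nat_lit 88) (nat_lit 5) (nat_lit 91) (nat_lit 5) (nat_lit 92) (nat_lit 5) (nat_lit 443) (nat_lit 370) (nat_lit 207)) (XT.lf (nat_lit 0) (nat_lit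 22512539340) (nat_lit 304) (nat_lit 9567799618) (nat_lit 76) (nat_lit 3998246784) (nat_lit 88) (nat_lit 5) (nat_lit 92) (nat_lit 5) (nat_lit 89) (nat_lit 5) (nat_lit 444) (nat_lit 370) (nat_lit 206))) (XT.nd (nat_lit 78) (nat_lit 76) (nat_lit 0) (XT.lf (nat_lit 0) (nat_lit 10921587662) (nat_lit 152) (nat_lit 20678147225) (nat_lit 228) (nat_lit 5197585295) (nat_lit 86) (nat_lit 5) (nat_lit 88) (nat_lit 5) (nat_lit 89) (nat_lit 5) (nat_lit 445) (nat_lit 370) (nat_lit 205)) (XT.lf (nat_lit 0) (nat_lit 3447228484) (nat_lit 228) (nat_lit 5356143926) (nat_lit 76) (nat_lit 28730495930) (nat_lit 85) (nat_lit 5) (nat_lit 88) (nat_lit 5) (nat_lit 86) (nat_lit 5) (nat_lit 446) (nat_lit 370) (nat_lit 204))))) (XT.nd (nat_lit 312) (nat_lit 304) (nat_lit 0) (XT.nd (nat_lit 156) (nat_lit 380) (nat_lit 0) (XT.nd (nat_lit 78) (nat_lit 0) (nat_lit 0) (XT.lf (nat_lit 0) (nat_lit 12430631565) (nat_lit 304) (nat_lit 22290144907) (nat_lit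 76) (nat_lit 3564681964) (nat_lit 82) (nat_lit 5) (nat_lit 86) (nat_lit 5) (nat_lit 83) (nat_lit 5) (nat_lit 447) (nat_lit 370) (nat_lit 203)) (XT.lf (nat_lit 0) (nat_lit 21820014626) (nat_lit 304) (nat_lit 1057684481) (nat_lit 76) (nat_lit 16177803437) (nat_lit 82) (nat_lit 5) (nat_lit 86) (nat_lit 5) (nat_lit 83) (nat_lit 5) (nat_lit 448) (nat_lit 370) (nat_lit 202))) (XT.nd (nat_lit 78) (nat_lit 228) (nat_lit 0) (XT.lf (nat_lit 0) (nat_lit 21216910194) (nat_lit 152) (nat_lit 10472967181) (nat_lit 228) (nat_lit 8152807283) (nat_lit 80) (nat_lit 5) (nat_lit 82) (nat_lit 5) (nat_lit 83) (nat_lit 5) (nat_lit 449) (nat_lit 370) (nat_lit 201)) (XT.lf (nat_lit 0) (nat_lit 1241602682) (nat_lit 228) (nat_lit 37097071690) (nat_lit 76) (nat_lit 2312580387) (nat_lit 77) (nat_lit 5) (nat_lit 80) (nat_lit 5) (nat_lit 78) (nat_lit 5) (nat_lit 450) (nat_lit 370) (nat_lit 200)))) (XT.nd (nat_lit 156) (nat_lit 152) (nat_lit 0)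 (XT.nd (nat_lit 78) (nat_lit 152) (nat_lit 0) (XT.lf (nat_lit 0) (nat_lit 11042512855) (nat_lit 228) (nat_lit 14892269731) (nat_lit 76) (nat_lit 15538222386) (nat_lit 77) (nat_lit 5) (nat_lit 80) (nat_lit 5) (nat_lit 78) (nat_lit 5) (nat_lit 451) (nat_lit 370) (nat_lit 199)) (XT.lf (nat_lit 0) (nat_lit 8128650977) (nat_lit 152) (nat_lit 13081978185) (nat_lit 228) (nat_lit 21106583723) (nat_lit 75) (nat_lit 5) (nat_lit 77) (nat_lit 5) (nat_lit 78) (nat_lit 5) (nat_lit 452) (nat_lit 370) (nat_lit 198))) (XT.nd (nat_lit 78) (nat_lit 152) (nat_lit 0) (XT.lf (nat_lit 0) (nat_lit 31832232331) (nat_lit 228) (nat_lit 11048423809) (nat_lit 76) (nat_lit 301638136) (nat_lit 75) (nat_lit 5) (nat_lit 78) (nat_lit 5) (nat_lit 76) (nat_lit 5) (nat_lit 453) (nat_lit 370) (nat_lit 197)) (XT.lf (nat_lit 0) (nat_lit 12899693929) (nat_lit 152) (nat_lit 30121525794) (nat_lit 228) (nat_lit 1044646829) (nat_lit 73) (nat_lit 5) (nat_lit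 75) (nat_lit 5) (nat_lit 76) (nat_lit 5) (nat_lit 454) (nat_lit 370) (nat_lit 196))))))) (XT.nd (nat_lit 1092) (nat_lit 1140) (nat_lit 0) (XT.nd (nat_lit 546) (nat_lit 532) (nat_lit 0) (XT.nd (nat_lit 234) (nat_lit 532) (nat_lit 0) (XT.nd (nat_lit 78) (nat_lit 152) (nat_lit 0) (XT.lf (nat_lit 0) (nat_lit 9491082811) (nat_lit 228) (nat_lit 7281391037) (nat_lit 76) (nat_lit 28197476005) (nat_lit 72) (nat_lit 5) (nat_lit 75) (nat_lit 5) (nat_lit 73) (nat_lit 5) (nat_lit 455) (nat_lit 370) (nat_lit 195)) (XT.nd (nat_lit 78) (nat_lit 0) (nat_lit 0) (XT.lf (nat_lit 0) (nat_lit 17645735964) (nat_lit 152) (nat_lit 2841136572) (nat_lit 228) (nat_lit 25409023770) (nat_lit 70) (nat_lit 5) (nat_lit 72) (nat_lit 5) (nat_lit 73) (nat_lit 5) (nat_lit 456) (nat_lit 370) (nat_lit 194)) (XT.lf (nat_lit 0) (nat_lit 31992801203) (nat_lit 228) (nat_lit 3497039012) (nat_lit 76) (nat_lit 11354373448) (nat_lit 70) (nat_lit 5) (nat_lit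 73) (nat_lit 5) (nat_lit 71) (nat_lit 5) (nat_lit 457) (nat_lit 370) (nat_lit 193)))) (XT.nd (nat_lit 156) (nat_lit 152) (nat_lit 0) (XT.nd (nat_lit 78) (nat_lit 228) (nat_lit 0) (XT.lf (nat_lit 0) (nat_lit 22399672771) (nat_lit 152) (nat_lit 21683204950) (nat_lit 228) (nat_lit 3730934172) (nat_lit 68) (nat_lit 5) (nat_lit 70) (nat_lit 5) (nat_lit 71) (nat_lit 5) (nat_lit 458) (nat_lit 370) (nat_lit 192)) (XT.lf (nat_lit 0) (nat_lit 255955727) (nat_lit 152) (nat_lit 7350150296) (nat_lit 228) (nat_lit 41203155657) (nat_lit 65) (nat_lit 5) (nat_lit 67) (nat_lit 5) (nat_lit 68) (nat_lit 5) (nat_lit 459) (nat_lit 370) (nat_lit 191))) (XT.nd (nat_lit 78) (nat_lit 152) (nat_lit 0) (XT.lf (nat_lit 0) (nat_lit 19534252095) (nat_lit 228) (nat_lit 22728499461) (nat_lit 76) (nat_lit 7560936140) (nat_lit 65) (nat_lit 5) (nat_lit 68) (nat_lit 5) (nat_lit 66) (nat_lit 5) (nat_lit 460) (nat_lit 370) (nat_lit 190)) (XT.lf (nat_lit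 0) (nat_lit 3865945402) (nat_lit 152) (nat_lit 28059913873) (nat_lit 228) (nat_lit 18939519116) (nat_lit 63) (nat_lit 5) (nat_lit 65) (nat_lit 5) (nat_lit 66) (nat_lit 5) (nat_lit 461) (nat_lit 370) (nat_lit 189))))) (XT.nd (nat_lit 234) (nat_lit 304) (nat_lit 0) (XT.nd (nat_lit 78) (nat_lit 228) (nat_lit 0) (XT.lf (nat_lit 0) (nat_lit 31716441175) (nat_lit 152) (nat_lit 13198019738) (nat_lit 228) (nat_lit 7017101901) (nat_lit 63) (nat_lit 5) (nat_lit 65) (nat_lit 5) (nat_lit 66) (nat_lit 5) (nat_lit 462) (nat_lit 370) (nat_lit 188)) (XT.nd (nat_lit 78) (nat_lit 0) (nat_lit 0) (XT.lf (nat_lit 0) (nat_lit 5249273895) (nat_lit 228) (nat_lit 45587499705) (nat_lit 76) (nat_lit 2188772227) (nat_lit 60) (nat_lit 5) (nat_lit 63) (nat_lit 5) (nat_lit 61) (nat_lit 5) (nat_lit 463) (nat_lit 370) (nat_lit 187)) (XT.lf (nat_lit 0) (nat_lit 18075265500) (nat_lit 228) (nat_lit 18020768176) (nat_lit 76) (nat_lit 18044250886)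 (nat_lit 60) (nat_lit 5) (nat_lit 63) (nat_lit 5) (nat_lit 61) (nat_lit 5) (nat_lit 464) (nat_lit 370) (nat_lit 186)))) (XT.nd (nat_lit 156) (nat_lit 152) (nat_lit 0) (XT.nd (nat_lit 78) (nat_lit 0) (nat_lit 0) (XT.lf (nat_lit 0) (nat_lit 10571909791) (nat_lit 152) (nat_lit 20811705734) (nat_lit 228) (nat_lit 23901922920) (nat_lit 58) (nat_lit 5) (nat_lit 60) (nat_lit 5) (nat_lit 61) (nat_lit 5) (nat_lit 465) (nat_lit 370) (nat_lit 185)) (XT.lf (nat_lit 0) (nat_lit 40384496707) (nat_lit 152) (nat_lit 4884696619) (nat_lit 228) (nat_lit 11190617638) (nat_lit 58) (nat_lit 5) (nat_lit 60) (nat_lit 5) (nat_lit 61) (nat_lit 5) (nat_lit 466) (nat_lit 370) (nat_lit 184))) (XT.nd (nat_lit 78) (nat_lit 0) (nat_lit 0) (XT.lf (nat_lit 0) (nat_lit 2104521210) (nat_lit 152) (nat_lit 44113788369) (nat_lit 76) (nat_lit 11443265601) (nat_lit 56) (nat_lit 5) (nat_lit 58) (nat_lit 5) (nat_lit 57) (nat_lit 5) (nat_lit 467) (nat_lit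 370) (nat_lit 183)) (XT.lf (nat_lit 0) (nat_lit 15781989482) (nat_lit 152) (nat_lit 14673343539) (nat_lit 76) (nat_lit 28434483796) (nat_lit 56) (nat_lit 5) (nat_lit 58) (nat_lit 5) (nat_lit 57) (nat_lit 5) (nat_lit 468) (nat_lit 370) (nat_lit 182)))))) (XT.nd (nat_lit 546) (nat_lit 608) (nat_lit 0) (XT.nd (nat_lit 234) (nat_lit 304) (nat_lit 0) (XT.nd (nat_lit 78) (nat_lit 76) (nat_lit 0) (XT.lf (nat_lit 0) (nat_lit 15954695354) (nat_lit 152) (nat_lit 14064662341) (nat_lit 228) (nat_lit 30131061032) (nat_lit 54) (nat_lit 5) (nat_lit 56) (nat_lit 5) (nat_lit 57) (nat_lit 5) (nat_lit 469) (nat_lit 370) (nat_lit 181)) (XT.nd (nat_lit 78) (nat_lit 76) (nat_lit 0) (XT.lf (nat_lit 0) (nat_lit 44856795383) (nat_lit 228) (nat_lit 13677548938) (nat_lit 76) (nat_lit 2909306210) (nat_lit 54) (nat_lit 5) (nat_lit 57) (nat_lit 5) (nat_lit 55) (nat_lit 4) (nat_lit 470) (nat_lit 370) (nat_lit 180)) (XT.lf (nat_lit 0) (nat_lit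 17960628940) (nat_lit 76) (nat_lit 42486963537) (nat_lit 152) (nat_lit 2318840008) (nat_lit 53) (nat_lit 5) (nat_lit 54) (nat_lit 5) (nat_lit 55) (nat_lit 4) (nat_lit 471) (nat_lit 370) (nat_lit 179)))) (XT.nd (nat_lit 156) (nat_lit 76) (nat_lit 0) (XT.nd (nat_lit 78) (nat_lit 152) (nat_lit 0) (XT.lf (nat_lit 0) (nat_lit 12271515339) (nat_lit 152) (nat_lit 13423541824) (nat_lit 76) (nat_lit 38426196965) (nat_lit 52) (nat_lit 5) (nat_lit 54) (nat_lit 5) (nat_lit 53) (nat_lit 5) (nat_lit 472) (nat_lit 370) (nat_lit 178)) (XT.lf (nat_lit 0) (nat_lit 19246218128) (nat_lit 152) (nat_lit 8188209752) (nat_lit 228) (nat_lit 38076160446) (nat_lit 50) (nat_lit 5) (nat_lit 52) (nat_lit 5) (nat_lit 53) (nat_lit 5) (nat_lit 473) (nat_lit 370) (nat_lit 177))) (XT.nd (nat_lit 78) (nat_lit 76) (nat_lit 0) (XT.lf (nat_lit 0) (nat_lit 43280205005) (nat_lit 228) (nat_lit 13868849035) (nat_lit 76) (nat_lit 9785709446) (nat_lit 50)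 (nat_lit 5) (nat_lit 53) (nat_lit 5) (nat_lit 51) (nat_lit 4) (nat_lit 474) (nat_lit 370) (nat_lit 176)) (XT.lf (nat_lit 0) (nat_lit 19797390387) (nat_lit 76) (nat_lit 40071902833) (nat_lit 152) (nat_lit 8524332791) (nat_lit 49) (nat_lit 5) (nat_lit 50) (nat_lit 5) (nat_lit 51) (nat_lit 4) (nat_lit 475) (nat_lit 370) (nat_lit 175))))) (XT.nd (nat_lit 312) (nat_lit 304) (nat_lit 0) (XT.nd (nat_lit 156) (nat_lit 76) (nat_lit 0) (XT.nd (nat_lit 78) (nat_lit 152) (nat_lit 0) (XT.lf (nat_lit 0) (nat_lit 7060039507) (nat_lit 152) (nat_lit 15209788140) (nat_lit 76) (nat_lit 47620251042) (nat_lit 48) (nat_lit 5) (nat_lit 50) (nat_lit 5) (nat_lit 49) (nat_lit 5) (nat_lit 476) (nat_lit 370) (nat_lit 174)) (XT.lf (nat_lit 0) (nat_lit 19467521056) (nat_lit 152) (nat_lit 3656892136) (nat_lit 228) (nat_lit 48298965973) (nat_lit 46) (nat_lit 5) (nat_lit 48) (nat_lit 5) (nat_lit 49) (nat_lit 5) (nat_lit 477) (nat_lit 370) (nat_lit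 173))) (XT.nd (nat_lit 78) (nat_lit 76) (nat_lit 0) (XT.lf (nat_lit 0) (nat_lit 39971639616) (nat_lit 228) (nat_lit 17658015102) (nat_lit 76) (nat_lit 15363996508) (nat_lit 46) (nat_lit 5) (nat_lit 49) (nat_lit 5) (nat_lit 47) (nat_lit 4) (nat_lit 478) (nat_lit 370) (nat_lit 172)) (XT.lf (nat_lit 0) (nat_lit 17977315309) (nat_lit 76) (nat_lit 39552757698) (nat_lit 152) (nat_lit 17074784947) (nat_lit 45) (nat_lit 5) (nat_lit 46) (nat_lit 5) (nat_lit 47) (nat_lit 4) (nat_lit 479) (nat_lit 370) (nat_lit 171)))) (XT.nd (nat_lit 156) (nat_lit 76) (nat_lit 0) (XT.nd (nat_lit 78) (nat_lit 228) (nat_lit 0) (XT.lf (nat_lit 0) (nat_lit 55037693671) (nat_lit 76) (nat_lit 20752687856) (nat_lit 152) (nat_lit 468765896) (nat_lit 45) (nat_lit 5) (nat_lit 46) (nat_lit 5) (nat_lit 47) (nat_lit 4) (nat_lit 480) (nat_lit 370) (nat_lit 170)) (XT.lf (nat_lit 0) (nat_lit 15381177924) (nat_lit 152) (nat_lit 1074364700) (nat_lit 228)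 (nat_lit 61498384062) (nat_lit 42) (nat_lit 5) (nat_lit 44) (nat_lit 5) (nat_lit 45) (nat_lit 5) (nat_lit 481) (nat_lit 370) (nat_lit 169))) (XT.nd (nat_lit 78) (nat_lit 76) (nat_lit 0) (XT.lf (nat_lit 0) (nat_lit 34275964764) (nat_lit 228) (nat_lit 26373364643) (nat_lit 76) (nat_lit 19038146687) (nat_lit 42) (nat_lit 5) (nat_lit 45) (nat_lit 5) (nat_lit 43) (nat_lit 4) (nat_lit 482) (nat_lit 370) (nat_lit 168)) (XT.lf (nat_lit 0) (nat_lit 11112498593) (nat_lit 76) (nat_lit 41632931058) (nat_lit 152) (nat_lit 28724169611) (nat_lit 41) (nat_lit 5) (nat_lit 42) (nat_lit 5) (nat_lit 43) (nat_lit 4) (nat_lit 483) (nat_lit 370) (nat_lit 167))))))))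
noncomputable def xc172 : XT := (XT.nd (nat_lit 46332) (nat_lit 0) (nat_lit 6688) (XT.nd (nat_lit 45240) (nat_lit 0) (nat_lit 14060) (XT.nd (nat_lit 44694) (nat_lit 0) (nat_lit 18088) (XT.nd (nat_lit 44382) (nat_lit 0) (nat_lit 17936) (XT.nd (nat_lit 78) (nat_lit 228) (nat_lit 0) (XT.lf (nat_lit 0) (nat_lit 50257911823) (nat_lit 76) (nat_lit 21774392434) (nat_lit 152) (nat_lit 11264982273) (nat_lit 41) (nat_lit 5) (nat_lit 42) (nat_lit 5) (nat_lit 43) (nat_lit 4) (nat_lit 484) (nat_lit 370) (nat_lit 166)) (XT.nd (nat_lit 44226) (nat_lit 0) (nat_lit 19076) (XT.lf (nat_lit 0) (nat_lit 5433790593) (nat_lit 152) (nat_lit 1202395756) (nat_lit 228) (nat_lit 78540201981) (nat_lit 38) (nat_lit 5) (nat_lit 40) (nat_lit 5) (nat_lit 41) (nat_lit 5) (nat_lit 485) (nat_lit 370) (nat_lit 165)) (XT.lf (nat_lit 0) (nat_lit 5017843207) (nat_lit 1140) (nat_lit 139805676) (nat_lit 1140) (nat_lit 139805676) (nat_lit 289) (nat_lit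 3) (nat_lit 304) (nat_lit 3) (nat_lit 304) (nat_lit 5) (nat_lit 371) (nat_lit 371) (nat_lit 278)))) (XT.nd (nat_lit 156) (nat_lit 0) (nat_lit 76) (XT.nd (nat_lit 78) (nat_lit 0) (nat_lit 0) (XT.lf (nat_lit 0) (nat_lit 104186090) (nat_lit 1140) (nat_lit 5761164431) (nat_lit 1216) (nat_lit 4868613807) (nat_lit 274) (nat_lit 5) (nat_lit 289) (nat_lit 3) (nat_lit 290) (nat_lit 5) (nat_lit 372) (nat_lit 371) (nat_lit 277)) (XT.lf (nat_lit 0) (nat_lit 755086467) (nat_lit 1140) (nat_lit 507073621) (nat_lit 1216) (nat_lit 9615508341) (nat_lit 274) (nat_lit 5) (nat_lit 289) (nat_lit 3) (nat_lit 290) (nat_lit 5) (nat_lit 373) (nat_lit 371) (nat_lit 276))) (XT.nd (nat_lit 78) (nat_lit 0) (nat_lit 0) (XT.lf (nat_lit 0) (nat_lit 1484174940) (nat_lit 1140) (nat_lit 6069513505) (nat_lit 1216) (nat_lit 3470243353) (nat_lit 275) (nat_lit 5) (nat_lit 290) (nat_lit 5) (nat_lit 291) (nat_lit 5) (nat_lit 374) (nat_lit 371) (nat_lit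 275)) (XT.lf (nat_lit 0) (nat_lit 2230140551) (nat_lit 1140) (nat_lit 610035735) (nat_lit 1216) (nat_lit 8334564388) (nat_lit 275) (nat_lit 5) (nat_lit 290) (nat_lit 5) (nat_lit 291) (nat_lit 5) (nat_lit 375) (nat_lit 371) (nat_lit 274))))) (XT.nd (nat_lit 234) (nat_lit 0) (nat_lit 76) (XT.nd (nat_lit 78) (nat_lit 0) (nat_lit 0) (XT.lf (nat_lit 0) (nat_lit 3045446030) (nat_lit 1140) (nat_lit 6249290803) (nat_lit 1216) (nat_lit 2033935675) (nat_lit 276) (nat_lit 5) (nat_lit 291) (nat_lit 5) (nat_lit 292) (nat_lit 5) (nat_lit 376) (nat_lit 371) (nat_lit 273)) (XT.nd (nat_lit 78) (nat_lit 0) (nat_lit 76) (XT.lf (nat_lit 0) (nat_lit 3898152457) (nat_lit 1140) (nat_lit 576666520) (nat_lit 1216) (nat_lit 7012022364) (nat_lit 276) (nat_lit 5) (nat_lit 291) (nat_lit 5) (nat_lit 292) (nat_lit 5) (nat_lit 377) (nat_lit 371) (nat_lit 272)) (XT.lf (nat_lit 0) (nat_lit 4812455872) (nat_lit 1140) (nat_lit 6296491754) (nat_lit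 1216) (nat_lit 539734226) (nat_lit 277) (nat_lit 5) (nat_lit 292) (nat_lit 5) (nat_lit 293) (nat_lit 5) (nat_lit 378) (nat_lit 371) (nat_lit 271)))) (XT.nd (nat_lit 156) (nat_lit 0) (nat_lit 76) (XT.nd (nat_lit 78) (nat_lit 0) (nat_lit 0) (XT.lf (nat_lit 0) (nat_lit 5784149695) (nat_lit 1140) (nat_lit 402433977) (nat_lit 1216) (nat_lit 5627901946) (nat_lit 277) (nat_lit 5) (nat_lit 292) (nat_lit 5) (nat_lit 293) (nat_lit 5) (nat_lit 379) (nat_lit 371) (nat_lit 270)) (XT.lf (nat_lit 76) (nat_lit 5767790246) (nat_lit 0) (nat_lit 1053011993) (nat_lit 1216) (nat_lit 5163393701) (nat_lit 278) (nat_lit 5) (nat_lit 277) (nat_lit 5) (nat_lit 293) (nat_lit 5) (nat_lit 380) (nat_lit 371) (nat_lit 269))) (XT.nd (nat_lit 78) (nat_lit 0) (nat_lit 0) (XT.lf (nat_lit 0) (nat_lit 7914232995) (nat_lit 1140) (nat_lit 81967551) (nat_lit 1216) (nat_lit 4162033151) (nat_lit 278) (nat_lit 5) (nat_lit 293) (nat_lit 5) (nat_lit 294) (nat_lit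 5) (nat_lit 381) (nat_lit 371) (nat_lit 268)) (XT.lf (nat_lit 76) (nat_lit 6336406402) (nat_lit 0) (nat_lit 2756822107) (nat_lit 1216) (nat_lit 3242687518) (nat_lit 279) (nat_lit 5) (nat_lit 278) (nat_lit 5) (nat_lit 294) (nat_lit 5) (nat_lit 382) (nat_lit 371) (nat_lit 267)))))) (XT.nd (nat_lit 546) (nat_lit 1976) (nat_lit 0) (XT.nd (nat_lit 234) (nat_lit 1140) (nat_lit 0) (XT.nd (nat_lit 78) (nat_lit 1140) (nat_lit 0) (XT.lf (nat_lit 76) (nat_lit 398719615) (nat_lit 0) (nat_lit 9920806260) (nat_lit 1216) (nat_lit 2199051104) (nat_lit 280) (nat_lit 5) (nat_lit 279) (nat_lit 5) (nat_lit 295) (nat_lit 5) (nat_lit 383) (nat_lit 371) (nat_lit 266)) (XT.nd (nat_lit 78) (nat_lit 1140) (nat_lit 0) (XT.lf (nat_lit 76) (nat_lit 7070390752) (nat_lit 0) (nat_lit 4582117231) (nat_lit 1216) (nat_lit 1052118838) (nat_lit 280) (nat_lit 5) (nat_lit 279) (nat_lit 5) (nat_lit 295) (nat_lit 5) (nat_lit 384) (nat_lit 371) (nat_lit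 265)) (XT.lf (nat_lit 0) (nat_lit 128394449) (nat_lit 1216) (nat_lit 11853776886) (nat_lit 1292) (nat_lit 914004312) (nat_lit 264) (nat_lit 5) (nat_lit 280) (nat_lit 5) (nat_lit 281) (nat_lit 5) (nat_lit 385) (nat_lit 371) (nat_lit 264)))) (XT.nd (nat_lit 156) (nat_lit 1140) (nat_lit 0) (XT.nd (nat_lit 78) (nat_lit 0) (nat_lit 0) (XT.lf (nat_lit 0) (nat_lit 1409037532) (nat_lit 1216) (nat_lit 5127303244) (nat_lit 1292) (nat_lit 6554247255) (nat_lit 264) (nat_lit 5) (nat_lit 280) (nat_lit 5) (nat_lit 281) (nat_lit 5) (nat_lit 386) (nat_lit 371) (nat_lit 263)) (XT.lf (nat_lit 76) (nat_lit 1822924514) (nat_lit 0) (nat_lit 906227966) (nat_lit 1292) (nat_lit 10561654001) (nat_lit 265) (nat_lit 5) (nat_lit 264) (nat_lit 5) (nat_lit 281) (nat_lit 5) (nat_lit 387) (nat_lit 371) (nat_lit 262))) (XT.nd (nat_lit 78) (nat_lit 1216) (nat_lit 0) (XT.lf (nat_lit 0) (nat_lit 4172096757) (nat_lit 1216) (nat_lit 4470252111) (nat_lit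 76) (nat_lit 4852190960) (nat_lit 265) (nat_lit 5) (nat_lit 281) (nat_lit 5) (nat_lit 266) (nat_lit 5) (nat_lit 388) (nat_lit 371) (nat_lit 261)) (XT.lf (nat_lit 0) (nat_lit 2768777876) (nat_lit 1216) (nat_lit 2909513073) (nat_lit 1292) (nat_lit 8025500347) (nat_lit 249) (nat_lit 5) (nat_lit 265) (nat_lit 5) (nat_lit 266) (nat_lit 5) (nat_lit 389) (nat_lit 371) (nat_lit 260))))) (XT.nd (nat_lit 234) (nat_lit 1292) (nat_lit 0) (XT.nd (nat_lit 78) (nat_lit 684) (nat_lit 0) (XT.lf (nat_lit 0) (nat_lit 7288768861) (nat_lit 1292) (nat_lit 3644524661) (nat_lit 76) (nat_lit 2984258677) (nat_lit 249) (nat_lit 5) (nat_lit 266) (nat_lit 5) (nat_lit 250) (nat_lit 5) (nat_lit 390) (nat_lit 371) (nat_lit 259)) (XT.nd (nat_lit 78) (nat_lit 0) (nat_lit 0) (XT.lf (nat_lit 0) (nat_lit 3898416217) (nat_lit 684) (nat_lit 5100588476) (nat_lit 760) (nat_lit 5137182612) (nat_lit 240) (nat_lit 5) (nat_lit 249) (nat_lit 5) (nat_lit 250)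 (nat_lit 5) (nat_lit 391) (nat_lit 371) (nat_lit 258)) (XT.lf (nat_lit 0) (nat_lit 10791911024) (nat_lit 760) (nat_lit 2640853364) (nat_lit 76) (nat_lit 927680721) (nat_lit 240) (nat_lit 5) (nat_lit 250) (nat_lit 5) (nat_lit 241) (nat_lit 5) (nat_lit 392) (nat_lit 371) (nat_lit 257)))) (XT.nd (nat_lit 156) (nat_lit 684) (nat_lit 0) (XT.nd (nat_lit 78) (nat_lit 0) (nat_lit 0) (XT.lf (nat_lit 0) (nat_lit 5221926383) (nat_lit 608) (nat_lit 7503275301) (nat_lit 684) (nat_lit 1863635466) (nat_lit 232) (nat_lit 5) (nat_lit 240) (nat_lit 5) (nat_lit 241) (nat_lit 5) (nat_lit 393) (nat_lit 371) (nat_lit 256)) (XT.lf (nat_lit 0) (nat_lit 13361413001) (nat_lit 608) (nat_lit 1367928141) (nat_lit 684) (nat_lit 94358594) (nat_lit 232) (nat_lit 5) (nat_lit 240) (nat_lit 5) (nat_lit 241) (nat_lit 5) (nat_lit 394) (nat_lit 371) (nat_lit 255))) (XT.nd (nat_lit 78) (nat_lit 0) (nat_lit 0) (XT.lf (nat_lit 0) (nat_lit 1794328142)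 (nat_lit 684) (nat_lit 8329965262) (nat_lit 76) (nat_lit 4937818990) (nat_lit 223) (nat_lit 5) (nat_lit 232) (nat_lit 5) (nat_lit 224) (nat_lit 5) (nat_lit 395) (nat_lit 371) (nat_lit 254)) (XT.lf (nat_lit 0) (nat_lit 3752954580) (nat_lit 684) (nat_lit 132941817) (nat_lit 76) (nat_lit 11421301663) (nat_lit 223) (nat_lit 5) (nat_lit 232) (nat_lit 5) (nat_lit 224) (nat_lit 5) (nat_lit 396) (nat_lit 371) (nat_lit 253))))))) (XT.nd (nat_lit 1092) (nat_lit 3344) (nat_lit 0) (XT.nd (nat_lit 546) (nat_lit 1900) (nat_lit 0) (XT.nd (nat_lit 234) (nat_lit 1064) (nat_lit 0) (XT.nd (nat_lit 78) (nat_lit 532) (nat_lit 0) (XT.lf (nat_lit 0) (nat_lit 5864004515) (nat_lit 608) (nat_lit 7120765913) (nat_lit 76) (nat_lit 2572059734) (nat_lit 216) (nat_lit 5) (nat_lit 224) (nat_lit 5) (nat_lit 217) (nat_lit 5) (nat_lit 397) (nat_lit 371) (nat_lit 252)) (XT.nd (nat_lit 78) (nat_lit 0) (nat_lit 0) (XT.lf (nat_lit 0) (nat_lit 1426980825)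 (nat_lit 532) (nat_lit 6652306332) (nat_lit 608) (nat_lit 7733440733) (nat_lit 209) (nat_lit 5) (nat_lit 216) (nat_lit 5) (nat_lit 217) (nat_lit 5) (nat_lit 398) (nat_lit 371) (nat_lit 251)) (XT.lf (nat_lit 0) (nat_lit 10363927476) (nat_lit 532) (nat_lit 56602234) (nat_lit 608) (nat_lit 5653991388) (nat_lit 209) (nat_lit 5) (nat_lit 216) (nat_lit 5) (nat_lit 217) (nat_lit 5) (nat_lit 399) (nat_lit 371) (nat_lit 250)))) (XT.nd (nat_lit 156) (nat_lit 608) (nat_lit 0) (XT.nd (nat_lit 78) (nat_lit 0) (nat_lit 0) (XT.lf (nat_lit 0) (nat_lit 3209509558) (nat_lit 456) (nat_lit 9706061169) (nat_lit 532) (nat_lit 3426094026) (nat_lit 203) (nat_lit 5) (nat_lit 209) (nat_lit 5) (nat_lit 210) (nat_lit 5) (nat_lit 400) (nat_lit 371) (nat_lit 249)) (XT.lf (nat_lit 0) (nat_lit 12500660942) (nat_lit 456) (nat_lit 3031197855) (nat_lit 532) (nat_lit 1083575428) (nat_lit 203) (nat_lit 5) (nat_lit 209) (nat_lit 5) (nat_lit 210) (nat_lit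 5) (nat_lit 401) (nat_lit 371) (nat_lit 248))) (XT.nd (nat_lit 78) (nat_lit 0) (nat_lit 0) (XT.lf (nat_lit 0) (nat_lit 1379712421) (nat_lit 608) (nat_lit 11683536000) (nat_lit 76) (nat_lit 3831495289) (nat_lit 195) (nat_lit 5) (nat_lit 203) (nat_lit 5) (nat_lit 196) (nat_lit 5) (nat_lit 402) (nat_lit 371) (nat_lit 247)) (XT.lf (nat_lit 0) (nat_lit 3955698786) (nat_lit 608) (nat_lit 2334124408) (nat_lit 76) (nat_lit 10890473166) (nat_lit 195) (nat_lit 5) (nat_lit 203) (nat_lit 5) (nat_lit 196) (nat_lit 5) (nat_lit 403) (nat_lit 371) (nat_lit 246))))) (XT.nd (nat_lit 234) (nat_lit 988) (nat_lit 0) (XT.nd (nat_lit 78) (nat_lit 456) (nat_lit 0) (XT.lf (nat_lit 0) (nat_lit 6676596361) (nat_lit 532) (nat_lit 10051907014) (nat_lit 76) (nat_lit 743886274) (nat_lit 189) (nat_lit 5) (nat_lit 196) (nat_lit 5) (nat_lit 190) (nat_lit 5) (nat_lit 404) (nat_lit 371) (nat_lit 245)) (XT.nd (nat_lit 78) (nat_lit 456) (nat_lit 0)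 (XT.lf (nat_lit 0) (nat_lit 9554320455) (nat_lit 532) (nat_lit 332381754) (nat_lit 76) (nat_lit 7884290459) (nat_lit 189) (nat_lit 5) (nat_lit 196) (nat_lit 5) (nat_lit 190) (nat_lit 5) (nat_lit 405) (nat_lit 371) (nat_lit 244)) (XT.lf (nat_lit 0) (nat_lit 9858572088) (nat_lit 456) (nat_lit 2744008350) (nat_lit 532) (nat_lit 5473450047) (nat_lit 183) (nat_lit 5) (nat_lit 189) (nat_lit 5) (nat_lit 190) (nat_lit 5) (nat_lit 406) (nat_lit 371) (nat_lit 243)))) (XT.nd (nat_lit 156) (nat_lit 456) (nat_lit 0) (XT.nd (nat_lit 78) (nat_lit 76) (nat_lit 0) (XT.lf (nat_lit 0) (nat_lit 1952978101) (nat_lit 456) (nat_lit 13845421944) (nat_lit 532) (nat_lit 2590138791) (nat_lit 177) (nat_lit 5) (nat_lit 183) (nat_lit 5) (nat_lit 184) (nat_lit 5) (nat_lit 407) (nat_lit 371) (nat_lit 242)) (XT.lf (nat_lit 0) (nat_lit 472917625) (nat_lit 532) (nat_lit 6155383401) (nat_lit 76) (nat_lit 12078994877) (nat_lit 176) (nat_lit 5) (nat_lit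 183) (nat_lit 5) (nat_lit 177) (nat_lit 5) (nat_lit 408) (nat_lit 371) (nat_lit 241))) (XT.nd (nat_lit 78) (nat_lit 0) (nat_lit 0) (XT.lf (nat_lit 0) (nat_lit 3617279763) (nat_lit 532) (nat_lit 14559645066) (nat_lit 76) (nat_lit 856679827) (nat_lit 170) (nat_lit 5) (nat_lit 177) (nat_lit 5) (nat_lit 171) (nat_lit 5) (nat_lit 409) (nat_lit 371) (nat_lit 240)) (XT.lf (nat_lit 0) (nat_lit 6974507020) (nat_lit 532) (nat_lit 3898286121) (nat_lit 76) (nat_lit 8493355946) (nat_lit 170) (nat_lit 5) (nat_lit 177) (nat_lit 5) (nat_lit 171) (nat_lit 5) (nat_lit 410) (nat_lit 371) (nat_lit 239)))))) (XT.nd (nat_lit 546) (nat_lit 1748) (nat_lit 0) (XT.nd (nat_lit 234) (nat_lit 836) (nat_lit 0) (XT.nd (nat_lit 78) (nat_lit 380) (nat_lit 0) (XT.lf (nat_lit 0) (nat_lit 7211432470) (nat_lit 380) (nat_lit 3280761451) (nat_lit 456) (nat_lit 9214686021) (nat_lit 165) (nat_lit 5) (nat_lit 170) (nat_lit 5) (nat_lit 171) (nat_lit 5)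 (nat_lit 411) (nat_lit 371) (nat_lit 238)) (XT.nd (nat_lit 78) (nat_lit 380) (nat_lit 0) (XT.lf (nat_lit 0) (nat_lit 14189357480) (nat_lit 456) (nat_lit 1378661432) (nat_lit 76) (nat_lit 4487597732) (nat_lit 165) (nat_lit 5) (nat_lit 171) (nat_lit 5) (nat_lit 166) (nat_lit 5) (nat_lit 412) (nat_lit 371) (nat_lit 237)) (XT.lf (nat_lit 0) (nat_lit 10226723449) (nat_lit 380) (nat_lit 7892335084) (nat_lit 456) (nat_lit 2292110475) (nat_lit 160) (nat_lit 5) (nat_lit 165) (nat_lit 5) (nat_lit 166) (nat_lit 5) (nat_lit 413) (nat_lit 371) (nat_lit 236)))) (XT.nd (nat_lit 156) (nat_lit 380) (nat_lit 0) (XT.nd (nat_lit 78) (nat_lit 0) (nat_lit 0) (XT.lf (nat_lit 0) (nat_lit 1381403639) (nat_lit 456) (nat_lit 19342934658) (nat_lit 76) (nat_lit 52073606) (nat_lit 154) (nat_lit 5) (nat_lit 160) (nat_lit 5) (nat_lit 155) (nat_lit 5) (nat_lit 414) (nat_lit 371) (nat_lit 235)) (XT.lf (nat_lit 0) (nat_lit 5292074845) (nat_lit 456)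 (nat_lit 7654844176) (nat_lit 76) (nat_lit 8199823663) (nat_lit 154) (nat_lit 5) (nat_lit 160) (nat_lit 5) (nat_lit 155) (nat_lit 5) (nat_lit 415) (nat_lit 371) (nat_lit 234))) (XT.nd (nat_lit 78) (nat_lit 0) (nat_lit 0) (XT.lf (nat_lit 0) (nat_lit 4459084416) (nat_lit 380) (nat_lit 4895124546) (nat_lit 456) (nat_lit 12172952129) (nat_lit 149) (nat_lit 5) (nat_lit 154) (nat_lit 5) (nat_lit 155) (nat_lit 5) (nat_lit 416) (nat_lit 371) (nat_lit 233)) (XT.lf (nat_lit 0) (nat_lit 13640327997) (nat_lit 456) (nat_lit 4868687392) (nat_lit 76) (nat_lit 3406914968) (nat_lit 149) (nat_lit 5) (nat_lit 155) (nat_lit 5) (nat_lit 150) (nat_lit 5) (nat_lit 417) (nat_lit 371) (nat_lit 232))))) (XT.nd (nat_lit 312) (nat_lit 684) (nat_lit 0) (XT.nd (nat_lit 156) (nat_lit 684) (nat_lit 0) (XT.nd (nat_lit 78) (nat_lit 76) (nat_lit 0) (XT.lf (nat_lit 0) (nat_lit 7788617640) (nat_lit 304) (nat_lit 10381390083) (nat_lit 380) (nat_lit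 4142907535) (nat_lit 145) (nat_lit 5) (nat_lit 149) (nat_lit 5) (nat_lit 150) (nat_lit 5) (nat_lit 418) (nat_lit 371) (nat_lit 231)) (XT.lf (nat_lit 0) (nat_lit 152890636) (nat_lit 380) (nat_lit 1808106914) (nat_lit 76) (nat_lit 20759540839) (nat_lit 144) (nat_lit 5) (nat_lit 149) (nat_lit 5) (nat_lit 145) (nat_lit 5) (nat_lit 419) (nat_lit 371) (nat_lit 230))) (XT.nd (nat_lit 78) (nat_lit 304) (nat_lit 0) (XT.lf (nat_lit 0) (nat_lit 4662382873) (nat_lit 456) (nat_lit 11741188013) (nat_lit 76) (nat_lit 6730547823) (nat_lit 139) (nat_lit 5) (nat_lit 145) (nat_lit 5) (nat_lit 140) (nat_lit 5) (nat_lit 420) (nat_lit 371) (nat_lit 229)) (XT.lf (nat_lit 0) (nat_lit 1465102192) (nat_lit 304) (nat_lit 7886025805) (nat_lit 380) (nat_lit 14207661062) (nat_lit 135) (nat_lit 5) (nat_lit 139) (nat_lit 5) (nat_lit 140) (nat_lit 5) (nat_lit 421) (nat_lit 371) (nat_lit 228)))) (XT.nd (nat_lit 156) (nat_lit 380) (nat_lit 0) (XT.nd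 (nat_lit 78) (nat_lit 304) (nat_lit 0) (XT.lf (nat_lit 0) (nat_lit 14300919536) (nat_lit 380) (nat_lit 8705567450) (nat_lit 76) (nat_lit 986102629) (nat_lit 135) (nat_lit 5) (nat_lit 140) (nat_lit 5) (nat_lit 136) (nat_lit 5) (nat_lit 422) (nat_lit 371) (nat_lit 227)) (XT.lf (nat_lit 0) (nat_lit 5094372192) (nat_lit 304) (nat_lit 14424232185) (nat_lit 380) (nat_lit 4917219393) (nat_lit 131) (nat_lit 5) (nat_lit 135) (nat_lit 5) (nat_lit 136) (nat_lit 5) (nat_lit 423) (nat_lit 371) (nat_lit 226))) (XT.nd (nat_lit 78) (nat_lit 304) (nat_lit 0) (XT.lf (nat_lit 0) (nat_lit 81625736) (nat_lit 380) (nat_lit 5415023932) (nat_lit 76) (nat_lit 19393271526) (nat_lit 130) (nat_lit 5) (nat_lit 135) (nat_lit 5) (nat_lit 131) (nat_lit 5) (nat_lit 424) (nat_lit 371) (nat_lit 225)) (XT.lf (nat_lit 0) (nat_lit 5248038581) (nat_lit 380) (nat_lit 16344496060) (nat_lit 76) (nat_lit 3760154768) (nat_lit 126) (nat_lit 5) (nat_lit 131)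 (nat_lit 5) (nat_lit 127) (nat_lit 5) (nat_lit 425) (nat_lit 371) (nat_lit 224))))))))
noncomputable def xc173 : XT := (XT.nd (nat_lit 2262) (nat_lit 2508) (nat_lit 0) (XT.nd (nat_lit 1092) (nat_lit 1672) (nat_lit 0) (XT.nd (nat_lit 546) (nat_lit 1064) (nat_lit 0) (XT.nd (nat_lit 234) (nat_lit 608) (nat_lit 0) (XT.nd (nat_lit 78) (nat_lit 532) (nat_lit 0) (XT.lf (nat_lit 0) (nat_lit 10671778867) (nat_lit 380) (nat_lit 1918504545) (nat_lit 76) (nat_lit 13235988600) (nat_lit 126) (nat_lit 5) (nat_lit 131) (nat_lit 5) (nat_lit 127) (nat_lit 5) (nat_lit 426) (nat_lit 371) (nat_lit 223)) (XT.nd (nat_lit 78) (nat_lit 228) (nat_lit 0) (XT.lf (nat_lit 0) (nat_lit 13186960283) (nat_lit 304) (nat_lit 3190935375) (nat_lit 380) (nat_lit 9932577863) (nat_lit 122) (nat_lit 5) (nat_lit 126) (nat_lit 5) (nat_lit 127) (nat_lit 5) (nat_lit 427) (nat_lit 371) (nat_lit 222)) (XT.lf (nat_lit 0) (nat_lit 1940884487) (nat_lit 228) (nat_lit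 20407897696) (nat_lit 304) (nat_lit 4457612618) (nat_lit 119) (nat_lit 5) (nat_lit 122) (nat_lit 5) (nat_lit 123) (nat_lit 5) (nat_lit 428) (nat_lit 371) (nat_lit 221)))) (XT.nd (nat_lit 156) (nat_lit 228) (nat_lit 0) (XT.nd (nat_lit 78) (nat_lit 304) (nat_lit 0) (XT.lf (nat_lit 0) (nat_lit 1316979174) (nat_lit 304) (nat_lit 9641988373) (nat_lit 76) (nat_lit 16353133614) (nat_lit 118) (nat_lit 5) (nat_lit 122) (nat_lit 5) (nat_lit 119) (nat_lit 5) (nat_lit 429) (nat_lit 371) (nat_lit 220)) (XT.lf (nat_lit 0) (nat_lit 6102764357) (nat_lit 304) (nat_lit 1124325556) (nat_lit 380) (nat_lit 20603009717) (nat_lit 114) (nat_lit 5) (nat_lit 118) (nat_lit 5) (nat_lit 119) (nat_lit 5) (nat_lit 430) (nat_lit 371) (nat_lit 219))) (XT.nd (nat_lit 78) (nat_lit 228) (nat_lit 0) (XT.lf (nat_lit 0) (nat_lit 13492672983) (nat_lit 380) (nat_lit 5941226832) (nat_lit 76) (nat_lit 8924394334) (nat_lit 114) (nat_lit 5) (nat_lit 119)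 (nat_lit 5) (nat_lit 115) (nat_lit 5) (nat_lit 431) (nat_lit 371) (nat_lit 218)) (XT.lf (nat_lit 0) (nat_lit 10502080206) (nat_lit 228) (nat_lit 9549698405) (nat_lit 304) (nat_lit 8847390376) (nat_lit 111) (nat_lit 5) (nat_lit 114) (nat_lit 5) (nat_lit 115) (nat_lit 5) (nat_lit 432) (nat_lit 371) (nat_lit 217))))) (XT.nd (nat_lit 234) (nat_lit 532) (nat_lit 0) (XT.nd (nat_lit 78) (nat_lit 532) (nat_lit 0) (XT.lf (nat_lit 0) (nat_lit 26867840835) (nat_lit 304) (nat_lit 1910899651) (nat_lit 76) (nat_lit 675725180) (nat_lit 111) (nat_lit 5) (nat_lit 115) (nat_lit 5) (nat_lit 112) (nat_lit 5) (nat_lit 433) (nat_lit 371) (nat_lit 216)) (XT.nd (nat_lit 78) (nat_lit 228) (nat_lit 0) (XT.lf (nat_lit 0) (nat_lit 4023916593) (nat_lit 304) (nat_lit 14795605764) (nat_lit 76) (nat_lit 11198666809) (nat_lit 107) (nat_lit 5) (nat_lit 111) (nat_lit 5) (nat_lit 108) (nat_lit 5) (nat_lit 434) (nat_lit 371) (nat_lit 215)) (XT.lf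 (nat_lit 0) (nat_lit 2320502232) (nat_lit 228) (nat_lit 8495820196) (nat_lit 304) (nat_lit 19780668542) (nat_lit 104) (nat_lit 5) (nat_lit 107) (nat_lit 5) (nat_lit 108) (nat_lit 5) (nat_lit 435) (nat_lit 371) (nat_lit 214)))) (XT.nd (nat_lit 156) (nat_lit 304) (nat_lit 0) (XT.nd (nat_lit 78) (nat_lit 228) (nat_lit 0) (XT.lf (nat_lit 0) (nat_lit 17977729106) (nat_lit 304) (nat_lit 10967340461) (nat_lit 76) (nat_lit 2243131379) (nat_lit 104) (nat_lit 5) (nat_lit 108) (nat_lit 5) (nat_lit 105) (nat_lit 5) (nat_lit 436) (nat_lit 371) (nat_lit 213)) (XT.lf (nat_lit 0) (nat_lit 6901910850) (nat_lit 228) (nat_lit 18596505217) (nat_lit 304) (nat_lit 6294398961) (nat_lit 101) (nat_lit 5) (nat_lit 104) (nat_lit 5) (nat_lit 105) (nat_lit 5) (nat_lit 437) (nat_lit 371) (nat_lit 212))) (XT.nd (nat_lit 78) (nat_lit 228) (nat_lit 0) (XT.lf (nat_lit 0) (nat_lit 918820169) (nat_lit 304) (nat_lit 6899012930) (nat_lit 76) (nat_lit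 24594320901) (nat_lit 100) (nat_lit 5) (nat_lit 104) (nat_lit 5) (nat_lit 101) (nat_lit 5) (nat_lit 438) (nat_lit 371) (nat_lit 211)) (XT.lf (nat_lit 0) (nat_lit 8362713644) (nat_lit 304) (nat_lit 21287331319) (nat_lit 76) (nat_lit 3393935756) (nat_lit 97) (nat_lit 5) (nat_lit 101) (nat_lit 5) (nat_lit 98) (nat_lit 5) (nat_lit 439) (nat_lit 371) (nat_lit 210)))))) (XT.nd (nat_lit 546) (nat_lit 836) (nat_lit 0) (XT.nd (nat_lit 234) (nat_lit 456) (nat_lit 0) (XT.nd (nat_lit 78) (nat_lit 380) (nat_lit 0) (XT.lf (nat_lit 0) (nat_lit 16171902560) (nat_lit 304) (nat_lit 2666883216) (nat_lit 76) (nat_lit 14851717947) (nat_lit 97) (nat_lit 5) (nat_lit 101) (nat_lit 5) (nat_lit 98) (nat_lit 5) (nat_lit 440) (nat_lit 371) (nat_lit 209)) (XT.nd (nat_lit 78) (nat_lit 152) (nat_lit 0) (XT.lf (nat_lit 0) (nat_lit 16831374884) (nat_lit 228) (nat_lit 7540172216) (nat_lit 304) (nat_lit 9980190738) (nat_lit 94) (nat_lit 5) (nat_lit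 97) (nat_lit 5) (nat_lit 98) (nat_lit 5) (nat_lit 441) (nat_lit 371) (nat_lit 208)) (XT.lf (nat_lit 0) (nat_lit 1925890109) (nat_lit 152) (nat_lit 30970814581) (nat_lit 228) (nat_lit 2133719370) (nat_lit 92) (nat_lit 5) (nat_lit 94) (nat_lit 5) (nat_lit 95) (nat_lit 5) (nat_lit 442) (nat_lit 371) (nat_lit 207)))) (XT.nd (nat_lit 156) (nat_lit 152) (nat_lit 0) (XT.nd (nat_lit 78) (nat_lit 228) (nat_lit 0) (XT.lf (nat_lit 0) (nat_lit 6079850530) (nat_lit 228) (nat_lit 13552372280) (nat_lit 76) (nat_lit 16088100267) (nat_lit 91) (nat_lit 5) (nat_lit 94) (nat_lit 5) (nat_lit 92) (nat_lit 5) (nat_lit 443) (nat_lit 371) (nat_lit 206)) (XT.lf (nat_lit 0) (nat_lit 6686674464) (nat_lit 228) (nat_lit 7869151556) (nat_lit 304) (nat_lit 21872693468) (nat_lit 88) (nat_lit 5) (nat_lit 91) (nat_lit 5) (nat_lit 92) (nat_lit 5) (nat_lit 444) (nat_lit 371) (nat_lit 205))) (XT.nd (nat_lit 78) (nat_lit 152) (nat_lit 0) (XT.lf (nat_lit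 0) (nat_lit 23459755037) (nat_lit 304) (nat_lit 9394403056) (nat_lit 76) (nat_lit 4298594179) (nat_lit 88) (nat_lit 5) (nat_lit 92) (nat_lit 5) (nat_lit 89) (nat_lit 5) (nat_lit 445) (nat_lit 371) (nat_lit 204)) (XT.lf (nat_lit 0) (nat_lit 11705151817) (nat_lit 152) (nat_lit 21110879526) (nat_lit 228) (nat_lit 5077124500) (nat_lit 86) (nat_lit 5) (nat_lit 88) (nat_lit 5) (nat_lit 89) (nat_lit 5) (nat_lit 446) (nat_lit 371) (nat_lit 203))))) (XT.nd (nat_lit 312) (nat_lit 380) (nat_lit 0) (XT.nd (nat_lit 156) (nat_lit 152) (nat_lit 0) (XT.nd (nat_lit 78) (nat_lit 228) (nat_lit 0) (XT.lf (nat_lit 0) (nat_lit 3813747302) (nat_lit 228) (nat_lit 5068921783) (nat_lit 76) (nat_lit 29769289434) (nat_lit 85) (nat_lit 5) (nat_lit 88) (nat_lit 5) (nat_lit 86) (nat_lit 5) (nat_lit 447) (nat_lit 371) (nat_lit 202)) (XT.lf (nat_lit 0) (nat_lit 13065019574) (nat_lit 304) (nat_lit 22509278034) (nat_lit 76) (nat_lit 3851848651)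 (nat_lit 82) (nat_lit 5) (nat_lit 86) (nat_lit 5) (nat_lit 83) (nat_lit 5) (nat_lit 448) (nat_lit 371) (nat_lit 201))) (XT.nd (nat_lit 78) (nat_lit 152) (nat_lit 0) (XT.lf (nat_lit 0) (nat_lit 22728468524) (nat_lit 304) (nat_lit 652938103) (nat_lit 76) (nat_lit 16838114460) (nat_lit 82) (nat_lit 5) (nat_lit 86) (nat_lit 5) (nat_lit 83) (nat_lit 5) (nat_lit 449) (nat_lit 371) (nat_lit 200)) (XT.lf (nat_lit 0) (nat_lit 22285615226) (nat_lit 152) (nat_lit 10605572687) (nat_lit 228) (nat_lit 8139228828) (nat_lit 80) (nat_lit 5) (nat_lit 82) (nat_lit 5) (nat_lit 83) (nat_lit 5) (nat_lit 450) (nat_lit 371) (nat_lit 199)))) (XT.nd (nat_lit 156) (nat_lit 152) (nat_lit 0) (XT.nd (nat_lit 78) (nat_lit 0) (nat_lit 0) (XT.lf (nat_lit 0) (nat_lit 1530524940) (nat_lit 228) (nat_lit 37771240160) (nat_lit 76) (nat_lit 2561448770) (nat_lit 77) (nat_lit 5) (nat_lit 80) (nat_lit 5) (nat_lit 78) (nat_lit 5) (nat_lit 451) (nat_lit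 371) (nat_lit 198)) (XT.lf (nat_lit 0) (nat_lit 11618132103) (nat_lit 228) (nat_lit 14913073085) (nat_lit 76) (nat_lit 16178632138) (nat_lit 77) (nat_lit 5) (nat_lit 80) (nat_lit 5) (nat_lit 78) (nat_lit 5) (nat_lit 452) (nat_lit 371) (nat_lit 197))) (XT.nd (nat_lit 78) (nat_lit 0) (nat_lit 0) (XT.lf (nat_lit 0) (nat_lit 8794299120) (nat_lit 152) (nat_lit 13293930458) (nat_lit 228) (nat_lit 21491234568) (nat_lit 75) (nat_lit 5) (nat_lit 77) (nat_lit 5) (nat_lit 78) (nat_lit 5) (nat_lit 453) (nat_lit 371) (nat_lit 196)) (XT.lf (nat_lit 0) (nat_lit 33023137831) (nat_lit 228) (nat_lit 10965004101) (nat_lit 76) (nat_lit 482517115) (nat_lit 75) (nat_lit 5) (nat_lit 78) (nat_lit 5) (nat_lit 76) (nat_lit 5) (nat_lit 454) (nat_lit 371) (nat_lit 195))))))) (XT.nd (nat_lit 1092) (nat_lit 1064) (nat_lit 0) (XT.nd (nat_lit 546) (nat_lit 684) (nat_lit 0) (XT.nd (nat_lit 234) (nat_lit 380) (nat_lit 0) (XT.nd (nat_lit 78) (nat_lit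 228) (nat_lit 0) (XT.lf (nat_lit 0) (nat_lit 13697489793) (nat_lit 152) (nat_lit 30847381964) (nat_lit 228) (nat_lit 835955179) (nat_lit 73) (nat_lit 5) (nat_lit 75) (nat_lit 5) (nat_lit 76) (nat_lit 5) (nat_lit 455) (nat_lit 371) (nat_lit 194)) (XT.nd (nat_lit 78) (nat_lit 152) (nat_lit 0) (XT.lf (nat_lit 0) (nat_lit 10004307707) (nat_lit 228) (nat_lit 7096421766) (nat_lit 76) (nat_lit 29211440398) (nat_lit 72) (nat_lit 5) (nat_lit 75) (nat_lit 5) (nat_lit 73) (nat_lit 5) (nat_lit 456) (nat_lit 371) (nat_lit 193)) (XT.lf (nat_lit 0) (nat_lit 18574564036) (nat_lit 152) (nat_lit 2752591785) (nat_lit 228) (nat_lit 25938824046) (nat_lit 70) (nat_lit 5) (nat_lit 72) (nat_lit 5) (nat_lit 73) (nat_lit 5) (nat_lit 457) (nat_lit 371) (nat_lit 192)))) (XT.nd (nat_lit 156) (nat_lit 228) (nat_lit 0) (XT.nd (nat_lit 78) (nat_lit 152) (nat_lit 0) (XT.lf (nat_lit 0) (nat_lit 33173311042) (nat_lit 228) (nat_lit 3209155180) (nat_lit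 76) (nat_lit 11860429731) (nat_lit 70) (nat_lit 5) (nat_lit 73) (nat_lit 5) (nat_lit 71) (nat_lit 5) (nat_lit 458) (nat_lit 371) (nat_lit 191)) (XT.lf (nat_lit 0) (nat_lit 23460607025) (nat_lit 152) (nat_lit 22162792693) (nat_lit 228) (nat_lit 3618263769) (nat_lit 68) (nat_lit 5) (nat_lit 70) (nat_lit 5) (nat_lit 71) (nat_lit 5) (nat_lit 459) (nat_lit 371) (nat_lit 190))) (XT.nd (nat_lit 78) (nat_lit 0) (nat_lit 0) (XT.lf (nat_lit 0) (nat_lit 653125904) (nat_lit 152) (nat_lit 7398708985) (nat_lit 228) (nat_lit 42215157823) (nat_lit 65) (nat_lit 5) (nat_lit 67) (nat_lit 5) (nat_lit 68) (nat_lit 5) (nat_lit 460) (nat_lit 371) (nat_lit 189)) (XT.lf (nat_lit 0) (nat_lit 20333093768) (nat_lit 228) (nat_lit 23027455925) (nat_lit 76) (nat_lit 7951444358) (nat_lit 65) (nat_lit 5) (nat_lit 68) (nat_lit 5) (nat_lit 66) (nat_lit 5) (nat_lit 461) (nat_lit 371) (nat_lit 188))))) (XT.nd (nat_lit 234) (nat_lit 304) (nat_lit 0)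 (XT.nd (nat_lit 78) (nat_lit 228) (nat_lit 0) (XT.lf (nat_lit 0) (nat_lit 4361068377) (nat_lit 152) (nat_lit 28732826888) (nat_lit 228) (nat_lit 19291117398) (nat_lit 63) (nat_lit 5) (nat_lit 65) (nat_lit 5) (nat_lit 66) (nat_lit 5) (nat_lit 462) (nat_lit 371) (nat_lit 187)) (XT.nd (nat_lit 78) (nat_lit 228) (nat_lit 0) (XT.lf (nat_lit 0) (nat_lit 33036035976) (nat_lit 152) (nat_lit 13429994891) (nat_lit 228) (nat_lit 7017336035) (nat_lit 63) (nat_lit 5) (nat_lit 65) (nat_lit 5) (nat_lit 66) (nat_lit 5) (nat_lit 463) (nat_lit 371) (nat_lit 186)) (XT.lf (nat_lit 0) (nat_lit 5612050316) (nat_lit 228) (nat_lit 46582006604) (nat_lit 76) (nat_lit 2416078697) (nat_lit 60) (nat_lit 5) (nat_lit 63) (nat_lit 5) (nat_lit 61) (nat_lit 5) (nat_lit 464) (nat_lit 371) (nat_lit 185)))) (XT.nd (nat_lit 156) (nat_lit 152) (nat_lit 0) (XT.nd (nat_lit 78) (nat_lit 152) (nat_lit 0) (XT.lf (nat_lit 0) (nat_lit 18816842110) (nat_lit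 228) (nat_lit 18199140646) (nat_lit 76) (nat_lit 18742513658) (nat_lit 60) (nat_lit 5) (nat_lit 63) (nat_lit 5) (nat_lit 61) (nat_lit 5) (nat_lit 465) (nat_lit 371) (nat_lit 184)) (XT.lf (nat_lit 0) (nat_lit 11247766184) (nat_lit 152) (nat_lit 21274319090) (nat_lit 228) (nat_lit 24416093860) (nat_lit 58) (nat_lit 5) (nat_lit 60) (nat_lit 5) (nat_lit 61) (nat_lit 5) (nat_lit 466) (nat_lit 371) (nat_lit 183))) (XT.nd (nat_lit 78) (nat_lit 152) (nat_lit 0) (XT.lf (nat_lit 0) (nat_lit 41944283160) (nat_lit 152) (nat_lit 4874210513) (nat_lit 228) (nat_lit 11329358742) (nat_lit 58) (nat_lit 5) (nat_lit 60) (nat_lit 5) (nat_lit 61) (nat_lit 5) (nat_lit 467) (nat_lit 371) (nat_lit 182)) (XT.lf (nat_lit 0) (nat_lit 2360033661) (nat_lit 152) (nat_lit 45084318972) (nat_lit 76) (nat_lit 11941283283) (nat_lit 56) (nat_lit 5) (nat_lit 58) (nat_lit 5) (nat_lit 57) (nat_lit 5) (nat_lit 468) (nat_lit 371) (nat_lit 181)))))) (XT.nd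 (nat_lit 546) (nat_lit 608) (nat_lit 0) (XT.nd (nat_lit 234) (nat_lit 304) (nat_lit 0) (XT.nd (nat_lit 78) (nat_lit 152) (nat_lit 0) (XT.lf (nat_lit 0) (nat_lit 16442222774) (nat_lit 152) (nat_lit 14770938944) (nat_lit 76) (nat_lit 29437731624) (nat_lit 56) (nat_lit 5) (nat_lit 58) (nat_lit 5) (nat_lit 57) (nat_lit 5) (nat_lit 469) (nat_lit 371) (nat_lit 180)) (XT.nd (nat_lit 78) (nat_lit 0) (nat_lit 0) (XT.lf (nat_lit 0) (nat_lit 16772582244) (nat_lit 152) (nat_lit 14331950821) (nat_lit 228) (nat_lit 30844846042) (nat_lit 54) (nat_lit 5) (nat_lit 56) (nat_lit 5) (nat_lit 57) (nat_lit 5) (nat_lit 470) (nat_lit 371) (nat_lit 179)) (XT.lf (nat_lit 0) (nat_lit 46383160646) (nat_lit 228) (nat_lit 13754563166) (nat_lit 76) (nat_lit 3143802469) (nat_lit 54) (nat_lit 5) (nat_lit 57) (nat_lit 5) (nat_lit 55) (nat_lit 4) (nat_lit 471) (nat_lit 371) (nat_lit 178)))) (XT.nd (nat_lit 156) (nat_lit 152) (nat_lit 0) (XT.nd (nat_lit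 78) (nat_lit 76) (nat_lit 0) (XT.lf (nat_lit 0) (nat_lit 18829492281) (nat_lit 76) (nat_lit 43610099978) (nat_lit 152) (nat_lit 2204462521) (nat_lit 53) (nat_lit 5) (nat_lit 54) (nat_lit 5) (nat_lit 55) (nat_lit 4) (nat_lit 472) (nat_lit 371) (nat_lit 177)) (XT.lf (nat_lit 0) (nat_lit 12814761093) (nat_lit 152) (nat_lit 13502318969) (nat_lit 76) (nat_lit 39722545938) (nat_lit 52) (nat_lit 5) (nat_lit 54) (nat_lit 5) (nat_lit 53) (nat_lit 5) (nat_lit 473) (nat_lit 371) (nat_lit 176))) (XT.nd (nat_lit 78) (nat_lit 0) (nat_lit 0) (XT.lf (nat_lit 0) (nat_lit 20144358005) (nat_lit 152) (nat_lit 8286186274) (nat_lit 228) (nat_lit 39040156819) (nat_lit 50) (nat_lit 5) (nat_lit 52) (nat_lit 5) (nat_lit 53) (nat_lit 5) (nat_lit 474) (nat_lit 371) (nat_lit 175)) (XT.lf (nat_lit 0) (nat_lit 44748031597) (nat_lit 228) (nat_lit 13969828370) (nat_lit 76) (nat_lit 10219851800) (nat_lit 50) (nat_lit 5) (nat_lit 53) (nat_lit 5)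 (nat_lit 51) (nat_lit 4) (nat_lit 475) (nat_lit 371) (nat_lit 174))))) (XT.nd (nat_lit 312) (nat_lit 304) (nat_lit 0) (XT.nd (nat_lit 156) (nat_lit 152) (nat_lit 0) (XT.nd (nat_lit 78) (nat_lit 76) (nat_lit 0) (XT.lf (nat_lit 0) (nat_lit 20703309155) (nat_lit 76) (nat_lit 41129547834) (nat_lit 152) (nat_lit 8607541592) (nat_lit 49) (nat_lit 5) (nat_lit 50) (nat_lit 5) (nat_lit 51) (nat_lit 4) (nat_lit 476) (nat_lit 371) (nat_lit 173)) (XT.lf (nat_lit 0) (nat_lit 7436068530) (nat_lit 152) (nat_lit 15359892574) (nat_lit 76) (nat_lit 49185882120) (nat_lit 48) (nat_lit 5) (nat_lit 50) (nat_lit 5) (nat_lit 49) (nat_lit 5) (nat_lit 477) (nat_lit 371) (nat_lit 172))) (XT.nd (nat_lit 78) (nat_lit 0) (nat_lit 0) (XT.lf (nat_lit 0) (nat_lit 20354734044) (nat_lit 152) (nat_lit 3625770469) (nat_lit 228) (nat_lit 49580694588) (nat_lit 46) (nat_lit 5) (nat_lit 48) (nat_lit 5) (nat_lit 49) (nat_lit 5) (nat_lit 478) (nat_lit 371)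 (nat_lit 171)) (XT.lf (nat_lit 0) (nat_lit 41329733129) (nat_lit 228) (nat_lit 17889973937) (nat_lit 76) (nat_lit 15958975006) (nat_lit 46) (nat_lit 5) (nat_lit 49) (nat_lit 5) (nat_lit 47) (nat_lit 4) (nat_lit 479) (nat_lit 371) (nat_lit 170)))) (XT.nd (nat_lit 156) (nat_lit 228) (nat_lit 0) (XT.nd (nat_lit 78) (nat_lit 0) (nat_lit 0) (XT.lf (nat_lit 0) (nat_lit 18811496958) (nat_lit 76) (nat_lit 40601627512) (nat_lit 152) (nat_lit 17425154684) (nat_lit 45) (nat_lit 5) (nat_lit 46) (nat_lit 5) (nat_lit 47) (nat_lit 4) (nat_lit 480) (nat_lit 371) (nat_lit 169)) (XT.lf (nat_lit 0) (nat_lit 56975098452) (nat_lit 76) (nat_lit 21241566631) (nat_lit 152) (nat_lit 325669833) (nat_lit 45) (nat_lit 5) (nat_lit 46) (nat_lit 5) (nat_lit 47) (nat_lit 4) (nat_lit 481) (nat_lit 371) (nat_lit 168))) (XT.nd (nat_lit 78) (nat_lit 0) (nat_lit 0) (XT.lf (nat_lit 0) (nat_lit 16129126687) (nat_lit 152) (nat_lit 972440533) (nat_lit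 228) (nat_lit 63186397311) (nat_lit 42) (nat_lit 5) (nat_lit 44) (nat_lit 5) (nat_lit 45) (nat_lit 5) (nat_lit 482) (nat_lit 371) (nat_lit 167)) (XT.lf (nat_lit 0) (nat_lit 35453416424) (nat_lit 228) (nat_lit 26883202671) (nat_lit 76) (nat_lit 19736997163) (nat_lit 42) (nat_lit 5) (nat_lit 45) (nat_lit 5) (nat_lit 43) (nat_lit 4) (nat_lit 483) (nat_lit 371) (nat_lit 166))))))))
noncomputable def xc174 : XT := (XT.nd (nat_lit 46488) (nat_lit 0) (nat_lit 6460) (XT.nd (nat_lit 45318) (nat_lit 0) (nat_lit 13300) (XT.nd (nat_lit 44772) (nat_lit 0) (nat_lit 17860) (XT.nd (nat_lit 44460) (nat_lit 0) (nat_lit 17708) (XT.nd (nat_lit 78) (nat_lit 0) (nat_lit 0) (XT.lf (nat_lit 0) (nat_lit 11724478003) (nat_lit 76) (nat_lit 42750820535) (nat_lit 152) (nat_lit 29433954845) (nat_lit 41) (nat_lit 5) (nat_lit 42) (nat_lit 5) (nat_lit 43) (nat_lit 4) (nat_lit 484) (nat_lit 371) (nat_lit 165)) (XT.nd (nat_lit 44304) (nat_lit 0)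 (nat_lit 17708) (XT.lf (nat_lit 0) (nat_lit 52036138937) (nat_lit 76) (nat_lit 22300344154) (nat_lit 152) (nat_lit 11455417319) (nat_lit 41) (nat_lit 5) (nat_lit 42) (nat_lit 5) (nat_lit 43) (nat_lit 4) (nat_lit 485) (nat_lit 371) (nat_lit 164)) (XT.lf (nat_lit 0) (nat_lit 163689619) (nat_lit 0) (nat_lit 163689619) (nat_lit 1140) (nat_lit 5110580779) (nat_lit 274) (nat_lit 5) (nat_lit 274) (nat_lit 3) (nat_lit 289) (nat_lit 3) (nat_lit 372) (nat_lit 372) (nat_lit 276)))) (XT.nd (nat_lit 156) (nat_lit 0) (nat_lit 76) (XT.nd (nat_lit 78) (nat_lit 0) (nat_lit 0) (XT.lf (nat_lit 0) (nat_lit 1291022890) (nat_lit 1140) (nat_lit 5297481009) (nat_lit 1216) (nat_lit 4431563247) (nat_lit 274) (nat_lit 5) (nat_lit 289) (nat_lit 3) (nat_lit 290) (nat_lit 5) (nat_lit 373) (nat_lit 372) (nat_lit 275)) (XT.lf (nat_lit 76) (nat_lit 97597637) (nat_lit 0) (nat_lit 1830313784) (nat_lit 1216) (nat_lit 9241188905) (nat_lit 275) (nat_lit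 5) (nat_lit 274) (nat_lit 5) (nat_lit 290) (nat_lit 5) (nat_lit 374) (nat_lit 372) (nat_lit 274))) (XT.nd (nat_lit 78) (nat_lit 0) (nat_lit 0) (XT.lf (nat_lit 0) (nat_lit 2645443921) (nat_lit 1140) (nat_lit 5600747926) (nat_lit 1216) (nat_lit 3074574052) (nat_lit 275) (nat_lit 5) (nat_lit 290) (nat_lit 5) (nat_lit 291) (nat_lit 5) (nat_lit 375) (nat_lit 372) (nat_lit 273)) (XT.lf (nat_lit 76) (nat_lit 3628150) (nat_lit 0) (nat_lit 3377668710) (nat_lit 1216) (nat_lit 8095788045) (nat_lit 276) (nat_lit 5) (nat_lit 275) (nat_lit 5) (nat_lit 291) (nat_lit 5) (nat_lit 376) (nat_lit 372) (nat_lit 272))))) (XT.nd (nat_lit 234) (nat_lit 0) (nat_lit 76) (XT.nd (nat_lit 78) (nat_lit 0) (nat_lit 0) (XT.lf (nat_lit 0) (nat_lit 4191300274) (nat_lit 1140) (nat_lit 5774789375) (nat_lit 1216) (nat_lit 1670448670) (nat_lit 276) (nat_lit 5) (nat_lit 291) (nat_lit 5) (nat_lit 292) (nat_lit 5) (nat_lit 377) (nat_lit 372) (nat_lit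 271)) (XT.nd (nat_lit 78) (nat_lit 0) (nat_lit 76) (XT.lf (nat_lit 76) (nat_lit 49702535) (nat_lit 0) (nat_lit 4989649803) (nat_lit 1216) (nat_lit 6761017421) (nat_lit 277) (nat_lit 5) (nat_lit 276) (nat_lit 5) (nat_lit 292) (nat_lit 5) (nat_lit 378) (nat_lit 372) (nat_lit 270)) (XT.lf (nat_lit 0) (nat_lit 5953409875) (nat_lit 1140) (nat_lit 5815151127) (nat_lit 1216) (nat_lit 199344903) (nat_lit 277) (nat_lit 5) (nat_lit 292) (nat_lit 5) (nat_lit 293) (nat_lit 5) (nat_lit 379) (nat_lit 372) (nat_lit 269)))) (XT.nd (nat_lit 156) (nat_lit 0) (nat_lit 76) (XT.nd (nat_lit 78) (nat_lit 0) (nat_lit 0) (XT.lf (nat_lit 76) (nat_lit 240907945) (nat_lit 0) (nat_lit 6686635710) (nat_lit 1216) (nat_lit 5211951328) (nat_lit 278) (nat_lit 5) (nat_lit 277) (nat_lit 5) (nat_lit 293) (nat_lit 5) (nat_lit 380) (nat_lit 372) (nat_lit 268)) (XT.lf (nat_lit 76) (nat_lit 6585158366) (nat_lit 0) (nat_lit 1385834216) (nat_lit 1216) (nat_lit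 4344042715) (nat_lit 278) (nat_lit 5) (nat_lit 277) (nat_lit 5) (nat_lit 293) (nat_lit 5) (nat_lit 381) (nat_lit 372) (nat_lit 267))) (XT.nd (nat_lit 78) (nat_lit 0) (nat_lit 0) (XT.lf (nat_lit 76) (nat_lit 583183093) (nat_lit 0) (nat_lit 8489297028) (nat_lit 1216) (nat_lit 3422565756) (nat_lit 279) (nat_lit 5) (nat_lit 278) (nat_lit 5) (nat_lit 294) (nat_lit 5) (nat_lit 382) (nat_lit 372) (nat_lit 266)) (XT.lf (nat_lit 76) (nat_lit 7176294639) (nat_lit 0) (nat_lit 3084534461) (nat_lit 1216) (nat_lit 2418019104) (nat_lit 279) (nat_lit 5) (nat_lit 278) (nat_lit 5) (nat_lit 294) (nat_lit 5) (nat_lit 383) (nat_lit 372) (nat_lit 265)))))) (XT.nd (nat_lit 546) (nat_lit 2508) (nat_lit 0) (XT.nd (nat_lit 234) (nat_lit 1140) (nat_lit 0) (XT.nd (nat_lit 78) (nat_lit 1140) (nat_lit 0) (XT.lf (nat_lit 76) (nat_lit 1083317946) (nat_lit 0) (nat_lit 10418714426) (nat_lit 1216) (nat_lit 1365621877) (nat_lit 280) (nat_lit 5) (nat_lit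 279) (nat_lit 5) (nat_lit 295) (nat_lit 5) (nat_lit 384) (nat_lit 372) (nat_lit 264)) (XT.nd (nat_lit 78) (nat_lit 1140) (nat_lit 0) (XT.lf (nat_lit 76) (nat_lit 7935547855) (nat_lit 0) (nat_lit 4914031212) (nat_lit 1216) (nat_lit 210477781) (nat_lit 280) (nat_lit 5) (nat_lit 279) (nat_lit 5) (nat_lit 295) (nat_lit 5) (nat_lit 385) (nat_lit 372) (nat_lit 263)) (XT.lf (nat_lit 0) (nat_lit 968184551) (nat_lit 1216) (nat_lit 11518535221) (nat_lit 1292) (nat_lit 770995393) (nat_lit 264) (nat_lit 5) (nat_lit 280) (nat_lit 5) (nat_lit 281) (nat_lit 5) (nat_lit 386) (nat_lit 372) (nat_lit 262)))) (XT.nd (nat_lit 156) (nat_lit 1140) (nat_lit 0) (XT.nd (nat_lit 78) (nat_lit 0) (nat_lit 0) (XT.lf (nat_lit 0) (nat_lit 2262899209) (nat_lit 1216) (nat_lit 4610389359) (nat_lit 1292) (nat_lit 6585409577) (nat_lit 264) (nat_lit 5) (nat_lit 280) (nat_lit 5) (nat_lit 281) (nat_lit 5) (nat_lit 387) (nat_lit 372) (nat_lit 261)) (XT.lf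 (nat_lit 76) (nat_lit 2541769419) (nat_lit 0) (nat_lit 1063593913) (nat_lit 1292) (nat_lit 10060085013) (nat_lit 265) (nat_lit 5) (nat_lit 264) (nat_lit 5) (nat_lit 281) (nat_lit 5) (nat_lit 388) (nat_lit 372) (nat_lit 260))) (XT.nd (nat_lit 78) (nat_lit 1216) (nat_lit 0) (XT.lf (nat_lit 0) (nat_lit 5067245014) (nat_lit 1216) (nat_lit 3934951071) (nat_lit 76) (nat_lit 4873835480) (nat_lit 265) (nat_lit 5) (nat_lit 281) (nat_lit 5) (nat_lit 266) (nat_lit 5) (nat_lit 389) (nat_lit 372) (nat_lit 259)) (XT.lf (nat_lit 0) (nat_lit 3514686987) (nat_lit 1216) (nat_lit 3087882968) (nat_lit 1292) (nat_lit 7489479410) (nat_lit 249) (nat_lit 5) (nat_lit 265) (nat_lit 5) (nat_lit 266) (nat_lit 5) (nat_lit 390) (nat_lit 372) (nat_lit 258))))) (XT.nd (nat_lit 312) (nat_lit 1216) (nat_lit 0) (XT.nd (nat_lit 156) (nat_lit 608) (nat_lit 0) (XT.nd (nat_lit 78) (nat_lit 684) (nat_lit 0) (XT.lf (nat_lit 0) (nat_lit 8238553010) (nat_lit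 1292) (nat_lit 3087280784) (nat_lit 76) (nat_lit 2987080501) (nat_lit 249) (nat_lit 5) (nat_lit 266) (nat_lit 5) (nat_lit 250) (nat_lit 5) (nat_lit 391) (nat_lit 372) (nat_lit 257)) (XT.lf (nat_lit 0) (nat_lit 4675413226) (nat_lit 684) (nat_lit 5309732654) (nat_lit 760) (nat_lit 4553417798) (nat_lit 240) (nat_lit 5) (nat_lit 249) (nat_lit 5) (nat_lit 250) (nat_lit 5) (nat_lit 392) (nat_lit 372) (nat_lit 256))) (XT.nd (nat_lit 78) (nat_lit 608) (nat_lit 0) (XT.lf (nat_lit 0) (nat_lit 11810456242) (nat_lit 760) (nat_lit 2057658294) (nat_lit 76) (nat_lit 902082703) (nat_lit 240) (nat_lit 5) (nat_lit 250) (nat_lit 5) (nat_lit 241) (nat_lit 5) (nat_lit 393) (nat_lit 372) (nat_lit 255)) (XT.lf (nat_lit 0) (nat_lit 6034510525) (nat_lit 608) (nat_lit 7753303721) (nat_lit 684) (nat_lit 1218051073) (nat_lit 232) (nat_lit 5) (nat_lit 240) (nat_lit 5) (nat_lit 241) (nat_lit 5) (nat_lit 394) (nat_lit 372) (nat_lit 254)))) (XT.nd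 (nat_lit 156) (nat_lit 532) (nat_lit 0) (XT.nd (nat_lit 78) (nat_lit 608) (nat_lit 0) (XT.lf (nat_lit 0) (nat_lit 572478805) (nat_lit 684) (nat_lit 854910307) (nat_lit 76) (nat_lit 13820817371) (nat_lit 231) (nat_lit 5) (nat_lit 240) (nat_lit 5) (nat_lit 232) (nat_lit 5) (nat_lit 395) (nat_lit 372) (nat_lit 253)) (XT.lf (nat_lit 0) (nat_lit 2502568200) (nat_lit 684) (nat_lit 7915998679) (nat_lit 76) (nat_lit 5075583257) (nat_lit 223) (nat_lit 5) (nat_lit 232) (nat_lit 5) (nat_lit 224) (nat_lit 5) (nat_lit 396) (nat_lit 372) (nat_lit 252))) (XT.nd (nat_lit 78) (nat_lit 0) (nat_lit 0) (XT.lf (nat_lit 0) (nat_lit 517701806) (nat_lit 532) (nat_lit 3988167599) (nat_lit 608) (nat_lit 11241147118) (nat_lit 216) (nat_lit 5) (nat_lit 223) (nat_lit 5) (nat_lit 224) (nat_lit 5) (nat_lit 397) (nat_lit 372) (nat_lit 251)) (XT.lf (nat_lit 0) (nat_lit 6663050327) (nat_lit 608) (nat_lit 6677452968) (nat_lit 76) (nat_lit 2664155777)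 (nat_lit 216) (nat_lit 5) (nat_lit 224) (nat_lit 5) (nat_lit 217) (nat_lit 5) (nat_lit 398) (nat_lit 372) (nat_lit 250))))))) (XT.nd (nat_lit 1092) (nat_lit 2964) (nat_lit 0) (XT.nd (nat_lit 546) (nat_lit 1824) (nat_lit 0) (XT.nd (nat_lit 234) (nat_lit 1064) (nat_lit 0) (XT.nd (nat_lit 78) (nat_lit 456) (nat_lit 0) (XT.lf (nat_lit 0) (nat_lit 2120285624) (nat_lit 532) (nat_lit 6812609492) (nat_lit 608) (nat_lit 7335700813) (nat_lit 209) (nat_lit 5) (nat_lit 216) (nat_lit 5) (nat_lit 217) (nat_lit 5) (nat_lit 399) (nat_lit 372) (nat_lit 249)) (XT.nd (nat_lit 78) (nat_lit 456) (nat_lit 0) (XT.lf (nat_lit 0) (nat_lit 11306394208) (nat_lit 532) (nat_lit 20177942) (nat_lit 608) (nat_lit 5212210020) (nat_lit 209) (nat_lit 5) (nat_lit 216) (nat_lit 5) (nat_lit 217) (nat_lit 5) (nat_lit 400) (nat_lit 372) (nat_lit 248)) (XT.lf (nat_lit 0) (nat_lit 3948587574) (nat_lit 456) (nat_lit 9937127253) (nat_lit 532) (nat_lit 2928552796)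 (nat_lit 203) (nat_lit 5) (nat_lit 209) (nat_lit 5) (nat_lit 210) (nat_lit 5) (nat_lit 401) (nat_lit 372) (nat_lit 247)))) (XT.nd (nat_lit 156) (nat_lit 456) (nat_lit 0) (XT.nd (nat_lit 78) (nat_lit 608) (nat_lit 0) (XT.lf (nat_lit 0) (nat_lit 13499751381) (nat_lit 456) (nat_lit 3063768985) (nat_lit 532) (nat_lit 533243808) (nat_lit 203) (nat_lit 5) (nat_lit 209) (nat_lit 5) (nat_lit 210) (nat_lit 5) (nat_lit 402) (nat_lit 372) (nat_lit 246)) (XT.lf (nat_lit 0) (nat_lit 1982633101) (nat_lit 608) (nat_lit 11388352093) (nat_lit 76) (nat_lit 4013602336) (nat_lit 195) (nat_lit 5) (nat_lit 203) (nat_lit 5) (nat_lit 196) (nat_lit 5) (nat_lit 403) (nat_lit 372) (nat_lit 245))) (XT.nd (nat_lit 78) (nat_lit 456) (nat_lit 0) (XT.lf (nat_lit 0) (nat_lit 4619543835) (nat_lit 608) (nat_lit 1777264658) (nat_lit 76) (nat_lit 11282393369) (nat_lit 195) (nat_lit 5) (nat_lit 203) (nat_lit 5) (nat_lit 196) (nat_lit 5) (nat_lit 404)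 (nat_lit 372) (nat_lit 244)) (XT.lf (nat_lit 0) (nat_lit 7412978032) (nat_lit 532) (nat_lit 9717346586) (nat_lit 76) (nat_lit 850010356) (nat_lit 189) (nat_lit 5) (nat_lit 196) (nat_lit 5) (nat_lit 190) (nat_lit 5) (nat_lit 405) (nat_lit 372) (nat_lit 243))))) (XT.nd (nat_lit 234) (nat_lit 912) (nat_lit 0) (XT.nd (nat_lit 78) (nat_lit 456) (nat_lit 0) (XT.lf (nat_lit 0) (nat_lit 280714483) (nat_lit 456) (nat_lit 10083403673) (nat_lit 532) (nat_lit 7924169587) (nat_lit 183) (nat_lit 5) (nat_lit 189) (nat_lit 5) (nat_lit 190) (nat_lit 5) (nat_lit 406) (nat_lit 372) (nat_lit 242)) (XT.nd (nat_lit 78) (nat_lit 456) (nat_lit 0) (XT.lf (nat_lit 0) (nat_lit 10765864388) (nat_lit 456) (nat_lit 2725982292) (nat_lit 532) (nat_lit 5110993463) (nat_lit 183) (nat_lit 5) (nat_lit 189) (nat_lit 5) (nat_lit 190) (nat_lit 5) (nat_lit 407) (nat_lit 372) (nat_lit 241)) (XT.lf (nat_lit 0) (nat_lit 2631471584) (nat_lit 456) (nat_lit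 14144075688) (nat_lit 532) (nat_lit 2149420228) (nat_lit 177) (nat_lit 5) (nat_lit 183) (nat_lit 5) (nat_lit 184) (nat_lit 5) (nat_lit 408) (nat_lit 372) (nat_lit 240)))) (XT.nd (nat_lit 156) (nat_lit 380) (nat_lit 0) (XT.nd (nat_lit 78) (nat_lit 456) (nat_lit 0) (XT.lf (nat_lit 0) (nat_lit 980606544) (nat_lit 532) (nat_lit 5728250492) (nat_lit 76) (nat_lit 12544728617) (nat_lit 176) (nat_lit 5) (nat_lit 183) (nat_lit 5) (nat_lit 177) (nat_lit 5) (nat_lit 409) (nat_lit 372) (nat_lit 239)) (XT.lf (nat_lit 0) (nat_lit 4211910647) (nat_lit 532) (nat_lit 14377130634) (nat_lit 76) (nat_lit 1000867667) (nat_lit 170) (nat_lit 5) (nat_lit 177) (nat_lit 5) (nat_lit 171) (nat_lit 5) (nat_lit 410) (nat_lit 372) (nat_lit 238))) (XT.nd (nat_lit 78) (nat_lit 380) (nat_lit 0) (XT.lf (nat_lit 0) (nat_lit 7655696105) (nat_lit 532) (nat_lit 3413968896) (nat_lit 76) (nat_lit 8863192980) (nat_lit 170) (nat_lit 5) (nat_lit 177) (nat_lit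 5) (nat_lit 171) (nat_lit 5) (nat_lit 411) (nat_lit 372) (nat_lit 237)) (XT.lf (nat_lit 0) (nat_lit 8023146491) (nat_lit 380) (nat_lit 3247743963) (nat_lit 456) (nat_lit 9013164408) (nat_lit 165) (nat_lit 5) (nat_lit 170) (nat_lit 5) (nat_lit 171) (nat_lit 5) (nat_lit 412) (nat_lit 372) (nat_lit 236)))))) (XT.nd (nat_lit 546) (nat_lit 1444) (nat_lit 0) (XT.nd (nat_lit 234) (nat_lit 684) (nat_lit 0) (XT.nd (nat_lit 78) (nat_lit 836) (nat_lit 0) (XT.lf (nat_lit 0) (nat_lit 15066683059) (nat_lit 456) (nat_lit 829595022) (nat_lit 76) (nat_lit 4747347467) (nat_lit 165) (nat_lit 5) (nat_lit 171) (nat_lit 5) (nat_lit 166) (nat_lit 5) (nat_lit 413) (nat_lit 372) (nat_lit 235)) (XT.nd (nat_lit 78) (nat_lit 456) (nat_lit 0) (XT.lf (nat_lit 0) (nat_lit 11118162912) (nat_lit 380) (nat_lit 7988577423) (nat_lit 456) (nat_lit 1903333403) (nat_lit 160) (nat_lit 5) (nat_lit 165) (nat_lit 5) (nat_lit 166) (nat_lit 5) (nat_lit 414)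 (nat_lit 372) (nat_lit 234)) (XT.lf (nat_lit 0) (nat_lit 1865451991) (nat_lit 456) (nat_lit 19323445979) (nat_lit 76) (nat_lit 197427209) (nat_lit 154) (nat_lit 5) (nat_lit 160) (nat_lit 5) (nat_lit 155) (nat_lit 5) (nat_lit 415) (nat_lit 372) (nat_lit 233)))) (XT.nd (nat_lit 156) (nat_lit 304) (nat_lit 0) (XT.nd (nat_lit 78) (nat_lit 380) (nat_lit 0) (XT.lf (nat_lit 0) (nat_lit 5880551889) (nat_lit 456) (nat_lit 7302182008) (nat_lit 76) (nat_lit 8585421668) (nat_lit 154) (nat_lit 5) (nat_lit 160) (nat_lit 5) (nat_lit 155) (nat_lit 5) (nat_lit 416) (nat_lit 372) (nat_lit 232)) (XT.lf (nat_lit 0) (nat_lit 5169455545) (nat_lit 380) (nat_lit 4888121138) (nat_lit 456) (nat_lit 12102621895) (nat_lit 149) (nat_lit 5) (nat_lit 154) (nat_lit 5) (nat_lit 155) (nat_lit 5) (nat_lit 417) (nat_lit 372) (nat_lit 231))) (XT.nd (nat_lit 78) (nat_lit 304) (nat_lit 0) (XT.lf (nat_lit 0) (nat_lit 14461402323) (nat_lit 456) (nat_lit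 4443974253) (nat_lit 76) (nat_lit 3655583424) (nat_lit 149) (nat_lit 5) (nat_lit 155) (nat_lit 5) (nat_lit 150) (nat_lit 5) (nat_lit 418) (nat_lit 372) (nat_lit 230)) (XT.lf (nat_lit 0) (nat_lit 8587454108) (nat_lit 304) (nat_lit 10532955115) (nat_lit 380) (nat_lit 3849644811) (nat_lit 145) (nat_lit 5) (nat_lit 149) (nat_lit 5) (nat_lit 150) (nat_lit 5) (nat_lit 419) (nat_lit 372) (nat_lit 229))))) (XT.nd (nat_lit 312) (nat_lit 684) (nat_lit 0) (XT.nd (nat_lit 156) (nat_lit 304) (nat_lit 0) (XT.nd (nat_lit 78) (nat_lit 380) (nat_lit 0) (XT.lf (nat_lit 0) (nat_lit 554955071) (nat_lit 380) (nat_lit 1305638593) (nat_lit 76) (nat_lit 21529552049) (nat_lit 144) (nat_lit 5) (nat_lit 149) (nat_lit 5) (nat_lit 145) (nat_lit 5) (nat_lit 420) (nat_lit 372) (nat_lit 228)) (XT.lf (nat_lit 0) (nat_lit 5194992576) (nat_lit 456) (nat_lit 11531890590) (nat_lit 76) (nat_lit 7089394921) (nat_lit 139) (nat_lit 5) (nat_lit 145) (nat_lit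 5) (nat_lit 140) (nat_lit 5) (nat_lit 421) (nat_lit 372) (nat_lit 227))) (XT.nd (nat_lit 78) (nat_lit 0) (nat_lit 0) (XT.lf (nat_lit 0) (nat_lit 2065083094) (nat_lit 304) (nat_lit 7953222862) (nat_lit 380) (nat_lit 14235567804) (nat_lit 135) (nat_lit 5) (nat_lit 139) (nat_lit 5) (nat_lit 140) (nat_lit 5) (nat_lit 422) (nat_lit 372) (nat_lit 226)) (XT.lf (nat_lit 0) (nat_lit 15106910559) (nat_lit 380) (nat_lit 8417143612) (nat_lit 76) (nat_lit 1176926902) (nat_lit 135) (nat_lit 5) (nat_lit 140) (nat_lit 5) (nat_lit 136) (nat_lit 5) (nat_lit 423) (nat_lit 372) (nat_lit 225)))) (XT.nd (nat_lit 156) (nat_lit 304) (nat_lit 0) (XT.nd (nat_lit 78) (nat_lit 76) (nat_lit 0) (XT.lf (nat_lit 0) (nat_lit 5791406073) (nat_lit 304) (nat_lit 14683971563) (nat_lit 380) (nat_lit 4682309318) (nat_lit 131) (nat_lit 5) (nat_lit 135) (nat_lit 5) (nat_lit 136) (nat_lit 5) (nat_lit 424) (nat_lit 372) (nat_lit 224)) (XT.lf (nat_lit 0)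 (nat_lit 448117358) (nat_lit 380) (nat_lit 5041806567) (nat_lit 76) (nat_lit 20135702854) (nat_lit 130) (nat_lit 5) (nat_lit 135) (nat_lit 5) (nat_lit 131) (nat_lit 5) (nat_lit 425) (nat_lit 372) (nat_lit 223))) (XT.nd (nat_lit 78) (nat_lit 0) (nat_lit 0) (XT.lf (nat_lit 0) (nat_lit 5765670283) (nat_lit 380) (nat_lit 16295241850) (nat_lit 76) (nat_lit 4041483538) (nat_lit 126) (nat_lit 5) (nat_lit 131) (nat_lit 5) (nat_lit 127) (nat_lit 5) (nat_lit 426) (nat_lit 372) (nat_lit 222)) (XT.lf (nat_lit 0) (nat_lit 11341631791) (nat_lit 380) (nat_lit 1452186777) (nat_lit 76) (nat_lit 13796683916) (nat_lit 126) (nat_lit 5) (nat_lit 131) (nat_lit 5) (nat_lit 127) (nat_lit 5) (nat_lit 427) (nat_lit 372) (nat_lit 221))))))))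
noncomputable def xc175 : XT := (XT.nd (nat_lit 2262) (nat_lit 2432) (nat_lit 0) (XT.nd (nat_lit 1092) (nat_lit 1824) (nat_lit 0) (XT.nd (nat_lit 546) (nat_lit 1064) (nat_lit 0) (XT.nd (nat_lit 234) (nat_lit 532) (nat_lit 0) (XT.nd (nat_lit 78) (nat_lit 304) (nat_lit 0) (XT.lf (nat_lit 0) (nat_lit 14101305987) (nat_lit 304) (nat_lit 3112427090) (nat_lit 380) (nat_lit 9875654872) (nat_lit 122) (nat_lit 5) (nat_lit 126) (nat_lit 5) (nat_lit 127) (nat_lit 5) (nat_lit 428) (nat_lit 372) (nat_lit 220)) (XT.nd (nat_lit 78) (nat_lit 76) (nat_lit 0) (XT.lf (nat_lit 0) (nat_lit 2521401633) (nat_lit 228) (nat_lit 20838957229) (nat_lit 304) (nat_lit 4239931512) (nat_lit 119) (nat_lit 5) (nat_lit 122) (nat_lit 5) (nat_lit 123) (nat_lit 5) (nat_lit 429) (nat_lit 372) (nat_lit 219)) (XT.lf (nat_lit 0) (nat_lit 1691005268) (nat_lit 304) (nat_lit 9417452958) (nat_lit 76) (nat_lit 17012911206) (nat_lit 118) (nat_lit 5) (nat_lit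 122) (nat_lit 5) (nat_lit 119) (nat_lit 5) (nat_lit 430) (nat_lit 372) (nat_lit 218)))) (XT.nd (nat_lit 156) (nat_lit 228) (nat_lit 0) (XT.nd (nat_lit 78) (nat_lit 0) (nat_lit 0) (XT.lf (nat_lit 0) (nat_lit 6794605148) (nat_lit 304) (nat_lit 978961467) (nat_lit 380) (nat_lit 20881488546) (nat_lit 114) (nat_lit 5) (nat_lit 118) (nat_lit 5) (nat_lit 119) (nat_lit 5) (nat_lit 431) (nat_lit 372) (nat_lit 217)) (XT.lf (nat_lit 0) (nat_lit 14219186730) (nat_lit 380) (nat_lit 5617537657) (nat_lit 76) (nat_lit 9362610718) (nat_lit 114) (nat_lit 5) (nat_lit 119) (nat_lit 5) (nat_lit 115) (nat_lit 5) (nat_lit 432) (nat_lit 372) (nat_lit 216))) (XT.nd (nat_lit 78) (nat_lit 0) (nat_lit 0) (XT.lf (nat_lit 0) (nat_lit 11314147749) (nat_lit 228) (nat_lit 9656324415) (nat_lit 304) (nat_lit 8786103452) (nat_lit 111) (nat_lit 5) (nat_lit 114) (nat_lit 5) (nat_lit 115) (nat_lit 5) (nat_lit 433) (nat_lit 372) (nat_lit 215)) (XT.lf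 (nat_lit 0) (nat_lit 27983457775) (nat_lit 304) (nat_lit 1478086247) (nat_lit 76) (nat_lit 867215508) (nat_lit 111) (nat_lit 5) (nat_lit 115) (nat_lit 5) (nat_lit 112) (nat_lit 5) (nat_lit 434) (nat_lit 372) (nat_lit 214))))) (XT.nd (nat_lit 234) (nat_lit 532) (nat_lit 0) (XT.nd (nat_lit 78) (nat_lit 228) (nat_lit 0) (XT.lf (nat_lit 0) (nat_lit 4452936405) (nat_lit 304) (nat_lit 14747953387) (nat_lit 76) (nat_lit 11708546346) (nat_lit 107) (nat_lit 5) (nat_lit 111) (nat_lit 5) (nat_lit 108) (nat_lit 5) (nat_lit 435) (nat_lit 372) (nat_lit 213)) (XT.nd (nat_lit 78) (nat_lit 0) (nat_lit 0) (XT.lf (nat_lit 0) (nat_lit 2876819020) (nat_lit 228) (nat_lit 8567994191) (nat_lit 304) (nat_lit 20060919267) (nat_lit 104) (nat_lit 5) (nat_lit 107) (nat_lit 5) (nat_lit 108) (nat_lit 5) (nat_lit 436) (nat_lit 372) (nat_lit 212)) (XT.lf (nat_lit 0) (nat_lit 18813912766) (nat_lit 304) (nat_lit 10816638625) (nat_lit 76) (nat_lit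 2484343247) (nat_lit 104) (nat_lit 5) (nat_lit 108) (nat_lit 5) (nat_lit 105) (nat_lit 5) (nat_lit 437) (nat_lit 372) (nat_lit 211)))) (XT.nd (nat_lit 156) (nat_lit 228) (nat_lit 0) (XT.nd (nat_lit 78) (nat_lit 76) (nat_lit 0) (XT.lf (nat_lit 0) (nat_lit 7583987068) (nat_lit 228) (nat_lit 18972153271) (nat_lit 304) (nat_lit 6181630565) (nat_lit 101) (nat_lit 5) (nat_lit 104) (nat_lit 5) (nat_lit 105) (nat_lit 5) (nat_lit 438) (nat_lit 372) (nat_lit 210)) (XT.lf (nat_lit 0) (nat_lit 1233486770) (nat_lit 304) (nat_lit 6639043220) (nat_lit 76) (nat_lit 25503332757) (nat_lit 100) (nat_lit 5) (nat_lit 104) (nat_lit 5) (nat_lit 101) (nat_lit 5) (nat_lit 439) (nat_lit 372) (nat_lit 209))) (XT.nd (nat_lit 78) (nat_lit 0) (nat_lit 0) (XT.lf (nat_lit 0) (nat_lit 8898501732) (nat_lit 304) (nat_lit 21456774277) (nat_lit 76) (nat_lit 3671435365) (nat_lit 97) (nat_lit 5) (nat_lit 101) (nat_lit 5) (nat_lit 98) (nat_lit 5) (nat_lit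 440) (nat_lit 372) (nat_lit 208)) (XT.lf (nat_lit 0) (nat_lit 16933668063) (nat_lit 304) (nat_lit 2291378079) (nat_lit 76) (nat_lit 15467834083) (nat_lit 97) (nat_lit 5) (nat_lit 101) (nat_lit 5) (nat_lit 98) (nat_lit 5) (nat_lit 441) (nat_lit 372) (nat_lit 207)))))) (XT.nd (nat_lit 546) (nat_lit 912) (nat_lit 0) (XT.nd (nat_lit 234) (nat_lit 456) (nat_lit 0) (XT.nd (nat_lit 78) (nat_lit 228) (nat_lit 0) (XT.lf (nat_lit 0) (nat_lit 17787361963) (nat_lit 228) (nat_lit 7588219148) (nat_lit 304) (nat_lit 9998483053) (nat_lit 94) (nat_lit 5) (nat_lit 97) (nat_lit 5) (nat_lit 98) (nat_lit 5) (nat_lit 442) (nat_lit 372) (nat_lit 206)) (XT.nd (nat_lit 78) (nat_lit 76) (nat_lit 0) (XT.lf (nat_lit 0) (nat_lit 2436740015) (nat_lit 152) (nat_lit 31717823134) (nat_lit 228) (nat_lit 1918606873) (nat_lit 92) (nat_lit 5) (nat_lit 94) (nat_lit 5) (nat_lit 95) (nat_lit 5) (nat_lit 443) (nat_lit 372) (nat_lit 205)) (XT.lf (nat_lit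 0) (nat_lit 6527952221) (nat_lit 228) (nat_lit 13513742622) (nat_lit 76) (nat_lit 16742230883) (nat_lit 91) (nat_lit 5) (nat_lit 94) (nat_lit 5) (nat_lit 92) (nat_lit 5) (nat_lit 444) (nat_lit 372) (nat_lit 204)))) (XT.nd (nat_lit 156) (nat_lit 228) (nat_lit 0) (XT.nd (nat_lit 78) (nat_lit 0) (nat_lit 0) (XT.lf (nat_lit 0) (nat_lit 7328110810) (nat_lit 228) (nat_lit 7926594739) (nat_lit 304) (nat_lit 22258768571) (nat_lit 88) (nat_lit 5) (nat_lit 91) (nat_lit 5) (nat_lit 92) (nat_lit 5) (nat_lit 445) (nat_lit 372) (nat_lit 203)) (XT.lf (nat_lit 0) (nat_lit 24419782505) (nat_lit 304) (nat_lit 9242235195) (nat_lit 76) (nat_lit 4597596298) (nat_lit 88) (nat_lit 5) (nat_lit 92) (nat_lit 5) (nat_lit 89) (nat_lit 5) (nat_lit 446) (nat_lit 372) (nat_lit 202))) (XT.nd (nat_lit 78) (nat_lit 76) (nat_lit 0) (XT.lf (nat_lit 0) (nat_lit 12486051423) (nat_lit 152) (nat_lit 21567363499) (nat_lit 228) (nat_lit 4968915704) (nat_lit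 86) (nat_lit 5) (nat_lit 88) (nat_lit 5) (nat_lit 89) (nat_lit 5) (nat_lit 447) (nat_lit 372) (nat_lit 201)) (XT.lf (nat_lit 0) (nat_lit 4176158554) (nat_lit 228) (nat_lit 4798794638) (nat_lit 76) (nat_lit 30829093187) (nat_lit 85) (nat_lit 5) (nat_lit 88) (nat_lit 5) (nat_lit 86) (nat_lit 5) (nat_lit 448) (nat_lit 372) (nat_lit 200))))) (XT.nd (nat_lit 312) (nat_lit 304) (nat_lit 0) (XT.nd (nat_lit 156) (nat_lit 380) (nat_lit 0) (XT.nd (nat_lit 78) (nat_lit 0) (nat_lit 0) (XT.lf (nat_lit 0) (nat_lit 13703429830) (nat_lit 304) (nat_lit 22760792383) (nat_lit 76) (nat_lit 4137284616) (nat_lit 82) (nat_lit 5) (nat_lit 86) (nat_lit 5) (nat_lit 83) (nat_lit 5) (nat_lit 449) (nat_lit 372) (nat_lit 199)) (XT.lf (nat_lit 0) (nat_lit 23649603811) (nat_lit 304) (nat_lit 261104894) (nat_lit 76) (nat_lit 17508190423) (nat_lit 82) (nat_lit 5) (nat_lit 86) (nat_lit 5) (nat_lit 83) (nat_lit 5) (nat_lit 450) (nat_lit 372) (nat_lit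 198))) (XT.nd (nat_lit 78) (nat_lit 228) (nat_lit 0) (XT.lf (nat_lit 0) (nat_lit 23361571492) (nat_lit 152) (nat_lit 10752579994) (nat_lit 228) (nat_lit 8140062614) (nat_lit 80) (nat_lit 5) (nat_lit 82) (nat_lit 5) (nat_lit 83) (nat_lit 5) (nat_lit 451) (nat_lit 372) (nat_lit 197)) (XT.lf (nat_lit 0) (nat_lit 1813667739) (nat_lit 228) (nat_lit 38490819366) (nat_lit 76) (nat_lit 2807479689) (nat_lit 77) (nat_lit 5) (nat_lit 80) (nat_lit 5) (nat_lit 78) (nat_lit 5) (nat_lit 452) (nat_lit 372) (nat_lit 196)))) (XT.nd (nat_lit 156) (nat_lit 152) (nat_lit 0) (XT.nd (nat_lit 78) (nat_lit 152) (nat_lit 0) (XT.lf (nat_lit 0) (nat_lit 12196993591) (nat_lit 228) (nat_lit 14958952657) (nat_lit 76) (nat_lit 16828250768) (nat_lit 77) (nat_lit 5) (nat_lit 80) (nat_lit 5) (nat_lit 78) (nat_lit 5) (nat_lit 453) (nat_lit 372) (nat_lit 195)) (XT.lf (nat_lit 0) (nat_lit 9455704316) (nat_lit 152) (nat_lit 13522603143) (nat_lit 228)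 (nat_lit 21901692533) (nat_lit 75) (nat_lit 5) (nat_lit 77) (nat_lit 5) (nat_lit 78) (nat_lit 5) (nat_lit 454) (nat_lit 372) (nat_lit 194))) (XT.nd (nat_lit 78) (nat_lit 152) (nat_lit 0) (XT.lf (nat_lit 0) (nat_lit 34236226658) (nat_lit 228) (nat_lit 10902897175) (nat_lit 76) (nat_lit 658958727) (nat_lit 75) (nat_lit 5) (nat_lit 78) (nat_lit 5) (nat_lit 76) (nat_lit 5) (nat_lit 455) (nat_lit 372) (nat_lit 193)) (XT.lf (nat_lit 0) (nat_lit 14495637643) (nat_lit 152) (nat_lit 31605219670) (nat_lit 228) (nat_lit 634781544) (nat_lit 73) (nat_lit 5) (nat_lit 75) (nat_lit 5) (nat_lit 76) (nat_lit 5) (nat_lit 456) (nat_lit 372) (nat_lit 192))))))) (XT.nd (nat_lit 1092) (nat_lit 1140) (nat_lit 0) (XT.nd (nat_lit 546) (nat_lit 532) (nat_lit 0) (XT.nd (nat_lit 234) (nat_lit 532) (nat_lit 0) (XT.nd (nat_lit 78) (nat_lit 152) (nat_lit 0) (XT.lf (nat_lit 0) (nat_lit 10519812951) (nat_lit 228) (nat_lit 6929060858) (nat_lit 76)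 (nat_lit 30246177534) (nat_lit 72) (nat_lit 5) (nat_lit 75) (nat_lit 5) (nat_lit 73) (nat_lit 5) (nat_lit 457) (nat_lit 372) (nat_lit 191)) (XT.nd (nat_lit 78) (nat_lit 0) (nat_lit 0) (XT.lf (nat_lit 0) (nat_lit 19508326542) (nat_lit 152) (nat_lit 2671366273) (nat_lit 228) (nat_lit 26497863085) (nat_lit 70) (nat_lit 5) (nat_lit 72) (nat_lit 5) (nat_lit 73) (nat_lit 5) (nat_lit 458) (nat_lit 372) (nat_lit 190)) (XT.lf (nat_lit 0) (nat_lit 34376565613) (nat_lit 228) (nat_lit 2935182874) (nat_lit 76) (nat_lit 12372171627) (nat_lit 70) (nat_lit 5) (nat_lit 73) (nat_lit 5) (nat_lit 71) (nat_lit 5) (nat_lit 459) (nat_lit 372) (nat_lit 189)))) (XT.nd (nat_lit 156) (nat_lit 152) (nat_lit 0) (XT.nd (nat_lit 78) (nat_lit 228) (nat_lit 0) (XT.lf (nat_lit 0) (nat_lit 24531042325) (nat_lit 152) (nat_lit 22666578910) (nat_lit 228) (nat_lit 3515106122) (nat_lit 68) (nat_lit 5) (nat_lit 70) (nat_lit 5) (nat_lit 71) (nat_lit 5)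 (nat_lit 460) (nat_lit 372) (nat_lit 188)) (XT.lf (nat_lit 0) (nat_lit 1039852780) (nat_lit 152) (nat_lit 7458594828) (nat_lit 228) (nat_lit 43270383880) (nat_lit 65) (nat_lit 5) (nat_lit 67) (nat_lit 5) (nat_lit 68) (nat_lit 5) (nat_lit 461) (nat_lit 372) (nat_lit 187))) (XT.nd (nat_lit 78) (nat_lit 152) (nat_lit 0) (XT.lf (nat_lit 0) (nat_lit 21143684290) (nat_lit 228) (nat_lit 23357361025) (nat_lit 76) (nat_lit 8344271913) (nat_lit 65) (nat_lit 5) (nat_lit 68) (nat_lit 5) (nat_lit 66) (nat_lit 5) (nat_lit 462) (nat_lit 372) (nat_lit 186)) (XT.lf (nat_lit 0) (nat_lit 4849280589) (nat_lit 152) (nat_lit 29435621948) (nat_lit 228) (nat_lit 19665696625) (nat_lit 63) (nat_lit 5) (nat_lit 65) (nat_lit 5) (nat_lit 66) (nat_lit 5) (nat_lit 463) (nat_lit 372) (nat_lit 185))))) (XT.nd (nat_lit 234) (nat_lit 304) (nat_lit 0) (XT.nd (nat_lit 78) (nat_lit 228) (nat_lit 0) (XT.lf (nat_lit 0) (nat_lit 34374088085) (nat_lit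 152) (nat_lit 13678341586) (nat_lit 228) (nat_lit 7029648062) (nat_lit 63) (nat_lit 5) (nat_lit 65) (nat_lit 5) (nat_lit 66) (nat_lit 5) (nat_lit 464) (nat_lit 372) (nat_lit 184)) (XT.nd (nat_lit 78) (nat_lit 0) (nat_lit 0) (XT.lf (nat_lit 0) (nat_lit 5973925074) (nat_lit 228) (nat_lit 47627767215) (nat_lit 76) (nat_lit 2640925373) (nat_lit 60) (nat_lit 5) (nat_lit 63) (nat_lit 5) (nat_lit 61) (nat_lit 5) (nat_lit 465) (nat_lit 372) (nat_lit 183)) (XT.lf (nat_lit 0) (nat_lit 19569224312) (nat_lit 228) (nat_lit 18403658956) (nat_lit 76) (nat_lit 19452715588) (nat_lit 60) (nat_lit 5) (nat_lit 63) (nat_lit 5) (nat_lit 61) (nat_lit 5) (nat_lit 466) (nat_lit 372) (nat_lit 182)))) (XT.nd (nat_lit 156) (nat_lit 152) (nat_lit 0) (XT.nd (nat_lit 78) (nat_lit 0) (nat_lit 0) (XT.lf (nat_lit 0) (nat_lit 11923307472) (nat_lit 152) (nat_lit 21760095260) (nat_lit 228) (nat_lit 24957336457) (nat_lit 58) (nat_lit 5) (nat_lit 60)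 (nat_lit 5) (nat_lit 61) (nat_lit 5) (nat_lit 467) (nat_lit 372) (nat_lit 181)) (XT.lf (nat_lit 0) (nat_lit 43530872143) (nat_lit 152) (nat_lit 4872423815) (nat_lit 228) (nat_lit 11483569390) (nat_lit 58) (nat_lit 5) (nat_lit 60) (nat_lit 5) (nat_lit 61) (nat_lit 5) (nat_lit 468) (nat_lit 372) (nat_lit 180))) (XT.nd (nat_lit 78) (nat_lit 0) (nat_lit 0) (XT.lf (nat_lit 0) (nat_lit 2612168270) (nat_lit 152) (nat_lit 46104222423) (nat_lit 76) (nat_lit 12445359951) (nat_lit 56) (nat_lit 5) (nat_lit 58) (nat_lit 5) (nat_lit 57) (nat_lit 5) (nat_lit 469) (nat_lit 372) (nat_lit 179)) (XT.lf (nat_lit 0) (nat_lit 17111541495) (nat_lit 152) (nat_lit 14891129133) (nat_lit 76) (nat_lit 30462454028) (nat_lit 56) (nat_lit 5) (nat_lit 58) (nat_lit 5) (nat_lit 57) (nat_lit 5) (nat_lit 470) (nat_lit 372) (nat_lit 178)))))) (XT.nd (nat_lit 546) (nat_lit 608) (nat_lit 0) (XT.nd (nat_lit 234) (nat_lit 304) (nat_lit 0) (XT.nd (nat_lit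 78) (nat_lit 76) (nat_lit 0) (XT.lf (nat_lit 0) (nat_lit 17595531632) (nat_lit 152) (nat_lit 14616135577) (nat_lit 228) (nat_lit 31590959809) (nat_lit 54) (nat_lit 5) (nat_lit 56) (nat_lit 5) (nat_lit 57) (nat_lit 5) (nat_lit 471) (nat_lit 372) (nat_lit 177)) (XT.nd (nat_lit 78) (nat_lit 76) (nat_lit 0) (XT.lf (nat_lit 0) (nat_lit 47944946163) (nat_lit 228) (nat_lit 13853021307) (nat_lit 76) (nat_lit 3376882754) (nat_lit 54) (nat_lit 5) (nat_lit 57) (nat_lit 5) (nat_lit 55) (nat_lit 4) (nat_lit 472) (nat_lit 372) (nat_lit 176)) (XT.lf (nat_lit 0) (nat_lit 19705475620) (nat_lit 76) (nat_lit 44775625652) (nat_lit 152) (nat_lit 2097212772) (nat_lit 53) (nat_lit 5) (nat_lit 54) (nat_lit 5) (nat_lit 55) (nat_lit 4) (nat_lit 473) (nat_lit 372) (nat_lit 175)))) (XT.nd (nat_lit 156) (nat_lit 76) (nat_lit 0) (XT.nd (nat_lit 78) (nat_lit 152) (nat_lit 0) (XT.lf (nat_lit 0) (nat_lit 13364252747) (nat_lit 152) (nat_lit 13602054285)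 (nat_lit 76) (nat_lit 41049544273) (nat_lit 52) (nat_lit 5) (nat_lit 54) (nat_lit 5) (nat_lit 53) (nat_lit 5) (nat_lit 474) (nat_lit 372) (nat_lit 174)) (XT.lf (nat_lit 0) (nat_lit 21051029526) (nat_lit 152) (nat_lit 8395578940) (nat_lit 228) (nat_lit 40043307569) (nat_lit 50) (nat_lit 5) (nat_lit 52) (nat_lit 5) (nat_lit 53) (nat_lit 5) (nat_lit 475) (nat_lit 372) (nat_lit 173))) (XT.nd (nat_lit 78) (nat_lit 76) (nat_lit 0) (XT.lf (nat_lit 0) (nat_lit 46250167560) (nat_lit 228) (nat_lit 14091924319) (nat_lit 76) (nat_lit 10658949069) (nat_lit 50) (nat_lit 5) (nat_lit 53) (nat_lit 5) (nat_lit 51) (nat_lit 4) (nat_lit 476) (nat_lit 372) (nat_lit 172)) (XT.lf (nat_lit 0) (nat_lit 21618495578) (nat_lit 76) (nat_lit 42227217770) (nat_lit 152) (nat_lit 8703150079) (nat_lit 49) (nat_lit 5) (nat_lit 50) (nat_lit 5) (nat_lit 51) (nat_lit 4) (nat_lit 477) (nat_lit 372) (nat_lit 171))))) (XT.nd (nat_lit 312) (nat_lit 304)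 (nat_lit 0) (XT.nd (nat_lit 156) (nat_lit 76) (nat_lit 0) (XT.nd (nat_lit 78) (nat_lit 152) (nat_lit 0) (XT.lf (nat_lit 0) (nat_lit 7813951073) (nat_lit 152) (nat_lit 15532076654) (nat_lit 76) (nat_lit 50790616417) (nat_lit 48) (nat_lit 5) (nat_lit 50) (nat_lit 5) (nat_lit 49) (nat_lit 5) (nat_lit 478) (nat_lit 372) (nat_lit 170)) (XT.lf (nat_lit 0) (nat_lit 21251159226) (nat_lit 152) (nat_lit 3601799280) (nat_lit 228) (nat_lit 50910475342) (nat_lit 46) (nat_lit 5) (nat_lit 48) (nat_lit 5) (nat_lit 49) (nat_lit 5) (nat_lit 479) (nat_lit 372) (nat_lit 169))) (XT.nd (nat_lit 78) (nat_lit 76) (nat_lit 0) (XT.lf (nat_lit 0) (nat_lit 42719445392) (nat_lit 228) (nat_lit 18145985420) (nat_lit 76) (nat_lit 16564107347) (nat_lit 46) (nat_lit 5) (nat_lit 49) (nat_lit 5) (nat_lit 47) (nat_lit 4) (nat_lit 480) (nat_lit 372) (nat_lit 168)) (XT.lf (nat_lit 0) (nat_lit 19653777761) (nat_lit 76) (nat_lit 41689868706) (nat_lit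 152) (nat_lit 17795327732) (nat_lit 45) (nat_lit 5) (nat_lit 46) (nat_lit 5) (nat_lit 47) (nat_lit 4) (nat_lit 481) (nat_lit 372) (nat_lit 167)))) (XT.nd (nat_lit 156) (nat_lit 76) (nat_lit 0) (XT.nd (nat_lit 78) (nat_lit 228) (nat_lit 0) (XT.lf (nat_lit 0) (nat_lit 58954192080) (nat_lit 76) (nat_lit 21752786803) (nat_lit 152) (nat_lit 187302460) (nat_lit 45) (nat_lit 5) (nat_lit 46) (nat_lit 5) (nat_lit 47) (nat_lit 4) (nat_lit 482) (nat_lit 372) (nat_lit 166)) (XT.lf (nat_lit 0) (nat_lit 16883066870) (nat_lit 152) (nat_lit 875159694) (nat_lit 228) (nat_lit 64934059856) (nat_lit 42) (nat_lit 5) (nat_lit 44) (nat_lit 5) (nat_lit 45) (nat_lit 5) (nat_lit 483) (nat_lit 372) (nat_lit 165))) (XT.nd (nat_lit 78) (nat_lit 76) (nat_lit 0) (XT.lf (nat_lit 0) (nat_lit 36657628510) (nat_lit 228) (nat_lit 27424487221) (nat_lit 76) (nat_lit 20449482302) (nat_lit 42) (nat_lit 5) (nat_lit 45) (nat_lit 5) (nat_lit 43) (nat_lit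 4) (nat_lit 484) (nat_lit 372) (nat_lit 164)) (XT.lf (nat_lit 0) (nat_lit 12338823760) (nat_lit 76) (nat_lit 43909772285) (nat_lit 152) (nat_lit 30173755605) (nat_lit 41) (nat_lit 5) (nat_lit 42) (nat_lit 5) (nat_lit 43) (nat_lit 4) (nat_lit 485) (nat_lit 372) (nat_lit 163))))))))
noncomputable def xc176 : XT := (XT.nd (nat_lit 2184) (nat_lit 6612) (nat_lit 0) (XT.nd (nat_lit 1092) (nat_lit 4104) (nat_lit 0) (XT.nd (nat_lit 546) (nat_lit 836) (nat_lit 0) (XT.nd (nat_lit 234) (nat_lit 0) (nat_lit 76) (XT.nd (nat_lit 78) (nat_lit 0) (nat_lit 0) (XT.lf (nat_lit 0) (nat_lit 457296417) (nat_lit 0) (nat_lit 457296417) (nat_lit 1140) (nat_lit 4668987724) (nat_lit 274) (nat_lit 5) (nat_lit 274) (nat_lit 3) (nat_lit 289) (nat_lit 3) (nat_lit 373) (nat_lit 373) (nat_lit 274)) (XT.nd (nat_lit 78) (nat_lit 0) (nat_lit 0) (XT.lf (nat_lit 0) (nat_lit 2445514927) (nat_lit 1140) (nat_lit 4856425841) (nat_lit 1216) (nat_lit 4014874011)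 (nat_lit 274) (nat_lit 5) (nat_lit 289) (nat_lit 3) (nat_lit 290) (nat_lit 5) (nat_lit 374) (nat_lit 373) (nat_lit 273)) (XT.lf (nat_lit 76) (nat_lit 694623011) (nat_lit 0) (nat_lit 2380100028) (nat_lit 1216) (nat_lit 8396410641) (nat_lit 275) (nat_lit 5) (nat_lit 274) (nat_lit 5) (nat_lit 290) (nat_lit 5) (nat_lit 375) (nat_lit 373) (nat_lit 272)))) (XT.nd (nat_lit 156) (nat_lit 0) (nat_lit 76) (XT.nd (nat_lit 78) (nat_lit 0) (nat_lit 0) (XT.lf (nat_lit 0) (nat_lit 3777445313) (nat_lit 1140) (nat_lit 5155280888) (nat_lit 1216) (nat_lit 2695723894) (nat_lit 275) (nat_lit 5) (nat_lit 290) (nat_lit 5) (nat_lit 291) (nat_lit 5) (nat_lit 376) (nat_lit 373) (nat_lit 271)) (XT.lf (nat_lit 76) (nat_lit 611211866) (nat_lit 0) (nat_lit 3899342032) (nat_lit 1216) (nat_lit 7279659846) (nat_lit 276) (nat_lit 5) (nat_lit 275) (nat_lit 5) (nat_lit 291) (nat_lit 5) (nat_lit 377) (nat_lit 373) (nat_lit 270))) (XT.nd (nat_lit 78)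 (nat_lit 0) (nat_lit 0) (XT.lf (nat_lit 0) (nat_lit 5310998055) (nat_lit 1140) (nat_lit 5324053274) (nat_lit 1216) (nat_lit 1320425383) (nat_lit 276) (nat_lit 5) (nat_lit 291) (nat_lit 5) (nat_lit 292) (nat_lit 5) (nat_lit 378) (nat_lit 373) (nat_lit 269)) (XT.lf (nat_lit 76) (nat_lit 669055945) (nat_lit 0) (nat_lit 5492424751) (nat_lit 1216) (nat_lit 5963442602) (nat_lit 277) (nat_lit 5) (nat_lit 276) (nat_lit 5) (nat_lit 292) (nat_lit 5) (nat_lit 379) (nat_lit 373) (nat_lit 268))))) (XT.nd (nat_lit 234) (nat_lit 988) (nat_lit 0) (XT.nd (nat_lit 78) (nat_lit 0) (nat_lit 76) (XT.lf (nat_lit 76) (nat_lit 6939277147) (nat_lit 0) (nat_lit 133389786) (nat_lit 1216) (nat_lit 5225736971) (nat_lit 277) (nat_lit 5) (nat_lit 276) (nat_lit 5) (nat_lit 292) (nat_lit 5) (nat_lit 380) (nat_lit 373) (nat_lit 267)) (XT.nd (nat_lit 78) (nat_lit 0) (nat_lit 0) (XT.lf (nat_lit 76) (nat_lit 873702573) (nat_lit 0) (nat_lit 7179692901)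 (nat_lit 1216) (nat_lit 4422433366) (nat_lit 278) (nat_lit 5) (nat_lit 277) (nat_lit 5) (nat_lit 293) (nat_lit 5) (nat_lit 381) (nat_lit 373) (nat_lit 266)) (XT.lf (nat_lit 76) (nat_lit 7390060098) (nat_lit 0) (nat_lit 1711349164) (nat_lit 1216) (nat_lit 3556037295) (nat_lit 278) (nat_lit 5) (nat_lit 277) (nat_lit 5) (nat_lit 293) (nat_lit 5) (nat_lit 382) (nat_lit 373) (nat_lit 265)))) (XT.nd (nat_lit 156) (nat_lit 1140) (nat_lit 0) (XT.nd (nat_lit 78) (nat_lit 0) (nat_lit 0) (XT.lf (nat_lit 76) (nat_lit 1231548532) (nat_lit 0) (nat_lit 8981847483) (nat_lit 1216) (nat_lit 2630146574) (nat_lit 279) (nat_lit 5) (nat_lit 278) (nat_lit 5) (nat_lit 294) (nat_lit 5) (nat_lit 383) (nat_lit 373) (nat_lit 264)) (XT.lf (nat_lit 76) (nat_lit 8004078572) (nat_lit 0) (nat_lit 3408013743) (nat_lit 1216) (nat_lit 1621534285) (nat_lit 279) (nat_lit 5) (nat_lit 278) (nat_lit 5) (nat_lit 294) (nat_lit 5) (nat_lit 384) (nat_lit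 373) (nat_lit 263))) (XT.nd (nat_lit 78) (nat_lit 1216) (nat_lit 0) (XT.lf (nat_lit 76) (nat_lit 1749842126) (nat_lit 0) (nat_lit 10920062717) (nat_lit 1216) (nat_lit 558819056) (nat_lit 280) (nat_lit 5) (nat_lit 279) (nat_lit 5) (nat_lit 295) (nat_lit 5) (nat_lit 385) (nat_lit 373) (nat_lit 262)) (XT.lf (nat_lit 0) (nat_lit 594456146) (nat_lit 1216) (nat_lit 4644281373) (nat_lit 1292) (nat_lit 8188713208) (nat_lit 263) (nat_lit 5) (nat_lit 279) (nat_lit 5) (nat_lit 280) (nat_lit 5) (nat_lit 386) (nat_lit 373) (nat_lit 261)))))) (XT.nd (nat_lit 546) (nat_lit 2356) (nat_lit 0) (XT.nd (nat_lit 234) (nat_lit 1824) (nat_lit 0) (XT.nd (nat_lit 78) (nat_lit 0) (nat_lit 0) (XT.lf (nat_lit 0) (nat_lit 1785182079) (nat_lit 1216) (nat_lit 11212894207) (nat_lit 1292) (nat_lit 633479531) (nat_lit 264) (nat_lit 5) (nat_lit 280) (nat_lit 5) (nat_lit 281) (nat_lit 5) (nat_lit 387) (nat_lit 373) (nat_lit 260)) (XT.nd (nat_lit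 78) (nat_lit 0) (nat_lit 0) (XT.lf (nat_lit 0) (nat_lit 3095788119) (nat_lit 1216) (nat_lit 4116470874) (nat_lit 1292) (nat_lit 6627005143) (nat_lit 264) (nat_lit 5) (nat_lit 280) (nat_lit 5) (nat_lit 281) (nat_lit 5) (nat_lit 388) (nat_lit 373) (nat_lit 259)) (XT.lf (nat_lit 76) (nat_lit 3244054332) (nat_lit 0) (nat_lit 1218208025) (nat_lit 1292) (nat_lit 9590449532) (nat_lit 265) (nat_lit 5) (nat_lit 264) (nat_lit 5) (nat_lit 281) (nat_lit 5) (nat_lit 389) (nat_lit 373) (nat_lit 258)))) (XT.nd (nat_lit 156) (nat_lit 684) (nat_lit 0) (XT.nd (nat_lit 78) (nat_lit 1216) (nat_lit 0) (XT.lf (nat_lit 0) (nat_lit 5945047410) (nat_lit 1216) (nat_lit 3422017793) (nat_lit 76) (nat_lit 4903242921) (nat_lit 265) (nat_lit 5) (nat_lit 281) (nat_lit 5) (nat_lit 266) (nat_lit 5) (nat_lit 390) (nat_lit 373) (nat_lit 257)) (XT.lf (nat_lit 0) (nat_lit 4244923311) (nat_lit 1216) (nat_lit 3266375336) (nat_lit 1292) (nat_lit 6981968537)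 (nat_lit 249) (nat_lit 5) (nat_lit 265) (nat_lit 5) (nat_lit 266) (nat_lit 5) (nat_lit 391) (nat_lit 373) (nat_lit 256))) (XT.nd (nat_lit 78) (nat_lit 684) (nat_lit 0) (XT.lf (nat_lit 0) (nat_lit 9174861342) (nat_lit 1292) (nat_lit 2551583988) (nat_lit 76) (nat_lit 2994964254) (nat_lit 249) (nat_lit 5) (nat_lit 266) (nat_lit 5) (nat_lit 250) (nat_lit 5) (nat_lit 392) (nat_lit 373) (nat_lit 255)) (XT.lf (nat_lit 0) (nat_lit 5437830889) (nat_lit 684) (nat_lit 5521929266) (nat_lit 760) (nat_lit 3994497387) (nat_lit 240) (nat_lit 5) (nat_lit 249) (nat_lit 5) (nat_lit 250) (nat_lit 5) (nat_lit 393) (nat_lit 373) (nat_lit 254))))) (XT.nd (nat_lit 234) (nat_lit 1672) (nat_lit 0) (XT.nd (nat_lit 78) (nat_lit 684) (nat_lit 0) (XT.lf (nat_lit 0) (nat_lit 12819674149) (nat_lit 760) (nat_lit 1494993029) (nat_lit 76) (nat_lit 878783755) (nat_lit 240) (nat_lit 5) (nat_lit 250) (nat_lit 5) (nat_lit 241) (nat_lit 5) (nat_lit 394)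 (nat_lit 373) (nat_lit 253)) (XT.nd (nat_lit 78) (nat_lit 76) (nat_lit 0) (XT.lf (nat_lit 0) (nat_lit 6833819335) (nat_lit 608) (nat_lit 8009401901) (nat_lit 684) (nat_lit 593367742) (nat_lit 232) (nat_lit 5) (nat_lit 240) (nat_lit 5) (nat_lit 241) (nat_lit 5) (nat_lit 395) (nat_lit 373) (nat_lit 252)) (XT.lf (nat_lit 0) (nat_lit 1219091989) (nat_lit 684) (nat_lit 267577328) (nat_lit 76) (nat_lit 14199912504) (nat_lit 231) (nat_lit 5) (nat_lit 240) (nat_lit 5) (nat_lit 232) (nat_lit 5) (nat_lit 396) (nat_lit 373) (nat_lit 251)))) (XT.nd (nat_lit 156) (nat_lit 532) (nat_lit 0) (XT.nd (nat_lit 78) (nat_lit 532) (nat_lit 0) (XT.lf (nat_lit 0) (nat_lit 3194489636) (nat_lit 684) (nat_lit 7527721696) (nat_lit 76) (nat_lit 5218075751) (nat_lit 223) (nat_lit 5) (nat_lit 232) (nat_lit 5) (nat_lit 224) (nat_lit 5) (nat_lit 397) (nat_lit 373) (nat_lit 250)) (XT.lf (nat_lit 0) (nat_lit 1152854931) (nat_lit 532) (nat_lit 4093024791)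 (nat_lit 608) (nat_lit 10955225351) (nat_lit 216) (nat_lit 5) (nat_lit 223) (nat_lit 5) (nat_lit 224) (nat_lit 5) (nat_lit 398) (nat_lit 373) (nat_lit 249))) (XT.nd (nat_lit 78) (nat_lit 532) (nat_lit 0) (XT.lf (nat_lit 0) (nat_lit 7450297550) (nat_lit 608) (nat_lit 6258551444) (nat_lit 76) (nat_lit 2758157413) (nat_lit 216) (nat_lit 5) (nat_lit 224) (nat_lit 5) (nat_lit 217) (nat_lit 5) (nat_lit 399) (nat_lit 373) (nat_lit 248)) (XT.lf (nat_lit 0) (nat_lit 2797048472) (nat_lit 532) (nat_lit 6979975778) (nat_lit 608) (nat_lit 6962178527) (nat_lit 209) (nat_lit 5) (nat_lit 216) (nat_lit 5) (nat_lit 217) (nat_lit 5) (nat_lit 400) (nat_lit 373) (nat_lit 247))))))) (XT.nd (nat_lit 1092) (nat_lit 3268) (nat_lit 0) (XT.nd (nat_lit 546) (nat_lit 1368) (nat_lit 0) (XT.nd (nat_lit 234) (nat_lit 1444) (nat_lit 0) (XT.nd (nat_lit 78) (nat_lit 532) (nat_lit 0) (XT.lf (nat_lit 0) (nat_lit 12225876389) (nat_lit 608) (nat_lit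 4777267075) (nat_lit 76) (nat_lit 14855054) (nat_lit 209) (nat_lit 5) (nat_lit 217) (nat_lit 5) (nat_lit 210) (nat_lit 5) (nat_lit 401) (nat_lit 373) (nat_lit 246)) (XT.nd (nat_lit 78) (nat_lit 76) (nat_lit 0) (XT.lf (nat_lit 0) (nat_lit 4672938998) (nat_lit 456) (nat_lit 10178576211) (nat_lit 532) (nat_lit 2450546387) (nat_lit 203) (nat_lit 5) (nat_lit 209) (nat_lit 5) (nat_lit 210) (nat_lit 5) (nat_lit 402) (nat_lit 373) (nat_lit 245)) (XT.lf (nat_lit 0) (nat_lit 137684) (nat_lit 532) (nat_lit 3100528552) (nat_lit 76) (nat_lit 14492851252) (nat_lit 202) (nat_lit 5) (nat_lit 209) (nat_lit 5) (nat_lit 203) (nat_lit 5) (nat_lit 403) (nat_lit 373) (nat_lit 244)))) (XT.nd (nat_lit 156) (nat_lit 912) (nat_lit 0) (XT.nd (nat_lit 78) (nat_lit 0) (nat_lit 0) (XT.lf (nat_lit 0) (nat_lit 2571407323) (nat_lit 608) (nat_lit 11121377916) (nat_lit 76) (nat_lit 4197317210) (nat_lit 195) (nat_lit 5) (nat_lit 203) (nat_lit 5)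 (nat_lit 196) (nat_lit 5) (nat_lit 404) (nat_lit 373) (nat_lit 243)) (XT.lf (nat_lit 0) (nat_lit 5272009013) (nat_lit 608) (nat_lit 1239684792) (nat_lit 76) (nat_lit 11682328086) (nat_lit 195) (nat_lit 5) (nat_lit 203) (nat_lit 5) (nat_lit 196) (nat_lit 5) (nat_lit 405) (nat_lit 373) (nat_lit 242))) (XT.nd (nat_lit 78) (nat_lit 456) (nat_lit 0) (XT.lf (nat_lit 0) (nat_lit 8140677750) (nat_lit 532) (nat_lit 9409265100) (nat_lit 76) (nat_lit 954507269) (nat_lit 189) (nat_lit 5) (nat_lit 196) (nat_lit 5) (nat_lit 190) (nat_lit 5) (nat_lit 406) (nat_lit 373) (nat_lit 241)) (XT.lf (nat_lit 0) (nat_lit 882859352) (nat_lit 456) (nat_lit 10288482182) (nat_lit 532) (nat_lit 7650574204) (nat_lit 183) (nat_lit 5) (nat_lit 189) (nat_lit 5) (nat_lit 190) (nat_lit 5) (nat_lit 407) (nat_lit 373) (nat_lit 240))))) (XT.nd (nat_lit 234) (nat_lit 836) (nat_lit 0) (XT.nd (nat_lit 78) (nat_lit 532) (nat_lit 0) (XT.lf (nat_lit 0) (nat_lit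 11665270838) (nat_lit 456) (nat_lit 2713175740) (nat_lit 532) (nat_lit 4767895625) (nat_lit 183) (nat_lit 5) (nat_lit 189) (nat_lit 5) (nat_lit 190) (nat_lit 5) (nat_lit 408) (nat_lit 373) (nat_lit 239)) (XT.nd (nat_lit 78) (nat_lit 76) (nat_lit 0) (XT.lf (nat_lit 0) (nat_lit 3294734838) (nat_lit 456) (nat_lit 14458388614) (nat_lit 532) (nat_lit 1725239694) (nat_lit 177) (nat_lit 5) (nat_lit 183) (nat_lit 5) (nat_lit 184) (nat_lit 5) (nat_lit 409) (nat_lit 373) (nat_lit 238)) (XT.lf (nat_lit 0) (nat_lit 1475197132) (nat_lit 532) (nat_lit 5323423097) (nat_lit 76) (nat_lit 13018500858) (nat_lit 176) (nat_lit 5) (nat_lit 183) (nat_lit 5) (nat_lit 177) (nat_lit 5) (nat_lit 410) (nat_lit 373) (nat_lit 237)))) (XT.nd (nat_lit 156) (nat_lit 380) (nat_lit 0) (XT.nd (nat_lit 78) (nat_lit 0) (nat_lit 0) (XT.lf (nat_lit 0) (nat_lit 4796475611) (nat_lit 532) (nat_lit 14224691340) (nat_lit 76) (nat_lit 1142579479) (nat_lit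 170) (nat_lit 5) (nat_lit 177) (nat_lit 5) (nat_lit 171) (nat_lit 5) (nat_lit 411) (nat_lit 373) (nat_lit 236)) (XT.lf (nat_lit 0) (nat_lit 8330228779) (nat_lit 532) (nat_lit 2949637271) (nat_lit 76) (nat_lit 9237521567) (nat_lit 170) (nat_lit 5) (nat_lit 177) (nat_lit 5) (nat_lit 171) (nat_lit 5) (nat_lit 412) (nat_lit 373) (nat_lit 235))) (XT.nd (nat_lit 78) (nat_lit 0) (nat_lit 0) (XT.lf (nat_lit 0) (nat_lit 8825035198) (nat_lit 380) (nat_lit 3221281164) (nat_lit 456) (nat_lit 8833034131) (nat_lit 165) (nat_lit 5) (nat_lit 170) (nat_lit 5) (nat_lit 171) (nat_lit 5) (nat_lit 413) (nat_lit 373) (nat_lit 234)) (XT.lf (nat_lit 0) (nat_lit 15944402144) (nat_lit 456) (nat_lit 297949503) (nat_lit 76) (nat_lit 5007707190) (nat_lit 165) (nat_lit 5) (nat_lit 171) (nat_lit 5) (nat_lit 166) (nat_lit 5) (nat_lit 414) (nat_lit 373) (nat_lit 233)))))) (XT.nd (nat_lit 546) (nat_lit 1672) (nat_lit 0) (XT.nd (nat_lit 234) (nat_lit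 760) (nat_lit 0) (XT.nd (nat_lit 78) (nat_lit 456) (nat_lit 0) (XT.lf (nat_lit 0) (nat_lit 12002784960) (nat_lit 380) (nat_lit 8095773898) (nat_lit 456) (nat_lit 1529157709) (nat_lit 160) (nat_lit 5) (nat_lit 165) (nat_lit 5) (nat_lit 166) (nat_lit 5) (nat_lit 415) (nat_lit 373) (nat_lit 232)) (XT.nd (nat_lit 78) (nat_lit 0) (nat_lit 0) (XT.lf (nat_lit 0) (nat_lit 2338614384) (nat_lit 456) (nat_lit 19337802278) (nat_lit 76) (nat_lit 338887205) (nat_lit 154) (nat_lit 5) (nat_lit 160) (nat_lit 5) (nat_lit 155) (nat_lit 5) (nat_lit 416) (nat_lit 373) (nat_lit 231)) (XT.lf (nat_lit 0) (nat_lit 6462015856) (nat_lit 456) (nat_lit 6972366808) (nat_lit 76) (nat_lit 8974573813) (nat_lit 154) (nat_lit 5) (nat_lit 160) (nat_lit 5) (nat_lit 155) (nat_lit 5) (nat_lit 417) (nat_lit 373) (nat_lit 230)))) (XT.nd (nat_lit 156) (nat_lit 380) (nat_lit 0) (XT.nd (nat_lit 78) (nat_lit 0) (nat_lit 0) (XT.lf (nat_lit 0) (nat_lit 5868038690)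 (nat_lit 380) (nat_lit 4889739658) (nat_lit 456) (nat_lit 12055182315) (nat_lit 149) (nat_lit 5) (nat_lit 154) (nat_lit 5) (nat_lit 155) (nat_lit 5) (nat_lit 418) (nat_lit 373) (nat_lit 229)) (XT.lf (nat_lit 0) (nat_lit 15283466172) (nat_lit 456) (nat_lit 4039284470) (nat_lit 76) (nat_lit 3903304473) (nat_lit 149) (nat_lit 5) (nat_lit 155) (nat_lit 5) (nat_lit 150) (nat_lit 5) (nat_lit 419) (nat_lit 373) (nat_lit 228))) (XT.nd (nat_lit 78) (nat_lit 76) (nat_lit 0) (XT.lf (nat_lit 0) (nat_lit 9377812145) (nat_lit 304) (nat_lit 10698244674) (nat_lit 380) (nat_lit 3571553280) (nat_lit 145) (nat_lit 5) (nat_lit 149) (nat_lit 5) (nat_lit 150) (nat_lit 5) (nat_lit 420) (nat_lit 373) (nat_lit 227)) (XT.lf (nat_lit 0) (nat_lit 946264591) (nat_lit 380) (nat_lit 820053741) (nat_lit 76) (nat_lit 22314212278) (nat_lit 144) (nat_lit 5) (nat_lit 149) (nat_lit 5) (nat_lit 145) (nat_lit 5) (nat_lit 421) (nat_lit 373) (nat_lit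 226))))) (XT.nd (nat_lit 312) (nat_lit 684) (nat_lit 0) (XT.nd (nat_lit 156) (nat_lit 304) (nat_lit 0) (XT.nd (nat_lit 78) (nat_lit 304) (nat_lit 0) (XT.lf (nat_lit 0) (nat_lit 5721035790) (nat_lit 456) (nat_lit 11348548540) (nat_lit 76) (nat_lit 7449998970) (nat_lit 139) (nat_lit 5) (nat_lit 145) (nat_lit 5) (nat_lit 140) (nat_lit 5) (nat_lit 422) (nat_lit 373) (nat_lit 225)) (XT.lf (nat_lit 0) (nat_lit 2651145152) (nat_lit 304) (nat_lit 8032159149) (nat_lit 380) (nat_lit 14287177123) (nat_lit 135) (nat_lit 5) (nat_lit 139) (nat_lit 5) (nat_lit 140) (nat_lit 5) (nat_lit 423) (nat_lit 373) (nat_lit 224))) (XT.nd (nat_lit 78) (nat_lit 304) (nat_lit 0) (XT.lf (nat_lit 0) (nat_lit 15915442069) (nat_lit 380) (nat_lit 8151615823) (nat_lit 76) (nat_lit 1364220000) (nat_lit 135) (nat_lit 5) (nat_lit 140) (nat_lit 5) (nat_lit 136) (nat_lit 5) (nat_lit 424) (nat_lit 373) (nat_lit 223)) (XT.lf (nat_lit 0) (nat_lit 6478111509)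 (nat_lit 304) (nat_lit 14961433318) (nat_lit 380) (nat_lit 4462304795) (nat_lit 131) (nat_lit 5) (nat_lit 135) (nat_lit 5) (nat_lit 136) (nat_lit 5) (nat_lit 425) (nat_lit 373) (nat_lit 222)))) (XT.nd (nat_lit 156) (nat_lit 304) (nat_lit 0) (XT.nd (nat_lit 78) (nat_lit 304) (nat_lit 0) (XT.lf (nat_lit 0) (nat_lit 804706180) (nat_lit 380) (nat_lit 4688142221) (nat_lit 76) (nat_lit 20891186120) (nat_lit 130) (nat_lit 5) (nat_lit 135) (nat_lit 5) (nat_lit 131) (nat_lit 5) (nat_lit 426) (nat_lit 373) (nat_lit 221)) (XT.lf (nat_lit 0) (nat_lit 6278154525) (nat_lit 380) (nat_lit 16275484635) (nat_lit 76) (nat_lit 4321578197) (nat_lit 126) (nat_lit 5) (nat_lit 131) (nat_lit 5) (nat_lit 127) (nat_lit 5) (nat_lit 427) (nat_lit 373) (nat_lit 220))) (XT.nd (nat_lit 78) (nat_lit 304) (nat_lit 0) (XT.lf (nat_lit 0) (nat_lit 12011506118) (nat_lit 380) (nat_lit 1001951924) (nat_lit 76) (nat_lit 14364807882) (nat_lit 126) (nat_lit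 5) (nat_lit 131) (nat_lit 5) (nat_lit 127) (nat_lit 5) (nat_lit 428) (nat_lit 373) (nat_lit 219)) (XT.lf (nat_lit 0) (nat_lit 15013304442) (nat_lit 304) (nat_lit 3041565437) (nat_lit 380) (nat_lit 9837396923) (nat_lit 122) (nat_lit 5) (nat_lit 126) (nat_lit 5) (nat_lit 127) (nat_lit 5) (nat_lit 429) (nat_lit 373) (nat_lit 218))))))))
noncomputable def xc177 : XT := (XT.nd (nat_lit 2262) (nat_lit 2280) (nat_lit 0) (XT.nd (nat_lit 1092) (nat_lit 1672) (nat_lit 0) (XT.nd (nat_lit 546) (nat_lit 988) (nat_lit 0) (XT.nd (nat_lit 234) (nat_lit 532) (nat_lit 0) (XT.nd (nat_lit 78) (nat_lit 380) (nat_lit 0) (XT.lf (nat_lit 0) (nat_lit 3089352676) (nat_lit 228) (nat_lit 21293348872) (nat_lit 304) (nat_lit 4035892315) (nat_lit 119) (nat_lit 5) (nat_lit 122) (nat_lit 5) (nat_lit 123) (nat_lit 5) (nat_lit 430) (nat_lit 373) (nat_lit 217)) (XT.nd (nat_lit 78) (nat_lit 304) (nat_lit 0) (XT.lf (nat_lit 0) (nat_lit 2057049516)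 (nat_lit 304) (nat_lit 9215675418) (nat_lit 76) (nat_lit 17682770295) (nat_lit 118) (nat_lit 5) (nat_lit 122) (nat_lit 5) (nat_lit 119) (nat_lit 5) (nat_lit 431) (nat_lit 373) (nat_lit 216)) (XT.lf (nat_lit 0) (nat_lit 7477996381) (nat_lit 304) (nat_lit 839517175) (nat_lit 380) (nat_lit 21187816826) (nat_lit 114) (nat_lit 5) (nat_lit 118) (nat_lit 5) (nat_lit 119) (nat_lit 5) (nat_lit 432) (nat_lit 373) (nat_lit 215)))) (XT.nd (nat_lit 156) (nat_lit 304) (nat_lit 0) (XT.nd (nat_lit 78) (nat_lit 228) (nat_lit 0) (XT.lf (nat_lit 0) (nat_lit 14949027067) (nat_lit 380) (nat_lit 5312950412) (nat_lit 76) (nat_lit 9804187081) (nat_lit 114) (nat_lit 5) (nat_lit 119) (nat_lit 5) (nat_lit 115) (nat_lit 5) (nat_lit 433) (nat_lit 373) (nat_lit 214)) (XT.lf (nat_lit 0) (nat_lit 12122047190) (nat_lit 228) (nat_lit 9776474188) (nat_lit 304) (nat_lit 8741732332) (nat_lit 111) (nat_lit 5) (nat_lit 114) (nat_lit 5) (nat_lit 115)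 (nat_lit 5) (nat_lit 434) (nat_lit 373) (nat_lit 213))) (XT.nd (nat_lit 78) (nat_lit 304) (nat_lit 0) (XT.lf (nat_lit 0) (nat_lit 29114771967) (nat_lit 304) (nat_lit 1060424503) (nat_lit 76) (nat_lit 1054621899) (nat_lit 111) (nat_lit 5) (nat_lit 115) (nat_lit 5) (nat_lit 112) (nat_lit 5) (nat_lit 435) (nat_lit 373) (nat_lit 212)) (XT.lf (nat_lit 0) (nat_lit 4877128998) (nat_lit 304) (nat_lit 14727086729) (nat_lit 76) (nat_lit 12223738577) (nat_lit 107) (nat_lit 5) (nat_lit 111) (nat_lit 5) (nat_lit 108) (nat_lit 5) (nat_lit 436) (nat_lit 373) (nat_lit 211))))) (XT.nd (nat_lit 234) (nat_lit 532) (nat_lit 0) (XT.nd (nat_lit 78) (nat_lit 228) (nat_lit 0) (XT.lf (nat_lit 0) (nat_lit 3421886642) (nat_lit 228) (nat_lit 8652821168) (nat_lit 304) (nat_lit 20367554715) (nat_lit 104) (nat_lit 5) (nat_lit 107) (nat_lit 5) (nat_lit 108) (nat_lit 5) (nat_lit 437) (nat_lit 373) (nat_lit 210)) (XT.nd (nat_lit 78) (nat_lit 228)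 (nat_lit 0) (XT.lf (nat_lit 0) (nat_lit 19658141428) (nat_lit 304) (nat_lit 10688953741) (nat_lit 76) (nat_lit 2722807870) (nat_lit 104) (nat_lit 5) (nat_lit 108) (nat_lit 5) (nat_lit 105) (nat_lit 5) (nat_lit 438) (nat_lit 373) (nat_lit 209)) (XT.lf (nat_lit 0) (nat_lit 8259257546) (nat_lit 228) (nat_lit 19369532495) (nat_lit 304) (nat_lit 6082792211) (nat_lit 101) (nat_lit 5) (nat_lit 104) (nat_lit 5) (nat_lit 105) (nat_lit 5) (nat_lit 439) (nat_lit 373) (nat_lit 208)))) (XT.nd (nat_lit 156) (nat_lit 228) (nat_lit 0) (XT.nd (nat_lit 78) (nat_lit 228) (nat_lit 0) (XT.lf (nat_lit 0) (nat_lit 1541112540) (nat_lit 304) (nat_lit 6398078691) (nat_lit 76) (nat_lit 26429788408) (nat_lit 100) (nat_lit 5) (nat_lit 104) (nat_lit 5) (nat_lit 101) (nat_lit 5) (nat_lit 440) (nat_lit 373) (nat_lit 207)) (XT.lf (nat_lit 0) (nat_lit 9434008654) (nat_lit 304) (nat_lit 21658233201) (nat_lit 76) (nat_lit 3947175123) (nat_lit 97)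 (nat_lit 5) (nat_lit 101) (nat_lit 5) (nat_lit 98) (nat_lit 5) (nat_lit 441) (nat_lit 373) (nat_lit 206))) (XT.nd (nat_lit 78) (nat_lit 228) (nat_lit 0) (XT.lf (nat_lit 0) (nat_lit 17702408075) (nat_lit 304) (nat_lit 1930756020) (nat_lit 76) (nat_lit 16092642598) (nat_lit 97) (nat_lit 5) (nat_lit 101) (nat_lit 5) (nat_lit 98) (nat_lit 5) (nat_lit 442) (nat_lit 373) (nat_lit 205)) (XT.lf (nat_lit 0) (nat_lit 18746136779) (nat_lit 228) (nat_lit 7647934499) (nat_lit 304) (nat_lit 10033461197) (nat_lit 94) (nat_lit 5) (nat_lit 97) (nat_lit 5) (nat_lit 98) (nat_lit 5) (nat_lit 443) (nat_lit 373) (nat_lit 204)))))) (XT.nd (nat_lit 546) (nat_lit 760) (nat_lit 0) (XT.nd (nat_lit 234) (nat_lit 456) (nat_lit 0) (XT.nd (nat_lit 78) (nat_lit 304) (nat_lit 0) (XT.lf (nat_lit 0) (nat_lit 2936907162) (nat_lit 152) (nat_lit 32497696140) (nat_lit 228) (nat_lit 1713063866) (nat_lit 92) (nat_lit 5) (nat_lit 94) (nat_lit 5) (nat_lit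 95) (nat_lit 5) (nat_lit 444) (nat_lit 373) (nat_lit 203)) (XT.nd (nat_lit 78) (nat_lit 228) (nat_lit 0) (XT.lf (nat_lit 0) (nat_lit 6974244342) (nat_lit 228) (nat_lit 13499510424) (nat_lit 76) (nat_lit 17406141328) (nat_lit 91) (nat_lit 5) (nat_lit 94) (nat_lit 5) (nat_lit 92) (nat_lit 5) (nat_lit 445) (nat_lit 373) (nat_lit 202)) (XT.lf (nat_lit 0) (nat_lit 7963484450) (nat_lit 228) (nat_lit 7996015388) (nat_lit 304) (nat_lit 22671931099) (nat_lit 88) (nat_lit 5) (nat_lit 91) (nat_lit 5) (nat_lit 92) (nat_lit 5) (nat_lit 446) (nat_lit 373) (nat_lit 201)))) (XT.nd (nat_lit 156) (nat_lit 304) (nat_lit 0) (XT.nd (nat_lit 78) (nat_lit 152) (nat_lit 0) (XT.lf (nat_lit 0) (nat_lit 25393901871) (nat_lit 304) (nat_lit 9110415670) (nat_lit 76) (nat_lit 4895807243) (nat_lit 88) (nat_lit 5) (nat_lit 92) (nat_lit 5) (nat_lit 89) (nat_lit 5) (nat_lit 447) (nat_lit 373) (nat_lit 200)) (XT.lf (nat_lit 0) (nat_lit 13265708894)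 (nat_lit 152) (nat_lit 22047693470) (nat_lit 228) (nat_lit 4872415702) (nat_lit 86) (nat_lit 5) (nat_lit 88) (nat_lit 5) (nat_lit 89) (nat_lit 5) (nat_lit 448) (nat_lit 373) (nat_lit 199))) (XT.nd (nat_lit 78) (nat_lit 228) (nat_lit 0) (XT.lf (nat_lit 0) (nat_lit 4535205997) (nat_lit 228) (nat_lit 4544799387) (nat_lit 76) (nat_lit 31911120351) (nat_lit 85) (nat_lit 5) (nat_lit 88) (nat_lit 5) (nat_lit 86) (nat_lit 5) (nat_lit 449) (nat_lit 373) (nat_lit 198)) (XT.lf (nat_lit 0) (nat_lit 14346844600) (nat_lit 304) (nat_lit 23044177949) (nat_lit 76) (nat_lit 4421531823) (nat_lit 82) (nat_lit 5) (nat_lit 86) (nat_lit 5) (nat_lit 83) (nat_lit 5) (nat_lit 450) (nat_lit 373) (nat_lit 197))))) (XT.nd (nat_lit 312) (nat_lit 380) (nat_lit 0) (XT.nd (nat_lit 156) (nat_lit 228) (nat_lit 0) (XT.nd (nat_lit 78) (nat_lit 0) (nat_lit 0) (XT.lf (nat_lit 0) (nat_lit 121231709) (nat_lit 152) (nat_lit 24464571079) (nat_lit 228) (nat_lit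 18068834508) (nat_lit 80) (nat_lit 5) (nat_lit 82) (nat_lit 5) (nat_lit 83) (nat_lit 5) (nat_lit 451) (nat_lit 373) (nat_lit 196)) (XT.lf (nat_lit 0) (nat_lit 24446420720) (nat_lit 152) (nat_lit 10913822798) (nat_lit 228) (nat_lit 8154890302) (nat_lit 80) (nat_lit 5) (nat_lit 82) (nat_lit 5) (nat_lit 83) (nat_lit 5) (nat_lit 452) (nat_lit 373) (nat_lit 195))) (XT.nd (nat_lit 78) (nat_lit 0) (nat_lit 0) (XT.lf (nat_lit 0) (nat_lit 2091687019) (nat_lit 228) (nat_lit 39255725869) (nat_lit 76) (nat_lit 3051179484) (nat_lit 77) (nat_lit 5) (nat_lit 80) (nat_lit 5) (nat_lit 78) (nat_lit 5) (nat_lit 453) (nat_lit 373) (nat_lit 194)) (XT.lf (nat_lit 0) (nat_lit 12779999755) (nat_lit 228) (nat_lit 15029257084) (nat_lit 76) (nat_lit 17487928780) (nat_lit 77) (nat_lit 5) (nat_lit 80) (nat_lit 5) (nat_lit 78) (nat_lit 5) (nat_lit 454) (nat_lit 373) (nat_lit 193)))) (XT.nd (nat_lit 156) (nat_lit 228) (nat_lit 0) (XT.nd (nat_lit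 78) (nat_lit 0) (nat_lit 0) (XT.lf (nat_lit 0) (nat_lit 10114129165) (nat_lit 152) (nat_lit 13767903041) (nat_lit 228) (nat_lit 22337912814) (nat_lit 75) (nat_lit 5) (nat_lit 77) (nat_lit 5) (nat_lit 78) (nat_lit 5) (nat_lit 455) (nat_lit 373) (nat_lit 192)) (XT.lf (nat_lit 0) (nat_lit 35472941786) (nat_lit 228) (nat_lit 10861375316) (nat_lit 76) (nat_lit 831396072) (nat_lit 75) (nat_lit 5) (nat_lit 78) (nat_lit 5) (nat_lit 76) (nat_lit 5) (nat_lit 456) (nat_lit 373) (nat_lit 191))) (XT.nd (nat_lit 78) (nat_lit 76) (nat_lit 0) (XT.lf (nat_lit 0) (nat_lit 15295501735) (nat_lit 152) (nat_lit 32395412501) (nat_lit 228) (nat_lit 440560507) (nat_lit 73) (nat_lit 5) (nat_lit 75) (nat_lit 5) (nat_lit 76) (nat_lit 5) (nat_lit 457) (nat_lit 373) (nat_lit 190)) (XT.lf (nat_lit 0) (nat_lit 11038419888) (nat_lit 228) (nat_lit 6778507232) (nat_lit 76) (nat_lit 31302864324) (nat_lit 72) (nat_lit 5) (nat_lit 75) (nat_lit 5) (nat_lit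 73) (nat_lit 5) (nat_lit 458) (nat_lit 373) (nat_lit 189))))))) (XT.nd (nat_lit 1092) (nat_lit 912) (nat_lit 0) (XT.nd (nat_lit 546) (nat_lit 684) (nat_lit 0) (XT.nd (nat_lit 234) (nat_lit 380) (nat_lit 0) (XT.nd (nat_lit 78) (nat_lit 152) (nat_lit 0) (XT.lf (nat_lit 0) (nat_lit 20448487815) (nat_lit 152) (nat_lit 2597106973) (nat_lit 228) (nat_lit 27086252006) (nat_lit 70) (nat_lit 5) (nat_lit 72) (nat_lit 5) (nat_lit 73) (nat_lit 5) (nat_lit 459) (nat_lit 373) (nat_lit 188)) (XT.nd (nat_lit 78) (nat_lit 152) (nat_lit 0) (XT.lf (nat_lit 0) (nat_lit 35603974599) (nat_lit 228) (nat_lit 2674245088) (nat_lit 76) (nat_lit 12890314817) (nat_lit 70) (nat_lit 5) (nat_lit 73) (nat_lit 5) (nat_lit 71) (nat_lit 5) (nat_lit 460) (nat_lit 373) (nat_lit 187)) (XT.lf (nat_lit 0) (nat_lit 25612545364) (nat_lit 152) (nat_lit 23194726372) (nat_lit 228) (nat_lit 3421006511) (nat_lit 68) (nat_lit 5) (nat_lit 70) (nat_lit 5) (nat_lit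 71) (nat_lit 5) (nat_lit 461) (nat_lit 373) (nat_lit 186)))) (XT.nd (nat_lit 156) (nat_lit 152) (nat_lit 0) (XT.nd (nat_lit 78) (nat_lit 0) (nat_lit 0) (XT.lf (nat_lit 0) (nat_lit 1417106521) (nat_lit 152) (nat_lit 7529581039) (nat_lit 228) (nat_lit 44369392109) (nat_lit 65) (nat_lit 5) (nat_lit 67) (nat_lit 5) (nat_lit 68) (nat_lit 5) (nat_lit 462) (nat_lit 373) (nat_lit 185)) (XT.lf (nat_lit 0) (nat_lit 21967077399) (nat_lit 228) (nat_lit 23717881480) (nat_lit 76) (nat_lit 8740027749) (nat_lit 65) (nat_lit 5) (nat_lit 68) (nat_lit 5) (nat_lit 66) (nat_lit 5) (nat_lit 463) (nat_lit 373) (nat_lit 184))) (XT.nd (nat_lit 78) (nat_lit 0) (nat_lit 0) (XT.lf (nat_lit 0) (nat_lit 5331624085) (nat_lit 152) (nat_lit 30168639003) (nat_lit 228) (nat_lit 20063232521) (nat_lit 63) (nat_lit 5) (nat_lit 65) (nat_lit 5) (nat_lit 66) (nat_lit 5) (nat_lit 464) (nat_lit 373) (nat_lit 183)) (XT.lf (nat_lit 0) (nat_lit 35732364201)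 (nat_lit 152) (nat_lit 13943010665) (nat_lit 228) (nat_lit 7053707404) (nat_lit 63) (nat_lit 5) (nat_lit 65) (nat_lit 5) (nat_lit 66) (nat_lit 5) (nat_lit 465) (nat_lit 373) (nat_lit 182))))) (XT.nd (nat_lit 234) (nat_lit 304) (nat_lit 0) (XT.nd (nat_lit 78) (nat_lit 152) (nat_lit 0) (XT.lf (nat_lit 0) (nat_lit 6335547621) (nat_lit 228) (nat_lit 48725089640) (nat_lit 76) (nat_lit 2863771115) (nat_lit 60) (nat_lit 5) (nat_lit 63) (nat_lit 5) (nat_lit 61) (nat_lit 5) (nat_lit 466) (nat_lit 373) (nat_lit 181)) (XT.nd (nat_lit 78) (nat_lit 152) (nat_lit 0) (XT.lf (nat_lit 0) (nat_lit 20333393076) (nat_lit 228) (nat_lit 18633913781) (nat_lit 76) (nat_lit 20175731989) (nat_lit 60) (nat_lit 5) (nat_lit 63) (nat_lit 5) (nat_lit 61) (nat_lit 5) (nat_lit 467) (nat_lit 373) (nat_lit 180)) (XT.lf (nat_lit 0) (nat_lit 12599706199) (nat_lit 152) (nat_lit 22269196163) (nat_lit 228) (nat_lit 25525794304) (nat_lit 58) (nat_lit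 5) (nat_lit 60) (nat_lit 5) (nat_lit 61) (nat_lit 5) (nat_lit 468) (nat_lit 373) (nat_lit 179)))) (XT.nd (nat_lit 156) (nat_lit 152) (nat_lit 0) (XT.nd (nat_lit 78) (nat_lit 152) (nat_lit 0) (XT.lf (nat_lit 0) (nat_lit 45146215301) (nat_lit 152) (nat_lit 4879080069) (nat_lit 228) (nat_lit 11653064581) (nat_lit 58) (nat_lit 5) (nat_lit 60) (nat_lit 5) (nat_lit 61) (nat_lit 5) (nat_lit 469) (nat_lit 373) (nat_lit 178)) (XT.lf (nat_lit 0) (nat_lit 2861457627) (nat_lit 152) (nat_lit 47173817078) (nat_lit 76) (nat_lit 12956187211) (nat_lit 56) (nat_lit 5) (nat_lit 58) (nat_lit 5) (nat_lit 57) (nat_lit 5) (nat_lit 470) (nat_lit 373) (nat_lit 177))) (XT.nd (nat_lit 78) (nat_lit 152) (nat_lit 0) (XT.lf (nat_lit 0) (nat_lit 17790833671) (nat_lit 152) (nat_lit 15033462990) (nat_lit 76) (nat_lit 31509790233) (nat_lit 56) (nat_lit 5) (nat_lit 58) (nat_lit 5) (nat_lit 57) (nat_lit 5) (nat_lit 471) (nat_lit 373) (nat_lit 176))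 (XT.lf (nat_lit 0) (nat_lit 18424813284) (nat_lit 152) (nat_lit 14917213887) (nat_lit 228) (nat_lit 32369745616) (nat_lit 54) (nat_lit 5) (nat_lit 56) (nat_lit 5) (nat_lit 57) (nat_lit 5) (nat_lit 472) (nat_lit 373) (nat_lit 175)))))) (XT.nd (nat_lit 546) (nat_lit 456) (nat_lit 0) (XT.nd (nat_lit 234) (nat_lit 304) (nat_lit 0) (XT.nd (nat_lit 78) (nat_lit 152) (nat_lit 0) (XT.lf (nat_lit 0) (nat_lit 49543809862) (nat_lit 228) (nat_lit 13972468338) (nat_lit 76) (nat_lit 3608989699) (nat_lit 54) (nat_lit 5) (nat_lit 57) (nat_lit 5) (nat_lit 55) (nat_lit 4) (nat_lit 473) (nat_lit 373) (nat_lit 174)) (XT.nd (nat_lit 78) (nat_lit 76) (nat_lit 0) (XT.lf (nat_lit 0) (nat_lit 20589880128) (nat_lit 76) (nat_lit 45984313098) (nat_lit 152) (nat_lit 1996698461) (nat_lit 53) (nat_lit 5) (nat_lit 54) (nat_lit 5) (nat_lit 55) (nat_lit 4) (nat_lit 474) (nat_lit 373) (nat_lit 173)) (XT.lf (nat_lit 0) (nat_lit 13920754672) (nat_lit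 152) (nat_lit 13722309096) (nat_lit 76) (nat_lit 42408584524) (nat_lit 52) (nat_lit 5) (nat_lit 54) (nat_lit 5) (nat_lit 53) (nat_lit 5) (nat_lit 475) (nat_lit 373) (nat_lit 172)))) (XT.nd (nat_lit 156) (nat_lit 152) (nat_lit 0) (XT.nd (nat_lit 78) (nat_lit 0) (nat_lit 0) (XT.lf (nat_lit 0) (nat_lit 21967545594) (nat_lit 152) (nat_lit 8516243629) (nat_lit 228) (nat_lit 41086199825) (nat_lit 50) (nat_lit 5) (nat_lit 52) (nat_lit 5) (nat_lit 53) (nat_lit 5) (nat_lit 476) (nat_lit 373) (nat_lit 171)) (XT.lf (nat_lit 0) (nat_lit 47788200454) (nat_lit 228) (nat_lit 14234732098) (nat_lit 76) (nat_lit 11103613116) (nat_lit 50) (nat_lit 5) (nat_lit 53) (nat_lit 5) (nat_lit 51) (nat_lit 4) (nat_lit 477) (nat_lit 373) (nat_lit 170))) (XT.nd (nat_lit 78) (nat_lit 76) (nat_lit 0) (XT.lf (nat_lit 0) (nat_lit 22544255788) (nat_lit 76) (nat_lit 43365637188) (nat_lit 152) (nat_lit 8810961746) (nat_lit 49) (nat_lit 5) (nat_lit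 50) (nat_lit 5) (nat_lit 51) (nat_lit 4) (nat_lit 478) (nat_lit 373) (nat_lit 169)) (XT.lf (nat_lit 0) (nat_lit 8194283912) (nat_lit 152) (nat_lit 15725993805) (nat_lit 76) (nat_lit 52436078556) (nat_lit 48) (nat_lit 5) (nat_lit 50) (nat_lit 5) (nat_lit 49) (nat_lit 5) (nat_lit 479) (nat_lit 373) (nat_lit 168))))) (XT.nd (nat_lit 312) (nat_lit 228) (nat_lit 0) (XT.nd (nat_lit 156) (nat_lit 76) (nat_lit 0) (XT.nd (nat_lit 78) (nat_lit 0) (nat_lit 0) (XT.lf (nat_lit 0) (nat_lit 22158072042) (nat_lit 152) (nat_lit 3584729022) (nat_lit 228) (nat_lit 52289198705) (nat_lit 46) (nat_lit 5) (nat_lit 48) (nat_lit 5) (nat_lit 49) (nat_lit 5) (nat_lit 480) (nat_lit 373) (nat_lit 167)) (XT.lf (nat_lit 0) (nat_lit 44142248727) (nat_lit 228) (nat_lit 18425789872) (nat_lit 76) (nat_lit 17180139900) (nat_lit 46) (nat_lit 5) (nat_lit 49) (nat_lit 5) (nat_lit 47) (nat_lit 4) (nat_lit 481) (nat_lit 373) (nat_lit 166))) (XT.nd (nat_lit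 78) (nat_lit 0) (nat_lit 0) (XT.lf (nat_lit 0) (nat_lit 20505372331) (nat_lit 76) (nat_lit 42818208624) (nat_lit 152) (nat_lit 18185364780) (nat_lit 45) (nat_lit 5) (nat_lit 46) (nat_lit 5) (nat_lit 47) (nat_lit 4) (nat_lit 482) (nat_lit 373) (nat_lit 165)) (XT.lf (nat_lit 0) (nat_lit 60977168558) (nat_lit 76) (nat_lit 22286578035) (nat_lit 152) (nat_lit 53287762) (nat_lit 45) (nat_lit 5) (nat_lit 46) (nat_lit 5) (nat_lit 47) (nat_lit 4) (nat_lit 483) (nat_lit 373) (nat_lit 164)))) (XT.nd (nat_lit 44538) (nat_lit 0) (nat_lit 17632) (XT.nd (nat_lit 78) (nat_lit 0) (nat_lit 0) (XT.lf (nat_lit 0) (nat_lit 17644122343) (nat_lit 152) (nat_lit 782219410) (nat_lit 228) (nat_lit 66742644029) (nat_lit 42) (nat_lit 5) (nat_lit 44) (nat_lit 5) (nat_lit 45) (nat_lit 5) (nat_lit 484) (nat_lit 373) (nat_lit 163)) (XT.lf (nat_lit 0) (nat_lit 37889895393) (nat_lit 228) (nat_lit 27997234535) (nat_lit 76) (nat_lit 21176431965) (nat_lit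 42) (nat_lit 5) (nat_lit 45) (nat_lit 5) (nat_lit 43) (nat_lit 4) (nat_lit 485) (nat_lit 373) (nat_lit 162))) (XT.nd (nat_lit 78) (nat_lit 0) (nat_lit 0) (XT.lf (nat_lit 0) (nat_lit 743139082) (nat_lit 0) (nat_lit 743139082) (nat_lit 1140) (nat_lit 4248297172) (nat_lit 274) (nat_lit 5) (nat_lit 274) (nat_lit 3) (nat_lit 289) (nat_lit 3) (nat_lit 374) (nat_lit 374) (nat_lit 272)) (XT.lf (nat_lit 0) (nat_lit 3570592460) (nat_lit 1140) (nat_lit 4436580302) (nat_lit 1216) (nat_lit 3617235461) (nat_lit 274) (nat_lit 5) (nat_lit 289) (nat_lit 3) (nat_lit 290) (nat_lit 5) (nat_lit 375) (nat_lit 374) (nat_lit 271))))))))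
noncomputable def xc178 : XT := (XT.nd (nat_lit 2262) (nat_lit 6688) (nat_lit 0) (XT.nd (nat_lit 1092) (nat_lit 4636) (nat_lit 0) (XT.nd (nat_lit 546) (nat_lit 836) (nat_lit 0) (XT.nd (nat_lit 234) (nat_lit 0) (nat_lit 152) (XT.nd (nat_lit 78) (nat_lit 0) (nat_lit 76) (XT.lf (nat_lit 76) (nat_lit 1275455522) (nat_lit 0) (nat_lit 2917971904) (nat_lit 1216) (nat_lit 7590697219) (nat_lit 275) (nat_lit 5) (nat_lit 274) (nat_lit 5) (nat_lit 290) (nat_lit 5) (nat_lit 376) (nat_lit 374) (nat_lit 270)) (XT.nd (nat_lit 78) (nat_lit 0) (nat_lit 0) (XT.lf (nat_lit 0) (nat_lit 4882981015) (nat_lit 1140) (nat_lit 4731666645) (nat_lit 1216) (nat_lit 2332550574) (nat_lit 275) (nat_lit 5) (nat_lit 290) (nat_lit 5) (nat_lit 291) (nat_lit 5) (nat_lit 377) (nat_lit 374) (nat_lit 269)) (XT.lf (nat_lit 76) (nat_lit 1202151552) (nat_lit 0) (nat_lit 4412536130) (nat_lit 1216) (nat_lit 6499838839) (nat_lit 276) (nat_lit 5) (nat_lit 275)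 (nat_lit 5) (nat_lit 291) (nat_lit 5) (nat_lit 378) (nat_lit 374) (nat_lit 268)))) (XT.nd (nat_lit 156) (nat_lit 0) (nat_lit 0) (XT.nd (nat_lit 78) (nat_lit 0) (nat_lit 0) (XT.lf (nat_lit 0) (nat_lit 6407229470) (nat_lit 1140) (nat_lit 4895614081) (nat_lit 1216) (nat_lit 982870883) (nat_lit 276) (nat_lit 5) (nat_lit 291) (nat_lit 5) (nat_lit 292) (nat_lit 5) (nat_lit 379) (nat_lit 374) (nat_lit 267)) (XT.lf (nat_lit 76) (nat_lit 1271522132) (nat_lit 0) (nat_lit 5990014399) (nat_lit 1216) (nat_lit 5199367897) (nat_lit 277) (nat_lit 5) (nat_lit 276) (nat_lit 5) (nat_lit 292) (nat_lit 5) (nat_lit 380) (nat_lit 374) (nat_lit 266))) (XT.nd (nat_lit 78) (nat_lit 0) (nat_lit 76) (XT.lf (nat_lit 76) (nat_lit 7712887023) (nat_lit 0) (nat_lit 460514689) (nat_lit 1216) (nat_lit 4466996476) (nat_lit 277) (nat_lit 5) (nat_lit 276) (nat_lit 5) (nat_lit 292) (nat_lit 5) (nat_lit 381) (nat_lit 374) (nat_lit 265)) (XT.lf (nat_lit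 76) (nat_lit 1489570914) (nat_lit 0) (nat_lit 7670753516) (nat_lit 1216) (nat_lit 3663527045) (nat_lit 278) (nat_lit 5) (nat_lit 277) (nat_lit 5) (nat_lit 293) (nat_lit 5) (nat_lit 382) (nat_lit 374) (nat_lit 264))))) (XT.nd (nat_lit 234) (nat_lit 1064) (nat_lit 0) (XT.nd (nat_lit 78) (nat_lit 0) (nat_lit 76) (XT.lf (nat_lit 76) (nat_lit 8184244681) (nat_lit 0) (nat_lit 2030330248) (nat_lit 1216) (nat_lit 2797107422) (nat_lit 278) (nat_lit 5) (nat_lit 277) (nat_lit 5) (nat_lit 293) (nat_lit 5) (nat_lit 383) (nat_lit 374) (nat_lit 263)) (XT.nd (nat_lit 78) (nat_lit 0) (nat_lit 0) (XT.lf (nat_lit 76) (nat_lit 1863150419) (nat_lit 0) (nat_lit 9475519653) (nat_lit 1216) (nat_lit 1865336998) (nat_lit 279) (nat_lit 5) (nat_lit 278) (nat_lit 5) (nat_lit 294) (nat_lit 5) (nat_lit 384) (nat_lit 374) (nat_lit 262)) (XT.lf (nat_lit 76) (nat_lit 8821536299) (nat_lit 0) (nat_lit 3727940315) (nat_lit 1216) (nat_lit 851040533)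 (nat_lit 279) (nat_lit 5) (nat_lit 278) (nat_lit 5) (nat_lit 294) (nat_lit 5) (nat_lit 385) (nat_lit 374) (nat_lit 261)))) (XT.nd (nat_lit 156) (nat_lit 0) (nat_lit 76) (XT.nd (nat_lit 78) (nat_lit 0) (nat_lit 0) (XT.lf (nat_lit 0) (nat_lit 219160573) (nat_lit 1216) (nat_lit 11204240653) (nat_lit 1292) (nat_lit 2178592758) (nat_lit 263) (nat_lit 5) (nat_lit 279) (nat_lit 5) (nat_lit 280) (nat_lit 5) (nat_lit 386) (nat_lit 374) (nat_lit 260)) (XT.lf (nat_lit 0) (nat_lit 1372981570) (nat_lit 1216) (nat_lit 4188003298) (nat_lit 1292) (nat_lit 8246223732) (nat_lit 263) (nat_lit 5) (nat_lit 279) (nat_lit 5) (nat_lit 280) (nat_lit 5) (nat_lit 387) (nat_lit 374) (nat_lit 259))) (XT.nd (nat_lit 78) (nat_lit 0) (nat_lit 0) (XT.lf (nat_lit 0) (nat_lit 2581457865) (nat_lit 1216) (nat_lit 10935465338) (nat_lit 1292) (nat_lit 501059915) (nat_lit 264) (nat_lit 5) (nat_lit 280) (nat_lit 5) (nat_lit 281) (nat_lit 5) (nat_lit 388)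 (nat_lit 374) (nat_lit 258)) (XT.lf (nat_lit 0) (nat_lit 3909749456) (nat_lit 1216) (nat_lit 3644027433) (nat_lit 1292) (nat_lit 6678801703) (nat_lit 264) (nat_lit 5) (nat_lit 280) (nat_lit 5) (nat_lit 281) (nat_lit 5) (nat_lit 389) (nat_lit 374) (nat_lit 257)))))) (XT.nd (nat_lit 546) (nat_lit 2204) (nat_lit 0) (XT.nd (nat_lit 234) (nat_lit 1368) (nat_lit 0) (XT.nd (nat_lit 78) (nat_lit 1140) (nat_lit 0) (XT.lf (nat_lit 76) (nat_lit 3931471004) (nat_lit 0) (nat_lit 1370416716) (nat_lit 1292) (nat_lit 9151008685) (nat_lit 265) (nat_lit 5) (nat_lit 264) (nat_lit 5) (nat_lit 281) (nat_lit 5) (nat_lit 390) (nat_lit 374) (nat_lit 256)) (XT.nd (nat_lit 78) (nat_lit 1216) (nat_lit 0) (XT.lf (nat_lit 0) (nat_lit 6807520847) (nat_lit 1216) (nat_lit 2929917453) (nat_lit 76) (nat_lit 4940237820) (nat_lit 265) (nat_lit 5) (nat_lit 281) (nat_lit 5) (nat_lit 266) (nat_lit 5) (nat_lit 391) (nat_lit 374) (nat_lit 255)) (XT.lf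 (nat_lit 0) (nat_lit 4961200895) (nat_lit 1216) (nat_lit 3445293996) (nat_lit 1292) (nat_lit 6501263339) (nat_lit 249) (nat_lit 5) (nat_lit 265) (nat_lit 5) (nat_lit 266) (nat_lit 5) (nat_lit 392) (nat_lit 374) (nat_lit 254)))) (XT.nd (nat_lit 156) (nat_lit 684) (nat_lit 0) (XT.nd (nat_lit 78) (nat_lit 684) (nat_lit 0) (XT.lf (nat_lit 0) (nat_lit 10099698796) (nat_lit 1292) (nat_lit 2035884151) (nat_lit 76) (nat_lit 3007776079) (nat_lit 249) (nat_lit 5) (nat_lit 266) (nat_lit 5) (nat_lit 250) (nat_lit 5) (nat_lit 393) (nat_lit 374) (nat_lit 253)) (XT.lf (nat_lit 0) (nat_lit 6187406825) (nat_lit 684) (nat_lit 5737454833) (nat_lit 760) (nat_lit 3458735226) (nat_lit 240) (nat_lit 5) (nat_lit 249) (nat_lit 5) (nat_lit 250) (nat_lit 5) (nat_lit 394) (nat_lit 374) (nat_lit 252))) (XT.nd (nat_lit 78) (nat_lit 684) (nat_lit 0) (XT.lf (nat_lit 0) (nat_lit 13821574413) (nat_lit 760) (nat_lit 951290633) (nat_lit 76) (nat_lit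 857676791) (nat_lit 240) (nat_lit 5) (nat_lit 250) (nat_lit 5) (nat_lit 241) (nat_lit 5) (nat_lit 395) (nat_lit 374) (nat_lit 251)) (XT.lf (nat_lit 0) (nat_lit 11862979) (nat_lit 684) (nat_lit 8259851312) (nat_lit 76) (nat_lit 7609633210) (nat_lit 231) (nat_lit 5) (nat_lit 240) (nat_lit 5) (nat_lit 232) (nat_lit 5) (nat_lit 396) (nat_lit 374) (nat_lit 250))))) (XT.nd (nat_lit 312) (nat_lit 1064) (nat_lit 0) (XT.nd (nat_lit 156) (nat_lit 532) (nat_lit 0) (XT.nd (nat_lit 78) (nat_lit 0) (nat_lit 0) (XT.lf (nat_lit 0) (nat_lit 308202198) (nat_lit 608) (nat_lit 1543731634) (nat_lit 684) (nat_lit 14287180452) (nat_lit 223) (nat_lit 5) (nat_lit 231) (nat_lit 5) (nat_lit 232) (nat_lit 5) (nat_lit 397) (nat_lit 374) (nat_lit 249)) (XT.lf (nat_lit 0) (nat_lit 3871759324) (nat_lit 684) (nat_lit 7163717413) (nat_lit 76) (nat_lit 5365404144) (nat_lit 223) (nat_lit 5) (nat_lit 232) (nat_lit 5) (nat_lit 224) (nat_lit 5) (nat_lit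 398) (nat_lit 374) (nat_lit 248))) (XT.nd (nat_lit 78) (nat_lit 0) (nat_lit 0) (XT.lf (nat_lit 0) (nat_lit 1771493809) (nat_lit 532) (nat_lit 4201876581) (nat_lit 608) (nat_lit 10696497646) (nat_lit 216) (nat_lit 5) (nat_lit 223) (nat_lit 5) (nat_lit 224) (nat_lit 5) (nat_lit 399) (nat_lit 374) (nat_lit 247)) (XT.lf (nat_lit 0) (nat_lit 8227445569) (nat_lit 608) (nat_lit 5862628929) (nat_lit 76) (nat_lit 2854171023) (nat_lit 216) (nat_lit 5) (nat_lit 224) (nat_lit 5) (nat_lit 217) (nat_lit 5) (nat_lit 400) (nat_lit 374) (nat_lit 246)))) (XT.nd (nat_lit 156) (nat_lit 532) (nat_lit 0) (XT.nd (nat_lit 78) (nat_lit 0) (nat_lit 0) (XT.lf (nat_lit 0) (nat_lit 3458916641) (nat_lit 532) (nat_lit 7154487692) (nat_lit 608) (nat_lit 6611525257) (nat_lit 209) (nat_lit 5) (nat_lit 216) (nat_lit 5) (nat_lit 217) (nat_lit 5) (nat_lit 401) (nat_lit 374) (nat_lit 245)) (XT.lf (nat_lit 0) (nat_lit 13120230073) (nat_lit 608) (nat_lit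 4343817489) (nat_lit 76) (nat_lit 48510978) (nat_lit 209) (nat_lit 5) (nat_lit 217) (nat_lit 5) (nat_lit 210) (nat_lit 5) (nat_lit 402) (nat_lit 374) (nat_lit 244))) (XT.nd (nat_lit 78) (nat_lit 76) (nat_lit 0) (XT.lf (nat_lit 0) (nat_lit 5384240182) (nat_lit 456) (nat_lit 10430521431) (nat_lit 532) (nat_lit 1990682635) (nat_lit 203) (nat_lit 5) (nat_lit 209) (nat_lit 5) (nat_lit 210) (nat_lit 5) (nat_lit 403) (nat_lit 374) (nat_lit 243)) (XT.lf (nat_lit 0) (nat_lit 507881597) (nat_lit 532) (nat_lit 2628821076) (nat_lit 76) (nat_lit 14969248486) (nat_lit 202) (nat_lit 5) (nat_lit 209) (nat_lit 5) (nat_lit 203) (nat_lit 5) (nat_lit 404) (nat_lit 374) (nat_lit 242))))))) (XT.nd (nat_lit 1092) (nat_lit 3040) (nat_lit 0) (XT.nd (nat_lit 546) (nat_lit 1672) (nat_lit 0) (XT.nd (nat_lit 234) (nat_lit 988) (nat_lit 0) (XT.nd (nat_lit 78) (nat_lit 456) (nat_lit 0) (XT.lf (nat_lit 0) (nat_lit 3147461060) (nat_lit 608) (nat_lit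 10881332064) (nat_lit 76) (nat_lit 4382909460) (nat_lit 195) (nat_lit 5) (nat_lit 203) (nat_lit 5) (nat_lit 196) (nat_lit 5) (nat_lit 405) (nat_lit 374) (nat_lit 241)) (XT.nd (nat_lit 78) (nat_lit 456) (nat_lit 0) (XT.lf (nat_lit 0) (nat_lit 5914549397) (nat_lit 608) (nat_lit 719897481) (nat_lit 76) (nat_lit 12090732623) (nat_lit 195) (nat_lit 5) (nat_lit 203) (nat_lit 5) (nat_lit 196) (nat_lit 5) (nat_lit 406) (nat_lit 374) (nat_lit 240)) (XT.lf (nat_lit 0) (nat_lit 8861201578) (nat_lit 532) (nat_lit 9126360770) (nat_lit 76) (nat_lit 1057604360) (nat_lit 189) (nat_lit 5) (nat_lit 196) (nat_lit 5) (nat_lit 190) (nat_lit 5) (nat_lit 407) (nat_lit 374) (nat_lit 239)))) (XT.nd (nat_lit 156) (nat_lit 532) (nat_lit 0) (XT.nd (nat_lit 78) (nat_lit 0) (nat_lit 0) (XT.lf (nat_lit 0) (nat_lit 1468986412) (nat_lit 456) (nat_lit 10505305560) (nat_lit 532) (nat_lit 7398122845) (nat_lit 183) (nat_lit 5) (nat_lit 189) (nat_lit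 5) (nat_lit 190) (nat_lit 5) (nat_lit 408) (nat_lit 374) (nat_lit 238)) (XT.lf (nat_lit 0) (nat_lit 12558570011) (nat_lit 456) (nat_lit 2705414616) (nat_lit 532) (nat_lit 4443001829) (nat_lit 183) (nat_lit 5) (nat_lit 189) (nat_lit 5) (nat_lit 190) (nat_lit 5) (nat_lit 409) (nat_lit 374) (nat_lit 237))) (XT.nd (nat_lit 78) (nat_lit 76) (nat_lit 0) (XT.lf (nat_lit 0) (nat_lit 3944353682) (nat_lit 456) (nat_lit 14788445914) (nat_lit 532) (nat_lit 1316385007) (nat_lit 177) (nat_lit 5) (nat_lit 183) (nat_lit 5) (nat_lit 184) (nat_lit 5) (nat_lit 410) (nat_lit 374) (nat_lit 236)) (XT.lf (nat_lit 0) (nat_lit 1957922639) (nat_lit 532) (nat_lit 4939554379) (nat_lit 76) (nat_lit 13500893364) (nat_lit 176) (nat_lit 5) (nat_lit 183) (nat_lit 5) (nat_lit 177) (nat_lit 5) (nat_lit 411) (nat_lit 374) (nat_lit 235))))) (XT.nd (nat_lit 234) (nat_lit 836) (nat_lit 0) (XT.nd (nat_lit 78) (nat_lit 380) (nat_lit 0) (XT.lf (nat_lit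 0) (nat_lit 5372274531) (nat_lit 532) (nat_lit 14101188690) (nat_lit 76) (nat_lit 1282131424) (nat_lit 170) (nat_lit 5) (nat_lit 177) (nat_lit 5) (nat_lit 171) (nat_lit 5) (nat_lit 412) (nat_lit 374) (nat_lit 234)) (XT.nd (nat_lit 78) (nat_lit 380) (nat_lit 0) (XT.lf (nat_lit 0) (nat_lit 8999460547) (nat_lit 532) (nat_lit 2503909505) (nat_lit 76) (nat_lit 9616855525) (nat_lit 170) (nat_lit 5) (nat_lit 177) (nat_lit 5) (nat_lit 171) (nat_lit 5) (nat_lit 413) (nat_lit 374) (nat_lit 233)) (XT.lf (nat_lit 0) (nat_lit 9618765717) (nat_lit 380) (nat_lit 3201136568) (nat_lit 456) (nat_lit 8673361936) (nat_lit 165) (nat_lit 5) (nat_lit 170) (nat_lit 5) (nat_lit 171) (nat_lit 5) (nat_lit 414) (nat_lit 374) (nat_lit 232)))) (XT.nd (nat_lit 156) (nat_lit 456) (nat_lit 0) (XT.nd (nat_lit 78) (nat_lit 0) (nat_lit 0) (XT.lf (nat_lit 0) (nat_lit 222030708) (nat_lit 380) (nat_lit 16604118398) (nat_lit 456) (nat_lit 5049211093)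 (nat_lit 160) (nat_lit 5) (nat_lit 165) (nat_lit 5) (nat_lit 166) (nat_lit 5) (nat_lit 415) (nat_lit 374) (nat_lit 231)) (XT.lf (nat_lit 0) (nat_lit 12882311586) (nat_lit 380) (nat_lit 8213790061) (nat_lit 456) (nat_lit 1168513734) (nat_lit 160) (nat_lit 5) (nat_lit 165) (nat_lit 5) (nat_lit 166) (nat_lit 5) (nat_lit 416) (nat_lit 374) (nat_lit 230))) (XT.nd (nat_lit 78) (nat_lit 0) (nat_lit 0) (XT.lf (nat_lit 0) (nat_lit 2802022729) (nat_lit 456) (nat_lit 19385042501) (nat_lit 76) (nat_lit 476810613) (nat_lit 154) (nat_lit 5) (nat_lit 160) (nat_lit 5) (nat_lit 155) (nat_lit 5) (nat_lit 417) (nat_lit 374) (nat_lit 229)) (XT.lf (nat_lit 0) (nat_lit 7037672365) (nat_lit 456) (nat_lit 6664165146) (nat_lit 76) (nat_lit 9367846748) (nat_lit 154) (nat_lit 5) (nat_lit 160) (nat_lit 5) (nat_lit 155) (nat_lit 5) (nat_lit 418) (nat_lit 374) (nat_lit 228)))))) (XT.nd (nat_lit 546) (nat_lit 1596) (nat_lit 0) (XT.nd (nat_lit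 234) (nat_lit 760) (nat_lit 0) (XT.nd (nat_lit 78) (nat_lit 304) (nat_lit 0) (XT.lf (nat_lit 0) (nat_lit 6556380235) (nat_lit 380) (nat_lit 4899731767) (nat_lit 456) (nat_lit 12029884974) (nat_lit 149) (nat_lit 5) (nat_lit 154) (nat_lit 5) (nat_lit 155) (nat_lit 5) (nat_lit 419) (nat_lit 374) (nat_lit 227)) (XT.nd (nat_lit 78) (nat_lit 304) (nat_lit 0) (XT.lf (nat_lit 0) (nat_lit 16107906419) (nat_lit 456) (nat_lit 3653337911) (nat_lit 76) (nat_lit 4150532314) (nat_lit 149) (nat_lit 5) (nat_lit 155) (nat_lit 5) (nat_lit 150) (nat_lit 5) (nat_lit 420) (nat_lit 374) (nat_lit 226)) (XT.lf (nat_lit 0) (nat_lit 10161299788) (nat_lit 304) (nat_lit 10877143664) (nat_lit 380) (nat_lit 3307712156) (nat_lit 145) (nat_lit 5) (nat_lit 149) (nat_lit 5) (nat_lit 150) (nat_lit 5) (nat_lit 421) (nat_lit 374) (nat_lit 225)))) (XT.nd (nat_lit 156) (nat_lit 304) (nat_lit 0) (XT.nd (nat_lit 78) (nat_lit 380) (nat_lit 0) (XT.lf (nat_lit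 0) (nat_lit 1327806331) (nat_lit 380) (nat_lit 350024371) (nat_lit 76) (nat_lit 23114446139) (nat_lit 144) (nat_lit 5) (nat_lit 149) (nat_lit 5) (nat_lit 145) (nat_lit 5) (nat_lit 422) (nat_lit 374) (nat_lit 224)) (XT.lf (nat_lit 0) (nat_lit 6241609683) (nat_lit 456) (nat_lit 11190090143) (nat_lit 76) (nat_lit 7812929801) (nat_lit 139) (nat_lit 5) (nat_lit 145) (nat_lit 5) (nat_lit 140) (nat_lit 5) (nat_lit 423) (nat_lit 374) (nat_lit 223))) (XT.nd (nat_lit 78) (nat_lit 0) (nat_lit 0) (XT.lf (nat_lit 0) (nat_lit 3224703038) (nat_lit 304) (nat_lit 8122628685) (nat_lit 380) (nat_lit 14361887531) (nat_lit 135) (nat_lit 5) (nat_lit 139) (nat_lit 5) (nat_lit 140) (nat_lit 5) (nat_lit 424) (nat_lit 374) (nat_lit 222)) (XT.lf (nat_lit 0) (nat_lit 16727832462) (nat_lit 380) (nat_lit 7907859935) (nat_lit 76) (nat_lit 1548407314) (nat_lit 135) (nat_lit 5) (nat_lit 140) (nat_lit 5) (nat_lit 136) (nat_lit 5) (nat_lit 425)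 (nat_lit 374) (nat_lit 221))))) (XT.nd (nat_lit 312) (nat_lit 912) (nat_lit 0) (XT.nd (nat_lit 156) (nat_lit 304) (nat_lit 0) (XT.nd (nat_lit 78) (nat_lit 76) (nat_lit 0) (XT.lf (nat_lit 0) (nat_lit 7155971918) (nat_lit 304) (nat_lit 15256579087) (nat_lit 380) (nat_lit 4256392808) (nat_lit 131) (nat_lit 5) (nat_lit 135) (nat_lit 5) (nat_lit 136) (nat_lit 5) (nat_lit 426) (nat_lit 374) (nat_lit 220)) (XT.lf (nat_lit 0) (nat_lit 1152294722) (nat_lit 380) (nat_lit 4352852334) (nat_lit 76) (nat_lit 21660642206) (nat_lit 130) (nat_lit 5) (nat_lit 135) (nat_lit 5) (nat_lit 131) (nat_lit 5) (nat_lit 427) (nat_lit 374) (nat_lit 219))) (XT.nd (nat_lit 78) (nat_lit 0) (nat_lit 0) (XT.lf (nat_lit 0) (nat_lit 6786523795) (nat_lit 380) (nat_lit 16284331255) (nat_lit 76) (nat_lit 4600957047) (nat_lit 126) (nat_lit 5) (nat_lit 131) (nat_lit 5) (nat_lit 127) (nat_lit 5) (nat_lit 428) (nat_lit 374) (nat_lit 218)) (XT.lf (nat_lit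 0) (nat_lit 12682554829) (nat_lit 380) (nat_lit 566556191) (nat_lit 76) (nat_lit 14941122511) (nat_lit 126) (nat_lit 5) (nat_lit 131) (nat_lit 5) (nat_lit 127) (nat_lit 5) (nat_lit 429) (nat_lit 374) (nat_lit 217)))) (XT.nd (nat_lit 156) (nat_lit 380) (nat_lit 0) (XT.nd (nat_lit 78) (nat_lit 228) (nat_lit 0) (XT.lf (nat_lit 0) (nat_lit 15924594589) (nat_lit 304) (nat_lit 2978005663) (nat_lit 380) (nat_lit 9817194487) (nat_lit 122) (nat_lit 5) (nat_lit 126) (nat_lit 5) (nat_lit 127) (nat_lit 5) (nat_lit 430) (nat_lit 374) (nat_lit 216)) (XT.lf (nat_lit 0) (nat_lit 3646081700) (nat_lit 228) (nat_lit 21771175567) (nat_lit 304) (nat_lit 3844746309) (nat_lit 119) (nat_lit 5) (nat_lit 122) (nat_lit 5) (nat_lit 123) (nat_lit 5) (nat_lit 431) (nat_lit 374) (nat_lit 215))) (XT.nd (nat_lit 78) (nat_lit 304) (nat_lit 0) (XT.lf (nat_lit 0) (nat_lit 2415974773) (nat_lit 304) (nat_lit 9035645419) (nat_lit 76) (nat_lit 18363570825)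 (nat_lit 118) (nat_lit 5) (nat_lit 122) (nat_lit 5) (nat_lit 119) (nat_lit 5) (nat_lit 432) (nat_lit 374) (nat_lit 214)) (XT.lf (nat_lit 0) (nat_lit 8154361042) (nat_lit 304) (nat_lit 705580119) (nat_lit 380) (nat_lit 21521710945) (nat_lit 114) (nat_lit 5) (nat_lit 118) (nat_lit 5) (nat_lit 119) (nat_lit 5) (nat_lit 433) (nat_lit 374) (nat_lit 213))))))))
noncomputable def xc179 : XT := (XT.nd (nat_lit 2262) (nat_lit 1976) (nat_lit 0) (XT.nd (nat_lit 1092) (nat_lit 1520) (nat_lit 0) (XT.nd (nat_lit 546) (nat_lit 988) (nat_lit 0) (XT.nd (nat_lit 234) (nat_lit 760) (nat_lit 0) (XT.nd (nat_lit 78) (nat_lit 228) (nat_lit 0) (XT.lf (nat_lit 0) (nat_lit 15683353978) (nat_lit 380) (nat_lit 5026384192) (nat_lit 76) (nat_lit 10249786011) (nat_lit 114) (nat_lit 5) (nat_lit 119) (nat_lit 5) (nat_lit 115) (nat_lit 5) (nat_lit 434) (nat_lit 374) (nat_lit 212)) (XT.nd (nat_lit 78) (nat_lit 0) (nat_lit 0) (XT.lf (nat_lit 0) (nat_lit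 12927291233) (nat_lit 228) (nat_lit 9909960742) (nat_lit 304) (nat_lit 8713707910) (nat_lit 111) (nat_lit 5) (nat_lit 114) (nat_lit 5) (nat_lit 115) (nat_lit 5) (nat_lit 435) (nat_lit 374) (nat_lit 211)) (XT.lf (nat_lit 0) (nat_lit 30263274470) (nat_lit 304) (nat_lit 656753846) (nat_lit 76) (nat_lit 1238386040) (nat_lit 111) (nat_lit 5) (nat_lit 115) (nat_lit 5) (nat_lit 112) (nat_lit 5) (nat_lit 436) (nat_lit 374) (nat_lit 210)))) (XT.nd (nat_lit 156) (nat_lit 228) (nat_lit 0) (XT.nd (nat_lit 78) (nat_lit 228) (nat_lit 0) (XT.lf (nat_lit 0) (nat_lit 5297365481) (nat_lit 304) (nat_lit 14732189688) (nat_lit 76) (nat_lit 12744975987) (nat_lit 107) (nat_lit 5) (nat_lit 111) (nat_lit 5) (nat_lit 108) (nat_lit 5) (nat_lit 437) (nat_lit 374) (nat_lit 209)) (XT.lf (nat_lit 0) (nat_lit 3956971417) (nat_lit 228) (nat_lit 8750078677) (nat_lit 304) (nat_lit 20700334462) (nat_lit 104) (nat_lit 5) (nat_lit 107) (nat_lit 5)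 (nat_lit 108) (nat_lit 5) (nat_lit 438) (nat_lit 374) (nat_lit 208))) (XT.nd (nat_lit 78) (nat_lit 228) (nat_lit 0) (XT.lf (nat_lit 0) (nat_lit 20511634639) (nat_lit 304) (nat_lit 10583395525) (nat_lit 76) (nat_lit 2959015931) (nat_lit 104) (nat_lit 5) (nat_lit 108) (nat_lit 5) (nat_lit 105) (nat_lit 5) (nat_lit 439) (nat_lit 374) (nat_lit 207)) (XT.lf (nat_lit 0) (nat_lit 8929083406) (nat_lit 228) (nat_lit 19788694280) (nat_lit 304) (nat_lit 5997307960) (nat_lit 101) (nat_lit 5) (nat_lit 104) (nat_lit 5) (nat_lit 105) (nat_lit 5) (nat_lit 440) (nat_lit 374) (nat_lit 206))))) (XT.nd (nat_lit 234) (nat_lit 684) (nat_lit 0) (XT.nd (nat_lit 78) (nat_lit 228) (nat_lit 0) (XT.lf (nat_lit 0) (nat_lit 1842432321) (nat_lit 304) (nat_lit 6175150822) (nat_lit 76) (nat_lit 27374775252) (nat_lit 100) (nat_lit 5) (nat_lit 104) (nat_lit 5) (nat_lit 101) (nat_lit 5) (nat_lit 441) (nat_lit 374) (nat_lit 205)) (XT.nd (nat_lit 78)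 (nat_lit 0) (nat_lit 0) (XT.lf (nat_lit 0) (nat_lit 9970164807) (nat_lit 304) (nat_lit 21891122525) (nat_lit 76) (nat_lit 4221681146) (nat_lit 97) (nat_lit 5) (nat_lit 101) (nat_lit 5) (nat_lit 98) (nat_lit 5) (nat_lit 442) (nat_lit 374) (nat_lit 204)) (XT.lf (nat_lit 0) (nat_lit 18479243321) (nat_lit 304) (nat_lit 1583962514) (nat_lit 76) (nat_lit 16726966313) (nat_lit 97) (nat_lit 5) (nat_lit 101) (nat_lit 5) (nat_lit 98) (nat_lit 5) (nat_lit 443) (nat_lit 374) (nat_lit 203)))) (XT.nd (nat_lit 156) (nat_lit 304) (nat_lit 0) (XT.nd (nat_lit 78) (nat_lit 152) (nat_lit 0) (XT.lf (nat_lit 0) (nat_lit 19709269263) (nat_lit 228) (nat_lit 7719081250) (nat_lit 304) (nat_lit 10084699412) (nat_lit 94) (nat_lit 5) (nat_lit 97) (nat_lit 5) (nat_lit 98) (nat_lit 5) (nat_lit 444) (nat_lit 374) (nat_lit 202)) (XT.lf (nat_lit 0) (nat_lit 3427564049) (nat_lit 152) (nat_lit 33310819420) (nat_lit 228) (nat_lit 1516457655) (nat_lit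 92) (nat_lit 5) (nat_lit 94) (nat_lit 5) (nat_lit 95) (nat_lit 5) (nat_lit 445) (nat_lit 374) (nat_lit 201))) (XT.nd (nat_lit 78) (nat_lit 228) (nat_lit 0) (XT.lf (nat_lit 0) (nat_lit 7419548169) (nat_lit 228) (nat_lit 13508940570) (nat_lit 76) (nat_lit 18080690087) (nat_lit 91) (nat_lit 5) (nat_lit 94) (nat_lit 5) (nat_lit 92) (nat_lit 5) (nat_lit 446) (nat_lit 374) (nat_lit 200)) (XT.lf (nat_lit 0) (nat_lit 8594066158) (nat_lit 228) (nat_lit 8077184196) (nat_lit 304) (nat_lit 23112103615) (nat_lit 88) (nat_lit 5) (nat_lit 91) (nat_lit 5) (nat_lit 92) (nat_lit 5) (nat_lit 447) (nat_lit 374) (nat_lit 199)))))) (XT.nd (nat_lit 546) (nat_lit 684) (nat_lit 0) (XT.nd (nat_lit 234) (nat_lit 608) (nat_lit 0) (XT.nd (nat_lit 78) (nat_lit 228) (nat_lit 0) (XT.lf (nat_lit 0) (nat_lit 26383380243) (nat_lit 304) (nat_lit 8998124803) (nat_lit 76) (nat_lit 5193763613) (nat_lit 88) (nat_lit 5) (nat_lit 92) (nat_lit 5) (nat_lit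 89) (nat_lit 5) (nat_lit 448) (nat_lit 374) (nat_lit 198)) (XT.nd (nat_lit 78) (nat_lit 76) (nat_lit 0) (XT.lf (nat_lit 0) (nat_lit 14045503073) (nat_lit 152) (nat_lit 22552002081) (nat_lit 228) (nat_lit 4787117278) (nat_lit 86) (nat_lit 5) (nat_lit 88) (nat_lit 5) (nat_lit 89) (nat_lit 5) (nat_lit 449) (nat_lit 374) (nat_lit 197)) (XT.lf (nat_lit 0) (nat_lit 4891605929) (nat_lit 228) (nat_lit 4306028759) (nat_lit 76) (nat_lit 33016587027) (nat_lit 85) (nat_lit 5) (nat_lit 88) (nat_lit 5) (nat_lit 86) (nat_lit 5) (nat_lit 450) (nat_lit 374) (nat_lit 196)))) (XT.nd (nat_lit 156) (nat_lit 228) (nat_lit 0) (XT.nd (nat_lit 78) (nat_lit 152) (nat_lit 0) (XT.lf (nat_lit 0) (nat_lit 14996226161) (nat_lit 304) (nat_lit 23358994469) (nat_lit 76) (nat_lit 4705114407) (nat_lit 82) (nat_lit 5) (nat_lit 86) (nat_lit 5) (nat_lit 83) (nat_lit 5) (nat_lit 451) (nat_lit 374) (nat_lit 195)) (XT.lf (nat_lit 0) (nat_lit 497686216)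 (nat_lit 152) (nat_lit 25041872681) (nat_lit 228) (nat_lit 18388206154) (nat_lit 80) (nat_lit 5) (nat_lit 82) (nat_lit 5) (nat_lit 83) (nat_lit 5) (nat_lit 452) (nat_lit 374) (nat_lit 194))) (XT.nd (nat_lit 78) (nat_lit 228) (nat_lit 0) (XT.lf (nat_lit 0) (nat_lit 25541772133) (nat_lit 152) (nat_lit 11089164151) (nat_lit 228) (nat_lit 8183329837) (nat_lit 80) (nat_lit 5) (nat_lit 82) (nat_lit 5) (nat_lit 83) (nat_lit 5) (nat_lit 453) (nat_lit 374) (nat_lit 193)) (XT.lf (nat_lit 0) (nat_lit 2365210792) (nat_lit 228) (nat_lit 40065956720) (nat_lit 76) (nat_lit 3293035732) (nat_lit 77) (nat_lit 5) (nat_lit 80) (nat_lit 5) (nat_lit 78) (nat_lit 5) (nat_lit 454) (nat_lit 374) (nat_lit 192))))) (XT.nd (nat_lit 312) (nat_lit 380) (nat_lit 0) (XT.nd (nat_lit 156) (nat_lit 152) (nat_lit 0) (XT.nd (nat_lit 78) (nat_lit 152) (nat_lit 0) (XT.lf (nat_lit 0) (nat_lit 13368033886) (nat_lit 228) (nat_lit 15123396034) (nat_lit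 76) (nat_lit 18158509229) (nat_lit 77) (nat_lit 5) (nat_lit 80) (nat_lit 5) (nat_lit 78) (nat_lit 5) (nat_lit 455) (nat_lit 374) (nat_lit 191)) (XT.lf (nat_lit 0) (nat_lit 10770794364) (nat_lit 152) (nat_lit 14029768301) (nat_lit 228) (nat_lit 22799896277) (nat_lit 75) (nat_lit 5) (nat_lit 77) (nat_lit 5) (nat_lit 78) (nat_lit 5) (nat_lit 456) (nat_lit 374) (nat_lit 190))) (XT.nd (nat_lit 78) (nat_lit 152) (nat_lit 0) (XT.lf (nat_lit 0) (nat_lit 36734724843) (nat_lit 228) (nat_lit 10839767453) (nat_lit 76) (nat_lit 1000242735) (nat_lit 75) (nat_lit 5) (nat_lit 78) (nat_lit 5) (nat_lit 76) (nat_lit 5) (nat_lit 457) (nat_lit 374) (nat_lit 189)) (XT.lf (nat_lit 0) (nat_lit 16098409546) (nat_lit 152) (nat_lit 33218378882) (nat_lit 228) (nat_lit 252755093) (nat_lit 73) (nat_lit 5) (nat_lit 75) (nat_lit 5) (nat_lit 76) (nat_lit 5) (nat_lit 458) (nat_lit 374) (nat_lit 188)))) (XT.nd (nat_lit 156) (nat_lit 152) (nat_lit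 0) (XT.nd (nat_lit 78) (nat_lit 152) (nat_lit 0) (XT.lf (nat_lit 0) (nat_lit 11560931283) (nat_lit 228) (nat_lit 6644012085) (nat_lit 76) (nat_lit 32382681203) (nat_lit 72) (nat_lit 5) (nat_lit 75) (nat_lit 5) (nat_lit 73) (nat_lit 5) (nat_lit 459) (nat_lit 374) (nat_lit 187)) (XT.lf (nat_lit 0) (nat_lit 21396480554) (nat_lit 152) (nat_lit 2529483102) (nat_lit 228) (nat_lit 27704149235) (nat_lit 70) (nat_lit 5) (nat_lit 72) (nat_lit 5) (nat_lit 73) (nat_lit 5) (nat_lit 460) (nat_lit 374) (nat_lit 186))) (XT.nd (nat_lit 78) (nat_lit 152) (nat_lit 0) (XT.lf (nat_lit 0) (nat_lit 36856948222) (nat_lit 228) (nat_lit 2425512811) (nat_lit 76) (nat_lit 13415565162) (nat_lit 70) (nat_lit 5) (nat_lit 73) (nat_lit 5) (nat_lit 71) (nat_lit 5) (nat_lit 461) (nat_lit 374) (nat_lit 185)) (XT.lf (nat_lit 0) (nat_lit 26706656261) (nat_lit 152) (nat_lit 23747435064) (nat_lit 228) (nat_lit 3335539059) (nat_lit 68) (nat_lit 5) (nat_lit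 70) (nat_lit 5) (nat_lit 71) (nat_lit 5) (nat_lit 462) (nat_lit 374) (nat_lit 184))))))) (XT.nd (nat_lit 1092) (nat_lit 760) (nat_lit 0) (XT.nd (nat_lit 546) (nat_lit 456) (nat_lit 0) (XT.nd (nat_lit 234) (nat_lit 380) (nat_lit 0) (XT.nd (nat_lit 78) (nat_lit 152) (nat_lit 0) (XT.lf (nat_lit 0) (nat_lit 1785812720) (nat_lit 152) (nat_lit 7611466553) (nat_lit 228) (nat_lit 45512799929) (nat_lit 65) (nat_lit 5) (nat_lit 67) (nat_lit 5) (nat_lit 68) (nat_lit 5) (nat_lit 463) (nat_lit 374) (nat_lit 183)) (XT.nd (nat_lit 78) (nat_lit 152) (nat_lit 0) (XT.lf (nat_lit 0) (nat_lit 22804318188) (nat_lit 228) (nat_lit 24108746442) (nat_lit 76) (nat_lit 9139308116) (nat_lit 65) (nat_lit 5) (nat_lit 68) (nat_lit 5) (nat_lit 66) (nat_lit 5) (nat_lit 464) (nat_lit 374) (nat_lit 182)) (XT.lf (nat_lit 0) (nat_lit 5809100451) (nat_lit 152) (nat_lit 30932260145) (nat_lit 228) (nat_lit 20483741050) (nat_lit 63) (nat_lit 5) (nat_lit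 65) (nat_lit 5) (nat_lit 66) (nat_lit 5) (nat_lit 465) (nat_lit 374) (nat_lit 181)))) (XT.nd (nat_lit 156) (nat_lit 152) (nat_lit 0) (XT.nd (nat_lit 78) (nat_lit 228) (nat_lit 0) (XT.lf (nat_lit 0) (nat_lit 37112614393) (nat_lit 152) (nat_lit 14223982512) (nat_lit 228) (nat_lit 7089213338) (nat_lit 63) (nat_lit 5) (nat_lit 65) (nat_lit 5) (nat_lit 66) (nat_lit 5) (nat_lit 466) (nat_lit 374) (nat_lit 180)) (XT.lf (nat_lit 0) (nat_lit 6697548064) (nat_lit 228) (nat_lit 49874361801) (nat_lit 76) (nat_lit 3085057970) (nat_lit 60) (nat_lit 5) (nat_lit 63) (nat_lit 5) (nat_lit 61) (nat_lit 5) (nat_lit 467) (nat_lit 374) (nat_lit 179))) (XT.nd (nat_lit 78) (nat_lit 152) (nat_lit 0) (XT.lf (nat_lit 0) (nat_lit 21110321096) (nat_lit 228) (nat_lit 18889552041) (nat_lit 76) (nat_lit 20912434746) (nat_lit 60) (nat_lit 5) (nat_lit 63) (nat_lit 5) (nat_lit 61) (nat_lit 5) (nat_lit 468) (nat_lit 374) (nat_lit 178)) (XT.lf (nat_lit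 0) (nat_lit 13278102233) (nat_lit 152) (nat_lit 22801819174) (nat_lit 228) (nat_lit 26121653676) (nat_lit 58) (nat_lit 5) (nat_lit 60) (nat_lit 5) (nat_lit 61) (nat_lit 5) (nat_lit 469) (nat_lit 374) (nat_lit 177))))) (XT.nd (nat_lit 234) (nat_lit 304) (nat_lit 0) (XT.nd (nat_lit 78) (nat_lit 152) (nat_lit 0) (XT.lf (nat_lit 0) (nat_lit 46792256952) (nat_lit 152) (nat_lit 4893944826) (nat_lit 228) (nat_lit 11837691026) (nat_lit 58) (nat_lit 5) (nat_lit 60) (nat_lit 5) (nat_lit 61) (nat_lit 5) (nat_lit 470) (nat_lit 374) (nat_lit 176)) (XT.nd (nat_lit 78) (nat_lit 0) (nat_lit 0) (XT.lf (nat_lit 0) (nat_lit 3108413910) (nat_lit 152) (nat_lit 48293497592) (nat_lit 76) (nat_lit 13474448151) (nat_lit 56) (nat_lit 5) (nat_lit 58) (nat_lit 5) (nat_lit 57) (nat_lit 5) (nat_lit 471) (nat_lit 374) (nat_lit 175)) (XT.lf (nat_lit 0) (nat_lit 18480978636) (nat_lit 152) (nat_lit 15197540668) (nat_lit 76) (nat_lit 32580885226)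 (nat_lit 56) (nat_lit 5) (nat_lit 58) (nat_lit 5) (nat_lit 57) (nat_lit 5) (nat_lit 472) (nat_lit 374) (nat_lit 174)))) (XT.nd (nat_lit 156) (nat_lit 152) (nat_lit 0) (XT.nd (nat_lit 78) (nat_lit 0) (nat_lit 0) (XT.lf (nat_lit 0) (nat_lit 19261670892) (nat_lit 152) (nat_lit 15235212199) (nat_lit 228) (nat_lit 33181593015) (nat_lit 54) (nat_lit 5) (nat_lit 56) (nat_lit 5) (nat_lit 57) (nat_lit 5) (nat_lit 473) (nat_lit 374) (nat_lit 173)) (XT.lf (nat_lit 0) (nat_lit 51181425238) (nat_lit 228) (nat_lit 14112498635) (nat_lit 76) (nat_lit 3840551371) (nat_lit 54) (nat_lit 5) (nat_lit 57) (nat_lit 5) (nat_lit 55) (nat_lit 4) (nat_lit 474) (nat_lit 374) (nat_lit 172))) (XT.nd (nat_lit 78) (nat_lit 76) (nat_lit 0) (XT.lf (nat_lit 0) (nat_lit 21483983582) (nat_lit 76) (nat_lit 47236986686) (nat_lit 152) (nat_lit 1902550310) (nat_lit 53) (nat_lit 5) (nat_lit 54) (nat_lit 5) (nat_lit 55) (nat_lit 4) (nat_lit 475) (nat_lit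 374) (nat_lit 171)) (XT.lf (nat_lit 0) (nat_lit 14485021052) (nat_lit 152) (nat_lit 13862692840) (nat_lit 76) (nat_lit 43801073865) (nat_lit 52) (nat_lit 5) (nat_lit 54) (nat_lit 5) (nat_lit 53) (nat_lit 5) (nat_lit 476) (nat_lit 374) (nat_lit 170)))))) (XT.nd (nat_lit 546) (nat_lit 228) (nat_lit 0) (XT.nd (nat_lit 234) (nat_lit 304) (nat_lit 0) (XT.nd (nat_lit 78) (nat_lit 76) (nat_lit 0) (XT.lf (nat_lit 0) (nat_lit 22895197829) (nat_lit 152) (nat_lit 8648059830) (nat_lit 228) (nat_lit 42169472058) (nat_lit 50) (nat_lit 5) (nat_lit 52) (nat_lit 5) (nat_lit 53) (nat_lit 5) (nat_lit 477) (nat_lit 374) (nat_lit 169)) (XT.nd (nat_lit 78) (nat_lit 76) (nat_lit 0) (XT.lf (nat_lit 0) (nat_lit 49363733420) (nat_lit 228) (nat_lit 14397894383) (nat_lit 76) (nat_lit 11554447567) (nat_lit 50) (nat_lit 5) (nat_lit 53) (nat_lit 5) (nat_lit 51) (nat_lit 4) (nat_lit 478) (nat_lit 374) (nat_lit 168)) (XT.lf (nat_lit 0) (nat_lit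 23481876084) (nat_lit 76) (nat_lit 44545579709) (nat_lit 152) (nat_lit 8930806824) (nat_lit 49) (nat_lit 5) (nat_lit 50) (nat_lit 5) (nat_lit 51) (nat_lit 4) (nat_lit 479) (nat_lit 374) (nat_lit 167)))) (XT.nd (nat_lit 156) (nat_lit 76) (nat_lit 0) (XT.nd (nat_lit 78) (nat_lit 152) (nat_lit 0) (XT.lf (nat_lit 0) (nat_lit 8577650658) (nat_lit 152) (nat_lit 15941344976) (nat_lit 76) (nat_lit 54123915975) (nat_lit 48) (nat_lit 5) (nat_lit 50) (nat_lit 5) (nat_lit 49) (nat_lit 5) (nat_lit 480) (nat_lit 374) (nat_lit 166)) (XT.lf (nat_lit 0) (nat_lit 23076728840) (nat_lit 152) (nat_lit 3574329298) (nat_lit 228) (nat_lit 53717813494) (nat_lit 46) (nat_lit 5) (nat_lit 48) (nat_lit 5) (nat_lit 49) (nat_lit 5) (nat_lit 481) (nat_lit 374) (nat_lit 165))) (XT.nd (nat_lit 78) (nat_lit 76) (nat_lit 0) (XT.lf (nat_lit 0) (nat_lit 45599629558) (nat_lit 228) (nat_lit 18729176152) (nat_lit 76) (nat_lit 17807816066) (nat_lit 46)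 (nat_lit 5) (nat_lit 49) (nat_lit 5) (nat_lit 47) (nat_lit 4) (nat_lit 482) (nat_lit 374) (nat_lit 164)) (XT.lf (nat_lit 0) (nat_lit 21367475943) (nat_lit 76) (nat_lit 43987422483) (nat_lit 152) (nat_lit 18595358955) (nat_lit 45) (nat_lit 5) (nat_lit 46) (nat_lit 5) (nat_lit 47) (nat_lit 4) (nat_lit 483) (nat_lit 374) (nat_lit 163))))) (XT.nd (nat_lit 44772) (nat_lit 0) (nat_lit 17632) (XT.nd (nat_lit 44616) (nat_lit 0) (nat_lit 17632) (XT.nd (nat_lit 78) (nat_lit 152) (nat_lit 0) (XT.lf (nat_lit 0) (nat_lit 75234511) (nat_lit 152) (nat_lit 22767207940) (nat_lit 76) (nat_lit 62970239326) (nat_lit 44) (nat_lit 5) (nat_lit 46) (nat_lit 5) (nat_lit 45) (nat_lit 5) (nat_lit 484) (nat_lit 374) (nat_lit 162)) (XT.lf (nat_lit 0) (nat_lit 18413396497) (nat_lit 152) (nat_lit 693333202) (nat_lit 228) (nat_lit 68613490017) (nat_lit 42) (nat_lit 5) (nat_lit 44) (nat_lit 5) (nat_lit 45) (nat_lit 5) (nat_lit 485) (nat_lit 374)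 (nat_lit 161))) (XT.nd (nat_lit 78) (nat_lit 0) (nat_lit 0) (XT.lf (nat_lit 0) (nat_lit 1021936008) (nat_lit 0) (nat_lit 1021936008) (nat_lit 1140) (nat_lit 3847175832) (nat_lit 274) (nat_lit 5) (nat_lit 274) (nat_lit 3) (nat_lit 289) (nat_lit 3) (nat_lit 375) (nat_lit 375) (nat_lit 270)) (XT.lf (nat_lit 0) (nat_lit 4669049742) (nat_lit 1140) (nat_lit 4036603609) (nat_lit 1216) (nat_lit 3237407939) (nat_lit 274) (nat_lit 5) (nat_lit 289) (nat_lit 3) (nat_lit 290) (nat_lit 5) (nat_lit 376) (nat_lit 375) (nat_lit 269)))) (XT.nd (nat_lit 156) (nat_lit 0) (nat_lit 76) (XT.nd (nat_lit 78) (nat_lit 0) (nat_lit 76) (XT.lf (nat_lit 76) (nat_lit 1841567073) (nat_lit 0) (nat_lit 3445202716) (nat_lit 1216) (nat_lit 6821523291) (nat_lit 275) (nat_lit 5) (nat_lit 274) (nat_lit 5) (nat_lit 290) (nat_lit 5) (nat_lit 377) (nat_lit 375) (nat_lit 268)) (XT.lf (nat_lit 0) (nat_lit 5964725740) (nat_lit 1140) (nat_lit 4328539192) (nat_lit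 1216) (nat_lit 1983972057) (nat_lit 275) (nat_lit 5) (nat_lit 290) (nat_lit 5) (nat_lit 291) (nat_lit 5) (nat_lit 378) (nat_lit 375) (nat_lit 267))) (XT.nd (nat_lit 78) (nat_lit 0) (nat_lit 76) (XT.lf (nat_lit 76) (nat_lit 1777949655) (nat_lit 0) (nat_lit 4918381757) (nat_lit 1216) (nat_lit 5753924586) (nat_lit 276) (nat_lit 5) (nat_lit 275) (nat_lit 5) (nat_lit 291) (nat_lit 5) (nat_lit 379) (nat_lit 375) (nat_lit 266)) (XT.lf (nat_lit 0) (nat_lit 7482565851) (nat_lit 1140) (nat_lit 4488084549) (nat_lit 1216) (nat_lit 656840693) (nat_lit 276) (nat_lit 5) (nat_lit 291) (nat_lit 5) (nat_lit 292) (nat_lit 5) (nat_lit 380) (nat_lit 375) (nat_lit 265))))))))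
noncomputable def xc180 : XT := (XT.nd (nat_lit 2184) (nat_lit 5928) (nat_lit 0) (XT.nd (nat_lit 1092) (nat_lit 4560) (nat_lit 0) (XT.nd (nat_lit 546) (nat_lit 1064) (nat_lit 0) (XT.nd (nat_lit 234) (nat_lit 988) (nat_lit 0) (XT.nd (nat_lit 78) (nat_lit 0) (nat_lit 0) (XT.lf (nat_lit 76) (nat_lit 1858630477) (nat_lit 0) (nat_lit 6483426684) (nat_lit 1216) (nat_lit 4466501745) (nat_lit 277) (nat_lit 5) (nat_lit 276) (nat_lit 5) (nat_lit 292) (nat_lit 5) (nat_lit 381) (nat_lit 375) (nat_lit 264)) (XT.nd (nat_lit 78) (nat_lit 0) (nat_lit 76) (XT.lf (nat_lit 76) (nat_lit 8477247111) (nat_lit 0) (nat_lit 778904744) (nat_lit 1216) (nat_lit 3738047934) (nat_lit 277) (nat_lit 5) (nat_lit 276) (nat_lit 5) (nat_lit 292) (nat_lit 5) (nat_lit 382) (nat_lit 375) (nat_lit 263)) (XT.lf (nat_lit 76) (nat_lit 2090066565) (nat_lit 0) (nat_lit 8160721373) (nat_lit 1216) (nat_lit 2933033835) (nat_lit 278) (nat_lit 5) (nat_lit 277)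 (nat_lit 5) (nat_lit 293) (nat_lit 5) (nat_lit 383) (nat_lit 375) (nat_lit 262)))) (XT.nd (nat_lit 156) (nat_lit 1064) (nat_lit 0) (XT.nd (nat_lit 78) (nat_lit 0) (nat_lit 76) (XT.lf (nat_lit 76) (nat_lit 8969391947) (nat_lit 0) (nat_lit 2343517099) (nat_lit 1216) (nat_lit 2065099264) (nat_lit 278) (nat_lit 5) (nat_lit 277) (nat_lit 5) (nat_lit 293) (nat_lit 5) (nat_lit 384) (nat_lit 375) (nat_lit 261)) (XT.lf (nat_lit 76) (nat_lit 2479564708) (nat_lit 0) (nat_lit 9971131029) (nat_lit 1216) (nat_lit 1126015768) (nat_lit 279) (nat_lit 5) (nat_lit 278) (nat_lit 5) (nat_lit 294) (nat_lit 5) (nat_lit 385) (nat_lit 375) (nat_lit 260))) (XT.nd (nat_lit 78) (nat_lit 1140) (nat_lit 0) (XT.lf (nat_lit 76) (nat_lit 9630376345) (nat_lit 0) (nat_lit 4044968608) (nat_lit 1216) (nat_lit 104453943) (nat_lit 279) (nat_lit 5) (nat_lit 278) (nat_lit 5) (nat_lit 294) (nat_lit 5) (nat_lit 386) (nat_lit 375) (nat_lit 259)) (XT.lf (nat_lit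 0) (nat_lit 964271060) (nat_lit 1216) (nat_lit 10962109120) (nat_lit 1292) (nat_lit 2061279791) (nat_lit 263) (nat_lit 5) (nat_lit 279) (nat_lit 5) (nat_lit 280) (nat_lit 5) (nat_lit 387) (nat_lit 375) (nat_lit 258))))) (XT.nd (nat_lit 234) (nat_lit 1064) (nat_lit 0) (XT.nd (nat_lit 78) (nat_lit 0) (nat_lit 76) (XT.lf (nat_lit 0) (nat_lit 2131195939) (nat_lit 1216) (nat_lit 3752227132) (nat_lit 1292) (nat_lit 8316260202) (nat_lit 263) (nat_lit 5) (nat_lit 279) (nat_lit 5) (nat_lit 280) (nat_lit 5) (nat_lit 388) (nat_lit 375) (nat_lit 257)) (XT.nd (nat_lit 78) (nat_lit 0) (nat_lit 0) (XT.lf (nat_lit 0) (nat_lit 3358986740) (nat_lit 1216) (nat_lit 10684949136) (nat_lit 1292) (nat_lit 373360068) (nat_lit 264) (nat_lit 5) (nat_lit 280) (nat_lit 5) (nat_lit 281) (nat_lit 5) (nat_lit 389) (nat_lit 375) (nat_lit 256)) (XT.lf (nat_lit 0) (nat_lit 4706736249) (nat_lit 1216) (nat_lit 3191619942) (nat_lit 1292) (nat_lit 6740591341)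 (nat_lit 264) (nat_lit 5) (nat_lit 280) (nat_lit 5) (nat_lit 281) (nat_lit 5) (nat_lit 390) (nat_lit 375) (nat_lit 255)))) (XT.nd (nat_lit 156) (nat_lit 1140) (nat_lit 0) (XT.nd (nat_lit 78) (nat_lit 0) (nat_lit 76) (XT.lf (nat_lit 76) (nat_lit 4605636308) (nat_lit 0) (nat_lit 1520552171) (nat_lit 1292) (nat_lit 8740126246) (nat_lit 265) (nat_lit 5) (nat_lit 264) (nat_lit 5) (nat_lit 281) (nat_lit 5) (nat_lit 391) (nat_lit 375) (nat_lit 254)) (XT.lf (nat_lit 0) (nat_lit 7656597085) (nat_lit 1216) (nat_lit 2457195810) (nat_lit 76) (nat_lit 4984662894) (nat_lit 265) (nat_lit 5) (nat_lit 281) (nat_lit 5) (nat_lit 266) (nat_lit 5) (nat_lit 392) (nat_lit 375) (nat_lit 253))) (XT.nd (nat_lit 78) (nat_lit 0) (nat_lit 0) (XT.lf (nat_lit 0) (nat_lit 5665159823) (nat_lit 1216) (nat_lit 3624934652) (nat_lit 1292) (nat_lit 6045755238) (nat_lit 249) (nat_lit 5) (nat_lit 265) (nat_lit 5) (nat_lit 266) (nat_lit 5) (nat_lit 393)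 (nat_lit 375) (nat_lit 252)) (XT.lf (nat_lit 0) (nat_lit 11014992157) (nat_lit 1292) (nat_lit 1538710741) (nat_lit 76) (nat_lit 3025394504) (nat_lit 249) (nat_lit 5) (nat_lit 266) (nat_lit 5) (nat_lit 250) (nat_lit 5) (nat_lit 394) (nat_lit 375) (nat_lit 251)))))) (XT.nd (nat_lit 546) (nat_lit 2052) (nat_lit 0) (XT.nd (nat_lit 234) (nat_lit 1140) (nat_lit 0) (XT.nd (nat_lit 78) (nat_lit 684) (nat_lit 0) (XT.lf (nat_lit 0) (nat_lit 6925805926) (nat_lit 684) (nat_lit 5956583558) (nat_lit 760) (nat_lit 2944534155) (nat_lit 240) (nat_lit 5) (nat_lit 249) (nat_lit 5) (nat_lit 250) (nat_lit 5) (nat_lit 395) (nat_lit 375) (nat_lit 250)) (XT.nd (nat_lit 78) (nat_lit 684) (nat_lit 0) (XT.lf (nat_lit 0) (nat_lit 14818095562) (nat_lit 760) (nat_lit 425062469) (nat_lit 76) (nat_lit 838661617) (nat_lit 240) (nat_lit 5) (nat_lit 250) (nat_lit 5) (nat_lit 241) (nat_lit 5) (nat_lit 396) (nat_lit 375) (nat_lit 249)) (XT.lf (nat_lit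 0) (nat_lit 588244554) (nat_lit 684) (nat_lit 7946683054) (nat_lit 76) (nat_lit 7805407783) (nat_lit 231) (nat_lit 5) (nat_lit 240) (nat_lit 5) (nat_lit 232) (nat_lit 5) (nat_lit 397) (nat_lit 375) (nat_lit 248)))) (XT.nd (nat_lit 156) (nat_lit 532) (nat_lit 0) (XT.nd (nat_lit 78) (nat_lit 0) (nat_lit 0) (XT.lf (nat_lit 0) (nat_lit 872912417) (nat_lit 608) (nat_lit 1599167131) (nat_lit 684) (nat_lit 14134103772) (nat_lit 223) (nat_lit 5) (nat_lit 231) (nat_lit 5) (nat_lit 232) (nat_lit 5) (nat_lit 398) (nat_lit 375) (nat_lit 247)) (XT.lf (nat_lit 0) (nat_lit 4535970355) (nat_lit 684) (nat_lit 6822651996) (nat_lit 76) (nat_lit 5517681303) (nat_lit 223) (nat_lit 5) (nat_lit 232) (nat_lit 5) (nat_lit 224) (nat_lit 5) (nat_lit 399) (nat_lit 375) (nat_lit 246))) (XT.nd (nat_lit 78) (nat_lit 0) (nat_lit 0) (XT.lf (nat_lit 0) (nat_lit 2375164808) (nat_lit 532) (nat_lit 4314794078) (nat_lit 608) (nat_lit 10463726380) (nat_lit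 216) (nat_lit 5) (nat_lit 223) (nat_lit 5) (nat_lit 224) (nat_lit 5) (nat_lit 400) (nat_lit 375) (nat_lit 245)) (XT.lf (nat_lit 0) (nat_lit 8996126880) (nat_lit 608) (nat_lit 5488334304) (nat_lit 76) (nat_lit 2952303353) (nat_lit 216) (nat_lit 5) (nat_lit 224) (nat_lit 5) (nat_lit 217) (nat_lit 5) (nat_lit 401) (nat_lit 375) (nat_lit 244))))) (XT.nd (nat_lit 234) (nat_lit 1064) (nat_lit 0) (XT.nd (nat_lit 78) (nat_lit 456) (nat_lit 0) (XT.lf (nat_lit 0) (nat_lit 4107463775) (nat_lit 532) (nat_lit 7336237641) (nat_lit 608) (nat_lit 6282471047) (nat_lit 209) (nat_lit 5) (nat_lit 216) (nat_lit 5) (nat_lit 217) (nat_lit 5) (nat_lit 402) (nat_lit 375) (nat_lit 243)) (XT.nd (nat_lit 78) (nat_lit 456) (nat_lit 0) (XT.lf (nat_lit 0) (nat_lit 14011129267) (nat_lit 608) (nat_lit 3930473235) (nat_lit 76) (nat_lit 81270175) (nat_lit 209) (nat_lit 5) (nat_lit 217) (nat_lit 5) (nat_lit 210) (nat_lit 5) (nat_lit 403) (nat_lit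 375) (nat_lit 242)) (XT.lf (nat_lit 0) (nat_lit 6084096178) (nat_lit 456) (nat_lit 10693091080) (nat_lit 532) (nat_lit 1547641173) (nat_lit 203) (nat_lit 5) (nat_lit 209) (nat_lit 5) (nat_lit 210) (nat_lit 5) (nat_lit 404) (nat_lit 375) (nat_lit 241)))) (XT.nd (nat_lit 156) (nat_lit 456) (nat_lit 0) (XT.nd (nat_lit 78) (nat_lit 532) (nat_lit 0) (XT.lf (nat_lit 0) (nat_lit 1001711486) (nat_lit 532) (nat_lit 2175379805) (nat_lit 76) (nat_lit 15457548955) (nat_lit 202) (nat_lit 5) (nat_lit 209) (nat_lit 5) (nat_lit 203) (nat_lit 5) (nat_lit 405) (nat_lit 375) (nat_lit 240)) (XT.lf (nat_lit 0) (nat_lit 3712156847) (nat_lit 608) (nat_lit 10667016827) (nat_lit 76) (nat_lit 4570644019) (nat_lit 195) (nat_lit 5) (nat_lit 203) (nat_lit 5) (nat_lit 196) (nat_lit 5) (nat_lit 406) (nat_lit 375) (nat_lit 239))) (XT.nd (nat_lit 78) (nat_lit 456) (nat_lit 0) (XT.lf (nat_lit 0) (nat_lit 6548560593) (nat_lit 608) (nat_lit 216489358)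 (nat_lit 76) (nat_lit 12508063606) (nat_lit 195) (nat_lit 5) (nat_lit 203) (nat_lit 5) (nat_lit 196) (nat_lit 5) (nat_lit 407) (nat_lit 375) (nat_lit 238)) (XT.lf (nat_lit 0) (nat_lit 9575999351) (nat_lit 532) (nat_lit 8867413086) (nat_lit 76) (nat_lit 1159519948) (nat_lit 189) (nat_lit 5) (nat_lit 196) (nat_lit 5) (nat_lit 190) (nat_lit 5) (nat_lit 408) (nat_lit 375) (nat_lit 237))))))) (XT.nd (nat_lit 1092) (nat_lit 2584) (nat_lit 0) (XT.nd (nat_lit 546) (nat_lit 1520) (nat_lit 0) (XT.nd (nat_lit 234) (nat_lit 912) (nat_lit 0) (XT.nd (nat_lit 78) (nat_lit 456) (nat_lit 0) (XT.lf (nat_lit 0) (nat_lit 2040571585) (nat_lit 456) (nat_lit 10733905119) (nat_lit 532) (nat_lit 7165764914) (nat_lit 183) (nat_lit 5) (nat_lit 189) (nat_lit 5) (nat_lit 190) (nat_lit 5) (nat_lit 409) (nat_lit 375) (nat_lit 236)) (XT.nd (nat_lit 78) (nat_lit 456) (nat_lit 0) (XT.lf (nat_lit 0) (nat_lit 13447478161) (nat_lit 456) (nat_lit 2702538601)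 (nat_lit 532) (nat_lit 4135222354) (nat_lit 183) (nat_lit 5) (nat_lit 189) (nat_lit 5) (nat_lit 190) (nat_lit 5) (nat_lit 410) (nat_lit 375) (nat_lit 235)) (XT.lf (nat_lit 0) (nat_lit 4581844250) (nat_lit 456) (nat_lit 15134357413) (nat_lit 532) (nat_lit 921705686) (nat_lit 177) (nat_lit 5) (nat_lit 183) (nat_lit 5) (nat_lit 184) (nat_lit 5) (nat_lit 411) (nat_lit 375) (nat_lit 234)))) (XT.nd (nat_lit 156) (nat_lit 380) (nat_lit 0) (XT.nd (nat_lit 78) (nat_lit 456) (nat_lit 0) (XT.lf (nat_lit 0) (nat_lit 2429959963) (nat_lit 532) (nat_lit 4575372823) (nat_lit 76) (nat_lit 13992485798) (nat_lit 176) (nat_lit 5) (nat_lit 183) (nat_lit 5) (nat_lit 177) (nat_lit 5) (nat_lit 412) (nat_lit 375) (nat_lit 233)) (XT.lf (nat_lit 0) (nat_lit 5940554325) (nat_lit 532) (nat_lit 14005567182) (nat_lit 76) (nat_lit 1419826737) (nat_lit 170) (nat_lit 5) (nat_lit 177) (nat_lit 5) (nat_lit 171) (nat_lit 5) (nat_lit 413) (nat_lit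 375) (nat_lit 232))) (XT.nd (nat_lit 78) (nat_lit 380) (nat_lit 0) (XT.lf (nat_lit 0) (nat_lit 9664698303) (nat_lit 532) (nat_lit 2075476141) (nat_lit 76) (nat_lit 10001702327) (nat_lit 170) (nat_lit 5) (nat_lit 177) (nat_lit 5) (nat_lit 171) (nat_lit 5) (nat_lit 414) (nat_lit 375) (nat_lit 231)) (XT.lf (nat_lit 0) (nat_lit 10405942567) (nat_lit 380) (nat_lit 3187091457) (nat_lit 456) (nat_lit 8533276981) (nat_lit 165) (nat_lit 5) (nat_lit 170) (nat_lit 5) (nat_lit 171) (nat_lit 5) (nat_lit 415) (nat_lit 375) (nat_lit 230))))) (XT.nd (nat_lit 234) (nat_lit 684) (nat_lit 0) (XT.nd (nat_lit 78) (nat_lit 456) (nat_lit 0) (XT.lf (nat_lit 0) (nat_lit 733005297) (nat_lit 380) (nat_lit 16981021510) (nat_lit 456) (nat_lit 4806009070) (nat_lit 160) (nat_lit 5) (nat_lit 165) (nat_lit 5) (nat_lit 166) (nat_lit 5) (nat_lit 416) (nat_lit 375) (nat_lit 229)) (XT.nd (nat_lit 78) (nat_lit 456) (nat_lit 0) (XT.lf (nat_lit 0) (nat_lit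 13758405854) (nat_lit 380) (nat_lit 8342514015) (nat_lit 456) (nat_lit 820386276) (nat_lit 160) (nat_lit 5) (nat_lit 165) (nat_lit 5) (nat_lit 166) (nat_lit 5) (nat_lit 417) (nat_lit 375) (nat_lit 228)) (XT.lf (nat_lit 0) (nat_lit 3256759171) (nat_lit 456) (nat_lit 19464290217) (nat_lit 76) (nat_lit 611537960) (nat_lit 154) (nat_lit 5) (nat_lit 160) (nat_lit 5) (nat_lit 155) (nat_lit 5) (nat_lit 418) (nat_lit 375) (nat_lit 227)))) (XT.nd (nat_lit 156) (nat_lit 304) (nat_lit 0) (XT.nd (nat_lit 78) (nat_lit 380) (nat_lit 0) (XT.lf (nat_lit 0) (nat_lit 7608681914) (nat_lit 456) (nat_lit 6376416743) (nat_lit 76) (nat_lit 9765797712) (nat_lit 154) (nat_lit 5) (nat_lit 160) (nat_lit 5) (nat_lit 155) (nat_lit 5) (nat_lit 419) (nat_lit 375) (nat_lit 226)) (XT.lf (nat_lit 0) (nat_lit 7235963889) (nat_lit 380) (nat_lit 4917870784) (nat_lit 456) (nat_lit 12026041387) (nat_lit 149) (nat_lit 5) (nat_lit 154) (nat_lit 5) (nat_lit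 155) (nat_lit 5) (nat_lit 420) (nat_lit 375) (nat_lit 225))) (XT.nd (nat_lit 78) (nat_lit 304) (nat_lit 0) (XT.lf (nat_lit 0) (nat_lit 16936073635) (nat_lit 456) (nat_lit 3284924010) (nat_lit 76) (nat_lit 4397707072) (nat_lit 149) (nat_lit 5) (nat_lit 155) (nat_lit 5) (nat_lit 150) (nat_lit 5) (nat_lit 421) (nat_lit 375) (nat_lit 224)) (XT.lf (nat_lit 0) (nat_lit 10939466408) (nat_lit 304) (nat_lit 11069563780) (nat_lit 380) (nat_lit 3057252010) (nat_lit 145) (nat_lit 5) (nat_lit 149) (nat_lit 5) (nat_lit 150) (nat_lit 5) (nat_lit 422) (nat_lit 375) (nat_lit 223)))))) (XT.nd (nat_lit 546) (nat_lit 1140) (nat_lit 0) (XT.nd (nat_lit 234) (nat_lit 684) (nat_lit 0) (XT.nd (nat_lit 78) (nat_lit 304) (nat_lit 0) (XT.lf (nat_lit 0) (nat_lit 107815914) (nat_lit 380) (nat_lit 1593742328) (nat_lit 456) (nat_lit 23824398607) (nat_lit 139) (nat_lit 5) (nat_lit 144) (nat_lit 5) (nat_lit 145) (nat_lit 5) (nat_lit 423) (nat_lit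 375) (nat_lit 222)) (XT.nd (nat_lit 78) (nat_lit 304) (nat_lit 0) (XT.lf (nat_lit 0) (nat_lit 6757770047) (nat_lit 456) (nat_lit 11055517747) (nat_lit 76) (nat_lit 8178744655) (nat_lit 139) (nat_lit 5) (nat_lit 145) (nat_lit 5) (nat_lit 140) (nat_lit 5) (nat_lit 424) (nat_lit 375) (nat_lit 221)) (XT.lf (nat_lit 0) (nat_lit 3787108688) (nat_lit 304) (nat_lit 8224451349) (nat_lit 380) (nat_lit 14459154840) (nat_lit 135) (nat_lit 5) (nat_lit 139) (nat_lit 5) (nat_lit 140) (nat_lit 5) (nat_lit 425) (nat_lit 375) (nat_lit 220)))) (XT.nd (nat_lit 156) (nat_lit 380) (nat_lit 0) (XT.nd (nat_lit 78) (nat_lit 304) (nat_lit 0) (XT.lf (nat_lit 0) (nat_lit 17545368379) (nat_lit 380) (nat_lit 7684822039) (nat_lit 76) (nat_lit 1729896495) (nat_lit 135) (nat_lit 5) (nat_lit 140) (nat_lit 5) (nat_lit 136) (nat_lit 5) (nat_lit 426) (nat_lit 375) (nat_lit 219)) (XT.lf (nat_lit 0) (nat_lit 7826412282) (nat_lit 304) (nat_lit 15569402078)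 (nat_lit 380) (nat_lit 4063808288) (nat_lit 131) (nat_lit 5) (nat_lit 135) (nat_lit 5) (nat_lit 136) (nat_lit 5) (nat_lit 427) (nat_lit 375) (nat_lit 218))) (XT.nd (nat_lit 78) (nat_lit 304) (nat_lit 0) (XT.lf (nat_lit 0) (nat_lit 1491743719) (nat_lit 380) (nat_lit 4034824318) (nat_lit 76) (nat_lit 22444989233) (nat_lit 130) (nat_lit 5) (nat_lit 135) (nat_lit 5) (nat_lit 131) (nat_lit 5) (nat_lit 428) (nat_lit 375) (nat_lit 217)) (XT.lf (nat_lit 0) (nat_lit 7291773419) (nat_lit 380) (nat_lit 16320963823) (nat_lit 76) (nat_lit 4880122062) (nat_lit 126) (nat_lit 5) (nat_lit 131) (nat_lit 5) (nat_lit 127) (nat_lit 5) (nat_lit 429) (nat_lit 375) (nat_lit 216))))) (XT.nd (nat_lit 312) (nat_lit 532) (nat_lit 0) (XT.nd (nat_lit 156) (nat_lit 304) (nat_lit 0) (XT.nd (nat_lit 78) (nat_lit 304) (nat_lit 0) (XT.lf (nat_lit 0) (nat_lit 13355899348) (nat_lit 380) (nat_lit 144817567) (nat_lit 76) (nat_lit 15526381724) (nat_lit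 126) (nat_lit 5) (nat_lit 131) (nat_lit 5) (nat_lit 127) (nat_lit 5) (nat_lit 430) (nat_lit 375) (nat_lit 215)) (XT.lf (nat_lit 0) (nat_lit 16836766410) (nat_lit 304) (nat_lit 2921425637) (nat_lit 380) (nat_lit 9814486885) (nat_lit 122) (nat_lit 5) (nat_lit 126) (nat_lit 5) (nat_lit 127) (nat_lit 5) (nat_lit 431) (nat_lit 375) (nat_lit 214))) (XT.nd (nat_lit 78) (nat_lit 76) (nat_lit 0) (XT.lf (nat_lit 0) (nat_lit 4192874315) (nat_lit 228) (nat_lit 22272577617) (nat_lit 304) (nat_lit 3665788788) (nat_lit 119) (nat_lit 5) (nat_lit 122) (nat_lit 5) (nat_lit 123) (nat_lit 5) (nat_lit 432) (nat_lit 375) (nat_lit 213)) (XT.lf (nat_lit 0) (nat_lit 2768606501) (nat_lit 304) (nat_lit 8876419502) (nat_lit 76) (nat_lit 19056166537) (nat_lit 118) (nat_lit 5) (nat_lit 122) (nat_lit 5) (nat_lit 119) (nat_lit 5) (nat_lit 433) (nat_lit 375) (nat_lit 212)))) (XT.nd (nat_lit 156) (nat_lit 228) (nat_lit 0) (XT.nd (nat_lit 78) (nat_lit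 0) (nat_lit 0) (XT.lf (nat_lit 0) (nat_lit 8825068571) (nat_lit 304) (nat_lit 576759238) (nat_lit 380) (nat_lit 21882943020) (nat_lit 114) (nat_lit 5) (nat_lit 118) (nat_lit 5) (nat_lit 119) (nat_lit 5) (nat_lit 434) (nat_lit 375) (nat_lit 211)) (XT.lf (nat_lit 0) (nat_lit 16423301387) (nat_lit 380) (nat_lit 4756820612) (nat_lit 76) (nat_lit 10700057721) (nat_lit 114) (nat_lit 5) (nat_lit 119) (nat_lit 5) (nat_lit 115) (nat_lit 5) (nat_lit 435) (nat_lit 375) (nat_lit 210))) (XT.nd (nat_lit 78) (nat_lit 0) (nat_lit 0) (XT.lf (nat_lit 0) (nat_lit 13731343948) (nat_lit 228) (nat_lit 10056625507) (nat_lit 304) (nat_lit 8701505808) (nat_lit 111) (nat_lit 5) (nat_lit 114) (nat_lit 5) (nat_lit 115) (nat_lit 5) (nat_lit 436) (nat_lit 375) (nat_lit 209)) (XT.lf (nat_lit 0) (nat_lit 31430442516) (nat_lit 304) (nat_lit 265971598) (nat_lit 76) (nat_lit 1418930480) (nat_lit 111) (nat_lit 5) (nat_lit 115) (nat_lit 5) (nat_lit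 112) (nat_lit 5) (nat_lit 437) (nat_lit 375) (nat_lit 208))))))))
noncomputable def xc181 : XT := (XT.nd (nat_lit 2262) (nat_lit 1368) (nat_lit 0) (XT.nd (nat_lit 1092) (nat_lit 1672) (nat_lit 0) (XT.nd (nat_lit 546) (nat_lit 912) (nat_lit 0) (XT.nd (nat_lit 234) (nat_lit 532) (nat_lit 0) (XT.nd (nat_lit 78) (nat_lit 228) (nat_lit 0) (XT.lf (nat_lit 0) (nat_lit 5714484780) (nat_lit 304) (nat_lit 14762514656) (nat_lit 76) (nat_lit 13272980138) (nat_lit 107) (nat_lit 5) (nat_lit 111) (nat_lit 5) (nat_lit 108) (nat_lit 5) (nat_lit 438) (nat_lit 375) (nat_lit 207)) (XT.nd (nat_lit 78) (nat_lit 0) (nat_lit 0) (XT.lf (nat_lit 0) (nat_lit 4483285589) (nat_lit 228) (nat_lit 8859572152) (nat_lit 304) (nat_lit 21059070111) (nat_lit 104) (nat_lit 5) (nat_lit 107) (nat_lit 5) (nat_lit 108) (nat_lit 5) (nat_lit 439) (nat_lit 375) (nat_lit 206)) (XT.lf (nat_lit 0) (nat_lit 21375592376) (nat_lit 304) (nat_lit 10499137726) (nat_lit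 76) (nat_lit 3193439934) (nat_lit 104) (nat_lit 5) (nat_lit 108) (nat_lit 5) (nat_lit 105) (nat_lit 5) (nat_lit 440) (nat_lit 375) (nat_lit 205)))) (XT.nd (nat_lit 156) (nat_lit 228) (nat_lit 0) (XT.nd (nat_lit 78) (nat_lit 76) (nat_lit 0) (XT.lf (nat_lit 0) (nat_lit 9594776753) (nat_lit 228) (nat_lit 20229726028) (nat_lit 304) (nat_lit 5924641641) (nat_lit 101) (nat_lit 5) (nat_lit 104) (nat_lit 5) (nat_lit 105) (nat_lit 5) (nat_lit 441) (nat_lit 375) (nat_lit 204)) (XT.lf (nat_lit 0) (nat_lit 2138148692) (nat_lit 304) (nat_lit 5969350366) (nat_lit 76) (nat_lit 28339380931) (nat_lit 100) (nat_lit 5) (nat_lit 104) (nat_lit 5) (nat_lit 101) (nat_lit 5) (nat_lit 442) (nat_lit 375) (nat_lit 203))) (XT.nd (nat_lit 78) (nat_lit 0) (nat_lit 0) (XT.lf (nat_lit 0) (nat_lit 10507874609) (nat_lit 304) (nat_lit 22154927864) (nat_lit 76) (nat_lit 4495462101) (nat_lit 97) (nat_lit 5) (nat_lit 101) (nat_lit 5) (nat_lit 98) (nat_lit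 5) (nat_lit 443) (nat_lit 375) (nat_lit 202)) (XT.lf (nat_lit 0) (nat_lit 19265275823) (nat_lit 304) (nat_lit 1249997568) (nat_lit 76) (nat_lit 17371620468) (nat_lit 97) (nat_lit 5) (nat_lit 101) (nat_lit 5) (nat_lit 98) (nat_lit 5) (nat_lit 444) (nat_lit 375) (nat_lit 201))))) (XT.nd (nat_lit 234) (nat_lit 456) (nat_lit 0) (XT.nd (nat_lit 78) (nat_lit 228) (nat_lit 0) (XT.lf (nat_lit 0) (nat_lit 20678291125) (nat_lit 228) (nat_lit 7801448971) (nat_lit 304) (nat_lit 10151812342) (nat_lit 94) (nat_lit 5) (nat_lit 97) (nat_lit 5) (nat_lit 98) (nat_lit 5) (nat_lit 445) (nat_lit 375) (nat_lit 200)) (XT.nd (nat_lit 78) (nat_lit 76) (nat_lit 0) (XT.lf (nat_lit 0) (nat_lit 3909832645) (nat_lit 152) (nat_lit 34157624816) (nat_lit 228) (nat_lit 1328189364) (nat_lit 92) (nat_lit 5) (nat_lit 94) (nat_lit 5) (nat_lit 95) (nat_lit 5) (nat_lit 446) (nat_lit 375) (nat_lit 199)) (XT.lf (nat_lit 0) (nat_lit 7864659353) (nat_lit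 228) (nat_lit 13541360104) (nat_lit 76) (nat_lit 18766728961) (nat_lit 91) (nat_lit 5) (nat_lit 94) (nat_lit 5) (nat_lit 92) (nat_lit 5) (nat_lit 447) (nat_lit 375) (nat_lit 198)))) (XT.nd (nat_lit 156) (nat_lit 228) (nat_lit 0) (XT.nd (nat_lit 78) (nat_lit 0) (nat_lit 0) (XT.lf (nat_lit 0) (nat_lit 9221081446) (nat_lit 228) (nat_lit 8169898767) (nat_lit 304) (nat_lit 23579257450) (nat_lit 88) (nat_lit 5) (nat_lit 91) (nat_lit 5) (nat_lit 92) (nat_lit 5) (nat_lit 448) (nat_lit 375) (nat_lit 197)) (XT.lf (nat_lit 0) (nat_lit 27389474275) (nat_lit 304) (nat_lit 8904600419) (nat_lit 76) (nat_lit 5491985941) (nat_lit 88) (nat_lit 5) (nat_lit 92) (nat_lit 5) (nat_lit 89) (nat_lit 5) (nat_lit 449) (nat_lit 375) (nat_lit 196))) (XT.nd (nat_lit 78) (nat_lit 76) (nat_lit 0) (XT.lf (nat_lit 0) (nat_lit 14826772880) (nat_lit 152) (nat_lit 23080459407) (nat_lit 228) (nat_lit 4712547278) (nat_lit 86) (nat_lit 5) (nat_lit 88)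 (nat_lit 5) (nat_lit 89) (nat_lit 5) (nat_lit 450) (nat_lit 375) (nat_lit 195)) (XT.lf (nat_lit 0) (nat_lit 5246049225) (nat_lit 228) (nat_lit 4081628125) (nat_lit 76) (nat_lit 34146714259) (nat_lit 85) (nat_lit 5) (nat_lit 88) (nat_lit 5) (nat_lit 86) (nat_lit 5) (nat_lit 451) (nat_lit 375) (nat_lit 194)))))) (XT.nd (nat_lit 546) (nat_lit 912) (nat_lit 0) (XT.nd (nat_lit 234) (nat_lit 380) (nat_lit 0) (XT.nd (nat_lit 78) (nat_lit 152) (nat_lit 0) (XT.lf (nat_lit 0) (nat_lit 15652519038) (nat_lit 304) (nat_lit 23704868630) (nat_lit 76) (nat_lit 4988540087) (nat_lit 82) (nat_lit 5) (nat_lit 86) (nat_lit 5) (nat_lit 83) (nat_lit 5) (nat_lit 452) (nat_lit 375) (nat_lit 193)) (XT.nd (nat_lit 78) (nat_lit 0) (nat_lit 0) (XT.lf (nat_lit 0) (nat_lit 864033105) (nat_lit 152) (nat_lit 25645484851) (nat_lit 228) (nat_lit 18729942461) (nat_lit 80) (nat_lit 5) (nat_lit 82) (nat_lit 5) (nat_lit 83) (nat_lit 5) (nat_lit 453)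 (nat_lit 375) (nat_lit 192)) (XT.lf (nat_lit 0) (nat_lit 26649206174) (nat_lit 152) (nat_lit 11278495377) (nat_lit 228) (nat_lit 8225033734) (nat_lit 80) (nat_lit 5) (nat_lit 82) (nat_lit 5) (nat_lit 83) (nat_lit 5) (nat_lit 454) (nat_lit 375) (nat_lit 191)))) (XT.nd (nat_lit 156) (nat_lit 152) (nat_lit 0) (XT.nd (nat_lit 78) (nat_lit 0) (nat_lit 0) (XT.lf (nat_lit 0) (nat_lit 2634841036) (nat_lit 228) (nat_lit 40921587108) (nat_lit 76) (nat_lit 3533518635) (nat_lit 77) (nat_lit 5) (nat_lit 80) (nat_lit 5) (nat_lit 78) (nat_lit 5) (nat_lit 455) (nat_lit 375) (nat_lit 190)) (XT.lf (nat_lit 0) (nat_lit 13961962204) (nat_lit 228) (nat_lit 15240837417) (nat_lit 76) (nat_lit 18840829391) (nat_lit 77) (nat_lit 5) (nat_lit 80) (nat_lit 5) (nat_lit 78) (nat_lit 5) (nat_lit 456) (nat_lit 375) (nat_lit 189))) (XT.nd (nat_lit 78) (nat_lit 0) (nat_lit 0) (XT.lf (nat_lit 0) (nat_lit 11426882021) (nat_lit 152) (nat_lit 14308167400)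 (nat_lit 228) (nat_lit 23287688131) (nat_lit 75) (nat_lit 5) (nat_lit 77) (nat_lit 5) (nat_lit 78) (nat_lit 5) (nat_lit 457) (nat_lit 375) (nat_lit 188)) (XT.lf (nat_lit 0) (nat_lit 38023018642) (nat_lit 228) (nat_lit 10837456354) (nat_lit 76) (nat_lit 1165894075) (nat_lit 75) (nat_lit 5) (nat_lit 78) (nat_lit 5) (nat_lit 76) (nat_lit 5) (nat_lit 458) (nat_lit 375) (nat_lit 187))))) (XT.nd (nat_lit 312) (nat_lit 532) (nat_lit 0) (XT.nd (nat_lit 156) (nat_lit 152) (nat_lit 0) (XT.nd (nat_lit 78) (nat_lit 76) (nat_lit 0) (XT.lf (nat_lit 0) (nat_lit 16905655130) (nat_lit 152) (nat_lit 34074581493) (nat_lit 228) (nat_lit 70855014) (nat_lit 73) (nat_lit 5) (nat_lit 75) (nat_lit 5) (nat_lit 76) (nat_lit 5) (nat_lit 459) (nat_lit 375) (nat_lit 186)) (XT.lf (nat_lit 0) (nat_lit 12088133241) (nat_lit 228) (nat_lit 6524876077) (nat_lit 76) (nat_lit 33486814057) (nat_lit 72) (nat_lit 5) (nat_lit 75) (nat_lit 5) (nat_lit 73)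 (nat_lit 5) (nat_lit 460) (nat_lit 375) (nat_lit 185))) (XT.nd (nat_lit 78) (nat_lit 0) (nat_lit 0) (XT.lf (nat_lit 0) (nat_lit 22353709221) (nat_lit 152) (nat_lit 2468184939) (nat_lit 228) (nat_lit 28351759403) (nat_lit 70) (nat_lit 5) (nat_lit 72) (nat_lit 5) (nat_lit 73) (nat_lit 5) (nat_lit 461) (nat_lit 375) (nat_lit 184)) (XT.lf (nat_lit 0) (nat_lit 38136899656) (nat_lit 228) (nat_lit 2188202194) (nat_lit 76) (nat_lit 13948620202) (nat_lit 70) (nat_lit 5) (nat_lit 73) (nat_lit 5) (nat_lit 71) (nat_lit 5) (nat_lit 462) (nat_lit 375) (nat_lit 183)))) (XT.nd (nat_lit 156) (nat_lit 152) (nat_lit 0) (XT.nd (nat_lit 78) (nat_lit 228) (nat_lit 0) (XT.lf (nat_lit 0) (nat_lit 27814891990) (nat_lit 152) (nat_lit 24324941443) (nat_lit 228) (nat_lit 3258305157) (nat_lit 68) (nat_lit 5) (nat_lit 70) (nat_lit 5) (nat_lit 71) (nat_lit 5) (nat_lit 463) (nat_lit 375) (nat_lit 182)) (XT.lf (nat_lit 0) (nat_lit 2146855293)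 (nat_lit 152) (nat_lit 7704074932) (nat_lit 228) (nat_lit 46701283235) (nat_lit 65) (nat_lit 5) (nat_lit 67) (nat_lit 5) (nat_lit 68) (nat_lit 5) (nat_lit 464) (nat_lit 375) (nat_lit 181))) (XT.nd (nat_lit 78) (nat_lit 152) (nat_lit 0) (XT.lf (nat_lit 0) (nat_lit 23656445158) (nat_lit 228) (nat_lit 24529745208) (nat_lit 76) (nat_lit 9542697969) (nat_lit 65) (nat_lit 5) (nat_lit 68) (nat_lit 5) (nat_lit 66) (nat_lit 5) (nat_lit 465) (nat_lit 375) (nat_lit 180)) (XT.lf (nat_lit 0) (nat_lit 6282673723) (nat_lit 152) (nat_lit 31726909043) (nat_lit 228) (nat_lit 20927277273) (nat_lit 63) (nat_lit 5) (nat_lit 65) (nat_lit 5) (nat_lit 66) (nat_lit 5) (nat_lit 466) (nat_lit 375) (nat_lit 179))))))) (XT.nd (nat_lit 1092) (nat_lit 304) (nat_lit 0) (XT.nd (nat_lit 546) (nat_lit 532) (nat_lit 0) (XT.nd (nat_lit 234) (nat_lit 304) (nat_lit 0) (XT.nd (nat_lit 78) (nat_lit 228) (nat_lit 0) (XT.lf (nat_lit 0) (nat_lit 38516575600)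 (nat_lit 152) (nat_lit 14521266156) (nat_lit 228) (nat_lit 7135893614) (nat_lit 63) (nat_lit 5) (nat_lit 65) (nat_lit 5) (nat_lit 66) (nat_lit 5) (nat_lit 467) (nat_lit 375) (nat_lit 178)) (XT.nd (nat_lit 78) (nat_lit 0) (nat_lit 0) (XT.lf (nat_lit 0) (nat_lit 7060538804) (nat_lit 228) (nat_lit 51076049788) (nat_lit 76) (nat_lit 3305212425) (nat_lit 60) (nat_lit 5) (nat_lit 63) (nat_lit 5) (nat_lit 61) (nat_lit 5) (nat_lit 468) (nat_lit 375) (nat_lit 177)) (XT.lf (nat_lit 0) (nat_lit 21900974708) (nat_lit 228) (nat_lit 19170274654) (nat_lit 76) (nat_lit 21663693920) (nat_lit 60) (nat_lit 5) (nat_lit 63) (nat_lit 5) (nat_lit 61) (nat_lit 5) (nat_lit 469) (nat_lit 375) (nat_lit 176)))) (XT.nd (nat_lit 156) (nat_lit 152) (nat_lit 0) (XT.nd (nat_lit 78) (nat_lit 0) (nat_lit 0) (XT.lf (nat_lit 0) (nat_lit 13959605681) (nat_lit 152) (nat_lit 23358196424) (nat_lit 228) (nat_lit 26745142614) (nat_lit 58) (nat_lit 5) (nat_lit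 60) (nat_lit 5) (nat_lit 61) (nat_lit 5) (nat_lit 470) (nat_lit 375) (nat_lit 175)) (XT.lf (nat_lit 0) (nat_lit 48470937652) (nat_lit 152) (nat_lit 4916804602) (nat_lit 228) (nat_lit 12037325959) (nat_lit 58) (nat_lit 5) (nat_lit 60) (nat_lit 5) (nat_lit 61) (nat_lit 5) (nat_lit 471) (nat_lit 375) (nat_lit 174))) (XT.nd (nat_lit 78) (nat_lit 0) (nat_lit 0) (XT.lf (nat_lit 0) (nat_lit 3353530361) (nat_lit 152) (nat_lit 49463733383) (nat_lit 76) (nat_lit 14000818766) (nat_lit 56) (nat_lit 5) (nat_lit 58) (nat_lit 5) (nat_lit 57) (nat_lit 5) (nat_lit 472) (nat_lit 375) (nat_lit 173)) (XT.lf (nat_lit 0) (nat_lit 19182848805) (nat_lit 152) (nat_lit 15383011415) (nat_lit 76) (nat_lit 33676891560) (nat_lit 56) (nat_lit 5) (nat_lit 58) (nat_lit 5) (nat_lit 57) (nat_lit 5) (nat_lit 473) (nat_lit 375) (nat_lit 172))))) (XT.nd (nat_lit 234) (nat_lit 304) (nat_lit 0) (XT.nd (nat_lit 78) (nat_lit 76) (nat_lit 0) (XT.lf (nat_lit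 0) (nat_lit 20107324968) (nat_lit 152) (nat_lit 15570185329) (nat_lit 228) (nat_lit 34026937150) (nat_lit 54) (nat_lit 5) (nat_lit 56) (nat_lit 5) (nat_lit 57) (nat_lit 5) (nat_lit 474) (nat_lit 375) (nat_lit 171)) (XT.nd (nat_lit 78) (nat_lit 76) (nat_lit 0) (XT.lf (nat_lit 0) (nat_lit 52859483773) (nat_lit 228) (nat_lit 14272753834) (nat_lit 76) (nat_lit 4071982429) (nat_lit 54) (nat_lit 5) (nat_lit 57) (nat_lit 5) (nat_lit 55) (nat_lit 4) (nat_lit 475) (nat_lit 375) (nat_lit 170)) (XT.lf (nat_lit 0) (nat_lit 22389043244) (nat_lit 76) (nat_lit 48534522524) (nat_lit 152) (nat_lit 1814420764) (nat_lit 53) (nat_lit 5) (nat_lit 54) (nat_lit 5) (nat_lit 55) (nat_lit 4) (nat_lit 476) (nat_lit 375) (nat_lit 169)))) (XT.nd (nat_lit 156) (nat_lit 76) (nat_lit 0) (XT.nd (nat_lit 78) (nat_lit 152) (nat_lit 0) (XT.lf (nat_lit 0) (nat_lit 15057797472) (nat_lit 152) (nat_lit 14022860995) (nat_lit 76) (nat_lit 45228436089)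 (nat_lit 52) (nat_lit 5) (nat_lit 54) (nat_lit 5) (nat_lit 53) (nat_lit 5) (nat_lit 477) (nat_lit 375) (nat_lit 168)) (XT.lf (nat_lit 0) (nat_lit 23835259407) (nat_lit 152) (nat_lit 8790929744) (nat_lit 228) (nat_lit 43293813678) (nat_lit 50) (nat_lit 5) (nat_lit 52) (nat_lit 5) (nat_lit 53) (nat_lit 5) (nat_lit 478) (nat_lit 375) (nat_lit 167))) (XT.nd (nat_lit 78) (nat_lit 76) (nat_lit 0) (XT.lf (nat_lit 0) (nat_lit 50978387484) (nat_lit 228) (nat_lit 14581099309) (nat_lit 76) (nat_lit 12012049095) (nat_lit 50) (nat_lit 5) (nat_lit 53) (nat_lit 5) (nat_lit 51) (nat_lit 4) (nat_lit 479) (nat_lit 375) (nat_lit 166)) (XT.lf (nat_lit 0) (nat_lit 24432625724) (nat_lit 76) (nat_lit 45767867927) (nat_lit 152) (nat_lit 9062541214) (nat_lit 49) (nat_lit 5) (nat_lit 50) (nat_lit 5) (nat_lit 51) (nat_lit 4) (nat_lit 480) (nat_lit 375) (nat_lit 165)))))) (XT.nd (nat_lit 45162) (nat_lit 0) (nat_lit 17480) (XT.nd (nat_lit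 234) (nat_lit 76) (nat_lit 0) (XT.nd (nat_lit 78) (nat_lit 152) (nat_lit 0) (XT.lf (nat_lit 0) (nat_lit 8964623149) (nat_lit 152) (nat_lit 16177876734) (nat_lit 76) (nat_lit 55855801107) (nat_lit 48) (nat_lit 5) (nat_lit 50) (nat_lit 5) (nat_lit 49) (nat_lit 5) (nat_lit 481) (nat_lit 375) (nat_lit 164)) (XT.nd (nat_lit 78) (nat_lit 0) (nat_lit 0) (XT.lf (nat_lit 0) (nat_lit 24008369604) (nat_lit 152) (nat_lit 3570387914) (nat_lit 228) (nat_lit 55197326811) (nat_lit 46) (nat_lit 5) (nat_lit 48) (nat_lit 5) (nat_lit 49) (nat_lit 5) (nat_lit 482) (nat_lit 375) (nat_lit 163)) (XT.lf (nat_lit 0) (nat_lit 47093090563) (nat_lit 228) (nat_lit 19055979878) (nat_lit 76) (nat_lit 18447877647) (nat_lit 46) (nat_lit 5) (nat_lit 49) (nat_lit 5) (nat_lit 47) (nat_lit 4) (nat_lit 483) (nat_lit 375) (nat_lit 162)))) (XT.nd (nat_lit 44772) (nat_lit 0) (nat_lit 17404) (XT.nd (nat_lit 44694) (nat_lit 0) (nat_lit 17404) (XT.lf (nat_lit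 0) (nat_lit 22241267157) (nat_lit 76) (nat_lit 45198333310) (nat_lit 152) (nat_lit 19025435043) (nat_lit 45) (nat_lit 5) (nat_lit 46) (nat_lit 5) (nat_lit 47) (nat_lit 4) (nat_lit 484) (nat_lit 375) (nat_lit 161)) (XT.lf (nat_lit 0) (nat_lit 1294372535) (nat_lit 0) (nat_lit 1294372535) (nat_lit 1140) (nat_lit 3464362947) (nat_lit 274) (nat_lit 5) (nat_lit 274) (nat_lit 3) (nat_lit 289) (nat_lit 3) (nat_lit 376) (nat_lit 376) (nat_lit 268))) (XT.nd (nat_lit 78) (nat_lit 0) (nat_lit 0) (XT.lf (nat_lit 0) (nat_lit 5743553800) (nat_lit 1140) (nat_lit 3655228250) (nat_lit 1216) (nat_lit 2874218568) (nat_lit 274) (nat_lit 5) (nat_lit 289) (nat_lit 3) (nat_lit 290) (nat_lit 5) (nat_lit 377) (nat_lit 376) (nat_lit 267)) (XT.lf (nat_lit 76) (nat_lit 2394361342) (nat_lit 0) (nat_lit 3963010351) (nat_lit 1216) (nat_lit 6086499987) (nat_lit 275) (nat_lit 5) (nat_lit 274) (nat_lit 5) (nat_lit 290) (nat_lit 5) (nat_lit 378)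 (nat_lit 376) (nat_lit 266))))) (XT.nd (nat_lit 312) (nat_lit 0) (nat_lit 76) (XT.nd (nat_lit 156) (nat_lit 0) (nat_lit 76) (XT.nd (nat_lit 78) (nat_lit 0) (nat_lit 0) (XT.lf (nat_lit 0) (nat_lit 7025235328) (nat_lit 1140) (nat_lit 3944607591) (nat_lit 1216) (nat_lit 1648962954) (nat_lit 275) (nat_lit 5) (nat_lit 290) (nat_lit 5) (nat_lit 291) (nat_lit 5) (nat_lit 379) (nat_lit 376) (nat_lit 265)) (XT.lf (nat_lit 76) (nat_lit 2340038786) (nat_lit 0) (nat_lit 5417964073) (nat_lit 1216) (nat_lit 5039644954) (nat_lit 276) (nat_lit 5) (nat_lit 275) (nat_lit 5) (nat_lit 291) (nat_lit 5) (nat_lit 380) (nat_lit 376) (nat_lit 264))) (XT.nd (nat_lit 78) (nat_lit 0) (nat_lit 0) (XT.lf (nat_lit 0) (nat_lit 8539467651) (nat_lit 1140) (nat_lit 4100153841) (nat_lit 1216) (nat_lit 341437687) (nat_lit 276) (nat_lit 5) (nat_lit 291) (nat_lit 5) (nat_lit 292) (nat_lit 5) (nat_lit 381) (nat_lit 376) (nat_lit 263)) (XT.lf (nat_lit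 76) (nat_lit 2431839368) (nat_lit 0) (nat_lit 6973632994) (nat_lit 1216) (nat_lit 3762673074) (nat_lit 277) (nat_lit 5) (nat_lit 276) (nat_lit 5) (nat_lit 292) (nat_lit 5) (nat_lit 382) (nat_lit 376) (nat_lit 262)))) (XT.nd (nat_lit 156) (nat_lit 0) (nat_lit 76) (XT.nd (nat_lit 78) (nat_lit 0) (nat_lit 76) (XT.lf (nat_lit 76) (nat_lit 9233943143) (nat_lit 0) (nat_lit 1089362672) (nat_lit 1216) (nat_lit 3036768281) (nat_lit 277) (nat_lit 5) (nat_lit 276) (nat_lit 5) (nat_lit 292) (nat_lit 5) (nat_lit 383) (nat_lit 376) (nat_lit 261)) (XT.lf (nat_lit 76) (nat_lit 2676671403) (nat_lit 0) (nat_lit 8650472085) (nat_lit 1216) (nat_lit 2228868171) (nat_lit 278) (nat_lit 5) (nat_lit 277) (nat_lit 5) (nat_lit 293) (nat_lit 5) (nat_lit 384) (nat_lit 376) (nat_lit 260))) (XT.nd (nat_lit 78) (nat_lit 0) (nat_lit 76) (XT.lf (nat_lit 76) (nat_lit 9747117240) (nat_lit 0) (nat_lit 2651617826) (nat_lit 1216) (nat_lit 1357968087)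 (nat_lit 278) (nat_lit 5) (nat_lit 277) (nat_lit 5) (nat_lit 293) (nat_lit 5) (nat_lit 385) (nat_lit 376) (nat_lit 259)) (XT.lf (nat_lit 76) (nat_lit 3082295297) (nat_lit 0) (nat_lit 10469478633) (nat_lit 1216) (nat_lit 410167303) (nat_lit 279) (nat_lit 5) (nat_lit 278) (nat_lit 5) (nat_lit 294) (nat_lit 5) (nat_lit 386) (nat_lit 376) (nat_lit 258))))))))
noncomputable def xc182 : XT := (XT.nd (nat_lit 2262) (nat_lit 5548) (nat_lit 0) (XT.nd (nat_lit 1092) (nat_lit 4028) (nat_lit 0) (XT.nd (nat_lit 546) (nat_lit 2964) (nat_lit 0) (XT.nd (nat_lit 234) (nat_lit 0) (nat_lit 152) (XT.nd (nat_lit 78) (nat_lit 0) (nat_lit 76) (XT.lf (nat_lit 0) (nat_lit 608105040) (nat_lit 1216) (nat_lit 3745483291) (nat_lit 1292) (nat_lit 9817996925) (nat_lit 262) (nat_lit 5) (nat_lit 278) (nat_lit 5) (nat_lit 279) (nat_lit 5) (nat_lit 387) (nat_lit 376) (nat_lit 257)) (XT.nd (nat_lit 78) (nat_lit 0) (nat_lit 0) (XT.lf (nat_lit 0) (nat_lit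 1689339892) (nat_lit 1216) (nat_lit 10745908058) (nat_lit 1292) (nat_lit 1950933483) (nat_lit 263) (nat_lit 5) (nat_lit 279) (nat_lit 5) (nat_lit 280) (nat_lit 5) (nat_lit 388) (nat_lit 376) (nat_lit 256)) (XT.lf (nat_lit 0) (nat_lit 2870996575) (nat_lit 1216) (nat_lit 3335605271) (nat_lit 1292) (nat_lit 8398578395) (nat_lit 263) (nat_lit 5) (nat_lit 279) (nat_lit 5) (nat_lit 280) (nat_lit 5) (nat_lit 389) (nat_lit 376) (nat_lit 255)))) (XT.nd (nat_lit 156) (nat_lit 0) (nat_lit 0) (XT.nd (nat_lit 78) (nat_lit 0) (nat_lit 0) (XT.lf (nat_lit 0) (nat_lit 4119653730) (nat_lit 1216) (nat_lit 10460130315) (nat_lit 1292) (nat_lit 250022605) (nat_lit 264) (nat_lit 5) (nat_lit 280) (nat_lit 5) (nat_lit 281) (nat_lit 5) (nat_lit 390) (nat_lit 376) (nat_lit 254)) (XT.lf (nat_lit 0) (nat_lit 5488615412) (nat_lit 1216) (nat_lit 2757885731) (nat_lit 1292) (nat_lit 6812189407) (nat_lit 264) (nat_lit 5) (nat_lit 280) (nat_lit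 5) (nat_lit 281) (nat_lit 5) (nat_lit 391) (nat_lit 376) (nat_lit 253))) (XT.nd (nat_lit 78) (nat_lit 0) (nat_lit 76) (XT.lf (nat_lit 76) (nat_lit 5268097199) (nat_lit 0) (nat_lit 1668933326) (nat_lit 1292) (nat_lit 8356262827) (nat_lit 265) (nat_lit 5) (nat_lit 264) (nat_lit 5) (nat_lit 281) (nat_lit 5) (nat_lit 392) (nat_lit 376) (nat_lit 252)) (XT.lf (nat_lit 0) (nat_lit 8494128547) (nat_lit 1216) (nat_lit 2002474351) (nat_lit 76) (nat_lit 5036378235) (nat_lit 265) (nat_lit 5) (nat_lit 281) (nat_lit 5) (nat_lit 266) (nat_lit 5) (nat_lit 393) (nat_lit 376) (nat_lit 251))))) (XT.nd (nat_lit 234) (nat_lit 1292) (nat_lit 0) (XT.nd (nat_lit 78) (nat_lit 684) (nat_lit 0) (XT.lf (nat_lit 0) (nat_lit 6358371192) (nat_lit 1216) (nat_lit 3805585639) (nat_lit 1292) (nat_lit 5613925895) (nat_lit 249) (nat_lit 5) (nat_lit 265) (nat_lit 5) (nat_lit 266) (nat_lit 5) (nat_lit 394) (nat_lit 376) (nat_lit 250)) (XT.nd (nat_lit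 78) (nat_lit 684) (nat_lit 0) (XT.lf (nat_lit 0) (nat_lit 11922595656) (nat_lit 1292) (nat_lit 1058667958) (nat_lit 76) (nat_lit 3047709872) (nat_lit 249) (nat_lit 5) (nat_lit 266) (nat_lit 5) (nat_lit 250) (nat_lit 5) (nat_lit 395) (nat_lit 376) (nat_lit 249)) (XT.lf (nat_lit 0) (nat_lit 7654625345) (nat_lit 684) (nat_lit 6179587861) (nat_lit 760) (nat_lit 2450380663) (nat_lit 240) (nat_lit 5) (nat_lit 249) (nat_lit 5) (nat_lit 250) (nat_lit 5) (nat_lit 396) (nat_lit 376) (nat_lit 248)))) (XT.nd (nat_lit 156) (nat_lit 608) (nat_lit 0) (XT.nd (nat_lit 78) (nat_lit 76) (nat_lit 0) (XT.lf (nat_lit 0) (nat_lit 86800439) (nat_lit 608) (nat_lit 15725144342) (nat_lit 684) (nat_lit 735678501) (nat_lit 232) (nat_lit 5) (nat_lit 240) (nat_lit 5) (nat_lit 241) (nat_lit 5) (nat_lit 397) (nat_lit 376) (nat_lit 247)) (XT.lf (nat_lit 0) (nat_lit 1148851345) (nat_lit 684) (nat_lit 7656321364) (nat_lit 76) (nat_lit 8008922054)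 (nat_lit 231) (nat_lit 5) (nat_lit 240) (nat_lit 5) (nat_lit 232) (nat_lit 5) (nat_lit 398) (nat_lit 376) (nat_lit 246))) (XT.nd (nat_lit 78) (nat_lit 0) (nat_lit 0) (XT.lf (nat_lit 0) (nat_lit 1422678028) (nat_lit 608) (nat_lit 1655741963) (nat_lit 684) (nat_lit 14009826298) (nat_lit 223) (nat_lit 5) (nat_lit 231) (nat_lit 5) (nat_lit 232) (nat_lit 5) (nat_lit 399) (nat_lit 376) (nat_lit 245)) (XT.lf (nat_lit 0) (nat_lit 5188646931) (nat_lit 684) (nat_lit 6503269967) (nat_lit 76) (nat_lit 5675025330) (nat_lit 223) (nat_lit 5) (nat_lit 232) (nat_lit 5) (nat_lit 224) (nat_lit 5) (nat_lit 400) (nat_lit 376) (nat_lit 244)))))) (XT.nd (nat_lit 546) (nat_lit 1900) (nat_lit 0) (XT.nd (nat_lit 234) (nat_lit 1064) (nat_lit 0) (XT.nd (nat_lit 78) (nat_lit 532) (nat_lit 0) (XT.lf (nat_lit 0) (nat_lit 2965343482) (nat_lit 532) (nat_lit 4431853320) (nat_lit 608) (nat_lit 10255754681) (nat_lit 216) (nat_lit 5) (nat_lit 223)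 (nat_lit 5) (nat_lit 224) (nat_lit 5) (nat_lit 401) (nat_lit 376) (nat_lit 243)) (XT.nd (nat_lit 78) (nat_lit 532) (nat_lit 0) (XT.lf (nat_lit 0) (nat_lit 9757911850) (nat_lit 608) (nat_lit 5134393050) (nat_lit 76) (nat_lit 3052661689) (nat_lit 216) (nat_lit 5) (nat_lit 224) (nat_lit 5) (nat_lit 217) (nat_lit 5) (nat_lit 402) (nat_lit 376) (nat_lit 242)) (XT.lf (nat_lit 0) (nat_lit 4744194744) (nat_lit 532) (nat_lit 7525327804) (nat_lit 608) (nat_lit 5973820126) (nat_lit 209) (nat_lit 5) (nat_lit 216) (nat_lit 5) (nat_lit 217) (nat_lit 5) (nat_lit 403) (nat_lit 376) (nat_lit 241)))) (XT.nd (nat_lit 156) (nat_lit 608) (nat_lit 0) (XT.nd (nat_lit 78) (nat_lit 456) (nat_lit 0) (XT.lf (nat_lit 0) (nat_lit 14900208826) (nat_lit 608) (nat_lit 3535936892) (nat_lit 76) (nat_lit 113215177) (nat_lit 209) (nat_lit 5) (nat_lit 217) (nat_lit 5) (nat_lit 210) (nat_lit 5) (nat_lit 404) (nat_lit 376) (nat_lit 240)) (XT.lf (nat_lit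 0) (nat_lit 6774045579) (nat_lit 456) (nat_lit 10966427884) (nat_lit 532) (nat_lit 1120169060) (nat_lit 203) (nat_lit 5) (nat_lit 209) (nat_lit 5) (nat_lit 210) (nat_lit 5) (nat_lit 405) (nat_lit 376) (nat_lit 239))) (XT.nd (nat_lit 78) (nat_lit 532) (nat_lit 0) (XT.lf (nat_lit 0) (nat_lit 1482883050) (nat_lit 532) (nat_lit 1738891833) (nat_lit 76) (nat_lit 15958246877) (nat_lit 202) (nat_lit 5) (nat_lit 209) (nat_lit 5) (nat_lit 203) (nat_lit 5) (nat_lit 406) (nat_lit 376) (nat_lit 238)) (XT.lf (nat_lit 0) (nat_lit 4266797973) (nat_lit 608) (nat_lit 10477313694) (nat_lit 76) (nat_lit 4760781792) (nat_lit 195) (nat_lit 5) (nat_lit 203) (nat_lit 5) (nat_lit 196) (nat_lit 5) (nat_lit 407) (nat_lit 376) (nat_lit 237))))) (XT.nd (nat_lit 312) (nat_lit 988) (nat_lit 0) (XT.nd (nat_lit 156) (nat_lit 456) (nat_lit 0) (XT.nd (nat_lit 78) (nat_lit 0) (nat_lit 0) (XT.lf (nat_lit 0) (nat_lit 277294586) (nat_lit 456) (nat_lit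 6900753807) (nat_lit 532) (nat_lit 12660150678) (nat_lit 189) (nat_lit 5) (nat_lit 195) (nat_lit 5) (nat_lit 196) (nat_lit 5) (nat_lit 408) (nat_lit 376) (nat_lit 236)) (XT.lf (nat_lit 0) (nat_lit 10286468818) (nat_lit 532) (nat_lit 8631278341) (nat_lit 76) (nat_lit 1260463956) (nat_lit 189) (nat_lit 5) (nat_lit 196) (nat_lit 5) (nat_lit 190) (nat_lit 5) (nat_lit 409) (nat_lit 376) (nat_lit 235))) (XT.nd (nat_lit 78) (nat_lit 0) (nat_lit 0) (XT.lf (nat_lit 0) (nat_lit 2599022762) (nat_lit 456) (nat_lit 10974331540) (nat_lit 532) (nat_lit 6952515017) (nat_lit 183) (nat_lit 5) (nat_lit 189) (nat_lit 5) (nat_lit 190) (nat_lit 5) (nat_lit 410) (nat_lit 376) (nat_lit 234)) (XT.lf (nat_lit 0) (nat_lit 14333653990) (nat_lit 456) (nat_lit 2704400456) (nat_lit 532) (nat_lit 3843528689) (nat_lit 183) (nat_lit 5) (nat_lit 189) (nat_lit 5) (nat_lit 190) (nat_lit 5) (nat_lit 411) (nat_lit 376) (nat_lit 233)))) (XT.nd (nat_lit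 156) (nat_lit 456) (nat_lit 0) (XT.nd (nat_lit 78) (nat_lit 76) (nat_lit 0) (XT.lf (nat_lit 0) (nat_lit 5208657630) (nat_lit 456) (nat_lit 15496257041) (nat_lit 532) (nat_lit 540109169) (nat_lit 177) (nat_lit 5) (nat_lit 183) (nat_lit 5) (nat_lit 184) (nat_lit 5) (nat_lit 412) (nat_lit 376) (nat_lit 232)) (XT.lf (nat_lit 0) (nat_lit 2892433316) (nat_lit 532) (nat_lit 4229677849) (nat_lit 76) (nat_lit 14493856784) (nat_lit 176) (nat_lit 5) (nat_lit 183) (nat_lit 5) (nat_lit 177) (nat_lit 5) (nat_lit 413) (nat_lit 376) (nat_lit 231))) (XT.nd (nat_lit 78) (nat_lit 0) (nat_lit 0) (XT.lf (nat_lit 0) (nat_lit 6502512644) (nat_lit 532) (nat_lit 13936850072) (nat_lit 76) (nat_lit 1555956623) (nat_lit 170) (nat_lit 5) (nat_lit 177) (nat_lit 5) (nat_lit 171) (nat_lit 5) (nat_lit 414) (nat_lit 376) (nat_lit 230)) (XT.lf (nat_lit 0) (nat_lit 10327203999) (nat_lit 532) (nat_lit 1663095643) (nat_lit 76) (nat_lit 10392564158)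 (nat_lit 170) (nat_lit 5) (nat_lit 177) (nat_lit 5) (nat_lit 171) (nat_lit 5) (nat_lit 415) (nat_lit 376) (nat_lit 229))))))) (XT.nd (nat_lit 1092) (nat_lit 2508) (nat_lit 0) (XT.nd (nat_lit 546) (nat_lit 1444) (nat_lit 0) (XT.nd (nat_lit 234) (nat_lit 836) (nat_lit 0) (XT.nd (nat_lit 78) (nat_lit 380) (nat_lit 0) (XT.lf (nat_lit 0) (nat_lit 11188112246) (nat_lit 380) (nat_lit 3178943990) (nat_lit 456) (nat_lit 8411967521) (nat_lit 165) (nat_lit 5) (nat_lit 170) (nat_lit 5) (nat_lit 171) (nat_lit 5) (nat_lit 416) (nat_lit 376) (nat_lit 228)) (XT.nd (nat_lit 78) (nat_lit 0) (nat_lit 0) (XT.lf (nat_lit 0) (nat_lit 1230359455) (nat_lit 380) (nat_lit 17376190264) (nat_lit 456) (nat_lit 4578167138) (nat_lit 160) (nat_lit 5) (nat_lit 165) (nat_lit 5) (nat_lit 166) (nat_lit 5) (nat_lit 417) (nat_lit 376) (nat_lit 227)) (XT.lf (nat_lit 0) (nat_lit 14632676476) (nat_lit 380) (nat_lit 8481855561) (nat_lit 456) (nat_lit 483811258)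 (nat_lit 160) (nat_lit 5) (nat_lit 165) (nat_lit 5) (nat_lit 166) (nat_lit 5) (nat_lit 418) (nat_lit 376) (nat_lit 226)))) (XT.nd (nat_lit 156) (nat_lit 380) (nat_lit 0) (XT.nd (nat_lit 78) (nat_lit 0) (nat_lit 0) (XT.lf (nat_lit 0) (nat_lit 3703859401) (nat_lit 456) (nat_lit 19574749644) (nat_lit 76) (nat_lit 743394354) (nat_lit 154) (nat_lit 5) (nat_lit 160) (nat_lit 5) (nat_lit 155) (nat_lit 5) (nat_lit 419) (nat_lit 376) (nat_lit 225)) (XT.lf (nat_lit 0) (nat_lit 8176163202) (nat_lit 456) (nat_lit 6108030332) (nat_lit 76) (nat_lit 10168975774) (nat_lit 154) (nat_lit 5) (nat_lit 160) (nat_lit 5) (nat_lit 155) (nat_lit 5) (nat_lit 420) (nat_lit 376) (nat_lit 224))) (XT.nd (nat_lit 78) (nat_lit 0) (nat_lit 0) (XT.lf (nat_lit 0) (nat_lit 7908215062) (nat_lit 380) (nat_lit 4943950657) (nat_lit 456) (nat_lit 12043020068) (nat_lit 149) (nat_lit 5) (nat_lit 154) (nat_lit 5) (nat_lit 155) (nat_lit 5) (nat_lit 421) (nat_lit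 376) (nat_lit 223)) (XT.lf (nat_lit 0) (nat_lit 17769285473) (nat_lit 456) (nat_lit 2932897653) (nat_lit 76) (nat_lit 4645255955) (nat_lit 149) (nat_lit 5) (nat_lit 155) (nat_lit 5) (nat_lit 150) (nat_lit 5) (nat_lit 422) (nat_lit 376) (nat_lit 222))))) (XT.nd (nat_lit 234) (nat_lit 684) (nat_lit 0) (XT.nd (nat_lit 78) (nat_lit 456) (nat_lit 0) (XT.lf (nat_lit 0) (nat_lit 11713807084) (nat_lit 304) (nat_lit 11275442574) (nat_lit 380) (nat_lit 2819351784) (nat_lit 145) (nat_lit 5) (nat_lit 149) (nat_lit 5) (nat_lit 150) (nat_lit 5) (nat_lit 423) (nat_lit 376) (nat_lit 221)) (XT.nd (nat_lit 78) (nat_lit 0) (nat_lit 0) (XT.lf (nat_lit 0) (nat_lit 559269992) (nat_lit 380) (nat_lit 1511416137) (nat_lit 456) (nat_lit 24211440288) (nat_lit 139) (nat_lit 5) (nat_lit 144) (nat_lit 5) (nat_lit 145) (nat_lit 5) (nat_lit 424) (nat_lit 376) (nat_lit 220)) (XT.lf (nat_lit 0) (nat_lit 7270534324) (nat_lit 456) (nat_lit 10943903894)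 (nat_lit 76) (nat_lit 8547989510) (nat_lit 139) (nat_lit 5) (nat_lit 145) (nat_lit 5) (nat_lit 140) (nat_lit 5) (nat_lit 425) (nat_lit 376) (nat_lit 219)))) (XT.nd (nat_lit 156) (nat_lit 380) (nat_lit 0) (XT.nd (nat_lit 78) (nat_lit 0) (nat_lit 0) (XT.lf (nat_lit 0) (nat_lit 4339655458) (nat_lit 304) (nat_lit 8337471819) (nat_lit 380) (nat_lit 14578489559) (nat_lit 135) (nat_lit 5) (nat_lit 139) (nat_lit 5) (nat_lit 140) (nat_lit 5) (nat_lit 426) (nat_lit 376) (nat_lit 218)) (XT.lf (nat_lit 0) (nat_lit 18369307848) (nat_lit 380) (nat_lit 7481514600) (nat_lit 76) (nat_lit 1909078679) (nat_lit 135) (nat_lit 5) (nat_lit 140) (nat_lit 5) (nat_lit 136) (nat_lit 5) (nat_lit 427) (nat_lit 376) (nat_lit 217))) (XT.nd (nat_lit 78) (nat_lit 76) (nat_lit 0) (XT.lf (nat_lit 0) (nat_lit 8490803300) (nat_lit 304) (nat_lit 15899926142) (nat_lit 380) (nat_lit 3883831402) (nat_lit 131) (nat_lit 5) (nat_lit 135) (nat_lit 5) (nat_lit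 136) (nat_lit 5) (nat_lit 428) (nat_lit 376) (nat_lit 216)) (XT.lf (nat_lit 0) (nat_lit 1823874818) (nat_lit 380) (nat_lit 3733007717) (nat_lit 76) (nat_lit 23245144228) (nat_lit 130) (nat_lit 5) (nat_lit 135) (nat_lit 5) (nat_lit 131) (nat_lit 5) (nat_lit 429) (nat_lit 376) (nat_lit 215)))))) (XT.nd (nat_lit 546) (nat_lit 1292) (nat_lit 0) (XT.nd (nat_lit 234) (nat_lit 608) (nat_lit 0) (XT.nd (nat_lit 78) (nat_lit 304) (nat_lit 0) (XT.lf (nat_lit 0) (nat_lit 7794864363) (nat_lit 380) (nat_lit 16384636126) (nat_lit 76) (nat_lit 5159560226) (nat_lit 126) (nat_lit 5) (nat_lit 131) (nat_lit 5) (nat_lit 127) (nat_lit 5) (nat_lit 430) (nat_lit 376) (nat_lit 214)) (XT.nd (nat_lit 78) (nat_lit 0) (nat_lit 0) (XT.lf (nat_lit 0) (nat_lit 269649853) (nat_lit 304) (nat_lit 13765574574) (nat_lit 380) (nat_lit 15854275072) (nat_lit 122) (nat_lit 5) (nat_lit 126) (nat_lit 5) (nat_lit 127) (nat_lit 5) (nat_lit 431) (nat_lit 376)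 (nat_lit 213)) (XT.lf (nat_lit 0) (nat_lit 17751365098) (nat_lit 304) (nat_lit 2871524626) (nat_lit 380) (nat_lit 9828759897) (nat_lit 122) (nat_lit 5) (nat_lit 126) (nat_lit 5) (nat_lit 127) (nat_lit 5) (nat_lit 432) (nat_lit 376) (nat_lit 212)))) (XT.nd (nat_lit 156) (nat_lit 304) (nat_lit 0) (XT.nd (nat_lit 78) (nat_lit 76) (nat_lit 0) (XT.lf (nat_lit 0) (nat_lit 4730961577) (nat_lit 228) (nat_lit 22797731834) (nat_lit 304) (nat_lit 3498356559) (nat_lit 119) (nat_lit 5) (nat_lit 122) (nat_lit 5) (nat_lit 123) (nat_lit 5) (nat_lit 433) (nat_lit 376) (nat_lit 211)) (XT.lf (nat_lit 0) (nat_lit 3115735282) (nat_lit 304) (nat_lit 8737117516) (nat_lit 76) (nat_lit 19761406616) (nat_lit 118) (nat_lit 5) (nat_lit 122) (nat_lit 5) (nat_lit 119) (nat_lit 5) (nat_lit 434) (nat_lit 376) (nat_lit 210))) (XT.nd (nat_lit 78) (nat_lit 0) (nat_lit 0) (XT.lf (nat_lit 0) (nat_lit 9491438781) (nat_lit 304) (nat_lit 452683671) (nat_lit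 380) (nat_lit 22271338885) (nat_lit 114) (nat_lit 5) (nat_lit 118) (nat_lit 5) (nat_lit 119) (nat_lit 5) (nat_lit 435) (nat_lit 376) (nat_lit 209)) (XT.lf (nat_lit 0) (nat_lit 17169979870) (nat_lit 380) (nat_lit 4503300227) (nat_lit 76) (nat_lit 11155641533) (nat_lit 114) (nat_lit 5) (nat_lit 119) (nat_lit 5) (nat_lit 115) (nat_lit 5) (nat_lit 436) (nat_lit 376) (nat_lit 208))))) (XT.nd (nat_lit 312) (nat_lit 532) (nat_lit 0) (XT.nd (nat_lit 156) (nat_lit 304) (nat_lit 0) (XT.nd (nat_lit 78) (nat_lit 228) (nat_lit 0) (XT.lf (nat_lit 0) (nat_lit 14535624711) (nat_lit 228) (nat_lit 10216337226) (nat_lit 304) (nat_lit 8704644169) (nat_lit 111) (nat_lit 5) (nat_lit 114) (nat_lit 5) (nat_lit 115) (nat_lit 5) (nat_lit 437) (nat_lit 376) (nat_lit 207)) (XT.lf (nat_lit 0) (nat_lit 115218943) (nat_lit 228) (nat_lit 32503631067) (nat_lit 304) (nat_lit 1482548527) (nat_lit 108) (nat_lit 5) (nat_lit 111) (nat_lit 5) (nat_lit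 112) (nat_lit 5) (nat_lit 438) (nat_lit 376) (nat_lit 206))) (XT.nd (nat_lit 78) (nat_lit 228) (nat_lit 0) (XT.lf (nat_lit 0) (nat_lit 6129296018) (nat_lit 304) (nat_lit 14817379235) (nat_lit 76) (nat_lit 13808463227) (nat_lit 107) (nat_lit 5) (nat_lit 111) (nat_lit 5) (nat_lit 108) (nat_lit 5) (nat_lit 439) (nat_lit 376) (nat_lit 205)) (XT.lf (nat_lit 0) (nat_lit 5001990990) (nat_lit 228) (nat_lit 8981133767) (nat_lit 304) (nat_lit 21443623453) (nat_lit 104) (nat_lit 5) (nat_lit 107) (nat_lit 5) (nat_lit 108) (nat_lit 5) (nat_lit 440) (nat_lit 376) (nat_lit 204)))) (XT.nd (nat_lit 156) (nat_lit 304) (nat_lit 0) (XT.nd (nat_lit 78) (nat_lit 228) (nat_lit 0) (XT.lf (nat_lit 0) (nat_lit 22251197688) (nat_lit 304) (nat_lit 10435414841) (nat_lit 76) (nat_lit 3426535549) (nat_lit 104) (nat_lit 5) (nat_lit 108) (nat_lit 5) (nat_lit 105) (nat_lit 5) (nat_lit 441) (nat_lit 376) (nat_lit 203)) (XT.lf (nat_lit 0) (nat_lit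 10257604357) (nat_lit 228) (nat_lit 20692750263) (nat_lit 304) (nat_lit 5864294777) (nat_lit 101) (nat_lit 5) (nat_lit 104) (nat_lit 5) (nat_lit 105) (nat_lit 5) (nat_lit 442) (nat_lit 376) (nat_lit 202))) (XT.nd (nat_lit 78) (nat_lit 228) (nat_lit 0) (XT.lf (nat_lit 0) (nat_lit 2428934120) (nat_lit 304) (nat_lit 5779824052) (nat_lit 76) (nat_lit 29324695191) (nat_lit 100) (nat_lit 5) (nat_lit 104) (nat_lit 5) (nat_lit 101) (nat_lit 5) (nat_lit 443) (nat_lit 376) (nat_lit 201)) (XT.lf (nat_lit 0) (nat_lit 11048018811) (nat_lit 304) (nat_lit 22449203058) (nat_lit 76) (nat_lit 4769010591) (nat_lit 97) (nat_lit 5) (nat_lit 101) (nat_lit 5) (nat_lit 98) (nat_lit 5) (nat_lit 444) (nat_lit 376) (nat_lit 200))))))))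
noncomputable def xc183 : XT := (XT.nd (nat_lit 2262) (nat_lit 760) (nat_lit 0) (XT.nd (nat_lit 1092) (nat_lit 1444) (nat_lit 0) (XT.nd (nat_lit 546) (nat_lit 836) (nat_lit 0) (XT.nd (nat_lit 234) (nat_lit 456) (nat_lit 0) (XT.nd (nat_lit 78) (nat_lit 380) (nat_lit 0) (XT.lf (nat_lit 0) (nat_lit 20061591344) (nat_lit 304) (nat_lit 927912405) (nat_lit 76) (nat_lit 18027414351) (nat_lit 97) (nat_lit 5) (nat_lit 101) (nat_lit 5) (nat_lit 98) (nat_lit 5) (nat_lit 445) (nat_lit 376) (nat_lit 199)) (XT.nd (nat_lit 78) (nat_lit 152) (nat_lit 0) (XT.lf (nat_lit 0) (nat_lit 21654699604) (nat_lit 228) (nat_lit 7894852685) (nat_lit 304) (nat_lit 10234453192) (nat_lit 94) (nat_lit 5) (nat_lit 97) (nat_lit 5) (nat_lit 98) (nat_lit 5) (nat_lit 446) (nat_lit 376) (nat_lit 198)) (XT.lf (nat_lit 0) (nat_lit 4384787794) (nat_lit 152) (nat_lit 35038589600) (nat_lit 228) (nat_lit 1147691921) (nat_lit 92) (nat_lit 5) (nat_lit 94) (nat_lit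 5) (nat_lit 95) (nat_lit 5) (nat_lit 447) (nat_lit 376) (nat_lit 197)))) (XT.nd (nat_lit 156) (nat_lit 152) (nat_lit 0) (XT.nd (nat_lit 78) (nat_lit 228) (nat_lit 0) (XT.lf (nat_lit 0) (nat_lit 8310350042) (nat_lit 228) (nat_lit 13596155265) (nat_lit 76) (nat_lit 19465104732) (nat_lit 91) (nat_lit 5) (nat_lit 94) (nat_lit 5) (nat_lit 92) (nat_lit 5) (nat_lit 448) (nat_lit 376) (nat_lit 196)) (XT.lf (nat_lit 0) (nat_lit 9845713987) (nat_lit 228) (nat_lit 8273982481) (nat_lit 304) (nat_lit 24073411239) (nat_lit 88) (nat_lit 5) (nat_lit 91) (nat_lit 5) (nat_lit 92) (nat_lit 5) (nat_lit 449) (nat_lit 376) (nat_lit 195))) (XT.nd (nat_lit 78) (nat_lit 152) (nat_lit 0) (XT.lf (nat_lit 0) (nat_lit 28413432634) (nat_lit 304) (nat_lit 8829134861) (nat_lit 76) (nat_lit 5790980055) (nat_lit 88) (nat_lit 5) (nat_lit 92) (nat_lit 5) (nat_lit 89) (nat_lit 5) (nat_lit 450) (nat_lit 376) (nat_lit 194)) (XT.lf (nat_lit 0) (nat_lit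 15610820779) (nat_lit 152) (nat_lit 23633272156) (nat_lit 228) (nat_lit 4648264804) (nat_lit 86) (nat_lit 5) (nat_lit 88) (nat_lit 5) (nat_lit 89) (nat_lit 5) (nat_lit 451) (nat_lit 376) (nat_lit 193))))) (XT.nd (nat_lit 234) (nat_lit 380) (nat_lit 0) (XT.nd (nat_lit 78) (nat_lit 380) (nat_lit 0) (XT.lf (nat_lit 0) (nat_lit 5599203272) (nat_lit 228) (nat_lit 3870792496) (nat_lit 76) (nat_lit 35302729996) (nat_lit 85) (nat_lit 5) (nat_lit 88) (nat_lit 5) (nat_lit 86) (nat_lit 5) (nat_lit 452) (nat_lit 376) (nat_lit 192)) (XT.nd (nat_lit 78) (nat_lit 152) (nat_lit 0) (XT.lf (nat_lit 0) (nat_lit 16316652147) (nat_lit 304) (nat_lit 24081491480) (nat_lit 76) (nat_lit 5272301530) (nat_lit 82) (nat_lit 5) (nat_lit 86) (nat_lit 5) (nat_lit 83) (nat_lit 5) (nat_lit 453) (nat_lit 376) (nat_lit 191)) (XT.lf (nat_lit 0) (nat_lit 1221197668) (nat_lit 152) (nat_lit 26275680757) (nat_lit 228) (nat_lit 19093980543) (nat_lit 80)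 (nat_lit 5) (nat_lit 82) (nat_lit 5) (nat_lit 83) (nat_lit 5) (nat_lit 454) (nat_lit 376) (nat_lit 190)))) (XT.nd (nat_lit 156) (nat_lit 152) (nat_lit 0) (XT.nd (nat_lit 78) (nat_lit 228) (nat_lit 0) (XT.lf (nat_lit 0) (nat_lit 27770278057) (nat_lit 152) (nat_lit 11481735054) (nat_lit 228) (nat_lit 8279687472) (nat_lit 80) (nat_lit 5) (nat_lit 82) (nat_lit 5) (nat_lit 83) (nat_lit 5) (nat_lit 455) (nat_lit 376) (nat_lit 189)) (XT.lf (nat_lit 0) (nat_lit 2901155491) (nat_lit 228) (nat_lit 41822768219) (nat_lit 76) (nat_lit 3773082334) (nat_lit 77) (nat_lit 5) (nat_lit 80) (nat_lit 5) (nat_lit 78) (nat_lit 5) (nat_lit 456) (nat_lit 376) (nat_lit 188))) (XT.nd (nat_lit 78) (nat_lit 152) (nat_lit 0) (XT.lf (nat_lit 0) (nat_lit 14562635851) (nat_lit 228) (nat_lit 15381104769) (nat_lit 76) (nat_lit 19535722370) (nat_lit 77) (nat_lit 5) (nat_lit 80) (nat_lit 5) (nat_lit 78) (nat_lit 5) (nat_lit 457) (nat_lit 376) (nat_lit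 187)) (XT.lf (nat_lit 0) (nat_lit 12083538823) (nat_lit 152) (nat_lit 14603098207) (nat_lit 228) (nat_lit 23801376713) (nat_lit 75) (nat_lit 5) (nat_lit 77) (nat_lit 5) (nat_lit 78) (nat_lit 5) (nat_lit 458) (nat_lit 376) (nat_lit 186)))))) (XT.nd (nat_lit 546) (nat_lit 684) (nat_lit 0) (XT.nd (nat_lit 234) (nat_lit 532) (nat_lit 0) (XT.nd (nat_lit 78) (nat_lit 228) (nat_lit 0) (XT.lf (nat_lit 0) (nat_lit 39339269626) (nat_lit 228) (nat_lit 10853876000) (nat_lit 76) (nat_lit 1328728432) (nat_lit 75) (nat_lit 5) (nat_lit 78) (nat_lit 5) (nat_lit 76) (nat_lit 5) (nat_lit 459) (nat_lit 376) (nat_lit 185)) (XT.nd (nat_lit 78) (nat_lit 0) (nat_lit 0) (XT.lf (nat_lit 0) (nat_lit 103563858) (nat_lit 228) (nat_lit 34859917126) (nat_lit 76) (nat_lit 17613892669) (nat_lit 72) (nat_lit 5) (nat_lit 75) (nat_lit 5) (nat_lit 73) (nat_lit 5) (nat_lit 460) (nat_lit 376) (nat_lit 184)) (XT.lf (nat_lit 0) (nat_lit 12620797052) (nat_lit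 228) (nat_lit 6420446687) (nat_lit 76) (nat_lit 34616456104) (nat_lit 72) (nat_lit 5) (nat_lit 75) (nat_lit 5) (nat_lit 73) (nat_lit 5) (nat_lit 461) (nat_lit 376) (nat_lit 183)))) (XT.nd (nat_lit 156) (nat_lit 380) (nat_lit 0) (XT.nd (nat_lit 78) (nat_lit 0) (nat_lit 0) (XT.lf (nat_lit 0) (nat_lit 23321553271) (nat_lit 152) (nat_lit 2412922677) (nat_lit 228) (nat_lit 29029332348) (nat_lit 70) (nat_lit 5) (nat_lit 72) (nat_lit 5) (nat_lit 73) (nat_lit 5) (nat_lit 462) (nat_lit 376) (nat_lit 182)) (XT.lf (nat_lit 0) (nat_lit 39445247373) (nat_lit 228) (nat_lit 1961571889) (nat_lit 76) (nat_lit 14490170604) (nat_lit 70) (nat_lit 5) (nat_lit 73) (nat_lit 5) (nat_lit 71) (nat_lit 5) (nat_lit 463) (nat_lit 376) (nat_lit 181))) (XT.nd (nat_lit 78) (nat_lit 228) (nat_lit 0) (XT.lf (nat_lit 0) (nat_lit 28938749666) (nat_lit 152) (nat_lit 24927517781) (nat_lit 228) (nat_lit 3188931988) (nat_lit 68) (nat_lit 5) (nat_lit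 70) (nat_lit 5) (nat_lit 71) (nat_lit 5) (nat_lit 464) (nat_lit 376) (nat_lit 180)) (XT.lf (nat_lit 0) (nat_lit 2501079210) (nat_lit 152) (nat_lit 7807253342) (nat_lit 228) (nat_lit 47935575864) (nat_lit 65) (nat_lit 5) (nat_lit 67) (nat_lit 5) (nat_lit 68) (nat_lit 5) (nat_lit 465) (nat_lit 376) (nat_lit 179))))) (XT.nd (nat_lit 312) (nat_lit 304) (nat_lit 0) (XT.nd (nat_lit 156) (nat_lit 228) (nat_lit 0) (XT.nd (nat_lit 78) (nat_lit 152) (nat_lit 0) (XT.lf (nat_lit 0) (nat_lit 24524492197) (nat_lit 228) (nat_lit 24980725106) (nat_lit 76) (nat_lit 9950772300) (nat_lit 65) (nat_lit 5) (nat_lit 68) (nat_lit 5) (nat_lit 66) (nat_lit 5) (nat_lit 466) (nat_lit 376) (nat_lit 178)) (XT.lf (nat_lit 0) (nat_lit 6753273134) (nat_lit 152) (nat_lit 32553050459) (nat_lit 228) (nat_lit 21393934306) (nat_lit 63) (nat_lit 5) (nat_lit 65) (nat_lit 5) (nat_lit 66) (nat_lit 5) (nat_lit 467) (nat_lit 376) (nat_lit 177))) (XT.nd (nat_lit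 78) (nat_lit 228) (nat_lit 0) (XT.lf (nat_lit 0) (nat_lit 39945975003) (nat_lit 152) (nat_lit 14834898455) (nat_lit 228) (nat_lit 7193503154) (nat_lit 63) (nat_lit 5) (nat_lit 65) (nat_lit 5) (nat_lit 66) (nat_lit 5) (nat_lit 468) (nat_lit 376) (nat_lit 176)) (XT.lf (nat_lit 0) (nat_lit 7425116113) (nat_lit 228) (nat_lit 52330696380) (nat_lit 76) (nat_lit 3524646596) (nat_lit 60) (nat_lit 5) (nat_lit 63) (nat_lit 5) (nat_lit 61) (nat_lit 5) (nat_lit 469) (nat_lit 376) (nat_lit 175)))) (XT.nd (nat_lit 156) (nat_lit 152) (nat_lit 0) (XT.nd (nat_lit 78) (nat_lit 152) (nat_lit 0) (XT.lf (nat_lit 0) (nat_lit 22706315740) (nat_lit 228) (nat_lit 19475834445) (nat_lit 76) (nat_lit 22430379299) (nat_lit 60) (nat_lit 5) (nat_lit 63) (nat_lit 5) (nat_lit 61) (nat_lit 5) (nat_lit 470) (nat_lit 376) (nat_lit 174)) (XT.lf (nat_lit 0) (nat_lit 14645299668) (nat_lit 152) (nat_lit 23938594192) (nat_lit 228) (nat_lit 27396530099)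 (nat_lit 58) (nat_lit 5) (nat_lit 60) (nat_lit 5) (nat_lit 61) (nat_lit 5) (nat_lit 471) (nat_lit 376) (nat_lit 173))) (XT.nd (nat_lit 78) (nat_lit 152) (nat_lit 0) (XT.lf (nat_lit 0) (nat_lit 50184197642) (nat_lit 152) (nat_lit 4947465901) (nat_lit 228) (nat_lit 12251876035) (nat_lit 58) (nat_lit 5) (nat_lit 60) (nat_lit 5) (nat_lit 61) (nat_lit 5) (nat_lit 472) (nat_lit 376) (nat_lit 172)) (XT.lf (nat_lit 0) (nat_lit 3597282690) (nat_lit 152) (nat_lit 50685067255) (nat_lit 76) (nat_lit 14535969327) (nat_lit 56) (nat_lit 5) (nat_lit 58) (nat_lit 5) (nat_lit 57) (nat_lit 5) (nat_lit 473) (nat_lit 376) (nat_lit 171))))))) (XT.nd (nat_lit 45786) (nat_lit 0) (nat_lit 16416) (XT.nd (nat_lit 546) (nat_lit 304) (nat_lit 0) (XT.nd (nat_lit 234) (nat_lit 304) (nat_lit 0) (XT.nd (nat_lit 78) (nat_lit 152) (nat_lit 0) (XT.lf (nat_lit 0) (nat_lit 19897311374) (nat_lit 152) (nat_lit 15589571535) (nat_lit 76) (nat_lit 34798971120)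 (nat_lit 56) (nat_lit 5) (nat_lit 58) (nat_lit 5) (nat_lit 57) (nat_lit 5) (nat_lit 474) (nat_lit 376) (nat_lit 170)) (XT.nd (nat_lit 78) (nat_lit 0) (nat_lit 0) (XT.lf (nat_lit 0) (nat_lit 20962975623) (nat_lit 152) (nat_lit 15922215730) (nat_lit 228) (nat_lit 34906258172) (nat_lit 54) (nat_lit 5) (nat_lit 56) (nat_lit 5) (nat_lit 57) (nat_lit 5) (nat_lit 475) (nat_lit 376) (nat_lit 169)) (XT.lf (nat_lit 0) (nat_lit 54579697336) (nat_lit 228) (nat_lit 14452920839) (nat_lit 76) (nat_lit 4303685229) (nat_lit 54) (nat_lit 5) (nat_lit 57) (nat_lit 5) (nat_lit 55) (nat_lit 4) (nat_lit 476) (nat_lit 376) (nat_lit 168)))) (XT.nd (nat_lit 156) (nat_lit 152) (nat_lit 0) (XT.nd (nat_lit 78) (nat_lit 76) (nat_lit 0) (XT.lf (nat_lit 0) (nat_lit 23306298626) (nat_lit 76) (nat_lit 49877848460) (nat_lit 152) (nat_lit 1731982753) (nat_lit 53) (nat_lit 5) (nat_lit 54) (nat_lit 5) (nat_lit 55) (nat_lit 4) (nat_lit 477) (nat_lit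 376) (nat_lit 167)) (XT.lf (nat_lit 0) (nat_lit 15639822459) (nat_lit 152) (nat_lit 14202513146) (nat_lit 76) (nat_lit 46692113574) (nat_lit 52) (nat_lit 5) (nat_lit 54) (nat_lit 5) (nat_lit 53) (nat_lit 5) (nat_lit 478) (nat_lit 376) (nat_lit 166))) (XT.nd (nat_lit 78) (nat_lit 0) (nat_lit 0) (XT.lf (nat_lit 0) (nat_lit 24788987793) (nat_lit 152) (nat_lit 8944777458) (nat_lit 228) (nat_lit 44459964744) (nat_lit 50) (nat_lit 5) (nat_lit 52) (nat_lit 5) (nat_lit 53) (nat_lit 5) (nat_lit 479) (nat_lit 376) (nat_lit 165)) (XT.lf (nat_lit 0) (nat_lit 52633803828) (nat_lit 228) (nat_lit 14784078613) (nat_lit 76) (nat_lit 12477008646) (nat_lit 50) (nat_lit 5) (nat_lit 53) (nat_lit 5) (nat_lit 51) (nat_lit 4) (nat_lit 480) (nat_lit 376) (nat_lit 164))))) (XT.nd (nat_lit 234) (nat_lit 0) (nat_lit 0) (XT.nd (nat_lit 78) (nat_lit 228) (nat_lit 0) (XT.lf (nat_lit 0) (nat_lit 25397759606) (nat_lit 76) (nat_lit 47033373402)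 (nat_lit 152) (nat_lit 9206045488) (nat_lit 49) (nat_lit 5) (nat_lit 50) (nat_lit 5) (nat_lit 51) (nat_lit 4) (nat_lit 481) (nat_lit 376) (nat_lit 163)) (XT.nd (nat_lit 78) (nat_lit 152) (nat_lit 0) (XT.lf (nat_lit 0) (nat_lit 9355762779) (nat_lit 152) (nat_lit 16435379508) (nat_lit 76) (nat_lit 57633433527) (nat_lit 48) (nat_lit 5) (nat_lit 50) (nat_lit 5) (nat_lit 49) (nat_lit 5) (nat_lit 482) (nat_lit 376) (nat_lit 162)) (XT.lf (nat_lit 0) (nat_lit 24954220559) (nat_lit 152) (nat_lit 3572709973) (nat_lit 228) (nat_lit 56728804077) (nat_lit 46) (nat_lit 5) (nat_lit 48) (nat_lit 5) (nat_lit 49) (nat_lit 5) (nat_lit 483) (nat_lit 376) (nat_lit 161)))) (XT.nd (nat_lit 44850) (nat_lit 0) (nat_lit 17328) (XT.nd (nat_lit 44772) (nat_lit 0) (nat_lit 17328) (XT.lf (nat_lit 0) (nat_lit 48624152784) (nat_lit 228) (nat_lit 19406081784) (nat_lit 76) (nat_lit 19101066168) (nat_lit 46) (nat_lit 5) (nat_lit 49) (nat_lit 5)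 (nat_lit 47) (nat_lit 4) (nat_lit 484) (nat_lit 376) (nat_lit 160)) (XT.lf (nat_lit 0) (nat_lit 1561103086) (nat_lit 0) (nat_lit 1561103086) (nat_lit 1140) (nat_lit 3098666009) (nat_lit 274) (nat_lit 5) (nat_lit 274) (nat_lit 3) (nat_lit 289) (nat_lit 3) (nat_lit 377) (nat_lit 377) (nat_lit 266))) (XT.nd (nat_lit 78) (nat_lit 0) (nat_lit 0) (XT.lf (nat_lit 0) (nat_lit 6796652727) (nat_lit 1140) (nat_lit 3291255662) (nat_lit 1216) (nat_lit 2526557286) (nat_lit 274) (nat_lit 5) (nat_lit 289) (nat_lit 3) (nat_lit 290) (nat_lit 5) (nat_lit 378) (nat_lit 377) (nat_lit 265)) (XT.lf (nat_lit 76) (nat_lit 2935178192) (nat_lit 0) (nat_lit 4472561002) (nat_lit 1216) (nat_lit 5383366828) (nat_lit 275) (nat_lit 5) (nat_lit 274) (nat_lit 5) (nat_lit 290) (nat_lit 5) (nat_lit 379) (nat_lit 377) (nat_lit 264)))))) (XT.nd (nat_lit 546) (nat_lit 988) (nat_lit 0) (XT.nd (nat_lit 234) (nat_lit 0) (nat_lit 76) (XT.nd (nat_lit 78)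 (nat_lit 0) (nat_lit 0) (XT.lf (nat_lit 0) (nat_lit 8066954604) (nat_lit 1140) (nat_lit 3578651562) (nat_lit 1216) (nat_lit 1326551116) (nat_lit 275) (nat_lit 5) (nat_lit 290) (nat_lit 5) (nat_lit 291) (nat_lit 5) (nat_lit 380) (nat_lit 377) (nat_lit 263)) (XT.nd (nat_lit 78) (nat_lit 0) (nat_lit 76) (XT.lf (nat_lit 76) (nat_lit 2889786224) (nat_lit 0) (nat_lit 5912325846) (nat_lit 1216) (nat_lit 4354848471) (nat_lit 276) (nat_lit 5) (nat_lit 275) (nat_lit 5) (nat_lit 291) (nat_lit 5) (nat_lit 381) (nat_lit 377) (nat_lit 262)) (XT.lf (nat_lit 0) (nat_lit 9580291914) (nat_lit 1140) (nat_lit 3730583053) (nat_lit 1216) (nat_lit 35809175) (nat_lit 276) (nat_lit 5) (nat_lit 291) (nat_lit 5) (nat_lit 292) (nat_lit 5) (nat_lit 382) (nat_lit 377) (nat_lit 261)))) (XT.nd (nat_lit 156) (nat_lit 0) (nat_lit 76) (XT.nd (nat_lit 78) (nat_lit 0) (nat_lit 0) (XT.lf (nat_lit 76) (nat_lit 2992540781) (nat_lit 0) (nat_lit 7461570902)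 (nat_lit 1216) (nat_lit 3085824051) (nat_lit 277) (nat_lit 5) (nat_lit 276) (nat_lit 5) (nat_lit 292) (nat_lit 5) (nat_lit 383) (nat_lit 377) (nat_lit 260)) (XT.lf (nat_lit 76) (nat_lit 9984501468) (nat_lit 0) (nat_lit 1392654153) (nat_lit 1216) (nat_lit 2361143936) (nat_lit 277) (nat_lit 5) (nat_lit 276) (nat_lit 5) (nat_lit 292) (nat_lit 5) (nat_lit 384) (nat_lit 377) (nat_lit 259))) (XT.nd (nat_lit 78) (nat_lit 0) (nat_lit 0) (XT.lf (nat_lit 76) (nat_lit 3250800220) (nat_lit 0) (nat_lit 9140855388) (nat_lit 1216) (nat_lit 1549050570) (nat_lit 278) (nat_lit 5) (nat_lit 277) (nat_lit 5) (nat_lit 293) (nat_lit 5) (nat_lit 385) (nat_lit 377) (nat_lit 258)) (XT.lf (nat_lit 76) (nat_lit 10518976073) (nat_lit 0) (nat_lit 2955311157) (nat_lit 1216) (nat_lit 673771552) (nat_lit 278) (nat_lit 5) (nat_lit 277) (nat_lit 5) (nat_lit 293) (nat_lit 5) (nat_lit 386) (nat_lit 377) (nat_lit 257))))) (XT.nd (nat_lit 312) (nat_lit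 0) (nat_lit 152) (XT.nd (nat_lit 156) (nat_lit 0) (nat_lit 76) (XT.nd (nat_lit 78) (nat_lit 0) (nat_lit 0) (XT.lf (nat_lit 0) (nat_lit 278580547) (nat_lit 1216) (nat_lit 10689947321) (nat_lit 1292) (nat_lit 3391385052) (nat_lit 262) (nat_lit 5) (nat_lit 278) (nat_lit 5) (nat_lit 279) (nat_lit 5) (nat_lit 387) (nat_lit 377) (nat_lit 256)) (XT.lf (nat_lit 0) (nat_lit 1298978205) (nat_lit 1216) (nat_lit 3360734264) (nat_lit 1292) (nat_lit 9916623857) (nat_lit 262) (nat_lit 5) (nat_lit 278) (nat_lit 5) (nat_lit 279) (nat_lit 5) (nat_lit 388) (nat_lit 377) (nat_lit 255))) (XT.nd (nat_lit 78) (nat_lit 0) (nat_lit 0) (XT.lf (nat_lit 0) (nat_lit 2396199466) (nat_lit 1216) (nat_lit 10554509887) (nat_lit 1292) (nat_lit 1847160893) (nat_lit 263) (nat_lit 5) (nat_lit 279) (nat_lit 5) (nat_lit 280) (nat_lit 5) (nat_lit 389) (nat_lit 377) (nat_lit 254)) (XT.lf (nat_lit 0) (nat_lit 3594193828) (nat_lit 1216) (nat_lit 2936862349)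 (nat_lit 1292) (nat_lit 8492962354) (nat_lit 263) (nat_lit 5) (nat_lit 279) (nat_lit 5) (nat_lit 280) (nat_lit 5) (nat_lit 390) (nat_lit 377) (nat_lit 253)))) (XT.nd (nat_lit 156) (nat_lit 0) (nat_lit 0) (XT.nd (nat_lit 78) (nat_lit 0) (nat_lit 0) (XT.lf (nat_lit 0) (nat_lit 4865259920) (nat_lit 1216) (nat_lit 10259873244) (nat_lit 1292) (nat_lit 130708065) (nat_lit 264) (nat_lit 5) (nat_lit 280) (nat_lit 5) (nat_lit 281) (nat_lit 5) (nat_lit 391) (nat_lit 377) (nat_lit 252)) (XT.lf (nat_lit 0) (nat_lit 6257173465) (nat_lit 1216) (nat_lit 2341533972) (nat_lit 1292) (nat_lit 6893433519) (nat_lit 264) (nat_lit 5) (nat_lit 280) (nat_lit 5) (nat_lit 281) (nat_lit 5) (nat_lit 392) (nat_lit 377) (nat_lit 251))) (XT.nd (nat_lit 78) (nat_lit 0) (nat_lit 76) (XT.lf (nat_lit 76) (nat_lit 5920335423) (nat_lit 0) (nat_lit 1815866807) (nat_lit 1292) (nat_lit 7997970406) (nat_lit 265) (nat_lit 5) (nat_lit 264) (nat_lit 5) (nat_lit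 281) (nat_lit 5) (nat_lit 393) (nat_lit 377) (nat_lit 250)) (XT.lf (nat_lit 0) (nat_lit 9321893821) (nat_lit 1216) (nat_lit 1564445713) (nat_lit 76) (nat_lit 5095260565) (nat_lit 265) (nat_lit 5) (nat_lit 281) (nat_lit 5) (nat_lit 266) (nat_lit 5) (nat_lit 394) (nat_lit 377) (nat_lit 249))))))))
noncomputable def xc184 : XT := (XT.nd (nat_lit 2184) (nat_lit 4636) (nat_lit 0) (XT.nd (nat_lit 1092) (nat_lit 3496) (nat_lit 0) (XT.nd (nat_lit 546) (nat_lit 2128) (nat_lit 0) (XT.nd (nat_lit 234) (nat_lit 1292) (nat_lit 0) (XT.nd (nat_lit 78) (nat_lit 684) (nat_lit 0) (XT.lf (nat_lit 0) (nat_lit 7042341835) (nat_lit 1216) (nat_lit 3987528632) (nat_lit 1292) (nat_lit 5204341976) (nat_lit 249) (nat_lit 5) (nat_lit 265) (nat_lit 5) (nat_lit 266) (nat_lit 5) (nat_lit 395) (nat_lit 377) (nat_lit 248)) (XT.nd (nat_lit 78) (nat_lit 684) (nat_lit 0) (XT.lf (nat_lit 0) (nat_lit 12824296275) (nat_lit 1292) (nat_lit 594430161)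 (nat_lit 76) (nat_lit 3074623808) (nat_lit 249) (nat_lit 5) (nat_lit 266) (nat_lit 5) (nat_lit 250) (nat_lit 5) (nat_lit 396) (nat_lit 377) (nat_lit 247)) (XT.lf (nat_lit 0) (nat_lit 8375399218) (nat_lit 684) (nat_lit 6406738902) (nat_lit 760) (nat_lit 1974839847) (nat_lit 240) (nat_lit 5) (nat_lit 249) (nat_lit 5) (nat_lit 250) (nat_lit 5) (nat_lit 397) (nat_lit 377) (nat_lit 246)))) (XT.nd (nat_lit 156) (nat_lit 608) (nat_lit 0) (XT.nd (nat_lit 78) (nat_lit 76) (nat_lit 0) (XT.lf (nat_lit 0) (nat_lit 592117383) (nat_lit 608) (nat_lit 16216005566) (nat_lit 684) (nat_lit 220112533) (nat_lit 232) (nat_lit 5) (nat_lit 240) (nat_lit 5) (nat_lit 241) (nat_lit 5) (nat_lit 398) (nat_lit 377) (nat_lit 245)) (XT.lf (nat_lit 0) (nat_lit 1695108247) (nat_lit 684) (nat_lit 7387601936) (nat_lit 76) (nat_lit 8220301071) (nat_lit 231) (nat_lit 5) (nat_lit 240) (nat_lit 5) (nat_lit 232) (nat_lit 5) (nat_lit 399) (nat_lit 377)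 (nat_lit 244))) (XT.nd (nat_lit 78) (nat_lit 0) (nat_lit 0) (XT.lf (nat_lit 0) (nat_lit 1958881074) (nat_lit 608) (nat_lit 1713520375) (nat_lit 684) (nat_lit 13913295196) (nat_lit 223) (nat_lit 5) (nat_lit 231) (nat_lit 5) (nat_lit 232) (nat_lit 5) (nat_lit 400) (nat_lit 377) (nat_lit 243)) (XT.lf (nat_lit 0) (nat_lit 5831248997) (nat_lit 684) (nat_lit 6204389757) (nat_lit 76) (nat_lit 5837559611) (nat_lit 223) (nat_lit 5) (nat_lit 232) (nat_lit 5) (nat_lit 224) (nat_lit 5) (nat_lit 401) (nat_lit 377) (nat_lit 242))))) (XT.nd (nat_lit 234) (nat_lit 1064) (nat_lit 0) (XT.nd (nat_lit 78) (nat_lit 532) (nat_lit 0) (XT.lf (nat_lit 0) (nat_lit 3543439171) (nat_lit 532) (nat_lit 4553135265) (nat_lit 608) (nat_lit 10071502078) (nat_lit 216) (nat_lit 5) (nat_lit 223) (nat_lit 5) (nat_lit 224) (nat_lit 5) (nat_lit 402) (nat_lit 377) (nat_lit 241)) (XT.nd (nat_lit 78) (nat_lit 532) (nat_lit 0) (XT.lf (nat_lit 0) (nat_lit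 10514313229) (nat_lit 608) (nat_lit 4799602819) (nat_lit 76) (nat_lit 3155354024) (nat_lit 216) (nat_lit 5) (nat_lit 224) (nat_lit 5) (nat_lit 217) (nat_lit 5) (nat_lit 403) (nat_lit 377) (nat_lit 240)) (XT.lf (nat_lit 0) (nat_lit 5370550236) (nat_lit 532) (nat_lit 7721870024) (nat_lit 608) (nat_lit 5684446689) (nat_lit 209) (nat_lit 5) (nat_lit 216) (nat_lit 5) (nat_lit 217) (nat_lit 5) (nat_lit 404) (nat_lit 377) (nat_lit 239)))) (XT.nd (nat_lit 156) (nat_lit 608) (nat_lit 0) (XT.nd (nat_lit 78) (nat_lit 456) (nat_lit 0) (XT.lf (nat_lit 0) (nat_lit 15789052851) (nat_lit 608) (nat_lit 3158981215) (nat_lit 76) (nat_lit 144424713) (nat_lit 209) (nat_lit 5) (nat_lit 217) (nat_lit 5) (nat_lit 210) (nat_lit 5) (nat_lit 405) (nat_lit 377) (nat_lit 238)) (XT.lf (nat_lit 0) (nat_lit 7455565104) (nat_lit 456) (nat_lit 11250688956) (nat_lit 532) (nat_lit 707076659) (nat_lit 203) (nat_lit 5) (nat_lit 209) (nat_lit 5) (nat_lit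 210) (nat_lit 5) (nat_lit 406) (nat_lit 377) (nat_lit 237))) (XT.nd (nat_lit 78) (nat_lit 532) (nat_lit 0) (XT.lf (nat_lit 0) (nat_lit 1952593616) (nat_lit 532) (nat_lit 1318111688) (nat_lit 76) (nat_lit 16471843424) (nat_lit 202) (nat_lit 5) (nat_lit 209) (nat_lit 5) (nat_lit 203) (nat_lit 5) (nat_lit 407) (nat_lit 377) (nat_lit 236)) (XT.lf (nat_lit 0) (nat_lit 4812632454) (nat_lit 608) (nat_lit 10311179115) (nat_lit 76) (nat_lit 4953580221) (nat_lit 195) (nat_lit 5) (nat_lit 203) (nat_lit 5) (nat_lit 196) (nat_lit 5) (nat_lit 408) (nat_lit 377) (nat_lit 235)))))) (XT.nd (nat_lit 546) (nat_lit 1596) (nat_lit 0) (XT.nd (nat_lit 234) (nat_lit 988) (nat_lit 0) (XT.nd (nat_lit 78) (nat_lit 456) (nat_lit 0) (XT.lf (nat_lit 0) (nat_lit 761357080) (nat_lit 456) (nat_lit 7042266623) (nat_lit 532) (nat_lit 12617304075) (nat_lit 189) (nat_lit 5) (nat_lit 195) (nat_lit 5) (nat_lit 196) (nat_lit 5) (nat_lit 409) (nat_lit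 377) (nat_lit 234)) (XT.nd (nat_lit 78) (nat_lit 456) (nat_lit 0) (XT.lf (nat_lit 0) (nat_lit 10993959561) (nat_lit 532) (nat_lit 8416885427) (nat_lit 76) (nat_lit 1360638522) (nat_lit 189) (nat_lit 5) (nat_lit 196) (nat_lit 5) (nat_lit 190) (nat_lit 5) (nat_lit 410) (nat_lit 377) (nat_lit 233)) (XT.lf (nat_lit 0) (nat_lit 3145684206) (nat_lit 456) (nat_lit 11226654396) (nat_lit 532) (nat_lit 6757449366) (nat_lit 183) (nat_lit 5) (nat_lit 189) (nat_lit 5) (nat_lit 190) (nat_lit 5) (nat_lit 411) (nat_lit 377) (nat_lit 232)))) (XT.nd (nat_lit 156) (nat_lit 532) (nat_lit 0) (XT.nd (nat_lit 78) (nat_lit 456) (nat_lit 0) (XT.lf (nat_lit 0) (nat_lit 15218703184) (nat_lit 456) (nat_lit 2710865391) (nat_lit 532) (nat_lit 3566949985) (nat_lit 183) (nat_lit 5) (nat_lit 189) (nat_lit 5) (nat_lit 190) (nat_lit 5) (nat_lit 412) (nat_lit 377) (nat_lit 231)) (XT.lf (nat_lit 0) (nat_lit 5826184257) (nat_lit 456) (nat_lit 15874302360)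 (nat_lit 532) (nat_lit 170557248) (nat_lit 177) (nat_lit 5) (nat_lit 183) (nat_lit 5) (nat_lit 184) (nat_lit 5) (nat_lit 413) (nat_lit 377) (nat_lit 230))) (XT.nd (nat_lit 78) (nat_lit 456) (nat_lit 0) (XT.lf (nat_lit 0) (nat_lit 3346417696) (nat_lit 532) (nat_lit 3901335686) (nat_lit 76) (nat_lit 15005584931) (nat_lit 176) (nat_lit 5) (nat_lit 183) (nat_lit 5) (nat_lit 177) (nat_lit 5) (nat_lit 414) (nat_lit 377) (nat_lit 229)) (XT.lf (nat_lit 0) (nat_lit 7059301369) (nat_lit 532) (nat_lit 13894135397) (nat_lit 76) (nat_lit 1690801109) (nat_lit 170) (nat_lit 5) (nat_lit 177) (nat_lit 5) (nat_lit 171) (nat_lit 5) (nat_lit 415) (nat_lit 377) (nat_lit 228))))) (XT.nd (nat_lit 234) (nat_lit 836) (nat_lit 0) (XT.nd (nat_lit 78) (nat_lit 760) (nat_lit 0) (XT.lf (nat_lit 0) (nat_lit 10988198125) (nat_lit 532) (nat_lit 1265590282) (nat_lit 76) (nat_lit 10789938935) (nat_lit 170) (nat_lit 5) (nat_lit 177) (nat_lit 5) (nat_lit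 171) (nat_lit 5) (nat_lit 416) (nat_lit 377) (nat_lit 227)) (XT.nd (nat_lit 78) (nat_lit 380) (nat_lit 0) (XT.lf (nat_lit 0) (nat_lit 11966767586) (nat_lit 380) (nat_lit 3176508359) (nat_lit 456) (nat_lit 8308677787) (nat_lit 165) (nat_lit 5) (nat_lit 170) (nat_lit 5) (nat_lit 171) (nat_lit 5) (nat_lit 417) (nat_lit 377) (nat_lit 226)) (XT.lf (nat_lit 0) (nat_lit 1715346400) (nat_lit 380) (nat_lit 17789773181) (nat_lit 456) (nat_lit 4364845545) (nat_lit 160) (nat_lit 5) (nat_lit 165) (nat_lit 5) (nat_lit 166) (nat_lit 5) (nat_lit 418) (nat_lit 377) (nat_lit 225)))) (XT.nd (nat_lit 156) (nat_lit 380) (nat_lit 0) (XT.nd (nat_lit 78) (nat_lit 456) (nat_lit 0) (XT.lf (nat_lit 0) (nat_lit 15506682169) (nat_lit 380) (nat_lit 8631745411) (nat_lit 456) (nat_lit 157872579) (nat_lit 160) (nat_lit 5) (nat_lit 165) (nat_lit 5) (nat_lit 166) (nat_lit 5) (nat_lit 419) (nat_lit 377) (nat_lit 224)) (XT.lf (nat_lit 0) (nat_lit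 4144315795) (nat_lit 456) (nat_lit 19715701927) (nat_lit 76) (nat_lit 872690486) (nat_lit 154) (nat_lit 5) (nat_lit 160) (nat_lit 5) (nat_lit 155) (nat_lit 5) (nat_lit 420) (nat_lit 377) (nat_lit 223))) (XT.nd (nat_lit 78) (nat_lit 380) (nat_lit 0) (XT.lf (nat_lit 0) (nat_lit 8741196264) (nat_lit 456) (nat_lit 5857979780) (nat_lit 76) (nat_lit 10577923010) (nat_lit 154) (nat_lit 5) (nat_lit 160) (nat_lit 5) (nat_lit 155) (nat_lit 5) (nat_lit 421) (nat_lit 377) (nat_lit 222)) (XT.lf (nat_lit 0) (nat_lit 8574505020) (nat_lit 380) (nat_lit 4977785012) (nat_lit 456) (nat_lit 12080243783) (nat_lit 149) (nat_lit 5) (nat_lit 154) (nat_lit 5) (nat_lit 155) (nat_lit 5) (nat_lit 422) (nat_lit 377) (nat_lit 221))))))) (XT.nd (nat_lit 1092) (nat_lit 1976) (nat_lit 0) (XT.nd (nat_lit 546) (nat_lit 1292) (nat_lit 0) (XT.nd (nat_lit 234) (nat_lit 608) (nat_lit 0) (XT.nd (nat_lit 78) (nat_lit 760) (nat_lit 0) (XT.lf (nat_lit 0)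 (nat_lit 18608829895) (nat_lit 456) (nat_lit 2596175301) (nat_lit 76) (nat_lit 4893594378) (nat_lit 149) (nat_lit 5) (nat_lit 155) (nat_lit 5) (nat_lit 150) (nat_lit 5) (nat_lit 423) (nat_lit 377) (nat_lit 220)) (XT.nd (nat_lit 78) (nat_lit 456) (nat_lit 0) (XT.lf (nat_lit 0) (nat_lit 12485766762) (nat_lit 304) (nat_lit 11494742595) (nat_lit 380) (nat_lit 2593235960) (nat_lit 145) (nat_lit 5) (nat_lit 149) (nat_lit 5) (nat_lit 150) (nat_lit 5) (nat_lit 424) (nat_lit 377) (nat_lit 219)) (XT.lf (nat_lit 0) (nat_lit 998538054) (nat_lit 380) (nat_lit 1434090641) (nat_lit 456) (nat_lit 24628903983) (nat_lit 139) (nat_lit 5) (nat_lit 144) (nat_lit 5) (nat_lit 145) (nat_lit 5) (nat_lit 425) (nat_lit 377) (nat_lit 218)))) (XT.nd (nat_lit 156) (nat_lit 304) (nat_lit 0) (XT.nd (nat_lit 78) (nat_lit 304) (nat_lit 0) (XT.lf (nat_lit 0) (nat_lit 7780884471) (nat_lit 456) (nat_lit 10854387676) (nat_lit 76) (nat_lit 8921200347)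 (nat_lit 139) (nat_lit 5) (nat_lit 145) (nat_lit 5) (nat_lit 140) (nat_lit 5) (nat_lit 426) (nat_lit 377) (nat_lit 217)) (XT.lf (nat_lit 0) (nat_lit 4883582052) (nat_lit 304) (nat_lit 8461558580) (nat_lit 380) (nat_lit 14719454459) (nat_lit 135) (nat_lit 5) (nat_lit 139) (nat_lit 5) (nat_lit 140) (nat_lit 5) (nat_lit 427) (nat_lit 377) (nat_lit 216))) (XT.nd (nat_lit 78) (nat_lit 304) (nat_lit 0) (XT.lf (nat_lit 0) (nat_lit 19200883283) (nat_lit 380) (nat_lit 7297012822) (nat_lit 76) (nat_lit 2086329631) (nat_lit 135) (nat_lit 5) (nat_lit 140) (nat_lit 5) (nat_lit 136) (nat_lit 5) (nat_lit 428) (nat_lit 377) (nat_lit 215)) (XT.lf (nat_lit 0) (nat_lit 9150465328) (nat_lit 304) (nat_lit 16248204915) (nat_lit 380) (nat_lit 3715784996) (nat_lit 131) (nat_lit 5) (nat_lit 135) (nat_lit 5) (nat_lit 136) (nat_lit 5) (nat_lit 429) (nat_lit 377) (nat_lit 214))))) (XT.nd (nat_lit 234) (nat_lit 608) (nat_lit 0) (XT.nd (nat_lit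 78) (nat_lit 608) (nat_lit 0) (XT.lf (nat_lit 0) (nat_lit 2149473131) (nat_lit 380) (nat_lit 3446410588) (nat_lit 76) (nat_lit 24062024728) (nat_lit 130) (nat_lit 5) (nat_lit 135) (nat_lit 5) (nat_lit 131) (nat_lit 5) (nat_lit 430) (nat_lit 377) (nat_lit 213)) (XT.nd (nat_lit 78) (nat_lit 304) (nat_lit 0) (XT.lf (nat_lit 0) (nat_lit 8296725887) (nat_lit 380) (nat_lit 16474670251) (nat_lit 76) (nat_lit 5439744810) (nat_lit 126) (nat_lit 5) (nat_lit 131) (nat_lit 5) (nat_lit 127) (nat_lit 5) (nat_lit 431) (nat_lit 377) (nat_lit 212)) (XT.lf (nat_lit 0) (nat_lit 675307986) (nat_lit 304) (nat_lit 14045004160) (nat_lit 380) (nat_lit 16057901775) (nat_lit 122) (nat_lit 5) (nat_lit 126) (nat_lit 5) (nat_lit 127) (nat_lit 5) (nat_lit 432) (nat_lit 377) (nat_lit 211)))) (XT.nd (nat_lit 156) (nat_lit 380) (nat_lit 0) (XT.nd (nat_lit 78) (nat_lit 228) (nat_lit 0) (XT.lf (nat_lit 0) (nat_lit 18669895018) (nat_lit 304) (nat_lit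 2828022160) (nat_lit 380) (nat_lit 9859543520) (nat_lit 122) (nat_lit 5) (nat_lit 126) (nat_lit 5) (nat_lit 127) (nat_lit 5) (nat_lit 433) (nat_lit 377) (nat_lit 210)) (XT.lf (nat_lit 0) (nat_lit 5261523690) (nat_lit 228) (nat_lit 23346850791) (nat_lit 304) (nat_lit 3341825597) (nat_lit 119) (nat_lit 5) (nat_lit 122) (nat_lit 5) (nat_lit 123) (nat_lit 5) (nat_lit 434) (nat_lit 377) (nat_lit 209))) (XT.nd (nat_lit 78) (nat_lit 304) (nat_lit 0) (XT.lf (nat_lit 0) (nat_lit 3458119195) (nat_lit 304) (nat_lit 8616919259) (nat_lit 76) (nat_lit 20480137289) (nat_lit 118) (nat_lit 5) (nat_lit 122) (nat_lit 5) (nat_lit 119) (nat_lit 5) (nat_lit 435) (nat_lit 377) (nat_lit 208)) (XT.lf (nat_lit 0) (nat_lit 10154745573) (nat_lit 304) (nat_lit 333001533) (nat_lit 380) (nat_lit 22686776229) (nat_lit 114) (nat_lit 5) (nat_lit 118) (nat_lit 5) (nat_lit 119) (nat_lit 5) (nat_lit 436) (nat_lit 377) (nat_lit 207)))))) (XT.nd (nat_lit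 546) (nat_lit 988) (nat_lit 0) (XT.nd (nat_lit 234) (nat_lit 532) (nat_lit 0) (XT.nd (nat_lit 78) (nat_lit 456) (nat_lit 0) (XT.lf (nat_lit 0) (nat_lit 17924479248) (nat_lit 380) (nat_lit 4264919167) (nat_lit 76) (nat_lit 11617167297) (nat_lit 114) (nat_lit 5) (nat_lit 119) (nat_lit 5) (nat_lit 115) (nat_lit 5) (nat_lit 437) (nat_lit 377) (nat_lit 206)) (XT.nd (nat_lit 78) (nat_lit 228) (nat_lit 0) (XT.lf (nat_lit 0) (nat_lit 15341511950) (nat_lit 228) (nat_lit 10388990934) (nat_lit 304) (nat_lit 8722681586) (nat_lit 111) (nat_lit 5) (nat_lit 114) (nat_lit 5) (nat_lit 115) (nat_lit 5) (nat_lit 438) (nat_lit 377) (nat_lit 205)) (XT.lf (nat_lit 0) (nat_lit 490644450) (nat_lit 228) (nat_lit 33340704524) (nat_lit 304) (nat_lit 1286034335) (nat_lit 108) (nat_lit 5) (nat_lit 111) (nat_lit 5) (nat_lit 112) (nat_lit 5) (nat_lit 439) (nat_lit 377) (nat_lit 204)))) (XT.nd (nat_lit 156) (nat_lit 228) (nat_lit 0) (XT.nd (nat_lit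 78) (nat_lit 228) (nat_lit 0) (XT.lf (nat_lit 0) (nat_lit 6542580775) (nat_lit 304) (nat_lit 14896163161) (nat_lit 76) (nat_lit 14352129590) (nat_lit 107) (nat_lit 5) (nat_lit 111) (nat_lit 5) (nat_lit 108) (nat_lit 5) (nat_lit 440) (nat_lit 377) (nat_lit 203)) (XT.lf (nat_lit 0) (nat_lit 5514202509) (nat_lit 228) (nat_lit 9114621367) (nat_lit 304) (nat_lit 21853904763) (nat_lit 104) (nat_lit 5) (nat_lit 107) (nat_lit 5) (nat_lit 108) (nat_lit 5) (nat_lit 441) (nat_lit 377) (nat_lit 202))) (XT.nd (nat_lit 78) (nat_lit 228) (nat_lit 0) (XT.lf (nat_lit 0) (nat_lit 23139619227) (nat_lit 304) (nat_lit 10391519028) (nat_lit 76) (nat_lit 3658742886) (nat_lit 104) (nat_lit 5) (nat_lit 108) (nat_lit 5) (nat_lit 105) (nat_lit 5) (nat_lit 442) (nat_lit 377) (nat_lit 201)) (XT.lf (nat_lit 0) (nat_lit 10918791155) (nat_lit 228) (nat_lit 21177923811) (nat_lit 304) (nat_lit 5815804623) (nat_lit 101) (nat_lit 5) (nat_lit 104)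 (nat_lit 5) (nat_lit 105) (nat_lit 5) (nat_lit 443) (nat_lit 377) (nat_lit 200))))) (XT.nd (nat_lit 312) (nat_lit 456) (nat_lit 0) (XT.nd (nat_lit 156) (nat_lit 228) (nat_lit 0) (XT.nd (nat_lit 78) (nat_lit 228) (nat_lit 0) (XT.lf (nat_lit 0) (nat_lit 2715432991) (nat_lit 304) (nat_lit 5605771488) (nat_lit 76) (nat_lit 30331811701) (nat_lit 100) (nat_lit 5) (nat_lit 104) (nat_lit 5) (nat_lit 101) (nat_lit 5) (nat_lit 444) (nat_lit 377) (nat_lit 199)) (XT.lf (nat_lit 0) (nat_lit 11591456701) (nat_lit 304) (nat_lit 22773567412) (nat_lit 76) (nat_lit 5042804471) (nat_lit 97) (nat_lit 5) (nat_lit 101) (nat_lit 5) (nat_lit 98) (nat_lit 5) (nat_lit 445) (nat_lit 377) (nat_lit 198))) (XT.nd (nat_lit 78) (nat_lit 228) (nat_lit 0) (XT.lf (nat_lit 0) (nat_lit 20869261730) (nat_lit 304) (nat_lit 616806343) (nat_lit 76) (nat_lit 18695152861) (nat_lit 97) (nat_lit 5) (nat_lit 101) (nat_lit 5) (nat_lit 98) (nat_lit 5) (nat_lit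 446) (nat_lit 377) (nat_lit 197)) (XT.lf (nat_lit 0) (nat_lit 22639961052) (nat_lit 228) (nat_lit 7999131807) (nat_lit 304) (nat_lit 10332312013) (nat_lit 94) (nat_lit 5) (nat_lit 97) (nat_lit 5) (nat_lit 98) (nat_lit 5) (nat_lit 447) (nat_lit 377) (nat_lit 196)))) (XT.nd (nat_lit 156) (nat_lit 228) (nat_lit 0) (XT.nd (nat_lit 78) (nat_lit 76) (nat_lit 0) (XT.lf (nat_lit 0) (nat_lit 4853460441) (nat_lit 152) (nat_lit 35954235966) (nat_lit 228) (nat_lit 974428151) (nat_lit 92) (nat_lit 5) (nat_lit 94) (nat_lit 5) (nat_lit 95) (nat_lit 5) (nat_lit 448) (nat_lit 377) (nat_lit 195)) (XT.lf (nat_lit 0) (nat_lit 8757370892) (nat_lit 228) (nat_lit 13672768698) (nat_lit 76) (nat_lit 20176660760) (nat_lit 91) (nat_lit 5) (nat_lit 94) (nat_lit 5) (nat_lit 92) (nat_lit 5) (nat_lit 449) (nat_lit 377) (nat_lit 194))) (XT.nd (nat_lit 78) (nat_lit 0) (nat_lit 0) (XT.lf (nat_lit 0) (nat_lit 10469108875) (nat_lit 228) (nat_lit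 8389283445) (nat_lit 304) (nat_lit 24594629567) (nat_lit 88) (nat_lit 5) (nat_lit 91) (nat_lit 5) (nat_lit 92) (nat_lit 5) (nat_lit 450) (nat_lit 377) (nat_lit 193)) (XT.lf (nat_lit 0) (nat_lit 29456498381) (nat_lit 304) (nat_lit 8771072183) (nat_lit 76) (nat_lit 6091238381) (nat_lit 88) (nat_lit 5) (nat_lit 92) (nat_lit 5) (nat_lit 89) (nat_lit 5) (nat_lit 451) (nat_lit 377) (nat_lit 192))))))))
noncomputable def xc185 : XT := (XT.nd (nat_lit 2262) (nat_lit 304) (nat_lit 0) (XT.nd (nat_lit 1092) (nat_lit 1368) (nat_lit 0) (XT.nd (nat_lit 546) (nat_lit 684) (nat_lit 0) (XT.nd (nat_lit 234) (nat_lit 380) (nat_lit 0) (XT.nd (nat_lit 78) (nat_lit 304) (nat_lit 0) (XT.lf (nat_lit 0) (nat_lit 16398916080) (nat_lit 152) (nat_lit 24210682958) (nat_lit 228) (nat_lit 4593859517) (nat_lit 86) (nat_lit 5) (nat_lit 88) (nat_lit 5) (nat_lit 89) (nat_lit 5) (nat_lit 452) (nat_lit 377) (nat_lit 191)) (XT.nd (nat_lit 78) (nat_lit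 228) (nat_lit 0) (XT.lf (nat_lit 0) (nat_lit 5951713793) (nat_lit 228) (nat_lit 3672763691) (nat_lit 76) (nat_lit 36485871006) (nat_lit 85) (nat_lit 5) (nat_lit 88) (nat_lit 5) (nat_lit 86) (nat_lit 5) (nat_lit 453) (nat_lit 377) (nat_lit 190)) (XT.lf (nat_lit 0) (nat_lit 16989540851) (nat_lit 304) (nat_lit 24488616017) (nat_lit 76) (nat_lit 5556877626) (nat_lit 82) (nat_lit 5) (nat_lit 86) (nat_lit 5) (nat_lit 83) (nat_lit 5) (nat_lit 454) (nat_lit 377) (nat_lit 189)))) (XT.nd (nat_lit 156) (nat_lit 228) (nat_lit 0) (XT.nd (nat_lit 78) (nat_lit 0) (nat_lit 0) (XT.lf (nat_lit 0) (nat_lit 1570062431) (nat_lit 152) (nat_lit 26932771389) (nat_lit 228) (nat_lit 19480297751) (nat_lit 80) (nat_lit 5) (nat_lit 82) (nat_lit 5) (nat_lit 83) (nat_lit 5) (nat_lit 455) (nat_lit 377) (nat_lit 188)) (XT.lf (nat_lit 0) (nat_lit 28906521189) (nat_lit 152) (nat_lit 11698828085) (nat_lit 228) (nat_lit 8347007992) (nat_lit 80) (nat_lit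 5) (nat_lit 82) (nat_lit 5) (nat_lit 83) (nat_lit 5) (nat_lit 456) (nat_lit 377) (nat_lit 187))) (XT.nd (nat_lit 78) (nat_lit 0) (nat_lit 0) (XT.lf (nat_lit 0) (nat_lit 3164709361) (nat_lit 228) (nat_lit 42769725275) (nat_lit 76) (nat_lit 4012166161) (nat_lit 77) (nat_lit 5) (nat_lit 80) (nat_lit 5) (nat_lit 78) (nat_lit 5) (nat_lit 457) (nat_lit 377) (nat_lit 186)) (XT.lf (nat_lit 0) (nat_lit 15170892795) (nat_lit 228) (nat_lit 15543774815) (nat_lit 76) (nat_lit 20244018659) (nat_lit 77) (nat_lit 5) (nat_lit 80) (nat_lit 5) (nat_lit 78) (nat_lit 5) (nat_lit 458) (nat_lit 377) (nat_lit 185))))) (XT.nd (nat_lit 234) (nat_lit 304) (nat_lit 0) (XT.nd (nat_lit 78) (nat_lit 228) (nat_lit 0) (XT.lf (nat_lit 0) (nat_lit 12741879035) (nat_lit 152) (nat_lit 14914587125) (nat_lit 228) (nat_lit 24341092382) (nat_lit 75) (nat_lit 5) (nat_lit 77) (nat_lit 5) (nat_lit 78) (nat_lit 5) (nat_lit 459) (nat_lit 377) (nat_lit 184))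 (XT.nd (nat_lit 78) (nat_lit 228) (nat_lit 0) (XT.lf (nat_lit 0) (nat_lit 40684930252) (nat_lit 228) (nat_lit 10888509109) (nat_lit 76) (nat_lit 1489108274) (nat_lit 75) (nat_lit 5) (nat_lit 78) (nat_lit 5) (nat_lit 76) (nat_lit 5) (nat_lit 460) (nat_lit 377) (nat_lit 183)) (XT.lf (nat_lit 0) (nat_lit 271738553) (nat_lit 228) (nat_lit 35614281948) (nat_lit 76) (nat_lit 18263705202) (nat_lit 72) (nat_lit 5) (nat_lit 75) (nat_lit 5) (nat_lit 73) (nat_lit 5) (nat_lit 461) (nat_lit 377) (nat_lit 182)))) (XT.nd (nat_lit 156) (nat_lit 152) (nat_lit 0) (XT.nd (nat_lit 78) (nat_lit 152) (nat_lit 0) (XT.lf (nat_lit 0) (nat_lit 13159680944) (nat_lit 228) (nat_lit 6330115727) (nat_lit 76) (nat_lit 35772809742) (nat_lit 72) (nat_lit 5) (nat_lit 75) (nat_lit 5) (nat_lit 73) (nat_lit 5) (nat_lit 462) (nat_lit 377) (nat_lit 181)) (XT.lf (nat_lit 0) (nat_lit 24301370266) (nat_lit 152) (nat_lit 2363425344) (nat_lit 228) (nat_lit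 29737162232) (nat_lit 70) (nat_lit 5) (nat_lit 72) (nat_lit 5) (nat_lit 73) (nat_lit 5) (nat_lit 463) (nat_lit 377) (nat_lit 180))) (XT.nd (nat_lit 78) (nat_lit 152) (nat_lit 0) (XT.lf (nat_lit 0) (nat_lit 40783417432) (nat_lit 228) (nat_lit 1744920534) (nat_lit 76) (nat_lit 15040901545) (nat_lit 70) (nat_lit 5) (nat_lit 73) (nat_lit 5) (nat_lit 71) (nat_lit 5) (nat_lit 464) (nat_lit 377) (nat_lit 179)) (XT.lf (nat_lit 0) (nat_lit 30079709701) (nat_lit 152) (nat_lit 25555471598) (nat_lit 228) (nat_lit 3127071129) (nat_lit 68) (nat_lit 5) (nat_lit 70) (nat_lit 5) (nat_lit 71) (nat_lit 5) (nat_lit 465) (nat_lit 377) (nat_lit 178)))))) (XT.nd (nat_lit 546) (nat_lit 608) (nat_lit 0) (XT.nd (nat_lit 234) (nat_lit 380) (nat_lit 0) (XT.nd (nat_lit 78) (nat_lit 152) (nat_lit 0) (XT.lf (nat_lit 0) (nat_lit 2849293092) (nat_lit 152) (nat_lit 7920871603) (nat_lit 228) (nat_lit 49216469166) (nat_lit 65) (nat_lit 5) (nat_lit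 67) (nat_lit 5) (nat_lit 68) (nat_lit 5) (nat_lit 466) (nat_lit 377) (nat_lit 177)) (XT.nd (nat_lit 78) (nat_lit 152) (nat_lit 0) (XT.lf (nat_lit 0) (nat_lit 25409490498) (nat_lit 228) (nat_lit 25461589542) (nat_lit 76) (nat_lit 10364097421) (nat_lit 65) (nat_lit 5) (nat_lit 68) (nat_lit 5) (nat_lit 66) (nat_lit 5) (nat_lit 467) (nat_lit 377) (nat_lit 176)) (XT.lf (nat_lit 0) (nat_lit 7221795731) (nat_lit 152) (nat_lit 33411189851) (nat_lit 228) (nat_lit 21883842366) (nat_lit 63) (nat_lit 5) (nat_lit 65) (nat_lit 5) (nat_lit 66) (nat_lit 5) (nat_lit 468) (nat_lit 377) (nat_lit 175)))) (XT.nd (nat_lit 156) (nat_lit 152) (nat_lit 0) (XT.nd (nat_lit 78) (nat_lit 228) (nat_lit 0) (XT.lf (nat_lit 0) (nat_lit 41402533285) (nat_lit 152) (nat_lit 15164943349) (nat_lit 228) (nat_lit 7261822843) (nat_lit 63) (nat_lit 5) (nat_lit 65) (nat_lit 5) (nat_lit 66) (nat_lit 5) (nat_lit 469) (nat_lit 377) (nat_lit 174)) (XT.lf (nat_lit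 0) (nat_lit 7791861626) (nat_lit 228) (nat_lit 53638919749) (nat_lit 76) (nat_lit 3743759354) (nat_lit 60) (nat_lit 5) (nat_lit 63) (nat_lit 5) (nat_lit 61) (nat_lit 5) (nat_lit 470) (nat_lit 377) (nat_lit 173))) (XT.nd (nat_lit 78) (nat_lit 152) (nat_lit 0) (XT.lf (nat_lit 0) (nat_lit 23527303299) (nat_lit 228) (nat_lit 19806034214) (nat_lit 76) (nat_lit 23213361901) (nat_lit 60) (nat_lit 5) (nat_lit 63) (nat_lit 5) (nat_lit 61) (nat_lit 5) (nat_lit 471) (nat_lit 377) (nat_lit 172)) (XT.lf (nat_lit 0) (nat_lit 15336242988) (nat_lit 152) (nat_lit 24543312368) (nat_lit 228) (nat_lit 28076125319) (nat_lit 58) (nat_lit 5) (nat_lit 60) (nat_lit 5) (nat_lit 61) (nat_lit 5) (nat_lit 472) (nat_lit 377) (nat_lit 171))))) (XT.nd (nat_lit 312) (nat_lit 304) (nat_lit 0) (XT.nd (nat_lit 156) (nat_lit 152) (nat_lit 0) (XT.nd (nat_lit 78) (nat_lit 152) (nat_lit 0) (XT.lf (nat_lit 0) (nat_lit 51933980203) (nat_lit 152) (nat_lit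 4985754296) (nat_lit 228) (nat_lit 12481276313) (nat_lit 58) (nat_lit 5) (nat_lit 60) (nat_lit 5) (nat_lit 61) (nat_lit 5) (nat_lit 473) (nat_lit 377) (nat_lit 170)) (XT.lf (nat_lit 0) (nat_lit 3840130398) (nat_lit 152) (nat_lit 51958114203) (nat_lit 76) (nat_lit 15080565701) (nat_lit 56) (nat_lit 5) (nat_lit 58) (nat_lit 5) (nat_lit 57) (nat_lit 5) (nat_lit 474) (nat_lit 377) (nat_lit 169))) (XT.nd (nat_lit 78) (nat_lit 152) (nat_lit 0) (XT.lf (nat_lit 0) (nat_lit 20625229965) (nat_lit 152) (nat_lit 15816962496) (nat_lit 76) (nat_lit 35948296850) (nat_lit 56) (nat_lit 5) (nat_lit 58) (nat_lit 5) (nat_lit 57) (nat_lit 5) (nat_lit 475) (nat_lit 377) (nat_lit 168)) (XT.lf (nat_lit 0) (nat_lit 21829805232) (nat_lit 152) (nat_lit 16291412828) (nat_lit 228) (nat_lit 35820080763) (nat_lit 54) (nat_lit 5) (nat_lit 56) (nat_lit 5) (nat_lit 57) (nat_lit 5) (nat_lit 476) (nat_lit 377) (nat_lit 167)))) (XT.nd (nat_lit 156)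 (nat_lit 228) (nat_lit 0) (XT.nd (nat_lit 78) (nat_lit 76) (nat_lit 0) (XT.lf (nat_lit 0) (nat_lit 56343800527) (nat_lit 228) (nat_lit 14652729965) (nat_lit 76) (nat_lit 4536050879) (nat_lit 54) (nat_lit 5) (nat_lit 57) (nat_lit 5) (nat_lit 55) (nat_lit 4) (nat_lit 477) (nat_lit 377) (nat_lit 166)) (XT.lf (nat_lit 0) (nat_lit 24236974138) (nat_lit 76) (nat_lit 51267944175) (nat_lit 152) (nat_lit 1654928536) (nat_lit 53) (nat_lit 5) (nat_lit 54) (nat_lit 5) (nat_lit 55) (nat_lit 4) (nat_lit 478) (nat_lit 377) (nat_lit 165))) (XT.nd (nat_lit 78) (nat_lit 152) (nat_lit 0) (XT.lf (nat_lit 0) (nat_lit 16231828956) (nat_lit 152) (nat_lit 14401391181) (nat_lit 76) (nat_lit 48193569226) (nat_lit 52) (nat_lit 5) (nat_lit 54) (nat_lit 5) (nat_lit 53) (nat_lit 5) (nat_lit 479) (nat_lit 377) (nat_lit 164)) (XT.lf (nat_lit 0) (nat_lit 25757627361) (nat_lit 152) (nat_lit 9109548175) (nat_lit 228) (nat_lit 45668715761) (nat_lit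 50) (nat_lit 5) (nat_lit 52) (nat_lit 5) (nat_lit 53) (nat_lit 5) (nat_lit 480) (nat_lit 377) (nat_lit 163))))))) (XT.nd (nat_lit 45864) (nat_lit 0) (nat_lit 13452) (XT.nd (nat_lit 45318) (nat_lit 0) (nat_lit 17404) (XT.nd (nat_lit 234) (nat_lit 152) (nat_lit 0) (XT.nd (nat_lit 78) (nat_lit 152) (nat_lit 0) (XT.lf (nat_lit 0) (nat_lit 54331646031) (nat_lit 228) (nat_lit 15006605895) (nat_lit 76) (nat_lit 12949912625) (nat_lit 50) (nat_lit 5) (nat_lit 53) (nat_lit 5) (nat_lit 51) (nat_lit 4) (nat_lit 481) (nat_lit 377) (nat_lit 162)) (XT.nd (nat_lit 78) (nat_lit 76) (nat_lit 0) (XT.lf (nat_lit 0) (nat_lit 26378520852) (nat_lit 76) (nat_lit 48343016736) (nat_lit 152) (nat_lit 9361223967) (nat_lit 49) (nat_lit 5) (nat_lit 50) (nat_lit 5) (nat_lit 51) (nat_lit 4) (nat_lit 482) (nat_lit 377) (nat_lit 161)) (XT.lf (nat_lit 0) (nat_lit 9751621763) (nat_lit 152) (nat_lit 16713685941) (nat_lit 76) (nat_lit 59458542092)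 (nat_lit 48) (nat_lit 5) (nat_lit 50) (nat_lit 5) (nat_lit 49) (nat_lit 5) (nat_lit 483) (nat_lit 377) (nat_lit 160)))) (XT.nd (nat_lit 44928) (nat_lit 0) (nat_lit 17328) (XT.nd (nat_lit 44850) (nat_lit 0) (nat_lit 17328) (XT.lf (nat_lit 0) (nat_lit 25915496687) (nat_lit 152) (nat_lit 3581117044) (nat_lit 228) (nat_lit 58313369173) (nat_lit 46) (nat_lit 5) (nat_lit 48) (nat_lit 5) (nat_lit 49) (nat_lit 5) (nat_lit 484) (nat_lit 377) (nat_lit 159)) (XT.lf (nat_lit 0) (nat_lit 1822753197) (nat_lit 0) (nat_lit 1822753197) (nat_lit 1140) (nat_lit 2748956722) (nat_lit 274) (nat_lit 5) (nat_lit 274) (nat_lit 3) (nat_lit 289) (nat_lit 3) (nat_lit 378) (nat_lit 378) (nat_lit 264))) (XT.nd (nat_lit 78) (nat_lit 0) (nat_lit 0) (XT.lf (nat_lit 0) (nat_lit 7830783541) (nat_lit 1140) (nat_lit 2943552164) (nat_lit 1216) (nat_lit 2193373103) (nat_lit 274) (nat_lit 5) (nat_lit 289) (nat_lit 3) (nat_lit 290) (nat_lit 5) (nat_lit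 379) (nat_lit 378) (nat_lit 263)) (XT.lf (nat_lit 76) (nat_lit 3465297831) (nat_lit 0) (nat_lit 4974972670) (nat_lit 1216) (nat_lit 4709984095) (nat_lit 275) (nat_lit 5) (nat_lit 274) (nat_lit 5) (nat_lit 290) (nat_lit 5) (nat_lit 380) (nat_lit 378) (nat_lit 262))))) (XT.nd (nat_lit 234) (nat_lit 0) (nat_lit 76) (XT.nd (nat_lit 78) (nat_lit 0) (nat_lit 0) (XT.lf (nat_lit 0) (nat_lit 9092224828) (nat_lit 1140) (nat_lit 3229517323) (nat_lit 1216) (nat_lit 1015814397) (nat_lit 275) (nat_lit 5) (nat_lit 290) (nat_lit 5) (nat_lit 291) (nat_lit 5) (nat_lit 381) (nat_lit 378) (nat_lit 261)) (XT.nd (nat_lit 78) (nat_lit 0) (nat_lit 0) (XT.lf (nat_lit 76) (nat_lit 3428498167) (nat_lit 0) (nat_lit 6402470484) (nat_lit 1216) (nat_lit 3697497100) (nat_lit 276) (nat_lit 5) (nat_lit 275) (nat_lit 5) (nat_lit 291) (nat_lit 5) (nat_lit 382) (nat_lit 378) (nat_lit 260)) (XT.lf (nat_lit 76) (nat_lit 10343809346) (nat_lit 0) (nat_lit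 266047411) (nat_lit 1216) (nat_lit 3114710985) (nat_lit 276) (nat_lit 5) (nat_lit 275) (nat_lit 5) (nat_lit 291) (nat_lit 5) (nat_lit 383) (nat_lit 378) (nat_lit 259)))) (XT.nd (nat_lit 156) (nat_lit 0) (nat_lit 76) (XT.nd (nat_lit 78) (nat_lit 0) (nat_lit 0) (XT.lf (nat_lit 76) (nat_lit 3542064608) (nat_lit 0) (nat_lit 7948146768) (nat_lit 1216) (nat_lit 2434003245) (nat_lit 277) (nat_lit 5) (nat_lit 276) (nat_lit 5) (nat_lit 292) (nat_lit 5) (nat_lit 384) (nat_lit 378) (nat_lit 258)) (XT.lf (nat_lit 76) (nat_lit 10730393408) (nat_lit 0) (nat_lit 1689510222) (nat_lit 1216) (nat_lit 1709264150) (nat_lit 277) (nat_lit 5) (nat_lit 276) (nat_lit 5) (nat_lit 292) (nat_lit 5) (nat_lit 385) (nat_lit 378) (nat_lit 257))) (XT.nd (nat_lit 78) (nat_lit 0) (nat_lit 0) (XT.lf (nat_lit 76) (nat_lit 3813805115) (nat_lit 0) (nat_lit 9632697357) (nat_lit 1216) (nat_lit 891701138) (nat_lit 278) (nat_lit 5) (nat_lit 277) (nat_lit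 5) (nat_lit 293) (nat_lit 5) (nat_lit 386) (nat_lit 378) (nat_lit 256)) (XT.lf (nat_lit 76) (nat_lit 11286468548) (nat_lit 0) (nat_lit 3255248460) (nat_lit 1216) (nat_lit 10663388) (nat_lit 278) (nat_lit 5) (nat_lit 277) (nat_lit 5) (nat_lit 293) (nat_lit 5) (nat_lit 387) (nat_lit 378) (nat_lit 255)))))) (XT.nd (nat_lit 546) (nat_lit 2964) (nat_lit 0) (XT.nd (nat_lit 234) (nat_lit 0) (nat_lit 76) (XT.nd (nat_lit 78) (nat_lit 0) (nat_lit 0) (XT.lf (nat_lit 0) (nat_lit 939976812) (nat_lit 1216) (nat_lit 10528011249) (nat_lit 1292) (nat_lit 3302919832) (nat_lit 262) (nat_lit 5) (nat_lit 278) (nat_lit 5) (nat_lit 279) (nat_lit 5) (nat_lit 388) (nat_lit 378) (nat_lit 254)) (XT.nd (nat_lit 78) (nat_lit 0) (nat_lit 76) (XT.lf (nat_lit 0) (nat_lit 1971965850) (nat_lit 1216) (nat_lit 2992979116) (nat_lit 1292) (nat_lit 10029455804) (nat_lit 262) (nat_lit 5) (nat_lit 278) (nat_lit 5) (nat_lit 279) (nat_lit 5) (nat_lit 389)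 (nat_lit 378) (nat_lit 253)) (XT.lf (nat_lit 0) (nat_lit 3086597446) (nat_lit 1216) (nat_lit 10386862582) (nat_lit 1292) (nat_lit 1749591843) (nat_lit 263) (nat_lit 5) (nat_lit 279) (nat_lit 5) (nat_lit 280) (nat_lit 5) (nat_lit 390) (nat_lit 378) (nat_lit 252)))) (XT.nd (nat_lit 156) (nat_lit 0) (nat_lit 76) (XT.nd (nat_lit 78) (nat_lit 0) (nat_lit 76) (XT.lf (nat_lit 0) (nat_lit 4302516727) (nat_lit 1216) (nat_lit 2554790936) (nat_lit 1292) (nat_lit 8599223188) (nat_lit 263) (nat_lit 5) (nat_lit 279) (nat_lit 5) (nat_lit 280) (nat_lit 5) (nat_lit 391) (nat_lit 378) (nat_lit 251)) (XT.lf (nat_lit 0) (nat_lit 5597528000) (nat_lit 1216) (nat_lit 10083117664) (nat_lit 1292) (nat_lit 15093802) (nat_lit 264) (nat_lit 5) (nat_lit 280) (nat_lit 5) (nat_lit 281) (nat_lit 5) (nat_lit 392) (nat_lit 378) (nat_lit 250))) (XT.nd (nat_lit 78) (nat_lit 0) (nat_lit 0) (XT.lf (nat_lit 0) (nat_lit 7014121953) (nat_lit 1216) (nat_lit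 1941341372) (nat_lit 1292) (nat_lit 6984182635) (nat_lit 264) (nat_lit 5) (nat_lit 280) (nat_lit 5) (nat_lit 281) (nat_lit 5) (nat_lit 393) (nat_lit 378) (nat_lit 249)) (XT.lf (nat_lit 76) (nat_lit 6563771961) (nat_lit 0) (nat_lit 1961647819) (nat_lit 1292) (nat_lit 7663887173) (nat_lit 265) (nat_lit 5) (nat_lit 264) (nat_lit 5) (nat_lit 281) (nat_lit 5) (nat_lit 394) (nat_lit 378) (nat_lit 248))))) (XT.nd (nat_lit 312) (nat_lit 1292) (nat_lit 0) (XT.nd (nat_lit 156) (nat_lit 684) (nat_lit 0) (XT.nd (nat_lit 78) (nat_lit 1216) (nat_lit 0) (XT.lf (nat_lit 0) (nat_lit 10141602871) (nat_lit 1216) (nat_lit 1141869358) (nat_lit 76) (nat_lit 5161202540) (nat_lit 265) (nat_lit 5) (nat_lit 281) (nat_lit 5) (nat_lit 266) (nat_lit 5) (nat_lit 395) (nat_lit 378) (nat_lit 247)) (XT.lf (nat_lit 0) (nat_lit 7718518779) (nat_lit 1216) (nat_lit 4171039328) (nat_lit 1292) (nat_lit 4815650200) (nat_lit 249) (nat_lit 5) (nat_lit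 265) (nat_lit 5) (nat_lit 266) (nat_lit 5) (nat_lit 396) (nat_lit 378) (nat_lit 246))) (XT.nd (nat_lit 78) (nat_lit 684) (nat_lit 0) (XT.lf (nat_lit 0) (nat_lit 13721818781) (nat_lit 1292) (nat_lit 144737534) (nat_lit 76) (nat_lit 3106048723) (nat_lit 249) (nat_lit 5) (nat_lit 266) (nat_lit 5) (nat_lit 250) (nat_lit 5) (nat_lit 397) (nat_lit 378) (nat_lit 245)) (XT.lf (nat_lit 0) (nat_lit 9089603143) (nat_lit 684) (nat_lit 6638307083) (nat_lit 760) (nat_lit 1516550652) (nat_lit 240) (nat_lit 5) (nat_lit 249) (nat_lit 5) (nat_lit 250) (nat_lit 5) (nat_lit 398) (nat_lit 378) (nat_lit 244)))) (XT.nd (nat_lit 156) (nat_lit 608) (nat_lit 0) (XT.nd (nat_lit 78) (nat_lit 0) (nat_lit 0) (XT.lf (nat_lit 0) (nat_lit 274592951) (nat_lit 684) (nat_lit 16443130010) (nat_lit 76) (nat_lit 806370254) (nat_lit 231) (nat_lit 5) (nat_lit 240) (nat_lit 5) (nat_lit 232) (nat_lit 5) (nat_lit 399) (nat_lit 378) (nat_lit 243)) (XT.lf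 (nat_lit 0) (nat_lit 2228373938) (nat_lit 684) (nat_lit 7139431645) (nat_lit 76) (nat_lit 8439679785) (nat_lit 231) (nat_lit 5) (nat_lit 240) (nat_lit 5) (nat_lit 232) (nat_lit 5) (nat_lit 400) (nat_lit 378) (nat_lit 242))) (XT.nd (nat_lit 78) (nat_lit 0) (nat_lit 0) (XT.lf (nat_lit 0) (nat_lit 2482839989) (nat_lit 608) (nat_lit 1772566813) (nat_lit 684) (nat_lit 13843536082) (nat_lit 223) (nat_lit 5) (nat_lit 231) (nat_lit 5) (nat_lit 232) (nat_lit 5) (nat_lit 401) (nat_lit 378) (nat_lit 241)) (XT.lf (nat_lit 0) (nat_lit 6465176624) (nat_lit 684) (nat_lit 5924899516) (nat_lit 76) (nat_lit 6005412878) (nat_lit 223) (nat_lit 5) (nat_lit 232) (nat_lit 5) (nat_lit 224) (nat_lit 5) (nat_lit 402) (nat_lit 378) (nat_lit 240))))))))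
noncomputable def xc186 : XT := (XT.nd (nat_lit 2262) (nat_lit 4180) (nat_lit 0) (XT.nd (nat_lit 1092) (nat_lit 3040) (nat_lit 0) (XT.nd (nat_lit 546) (nat_lit 1900) (nat_lit 0) (XT.nd (nat_lit 234) (nat_lit 1064) (nat_lit 0) (XT.nd (nat_lit 78) (nat_lit 532) (nat_lit 0) (XT.lf (nat_lit 0) (nat_lit 4110799359) (nat_lit 532) (nat_lit 4678725785) (nat_lit 608) (nat_lit 9909960419) (nat_lit 216) (nat_lit 5) (nat_lit 223) (nat_lit 5) (nat_lit 224) (nat_lit 5) (nat_lit 403) (nat_lit 378) (nat_lit 239)) (XT.nd (nat_lit 78) (nat_lit 532) (nat_lit 0) (XT.lf (nat_lit 0) (nat_lit 11266790438) (nat_lit 608) (nat_lit 4482829265) (nat_lit 76) (nat_lit 3260489228) (nat_lit 216) (nat_lit 5) (nat_lit 224) (nat_lit 5) (nat_lit 217) (nat_lit 5) (nat_lit 404) (nat_lit 378) (nat_lit 238)) (XT.lf (nat_lit 0) (nat_lit 5987911110) (nat_lit 532) (nat_lit 7925985721) (nat_lit 608) (nat_lit 5413290920) (nat_lit 209) (nat_lit 5) (nat_lit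 216) (nat_lit 5) (nat_lit 217) (nat_lit 5) (nat_lit 405) (nat_lit 378) (nat_lit 237)))) (XT.nd (nat_lit 156) (nat_lit 608) (nat_lit 0) (XT.nd (nat_lit 78) (nat_lit 456) (nat_lit 0) (XT.lf (nat_lit 0) (nat_lit 16679198902) (nat_lit 608) (nat_lit 2798444983) (nat_lit 76) (nat_lit 174973951) (nat_lit 209) (nat_lit 5) (nat_lit 217) (nat_lit 5) (nat_lit 210) (nat_lit 5) (nat_lit 406) (nat_lit 378) (nat_lit 236)) (XT.lf (nat_lit 0) (nat_lit 8130073945) (nat_lit 456) (nat_lit 11546045647) (nat_lit 532) (nat_lit 307233749) (nat_lit 203) (nat_lit 5) (nat_lit 209) (nat_lit 5) (nat_lit 210) (nat_lit 5) (nat_lit 407) (nat_lit 378) (nat_lit 235))) (XT.nd (nat_lit 78) (nat_lit 532) (nat_lit 0) (XT.lf (nat_lit 0) (nat_lit 2411985896) (nat_lit 532) (nat_lit 911857225) (nat_lit 76) (nat_lit 16998847384) (nat_lit 202) (nat_lit 5) (nat_lit 209) (nat_lit 5) (nat_lit 203) (nat_lit 5) (nat_lit 408) (nat_lit 378) (nat_lit 234)) (XT.lf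 (nat_lit 0) (nat_lit 5350856786) (nat_lit 608) (nat_lit 10167640523) (nat_lit 76) (nat_lit 5149293835) (nat_lit 195) (nat_lit 5) (nat_lit 203) (nat_lit 5) (nat_lit 196) (nat_lit 5) (nat_lit 409) (nat_lit 378) (nat_lit 233))))) (XT.nd (nat_lit 234) (nat_lit 988) (nat_lit 0) (XT.nd (nat_lit 78) (nat_lit 456) (nat_lit 0) (XT.lf (nat_lit 0) (nat_lit 1232631817) (nat_lit 456) (nat_lit 7191785354) (nat_lit 532) (nat_lit 12597433977) (nat_lit 189) (nat_lit 5) (nat_lit 195) (nat_lit 5) (nat_lit 196) (nat_lit 5) (nat_lit 410) (nat_lit 378) (nat_lit 232)) (XT.nd (nat_lit 78) (nat_lit 456) (nat_lit 0) (XT.lf (nat_lit 0) (nat_lit 11699776725) (nat_lit 532) (nat_lit 8223231877) (nat_lit 76) (nat_lit 1460238568) (nat_lit 189) (nat_lit 5) (nat_lit 196) (nat_lit 5) (nat_lit 190) (nat_lit 5) (nat_lit 411) (nat_lit 378) (nat_lit 231)) (XT.lf (nat_lit 0) (nat_lit 3681840726) (nat_lit 456) (nat_lit 11490961720) (nat_lit 532) (nat_lit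 6579702395) (nat_lit 183) (nat_lit 5) (nat_lit 189) (nat_lit 5) (nat_lit 190) (nat_lit 5) (nat_lit 412) (nat_lit 378) (nat_lit 230)))) (XT.nd (nat_lit 156) (nat_lit 456) (nat_lit 0) (XT.nd (nat_lit 78) (nat_lit 532) (nat_lit 0) (XT.lf (nat_lit 0) (nat_lit 16104182720) (nat_lit 456) (nat_lit 2721810471) (nat_lit 532) (nat_lit 3304569697) (nat_lit 183) (nat_lit 5) (nat_lit 189) (nat_lit 5) (nat_lit 190) (nat_lit 5) (nat_lit 413) (nat_lit 378) (nat_lit 229)) (XT.lf (nat_lit 0) (nat_lit 184269969) (nat_lit 532) (nat_lit 16082543412) (nat_lit 76) (nat_lit 6249627341) (nat_lit 176) (nat_lit 5) (nat_lit 183) (nat_lit 5) (nat_lit 177) (nat_lit 5) (nat_lit 414) (nat_lit 378) (nat_lit 228))) (XT.nd (nat_lit 78) (nat_lit 456) (nat_lit 0) (XT.lf (nat_lit 0) (nat_lit 3792942173) (nat_lit 532) (nat_lit 3589275466) (nat_lit 76) (nat_lit 15528249834) (nat_lit 176) (nat_lit 5) (nat_lit 183) (nat_lit 5) (nat_lit 177) (nat_lit 5)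 (nat_lit 415) (nat_lit 378) (nat_lit 227)) (XT.lf (nat_lit 0) (nat_lit 7612029930) (nat_lit 532) (nat_lit 13876592246) (nat_lit 76) (nat_lit 1824629853) (nat_lit 170) (nat_lit 5) (nat_lit 177) (nat_lit 5) (nat_lit 171) (nat_lit 5) (nat_lit 416) (nat_lit 378) (nat_lit 226)))))) (XT.nd (nat_lit 546) (nat_lit 1444) (nat_lit 0) (XT.nd (nat_lit 234) (nat_lit 836) (nat_lit 0) (XT.nd (nat_lit 78) (nat_lit 760) (nat_lit 0) (XT.lf (nat_lit 0) (nat_lit 11648863020) (nat_lit 532) (nat_lit 881842249) (nat_lit 76) (nat_lit 11194321288) (nat_lit 170) (nat_lit 5) (nat_lit 177) (nat_lit 5) (nat_lit 171) (nat_lit 5) (nat_lit 417) (nat_lit 378) (nat_lit 225)) (XT.nd (nat_lit 78) (nat_lit 380) (nat_lit 0) (XT.lf (nat_lit 0) (nat_lit 12743351887) (nat_lit 380) (nat_lit 3179614006) (nat_lit 456) (nat_lit 8222705054) (nat_lit 165) (nat_lit 5) (nat_lit 170) (nat_lit 5) (nat_lit 171) (nat_lit 5) (nat_lit 418) (nat_lit 378) (nat_lit 224))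 (XT.lf (nat_lit 0) (nat_lit 2189161549) (nat_lit 380) (nat_lit 18221946166) (nat_lit 456) (nat_lit 4165254001) (nat_lit 160) (nat_lit 5) (nat_lit 165) (nat_lit 5) (nat_lit 166) (nat_lit 5) (nat_lit 419) (nat_lit 378) (nat_lit 223)))) (XT.nd (nat_lit 156) (nat_lit 380) (nat_lit 0) (XT.nd (nat_lit 78) (nat_lit 380) (nat_lit 0) (XT.lf (nat_lit 0) (nat_lit 155211844) (nat_lit 456) (nat_lit 8635355283) (nat_lit 76) (nat_lit 16225156617) (nat_lit 159) (nat_lit 5) (nat_lit 165) (nat_lit 5) (nat_lit 160) (nat_lit 5) (nat_lit 420) (nat_lit 378) (nat_lit 222)) (XT.lf (nat_lit 0) (nat_lit 4579080382) (nat_lit 456) (nat_lit 19886501662) (nat_lit 76) (nat_lit 999723592) (nat_lit 154) (nat_lit 5) (nat_lit 160) (nat_lit 5) (nat_lit 155) (nat_lit 5) (nat_lit 421) (nat_lit 378) (nat_lit 221))) (XT.nd (nat_lit 78) (nat_lit 380) (nat_lit 0) (XT.lf (nat_lit 0) (nat_lit 9304825466) (nat_lit 456) (nat_lit 5625300414) (nat_lit 76) (nat_lit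 10993175643) (nat_lit 154) (nat_lit 5) (nat_lit 160) (nat_lit 5) (nat_lit 155) (nat_lit 5) (nat_lit 422) (nat_lit 378) (nat_lit 220)) (XT.lf (nat_lit 0) (nat_lit 9236154825) (nat_lit 380) (nat_lit 5019206257) (nat_lit 456) (nat_lit 12137186974) (nat_lit 149) (nat_lit 5) (nat_lit 154) (nat_lit 5) (nat_lit 155) (nat_lit 5) (nat_lit 423) (nat_lit 378) (nat_lit 219))))) (XT.nd (nat_lit 312) (nat_lit 684) (nat_lit 0) (XT.nd (nat_lit 156) (nat_lit 456) (nat_lit 0) (XT.nd (nat_lit 78) (nat_lit 304) (nat_lit 0) (XT.lf (nat_lit 0) (nat_lit 19455968256) (nat_lit 456) (nat_lit 2273731328) (nat_lit 76) (nat_lit 5143127013) (nat_lit 149) (nat_lit 5) (nat_lit 155) (nat_lit 5) (nat_lit 150) (nat_lit 5) (nat_lit 424) (nat_lit 378) (nat_lit 218)) (XT.lf (nat_lit 0) (nat_lit 13256744200) (nat_lit 304) (nat_lit 11727450593) (nat_lit 380) (nat_lit 2378171905) (nat_lit 145) (nat_lit 5) (nat_lit 149) (nat_lit 5) (nat_lit 150) (nat_lit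 5) (nat_lit 425) (nat_lit 378) (nat_lit 217))) (XT.nd (nat_lit 78) (nat_lit 0) (nat_lit 0) (XT.lf (nat_lit 0) (nat_lit 1426731505) (nat_lit 380) (nat_lit 1361487024) (nat_lit 456) (nat_lit 25076622535) (nat_lit 139) (nat_lit 5) (nat_lit 144) (nat_lit 5) (nat_lit 145) (nat_lit 5) (nat_lit 426) (nat_lit 378) (nat_lit 216)) (XT.lf (nat_lit 0) (nat_lit 8289769689) (nat_lit 456) (nat_lit 10786171314) (nat_lit 76) (nat_lit 9298904367) (nat_lit 139) (nat_lit 5) (nat_lit 145) (nat_lit 5) (nat_lit 140) (nat_lit 5) (nat_lit 427) (nat_lit 378) (nat_lit 215)))) (XT.nd (nat_lit 156) (nat_lit 380) (nat_lit 0) (XT.nd (nat_lit 78) (nat_lit 0) (nat_lit 0) (XT.lf (nat_lit 0) (nat_lit 5420076251) (nat_lit 304) (nat_lit 8596603006) (nat_lit 380) (nat_lit 14881662292) (nat_lit 135) (nat_lit 5) (nat_lit 139) (nat_lit 5) (nat_lit 140) (nat_lit 5) (nat_lit 428) (nat_lit 378) (nat_lit 214)) (XT.lf (nat_lit 0) (nat_lit 20041304351) (nat_lit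 380) (nat_lit 7130451234) (nat_lit 76) (nat_lit 2262010850) (nat_lit 135) (nat_lit 5) (nat_lit 140) (nat_lit 5) (nat_lit 136) (nat_lit 5) (nat_lit 429) (nat_lit 378) (nat_lit 213))) (XT.nd (nat_lit 78) (nat_lit 76) (nat_lit 0) (XT.lf (nat_lit 0) (nat_lit 9806672123) (nat_lit 304) (nat_lit 16614321049) (nat_lit 380) (nat_lit 3559032183) (nat_lit 131) (nat_lit 5) (nat_lit 135) (nat_lit 5) (nat_lit 136) (nat_lit 5) (nat_lit 430) (nat_lit 378) (nat_lit 212)) (XT.lf (nat_lit 0) (nat_lit 2469289656) (nat_lit 380) (nat_lit 3174096090) (nat_lit 76) (nat_lit 24896550352) (nat_lit 130) (nat_lit 5) (nat_lit 135) (nat_lit 5) (nat_lit 131) (nat_lit 5) (nat_lit 431) (nat_lit 378) (nat_lit 211))))))) (XT.nd (nat_lit 1092) (nat_lit 1900) (nat_lit 0) (XT.nd (nat_lit 546) (nat_lit 1064) (nat_lit 0) (XT.nd (nat_lit 234) (nat_lit 608) (nat_lit 0) (XT.nd (nat_lit 78) (nat_lit 304) (nat_lit 0) (XT.lf (nat_lit 0) (nat_lit 8798258064)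 (nat_lit 380) (nat_lit 16590453426) (nat_lit 76) (nat_lit 5721136586) (nat_lit 126) (nat_lit 5) (nat_lit 131) (nat_lit 5) (nat_lit 127) (nat_lit 5) (nat_lit 432) (nat_lit 378) (nat_lit 210)) (XT.nd (nat_lit 78) (nat_lit 0) (nat_lit 0) (XT.lf (nat_lit 0) (nat_lit 1070313796) (nat_lit 304) (nat_lit 14340482242) (nat_lit 380) (nat_lit 16283251281) (nat_lit 122) (nat_lit 5) (nat_lit 126) (nat_lit 5) (nat_lit 127) (nat_lit 5) (nat_lit 433) (nat_lit 378) (nat_lit 209)) (XT.lf (nat_lit 0) (nat_lit 19593823490) (nat_lit 304) (nat_lit 2790656958) (nat_lit 380) (nat_lit 9906409877) (nat_lit 122) (nat_lit 5) (nat_lit 126) (nat_lit 5) (nat_lit 127) (nat_lit 5) (nat_lit 434) (nat_lit 378) (nat_lit 208)))) (XT.nd (nat_lit 156) (nat_lit 304) (nat_lit 0) (XT.nd (nat_lit 78) (nat_lit 76) (nat_lit 0) (XT.lf (nat_lit 0) (nat_lit 5785693527) (nat_lit 228) (nat_lit 23920182133) (nat_lit 304) (nat_lit 3195608823) (nat_lit 119) (nat_lit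 5) (nat_lit 122) (nat_lit 5) (nat_lit 123) (nat_lit 5) (nat_lit 435) (nat_lit 378) (nat_lit 207)) (XT.lf (nat_lit 0) (nat_lit 3796486066) (nat_lit 304) (nat_lit 8515061314) (nat_lit 76) (nat_lit 21213203368) (nat_lit 118) (nat_lit 5) (nat_lit 122) (nat_lit 5) (nat_lit 119) (nat_lit 5) (nat_lit 436) (nat_lit 378) (nat_lit 206))) (XT.nd (nat_lit 78) (nat_lit 0) (nat_lit 0) (XT.lf (nat_lit 0) (nat_lit 10816220467) (nat_lit 304) (nat_lit 217378752) (nat_lit 380) (nat_lit 23129182868) (nat_lit 114) (nat_lit 5) (nat_lit 118) (nat_lit 5) (nat_lit 119) (nat_lit 5) (nat_lit 437) (nat_lit 378) (nat_lit 205)) (XT.lf (nat_lit 0) (nat_lit 18687871069) (nat_lit 380) (nat_lit 4040825958) (nat_lit 76) (nat_lit 12085256752) (nat_lit 114) (nat_lit 5) (nat_lit 119) (nat_lit 5) (nat_lit 115) (nat_lit 5) (nat_lit 438) (nat_lit 378) (nat_lit 204))))) (XT.nd (nat_lit 234) (nat_lit 532) (nat_lit 0) (XT.nd (nat_lit 78) (nat_lit 304) (nat_lit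 0) (XT.lf (nat_lit 0) (nat_lit 16150346712) (nat_lit 228) (nat_lit 10574507010) (nat_lit 304) (nat_lit 8755215169) (nat_lit 111) (nat_lit 5) (nat_lit 114) (nat_lit 5) (nat_lit 115) (nat_lit 5) (nat_lit 439) (nat_lit 378) (nat_lit 203)) (XT.nd (nat_lit 78) (nat_lit 76) (nat_lit 0) (XT.lf (nat_lit 0) (nat_lit 855980184) (nat_lit 228) (nat_lit 34210813985) (nat_lit 304) (nat_lit 1097458566) (nat_lit 108) (nat_lit 5) (nat_lit 111) (nat_lit 5) (nat_lit 112) (nat_lit 5) (nat_lit 440) (nat_lit 378) (nat_lit 202)) (XT.lf (nat_lit 0) (nat_lit 6955095238) (nat_lit 304) (nat_lit 14998305432) (nat_lit 76) (nat_lit 14904677139) (nat_lit 107) (nat_lit 5) (nat_lit 111) (nat_lit 5) (nat_lit 108) (nat_lit 5) (nat_lit 441) (nat_lit 378) (nat_lit 201)))) (XT.nd (nat_lit 156) (nat_lit 304) (nat_lit 0) (XT.nd (nat_lit 78) (nat_lit 0) (nat_lit 0) (XT.lf (nat_lit 0) (nat_lit 6020991379) (nat_lit 228) (nat_lit 9259917475) (nat_lit 304)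 (nat_lit 22289871238) (nat_lit 104) (nat_lit 5) (nat_lit 107) (nat_lit 5) (nat_lit 108) (nat_lit 5) (nat_lit 442) (nat_lit 378) (nat_lit 200)) (XT.lf (nat_lit 0) (nat_lit 24042013674) (nat_lit 304) (nat_lit 10366797204) (nat_lit 76) (nat_lit 3890487707) (nat_lit 104) (nat_lit 5) (nat_lit 108) (nat_lit 5) (nat_lit 105) (nat_lit 5) (nat_lit 443) (nat_lit 378) (nat_lit 199))) (XT.nd (nat_lit 78) (nat_lit 76) (nat_lit 0) (XT.lf (nat_lit 0) (nat_lit 11579523584) (nat_lit 228) (nat_lit 21685437074) (nat_lit 304) (nat_lit 5778742334) (nat_lit 101) (nat_lit 5) (nat_lit 104) (nat_lit 5) (nat_lit 105) (nat_lit 5) (nat_lit 444) (nat_lit 378) (nat_lit 198)) (XT.lf (nat_lit 0) (nat_lit 2998263545) (nat_lit 304) (nat_lit 5446442242) (nat_lit 76) (nat_lit 31361829823) (nat_lit 100) (nat_lit 5) (nat_lit 104) (nat_lit 5) (nat_lit 101) (nat_lit 5) (nat_lit 445) (nat_lit 378) (nat_lit 197)))))) (XT.nd (nat_lit 546) (nat_lit 988)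 (nat_lit 0) (XT.nd (nat_lit 234) (nat_lit 456) (nat_lit 0) (XT.nd (nat_lit 78) (nat_lit 228) (nat_lit 0) (XT.lf (nat_lit 0) (nat_lit 12139028214) (nat_lit 304) (nat_lit 23127703139) (nat_lit 76) (nat_lit 5317308100) (nat_lit 97) (nat_lit 5) (nat_lit 101) (nat_lit 5) (nat_lit 98) (nat_lit 5) (nat_lit 446) (nat_lit 378) (nat_lit 196)) (XT.nd (nat_lit 78) (nat_lit 228) (nat_lit 0) (XT.lf (nat_lit 0) (nat_lit 21689347167) (nat_lit 304) (nat_lit 315823839) (nat_lit 76) (nat_lit 19375638024) (nat_lit 97) (nat_lit 5) (nat_lit 101) (nat_lit 5) (nat_lit 98) (nat_lit 5) (nat_lit 447) (nat_lit 378) (nat_lit 195)) (XT.lf (nat_lit 0) (nat_lit 23635514356) (nat_lit 228) (nat_lit 8114149160) (nat_lit 304) (nat_lit 10445114085) (nat_lit 94) (nat_lit 5) (nat_lit 97) (nat_lit 5) (nat_lit 98) (nat_lit 5) (nat_lit 448) (nat_lit 378) (nat_lit 194)))) (XT.nd (nat_lit 156) (nat_lit 228) (nat_lit 0) (XT.nd (nat_lit 78) (nat_lit 76) (nat_lit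 0) (XT.lf (nat_lit 0) (nat_lit 5316840683) (nat_lit 152) (nat_lit 36905130628) (nat_lit 228) (nat_lit 807888984) (nat_lit 92) (nat_lit 5) (nat_lit 94) (nat_lit 5) (nat_lit 95) (nat_lit 5) (nat_lit 449) (nat_lit 378) (nat_lit 193)) (XT.lf (nat_lit 0) (nat_lit 9206452985) (nat_lit 228) (nat_lit 13770696857) (nat_lit 76) (nat_lit 20902238541) (nat_lit 91) (nat_lit 5) (nat_lit 94) (nat_lit 5) (nat_lit 92) (nat_lit 5) (nat_lit 450) (nat_lit 378) (nat_lit 192))) (XT.nd (nat_lit 78) (nat_lit 0) (nat_lit 0) (XT.lf (nat_lit 0) (nat_lit 11092375720) (nat_lit 228) (nat_lit 8515673503) (nat_lit 304) (nat_lit 25143021750) (nat_lit 88) (nat_lit 5) (nat_lit 91) (nat_lit 5) (nat_lit 92) (nat_lit 5) (nat_lit 451) (nat_lit 378) (nat_lit 191)) (XT.lf (nat_lit 0) (nat_lit 30519911278) (nat_lit 304) (nat_lit 8729805513) (nat_lit 76) (nat_lit 6393241179) (nat_lit 88) (nat_lit 5) (nat_lit 92) (nat_lit 5) (nat_lit 89) (nat_lit 5) (nat_lit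 452) (nat_lit 378) (nat_lit 190))))) (XT.nd (nat_lit 312) (nat_lit 380) (nat_lit 0) (XT.nd (nat_lit 156) (nat_lit 380) (nat_lit 0) (XT.nd (nat_lit 78) (nat_lit 76) (nat_lit 0) (XT.lf (nat_lit 0) (nat_lit 17192298095) (nat_lit 152) (nat_lit 24812969736) (nat_lit 228) (nat_lit 4548950041) (nat_lit 86) (nat_lit 5) (nat_lit 88) (nat_lit 5) (nat_lit 89) (nat_lit 5) (nat_lit 453) (nat_lit 378) (nat_lit 189)) (XT.lf (nat_lit 0) (nat_lit 6304206599) (nat_lit 228) (nat_lit 3486827665) (nat_lit 76) (nat_lit 37697384746) (nat_lit 85) (nat_lit 5) (nat_lit 88) (nat_lit 5) (nat_lit 86) (nat_lit 5) (nat_lit 454) (nat_lit 378) (nat_lit 188))) (XT.nd (nat_lit 78) (nat_lit 152) (nat_lit 0) (XT.lf (nat_lit 0) (nat_lit 17672088929) (nat_lit 304) (nat_lit 24926054959) (nat_lit 76) (nat_lit 5842734723) (nat_lit 82) (nat_lit 5) (nat_lit 86) (nat_lit 5) (nat_lit 83) (nat_lit 5) (nat_lit 455) (nat_lit 378) (nat_lit 187)) (XT.lf (nat_lit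 0) (nat_lit 1911469925) (nat_lit 152) (nat_lit 27617104997) (nat_lit 228) (nat_lit 19888910466) (nat_lit 80) (nat_lit 5) (nat_lit 82) (nat_lit 5) (nat_lit 83) (nat_lit 5) (nat_lit 456) (nat_lit 378) (nat_lit 186)))) (XT.nd (nat_lit 156) (nat_lit 152) (nat_lit 0) (XT.nd (nat_lit 78) (nat_lit 228) (nat_lit 0) (XT.lf (nat_lit 0) (nat_lit 30059450438) (nat_lit 152) (nat_lit 11929744836) (nat_lit 228) (nat_lit 8426742292) (nat_lit 80) (nat_lit 5) (nat_lit 82) (nat_lit 5) (nat_lit 83) (nat_lit 5) (nat_lit 457) (nat_lit 378) (nat_lit 185)) (XT.lf (nat_lit 0) (nat_lit 3426036922) (nat_lit 228) (nat_lit 43762755774) (nat_lit 76) (nat_lit 4251195823) (nat_lit 77) (nat_lit 5) (nat_lit 80) (nat_lit 5) (nat_lit 78) (nat_lit 5) (nat_lit 458) (nat_lit 378) (nat_lit 184))) (XT.nd (nat_lit 78) (nat_lit 152) (nat_lit 0) (XT.lf (nat_lit 0) (nat_lit 15787559657) (nat_lit 228) (nat_lit 15728475186) (nat_lit 76) (nat_lit 20966547643)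 (nat_lit 77) (nat_lit 5) (nat_lit 80) (nat_lit 5) (nat_lit 78) (nat_lit 5) (nat_lit 459) (nat_lit 378) (nat_lit 183)) (XT.lf (nat_lit 0) (nat_lit 13402987369) (nat_lit 152) (nat_lit 15242688299) (nat_lit 228) (nat_lit 24907006526) (nat_lit 75) (nat_lit 5) (nat_lit 77) (nat_lit 5) (nat_lit 78) (nat_lit 5) (nat_lit 460) (nat_lit 378) (nat_lit 182))))))))
noncomputable def xc187 : XT := (XT.nd (nat_lit 47112) (nat_lit 0) (nat_lit 10716) (XT.nd (nat_lit 1092) (nat_lit 760) (nat_lit 0) (XT.nd (nat_lit 546) (nat_lit 532) (nat_lit 0) (XT.nd (nat_lit 234) (nat_lit 532) (nat_lit 0) (XT.nd (nat_lit 78) (nat_lit 228) (nat_lit 0) (XT.lf (nat_lit 0) (nat_lit 42061461322) (nat_lit 228) (nat_lit 10940884836) (nat_lit 76) (nat_lit 1647381285) (nat_lit 75) (nat_lit 5) (nat_lit 78) (nat_lit 5) (nat_lit 76) (nat_lit 5) (nat_lit 461) (nat_lit 378) (nat_lit 181)) (XT.nd (nat_lit 78) (nat_lit 0) (nat_lit 0) (XT.lf (nat_lit 0) (nat_lit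 435482924) (nat_lit 228) (nat_lit 36408007144) (nat_lit 76) (nat_lit 18926043498) (nat_lit 72) (nat_lit 5) (nat_lit 75) (nat_lit 5) (nat_lit 73) (nat_lit 5) (nat_lit 462) (nat_lit 378) (nat_lit 180)) (XT.lf (nat_lit 0) (nat_lit 13705531774) (nat_lit 228) (nat_lit 6253317002) (nat_lit 76) (nat_lit 36957088346) (nat_lit 72) (nat_lit 5) (nat_lit 75) (nat_lit 5) (nat_lit 73) (nat_lit 5) (nat_lit 463) (nat_lit 378) (nat_lit 179)))) (XT.nd (nat_lit 156) (nat_lit 380) (nat_lit 0) (XT.nd (nat_lit 78) (nat_lit 0) (nat_lit 0) (XT.lf (nat_lit 0) (nat_lit 25294498843) (nat_lit 152) (nat_lit 2319439790) (nat_lit 228) (nat_lit 30475586754) (nat_lit 70) (nat_lit 5) (nat_lit 72) (nat_lit 5) (nat_lit 73) (nat_lit 5) (nat_lit 464) (nat_lit 378) (nat_lit 178)) (XT.lf (nat_lit 0) (nat_lit 42152845714) (nat_lit 228) (nat_lit 1537584380) (nat_lit 76) (nat_lit 15601494057) (nat_lit 70) (nat_lit 5) (nat_lit 73) (nat_lit 5) (nat_lit 71)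 (nat_lit 5) (nat_lit 465) (nat_lit 378) (nat_lit 177))) (XT.nd (nat_lit 78) (nat_lit 228) (nat_lit 0) (XT.lf (nat_lit 0) (nat_lit 31239238843) (nat_lit 152) (nat_lit 26209145155) (nat_lit 228) (nat_lit 3072397243) (nat_lit 68) (nat_lit 5) (nat_lit 70) (nat_lit 5) (nat_lit 71) (nat_lit 5) (nat_lit 466) (nat_lit 378) (nat_lit 176)) (XT.lf (nat_lit 0) (nat_lit 3192271654) (nat_lit 152) (nat_lit 8044821308) (nat_lit 228) (nat_lit 50544811697) (nat_lit 65) (nat_lit 5) (nat_lit 67) (nat_lit 5) (nat_lit 68) (nat_lit 5) (nat_lit 467) (nat_lit 378) (nat_lit 175))))) (XT.nd (nat_lit 234) (nat_lit 380) (nat_lit 0) (XT.nd (nat_lit 78) (nat_lit 152) (nat_lit 0) (XT.lf (nat_lit 0) (nat_lit 26312470410) (nat_lit 228) (nat_lit 25972296199) (nat_lit 76) (nat_lit 10783232195) (nat_lit 65) (nat_lit 5) (nat_lit 68) (nat_lit 5) (nat_lit 66) (nat_lit 5) (nat_lit 468) (nat_lit 378) (nat_lit 174)) (XT.nd (nat_lit 78) (nat_lit 0) (nat_lit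 0) (XT.lf (nat_lit 0) (nat_lit 7689108857) (nat_lit 152) (nat_lit 34301873062) (nat_lit 228) (nat_lit 22397167922) (nat_lit 63) (nat_lit 5) (nat_lit 65) (nat_lit 5) (nat_lit 66) (nat_lit 5) (nat_lit 469) (nat_lit 378) (nat_lit 173)) (XT.lf (nat_lit 0) (nat_lit 42887967783) (nat_lit 152) (nat_lit 15511491179) (nat_lit 228) (nat_lit 7340658387) (nat_lit 63) (nat_lit 5) (nat_lit 65) (nat_lit 5) (nat_lit 66) (nat_lit 5) (nat_lit 470) (nat_lit 378) (nat_lit 172)))) (XT.nd (nat_lit 156) (nat_lit 152) (nat_lit 0) (XT.nd (nat_lit 78) (nat_lit 0) (nat_lit 0) (XT.lf (nat_lit 0) (nat_lit 8161343773) (nat_lit 228) (nat_lit 55001412327) (nat_lit 76) (nat_lit 3962937400) (nat_lit 60) (nat_lit 5) (nat_lit 63) (nat_lit 5) (nat_lit 61) (nat_lit 5) (nat_lit 471) (nat_lit 378) (nat_lit 171)) (XT.lf (nat_lit 0) (nat_lit 24364895503) (nat_lit 228) (nat_lit 20160724935) (nat_lit 76) (nat_lit 24013515443) (nat_lit 60) (nat_lit 5) (nat_lit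 63) (nat_lit 5) (nat_lit 61) (nat_lit 5) (nat_lit 472) (nat_lit 378) (nat_lit 170))) (XT.nd (nat_lit 78) (nat_lit 0) (nat_lit 0) (XT.lf (nat_lit 0) (nat_lit 16033472639) (nat_lit 152) (nat_lit 25172683989) (nat_lit 228) (nat_lit 28784277037) (nat_lit 58) (nat_lit 5) (nat_lit 60) (nat_lit 5) (nat_lit 61) (nat_lit 5) (nat_lit 473) (nat_lit 378) (nat_lit 169)) (XT.lf (nat_lit 0) (nat_lit 53722234911) (nat_lit 152) (nat_lit 5031513575) (nat_lit 228) (nat_lit 12725489320) (nat_lit 58) (nat_lit 5) (nat_lit 60) (nat_lit 5) (nat_lit 61) (nat_lit 5) (nat_lit 474) (nat_lit 378) (nat_lit 168)))))) (XT.nd (nat_lit 546) (nat_lit 152) (nat_lit 0) (XT.nd (nat_lit 234) (nat_lit 304) (nat_lit 0) (XT.nd (nat_lit 78) (nat_lit 152) (nat_lit 0) (XT.lf (nat_lit 0) (nat_lit 4082518048) (nat_lit 152) (nat_lit 53283560362) (nat_lit 76) (nat_lit 15635270629) (nat_lit 56) (nat_lit 5) (nat_lit 58) (nat_lit 5) (nat_lit 57) (nat_lit 5) (nat_lit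 475) (nat_lit 378) (nat_lit 167)) (XT.nd (nat_lit 78) (nat_lit 152) (nat_lit 0) (XT.lf (nat_lit 0) (nat_lit 21367466222) (nat_lit 152) (nat_lit 16064969170) (nat_lit 76) (nat_lit 37126054452) (nat_lit 56) (nat_lit 5) (nat_lit 58) (nat_lit 5) (nat_lit 57) (nat_lit 5) (nat_lit 476) (nat_lit 378) (nat_lit 166)) (XT.lf (nat_lit 0) (nat_lit 22708980980) (nat_lit 152) (nat_lit 16677912425) (nat_lit 228) (nat_lit 36768973737) (nat_lit 54) (nat_lit 5) (nat_lit 56) (nat_lit 5) (nat_lit 57) (nat_lit 5) (nat_lit 477) (nat_lit 378) (nat_lit 165)))) (XT.nd (nat_lit 156) (nat_lit 228) (nat_lit 0) (XT.nd (nat_lit 78) (nat_lit 76) (nat_lit 0) (XT.lf (nat_lit 0) (nat_lit 58153553012) (nat_lit 228) (nat_lit 14871953207) (nat_lit 76) (nat_lit 4769460234) (nat_lit 54) (nat_lit 5) (nat_lit 57) (nat_lit 5) (nat_lit 55) (nat_lit 4) (nat_lit 478) (nat_lit 378) (nat_lit 164)) (XT.lf (nat_lit 0) (nat_lit 25182281640) (nat_lit 76) (nat_lit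 52705841356) (nat_lit 152) (nat_lit 1582968606) (nat_lit 53) (nat_lit 5) (nat_lit 54) (nat_lit 5) (nat_lit 55) (nat_lit 4) (nat_lit 479) (nat_lit 378) (nat_lit 163))) (XT.nd (nat_lit 78) (nat_lit 152) (nat_lit 0) (XT.lf (nat_lit 0) (nat_lit 16834545747) (nat_lit 152) (nat_lit 14619277615) (nat_lit 76) (nat_lit 49734288401) (nat_lit 52) (nat_lit 5) (nat_lit 54) (nat_lit 5) (nat_lit 53) (nat_lit 5) (nat_lit 480) (nat_lit 378) (nat_lit 162)) (XT.lf (nat_lit 0) (nat_lit 26742411922) (nat_lit 152) (nat_lit 9285207506) (nat_lit 228) (nat_lit 46920907572) (nat_lit 50) (nat_lit 5) (nat_lit 52) (nat_lit 5) (nat_lit 53) (nat_lit 5) (nat_lit 481) (nat_lit 378) (nat_lit 161))))) (XT.nd (nat_lit 45162) (nat_lit 0) (nat_lit 17176) (XT.nd (nat_lit 156) (nat_lit 76) (nat_lit 0) (XT.nd (nat_lit 78) (nat_lit 76) (nat_lit 0) (XT.lf (nat_lit 0) (nat_lit 56073602283) (nat_lit 228) (nat_lit 15248495017) (nat_lit 76) (nat_lit 13431344041)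 (nat_lit 50) (nat_lit 5) (nat_lit 53) (nat_lit 5) (nat_lit 51) (nat_lit 4) (nat_lit 482) (nat_lit 378) (nat_lit 160)) (XT.lf (nat_lit 0) (nat_lit 27376143287) (nat_lit 76) (nat_lit 49697767726) (nat_lit 152) (nat_lit 9528003860) (nat_lit 49) (nat_lit 5) (nat_lit 50) (nat_lit 5) (nat_lit 51) (nat_lit 4) (nat_lit 483) (nat_lit 378) (nat_lit 159))) (XT.nd (nat_lit 44928) (nat_lit 0) (nat_lit 17176) (XT.lf (nat_lit 0) (nat_lit 10152744364) (nat_lit 152) (nat_lit 17012669380) (nat_lit 76) (nat_lit 61332887061) (nat_lit 48) (nat_lit 5) (nat_lit 50) (nat_lit 5) (nat_lit 49) (nat_lit 5) (nat_lit 484) (nat_lit 378) (nat_lit 158)) (XT.lf (nat_lit 0) (nat_lit 2079921436) (nat_lit 0) (nat_lit 2079921436) (nat_lit 1140) (nat_lit 2414167184) (nat_lit 274) (nat_lit 5) (nat_lit 274) (nat_lit 3) (nat_lit 289) (nat_lit 3) (nat_lit 379) (nat_lit 379) (nat_lit 262)))) (XT.nd (nat_lit 156) (nat_lit 0) (nat_lit 76) (XT.nd (nat_lit 78)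 (nat_lit 0) (nat_lit 0) (XT.lf (nat_lit 0) (nat_lit 8848279609) (nat_lit 1140) (nat_lit 2611045111) (nat_lit 1216) (nat_lit 1873670570) (nat_lit 274) (nat_lit 5) (nat_lit 289) (nat_lit 3) (nat_lit 290) (nat_lit 5) (nat_lit 380) (nat_lit 379) (nat_lit 261)) (XT.lf (nat_lit 76) (nat_lit 3985944761) (nat_lit 0) (nat_lit 5471318502) (nat_lit 1216) (nat_lit 4064325621) (nat_lit 275) (nat_lit 5) (nat_lit 274) (nat_lit 5) (nat_lit 290) (nat_lit 5) (nat_lit 381) (nat_lit 379) (nat_lit 260))) (XT.nd (nat_lit 78) (nat_lit 0) (nat_lit 0) (XT.lf (nat_lit 0) (nat_lit 10103290739) (nat_lit 1140) (nat_lit 2896113669) (nat_lit 1216) (nat_lit 715877619) (nat_lit 275) (nat_lit 5) (nat_lit 290) (nat_lit 5) (nat_lit 291) (nat_lit 5) (nat_lit 382) (nat_lit 379) (nat_lit 259)) (XT.lf (nat_lit 76) (nat_lit 3957423765) (nat_lit 0) (nat_lit 6889364905) (nat_lit 1216) (nat_lit 3065659429) (nat_lit 276) (nat_lit 5) (nat_lit 275) (nat_lit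 5) (nat_lit 291) (nat_lit 5) (nat_lit 383) (nat_lit 379) (nat_lit 258))))))) (XT.nd (nat_lit 1092) (nat_lit 4560) (nat_lit 0) (XT.nd (nat_lit 546) (nat_lit 912) (nat_lit 0) (XT.nd (nat_lit 234) (nat_lit 1064) (nat_lit 0) (XT.nd (nat_lit 78) (nat_lit 0) (nat_lit 76) (XT.lf (nat_lit 76) (nat_lit 11067784454) (nat_lit 0) (nat_lit 560262140) (nat_lit 1216) (nat_lit 2487023592) (nat_lit 276) (nat_lit 5) (nat_lit 275) (nat_lit 5) (nat_lit 291) (nat_lit 5) (nat_lit 384) (nat_lit 379) (nat_lit 257)) (XT.nd (nat_lit 78) (nat_lit 0) (nat_lit 0) (XT.lf (nat_lit 76) (nat_lit 4081682756) (nat_lit 0) (nat_lit 8434238204) (nat_lit 1216) (nat_lit 1805359164) (nat_lit 277) (nat_lit 5) (nat_lit 276) (nat_lit 5) (nat_lit 292) (nat_lit 5) (nat_lit 385) (nat_lit 379) (nat_lit 256)) (XT.lf (nat_lit 76) (nat_lit 11473039395) (nat_lit 0) (nat_lit 1980629542) (nat_lit 1216) (nat_lit 1079314716) (nat_lit 277) (nat_lit 5) (nat_lit 276) (nat_lit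 5) (nat_lit 292) (nat_lit 5) (nat_lit 386) (nat_lit 379) (nat_lit 255)))) (XT.nd (nat_lit 156) (nat_lit 0) (nat_lit 76) (XT.nd (nat_lit 78) (nat_lit 1216) (nat_lit 0) (XT.lf (nat_lit 76) (nat_lit 4366979650) (nat_lit 0) (nat_lit 10126802518) (nat_lit 1216) (nat_lit 255033424) (nat_lit 278) (nat_lit 5) (nat_lit 277) (nat_lit 5) (nat_lit 293) (nat_lit 5) (nat_lit 387) (nat_lit 379) (nat_lit 254)) (XT.lf (nat_lit 0) (nat_lit 620758274) (nat_lit 1216) (nat_lit 2925028947) (nat_lit 1292) (nat_lit 11424016841) (nat_lit 261) (nat_lit 5) (nat_lit 277) (nat_lit 5) (nat_lit 278) (nat_lit 5) (nat_lit 388) (nat_lit 379) (nat_lit 253))) (XT.nd (nat_lit 78) (nat_lit 0) (nat_lit 0) (XT.lf (nat_lit 0) (nat_lit 1583727864) (nat_lit 1216) (nat_lit 10388922290) (nat_lit 1292) (nat_lit 3222719302) (nat_lit 262) (nat_lit 5) (nat_lit 278) (nat_lit 5) (nat_lit 279) (nat_lit 5) (nat_lit 389) (nat_lit 379) (nat_lit 252)) (XT.lf (nat_lit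 0) (nat_lit 2628747881) (nat_lit 1216) (nat_lit 2641089560) (nat_lit 1292) (nat_lit 10156273337) (nat_lit 262) (nat_lit 5) (nat_lit 278) (nat_lit 5) (nat_lit 279) (nat_lit 5) (nat_lit 390) (nat_lit 379) (nat_lit 251))))) (XT.nd (nat_lit 234) (nat_lit 1064) (nat_lit 0) (XT.nd (nat_lit 78) (nat_lit 0) (nat_lit 0) (XT.lf (nat_lit 0) (nat_lit 3762202247) (nat_lit 1216) (nat_lit 10241985660) (nat_lit 1292) (nat_lit 1657877622) (nat_lit 263) (nat_lit 5) (nat_lit 279) (nat_lit 5) (nat_lit 280) (nat_lit 5) (nat_lit 391) (nat_lit 379) (nat_lit 250)) (XT.nd (nat_lit 78) (nat_lit 0) (nat_lit 0) (XT.lf (nat_lit 0) (nat_lit 4997618323) (nat_lit 1216) (nat_lit 2188247480) (nat_lit 1292) (nat_lit 8717197965) (nat_lit 263) (nat_lit 5) (nat_lit 279) (nat_lit 5) (nat_lit 280) (nat_lit 5) (nat_lit 392) (nat_lit 379) (nat_lit 249)) (XT.lf (nat_lit 76) (nat_lit 6219999659) (nat_lit 0) (nat_lit 99060081) (nat_lit 1292) (nat_lit 9830766816)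 (nat_lit 264) (nat_lit 5) (nat_lit 263) (nat_lit 5) (nat_lit 280) (nat_lit 5) (nat_lit 393) (nat_lit 379) (nat_lit 248)))) (XT.nd (nat_lit 156) (nat_lit 1140) (nat_lit 0) (XT.nd (nat_lit 78) (nat_lit 0) (nat_lit 0) (XT.lf (nat_lit 0) (nat_lit 7761102576) (nat_lit 1216) (nat_lit 1556148095) (nat_lit 1292) (nat_lit 7084316193) (nat_lit 264) (nat_lit 5) (nat_lit 280) (nat_lit 5) (nat_lit 281) (nat_lit 5) (nat_lit 394) (nat_lit 379) (nat_lit 247)) (XT.lf (nat_lit 76) (nat_lit 7199771250) (nat_lit 0) (nat_lit 2106560979) (nat_lit 1292) (nat_lit 7352732674) (nat_lit 265) (nat_lit 5) (nat_lit 264) (nat_lit 5) (nat_lit 281) (nat_lit 5) (nat_lit 395) (nat_lit 379) (nat_lit 246))) (XT.nd (nat_lit 78) (nat_lit 1216) (nat_lit 0) (XT.lf (nat_lit 0) (nat_lit 10954901985) (nat_lit 1216) (nat_lit 733567492) (nat_lit 76) (nat_lit 5234112099) (nat_lit 265) (nat_lit 5) (nat_lit 281) (nat_lit 5) (nat_lit 266) (nat_lit 5) (nat_lit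 396) (nat_lit 379) (nat_lit 245)) (XT.lf (nat_lit 0) (nat_lit 8388293486) (nat_lit 1216) (nat_lit 4356388094) (nat_lit 1292) (nat_lit 4446572685) (nat_lit 249) (nat_lit 5) (nat_lit 265) (nat_lit 5) (nat_lit 266) (nat_lit 5) (nat_lit 397) (nat_lit 379) (nat_lit 244)))))) (XT.nd (nat_lit 546) (nat_lit 2052) (nat_lit 0) (XT.nd (nat_lit 234) (nat_lit 1140) (nat_lit 0) (XT.nd (nat_lit 78) (nat_lit 684) (nat_lit 0) (XT.lf (nat_lit 0) (nat_lit 297411564) (nat_lit 684) (nat_lit 14322277849) (nat_lit 760) (nat_lit 2847354683) (nat_lit 240) (nat_lit 5) (nat_lit 249) (nat_lit 5) (nat_lit 250) (nat_lit 5) (nat_lit 398) (nat_lit 379) (nat_lit 243)) (XT.nd (nat_lit 78) (nat_lit 684) (nat_lit 0) (XT.lf (nat_lit 0) (nat_lit 9798658424) (nat_lit 684) (nat_lit 6874562540) (nat_lit 760) (nat_lit 1074221372) (nat_lit 240) (nat_lit 5) (nat_lit 249) (nat_lit 5) (nat_lit 250) (nat_lit 5) (nat_lit 399) (nat_lit 379) (nat_lit 242)) (XT.lf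 (nat_lit 0) (nat_lit 751192335) (nat_lit 684) (nat_lit 16480309008) (nat_lit 76) (nat_lit 804124160) (nat_lit 231) (nat_lit 5) (nat_lit 240) (nat_lit 5) (nat_lit 232) (nat_lit 5) (nat_lit 400) (nat_lit 379) (nat_lit 241)))) (XT.nd (nat_lit 156) (nat_lit 532) (nat_lit 0) (XT.nd (nat_lit 78) (nat_lit 608) (nat_lit 0) (XT.lf (nat_lit 0) (nat_lit 2749945151) (nat_lit 684) (nat_lit 6910784592) (nat_lit 76) (nat_lit 8667202993) (nat_lit 231) (nat_lit 5) (nat_lit 240) (nat_lit 5) (nat_lit 232) (nat_lit 5) (nat_lit 401) (nat_lit 379) (nat_lit 240)) (XT.lf (nat_lit 0) (nat_lit 2995813720) (nat_lit 608) (nat_lit 1832946030) (nat_lit 684) (nat_lit 13799649055) (nat_lit 223) (nat_lit 5) (nat_lit 231) (nat_lit 5) (nat_lit 232) (nat_lit 5) (nat_lit 402) (nat_lit 379) (nat_lit 239))) (XT.nd (nat_lit 78) (nat_lit 532) (nat_lit 0) (XT.lf (nat_lit 0) (nat_lit 7091774167) (nat_lit 684) (nat_lit 5663753172) (nat_lit 76) (nat_lit 6178719273)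 (nat_lit 223) (nat_lit 5) (nat_lit 232) (nat_lit 5) (nat_lit 224) (nat_lit 5) (nat_lit 403) (nat_lit 379) (nat_lit 238)) (XT.lf (nat_lit 0) (nat_lit 4668713793) (nat_lit 532) (nat_lit 4808715668) (nat_lit 608) (nat_lit 9770190024) (nat_lit 216) (nat_lit 5) (nat_lit 223) (nat_lit 5) (nat_lit 224) (nat_lit 5) (nat_lit 404) (nat_lit 379) (nat_lit 237))))) (XT.nd (nat_lit 312) (nat_lit 988) (nat_lit 0) (XT.nd (nat_lit 156) (nat_lit 532) (nat_lit 0) (XT.nd (nat_lit 78) (nat_lit 532) (nat_lit 0) (XT.lf (nat_lit 0) (nat_lit 12016753632) (nat_lit 608) (nat_lit 4183002107) (nat_lit 76) (nat_lit 3368177203) (nat_lit 216) (nat_lit 5) (nat_lit 224) (nat_lit 5) (nat_lit 217) (nat_lit 5) (nat_lit 405) (nat_lit 379) (nat_lit 236)) (XT.lf (nat_lit 0) (nat_lit 6597602518) (nat_lit 532) (nat_lit 8137805821) (nat_lit 608) (nat_lit 5159355243) (nat_lit 209) (nat_lit 5) (nat_lit 216) (nat_lit 5) (nat_lit 217) (nat_lit 5) (nat_lit 406)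 (nat_lit 379) (nat_lit 235))) (XT.nd (nat_lit 78) (nat_lit 532) (nat_lit 0) (XT.lf (nat_lit 0) (nat_lit 17572141996) (nat_lit 608) (nat_lit 2453229072) (nat_lit 76) (nat_lit 204934731) (nat_lit 209) (nat_lit 5) (nat_lit 217) (nat_lit 5) (nat_lit 210) (nat_lit 5) (nat_lit 407) (nat_lit 379) (nat_lit 234)) (XT.lf (nat_lit 0) (nat_lit 78864597) (nat_lit 532) (nat_lit 11773022449) (nat_lit 76) (nat_lit 8719276907) (nat_lit 202) (nat_lit 5) (nat_lit 209) (nat_lit 5) (nat_lit 203) (nat_lit 5) (nat_lit 408) (nat_lit 379) (nat_lit 233)))) (XT.nd (nat_lit 156) (nat_lit 456) (nat_lit 0) (XT.nd (nat_lit 78) (nat_lit 532) (nat_lit 0) (XT.lf (nat_lit 0) (nat_lit 2862151555) (nat_lit 532) (nat_lit 519005746) (nat_lit 76) (nat_lit 17539775816) (nat_lit 202) (nat_lit 5) (nat_lit 209) (nat_lit 5) (nat_lit 203) (nat_lit 5) (nat_lit 409) (nat_lit 379) (nat_lit 232)) (XT.lf (nat_lit 0) (nat_lit 5882619514) (nat_lit 608) (nat_lit 10045792591)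 (nat_lit 76) (nat_lit 5348174769) (nat_lit 195) (nat_lit 5) (nat_lit 203) (nat_lit 5) (nat_lit 196) (nat_lit 5) (nat_lit 410) (nat_lit 379) (nat_lit 231))) (XT.nd (nat_lit 78) (nat_lit 0) (nat_lit 0) (XT.lf (nat_lit 0) (nat_lit 1692302849) (nat_lit 456) (nat_lit 7349334308) (nat_lit 532) (nat_lit 12599836947) (nat_lit 189) (nat_lit 5) (nat_lit 195) (nat_lit 5) (nat_lit 196) (nat_lit 5) (nat_lit 411) (nat_lit 379) (nat_lit 230)) (XT.lf (nat_lit 0) (nat_lit 12405184559) (nat_lit 532) (nat_lit 8049380136) (nat_lit 76) (nat_lit 1559452352) (nat_lit 189) (nat_lit 5) (nat_lit 196) (nat_lit 5) (nat_lit 190) (nat_lit 5) (nat_lit 412) (nat_lit 379) (nat_lit 229))))))))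
noncomputable def xc188 : XT := (XT.nd (nat_lit 2184) (nat_lit 3496) (nat_lit 0) (XT.nd (nat_lit 1092) (nat_lit 2584) (nat_lit 0) (XT.nd (nat_lit 546) (nat_lit 1520) (nat_lit 0) (XT.nd (nat_lit 234) (nat_lit 836) (nat_lit 0) (XT.nd (nat_lit 78) (nat_lit 532) (nat_lit 0) (XT.lf (nat_lit 0) (nat_lit 4208721619) (nat_lit 456) (nat_lit 11767359618) (nat_lit 532) (nat_lit 6418463576) (nat_lit 183) (nat_lit 5) (nat_lit 189) (nat_lit 5) (nat_lit 190) (nat_lit 5) (nat_lit 413) (nat_lit 379) (nat_lit 228)) (XT.nd (nat_lit 78) (nat_lit 532) (nat_lit 0) (XT.lf (nat_lit 0) (nat_lit 16991604970) (nat_lit 456) (nat_lit 2737124053) (nat_lit 532) (nat_lit 3055522428) (nat_lit 183) (nat_lit 5) (nat_lit 189) (nat_lit 5) (nat_lit 190) (nat_lit 5) (nat_lit 414) (nat_lit 379) (nat_lit 227)) (XT.lf (nat_lit 0) (nat_lit 525848501) (nat_lit 532) (nat_lit 16148417490) (nat_lit 76) (nat_lit 6507501943) (nat_lit 176) (nat_lit 5) (nat_lit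 183) (nat_lit 5) (nat_lit 177) (nat_lit 5) (nat_lit 415) (nat_lit 379) (nat_lit 226)))) (XT.nd (nat_lit 156) (nat_lit 380) (nat_lit 0) (XT.nd (nat_lit 78) (nat_lit 456) (nat_lit 0) (XT.lf (nat_lit 0) (nat_lit 4232992994) (nat_lit 532) (nat_lit 3292485551) (nat_lit 76) (nat_lit 16062433039) (nat_lit 176) (nat_lit 5) (nat_lit 183) (nat_lit 5) (nat_lit 177) (nat_lit 5) (nat_lit 416) (nat_lit 379) (nat_lit 225)) (XT.lf (nat_lit 0) (nat_lit 8161768451) (nat_lit 532) (nat_lit 13883457254) (nat_lit 76) (nat_lit 1957702909) (nat_lit 170) (nat_lit 5) (nat_lit 177) (nat_lit 5) (nat_lit 171) (nat_lit 5) (nat_lit 417) (nat_lit 379) (nat_lit 224))) (XT.nd (nat_lit 78) (nat_lit 380) (nat_lit 0) (XT.lf (nat_lit 0) (nat_lit 12310346021) (nat_lit 532) (nat_lit 510789984) (nat_lit 76) (nat_lit 11606203509) (nat_lit 170) (nat_lit 5) (nat_lit 177) (nat_lit 5) (nat_lit 171) (nat_lit 5) (nat_lit 418) (nat_lit 379) (nat_lit 223)) (XT.lf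 (nat_lit 0) (nat_lit 13519262844) (nat_lit 380) (nat_lit 3188104883) (nat_lit 456) (nat_lit 8153396888) (nat_lit 165) (nat_lit 5) (nat_lit 170) (nat_lit 5) (nat_lit 171) (nat_lit 5) (nat_lit 419) (nat_lit 379) (nat_lit 222))))) (XT.nd (nat_lit 234) (nat_lit 684) (nat_lit 0) (XT.nd (nat_lit 78) (nat_lit 456) (nat_lit 0) (XT.lf (nat_lit 0) (nat_lit 2652946262) (nat_lit 380) (nat_lit 18672912016) (nat_lit 456) (nat_lit 3978648882) (nat_lit 160) (nat_lit 5) (nat_lit 165) (nat_lit 5) (nat_lit 166) (nat_lit 5) (nat_lit 420) (nat_lit 379) (nat_lit 221)) (XT.nd (nat_lit 78) (nat_lit 380) (nat_lit 0) (XT.lf (nat_lit 0) (nat_lit 456453663) (nat_lit 456) (nat_lit 8501930172) (nat_lit 76) (nat_lit 16798845353) (nat_lit 159) (nat_lit 5) (nat_lit 165) (nat_lit 5) (nat_lit 160) (nat_lit 5) (nat_lit 421) (nat_lit 379) (nat_lit 220)) (XT.lf (nat_lit 0) (nat_lit 5009067661) (nat_lit 456) (nat_lit 20086573644) (nat_lit 76) (nat_lit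 1124778350) (nat_lit 154) (nat_lit 5) (nat_lit 160) (nat_lit 5) (nat_lit 155) (nat_lit 5) (nat_lit 422) (nat_lit 379) (nat_lit 219)))) (XT.nd (nat_lit 156) (nat_lit 304) (nat_lit 0) (XT.nd (nat_lit 78) (nat_lit 380) (nat_lit 0) (XT.lf (nat_lit 0) (nat_lit 9868062335) (nat_lit 456) (nat_lit 5409085574) (nat_lit 76) (nat_lit 11415265137) (nat_lit 154) (nat_lit 5) (nat_lit 160) (nat_lit 5) (nat_lit 155) (nat_lit 5) (nat_lit 423) (nat_lit 379) (nat_lit 218)) (XT.lf (nat_lit 0) (nat_lit 9894439069) (nat_lit 380) (nat_lit 5068064747) (nat_lit 456) (nat_lit 12213373351) (nat_lit 149) (nat_lit 5) (nat_lit 154) (nat_lit 5) (nat_lit 155) (nat_lit 5) (nat_lit 424) (nat_lit 379) (nat_lit 217))) (XT.nd (nat_lit 78) (nat_lit 304) (nat_lit 0) (XT.lf (nat_lit 0) (nat_lit 20311938249) (nat_lit 456) (nat_lit 1964594572) (nat_lit 76) (nat_lit 5394248803) (nat_lit 149) (nat_lit 5) (nat_lit 155) (nat_lit 5) (nat_lit 150) (nat_lit 5)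 (nat_lit 425) (nat_lit 379) (nat_lit 216)) (XT.lf (nat_lit 0) (nat_lit 14028095725) (nat_lit 304) (nat_lit 11973576798) (nat_lit 380) (nat_lit 2173467355) (nat_lit 145) (nat_lit 5) (nat_lit 149) (nat_lit 5) (nat_lit 150) (nat_lit 5) (nat_lit 426) (nat_lit 379) (nat_lit 215)))))) (XT.nd (nat_lit 546) (nat_lit 1140) (nat_lit 0) (XT.nd (nat_lit 234) (nat_lit 684) (nat_lit 0) (XT.nd (nat_lit 78) (nat_lit 304) (nat_lit 0) (XT.lf (nat_lit 0) (nat_lit 1844910309) (nat_lit 380) (nat_lit 1293342723) (nat_lit 456) (nat_lit 25554485763) (nat_lit 139) (nat_lit 5) (nat_lit 144) (nat_lit 5) (nat_lit 145) (nat_lit 5) (nat_lit 427) (nat_lit 379) (nat_lit 214)) (XT.nd (nat_lit 78) (nat_lit 304) (nat_lit 0) (XT.lf (nat_lit 0) (nat_lit 8798109008) (nat_lit 456) (nat_lit 10738516947) (nat_lit 76) (nat_lit 9681621154) (nat_lit 139) (nat_lit 5) (nat_lit 145) (nat_lit 5) (nat_lit 140) (nat_lit 5) (nat_lit 428) (nat_lit 379) (nat_lit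 213)) (XT.lf (nat_lit 0) (nat_lit 5950278442) (nat_lit 304) (nat_lit 8742518505) (nat_lit 380) (nat_lit 15064773673) (nat_lit 135) (nat_lit 5) (nat_lit 139) (nat_lit 5) (nat_lit 140) (nat_lit 5) (nat_lit 429) (nat_lit 379) (nat_lit 212)))) (XT.nd (nat_lit 156) (nat_lit 380) (nat_lit 0) (XT.nd (nat_lit 78) (nat_lit 304) (nat_lit 0) (XT.lf (nat_lit 0) (nat_lit 20891760721) (nat_lit 380) (nat_lit 6981020467) (nat_lit 76) (nat_lit 2436470600) (nat_lit 135) (nat_lit 5) (nat_lit 140) (nat_lit 5) (nat_lit 136) (nat_lit 5) (nat_lit 430) (nat_lit 379) (nat_lit 211)) (XT.lf (nat_lit 0) (nat_lit 10460654392) (nat_lit 304) (nat_lit 16998385506) (nat_lit 380) (nat_lit 3412974077) (nat_lit 131) (nat_lit 5) (nat_lit 135) (nat_lit 5) (nat_lit 136) (nat_lit 5) (nat_lit 431) (nat_lit 379) (nat_lit 210))) (XT.nd (nat_lit 78) (nat_lit 304) (nat_lit 0) (XT.lf (nat_lit 0) (nat_lit 2784043555) (nat_lit 380) (nat_lit 2915179265) (nat_lit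 76) (nat_lit 25749644320) (nat_lit 130) (nat_lit 5) (nat_lit 135) (nat_lit 5) (nat_lit 131) (nat_lit 5) (nat_lit 432) (nat_lit 379) (nat_lit 209)) (XT.lf (nat_lit 0) (nat_lit 9300334188) (nat_lit 380) (nat_lit 16731435072) (nat_lit 76) (nat_lit 6004184985) (nat_lit 126) (nat_lit 5) (nat_lit 131) (nat_lit 5) (nat_lit 127) (nat_lit 5) (nat_lit 433) (nat_lit 379) (nat_lit 208))))) (XT.nd (nat_lit 234) (nat_lit 608) (nat_lit 0) (XT.nd (nat_lit 78) (nat_lit 228) (nat_lit 0) (XT.lf (nat_lit 0) (nat_lit 1455657794) (nat_lit 304) (nat_lit 14652050236) (nat_lit 380) (nat_lit 16530078967) (nat_lit 122) (nat_lit 5) (nat_lit 126) (nat_lit 5) (nat_lit 127) (nat_lit 5) (nat_lit 434) (nat_lit 379) (nat_lit 207)) (XT.nd (nat_lit 78) (nat_lit 228) (nat_lit 0) (XT.lf (nat_lit 0) (nat_lit 20524584393) (nat_lit 304) (nat_lit 2759185916) (nat_lit 380) (nat_lit 9968971248) (nat_lit 122) (nat_lit 5) (nat_lit 126) (nat_lit 5) (nat_lit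 127) (nat_lit 5) (nat_lit 435) (nat_lit 379) (nat_lit 206)) (XT.lf (nat_lit 0) (nat_lit 6304559956) (nat_lit 228) (nat_lit 24518007994) (nat_lit 304) (nat_lit 3059154021) (nat_lit 119) (nat_lit 5) (nat_lit 122) (nat_lit 5) (nat_lit 123) (nat_lit 5) (nat_lit 436) (nat_lit 379) (nat_lit 205)))) (XT.nd (nat_lit 156) (nat_lit 228) (nat_lit 0) (XT.nd (nat_lit 78) (nat_lit 304) (nat_lit 0) (XT.lf (nat_lit 0) (nat_lit 4131535607) (nat_lit 304) (nat_lit 8430834087) (nat_lit 76) (nat_lit 21961449748) (nat_lit 118) (nat_lit 5) (nat_lit 122) (nat_lit 5) (nat_lit 119) (nat_lit 5) (nat_lit 437) (nat_lit 379) (nat_lit 204)) (XT.lf (nat_lit 0) (nat_lit 11477055962) (nat_lit 304) (nat_lit 105497978) (nat_lit 380) (nat_lit 23598535169) (nat_lit 114) (nat_lit 5) (nat_lit 118) (nat_lit 5) (nat_lit 119) (nat_lit 5) (nat_lit 438) (nat_lit 379) (nat_lit 203))) (XT.nd (nat_lit 78) (nat_lit 228) (nat_lit 0) (XT.lf (nat_lit 0) (nat_lit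 19461210985) (nat_lit 380) (nat_lit 3830218534) (nat_lit 76) (nat_lit 12560524828) (nat_lit 114) (nat_lit 5) (nat_lit 119) (nat_lit 5) (nat_lit 115) (nat_lit 5) (nat_lit 439) (nat_lit 379) (nat_lit 202)) (XT.lf (nat_lit 0) (nat_lit 16963436059) (nat_lit 228) (nat_lit 10772830305) (nat_lit 304) (nat_lit 8801878728) (nat_lit 111) (nat_lit 5) (nat_lit 114) (nat_lit 5) (nat_lit 115) (nat_lit 5) (nat_lit 440) (nat_lit 379) (nat_lit 201))))))) (XT.nd (nat_lit 1092) (nat_lit 1596) (nat_lit 0) (XT.nd (nat_lit 546) (nat_lit 836) (nat_lit 0) (XT.nd (nat_lit 234) (nat_lit 532) (nat_lit 0) (XT.nd (nat_lit 78) (nat_lit 304) (nat_lit 0) (XT.lf (nat_lit 0) (nat_lit 1212149174) (nat_lit 228) (nat_lit 35114495673) (nat_lit 304) (nat_lit 916265254) (nat_lit 108) (nat_lit 5) (nat_lit 111) (nat_lit 5) (nat_lit 112) (nat_lit 5) (nat_lit 441) (nat_lit 379) (nat_lit 200)) (XT.nd (nat_lit 78) (nat_lit 228) (nat_lit 0) (XT.lf (nat_lit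 0) (nat_lit 7367572245) (nat_lit 304) (nat_lit 15123301607) (nat_lit 76) (nat_lit 15466798753) (nat_lit 107) (nat_lit 5) (nat_lit 111) (nat_lit 5) (nat_lit 108) (nat_lit 5) (nat_lit 442) (nat_lit 379) (nat_lit 199)) (XT.lf (nat_lit 0) (nat_lit 6523388294) (nat_lit 228) (nat_lit 9416928372) (nat_lit 304) (nat_lit 22751525554) (nat_lit 104) (nat_lit 5) (nat_lit 107) (nat_lit 5) (nat_lit 108) (nat_lit 5) (nat_lit 443) (nat_lit 379) (nat_lit 198)))) (XT.nd (nat_lit 156) (nat_lit 304) (nat_lit 0) (XT.nd (nat_lit 78) (nat_lit 228) (nat_lit 0) (XT.lf (nat_lit 0) (nat_lit 24959528087) (nat_lit 304) (nat_lit 10360648331) (nat_lit 76) (nat_lit 4122182576) (nat_lit 104) (nat_lit 5) (nat_lit 108) (nat_lit 5) (nat_lit 105) (nat_lit 5) (nat_lit 444) (nat_lit 379) (nat_lit 197)) (XT.lf (nat_lit 0) (nat_lit 12240952740) (nat_lit 228) (nat_lit 22215513382) (nat_lit 304) (nat_lit 5752711232) (nat_lit 101) (nat_lit 5) (nat_lit 104)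 (nat_lit 5) (nat_lit 105) (nat_lit 5) (nat_lit 445) (nat_lit 379) (nat_lit 196))) (XT.nd (nat_lit 78) (nat_lit 228) (nat_lit 0) (XT.lf (nat_lit 0) (nat_lit 3278019693) (nat_lit 304) (nat_lit 5301133097) (nat_lit 76) (nat_lit 32415856336) (nat_lit 100) (nat_lit 5) (nat_lit 104) (nat_lit 5) (nat_lit 101) (nat_lit 5) (nat_lit 446) (nat_lit 379) (nat_lit 195)) (XT.lf (nat_lit 0) (nat_lit 12691555939) (nat_lit 304) (nat_lit 23511352976) (nat_lit 76) (nat_lit 5592973535) (nat_lit 97) (nat_lit 5) (nat_lit 101) (nat_lit 5) (nat_lit 98) (nat_lit 5) (nat_lit 447) (nat_lit 379) (nat_lit 194))))) (XT.nd (nat_lit 234) (nat_lit 456) (nat_lit 0) (XT.nd (nat_lit 78) (nat_lit 380) (nat_lit 0) (XT.lf (nat_lit 0) (nat_lit 22522898338) (nat_lit 304) (nat_lit 24151702) (nat_lit 76) (nat_lit 20069670458) (nat_lit 97) (nat_lit 5) (nat_lit 101) (nat_lit 5) (nat_lit 98) (nat_lit 5) (nat_lit 448) (nat_lit 379) (nat_lit 193)) (XT.nd (nat_lit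 78) (nat_lit 152) (nat_lit 0) (XT.lf (nat_lit 0) (nat_lit 24642774218) (nat_lit 228) (nat_lit 8239790054) (nat_lit 304) (nat_lit 10572618429) (nat_lit 94) (nat_lit 5) (nat_lit 97) (nat_lit 5) (nat_lit 98) (nat_lit 5) (nat_lit 449) (nat_lit 379) (nat_lit 192)) (XT.lf (nat_lit 0) (nat_lit 5775880665) (nat_lit 152) (nat_lit 37891884493) (nat_lit 228) (nat_lit 647591756) (nat_lit 92) (nat_lit 5) (nat_lit 94) (nat_lit 5) (nat_lit 95) (nat_lit 5) (nat_lit 450) (nat_lit 379) (nat_lit 191)))) (XT.nd (nat_lit 156) (nat_lit 152) (nat_lit 0) (XT.nd (nat_lit 78) (nat_lit 228) (nat_lit 0) (XT.lf (nat_lit 0) (nat_lit 9658309658) (nat_lit 228) (nat_lit 13889487570) (nat_lit 76) (nat_lit 21642679208) (nat_lit 91) (nat_lit 5) (nat_lit 94) (nat_lit 5) (nat_lit 92) (nat_lit 5) (nat_lit 451) (nat_lit 379) (nat_lit 190)) (XT.lf (nat_lit 0) (nat_lit 11716591595) (nat_lit 228) (nat_lit 8653047333) (nat_lit 304) (nat_lit 25718740713)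 (nat_lit 88) (nat_lit 5) (nat_lit 91) (nat_lit 5) (nat_lit 92) (nat_lit 5) (nat_lit 452) (nat_lit 379) (nat_lit 189))) (XT.nd (nat_lit 78) (nat_lit 152) (nat_lit 0) (XT.lf (nat_lit 0) (nat_lit 31604910016) (nat_lit 304) (nat_lit 8704774582) (nat_lit 76) (nat_lit 6697457725) (nat_lit 88) (nat_lit 5) (nat_lit 92) (nat_lit 5) (nat_lit 89) (nat_lit 5) (nat_lit 453) (nat_lit 379) (nat_lit 188)) (XT.lf (nat_lit 0) (nat_lit 17992179143) (nat_lit 152) (nat_lit 25440445161) (nat_lit 228) (nat_lit 4513182458) (nat_lit 86) (nat_lit 5) (nat_lit 88) (nat_lit 5) (nat_lit 89) (nat_lit 5) (nat_lit 454) (nat_lit 379) (nat_lit 187)))))) (XT.nd (nat_lit 546) (nat_lit 760) (nat_lit 0) (XT.nd (nat_lit 234) (nat_lit 380) (nat_lit 0) (XT.nd (nat_lit 78) (nat_lit 380) (nat_lit 0) (XT.lf (nat_lit 0) (nat_lit 6657289242) (nat_lit 228) (nat_lit 3312311996) (nat_lit 76) (nat_lit 38938531200) (nat_lit 85) (nat_lit 5) (nat_lit 88) (nat_lit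 5) (nat_lit 86) (nat_lit 5) (nat_lit 455) (nat_lit 379) (nat_lit 186)) (XT.nd (nat_lit 78) (nat_lit 152) (nat_lit 0) (XT.lf (nat_lit 0) (nat_lit 18365190472) (nat_lit 304) (nat_lit 25393678687) (nat_lit 76) (nat_lit 6130327791) (nat_lit 82) (nat_lit 5) (nat_lit 86) (nat_lit 5) (nat_lit 83) (nat_lit 5) (nat_lit 456) (nat_lit 379) (nat_lit 185)) (XT.lf (nat_lit 0) (nat_lit 2246225298) (nat_lit 152) (nat_lit 28329066601) (nat_lit 228) (nat_lit 20319872984) (nat_lit 80) (nat_lit 5) (nat_lit 82) (nat_lit 5) (nat_lit 83) (nat_lit 5) (nat_lit 457) (nat_lit 379) (nat_lit 184)))) (XT.nd (nat_lit 156) (nat_lit 152) (nat_lit 0) (XT.nd (nat_lit 78) (nat_lit 228) (nat_lit 0) (XT.lf (nat_lit 0) (nat_lit 31230565285) (nat_lit 152) (nat_lit 12174480341) (nat_lit 228) (nat_lit 8518666118) (nat_lit 80) (nat_lit 5) (nat_lit 82) (nat_lit 5) (nat_lit 83) (nat_lit 5) (nat_lit 458) (nat_lit 379) (nat_lit 183)) (XT.lf (nat_lit 0) (nat_lit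 3685653057) (nat_lit 228) (nat_lit 44802227891) (nat_lit 76) (nat_lit 4490584538) (nat_lit 77) (nat_lit 5) (nat_lit 80) (nat_lit 5) (nat_lit 78) (nat_lit 5) (nat_lit 459) (nat_lit 379) (nat_lit 182))) (XT.nd (nat_lit 78) (nat_lit 152) (nat_lit 0) (XT.lf (nat_lit 0) (nat_lit 16413453464) (nat_lit 228) (nat_lit 15934882300) (nat_lit 76) (nat_lit 21704139063) (nat_lit 77) (nat_lit 5) (nat_lit 80) (nat_lit 5) (nat_lit 78) (nat_lit 5) (nat_lit 460) (nat_lit 379) (nat_lit 181)) (XT.lf (nat_lit 0) (nat_lit 14067921709) (nat_lit 152) (nat_lit 15587482907) (nat_lit 228) (nat_lit 25499330656) (nat_lit 75) (nat_lit 5) (nat_lit 77) (nat_lit 5) (nat_lit 78) (nat_lit 5) (nat_lit 461) (nat_lit 379) (nat_lit 180))))) (XT.nd (nat_lit 312) (nat_lit 380) (nat_lit 0) (XT.nd (nat_lit 156) (nat_lit 152) (nat_lit 0) (XT.nd (nat_lit 78) (nat_lit 228) (nat_lit 0) (XT.lf (nat_lit 0) (nat_lit 43470334253) (nat_lit 228) (nat_lit 11010576604)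 (nat_lit 76) (nat_lit 1803881396) (nat_lit 75) (nat_lit 5) (nat_lit 78) (nat_lit 5) (nat_lit 76) (nat_lit 5) (nat_lit 462) (nat_lit 379) (nat_lit 179)) (XT.lf (nat_lit 0) (nat_lit 595207996) (nat_lit 228) (nat_lit 37241313186) (nat_lit 76) (nat_lit 19601683358) (nat_lit 72) (nat_lit 5) (nat_lit 75) (nat_lit 5) (nat_lit 73) (nat_lit 5) (nat_lit 463) (nat_lit 379) (nat_lit 178))) (XT.nd (nat_lit 78) (nat_lit 152) (nat_lit 0) (XT.lf (nat_lit 0) (nat_lit 14259086645) (nat_lit 228) (nat_lit 6189524112) (nat_lit 76) (nat_lit 38170518039) (nat_lit 72) (nat_lit 5) (nat_lit 75) (nat_lit 5) (nat_lit 73) (nat_lit 5) (nat_lit 464) (nat_lit 379) (nat_lit 177)) (XT.lf (nat_lit 0) (nat_lit 26302261577) (nat_lit 152) (nat_lit 2280729728) (nat_lit 228) (nat_lit 31244986466) (nat_lit 70) (nat_lit 5) (nat_lit 72) (nat_lit 5) (nat_lit 73) (nat_lit 5) (nat_lit 465) (nat_lit 379) (nat_lit 176)))) (XT.nd (nat_lit 156) (nat_lit 228) (nat_lit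 0) (XT.nd (nat_lit 78) (nat_lit 152) (nat_lit 0) (XT.lf (nat_lit 0) (nat_lit 43554980108) (nat_lit 228) (nat_lit 1338935052) (nat_lit 76) (nat_lit 16172626320) (nat_lit 70) (nat_lit 5) (nat_lit 73) (nat_lit 5) (nat_lit 71) (nat_lit 5) (nat_lit 466) (nat_lit 379) (nat_lit 175)) (XT.lf (nat_lit 0) (nat_lit 32418793094) (nat_lit 152) (nat_lit 26888915042) (nat_lit 228) (nat_lit 3024606845) (nat_lit 68) (nat_lit 5) (nat_lit 70) (nat_lit 5) (nat_lit 71) (nat_lit 5) (nat_lit 467) (nat_lit 379) (nat_lit 174))) (XT.nd (nat_lit 78) (nat_lit 0) (nat_lit 0) (XT.lf (nat_lit 0) (nat_lit 3530758032) (nat_lit 152) (nat_lit 8179014997) (nat_lit 228) (nat_lit 51921509008) (nat_lit 65) (nat_lit 5) (nat_lit 67) (nat_lit 5) (nat_lit 68) (nat_lit 5) (nat_lit 468) (nat_lit 379) (nat_lit 173)) (XT.lf (nat_lit 0) (nat_lit 27234463240) (nat_lit 228) (nat_lit 26512855386) (nat_lit 76) (nat_lit 11208729208) (nat_lit 65) (nat_lit 5) (nat_lit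 68) (nat_lit 5) (nat_lit 66) (nat_lit 5) (nat_lit 469) (nat_lit 379) (nat_lit 172))))))))
noncomputable def xc189 : XT := (XT.nd (nat_lit 47268) (nat_lit 0) (nat_lit 7904) (XT.nd (nat_lit 46098) (nat_lit 0) (nat_lit 16036) (XT.nd (nat_lit 546) (nat_lit 456) (nat_lit 0) (XT.nd (nat_lit 234) (nat_lit 304) (nat_lit 0) (XT.nd (nat_lit 78) (nat_lit 228) (nat_lit 0) (XT.lf (nat_lit 0) (nat_lit 8156052511) (nat_lit 152) (nat_lit 35225686078) (nat_lit 228) (nat_lit 22934112920) (nat_lit 63) (nat_lit 5) (nat_lit 65) (nat_lit 5) (nat_lit 66) (nat_lit 5) (nat_lit 470) (nat_lit 379) (nat_lit 171)) (XT.nd (nat_lit 78) (nat_lit 228) (nat_lit 0) (XT.lf (nat_lit 0) (nat_lit 44403995542) (nat_lit 152) (nat_lit 15874658074) (nat_lit 228) (nat_lit 7429839266) (nat_lit 63) (nat_lit 5) (nat_lit 65) (nat_lit 5) (nat_lit 66) (nat_lit 5) (nat_lit 471) (nat_lit 379) (nat_lit 170)) (XT.lf (nat_lit 0) (nat_lit 8534119140) (nat_lit 228) (nat_lit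 56418939837) (nat_lit 76) (nat_lit 4182556284) (nat_lit 60) (nat_lit 5) (nat_lit 63) (nat_lit 5) (nat_lit 61) (nat_lit 5) (nat_lit 472) (nat_lit 379) (nat_lit 169)))) (XT.nd (nat_lit 156) (nat_lit 152) (nat_lit 0) (XT.nd (nat_lit 78) (nat_lit 152) (nat_lit 0) (XT.lf (nat_lit 0) (nat_lit 25220051158) (nat_lit 228) (nat_lit 20539804101) (nat_lit 76) (nat_lit 24831717763) (nat_lit 60) (nat_lit 5) (nat_lit 63) (nat_lit 5) (nat_lit 61) (nat_lit 5) (nat_lit 473) (nat_lit 379) (nat_lit 168)) (XT.lf (nat_lit 0) (nat_lit 16738006237) (nat_lit 152) (nat_lit 25827074849) (nat_lit 228) (nat_lit 29521373035) (nat_lit 58) (nat_lit 5) (nat_lit 60) (nat_lit 5) (nat_lit 61) (nat_lit 5) (nat_lit 474) (nat_lit 379) (nat_lit 167))) (XT.nd (nat_lit 78) (nat_lit 152) (nat_lit 0) (XT.lf (nat_lit 0) (nat_lit 55550920812) (nat_lit 152) (nat_lit 5084604944) (nat_lit 228) (nat_lit 12984504181) (nat_lit 58) (nat_lit 5) (nat_lit 60) (nat_lit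 5) (nat_lit 61) (nat_lit 5) (nat_lit 475) (nat_lit 379) (nat_lit 166)) (XT.lf (nat_lit 0) (nat_lit 4324876461) (nat_lit 152) (nat_lit 54662162123) (nat_lit 76) (nat_lit 16200744959) (nat_lit 56) (nat_lit 5) (nat_lit 58) (nat_lit 5) (nat_lit 57) (nat_lit 5) (nat_lit 476) (nat_lit 379) (nat_lit 165))))) (XT.nd (nat_lit 234) (nat_lit 304) (nat_lit 0) (XT.nd (nat_lit 78) (nat_lit 152) (nat_lit 0) (XT.lf (nat_lit 0) (nat_lit 22124881345) (nat_lit 152) (nat_lit 16333418198) (nat_lit 76) (nat_lit 38333444057) (nat_lit 56) (nat_lit 5) (nat_lit 58) (nat_lit 5) (nat_lit 57) (nat_lit 5) (nat_lit 477) (nat_lit 379) (nat_lit 164)) (XT.nd (nat_lit 78) (nat_lit 0) (nat_lit 0) (XT.lf (nat_lit 0) (nat_lit 23601657319) (nat_lit 152) (nat_lit 17081876164) (nat_lit 228) (nat_lit 37753549737) (nat_lit 54) (nat_lit 5) (nat_lit 56) (nat_lit 5) (nat_lit 57) (nat_lit 5) (nat_lit 478) (nat_lit 379) (nat_lit 163)) (XT.lf (nat_lit 0) (nat_lit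 60010741815) (nat_lit 228) (nat_lit 15110402635) (nat_lit 76) (nat_lit 5004284853) (nat_lit 54) (nat_lit 5) (nat_lit 57) (nat_lit 5) (nat_lit 55) (nat_lit 4) (nat_lit 479) (nat_lit 379) (nat_lit 162)))) (XT.nd (nat_lit 156) (nat_lit 152) (nat_lit 0) (XT.nd (nat_lit 78) (nat_lit 76) (nat_lit 0) (XT.lf (nat_lit 0) (nat_lit 26143422893) (nat_lit 76) (nat_lit 54192623964) (nat_lit 152) (nat_lit 1515830663) (nat_lit 53) (nat_lit 5) (nat_lit 54) (nat_lit 5) (nat_lit 55) (nat_lit 4) (nat_lit 480) (nat_lit 379) (nat_lit 161)) (XT.lf (nat_lit 0) (nat_lit 17448698833) (nat_lit 152) (nat_lit 14855994032) (nat_lit 76) (nat_lit 51315780808) (nat_lit 52) (nat_lit 5) (nat_lit 54) (nat_lit 5) (nat_lit 53) (nat_lit 5) (nat_lit 481) (nat_lit 379) (nat_lit 160))) (XT.nd (nat_lit 78) (nat_lit 0) (nat_lit 0) (XT.lf (nat_lit 0) (nat_lit 27744567153) (nat_lit 152) (nat_lit 9471740812) (nat_lit 228) (nat_lit 48217431337) (nat_lit 50)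 (nat_lit 5) (nat_lit 52) (nat_lit 5) (nat_lit 53) (nat_lit 5) (nat_lit 482) (nat_lit 379) (nat_lit 159)) (XT.lf (nat_lit 0) (nat_lit 57861387569) (nat_lit 228) (nat_lit 15509598605) (nat_lit 76) (nat_lit 13921883606) (nat_lit 50) (nat_lit 5) (nat_lit 53) (nat_lit 5) (nat_lit 51) (nat_lit 4) (nat_lit 483) (nat_lit 379) (nat_lit 158)))))) (XT.nd (nat_lit 546) (nat_lit 988) (nat_lit 0) (XT.nd (nat_lit 234) (nat_lit 0) (nat_lit 76) (XT.nd (nat_lit 78) (nat_lit 0) (nat_lit 0) (XT.lf (nat_lit 0) (nat_lit 2333181217) (nat_lit 0) (nat_lit 2333181217) (nat_lit 1140) (nat_lit 2093286289) (nat_lit 274) (nat_lit 5) (nat_lit 274) (nat_lit 3) (nat_lit 289) (nat_lit 3) (nat_lit 380) (nat_lit 380) (nat_lit 260)) (XT.nd (nat_lit 78) (nat_lit 0) (nat_lit 0) (XT.lf (nat_lit 0) (nat_lit 9851377694) (nat_lit 1140) (nat_lit 2292719269) (nat_lit 1216) (nat_lit 1566506453) (nat_lit 274) (nat_lit 5) (nat_lit 289) (nat_lit 3) (nat_lit 290)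 (nat_lit 5) (nat_lit 381) (nat_lit 380) (nat_lit 259)) (XT.lf (nat_lit 76) (nat_lit 4498291503) (nat_lit 0) (nat_lit 5962629941) (nat_lit 1216) (nat_lit 3444472002) (nat_lit 275) (nat_lit 5) (nat_lit 274) (nat_lit 5) (nat_lit 290) (nat_lit 5) (nat_lit 382) (nat_lit 380) (nat_lit 258)))) (XT.nd (nat_lit 156) (nat_lit 0) (nat_lit 0) (XT.nd (nat_lit 78) (nat_lit 0) (nat_lit 0) (XT.lf (nat_lit 0) (nat_lit 11102307235) (nat_lit 1140) (nat_lit 2577408263) (nat_lit 1216) (nat_lit 425909693) (nat_lit 275) (nat_lit 5) (nat_lit 290) (nat_lit 5) (nat_lit 291) (nat_lit 5) (nat_lit 383) (nat_lit 380) (nat_lit 257)) (XT.lf (nat_lit 76) (nat_lit 4477758933) (nat_lit 0) (nat_lit 7373942266) (nat_lit 1216) (nat_lit 2457504239) (nat_lit 276) (nat_lit 5) (nat_lit 275) (nat_lit 5) (nat_lit 291) (nat_lit 5) (nat_lit 384) (nat_lit 380) (nat_lit 256))) (XT.nd (nat_lit 78) (nat_lit 0) (nat_lit 76) (XT.lf (nat_lit 76) (nat_lit 11789732993)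 (nat_lit 0) (nat_lit 846872348) (nat_lit 1216) (nat_lit 1881901316) (nat_lit 276) (nat_lit 5) (nat_lit 275) (nat_lit 5) (nat_lit 291) (nat_lit 5) (nat_lit 385) (nat_lit 380) (nat_lit 255)) (XT.lf (nat_lit 76) (nat_lit 4612613029) (nat_lit 0) (nat_lit 8920696432) (nat_lit 1216) (nat_lit 1198134154) (nat_lit 277) (nat_lit 5) (nat_lit 276) (nat_lit 5) (nat_lit 292) (nat_lit 5) (nat_lit 386) (nat_lit 380) (nat_lit 254))))) (XT.nd (nat_lit 312) (nat_lit 0) (nat_lit 76) (XT.nd (nat_lit 156) (nat_lit 0) (nat_lit 0) (XT.nd (nat_lit 78) (nat_lit 1140) (nat_lit 0) (XT.lf (nat_lit 76) (nat_lit 12213812897) (nat_lit 0) (nat_lit 2266680546) (nat_lit 1216) (nat_lit 469572037) (nat_lit 277) (nat_lit 5) (nat_lit 276) (nat_lit 5) (nat_lit 292) (nat_lit 5) (nat_lit 387) (nat_lit 380) (nat_lit 253)) (XT.lf (nat_lit 0) (nat_lit 355574736) (nat_lit 1216) (nat_lit 10264790520) (nat_lit 1292) (nat_lit 4552397436) (nat_lit 261) (nat_lit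 5) (nat_lit 277) (nat_lit 5) (nat_lit 278) (nat_lit 5) (nat_lit 388) (nat_lit 380) (nat_lit 252))) (XT.nd (nat_lit 78) (nat_lit 0) (nat_lit 76) (XT.lf (nat_lit 0) (nat_lit 1234656017) (nat_lit 1216) (nat_lit 2599211449) (nat_lit 1292) (nat_lit 11566979145) (nat_lit 261) (nat_lit 5) (nat_lit 277) (nat_lit 5) (nat_lit 278) (nat_lit 5) (nat_lit 389) (nat_lit 380) (nat_lit 251)) (XT.lf (nat_lit 0) (nat_lit 2211456258) (nat_lit 1216) (nat_lit 10271775464) (nat_lit 1292) (nat_lit 3150404628) (nat_lit 262) (nat_lit 5) (nat_lit 278) (nat_lit 5) (nat_lit 279) (nat_lit 5) (nat_lit 390) (nat_lit 380) (nat_lit 250)))) (XT.nd (nat_lit 156) (nat_lit 0) (nat_lit 76) (XT.nd (nat_lit 78) (nat_lit 0) (nat_lit 76) (XT.lf (nat_lit 0) (nat_lit 3270927365) (nat_lit 1216) (nat_lit 2303997495) (nat_lit 1292) (nat_lit 10296887505) (nat_lit 262) (nat_lit 5) (nat_lit 278) (nat_lit 5) (nat_lit 279) (nat_lit 5) (nat_lit 391) (nat_lit 380)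 (nat_lit 249)) (XT.lf (nat_lit 0) (nat_lit 4424608212) (nat_lit 1216) (nat_lit 10118966410) (nat_lit 1292) (nat_lit 1571689757) (nat_lit 263) (nat_lit 5) (nat_lit 279) (nat_lit 5) (nat_lit 280) (nat_lit 5) (nat_lit 392) (nat_lit 380) (nat_lit 248))) (XT.nd (nat_lit 78) (nat_lit 0) (nat_lit 0) (XT.lf (nat_lit 0) (nat_lit 5681080754) (nat_lit 1216) (nat_lit 1836148477) (nat_lit 1292) (nat_lit 8846748668) (nat_lit 263) (nat_lit 5) (nat_lit 279) (nat_lit 5) (nat_lit 280) (nat_lit 5) (nat_lit 393) (nat_lit 380) (nat_lit 247)) (XT.lf (nat_lit 76) (nat_lit 6820250522) (nat_lit 0) (nat_lit 210351334) (nat_lit 1292) (nat_lit 9587893624) (nat_lit 264) (nat_lit 5) (nat_lit 263) (nat_lit 5) (nat_lit 280) (nat_lit 5) (nat_lit 394) (nat_lit 380) (nat_lit 246))))))) (XT.nd (nat_lit 1092) (nat_lit 4180) (nat_lit 0) (XT.nd (nat_lit 546) (nat_lit 1672) (nat_lit 0) (XT.nd (nat_lit 234) (nat_lit 2508) (nat_lit 0) (XT.nd (nat_lit 78)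 (nat_lit 0) (nat_lit 0) (XT.lf (nat_lit 0) (nat_lit 8499692053) (nat_lit 1216) (nat_lit 1184853918) (nat_lit 1292) (nat_lit 7193733302) (nat_lit 264) (nat_lit 5) (nat_lit 280) (nat_lit 5) (nat_lit 281) (nat_lit 5) (nat_lit 395) (nat_lit 380) (nat_lit 245)) (XT.nd (nat_lit 78) (nat_lit 0) (nat_lit 76) (XT.lf (nat_lit 76) (nat_lit 7829645178) (nat_lit 0) (nat_lit 2250881125) (nat_lit 1292) (nat_lit 7063303235) (nat_lit 265) (nat_lit 5) (nat_lit 264) (nat_lit 5) (nat_lit 281) (nat_lit 5) (nat_lit 396) (nat_lit 380) (nat_lit 244)) (XT.lf (nat_lit 0) (nat_lit 11763378462) (nat_lit 1216) (nat_lit 338421206) (nat_lit 76) (nat_lit 5313911862) (nat_lit 265) (nat_lit 5) (nat_lit 281) (nat_lit 5) (nat_lit 266) (nat_lit 5) (nat_lit 397) (nat_lit 380) (nat_lit 243)))) (XT.nd (nat_lit 156) (nat_lit 684) (nat_lit 0) (XT.nd (nat_lit 78) (nat_lit 684) (nat_lit 0) (XT.lf (nat_lit 0) (nat_lit 9053005863) (nat_lit 1216) (nat_lit 4543840587)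 (nat_lit 1292) (nat_lit 4095902544) (nat_lit 249) (nat_lit 5) (nat_lit 265) (nat_lit 5) (nat_lit 266) (nat_lit 5) (nat_lit 398) (nat_lit 380) (nat_lit 242)) (XT.lf (nat_lit 0) (nat_lit 729991373) (nat_lit 684) (nat_lit 14787971664) (nat_lit 760) (nat_lit 2459158042) (nat_lit 240) (nat_lit 5) (nat_lit 249) (nat_lit 5) (nat_lit 250) (nat_lit 5) (nat_lit 399) (nat_lit 380) (nat_lit 241))) (XT.nd (nat_lit 78) (nat_lit 684) (nat_lit 0) (XT.lf (nat_lit 0) (nat_lit 10503936101) (nat_lit 684) (nat_lit 7115775610) (nat_lit 760) (nat_lit 646625409) (nat_lit 240) (nat_lit 5) (nat_lit 249) (nat_lit 5) (nat_lit 250) (nat_lit 5) (nat_lit 400) (nat_lit 380) (nat_lit 240)) (XT.lf (nat_lit 0) (nat_lit 1215203829) (nat_lit 684) (nat_lit 16544786237) (nat_lit 76) (nat_lit 803328286) (nat_lit 231) (nat_lit 5) (nat_lit 240) (nat_lit 5) (nat_lit 232) (nat_lit 5) (nat_lit 401) (nat_lit 380) (nat_lit 239))))) (XT.nd (nat_lit 234) (nat_lit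 1064) (nat_lit 0) (XT.nd (nat_lit 78) (nat_lit 608) (nat_lit 0) (XT.lf (nat_lit 0) (nat_lit 3261060714) (nat_lit 684) (nat_lit 6700698382) (nat_lit 76) (nat_lit 8903025298) (nat_lit 231) (nat_lit 5) (nat_lit 240) (nat_lit 5) (nat_lit 232) (nat_lit 5) (nat_lit 402) (nat_lit 380) (nat_lit 238)) (XT.nd (nat_lit 78) (nat_lit 0) (nat_lit 0) (XT.lf (nat_lit 0) (nat_lit 3499005628) (nat_lit 608) (nat_lit 1894723187) (nat_lit 684) (nat_lit 13780804979) (nat_lit 223) (nat_lit 5) (nat_lit 231) (nat_lit 5) (nat_lit 232) (nat_lit 5) (nat_lit 403) (nat_lit 380) (nat_lit 237)) (XT.lf (nat_lit 0) (nat_lit 7712334202) (nat_lit 684) (nat_lit 5419966710) (nat_lit 76) (nat_lit 6357618422) (nat_lit 223) (nat_lit 5) (nat_lit 232) (nat_lit 5) (nat_lit 224) (nat_lit 5) (nat_lit 404) (nat_lit 380) (nat_lit 236)))) (XT.nd (nat_lit 156) (nat_lit 532) (nat_lit 0) (XT.nd (nat_lit 78) (nat_lit 0) (nat_lit 0) (XT.lf (nat_lit 0) (nat_lit 5218418391)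 (nat_lit 532) (nat_lit 4943200636) (nat_lit 608) (nat_lit 9651316079) (nat_lit 216) (nat_lit 5) (nat_lit 223) (nat_lit 5) (nat_lit 224) (nat_lit 5) (nat_lit 405) (nat_lit 380) (nat_lit 235)) (XT.lf (nat_lit 0) (nat_lit 12765567561) (nat_lit 608) (nat_lit 3899111422) (nat_lit 76) (nat_lit 3478529050) (nat_lit 216) (nat_lit 5) (nat_lit 224) (nat_lit 5) (nat_lit 217) (nat_lit 5) (nat_lit 406) (nat_lit 380) (nat_lit 234))) (XT.nd (nat_lit 78) (nat_lit 0) (nat_lit 0) (XT.lf (nat_lit 0) (nat_lit 7200897805) (nat_lit 532) (nat_lit 8357470704) (nat_lit 608) (nat_lit 4921700793) (nat_lit 209) (nat_lit 5) (nat_lit 216) (nat_lit 5) (nat_lit 217) (nat_lit 5) (nat_lit 407) (nat_lit 380) (nat_lit 233)) (XT.lf (nat_lit 0) (nat_lit 18469338425) (nat_lit 608) (nat_lit 2122292756) (nat_lit 76) (nat_lit 234375790) (nat_lit 209) (nat_lit 5) (nat_lit 217) (nat_lit 5) (nat_lit 210) (nat_lit 5) (nat_lit 408) (nat_lit 380) (nat_lit 232))))))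 (XT.nd (nat_lit 546) (nat_lit 2204) (nat_lit 0) (XT.nd (nat_lit 234) (nat_lit 912) (nat_lit 0) (XT.nd (nat_lit 78) (nat_lit 532) (nat_lit 0) (XT.lf (nat_lit 0) (nat_lit 448032556) (nat_lit 532) (nat_lit 11718244971) (nat_lit 76) (nat_lit 9010916389) (nat_lit 202) (nat_lit 5) (nat_lit 209) (nat_lit 5) (nat_lit 203) (nat_lit 5) (nat_lit 409) (nat_lit 380) (nat_lit 231)) (XT.nd (nat_lit 78) (nat_lit 532) (nat_lit 0) (XT.lf (nat_lit 0) (nat_lit 3304134569) (nat_lit 532) (nat_lit 138490335) (nat_lit 76) (nat_lit 18095154697) (nat_lit 202) (nat_lit 5) (nat_lit 209) (nat_lit 5) (nat_lit 203) (nat_lit 5) (nat_lit 410) (nat_lit 380) (nat_lit 230)) (XT.lf (nat_lit 0) (nat_lit 6409024599) (nat_lit 608) (nat_lit 9944793716) (nat_lit 76) (nat_lit 5550473267) (nat_lit 195) (nat_lit 5) (nat_lit 203) (nat_lit 5) (nat_lit 196) (nat_lit 5) (nat_lit 411) (nat_lit 380) (nat_lit 229)))) (XT.nd (nat_lit 156) (nat_lit 456) (nat_lit 0)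 (XT.nd (nat_lit 78) (nat_lit 0) (nat_lit 0) (XT.lf (nat_lit 0) (nat_lit 2141499757) (nat_lit 456) (nat_lit 7514950913) (nat_lit 532) (nat_lit 12623868393) (nat_lit 189) (nat_lit 5) (nat_lit 195) (nat_lit 5) (nat_lit 196) (nat_lit 5) (nat_lit 412) (nat_lit 380) (nat_lit 228)) (XT.lf (nat_lit 0) (nat_lit 13111409784) (nat_lit 532) (nat_lit 7894454058) (nat_lit 76) (nat_lit 1658461982) (nat_lit 189) (nat_lit 5) (nat_lit 196) (nat_lit 5) (nat_lit 190) (nat_lit 5) (nat_lit 413) (nat_lit 380) (nat_lit 227))) (XT.nd (nat_lit 78) (nat_lit 0) (nat_lit 0) (XT.lf (nat_lit 0) (nat_lit 4727504401) (nat_lit 456) (nat_lit 12055971929) (nat_lit 532) (nat_lit 6272974415) (nat_lit 183) (nat_lit 5) (nat_lit 189) (nat_lit 5) (nat_lit 190) (nat_lit 5) (nat_lit 414) (nat_lit 380) (nat_lit 226)) (XT.lf (nat_lit 0) (nat_lit 17882441598) (nat_lit 456) (nat_lit 2756705273) (nat_lit 532) (nat_lit 2818990947) (nat_lit 183) (nat_lit 5) (nat_lit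 189) (nat_lit 5) (nat_lit 190) (nat_lit 5) (nat_lit 415) (nat_lit 380) (nat_lit 225))))) (XT.nd (nat_lit 312) (nat_lit 1216) (nat_lit 0) (XT.nd (nat_lit 156) (nat_lit 456) (nat_lit 0) (XT.nd (nat_lit 78) (nat_lit 0) (nat_lit 0) (XT.lf (nat_lit 0) (nat_lit 858383719) (nat_lit 532) (nat_lit 16240182462) (nat_lit 76) (nat_lit 6769072351) (nat_lit 176) (nat_lit 5) (nat_lit 183) (nat_lit 5) (nat_lit 177) (nat_lit 5) (nat_lit 416) (nat_lit 380) (nat_lit 224)) (XT.lf (nat_lit 0) (nat_lit 4667516535) (nat_lit 532) (nat_lit 3010010066) (nat_lit 76) (nat_lit 16608718991) (nat_lit 176) (nat_lit 5) (nat_lit 183) (nat_lit 5) (nat_lit 177) (nat_lit 5) (nat_lit 417) (nat_lit 380) (nat_lit 223))) (XT.nd (nat_lit 78) (nat_lit 0) (nat_lit 0) (XT.lf (nat_lit 0) (nat_lit 8709550738) (nat_lit 532) (nat_lit 13914031329) (nat_lit 76) (nat_lit 2090271455) (nat_lit 170) (nat_lit 5) (nat_lit 177) (nat_lit 5) (nat_lit 171) (nat_lit 5) (nat_lit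 418) (nat_lit 380) (nat_lit 222)) (XT.lf (nat_lit 0) (nat_lit 12973762453) (nat_lit 532) (nat_lit 151424710) (nat_lit 76) (nat_lit 12026076468) (nat_lit 170) (nat_lit 5) (nat_lit 177) (nat_lit 5) (nat_lit 171) (nat_lit 5) (nat_lit 419) (nat_lit 380) (nat_lit 221)))) (XT.nd (nat_lit 156) (nat_lit 456) (nat_lit 0) (XT.nd (nat_lit 78) (nat_lit 380) (nat_lit 0) (XT.lf (nat_lit 0) (nat_lit 14295856282) (nat_lit 380) (nat_lit 3201838761) (nat_lit 456) (nat_lit 8100148558) (nat_lit 165) (nat_lit 5) (nat_lit 170) (nat_lit 5) (nat_lit 171) (nat_lit 5) (nat_lit 420) (nat_lit 380) (nat_lit 220)) (XT.lf (nat_lit 0) (nat_lit 3107791381) (nat_lit 380) (nat_lit 19142899985) (nat_lit 456) (nat_lit 3804330586) (nat_lit 160) (nat_lit 5) (nat_lit 165) (nat_lit 5) (nat_lit 166) (nat_lit 5) (nat_lit 421) (nat_lit 380) (nat_lit 219))) (XT.nd (nat_lit 78) (nat_lit 380) (nat_lit 0) (XT.lf (nat_lit 0) (nat_lit 749707517) (nat_lit 456)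 (nat_lit 8387032597) (nat_lit 76) (nat_lit 17384754382) (nat_lit 159) (nat_lit 5) (nat_lit 165) (nat_lit 5) (nat_lit 160) (nat_lit 5) (nat_lit 422) (nat_lit 380) (nat_lit 218)) (XT.lf (nat_lit 0) (nat_lit 5435157268) (nat_lit 456) (nat_lit 20315409832) (nat_lit 76) (nat_lit 1248127744) (nat_lit 154) (nat_lit 5) (nat_lit 160) (nat_lit 5) (nat_lit 155) (nat_lit 5) (nat_lit 423) (nat_lit 380) (nat_lit 217))))))))
noncomputable def xc190 : XT := (XT.nd (nat_lit 2262) (nat_lit 2888) (nat_lit 0) (XT.nd (nat_lit 1092) (nat_lit 2128) (nat_lit 0) (XT.nd (nat_lit 546) (nat_lit 1216) (nat_lit 0) (XT.nd (nat_lit 234) (nat_lit 1064) (nat_lit 0) (XT.nd (nat_lit 78) (nat_lit 380) (nat_lit 0) (XT.lf (nat_lit 0) (nat_lit 10431888261) (nat_lit 456) (nat_lit 5208483363) (nat_lit 76) (nat_lit 11844719249) (nat_lit 154) (nat_lit 5) (nat_lit 160) (nat_lit 5) (nat_lit 155) (nat_lit 5) (nat_lit 424) (nat_lit 380) (nat_lit 216)) (XT.nd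 (nat_lit 78) (nat_lit 0) (nat_lit 0) (XT.lf (nat_lit 0) (nat_lit 10550589423) (nat_lit 380) (nat_lit 5124228004) (nat_lit 456) (nat_lit 12308373636) (nat_lit 149) (nat_lit 5) (nat_lit 154) (nat_lit 5) (nat_lit 155) (nat_lit 5) (nat_lit 425) (nat_lit 380) (nat_lit 215)) (XT.lf (nat_lit 0) (nat_lit 21177956728) (nat_lit 456) (nat_lit 1667845072) (nat_lit 76) (nat_lit 5647345925) (nat_lit 149) (nat_lit 5) (nat_lit 155) (nat_lit 5) (nat_lit 150) (nat_lit 5) (nat_lit 426) (nat_lit 380) (nat_lit 214)))) (XT.nd (nat_lit 156) (nat_lit 304) (nat_lit 0) (XT.nd (nat_lit 78) (nat_lit 456) (nat_lit 0) (XT.lf (nat_lit 0) (nat_lit 14801138803) (nat_lit 304) (nat_lit 12233154247) (nat_lit 380) (nat_lit 1978468051) (nat_lit 145) (nat_lit 5) (nat_lit 149) (nat_lit 5) (nat_lit 150) (nat_lit 5) (nat_lit 427) (nat_lit 380) (nat_lit 213)) (XT.lf (nat_lit 0) (nat_lit 2254086310) (nat_lit 380) (nat_lit 1229410502) (nat_lit 456) (nat_lit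 26062438605) (nat_lit 139) (nat_lit 5) (nat_lit 144) (nat_lit 5) (nat_lit 145) (nat_lit 5) (nat_lit 428) (nat_lit 380) (nat_lit 212))) (XT.nd (nat_lit 78) (nat_lit 304) (nat_lit 0) (XT.lf (nat_lit 0) (nat_lit 9306793751) (nat_lit 456) (nat_lit 10710743615) (nat_lit 76) (nat_lit 10069863789) (nat_lit 139) (nat_lit 5) (nat_lit 145) (nat_lit 5) (nat_lit 140) (nat_lit 5) (nat_lit 429) (nat_lit 380) (nat_lit 211)) (XT.lf (nat_lit 0) (nat_lit 6475284960) (nat_lit 304) (nat_lit 8899239728) (nat_lit 380) (nat_lit 15268495103) (nat_lit 135) (nat_lit 5) (nat_lit 139) (nat_lit 5) (nat_lit 140) (nat_lit 5) (nat_lit 430) (nat_lit 380) (nat_lit 210))))) (XT.nd (nat_lit 234) (nat_lit 836) (nat_lit 0) (XT.nd (nat_lit 78) (nat_lit 380) (nat_lit 0) (XT.lf (nat_lit 0) (nat_lit 21753424694) (nat_lit 380) (nat_lit 6847964226) (nat_lit 76) (nat_lit 2610044900) (nat_lit 135) (nat_lit 5) (nat_lit 140) (nat_lit 5) (nat_lit 136) (nat_lit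 5) (nat_lit 431) (nat_lit 380) (nat_lit 209)) (XT.nd (nat_lit 78) (nat_lit 76) (nat_lit 0) (XT.lf (nat_lit 0) (nat_lit 11113603165) (nat_lit 304) (nat_lit 17400536926) (nat_lit 380) (nat_lit 3277047650) (nat_lit 131) (nat_lit 5) (nat_lit 135) (nat_lit 5) (nat_lit 136) (nat_lit 5) (nat_lit 432) (nat_lit 380) (nat_lit 208)) (XT.lf (nat_lit 0) (nat_lit 3094424331) (nat_lit 380) (nat_lit 2668824004) (nat_lit 76) (nat_lit 26622234938) (nat_lit 130) (nat_lit 5) (nat_lit 135) (nat_lit 5) (nat_lit 131) (nat_lit 5) (nat_lit 433) (nat_lit 380) (nat_lit 207)))) (XT.nd (nat_lit 156) (nat_lit 228) (nat_lit 0) (XT.nd (nat_lit 78) (nat_lit 304) (nat_lit 0) (XT.lf (nat_lit 0) (nat_lit 9803803053) (nat_lit 380) (nat_lit 16897124042) (nat_lit 76) (nat_lit 6289329199) (nat_lit 126) (nat_lit 5) (nat_lit 131) (nat_lit 5) (nat_lit 127) (nat_lit 5) (nat_lit 434) (nat_lit 380) (nat_lit 206)) (XT.lf (nat_lit 0) (nat_lit 1832285002) (nat_lit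 304) (nat_lit 14979776063) (nat_lit 380) (nat_lit 16798184321) (nat_lit 122) (nat_lit 5) (nat_lit 126) (nat_lit 5) (nat_lit 127) (nat_lit 5) (nat_lit 435) (nat_lit 380) (nat_lit 205))) (XT.nd (nat_lit 78) (nat_lit 228) (nat_lit 0) (XT.lf (nat_lit 0) (nat_lit 21463581609) (nat_lit 304) (nat_lit 2733383164) (nat_lit 380) (nat_lit 10046878236) (nat_lit 122) (nat_lit 5) (nat_lit 126) (nat_lit 5) (nat_lit 127) (nat_lit 5) (nat_lit 436) (nat_lit 380) (nat_lit 204)) (XT.lf (nat_lit 0) (nat_lit 6819170997) (nat_lit 228) (nat_lit 25140644469) (nat_lit 304) (nat_lit 2931941868) (nat_lit 119) (nat_lit 5) (nat_lit 122) (nat_lit 5) (nat_lit 123) (nat_lit 5) (nat_lit 437) (nat_lit 380) (nat_lit 203)))))) (XT.nd (nat_lit 546) (nat_lit 988) (nat_lit 0) (XT.nd (nat_lit 234) (nat_lit 760) (nat_lit 0) (XT.nd (nat_lit 78) (nat_lit 304) (nat_lit 0) (XT.lf (nat_lit 0) (nat_lit 4463941435) (nat_lit 304) (nat_lit 8363579010) (nat_lit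 76) (nat_lit 22725722856) (nat_lit 118) (nat_lit 5) (nat_lit 122) (nat_lit 5) (nat_lit 119) (nat_lit 5) (nat_lit 438) (nat_lit 380) (nat_lit 202)) (XT.nd (nat_lit 78) (nat_lit 0) (nat_lit 0) (XT.lf (nat_lit 0) (nat_lit 12135494551) (nat_lit 380) (nat_lit 24091942420) (nat_lit 76) (nat_lit 2885034) (nat_lit 114) (nat_lit 5) (nat_lit 119) (nat_lit 5) (nat_lit 115) (nat_lit 5) (nat_lit 439) (nat_lit 380) (nat_lit 201)) (XT.lf (nat_lit 0) (nat_lit 20245541031) (nat_lit 380) (nat_lit 3632341414) (nat_lit 76) (nat_lit 13043580910) (nat_lit 114) (nat_lit 5) (nat_lit 119) (nat_lit 5) (nat_lit 115) (nat_lit 5) (nat_lit 440) (nat_lit 380) (nat_lit 200)))) (XT.nd (nat_lit 156) (nat_lit 304) (nat_lit 0) (XT.nd (nat_lit 78) (nat_lit 228) (nat_lit 0) (XT.lf (nat_lit 0) (nat_lit 17782056310) (nat_lit 228) (nat_lit 10983929328) (nat_lit 304) (nat_lit 8862341069) (nat_lit 111) (nat_lit 5) (nat_lit 114) (nat_lit 5) (nat_lit 115)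 (nat_lit 5) (nat_lit 441) (nat_lit 380) (nat_lit 199)) (XT.lf (nat_lit 0) (nat_lit 1560031779) (nat_lit 228) (nat_lit 36052328005) (nat_lit 304) (nat_lit 741927338) (nat_lit 108) (nat_lit 5) (nat_lit 111) (nat_lit 5) (nat_lit 112) (nat_lit 5) (nat_lit 442) (nat_lit 380) (nat_lit 198))) (XT.nd (nat_lit 78) (nat_lit 228) (nat_lit 0) (XT.lf (nat_lit 0) (nat_lit 7780723222) (nat_lit 304) (nat_lit 15270701298) (nat_lit 76) (nat_lit 16039183619) (nat_lit 107) (nat_lit 5) (nat_lit 111) (nat_lit 5) (nat_lit 108) (nat_lit 5) (nat_lit 443) (nat_lit 380) (nat_lit 197)) (XT.lf (nat_lit 0) (nat_lit 7022386365) (nat_lit 228) (nat_lit 9585583243) (nat_lit 304) (nat_lit 23238914548) (nat_lit 104) (nat_lit 5) (nat_lit 107) (nat_lit 5) (nat_lit 108) (nat_lit 5) (nat_lit 444) (nat_lit 380) (nat_lit 196))))) (XT.nd (nat_lit 312) (nat_lit 456) (nat_lit 0) (XT.nd (nat_lit 156) (nat_lit 304) (nat_lit 0) (XT.nd (nat_lit 78) (nat_lit 228)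 (nat_lit 0) (XT.lf (nat_lit 0) (nat_lit 25893302148) (nat_lit 304) (nat_lit 10372520859) (nat_lit 76) (nat_lit 4354227956) (nat_lit 104) (nat_lit 5) (nat_lit 108) (nat_lit 5) (nat_lit 105) (nat_lit 5) (nat_lit 445) (nat_lit 380) (nat_lit 195)) (XT.lf (nat_lit 0) (nat_lit 12904197392) (nat_lit 228) (nat_lit 22768408414) (nat_lit 304) (nat_lit 5737345193) (nat_lit 101) (nat_lit 5) (nat_lit 104) (nat_lit 5) (nat_lit 105) (nat_lit 5) (nat_lit 446) (nat_lit 380) (nat_lit 194))) (XT.nd (nat_lit 78) (nat_lit 228) (nat_lit 0) (XT.lf (nat_lit 0) (nat_lit 3555272756) (nat_lit 304) (nat_lit 5169185458) (nat_lit 76) (nat_lit 33495007132) (nat_lit 100) (nat_lit 5) (nat_lit 104) (nat_lit 5) (nat_lit 101) (nat_lit 5) (nat_lit 447) (nat_lit 380) (nat_lit 193)) (XT.lf (nat_lit 0) (nat_lit 13249847040) (nat_lit 304) (nat_lit 23924317982) (nat_lit 76) (nat_lit 5870241666) (nat_lit 97) (nat_lit 5) (nat_lit 101) (nat_lit 5) (nat_lit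 98) (nat_lit 5) (nat_lit 448) (nat_lit 380) (nat_lit 192)))) (XT.nd (nat_lit 156) (nat_lit 228) (nat_lit 0) (XT.nd (nat_lit 78) (nat_lit 0) (nat_lit 0) (XT.lf (nat_lit 0) (nat_lit 264137816) (nat_lit 228) (nat_lit 23109359752) (nat_lit 304) (nat_lit 20516452028) (nat_lit 94) (nat_lit 5) (nat_lit 97) (nat_lit 5) (nat_lit 98) (nat_lit 5) (nat_lit 449) (nat_lit 380) (nat_lit 191)) (XT.lf (nat_lit 0) (nat_lit 25663134295) (nat_lit 228) (nat_lit 8375961433) (nat_lit 304) (nat_lit 10714616400) (nat_lit 94) (nat_lit 5) (nat_lit 97) (nat_lit 5) (nat_lit 98) (nat_lit 5) (nat_lit 450) (nat_lit 380) (nat_lit 190))) (XT.nd (nat_lit 78) (nat_lit 76) (nat_lit 0) (XT.lf (nat_lit 0) (nat_lit 6231497325) (nat_lit 152) (nat_lit 38915152430) (nat_lit 228) (nat_lit 493078612) (nat_lit 92) (nat_lit 5) (nat_lit 94) (nat_lit 5) (nat_lit 95) (nat_lit 5) (nat_lit 451) (nat_lit 380) (nat_lit 189)) (XT.lf (nat_lit 0) (nat_lit 10113638252)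 (nat_lit 228) (nat_lit 14028737761) (nat_lit 76) (nat_lit 22398824993) (nat_lit 91) (nat_lit 5) (nat_lit 94) (nat_lit 5) (nat_lit 92) (nat_lit 5) (nat_lit 452) (nat_lit 380) (nat_lit 188))))))) (XT.nd (nat_lit 1092) (nat_lit 1292) (nat_lit 0) (XT.nd (nat_lit 546) (nat_lit 760) (nat_lit 0) (XT.nd (nat_lit 234) (nat_lit 456) (nat_lit 0) (XT.nd (nat_lit 78) (nat_lit 152) (nat_lit 0) (XT.lf (nat_lit 0) (nat_lit 12342803833) (nat_lit 228) (nat_lit 8801321592) (nat_lit 304) (nat_lit 26321981992) (nat_lit 88) (nat_lit 5) (nat_lit 91) (nat_lit 5) (nat_lit 92) (nat_lit 5) (nat_lit 453) (nat_lit 380) (nat_lit 187)) (XT.nd (nat_lit 78) (nat_lit 152) (nat_lit 0) (XT.lf (nat_lit 0) (nat_lit 32712734383) (nat_lit 304) (nat_lit 8695463397) (nat_lit 76) (nat_lit 7004347439) (nat_lit 88) (nat_lit 5) (nat_lit 92) (nat_lit 5) (nat_lit 89) (nat_lit 5) (nat_lit 454) (nat_lit 380) (nat_lit 186)) (XT.lf (nat_lit 0) (nat_lit 18799747426)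 (nat_lit 152) (nat_lit 26093456171) (nat_lit 228) (nat_lit 4486228903) (nat_lit 86) (nat_lit 5) (nat_lit 88) (nat_lit 5) (nat_lit 89) (nat_lit 5) (nat_lit 455) (nat_lit 380) (nat_lit 185)))) (XT.nd (nat_lit 156) (nat_lit 152) (nat_lit 0) (XT.nd (nat_lit 78) (nat_lit 228) (nat_lit 0) (XT.lf (nat_lit 0) (nat_lit 7011552593) (nat_lit 228) (nat_lit 3148583516) (nat_lit 76) (nat_lit 40210584688) (nat_lit 85) (nat_lit 5) (nat_lit 88) (nat_lit 5) (nat_lit 86) (nat_lit 5) (nat_lit 456) (nat_lit 380) (nat_lit 184)) (XT.lf (nat_lit 0) (nat_lit 19069731704) (nat_lit 304) (nat_lit 25891413337) (nat_lit 76) (nat_lit 6420101540) (nat_lit 82) (nat_lit 5) (nat_lit 86) (nat_lit 5) (nat_lit 83) (nat_lit 5) (nat_lit 457) (nat_lit 380) (nat_lit 183))) (XT.nd (nat_lit 78) (nat_lit 0) (nat_lit 0) (XT.lf (nat_lit 0) (nat_lit 2575098789) (nat_lit 152) (nat_lit 29069077590) (nat_lit 228) (nat_lit 20773276511) (nat_lit 80) (nat_lit 5) (nat_lit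 82) (nat_lit 5) (nat_lit 83) (nat_lit 5) (nat_lit 458) (nat_lit 380) (nat_lit 182)) (XT.lf (nat_lit 0) (nat_lit 32421352858) (nat_lit 152) (nat_lit 12433053577) (nat_lit 228) (nat_lit 8622582740) (nat_lit 80) (nat_lit 5) (nat_lit 82) (nat_lit 5) (nat_lit 83) (nat_lit 5) (nat_lit 459) (nat_lit 380) (nat_lit 181))))) (XT.nd (nat_lit 234) (nat_lit 380) (nat_lit 0) (XT.nd (nat_lit 78) (nat_lit 152) (nat_lit 0) (XT.lf (nat_lit 0) (nat_lit 3944054704) (nat_lit 228) (nat_lit 45888579055) (nat_lit 76) (nat_lit 4730734103) (nat_lit 77) (nat_lit 5) (nat_lit 80) (nat_lit 5) (nat_lit 78) (nat_lit 5) (nat_lit 460) (nat_lit 380) (nat_lit 180)) (XT.nd (nat_lit 78) (nat_lit 152) (nat_lit 0) (XT.lf (nat_lit 0) (nat_lit 17049383335) (nat_lit 228) (nat_lit 16162719378) (nat_lit 76) (nat_lit 22457624428) (nat_lit 77) (nat_lit 5) (nat_lit 80) (nat_lit 5) (nat_lit 78) (nat_lit 5) (nat_lit 461) (nat_lit 380) (nat_lit 179)) (XT.lf (nat_lit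 0) (nat_lit 14737715718) (nat_lit 152) (nat_lit 15949078514) (nat_lit 228) (nat_lit 26118315604) (nat_lit 75) (nat_lit 5) (nat_lit 77) (nat_lit 5) (nat_lit 78) (nat_lit 5) (nat_lit 462) (nat_lit 380) (nat_lit 178)))) (XT.nd (nat_lit 156) (nat_lit 152) (nat_lit 0) (XT.nd (nat_lit 78) (nat_lit 228) (nat_lit 0) (XT.lf (nat_lit 0) (nat_lit 44913033301) (nat_lit 228) (nat_lit 11097200078) (nat_lit 76) (nat_lit 1958929756) (nat_lit 75) (nat_lit 5) (nat_lit 78) (nat_lit 5) (nat_lit 76) (nat_lit 5) (nat_lit 463) (nat_lit 380) (nat_lit 177)) (XT.lf (nat_lit 0) (nat_lit 751305903) (nat_lit 228) (nat_lit 38114482290) (nat_lit 76) (nat_lit 20291400891) (nat_lit 72) (nat_lit 5) (nat_lit 75) (nat_lit 5) (nat_lit 73) (nat_lit 5) (nat_lit 464) (nat_lit 380) (nat_lit 176))) (XT.nd (nat_lit 78) (nat_lit 152) (nat_lit 0) (XT.lf (nat_lit 0) (nat_lit 14821074455) (nat_lit 228) (nat_lit 6138248387) (nat_lit 76) (nat_lit 39414339437)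 (nat_lit 72) (nat_lit 5) (nat_lit 75) (nat_lit 5) (nat_lit 73) (nat_lit 5) (nat_lit 465) (nat_lit 380) (nat_lit 175)) (XT.lf (nat_lit 0) (nat_lit 27325967721) (nat_lit 152) (nat_lit 2247074840) (nat_lit 228) (nat_lit 32045784179) (nat_lit 70) (nat_lit 5) (nat_lit 72) (nat_lit 5) (nat_lit 73) (nat_lit 5) (nat_lit 466) (nat_lit 380) (nat_lit 174)))))) (XT.nd (nat_lit 546) (nat_lit 532) (nat_lit 0) (XT.nd (nat_lit 234) (nat_lit 380) (nat_lit 0) (XT.nd (nat_lit 78) (nat_lit 380) (nat_lit 0) (XT.lf (nat_lit 0) (nat_lit 44991282658) (nat_lit 228) (nat_lit 1148377438) (nat_lit 76) (nat_lit 16754974909) (nat_lit 70) (nat_lit 5) (nat_lit 73) (nat_lit 5) (nat_lit 71) (nat_lit 5) (nat_lit 467) (nat_lit 380) (nat_lit 173)) (XT.nd (nat_lit 78) (nat_lit 228) (nat_lit 0) (XT.lf (nat_lit 0) (nat_lit 33619820537) (nat_lit 152) (nat_lit 27595191817) (nat_lit 228) (nat_lit 2983417145) (nat_lit 68) (nat_lit 5) (nat_lit 70) (nat_lit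 5) (nat_lit 71) (nat_lit 5) (nat_lit 468) (nat_lit 380) (nat_lit 172)) (XT.lf (nat_lit 0) (nat_lit 3865465983) (nat_lit 152) (nat_lit 8323385400) (nat_lit 228) (nat_lit 53347523550) (nat_lit 65) (nat_lit 5) (nat_lit 67) (nat_lit 5) (nat_lit 68) (nat_lit 5) (nat_lit 469) (nat_lit 380) (nat_lit 171)))) (XT.nd (nat_lit 156) (nat_lit 228) (nat_lit 0) (XT.nd (nat_lit 78) (nat_lit 152) (nat_lit 0) (XT.lf (nat_lit 0) (nat_lit 28176502998) (nat_lit 228) (nat_lit 27083328522) (nat_lit 76) (nat_lit 11641135912) (nat_lit 65) (nat_lit 5) (nat_lit 68) (nat_lit 5) (nat_lit 66) (nat_lit 5) (nat_lit 470) (nat_lit 380) (nat_lit 170)) (XT.lf (nat_lit 0) (nat_lit 8623441587) (nat_lit 152) (nat_lit 36183254873) (nat_lit 228) (nat_lit 23494914101) (nat_lit 63) (nat_lit 5) (nat_lit 65) (nat_lit 5) (nat_lit 66) (nat_lit 5) (nat_lit 471) (nat_lit 380) (nat_lit 169))) (XT.nd (nat_lit 78) (nat_lit 228) (nat_lit 0) (XT.lf (nat_lit 0) (nat_lit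 45952336283) (nat_lit 152) (nat_lit 16254585401) (nat_lit 228) (nat_lit 7529217738) (nat_lit 63) (nat_lit 5) (nat_lit 65) (nat_lit 5) (nat_lit 66) (nat_lit 5) (nat_lit 472) (nat_lit 380) (nat_lit 168)) (XT.lf (nat_lit 0) (nat_lit 8910733773) (nat_lit 228) (nat_lit 57892340477) (nat_lit 76) (nat_lit 4402981377) (nat_lit 60) (nat_lit 5) (nat_lit 63) (nat_lit 5) (nat_lit 61) (nat_lit 5) (nat_lit 473) (nat_lit 380) (nat_lit 167))))) (XT.nd (nat_lit 312) (nat_lit 228) (nat_lit 0) (XT.nd (nat_lit 156) (nat_lit 152) (nat_lit 0) (XT.nd (nat_lit 78) (nat_lit 152) (nat_lit 0) (XT.lf (nat_lit 0) (nat_lit 26093731390) (nat_lit 228) (nat_lit 20943214190) (nat_lit 76) (nat_lit 25668852213) (nat_lit 60) (nat_lit 5) (nat_lit 63) (nat_lit 5) (nat_lit 61) (nat_lit 5) (nat_lit 474) (nat_lit 380) (nat_lit 166)) (XT.lf (nat_lit 0) (nat_lit 17450844341) (nat_lit 152) (nat_lit 26506883174) (nat_lit 228) (nat_lit 30287839645) (nat_lit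 58) (nat_lit 5) (nat_lit 60) (nat_lit 5) (nat_lit 61) (nat_lit 5) (nat_lit 475) (nat_lit 380) (nat_lit 165))) (XT.nd (nat_lit 78) (nat_lit 152) (nat_lit 0) (XT.lf (nat_lit 0) (nat_lit 57422009520) (nat_lit 152) (nat_lit 5144906276) (nat_lit 228) (nat_lit 13258335829) (nat_lit 58) (nat_lit 5) (nat_lit 60) (nat_lit 5) (nat_lit 61) (nat_lit 5) (nat_lit 476) (nat_lit 380) (nat_lit 164)) (XT.lf (nat_lit 0) (nat_lit 4567623858) (nat_lit 152) (nat_lit 56094745387) (nat_lit 76) (nat_lit 16777648833) (nat_lit 56) (nat_lit 5) (nat_lit 58) (nat_lit 5) (nat_lit 57) (nat_lit 5) (nat_lit 477) (nat_lit 380) (nat_lit 163)))) (XT.nd (nat_lit 156) (nat_lit 76) (nat_lit 0) (XT.nd (nat_lit 78) (nat_lit 152) (nat_lit 0) (XT.lf (nat_lit 0) (nat_lit 22898337595) (nat_lit 152) (nat_lit 16622176472) (nat_lit 76) (nat_lit 39571681869) (nat_lit 56) (nat_lit 5) (nat_lit 58) (nat_lit 5) (nat_lit 57) (nat_lit 5) (nat_lit 478) (nat_lit 380)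 (nat_lit 162)) (XT.lf (nat_lit 0) (nat_lit 24508978328) (nat_lit 152) (nat_lit 17503491056) (nat_lit 228) (nat_lit 38774465013) (nat_lit 54) (nat_lit 5) (nat_lit 56) (nat_lit 5) (nat_lit 57) (nat_lit 5) (nat_lit 479) (nat_lit 380) (nat_lit 161))) (XT.nd (nat_lit 78) (nat_lit 76) (nat_lit 0) (XT.lf (nat_lit 0) (nat_lit 61917183603) (nat_lit 228) (nat_lit 15367928902) (nat_lit 76) (nat_lit 5240887913) (nat_lit 54) (nat_lit 5) (nat_lit 57) (nat_lit 5) (nat_lit 55) (nat_lit 4) (nat_lit 480) (nat_lit 380) (nat_lit 160)) (XT.lf (nat_lit 0) (nat_lit 27121591923) (nat_lit 76) (nat_lit 55729428574) (nat_lit 152) (nat_lit 1453258641) (nat_lit 53) (nat_lit 5) (nat_lit 54) (nat_lit 5) (nat_lit 55) (nat_lit 4) (nat_lit 481) (nat_lit 380) (nat_lit 159))))))))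
noncomputable def xc191 : XT := (XT.nd (nat_lit 47346) (nat_lit 0) (nat_lit 5472) (XT.nd (nat_lit 46176) (nat_lit 0) (nat_lit 12616) (XT.nd (nat_lit 45630) (nat_lit 0) (nat_lit 15960) (XT.nd (nat_lit 45318) (nat_lit 0) (nat_lit 17024) (XT.nd (nat_lit 78) (nat_lit 152) (nat_lit 0) (XT.lf (nat_lit 0) (nat_lit 18075012766) (nat_lit 152) (nat_lit 15111399641) (nat_lit 76) (nat_lit 52939582402) (nat_lit 52) (nat_lit 5) (nat_lit 54) (nat_lit 5) (nat_lit 53) (nat_lit 5) (nat_lit 482) (nat_lit 380) (nat_lit 158)) (XT.nd (nat_lit 45162) (nat_lit 0) (nat_lit 17024) (XT.lf (nat_lit 0) (nat_lit 28765312946) (nat_lit 152) (nat_lit 9669152609) (nat_lit 228) (nat_lit 49559228608) (nat_lit 50) (nat_lit 5) (nat_lit 52) (nat_lit 5) (nat_lit 53) (nat_lit 5) (nat_lit 483) (nat_lit 380) (nat_lit 157)) (XT.lf (nat_lit 0) (nat_lit 2583082525) (nat_lit 0) (nat_lit 2583082525) (nat_lit 1140) (nat_lit 1785356335) (nat_lit 274) (nat_lit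 5) (nat_lit 274) (nat_lit 3) (nat_lit 289) (nat_lit 3) (nat_lit 381) (nat_lit 381) (nat_lit 258)))) (XT.nd (nat_lit 156) (nat_lit 0) (nat_lit 76) (XT.nd (nat_lit 78) (nat_lit 0) (nat_lit 0) (XT.lf (nat_lit 0) (nat_lit 10842224610) (nat_lit 1140) (nat_lit 1987613397) (nat_lit 1216) (nat_lit 1270986580) (nat_lit 274) (nat_lit 5) (nat_lit 289) (nat_lit 3) (nat_lit 290) (nat_lit 5) (nat_lit 382) (nat_lit 381) (nat_lit 257)) (XT.lf (nat_lit 76) (nat_lit 5003462135) (nat_lit 0) (nat_lit 6449899719) (nat_lit 1216) (nat_lit 2848604175) (nat_lit 275) (nat_lit 5) (nat_lit 274) (nat_lit 5) (nat_lit 290) (nat_lit 5) (nat_lit 383) (nat_lit 381) (nat_lit 256))) (XT.nd (nat_lit 78) (nat_lit 0) (nat_lit 0) (XT.lf (nat_lit 0) (nat_lit 12091345699) (nat_lit 1140) (nat_lit 2272424152) (nat_lit 1216) (nat_lit 145120903) (nat_lit 275) (nat_lit 5) (nat_lit 290) (nat_lit 5) (nat_lit 291) (nat_lit 5) (nat_lit 384) (nat_lit 381) (nat_lit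 255)) (XT.lf (nat_lit 76) (nat_lit 4990649958) (nat_lit 0) (nat_lit 7857104557) (nat_lit 1216) (nat_lit 1871294431) (nat_lit 276) (nat_lit 5) (nat_lit 275) (nat_lit 5) (nat_lit 291) (nat_lit 5) (nat_lit 385) (nat_lit 381) (nat_lit 254))))) (XT.nd (nat_lit 234) (nat_lit 0) (nat_lit 76) (XT.nd (nat_lit 78) (nat_lit 1140) (nat_lit 0) (XT.lf (nat_lit 76) (nat_lit 12510957271) (nat_lit 0) (nat_lit 1126593104) (nat_lit 1216) (nat_lit 1297644826) (nat_lit 276) (nat_lit 5) (nat_lit 275) (nat_lit 5) (nat_lit 291) (nat_lit 5) (nat_lit 386) (nat_lit 381) (nat_lit 253)) (XT.nd (nat_lit 78) (nat_lit 1216) (nat_lit 0) (XT.lf (nat_lit 76) (nat_lit 5136022799) (nat_lit 0) (nat_lit 9408348506) (nat_lit 1216) (nat_lit 610658644) (nat_lit 277) (nat_lit 5) (nat_lit 276) (nat_lit 5) (nat_lit 292) (nat_lit 5) (nat_lit 387) (nat_lit 381) (nat_lit 252)) (XT.lf (nat_lit 0) (nat_lit 119229583) (nat_lit 1216) (nat_lit 2427869901) (nat_lit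 1292) (nat_lit 12833610589) (nat_lit 260) (nat_lit 5) (nat_lit 276) (nat_lit 5) (nat_lit 277) (nat_lit 5) (nat_lit 388) (nat_lit 381) (nat_lit 251)))) (XT.nd (nat_lit 156) (nat_lit 0) (nat_lit 76) (XT.nd (nat_lit 78) (nat_lit 0) (nat_lit 0) (XT.lf (nat_lit 0) (nat_lit 944178865) (nat_lit 1216) (nat_lit 10171211550) (nat_lit 1292) (nat_lit 4495029358) (nat_lit 261) (nat_lit 5) (nat_lit 277) (nat_lit 5) (nat_lit 278) (nat_lit 5) (nat_lit 389) (nat_lit 381) (nat_lit 250)) (XT.lf (nat_lit 0) (nat_lit 1832799472) (nat_lit 1216) (nat_lit 2287359942) (nat_lit 1292) (nat_lit 11725697256) (nat_lit 261) (nat_lit 5) (nat_lit 277) (nat_lit 5) (nat_lit 278) (nat_lit 5) (nat_lit 390) (nat_lit 381) (nat_lit 249))) (XT.nd (nat_lit 78) (nat_lit 0) (nat_lit 0) (XT.lf (nat_lit 0) (nat_lit 2824709700) (nat_lit 1216) (nat_lit 10175729940) (nat_lit 1292) (nat_lit 3085621589) (nat_lit 262) (nat_lit 5) (nat_lit 278) (nat_lit 5) (nat_lit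 279) (nat_lit 5) (nat_lit 391) (nat_lit 381) (nat_lit 248)) (XT.lf (nat_lit 0) (nat_lit 3900035530) (nat_lit 1216) (nat_lit 1980691412) (nat_lit 1292) (nat_lit 10451138619) (nat_lit 262) (nat_lit 5) (nat_lit 278) (nat_lit 5) (nat_lit 279) (nat_lit 5) (nat_lit 392) (nat_lit 381) (nat_lit 247)))))) (XT.nd (nat_lit 546) (nat_lit 2508) (nat_lit 0) (XT.nd (nat_lit 234) (nat_lit 1064) (nat_lit 0) (XT.nd (nat_lit 78) (nat_lit 0) (nat_lit 0) (XT.lf (nat_lit 0) (nat_lit 5075340517) (nat_lit 1216) (nat_lit 10016956347) (nat_lit 1292) (nat_lit 1490718862) (nat_lit 263) (nat_lit 5) (nat_lit 279) (nat_lit 5) (nat_lit 280) (nat_lit 5) (nat_lit 393) (nat_lit 381) (nat_lit 246)) (XT.nd (nat_lit 78) (nat_lit 0) (nat_lit 0) (XT.lf (nat_lit 0) (nat_lit 6354420030) (nat_lit 1216) (nat_lit 1497466859) (nat_lit 1292) (nat_lit 8987761237) (nat_lit 263) (nat_lit 5) (nat_lit 279) (nat_lit 5) (nat_lit 280) (nat_lit 5) (nat_lit 394) (nat_lit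 381) (nat_lit 245)) (XT.lf (nat_lit 76) (nat_lit 7414763659) (nat_lit 0) (nat_lit 318763346) (nat_lit 1292) (nat_lit 9368605937) (nat_lit 264) (nat_lit 5) (nat_lit 263) (nat_lit 5) (nat_lit 280) (nat_lit 5) (nat_lit 395) (nat_lit 381) (nat_lit 244)))) (XT.nd (nat_lit 156) (nat_lit 1140) (nat_lit 0) (XT.nd (nat_lit 78) (nat_lit 0) (nat_lit 0) (XT.lf (nat_lit 0) (nat_lit 9231406728) (nat_lit 1216) (nat_lit 826414599) (nat_lit 1292) (nat_lit 7312351996) (nat_lit 264) (nat_lit 5) (nat_lit 280) (nat_lit 5) (nat_lit 281) (nat_lit 5) (nat_lit 396) (nat_lit 381) (nat_lit 243)) (XT.lf (nat_lit 76) (nat_lit 8454656873) (nat_lit 0) (nat_lit 2394874064) (nat_lit 1292) (nat_lit 6794467655) (nat_lit 265) (nat_lit 5) (nat_lit 264) (nat_lit 5) (nat_lit 281) (nat_lit 5) (nat_lit 397) (nat_lit 381) (nat_lit 242))) (XT.nd (nat_lit 78) (nat_lit 0) (nat_lit 0) (XT.lf (nat_lit 0) (nat_lit 45521448) (nat_lit 1216) (nat_lit 12523481193)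 (nat_lit 1292) (nat_lit 5355454701) (nat_lit 249) (nat_lit 5) (nat_lit 265) (nat_lit 5) (nat_lit 266) (nat_lit 5) (nat_lit 398) (nat_lit 381) (nat_lit 241)) (XT.lf (nat_lit 0) (nat_lit 9713948072) (nat_lit 1216) (nat_lit 4733658350) (nat_lit 1292) (nat_lit 3762499744) (nat_lit 249) (nat_lit 5) (nat_lit 265) (nat_lit 5) (nat_lit 266) (nat_lit 5) (nat_lit 399) (nat_lit 381) (nat_lit 240))))) (XT.nd (nat_lit 312) (nat_lit 1140) (nat_lit 0) (XT.nd (nat_lit 156) (nat_lit 684) (nat_lit 0) (XT.nd (nat_lit 78) (nat_lit 0) (nat_lit 0) (XT.lf (nat_lit 0) (nat_lit 1151228906) (nat_lit 684) (nat_lit 15265568284) (nat_lit 760) (nat_lit 2086503071) (nat_lit 240) (nat_lit 5) (nat_lit 249) (nat_lit 5) (nat_lit 250) (nat_lit 5) (nat_lit 400) (nat_lit 381) (nat_lit 239)) (XT.lf (nat_lit 0) (nat_lit 11206760778) (nat_lit 684) (nat_lit 7362217296) (nat_lit 760) (nat_lit 232597267) (nat_lit 240) (nat_lit 5) (nat_lit 249) (nat_lit 5)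 (nat_lit 250) (nat_lit 5) (nat_lit 401) (nat_lit 381) (nat_lit 238))) (XT.nd (nat_lit 78) (nat_lit 0) (nat_lit 0) (XT.lf (nat_lit 0) (nat_lit 1667793155) (nat_lit 684) (nat_lit 16635877641) (nat_lit 76) (nat_lit 803939023) (nat_lit 231) (nat_lit 5) (nat_lit 240) (nat_lit 5) (nat_lit 232) (nat_lit 5) (nat_lit 402) (nat_lit 381) (nat_lit 237)) (XT.lf (nat_lit 0) (nat_lit 3762905362) (nat_lit 684) (nat_lit 6508270612) (nat_lit 76) (nat_lit 9147311094) (nat_lit 231) (nat_lit 5) (nat_lit 240) (nat_lit 5) (nat_lit 232) (nat_lit 5) (nat_lit 403) (nat_lit 381) (nat_lit 236)))) (XT.nd (nat_lit 156) (nat_lit 532) (nat_lit 0) (XT.nd (nat_lit 78) (nat_lit 0) (nat_lit 0) (XT.lf (nat_lit 0) (nat_lit 3993567178) (nat_lit 608) (nat_lit 1957963955) (nat_lit 684) (nat_lit 13786241998) (nat_lit 223) (nat_lit 5) (nat_lit 231) (nat_lit 5) (nat_lit 232) (nat_lit 5) (nat_lit 404) (nat_lit 381) (nat_lit 235)) (XT.lf (nat_lit 0) (nat_lit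 8328101258) (nat_lit 684) (nat_lit 5192614672) (nat_lit 76) (nat_lit 6542255515) (nat_lit 223) (nat_lit 5) (nat_lit 232) (nat_lit 5) (nat_lit 224) (nat_lit 5) (nat_lit 405) (nat_lit 381) (nat_lit 234))) (XT.nd (nat_lit 78) (nat_lit 0) (nat_lit 0) (XT.lf (nat_lit 0) (nat_lit 5761098933) (nat_lit 532) (nat_lit 5082281365) (nat_lit 608) (nat_lit 9552525231) (nat_lit 216) (nat_lit 5) (nat_lit 223) (nat_lit 5) (nat_lit 224) (nat_lit 5) (nat_lit 406) (nat_lit 381) (nat_lit 233)) (XT.lf (nat_lit 0) (nat_lit 13514555250) (nat_lit 608) (nat_lit 3630204146) (nat_lit 76) (nat_lit 3591657220) (nat_lit 216) (nat_lit 5) (nat_lit 224) (nat_lit 5) (nat_lit 217) (nat_lit 5) (nat_lit 407) (nat_lit 381) (nat_lit 232))))))) (XT.nd (nat_lit 1092) (nat_lit 3268) (nat_lit 0) (XT.nd (nat_lit 546) (nat_lit 1824) (nat_lit 0) (XT.nd (nat_lit 234) (nat_lit 988) (nat_lit 0) (XT.nd (nat_lit 78) (nat_lit 532) (nat_lit 0) (XT.lf (nat_lit 0) (nat_lit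 7799022214) (nat_lit 532) (nat_lit 8585130171) (nat_lit 608) (nat_lit 4699444091) (nat_lit 209) (nat_lit 5) (nat_lit 216) (nat_lit 5) (nat_lit 217) (nat_lit 5) (nat_lit 408) (nat_lit 381) (nat_lit 231)) (XT.nd (nat_lit 78) (nat_lit 532) (nat_lit 0) (XT.lf (nat_lit 0) (nat_lit 19372209386) (nat_lit 608) (nat_lit 1804650209) (nat_lit 76) (nat_lit 263362967) (nat_lit 209) (nat_lit 5) (nat_lit 217) (nat_lit 5) (nat_lit 210) (nat_lit 5) (nat_lit 409) (nat_lit 381) (nat_lit 230)) (XT.lf (nat_lit 0) (nat_lit 807219617) (nat_lit 532) (nat_lit 11685243211) (nat_lit 76) (nat_lit 9309579421) (nat_lit 202) (nat_lit 5) (nat_lit 209) (nat_lit 5) (nat_lit 203) (nat_lit 5) (nat_lit 410) (nat_lit 381) (nat_lit 229)))) (XT.nd (nat_lit 156) (nat_lit 456) (nat_lit 0) (XT.nd (nat_lit 78) (nat_lit 0) (nat_lit 0) (XT.lf (nat_lit 0) (nat_lit 235295058) (nat_lit 532) (nat_lit 3505901158) (nat_lit 608) (nat_lit 18432486312) (nat_lit 195)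 (nat_lit 5) (nat_lit 202) (nat_lit 5) (nat_lit 203) (nat_lit 5) (nat_lit 411) (nat_lit 381) (nat_lit 228)) (XT.lf (nat_lit 0) (nat_lit 6931134625) (nat_lit 608) (nat_lit 9863862712) (nat_lit 76) (nat_lit 5756438172) (nat_lit 195) (nat_lit 5) (nat_lit 203) (nat_lit 5) (nat_lit 196) (nat_lit 5) (nat_lit 412) (nat_lit 381) (nat_lit 227))) (XT.nd (nat_lit 78) (nat_lit 0) (nat_lit 0) (XT.lf (nat_lit 0) (nat_lit 2581301185) (nat_lit 456) (nat_lit 7688685400) (nat_lit 532) (nat_lit 12668939745) (nat_lit 189) (nat_lit 5) (nat_lit 195) (nat_lit 5) (nat_lit 196) (nat_lit 5) (nat_lit 413) (nat_lit 381) (nat_lit 226)) (XT.lf (nat_lit 0) (nat_lit 13819644799) (nat_lit 532) (nat_lit 7757635610) (nat_lit 76) (nat_lit 1757443912) (nat_lit 189) (nat_lit 5) (nat_lit 196) (nat_lit 5) (nat_lit 190) (nat_lit 5) (nat_lit 414) (nat_lit 381) (nat_lit 225))))) (XT.nd (nat_lit 234) (nat_lit 836) (nat_lit 0) (XT.nd (nat_lit 78) (nat_lit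 532) (nat_lit 0) (XT.lf (nat_lit 0) (nat_lit 5239318348) (nat_lit 456) (nat_lit 12356939919) (nat_lit 532) (nat_lit 6142525635) (nat_lit 183) (nat_lit 5) (nat_lit 189) (nat_lit 5) (nat_lit 190) (nat_lit 5) (nat_lit 415) (nat_lit 381) (nat_lit 224)) (XT.nd (nat_lit 78) (nat_lit 532) (nat_lit 0) (XT.lf (nat_lit 0) (nat_lit 18778127288) (nat_lit 456) (nat_lit 2780463550) (nat_lit 532) (nat_lit 2594203381) (nat_lit 183) (nat_lit 5) (nat_lit 189) (nat_lit 5) (nat_lit 190) (nat_lit 5) (nat_lit 416) (nat_lit 381) (nat_lit 223)) (XT.lf (nat_lit 0) (nat_lit 1182711688) (nat_lit 532) (nat_lit 16357242255) (nat_lit 76) (nat_lit 7034681377) (nat_lit 176) (nat_lit 5) (nat_lit 183) (nat_lit 5) (nat_lit 177) (nat_lit 5) (nat_lit 417) (nat_lit 381) (nat_lit 222)))) (XT.nd (nat_lit 156) (nat_lit 380) (nat_lit 0) (XT.nd (nat_lit 78) (nat_lit 456) (nat_lit 0) (XT.lf (nat_lit 0) (nat_lit 5097422086) (nat_lit 532) (nat_lit 2740945630)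 (nat_lit 76) (nat_lit 17167695954) (nat_lit 176) (nat_lit 5) (nat_lit 183) (nat_lit 5) (nat_lit 177) (nat_lit 5) (nat_lit 418) (nat_lit 381) (nat_lit 221)) (XT.lf (nat_lit 0) (nat_lit 9256377116) (nat_lit 532) (nat_lit 13967676566) (nat_lit 76) (nat_lit 2222578485) (nat_lit 170) (nat_lit 5) (nat_lit 177) (nat_lit 5) (nat_lit 171) (nat_lit 5) (nat_lit 419) (nat_lit 381) (nat_lit 220))) (XT.nd (nat_lit 78) (nat_lit 0) (nat_lit 0) (XT.lf (nat_lit 0) (nat_lit 201137764) (nat_lit 380) (nat_lit 13440994182) (nat_lit 456) (nat_lit 12255226191) (nat_lit 165) (nat_lit 5) (nat_lit 170) (nat_lit 5) (nat_lit 171) (nat_lit 5) (nat_lit 420) (nat_lit 381) (nat_lit 219)) (XT.lf (nat_lit 0) (nat_lit 15074449712) (nat_lit 380) (nat_lit 3220686583) (nat_lit 456) (nat_lit 8062400599) (nat_lit 165) (nat_lit 5) (nat_lit 170) (nat_lit 5) (nat_lit 171) (nat_lit 5) (nat_lit 421) (nat_lit 381) (nat_lit 218)))))) (XT.nd (nat_lit 546) (nat_lit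 1748) (nat_lit 0) (XT.nd (nat_lit 234) (nat_lit 684) (nat_lit 0) (XT.nd (nat_lit 78) (nat_lit 456) (nat_lit 0) (XT.lf (nat_lit 0) (nat_lit 3554740582) (nat_lit 380) (nat_lit 19632165406) (nat_lit 456) (nat_lit 3641641045) (nat_lit 160) (nat_lit 5) (nat_lit 165) (nat_lit 5) (nat_lit 166) (nat_lit 5) (nat_lit 422) (nat_lit 381) (nat_lit 217)) (XT.nd (nat_lit 78) (nat_lit 380) (nat_lit 0) (XT.lf (nat_lit 0) (nat_lit 1035711086) (nat_lit 456) (nat_lit 8289925053) (nat_lit 76) (nat_lit 17983536780) (nat_lit 159) (nat_lit 5) (nat_lit 165) (nat_lit 5) (nat_lit 160) (nat_lit 5) (nat_lit 423) (nat_lit 381) (nat_lit 216)) (XT.lf (nat_lit 0) (nat_lit 5858196506) (nat_lit 456) (nat_lit 20572566517) (nat_lit 76) (nat_lit 1370033866) (nat_lit 154) (nat_lit 5) (nat_lit 160) (nat_lit 5) (nat_lit 155) (nat_lit 5) (nat_lit 424) (nat_lit 381) (nat_lit 215)))) (XT.nd (nat_lit 156) (nat_lit 304) (nat_lit 0) (XT.nd (nat_lit 78) (nat_lit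 380) (nat_lit 0) (XT.lf (nat_lit 0) (nat_lit 10997257064) (nat_lit 456) (nat_lit 5022693582) (nat_lit 76) (nat_lit 12282063050) (nat_lit 154) (nat_lit 5) (nat_lit 160) (nat_lit 5) (nat_lit 155) (nat_lit 5) (nat_lit 425) (nat_lit 381) (nat_lit 214)) (XT.lf (nat_lit 0) (nat_lit 11205798012) (nat_lit 380) (nat_lit 5187579987) (nat_lit 456) (nat_lit 12421803452) (nat_lit 149) (nat_lit 5) (nat_lit 154) (nat_lit 5) (nat_lit 155) (nat_lit 5) (nat_lit 426) (nat_lit 381) (nat_lit 213))) (XT.nd (nat_lit 78) (nat_lit 304) (nat_lit 0) (XT.lf (nat_lit 0) (nat_lit 22055222408) (nat_lit 456) (nat_lit 1382610996) (nat_lit 76) (nat_lit 5902796708) (nat_lit 149) (nat_lit 5) (nat_lit 155) (nat_lit 5) (nat_lit 150) (nat_lit 5) (nat_lit 427) (nat_lit 381) (nat_lit 212)) (XT.lf (nat_lit 0) (nat_lit 15577155441) (nat_lit 304) (nat_lit 12506238181) (nat_lit 380) (nat_lit 1792555504) (nat_lit 145) (nat_lit 5) (nat_lit 149) (nat_lit 5)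 (nat_lit 150) (nat_lit 5) (nat_lit 428) (nat_lit 381) (nat_lit 211))))) (XT.nd (nat_lit 312) (nat_lit 988) (nat_lit 0) (XT.nd (nat_lit 156) (nat_lit 304) (nat_lit 0) (XT.nd (nat_lit 78) (nat_lit 0) (nat_lit 0) (XT.lf (nat_lit 0) (nat_lit 2655226376) (nat_lit 380) (nat_lit 1169457581) (nat_lit 456) (nat_lit 26600479423) (nat_lit 139) (nat_lit 5) (nat_lit 144) (nat_lit 5) (nat_lit 145) (nat_lit 5) (nat_lit 429) (nat_lit 381) (nat_lit 210)) (XT.lf (nat_lit 0) (nat_lit 9816689874) (nat_lit 456) (nat_lit 10702224431) (nat_lit 76) (nat_lit 10464139929) (nat_lit 139) (nat_lit 5) (nat_lit 145) (nat_lit 5) (nat_lit 140) (nat_lit 5) (nat_lit 430) (nat_lit 381) (nat_lit 209))) (XT.nd (nat_lit 78) (nat_lit 0) (nat_lit 0) (XT.lf (nat_lit 0) (nat_lit 6996151262) (nat_lit 304) (nat_lit 9066721837) (nat_lit 380) (nat_lit 15492577121) (nat_lit 135) (nat_lit 5) (nat_lit 139) (nat_lit 5) (nat_lit 140) (nat_lit 5) (nat_lit 431) (nat_lit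 381) (nat_lit 208)) (XT.lf (nat_lit 0) (nat_lit 22627453725) (nat_lit 380) (nat_lit 6730576445) (nat_lit 76) (nat_lit 2783058456) (nat_lit 135) (nat_lit 5) (nat_lit 140) (nat_lit 5) (nat_lit 136) (nat_lit 5) (nat_lit 432) (nat_lit 381) (nat_lit 207)))) (XT.nd (nat_lit 156) (nat_lit 608) (nat_lit 0) (XT.nd (nat_lit 78) (nat_lit 76) (nat_lit 0) (XT.lf (nat_lit 0) (nat_lit 11766673000) (nat_lit 304) (nat_lit 17820941058) (nat_lit 380) (nat_lit 3150723723) (nat_lit 131) (nat_lit 5) (nat_lit 135) (nat_lit 5) (nat_lit 136) (nat_lit 5) (nat_lit 433) (nat_lit 381) (nat_lit 206)) (XT.lf (nat_lit 0) (nat_lit 3401093867) (nat_lit 380) (nat_lit 2434240181) (nat_lit 76) (nat_lit 27515257052) (nat_lit 130) (nat_lit 5) (nat_lit 135) (nat_lit 5) (nat_lit 131) (nat_lit 5) (nat_lit 434) (nat_lit 381) (nat_lit 205))) (XT.nd (nat_lit 78) (nat_lit 304) (nat_lit 0) (XT.lf (nat_lit 0) (nat_lit 10309491128) (nat_lit 380) (nat_lit 17087086040)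 (nat_lit 76) (nat_lit 6576999238) (nat_lit 126) (nat_lit 5) (nat_lit 131) (nat_lit 5) (nat_lit 127) (nat_lit 5) (nat_lit 435) (nat_lit 381) (nat_lit 204)) (XT.lf (nat_lit 0) (nat_lit 2201097905) (nat_lit 304) (nat_lit 15323753491) (nat_lit 380) (nat_lit 17087409317) (nat_lit 122) (nat_lit 5) (nat_lit 126) (nat_lit 5) (nat_lit 127) (nat_lit 5) (nat_lit 436) (nat_lit 381) (nat_lit 203))))))))
noncomputable def xc192 : XT := (XT.nd (nat_lit 2184) (nat_lit 1748) (nat_lit 0) (XT.nd (nat_lit 1092) (nat_lit 1444) (nat_lit 0) (XT.nd (nat_lit 546) (nat_lit 1064) (nat_lit 0) (XT.nd (nat_lit 234) (nat_lit 760) (nat_lit 0) (XT.nd (nat_lit 78) (nat_lit 304) (nat_lit 0) (XT.lf (nat_lit 0) (nat_lit 22412192312) (nat_lit 304) (nat_lit 2713039169) (nat_lit 380) (nat_lit 10139818045) (nat_lit 122) (nat_lit 5) (nat_lit 126) (nat_lit 5) (nat_lit 127) (nat_lit 5) (nat_lit 437) (nat_lit 381) (nat_lit 202)) (XT.nd (nat_lit 78) (nat_lit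 76) (nat_lit 0) (XT.lf (nat_lit 0) (nat_lit 7330536815) (nat_lit 228) (nat_lit 25788441177) (nat_lit 304) (nat_lit 2813484088) (nat_lit 119) (nat_lit 5) (nat_lit 122) (nat_lit 5) (nat_lit 123) (nat_lit 5) (nat_lit 438) (nat_lit 381) (nat_lit 201)) (XT.lf (nat_lit 0) (nat_lit 4794352994) (nat_lit 304) (nat_lit 8312685929) (nat_lit 76) (nat_lit 23506872066) (nat_lit 118) (nat_lit 5) (nat_lit 122) (nat_lit 5) (nat_lit 119) (nat_lit 5) (nat_lit 439) (nat_lit 381) (nat_lit 200)))) (XT.nd (nat_lit 156) (nat_lit 456) (nat_lit 0) (XT.nd (nat_lit 78) (nat_lit 0) (nat_lit 0) (XT.lf (nat_lit 0) (nat_lit 12694213481) (nat_lit 380) (nat_lit 24511027221) (nat_lit 76) (nat_lit 106117544) (nat_lit 114) (nat_lit 5) (nat_lit 119) (nat_lit 5) (nat_lit 115) (nat_lit 5) (nat_lit 440) (nat_lit 381) (nat_lit 199)) (XT.lf (nat_lit 0) (nat_lit 21041891819) (nat_lit 380) (nat_lit 3446483042) (nat_lit 76) (nat_lit 13535030044) (nat_lit 114)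 (nat_lit 5) (nat_lit 119) (nat_lit 5) (nat_lit 115) (nat_lit 5) (nat_lit 441) (nat_lit 381) (nat_lit 198))) (XT.nd (nat_lit 78) (nat_lit 228) (nat_lit 0) (XT.lf (nat_lit 0) (nat_lit 18607456137) (nat_lit 228) (nat_lit 11207795511) (nat_lit 304) (nat_lit 8936304410) (nat_lit 111) (nat_lit 5) (nat_lit 114) (nat_lit 5) (nat_lit 115) (nat_lit 5) (nat_lit 442) (nat_lit 381) (nat_lit 197)) (XT.lf (nat_lit 0) (nat_lit 1900468447) (nat_lit 228) (nat_lit 37024931367) (nat_lit 304) (nat_lit 573944915) (nat_lit 108) (nat_lit 5) (nat_lit 111) (nat_lit 5) (nat_lit 112) (nat_lit 5) (nat_lit 443) (nat_lit 381) (nat_lit 196))))) (XT.nd (nat_lit 234) (nat_lit 760) (nat_lit 0) (XT.nd (nat_lit 78) (nat_lit 228) (nat_lit 0) (XT.lf (nat_lit 0) (nat_lit 8195240036) (nat_lit 304) (nat_lit 15440105817) (nat_lit 76) (nat_lit 16622518524) (nat_lit 107) (nat_lit 5) (nat_lit 111) (nat_lit 5) (nat_lit 108) (nat_lit 5) (nat_lit 444) (nat_lit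 381) (nat_lit 195)) (XT.nd (nat_lit 78) (nat_lit 0) (nat_lit 0) (XT.lf (nat_lit 0) (nat_lit 7518943922) (nat_lit 228) (nat_lit 9765833386) (nat_lit 304) (nat_lit 23752128008) (nat_lit 104) (nat_lit 5) (nat_lit 107) (nat_lit 5) (nat_lit 108) (nat_lit 5) (nat_lit 445) (nat_lit 381) (nat_lit 194)) (XT.lf (nat_lit 0) (nat_lit 26844470352) (nat_lit 304) (nat_lit 10401910339) (nat_lit 76) (nat_lit 4587013246) (nat_lit 104) (nat_lit 5) (nat_lit 108) (nat_lit 5) (nat_lit 105) (nat_lit 5) (nat_lit 446) (nat_lit 381) (nat_lit 193)))) (XT.nd (nat_lit 156) (nat_lit 456) (nat_lit 0) (XT.nd (nat_lit 78) (nat_lit 76) (nat_lit 0) (XT.lf (nat_lit 0) (nat_lit 13570346850) (nat_lit 228) (nat_lit 23344409701) (nat_lit 304) (nat_lit 5732307120) (nat_lit 101) (nat_lit 5) (nat_lit 104) (nat_lit 5) (nat_lit 105) (nat_lit 5) (nat_lit 447) (nat_lit 381) (nat_lit 192)) (XT.lf (nat_lit 0) (nat_lit 3830573102) (nat_lit 304) (nat_lit 5049982926)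 (nat_lit 76) (nat_lit 34600408863) (nat_lit 100) (nat_lit 5) (nat_lit 104) (nat_lit 5) (nat_lit 101) (nat_lit 5) (nat_lit 448) (nat_lit 381) (nat_lit 191))) (XT.nd (nat_lit 78) (nat_lit 228) (nat_lit 0) (XT.lf (nat_lit 0) (nat_lit 13814695098) (nat_lit 304) (nat_lit 24366455492) (nat_lit 76) (nat_lit 6149543303) (nat_lit 97) (nat_lit 5) (nat_lit 101) (nat_lit 5) (nat_lit 98) (nat_lit 5) (nat_lit 449) (nat_lit 381) (nat_lit 190)) (XT.lf (nat_lit 0) (nat_lit 544952097) (nat_lit 228) (nat_lit 23694851883) (nat_lit 304) (nat_lit 20961867354) (nat_lit 94) (nat_lit 5) (nat_lit 97) (nat_lit 5) (nat_lit 98) (nat_lit 5) (nat_lit 450) (nat_lit 381) (nat_lit 189)))))) (XT.nd (nat_lit 546) (nat_lit 760) (nat_lit 0) (XT.nd (nat_lit 234) (nat_lit 456) (nat_lit 0) (XT.nd (nat_lit 78) (nat_lit 228) (nat_lit 0) (XT.lf (nat_lit 0) (nat_lit 26697970214) (nat_lit 228) (nat_lit 8522591090) (nat_lit 304) (nat_lit 10870930393) (nat_lit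 94) (nat_lit 5) (nat_lit 97) (nat_lit 5) (nat_lit 98) (nat_lit 5) (nat_lit 451) (nat_lit 381) (nat_lit 188)) (XT.nd (nat_lit 78) (nat_lit 76) (nat_lit 0) (XT.lf (nat_lit 0) (nat_lit 6684575001) (nat_lit 152) (nat_lit 39975633114) (nat_lit 228) (nat_lit 343914993) (nat_lit 92) (nat_lit 5) (nat_lit 94) (nat_lit 5) (nat_lit 95) (nat_lit 5) (nat_lit 452) (nat_lit 381) (nat_lit 187)) (XT.lf (nat_lit 0) (nat_lit 10573121775) (nat_lit 228) (nat_lit 14188091330) (nat_lit 76) (nat_lit 23171520639) (nat_lit 91) (nat_lit 5) (nat_lit 94) (nat_lit 5) (nat_lit 92) (nat_lit 5) (nat_lit 453) (nat_lit 381) (nat_lit 186)))) (XT.nd (nat_lit 156) (nat_lit 228) (nat_lit 0) (XT.nd (nat_lit 78) (nat_lit 0) (nat_lit 0) (XT.lf (nat_lit 0) (nat_lit 12972032702) (nat_lit 228) (nat_lit 8960434140) (nat_lit 304) (nat_lit 26952982819) (nat_lit 88) (nat_lit 5) (nat_lit 91) (nat_lit 5) (nat_lit 92) (nat_lit 5) (nat_lit 454) (nat_lit 381) (nat_lit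 185)) (XT.lf (nat_lit 0) (nat_lit 33844627364) (nat_lit 304) (nat_lit 8701398067) (nat_lit 76) (nat_lit 7314360964) (nat_lit 88) (nat_lit 5) (nat_lit 92) (nat_lit 5) (nat_lit 89) (nat_lit 5) (nat_lit 455) (nat_lit 381) (nat_lit 184))) (XT.nd (nat_lit 78) (nat_lit 76) (nat_lit 0) (XT.lf (nat_lit 0) (nat_lit 19616169775) (nat_lit 152) (nat_lit 26772383576) (nat_lit 228) (nat_lit 4467786240) (nat_lit 86) (nat_lit 5) (nat_lit 88) (nat_lit 5) (nat_lit 89) (nat_lit 5) (nat_lit 456) (nat_lit 381) (nat_lit 183)) (XT.lf (nat_lit 0) (nat_lit 7367572349) (nat_lit 228) (nat_lit 2995046073) (nat_lit 76) (nat_lit 41514835635) (nat_lit 85) (nat_lit 5) (nat_lit 88) (nat_lit 5) (nat_lit 86) (nat_lit 5) (nat_lit 457) (nat_lit 381) (nat_lit 182))))) (XT.nd (nat_lit 234) (nat_lit 380) (nat_lit 0) (XT.nd (nat_lit 78) (nat_lit 152) (nat_lit 0) (XT.lf (nat_lit 0) (nat_lit 19786592735) (nat_lit 304) (nat_lit 26419239054) (nat_lit 76)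 (nat_lit 6712491478) (nat_lit 82) (nat_lit 5) (nat_lit 86) (nat_lit 5) (nat_lit 83) (nat_lit 5) (nat_lit 458) (nat_lit 381) (nat_lit 181)) (XT.nd (nat_lit 78) (nat_lit 0) (nat_lit 0) (XT.lf (nat_lit 0) (nat_lit 2898828077) (nat_lit 152) (nat_lit 29837595380) (nat_lit 228) (nat_lit 21249248241) (nat_lit 80) (nat_lit 5) (nat_lit 82) (nat_lit 5) (nat_lit 83) (nat_lit 5) (nat_lit 459) (nat_lit 381) (nat_lit 180)) (XT.lf (nat_lit 0) (nat_lit 33633290846) (nat_lit 152) (nat_lit 12705506798) (nat_lit 228) (nat_lit 8738321810) (nat_lit 80) (nat_lit 5) (nat_lit 82) (nat_lit 5) (nat_lit 83) (nat_lit 5) (nat_lit 460) (nat_lit 381) (nat_lit 179)))) (XT.nd (nat_lit 156) (nat_lit 152) (nat_lit 0) (XT.nd (nat_lit 78) (nat_lit 0) (nat_lit 0) (XT.lf (nat_lit 0) (nat_lit 4201722235) (nat_lit 228) (nat_lit 47022314688) (nat_lit 76) (nat_lit 4972035926) (nat_lit 77) (nat_lit 5) (nat_lit 80) (nat_lit 5) (nat_lit 78) (nat_lit 5) (nat_lit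 461) (nat_lit 381) (nat_lit 178)) (XT.lf (nat_lit 0) (nat_lit 17696152107) (nat_lit 228) (nat_lit 16411754612) (nat_lit 76) (nat_lit 23227838403) (nat_lit 77) (nat_lit 5) (nat_lit 80) (nat_lit 5) (nat_lit 78) (nat_lit 5) (nat_lit 462) (nat_lit 381) (nat_lit 177))) (XT.nd (nat_lit 78) (nat_lit 0) (nat_lit 0) (XT.lf (nat_lit 0) (nat_lit 15413381318) (nat_lit 152) (nat_lit 16327608479) (nat_lit 228) (nat_lit 26764250808) (nat_lit 75) (nat_lit 5) (nat_lit 77) (nat_lit 5) (nat_lit 78) (nat_lit 5) (nat_lit 463) (nat_lit 381) (nat_lit 176)) (XT.lf (nat_lit 0) (nat_lit 46391057743) (nat_lit 228) (nat_lit 11200411278) (nat_lit 76) (nat_lit 2112835662) (nat_lit 75) (nat_lit 5) (nat_lit 78) (nat_lit 5) (nat_lit 76) (nat_lit 5) (nat_lit 464) (nat_lit 381) (nat_lit 175))))))) (XT.nd (nat_lit 1092) (nat_lit 304) (nat_lit 0) (XT.nd (nat_lit 546) (nat_lit 684) (nat_lit 0) (XT.nd (nat_lit 234) (nat_lit 380) (nat_lit 0) (XT.nd (nat_lit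 78) (nat_lit 152) (nat_lit 0) (XT.lf (nat_lit 0) (nat_lit 904151110) (nat_lit 228) (nat_lit 39027857101) (nat_lit 76) (nat_lit 20995973846) (nat_lit 72) (nat_lit 5) (nat_lit 75) (nat_lit 5) (nat_lit 73) (nat_lit 5) (nat_lit 465) (nat_lit 381) (nat_lit 174)) (XT.nd (nat_lit 78) (nat_lit 152) (nat_lit 0) (XT.lf (nat_lit 0) (nat_lit 15392217397) (nat_lit 228) (nat_lit 6099036948) (nat_lit 76) (nat_lit 40689809356) (nat_lit 72) (nat_lit 5) (nat_lit 75) (nat_lit 5) (nat_lit 73) (nat_lit 5) (nat_lit 466) (nat_lit 381) (nat_lit 173)) (XT.lf (nat_lit 0) (nat_lit 28366915851) (nat_lit 152) (nat_lit 2218269930) (nat_lit 228) (nat_lit 32878444460) (nat_lit 70) (nat_lit 5) (nat_lit 72) (nat_lit 5) (nat_lit 73) (nat_lit 5) (nat_lit 467) (nat_lit 381) (nat_lit 172)))) (XT.nd (nat_lit 156) (nat_lit 228) (nat_lit 0) (XT.nd (nat_lit 78) (nat_lit 152) (nat_lit 0) (XT.lf (nat_lit 0) (nat_lit 46463231664) (nat_lit 228) (nat_lit 965347692)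 (nat_lit 76) (nat_lit 17349216013) (nat_lit 70) (nat_lit 5) (nat_lit 73) (nat_lit 5) (nat_lit 71) (nat_lit 5) (nat_lit 468) (nat_lit 381) (nat_lit 171)) (XT.lf (nat_lit 0) (nat_lit 34843764054) (nat_lit 152) (nat_lit 28328419732) (nat_lit 228) (nat_lit 2948564955) (nat_lit 68) (nat_lit 5) (nat_lit 70) (nat_lit 5) (nat_lit 71) (nat_lit 5) (nat_lit 469) (nat_lit 381) (nat_lit 170))) (XT.nd (nat_lit 78) (nat_lit 0) (nat_lit 0) (XT.lf (nat_lit 0) (nat_lit 4197081965) (nat_lit 152) (nat_lit 8477884730) (nat_lit 228) (nat_lit 54823874670) (nat_lit 65) (nat_lit 5) (nat_lit 67) (nat_lit 5) (nat_lit 68) (nat_lit 5) (nat_lit 470) (nat_lit 381) (nat_lit 169)) (XT.lf (nat_lit 0) (nat_lit 29139628101) (nat_lit 228) (nat_lit 27683826751) (nat_lit 76) (nat_lit 12080995711) (nat_lit 65) (nat_lit 5) (nat_lit 68) (nat_lit 5) (nat_lit 66) (nat_lit 5) (nat_lit 471) (nat_lit 381) (nat_lit 168))))) (XT.nd (nat_lit 234) (nat_lit 304)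 (nat_lit 0) (XT.nd (nat_lit 78) (nat_lit 228) (nat_lit 0) (XT.lf (nat_lit 0) (nat_lit 9092068014) (nat_lit 152) (nat_lit 37175245321) (nat_lit 228) (nat_lit 24079842392) (nat_lit 63) (nat_lit 5) (nat_lit 65) (nat_lit 5) (nat_lit 66) (nat_lit 5) (nat_lit 472) (nat_lit 381) (nat_lit 167)) (XT.nd (nat_lit 78) (nat_lit 228) (nat_lit 0) (XT.lf (nat_lit 0) (nat_lit 47534715284) (nat_lit 152) (nat_lit 16651439275) (nat_lit 228) (nat_lit 7638667928) (nat_lit 63) (nat_lit 5) (nat_lit 65) (nat_lit 5) (nat_lit 66) (nat_lit 5) (nat_lit 473) (nat_lit 381) (nat_lit 166)) (XT.lf (nat_lit 0) (nat_lit 9291724424) (nat_lit 228) (nat_lit 59422524251) (nat_lit 76) (nat_lit 4624568796) (nat_lit 60) (nat_lit 5) (nat_lit 63) (nat_lit 5) (nat_lit 61) (nat_lit 5) (nat_lit 474) (nat_lit 381) (nat_lit 165)))) (XT.nd (nat_lit 156) (nat_lit 152) (nat_lit 0) (XT.nd (nat_lit 78) (nat_lit 152) (nat_lit 0) (XT.lf (nat_lit 0) (nat_lit 26986901233)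 (nat_lit 228) (nat_lit 21370941256) (nat_lit 76) (nat_lit 26525809019) (nat_lit 60) (nat_lit 5) (nat_lit 63) (nat_lit 5) (nat_lit 61) (nat_lit 5) (nat_lit 475) (nat_lit 381) (nat_lit 164)) (XT.lf (nat_lit 0) (nat_lit 18172972665) (nat_lit 152) (nat_lit 27212539362) (nat_lit 228) (nat_lit 31084141361) (nat_lit 58) (nat_lit 5) (nat_lit 60) (nat_lit 5) (nat_lit 61) (nat_lit 5) (nat_lit 476) (nat_lit 381) (nat_lit 163))) (XT.nd (nat_lit 78) (nat_lit 152) (nat_lit 0) (XT.lf (nat_lit 0) (nat_lit 59337488246) (nat_lit 152) (nat_lit 5212311419) (nat_lit 228) (nat_lit 13547024280) (nat_lit 58) (nat_lit 5) (nat_lit 60) (nat_lit 5) (nat_lit 61) (nat_lit 5) (nat_lit 477) (nat_lit 381) (nat_lit 162)) (XT.lf (nat_lit 0) (nat_lit 4811166952) (nat_lit 152) (nat_lit 57582204961) (nat_lit 76) (nat_lit 17366642852) (nat_lit 56) (nat_lit 5) (nat_lit 58) (nat_lit 5) (nat_lit 57) (nat_lit 5) (nat_lit 478) (nat_lit 381) (nat_lit 161))))))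 (XT.nd (nat_lit 45708) (nat_lit 0) (nat_lit 15808) (XT.nd (nat_lit 234) (nat_lit 152) (nat_lit 0) (XT.nd (nat_lit 78) (nat_lit 152) (nat_lit 0) (XT.lf (nat_lit 0) (nat_lit 23688699741) (nat_lit 152) (nat_lit 16931149739) (nat_lit 76) (nat_lit 40842001795) (nat_lit 56) (nat_lit 5) (nat_lit 58) (nat_lit 5) (nat_lit 57) (nat_lit 5) (nat_lit 479) (nat_lit 381) (nat_lit 160)) (XT.nd (nat_lit 78) (nat_lit 0) (nat_lit 0) (XT.lf (nat_lit 0) (nat_lit 25432079979) (nat_lit 152) (nat_lit 17942969063) (nat_lit 228) (nat_lit 39832419279) (nat_lit 54) (nat_lit 5) (nat_lit 56) (nat_lit 5) (nat_lit 57) (nat_lit 5) (nat_lit 480) (nat_lit 381) (nat_lit 159)) (XT.lf (nat_lit 0) (nat_lit 63874726948) (nat_lit 228) (nat_lit 15644419863) (nat_lit 76) (nat_lit 5479625075) (nat_lit 54) (nat_lit 5) (nat_lit 57) (nat_lit 5) (nat_lit 55) (nat_lit 4) (nat_lit 481) (nat_lit 381) (nat_lit 158)))) (XT.nd (nat_lit 45318) (nat_lit 0) (nat_lit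 16872) (XT.nd (nat_lit 78) (nat_lit 76) (nat_lit 0) (XT.lf (nat_lit 0) (nat_lit 28117977304) (nat_lit 76) (nat_lit 57317444800) (nat_lit 152) (nat_lit 1395011794) (nat_lit 53) (nat_lit 5) (nat_lit 54) (nat_lit 5) (nat_lit 55) (nat_lit 4) (nat_lit 482) (nat_lit 381) (nat_lit 157)) (XT.lf (nat_lit 0) (nat_lit 18714211937) (nat_lit 152) (nat_lit 15385389936) (nat_lit 76) (nat_lit 54607257262) (nat_lit 52) (nat_lit 5) (nat_lit 54) (nat_lit 5) (nat_lit 53) (nat_lit 5) (nat_lit 483) (nat_lit 381) (nat_lit 156))) (XT.nd (nat_lit 78) (nat_lit 0) (nat_lit 0) (XT.lf (nat_lit 0) (nat_lit 2830153539) (nat_lit 0) (nat_lit 2830153539) (nat_lit 1140) (nat_lit 1489469818) (nat_lit 274) (nat_lit 5) (nat_lit 274) (nat_lit 3) (nat_lit 289) (nat_lit 3) (nat_lit 382) (nat_lit 382) (nat_lit 256)) (XT.lf (nat_lit 0) (nat_lit 11822883549) (nat_lit 1140) (nat_lit 1694817019) (nat_lit 1216) (nat_lit 986262876) (nat_lit 274) (nat_lit 5)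 (nat_lit 289) (nat_lit 3) (nat_lit 290) (nat_lit 5) (nat_lit 383) (nat_lit 382) (nat_lit 255))))) (XT.nd (nat_lit 312) (nat_lit 1064) (nat_lit 0) (XT.nd (nat_lit 156) (nat_lit 0) (nat_lit 76) (XT.nd (nat_lit 78) (nat_lit 0) (nat_lit 0) (XT.lf (nat_lit 76) (nat_lit 5502535634) (nat_lit 0) (nat_lit 6934084692) (nat_lit 1216) (nat_lit 2274997367) (nat_lit 275) (nat_lit 5) (nat_lit 274) (nat_lit 5) (nat_lit 290) (nat_lit 5) (nat_lit 384) (nat_lit 382) (nat_lit 254)) (XT.lf (nat_lit 76) (nat_lit 12943875472) (nat_lit 0) (nat_lit 129771974) (nat_lit 1216) (nat_lit 1851711940) (nat_lit 275) (nat_lit 5) (nat_lit 274) (nat_lit 5) (nat_lit 290) (nat_lit 5) (nat_lit 385) (nat_lit 382) (nat_lit 253))) (XT.nd (nat_lit 78) (nat_lit 0) (nat_lit 0) (XT.lf (nat_lit 76) (nat_lit 5497196921) (nat_lit 0) (nat_lit 8339725058) (nat_lit 1216) (nat_lit 1305381293) (nat_lit 276) (nat_lit 5) (nat_lit 275) (nat_lit 5) (nat_lit 291) (nat_lit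 5) (nat_lit 386) (nat_lit 382) (nat_lit 252)) (XT.lf (nat_lit 76) (nat_lit 13232720420) (nat_lit 0) (nat_lit 1400106785) (nat_lit 1216) (nat_lit 732640219) (nat_lit 276) (nat_lit 5) (nat_lit 275) (nat_lit 5) (nat_lit 291) (nat_lit 5) (nat_lit 387) (nat_lit 382) (nat_lit 251)))) (XT.nd (nat_lit 156) (nat_lit 0) (nat_lit 76) (XT.nd (nat_lit 78) (nat_lit 1216) (nat_lit 0) (XT.lf (nat_lit 76) (nat_lit 5653032486) (nat_lit 0) (nat_lit 9897999454) (nat_lit 1216) (nat_lit 41345700) (nat_lit 277) (nat_lit 5) (nat_lit 276) (nat_lit 5) (nat_lit 292) (nat_lit 5) (nat_lit 388) (nat_lit 382) (nat_lit 250)) (XT.lf (nat_lit 0) (nat_lit 682190813) (nat_lit 1216) (nat_lit 2137032672) (nat_lit 1292) (nat_lit 13005944135) (nat_lit 260) (nat_lit 5) (nat_lit 276) (nat_lit 5) (nat_lit 277) (nat_lit 5) (nat_lit 389) (nat_lit 382) (nat_lit 249))) (XT.nd (nat_lit 78) (nat_lit 0) (nat_lit 0) (XT.lf (nat_lit 0) (nat_lit 1517265177) (nat_lit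 1216) (nat_lit 10097874256) (nat_lit 1292) (nat_lit 4447073187) (nat_lit 261) (nat_lit 5) (nat_lit 277) (nat_lit 5) (nat_lit 278) (nat_lit 5) (nat_lit 390) (nat_lit 382) (nat_lit 248)) (XT.lf (nat_lit 0) (nat_lit 2416677578) (nat_lit 1216) (nat_lit 1988530604) (nat_lit 1292) (nat_lit 11899985600) (nat_lit 261) (nat_lit 5) (nat_lit 277) (nat_lit 5) (nat_lit 278) (nat_lit 5) (nat_lit 391) (nat_lit 382) (nat_lit 247))))))))
noncomputable def xc193 : XT := (XT.nd (nat_lit 2262) (nat_lit 5320) (nat_lit 0) (XT.nd (nat_lit 1092) (nat_lit 4028) (nat_lit 0) (XT.nd (nat_lit 546) (nat_lit 2964) (nat_lit 0) (XT.nd (nat_lit 234) (nat_lit 0) (nat_lit 76) (XT.nd (nat_lit 78) (nat_lit 0) (nat_lit 0) (XT.lf (nat_lit 0) (nat_lit 3424965888) (nat_lit 1216) (nat_lit 10100005714) (nat_lit 1292) (nat_lit 3028039255) (nat_lit 262) (nat_lit 5) (nat_lit 278) (nat_lit 5) (nat_lit 279) (nat_lit 5) (nat_lit 392) (nat_lit 382) (nat_lit 246))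 (XT.nd (nat_lit 78) (nat_lit 0) (nat_lit 76) (XT.lf (nat_lit 0) (nat_lit 4517536496) (nat_lit 1216) (nat_lit 1670213005) (nat_lit 1292) (nat_lit 10618895125) (nat_lit 262) (nat_lit 5) (nat_lit 278) (nat_lit 5) (nat_lit 279) (nat_lit 5) (nat_lit 393) (nat_lit 382) (nat_lit 245)) (XT.lf (nat_lit 0) (nat_lit 5715859814) (nat_lit 1216) (nat_lit 9935167880) (nat_lit 1292) (nat_lit 1414673543) (nat_lit 263) (nat_lit 5) (nat_lit 279) (nat_lit 5) (nat_lit 280) (nat_lit 5) (nat_lit 394) (nat_lit 382) (nat_lit 244)))) (XT.nd (nat_lit 156) (nat_lit 0) (nat_lit 76) (XT.nd (nat_lit 78) (nat_lit 0) (nat_lit 0) (XT.lf (nat_lit 0) (nat_lit 7019090574) (nat_lit 1216) (nat_lit 1171228575) (nat_lit 1292) (nat_lit 9140144671) (nat_lit 263) (nat_lit 5) (nat_lit 279) (nat_lit 5) (nat_lit 280) (nat_lit 5) (nat_lit 395) (nat_lit 382) (nat_lit 243)) (XT.lf (nat_lit 76) (nat_lit 8004730012) (nat_lit 0) (nat_lit 424566675) (nat_lit 1292)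 (nat_lit 9171839160) (nat_lit 264) (nat_lit 5) (nat_lit 263) (nat_lit 5) (nat_lit 280) (nat_lit 5) (nat_lit 396) (nat_lit 382) (nat_lit 242))) (XT.nd (nat_lit 78) (nat_lit 0) (nat_lit 0) (XT.lf (nat_lit 0) (nat_lit 9957706940) (nat_lit 1216) (nat_lit 479838447) (nat_lit 1292) (nat_lit 7440108545) (nat_lit 264) (nat_lit 5) (nat_lit 280) (nat_lit 5) (nat_lit 281) (nat_lit 5) (nat_lit 397) (nat_lit 382) (nat_lit 241)) (XT.lf (nat_lit 76) (nat_lit 9076024301) (nat_lit 0) (nat_lit 2538797302) (nat_lit 1292) (nat_lit 6545163145) (nat_lit 265) (nat_lit 5) (nat_lit 264) (nat_lit 5) (nat_lit 281) (nat_lit 5) (nat_lit 398) (nat_lit 382) (nat_lit 240))))) (XT.nd (nat_lit 234) (nat_lit 1292) (nat_lit 0) (XT.nd (nat_lit 78) (nat_lit 684) (nat_lit 0) (XT.lf (nat_lit 0) (nat_lit 424898774) (nat_lit 1216) (nat_lit 12951129847) (nat_lit 1292) (nat_lit 5073128170) (nat_lit 249) (nat_lit 5) (nat_lit 265) (nat_lit 5) (nat_lit 266)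 (nat_lit 5) (nat_lit 399) (nat_lit 382) (nat_lit 239)) (XT.nd (nat_lit 78) (nat_lit 684) (nat_lit 0) (XT.lf (nat_lit 0) (nat_lit 10372368148) (nat_lit 1216) (nat_lit 4926099381) (nat_lit 1292) (nat_lit 3445287191) (nat_lit 249) (nat_lit 5) (nat_lit 265) (nat_lit 5) (nat_lit 266) (nat_lit 5) (nat_lit 400) (nat_lit 382) (nat_lit 238)) (XT.lf (nat_lit 0) (nat_lit 1562179941) (nat_lit 684) (nat_lit 15755543505) (nat_lit 760) (nat_lit 1728295343) (nat_lit 240) (nat_lit 5) (nat_lit 249) (nat_lit 5) (nat_lit 250) (nat_lit 5) (nat_lit 401) (nat_lit 382) (nat_lit 237)))) (XT.nd (nat_lit 156) (nat_lit 608) (nat_lit 0) (XT.nd (nat_lit 78) (nat_lit 608) (nat_lit 0) (XT.lf (nat_lit 0) (nat_lit 165674004) (nat_lit 760) (nat_lit 7446812724) (nat_lit 76) (nat_lit 11741067263) (nat_lit 239) (nat_lit 5) (nat_lit 249) (nat_lit 5) (nat_lit 240) (nat_lit 5) (nat_lit 402) (nat_lit 382) (nat_lit 236)) (XT.lf (nat_lit 0) (nat_lit 2110072412)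 (nat_lit 684) (nat_lit 16752964921) (nat_lit 76) (nat_lit 805916454) (nat_lit 231) (nat_lit 5) (nat_lit 240) (nat_lit 5) (nat_lit 232) (nat_lit 5) (nat_lit 403) (nat_lit 382) (nat_lit 235))) (XT.nd (nat_lit 78) (nat_lit 608) (nat_lit 0) (XT.lf (nat_lit 0) (nat_lit 4256613360) (nat_lit 684) (nat_lit 6332655575) (nat_lit 76) (nat_lit 9400234563) (nat_lit 231) (nat_lit 5) (nat_lit 240) (nat_lit 5) (nat_lit 232) (nat_lit 5) (nat_lit 404) (nat_lit 382) (nat_lit 234)) (XT.lf (nat_lit 0) (nat_lit 4480601435) (nat_lit 608) (nat_lit 2022734613) (nat_lit 684) (nat_lit 13815262258) (nat_lit 223) (nat_lit 5) (nat_lit 231) (nat_lit 5) (nat_lit 232) (nat_lit 5) (nat_lit 405) (nat_lit 382) (nat_lit 233)))))) (XT.nd (nat_lit 546) (nat_lit 1900) (nat_lit 0) (XT.nd (nat_lit 234) (nat_lit 1596) (nat_lit 0) (XT.nd (nat_lit 78) (nat_lit 532) (nat_lit 0) (XT.lf (nat_lit 0) (nat_lit 8940275365) (nat_lit 684) (nat_lit 4980826859) (nat_lit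 76) (nat_lit 6732781396) (nat_lit 223) (nat_lit 5) (nat_lit 232) (nat_lit 5) (nat_lit 224) (nat_lit 5) (nat_lit 406) (nat_lit 382) (nat_lit 232)) (XT.nd (nat_lit 78) (nat_lit 0) (nat_lit 0) (XT.lf (nat_lit 0) (nat_lit 6297894564) (nat_lit 532) (nat_lit 5226063510) (nat_lit 608) (nat_lit 9473062408) (nat_lit 216) (nat_lit 5) (nat_lit 223) (nat_lit 5) (nat_lit 224) (nat_lit 5) (nat_lit 407) (nat_lit 382) (nat_lit 231)) (XT.lf (nat_lit 0) (nat_lit 14265001486) (nat_lit 608) (nat_lit 3375380778) (nat_lit 76) (nat_lit 3707675669) (nat_lit 216) (nat_lit 5) (nat_lit 224) (nat_lit 5) (nat_lit 217) (nat_lit 5) (nat_lit 408) (nat_lit 382) (nat_lit 230)))) (XT.nd (nat_lit 156) (nat_lit 1064) (nat_lit 0) (XT.nd (nat_lit 78) (nat_lit 0) (nat_lit 0) (XT.lf (nat_lit 0) (nat_lit 8393156398) (nat_lit 532) (nat_lit 8820943427) (nat_lit 608) (nat_lit 4491753904) (nat_lit 209) (nat_lit 5) (nat_lit 216) (nat_lit 5) (nat_lit 217) (nat_lit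 5) (nat_lit 409) (nat_lit 382) (nat_lit 229)) (XT.lf (nat_lit 0) (nat_lit 20282144456) (nat_lit 608) (nat_lit 1499367217) (nat_lit 76) (nat_lit 291959400) (nat_lit 209) (nat_lit 5) (nat_lit 217) (nat_lit 5) (nat_lit 210) (nat_lit 5) (nat_lit 410) (nat_lit 382) (nat_lit 228))) (XT.nd (nat_lit 78) (nat_lit 532) (nat_lit 0) (XT.lf (nat_lit 0) (nat_lit 1157335051) (nat_lit 532) (nat_lit 11673326089) (nat_lit 76) (nat_lit 9615575768) (nat_lit 202) (nat_lit 5) (nat_lit 209) (nat_lit 5) (nat_lit 203) (nat_lit 5) (nat_lit 411) (nat_lit 382) (nat_lit 227)) (XT.lf (nat_lit 0) (nat_lit 601274657) (nat_lit 532) (nat_lit 3572014258) (nat_lit 608) (nat_lit 18655921354) (nat_lit 195) (nat_lit 5) (nat_lit 202) (nat_lit 5) (nat_lit 203) (nat_lit 5) (nat_lit 412) (nat_lit 382) (nat_lit 226))))) (XT.nd (nat_lit 312) (nat_lit 988) (nat_lit 0) (XT.nd (nat_lit 156) (nat_lit 456) (nat_lit 0) (XT.nd (nat_lit 78) (nat_lit 456) (nat_lit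 0) (XT.lf (nat_lit 0) (nat_lit 7449973826) (nat_lit 608) (nat_lit 9802275703) (nat_lit 76) (nat_lit 5966317393) (nat_lit 195) (nat_lit 5) (nat_lit 203) (nat_lit 5) (nat_lit 196) (nat_lit 5) (nat_lit 413) (nat_lit 382) (nat_lit 225)) (XT.lf (nat_lit 0) (nat_lit 3012738181) (nat_lit 456) (nat_lit 7870600520) (nat_lit 532) (nat_lit 12734515808) (nat_lit 189) (nat_lit 5) (nat_lit 195) (nat_lit 5) (nat_lit 196) (nat_lit 5) (nat_lit 414) (nat_lit 382) (nat_lit 224))) (XT.nd (nat_lit 78) (nat_lit 456) (nat_lit 0) (XT.lf (nat_lit 0) (nat_lit 14531050735) (nat_lit 532) (nat_lit 7638161765) (nat_lit 76) (nat_lit 1856569407) (nat_lit 189) (nat_lit 5) (nat_lit 196) (nat_lit 5) (nat_lit 190) (nat_lit 5) (nat_lit 415) (nat_lit 382) (nat_lit 223)) (XT.lf (nat_lit 0) (nat_lit 5745247842) (nat_lit 456) (nat_lit 12670422019) (nat_lit 532) (nat_lit 6026454516) (nat_lit 183) (nat_lit 5) (nat_lit 189) (nat_lit 5) (nat_lit 190) (nat_lit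 5) (nat_lit 416) (nat_lit 382) (nat_lit 222)))) (XT.nd (nat_lit 156) (nat_lit 456) (nat_lit 0) (XT.nd (nat_lit 78) (nat_lit 532) (nat_lit 0) (XT.lf (nat_lit 0) (nat_lit 19680063284) (nat_lit 456) (nat_lit 2808318138) (nat_lit 532) (nat_lit 2380430563) (nat_lit 183) (nat_lit 5) (nat_lit 189) (nat_lit 5) (nat_lit 190) (nat_lit 5) (nat_lit 417) (nat_lit 382) (nat_lit 221)) (XT.lf (nat_lit 0) (nat_lit 1499629985) (nat_lit 532) (nat_lit 16499061719) (nat_lit 76) (nat_lit 7304668802) (nat_lit 176) (nat_lit 5) (nat_lit 183) (nat_lit 5) (nat_lit 177) (nat_lit 5) (nat_lit 418) (nat_lit 382) (nat_lit 220))) (XT.nd (nat_lit 78) (nat_lit 456) (nat_lit 0) (XT.lf (nat_lit 0) (nat_lit 5523584503) (nat_lit 532) (nat_lit 2484438267) (nat_lit 76) (nat_lit 17739956915) (nat_lit 176) (nat_lit 5) (nat_lit 183) (nat_lit 5) (nat_lit 177) (nat_lit 5) (nat_lit 419) (nat_lit 382) (nat_lit 219)) (XT.lf (nat_lit 0) (nat_lit 9803217129) (nat_lit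 532) (nat_lit 14043813373) (nat_lit 76) (nat_lit 2354859466) (nat_lit 170) (nat_lit 5) (nat_lit 177) (nat_lit 5) (nat_lit 171) (nat_lit 5) (nat_lit 420) (nat_lit 382) (nat_lit 218))))))) (XT.nd (nat_lit 1092) (nat_lit 2356) (nat_lit 0) (XT.nd (nat_lit 546) (nat_lit 1368) (nat_lit 0) (XT.nd (nat_lit 234) (nat_lit 836) (nat_lit 0) (XT.nd (nat_lit 78) (nat_lit 380) (nat_lit 0) (XT.lf (nat_lit 0) (nat_lit 546703686) (nat_lit 380) (nat_lit 13769265423) (nat_lit 456) (nat_lit 12350307816) (nat_lit 165) (nat_lit 5) (nat_lit 170) (nat_lit 5) (nat_lit 171) (nat_lit 5) (nat_lit 421) (nat_lit 382) (nat_lit 217)) (XT.nd (nat_lit 78) (nat_lit 380) (nat_lit 0) (XT.lf (nat_lit 0) (nat_lit 15856325717) (nat_lit 380) (nat_lit 3244531856) (nat_lit 456) (nat_lit 8039636538) (nat_lit 165) (nat_lit 5) (nat_lit 170) (nat_lit 5) (nat_lit 171) (nat_lit 5) (nat_lit 422) (nat_lit 382) (nat_lit 216)) (XT.lf (nat_lit 0) (nat_lit 3994793544)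 (nat_lit 380) (nat_lit 20140989377) (nat_lit 456) (nat_lit 3489961388) (nat_lit 160) (nat_lit 5) (nat_lit 165) (nat_lit 5) (nat_lit 166) (nat_lit 5) (nat_lit 423) (nat_lit 382) (nat_lit 215)))) (XT.nd (nat_lit 156) (nat_lit 380) (nat_lit 0) (XT.nd (nat_lit 78) (nat_lit 380) (nat_lit 0) (XT.lf (nat_lit 0) (nat_lit 1315168075) (nat_lit 456) (nat_lit 8209922152) (nat_lit 76) (nat_lit 18595848771) (nat_lit 159) (nat_lit 5) (nat_lit 165) (nat_lit 5) (nat_lit 160) (nat_lit 5) (nat_lit 424) (nat_lit 382) (nat_lit 214)) (XT.lf (nat_lit 0) (nat_lit 6279002747) (nat_lit 456) (nat_lit 20857661686) (nat_lit 76) (nat_lit 1490748691) (nat_lit 154) (nat_lit 5) (nat_lit 160) (nat_lit 5) (nat_lit 155) (nat_lit 5) (nat_lit 425) (nat_lit 382) (nat_lit 213))) (XT.nd (nat_lit 78) (nat_lit 380) (nat_lit 0) (XT.lf (nat_lit 0) (nat_lit 11565097441) (nat_lit 456) (nat_lit 4850964849) (nat_lit 76) (nat_lit 12727819901) (nat_lit 154) (nat_lit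 5) (nat_lit 160) (nat_lit 5) (nat_lit 155) (nat_lit 5) (nat_lit 426) (nat_lit 382) (nat_lit 212)) (XT.lf (nat_lit 0) (nat_lit 11861220615) (nat_lit 380) (nat_lit 5258020416) (nat_lit 456) (nat_lit 12553321356) (nat_lit 149) (nat_lit 5) (nat_lit 154) (nat_lit 5) (nat_lit 155) (nat_lit 5) (nat_lit 427) (nat_lit 382) (nat_lit 211))))) (XT.nd (nat_lit 234) (nat_lit 608) (nat_lit 0) (XT.nd (nat_lit 78) (nat_lit 760) (nat_lit 0) (XT.lf (nat_lit 0) (nat_lit 22944918460) (nat_lit 456) (nat_lit 1108065733) (nat_lit 76) (nat_lit 6160972518) (nat_lit 149) (nat_lit 5) (nat_lit 155) (nat_lit 5) (nat_lit 150) (nat_lit 5) (nat_lit 428) (nat_lit 382) (nat_lit 210)) (XT.nd (nat_lit 78) (nat_lit 456) (nat_lit 0) (XT.lf (nat_lit 0) (nat_lit 16357395425) (nat_lit 304) (nat_lit 12792905491) (nat_lit 380) (nat_lit 1615144885) (nat_lit 145) (nat_lit 5) (nat_lit 149) (nat_lit 5) (nat_lit 150) (nat_lit 5) (nat_lit 429) (nat_lit 382) (nat_lit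 209)) (XT.lf (nat_lit 0) (nat_lit 3049255377) (nat_lit 380) (nat_lit 1113264811) (nat_lit 456) (nat_lit 27168658438) (nat_lit 139) (nat_lit 5) (nat_lit 144) (nat_lit 5) (nat_lit 145) (nat_lit 5) (nat_lit 430) (nat_lit 382) (nat_lit 208)))) (XT.nd (nat_lit 156) (nat_lit 304) (nat_lit 0) (XT.nd (nat_lit 78) (nat_lit 304) (nat_lit 0) (XT.lf (nat_lit 0) (nat_lit 10328640199) (nat_lit 456) (nat_lit 10712383921) (nat_lit 76) (nat_lit 10864952830) (nat_lit 139) (nat_lit 5) (nat_lit 145) (nat_lit 5) (nat_lit 140) (nat_lit 5) (nat_lit 431) (nat_lit 382) (nat_lit 207)) (XT.lf (nat_lit 0) (nat_lit 7513894932) (nat_lit 304) (nat_lit 9244939835) (nat_lit 380) (nat_lit 15736812597) (nat_lit 135) (nat_lit 5) (nat_lit 139) (nat_lit 5) (nat_lit 140) (nat_lit 5) (nat_lit 432) (nat_lit 382) (nat_lit 206))) (XT.nd (nat_lit 78) (nat_lit 304) (nat_lit 0) (XT.lf (nat_lit 0) (nat_lit 23514992851) (nat_lit 380) (nat_lit 6628198603) (nat_lit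 76) (nat_lit 2955825550) (nat_lit 135) (nat_lit 5) (nat_lit 140) (nat_lit 5) (nat_lit 136) (nat_lit 5) (nat_lit 433) (nat_lit 382) (nat_lit 205)) (XT.lf (nat_lit 0) (nat_lit 12420985039) (nat_lit 304) (nat_lit 18259790257) (nat_lit 380) (nat_lit 3033505068) (nat_lit 131) (nat_lit 5) (nat_lit 135) (nat_lit 5) (nat_lit 136) (nat_lit 5) (nat_lit 434) (nat_lit 382) (nat_lit 204)))))) (XT.nd (nat_lit 546) (nat_lit 1064) (nat_lit 0) (XT.nd (nat_lit 234) (nat_lit 608) (nat_lit 0) (XT.nd (nat_lit 78) (nat_lit 608) (nat_lit 0) (XT.lf (nat_lit 0) (nat_lit 3704688383) (nat_lit 380) (nat_lit 2210680957) (nat_lit 76) (nat_lit 28429653462) (nat_lit 130) (nat_lit 5) (nat_lit 135) (nat_lit 5) (nat_lit 131) (nat_lit 5) (nat_lit 435) (nat_lit 382) (nat_lit 203)) (XT.nd (nat_lit 78) (nat_lit 304) (nat_lit 0) (XT.lf (nat_lit 0) (nat_lit 10818204634) (nat_lit 380) (nat_lit 17300941224) (nat_lit 76) (nat_lit 6867616938) (nat_lit 126)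 (nat_lit 5) (nat_lit 131) (nat_lit 5) (nat_lit 127) (nat_lit 5) (nat_lit 436) (nat_lit 382) (nat_lit 202)) (XT.lf (nat_lit 0) (nat_lit 2562959245) (nat_lit 304) (nat_lit 15684101542) (nat_lit 380) (nat_lit 17397636899) (nat_lit 122) (nat_lit 5) (nat_lit 126) (nat_lit 5) (nat_lit 127) (nat_lit 5) (nat_lit 437) (nat_lit 382) (nat_lit 201)))) (XT.nd (nat_lit 156) (nat_lit 380) (nat_lit 0) (XT.nd (nat_lit 78) (nat_lit 228) (nat_lit 0) (XT.lf (nat_lit 0) (nat_lit 23371770124) (nat_lit 304) (nat_lit 2697959904) (nat_lit 380) (nat_lit 10247512880) (nat_lit 122) (nat_lit 5) (nat_lit 126) (nat_lit 5) (nat_lit 127) (nat_lit 5) (nat_lit 438) (nat_lit 382) (nat_lit 200)) (XT.lf (nat_lit 0) (nat_lit 7839632568) (nat_lit 228) (nat_lit 26461780880) (nat_lit 304) (nat_lit 2703321700) (nat_lit 119) (nat_lit 5) (nat_lit 122) (nat_lit 5) (nat_lit 123) (nat_lit 5) (nat_lit 439) (nat_lit 382) (nat_lit 199))) (XT.nd (nat_lit 78) (nat_lit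 304) (nat_lit 0) (XT.lf (nat_lit 0) (nat_lit 5123397380) (nat_lit 304) (nat_lit 8277590635) (nat_lit 76) (nat_lit 24305751076) (nat_lit 118) (nat_lit 5) (nat_lit 122) (nat_lit 5) (nat_lit 119) (nat_lit 5) (nat_lit 440) (nat_lit 382) (nat_lit 198)) (XT.lf (nat_lit 0) (nat_lit 13258520038) (nat_lit 380) (nat_lit 24960116664) (nat_lit 76) (nat_lit 206526028) (nat_lit 114) (nat_lit 5) (nat_lit 119) (nat_lit 5) (nat_lit 115) (nat_lit 5) (nat_lit 441) (nat_lit 382) (nat_lit 197))))) (XT.nd (nat_lit 312) (nat_lit 532) (nat_lit 0) (XT.nd (nat_lit 156) (nat_lit 304) (nat_lit 0) (XT.nd (nat_lit 78) (nat_lit 228) (nat_lit 0) (XT.lf (nat_lit 0) (nat_lit 21851284643) (nat_lit 380) (nat_lit 3271973288) (nat_lit 76) (nat_lit 14035474109) (nat_lit 114) (nat_lit 5) (nat_lit 119) (nat_lit 5) (nat_lit 115) (nat_lit 5) (nat_lit 442) (nat_lit 382) (nat_lit 196)) (XT.lf (nat_lit 0) (nat_lit 19440859515) (nat_lit 228) (nat_lit 11444442519)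 (nat_lit 304) (nat_lit 9023502892) (nat_lit 111) (nat_lit 5) (nat_lit 114) (nat_lit 5) (nat_lit 115) (nat_lit 5) (nat_lit 443) (nat_lit 382) (nat_lit 195))) (XT.nd (nat_lit 78) (nat_lit 76) (nat_lit 0) (XT.lf (nat_lit 0) (nat_lit 2234262325) (nat_lit 228) (nat_lit 38032967950) (nat_lit 304) (nat_lit 411843588) (nat_lit 108) (nat_lit 5) (nat_lit 111) (nat_lit 5) (nat_lit 112) (nat_lit 5) (nat_lit 444) (nat_lit 382) (nat_lit 194)) (XT.lf (nat_lit 0) (nat_lit 8611796753) (nat_lit 304) (nat_lit 15631165980) (nat_lit 76) (nat_lit 17217489108) (nat_lit 107) (nat_lit 5) (nat_lit 111) (nat_lit 5) (nat_lit 108) (nat_lit 5) (nat_lit 445) (nat_lit 382) (nat_lit 193)))) (XT.nd (nat_lit 156) (nat_lit 304) (nat_lit 0) (XT.nd (nat_lit 78) (nat_lit 0) (nat_lit 0) (XT.lf (nat_lit 0) (nat_lit 8013987183) (nat_lit 228) (nat_lit 9957651489) (nat_lit 304) (nat_lit 24291297583) (nat_lit 104) (nat_lit 5) (nat_lit 107) (nat_lit 5) (nat_lit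 108) (nat_lit 5) (nat_lit 446) (nat_lit 382) (nat_lit 192)) (XT.lf (nat_lit 0) (nat_lit 27814164099) (nat_lit 304) (nat_lit 10448357181) (nat_lit 76) (nat_lit 4820917783) (nat_lit 104) (nat_lit 5) (nat_lit 108) (nat_lit 5) (nat_lit 105) (nat_lit 5) (nat_lit 447) (nat_lit 382) (nat_lit 191))) (XT.nd (nat_lit 78) (nat_lit 76) (nat_lit 0) (XT.lf (nat_lit 0) (nat_lit 14240463699) (nat_lit 228) (nat_lit 23943836190) (nat_lit 304) (nat_lit 5737287524) (nat_lit 101) (nat_lit 5) (nat_lit 104) (nat_lit 5) (nat_lit 105) (nat_lit 5) (nat_lit 448) (nat_lit 382) (nat_lit 190)) (XT.lf (nat_lit 0) (nat_lit 4104451710) (nat_lit 304) (nat_lit 4942949003) (nat_lit 76) (nat_lit 35733200579) (nat_lit 100) (nat_lit 5) (nat_lit 104) (nat_lit 5) (nat_lit 101) (nat_lit 5) (nat_lit 449) (nat_lit 382) (nat_lit 189))))))))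
noncomputable def xc194 : XT := (XT.nd (nat_lit 2184) (nat_lit 380) (nat_lit 0) (XT.nd (nat_lit 1092) (nat_lit 1444) (nat_lit 0) (XT.nd (nat_lit 546) (nat_lit 836) (nat_lit 0) (XT.nd (nat_lit 234) (nat_lit 456) (nat_lit 0) (XT.nd (nat_lit 78) (nat_lit 228) (nat_lit 0) (XT.lf (nat_lit 0) (nat_lit 14386881871) (nat_lit 304) (nat_lit 24837677237) (nat_lit 76) (nat_lit 6431300209) (nat_lit 97) (nat_lit 5) (nat_lit 101) (nat_lit 5) (nat_lit 98) (nat_lit 5) (nat_lit 450) (nat_lit 382) (nat_lit 188)) (XT.nd (nat_lit 78) (nat_lit 0) (nat_lit 0) (XT.lf (nat_lit 0) (nat_lit 818525796) (nat_lit 228) (nat_lit 24304096287) (nat_lit 304) (nat_lit 21430408327) (nat_lit 94) (nat_lit 5) (nat_lit 97) (nat_lit 5) (nat_lit 98) (nat_lit 5) (nat_lit 451) (nat_lit 382) (nat_lit 187)) (XT.lf (nat_lit 0) (nat_lit 27748642462) (nat_lit 228) (nat_lit 8679626928) (nat_lit 304) (nat_lit 11041412627) (nat_lit 94) (nat_lit 5) (nat_lit 97) (nat_lit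 5) (nat_lit 98) (nat_lit 5) (nat_lit 452) (nat_lit 382) (nat_lit 186)))) (XT.nd (nat_lit 156) (nat_lit 228) (nat_lit 0) (XT.nd (nat_lit 78) (nat_lit 76) (nat_lit 0) (XT.lf (nat_lit 0) (nat_lit 7135967898) (nat_lit 152) (nat_lit 41074068958) (nat_lit 228) (nat_lit 199688208) (nat_lit 92) (nat_lit 5) (nat_lit 94) (nat_lit 5) (nat_lit 95) (nat_lit 5) (nat_lit 453) (nat_lit 382) (nat_lit 185)) (XT.lf (nat_lit 0) (nat_lit 11037430495) (nat_lit 228) (nat_lit 14367237167) (nat_lit 76) (nat_lit 23961614789) (nat_lit 91) (nat_lit 5) (nat_lit 94) (nat_lit 5) (nat_lit 92) (nat_lit 5) (nat_lit 454) (nat_lit 382) (nat_lit 184))) (XT.nd (nat_lit 78) (nat_lit 0) (nat_lit 0) (XT.lf (nat_lit 0) (nat_lit 13605273950) (nat_lit 228) (nat_lit 9130343309) (nat_lit 304) (nat_lit 27612021325) (nat_lit 88) (nat_lit 5) (nat_lit 91) (nat_lit 5) (nat_lit 92) (nat_lit 5) (nat_lit 455) (nat_lit 382) (nat_lit 183)) (XT.lf (nat_lit 0) (nat_lit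 35001837190) (nat_lit 304) (nat_lit 8722144758) (nat_lit 76) (nat_lit 7627941196) (nat_lit 88) (nat_lit 5) (nat_lit 92) (nat_lit 5) (nat_lit 89) (nat_lit 5) (nat_lit 456) (nat_lit 382) (nat_lit 182))))) (XT.nd (nat_lit 234) (nat_lit 380) (nat_lit 0) (XT.nd (nat_lit 78) (nat_lit 304) (nat_lit 0) (XT.lf (nat_lit 0) (nat_lit 20442594284) (nat_lit 152) (nat_lit 27477641728) (nat_lit 228) (nat_lit 4457574818) (nat_lit 86) (nat_lit 5) (nat_lit 88) (nat_lit 5) (nat_lit 89) (nat_lit 5) (nat_lit 457) (nat_lit 382) (nat_lit 181)) (XT.nd (nat_lit 78) (nat_lit 228) (nat_lit 0) (XT.lf (nat_lit 0) (nat_lit 7725910460) (nat_lit 228) (nat_lit 2851138432) (nat_lit 76) (nat_lit 42852592333) (nat_lit 85) (nat_lit 5) (nat_lit 88) (nat_lit 5) (nat_lit 86) (nat_lit 5) (nat_lit 458) (nat_lit 382) (nat_lit 180)) (XT.lf (nat_lit 0) (nat_lit 20516649260) (nat_lit 304) (nat_lit 26977188377) (nat_lit 76) (nat_lit 7007924940) (nat_lit 82)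 (nat_lit 5) (nat_lit 86) (nat_lit 5) (nat_lit 83) (nat_lit 5) (nat_lit 459) (nat_lit 382) (nat_lit 179)))) (XT.nd (nat_lit 156) (nat_lit 228) (nat_lit 0) (XT.nd (nat_lit 78) (nat_lit 0) (nat_lit 0) (XT.lf (nat_lit 0) (nat_lit 3218120495) (nat_lit 152) (nat_lit 30635113157) (nat_lit 228) (nat_lit 21747950531) (nat_lit 80) (nat_lit 5) (nat_lit 82) (nat_lit 5) (nat_lit 83) (nat_lit 5) (nat_lit 460) (nat_lit 382) (nat_lit 178)) (XT.lf (nat_lit 0) (nat_lit 34867850324) (nat_lit 152) (nat_lit 12991904930) (nat_lit 228) (nat_lit 8865738301) (nat_lit 80) (nat_lit 5) (nat_lit 82) (nat_lit 5) (nat_lit 83) (nat_lit 5) (nat_lit 461) (nat_lit 382) (nat_lit 177))) (XT.nd (nat_lit 78) (nat_lit 0) (nat_lit 0) (XT.lf (nat_lit 0) (nat_lit 4459120769) (nat_lit 228) (nat_lit 48204007092) (nat_lit 76) (nat_lit 5214871996) (nat_lit 77) (nat_lit 5) (nat_lit 80) (nat_lit 5) (nat_lit 78) (nat_lit 5) (nat_lit 462) (nat_lit 382) (nat_lit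 176)) (XT.lf (nat_lit 0) (nat_lit 18354557900) (nat_lit 228) (nat_lit 16681799447) (nat_lit 76) (nat_lit 24015620150) (nat_lit 77) (nat_lit 5) (nat_lit 80) (nat_lit 5) (nat_lit 78) (nat_lit 5) (nat_lit 463) (nat_lit 382) (nat_lit 175)))))) (XT.nd (nat_lit 546) (nat_lit 760) (nat_lit 0) (XT.nd (nat_lit 234) (nat_lit 304) (nat_lit 0) (XT.nd (nat_lit 78) (nat_lit 228) (nat_lit 0) (XT.lf (nat_lit 0) (nat_lit 16095911072) (nat_lit 152) (nat_lit 16723231446) (nat_lit 228) (nat_lit 27437463691) (nat_lit 75) (nat_lit 5) (nat_lit 77) (nat_lit 5) (nat_lit 78) (nat_lit 5) (nat_lit 464) (nat_lit 382) (nat_lit 174)) (XT.nd (nat_lit 78) (nat_lit 228) (nat_lit 0) (XT.lf (nat_lit 0) (nat_lit 47905924025) (nat_lit 228) (nat_lit 11319904810) (nat_lit 76) (nat_lit 2265897434) (nat_lit 75) (nat_lit 5) (nat_lit 78) (nat_lit 5) (nat_lit 76) (nat_lit 5) (nat_lit 465) (nat_lit 382) (nat_lit 173)) (XT.lf (nat_lit 0) (nat_lit 1054101574)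 (nat_lit 228) (nat_lit 39981839522) (nat_lit 76) (nat_lit 21716182903) (nat_lit 72) (nat_lit 5) (nat_lit 75) (nat_lit 5) (nat_lit 73) (nat_lit 5) (nat_lit 466) (nat_lit 382) (nat_lit 172)))) (XT.nd (nat_lit 156) (nat_lit 152) (nat_lit 0) (XT.nd (nat_lit 78) (nat_lit 152) (nat_lit 0) (XT.lf (nat_lit 0) (nat_lit 15973232395) (nat_lit 228) (nat_lit 6071470879) (nat_lit 76) (nat_lit 41998202512) (nat_lit 72) (nat_lit 5) (nat_lit 75) (nat_lit 5) (nat_lit 73) (nat_lit 5) (nat_lit 467) (nat_lit 382) (nat_lit 171)) (XT.lf (nat_lit 0) (nat_lit 29426396414) (nat_lit 152) (nat_lit 2194124132) (nat_lit 228) (nat_lit 33743473217) (nat_lit 70) (nat_lit 5) (nat_lit 72) (nat_lit 5) (nat_lit 73) (nat_lit 5) (nat_lit 468) (nat_lit 382) (nat_lit 170))) (XT.nd (nat_lit 78) (nat_lit 152) (nat_lit 0) (XT.lf (nat_lit 0) (nat_lit 47972323755) (nat_lit 228) (nat_lit 789311357) (nat_lit 76) (nat_lit 17956026602) (nat_lit 70) (nat_lit 5)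 (nat_lit 73) (nat_lit 5) (nat_lit 71) (nat_lit 5) (nat_lit 469) (nat_lit 382) (nat_lit 169)) (XT.lf (nat_lit 0) (nat_lit 36092063970) (nat_lit 152) (nat_lit 29089076508) (nat_lit 228) (nat_lit 2919805668) (nat_lit 68) (nat_lit 5) (nat_lit 70) (nat_lit 5) (nat_lit 71) (nat_lit 5) (nat_lit 470) (nat_lit 382) (nat_lit 168))))) (XT.nd (nat_lit 234) (nat_lit 380) (nat_lit 0) (XT.nd (nat_lit 78) (nat_lit 152) (nat_lit 0) (XT.lf (nat_lit 0) (nat_lit 4526267120) (nat_lit 152) (nat_lit 8642484038) (nat_lit 228) (nat_lit 56351638713) (nat_lit 65) (nat_lit 5) (nat_lit 67) (nat_lit 5) (nat_lit 68) (nat_lit 5) (nat_lit 471) (nat_lit 382) (nat_lit 167)) (XT.nd (nat_lit 78) (nat_lit 152) (nat_lit 0) (XT.lf (nat_lit 0) (nat_lit 30124883032) (nat_lit 228) (nat_lit 28314509687) (nat_lit 76) (nat_lit 12528849017) (nat_lit 65) (nat_lit 5) (nat_lit 68) (nat_lit 5) (nat_lit 66) (nat_lit 5) (nat_lit 472) (nat_lit 382) (nat_lit 166))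 (XT.lf (nat_lit 0) (nat_lit 9562702785) (nat_lit 152) (nat_lit 38202363178) (nat_lit 228) (nat_lit 24689202381) (nat_lit 63) (nat_lit 5) (nat_lit 65) (nat_lit 5) (nat_lit 66) (nat_lit 5) (nat_lit 473) (nat_lit 382) (nat_lit 165)))) (XT.nd (nat_lit 156) (nat_lit 152) (nat_lit 0) (XT.nd (nat_lit 78) (nat_lit 228) (nat_lit 0) (XT.lf (nat_lit 0) (nat_lit 49152866189) (nat_lit 152) (nat_lit 17065410121) (nat_lit 228) (nat_lit 7758084972) (nat_lit 63) (nat_lit 5) (nat_lit 65) (nat_lit 5) (nat_lit 66) (nat_lit 5) (nat_lit 474) (nat_lit 382) (nat_lit 164)) (XT.lf (nat_lit 0) (nat_lit 9677619750) (nat_lit 228) (nat_lit 61010472444) (nat_lit 76) (nat_lit 4847666287) (nat_lit 60) (nat_lit 5) (nat_lit 63) (nat_lit 5) (nat_lit 61) (nat_lit 5) (nat_lit 475) (nat_lit 382) (nat_lit 163))) (XT.nd (nat_lit 78) (nat_lit 152) (nat_lit 0) (XT.lf (nat_lit 0) (nat_lit 27900531176) (nat_lit 228) (nat_lit 21823013635) (nat_lit 76) (nat_lit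 27403486618) (nat_lit 60) (nat_lit 5) (nat_lit 63) (nat_lit 5) (nat_lit 61) (nat_lit 5) (nat_lit 476) (nat_lit 382) (nat_lit 162)) (XT.lf (nat_lit 0) (nat_lit 18905364214) (nat_lit 152) (nat_lit 27944505790) (nat_lit 228) (nat_lit 31910780530) (nat_lit 58) (nat_lit 5) (nat_lit 60) (nat_lit 5) (nat_lit 61) (nat_lit 5) (nat_lit 477) (nat_lit 382) (nat_lit 161))))))) (XT.nd (nat_lit 46332) (nat_lit 0) (nat_lit 13528) (XT.nd (nat_lit 45786) (nat_lit 0) (nat_lit 15732) (XT.nd (nat_lit 234) (nat_lit 228) (nat_lit 0) (XT.nd (nat_lit 78) (nat_lit 152) (nat_lit 0) (XT.lf (nat_lit 0) (nat_lit 61299362767) (nat_lit 152) (nat_lit 5286729545) (nat_lit 228) (nat_lit 13850633967) (nat_lit 58) (nat_lit 5) (nat_lit 60) (nat_lit 5) (nat_lit 61) (nat_lit 5) (nat_lit 478) (nat_lit 382) (nat_lit 160)) (XT.nd (nat_lit 78) (nat_lit 0) (nat_lit 0) (XT.lf (nat_lit 0) (nat_lit 5055901978) (nat_lit 152) (nat_lit 59125504093) (nat_lit 76)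 (nat_lit 17968389196) (nat_lit 56) (nat_lit 5) (nat_lit 58) (nat_lit 5) (nat_lit 57) (nat_lit 5) (nat_lit 479) (nat_lit 382) (nat_lit 159)) (XT.lf (nat_lit 0) (nat_lit 24496836478) (nat_lit 152) (nat_lit 17260281302) (nat_lit 76) (nat_lit 42145657051) (nat_lit 56) (nat_lit 5) (nat_lit 58) (nat_lit 5) (nat_lit 57) (nat_lit 5) (nat_lit 480) (nat_lit 382) (nat_lit 158)))) (XT.nd (nat_lit 156) (nat_lit 76) (nat_lit 0) (XT.nd (nat_lit 78) (nat_lit 0) (nat_lit 0) (XT.lf (nat_lit 0) (nat_lit 26372092337) (nat_lit 152) (nat_lit 18400546734) (nat_lit 228) (nat_lit 40928155657) (nat_lit 54) (nat_lit 5) (nat_lit 56) (nat_lit 5) (nat_lit 57) (nat_lit 5) (nat_lit 481) (nat_lit 382) (nat_lit 157)) (XT.lf (nat_lit 0) (nat_lit 65885254587) (nat_lit 228) (nat_lit 15939799300) (nat_lit 76) (nat_lit 5720845313) (nat_lit 54) (nat_lit 5) (nat_lit 57) (nat_lit 5) (nat_lit 55) (nat_lit 4) (nat_lit 482) (nat_lit 382) (nat_lit 156))) (XT.nd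 (nat_lit 45318) (nat_lit 0) (nat_lit 16796) (XT.lf (nat_lit 0) (nat_lit 29133764358) (nat_lit 76) (nat_lit 58957915800) (nat_lit 152) (nat_lit 1340863839) (nat_lit 53) (nat_lit 5) (nat_lit 54) (nat_lit 5) (nat_lit 55) (nat_lit 4) (nat_lit 483) (nat_lit 382) (nat_lit 155)) (XT.lf (nat_lit 0) (nat_lit 3074902181) (nat_lit 0) (nat_lit 3074902181) (nat_lit 1140) (nat_lit 1204766404) (nat_lit 274) (nat_lit 5) (nat_lit 274) (nat_lit 3) (nat_lit 289) (nat_lit 3) (nat_lit 383) (nat_lit 383) (nat_lit 254))))) (XT.nd (nat_lit 234) (nat_lit 1064) (nat_lit 0) (XT.nd (nat_lit 78) (nat_lit 0) (nat_lit 0) (XT.lf (nat_lit 0) (nat_lit 12795340063) (nat_lit 1140) (nat_lit 1413467373) (nat_lit 1216) (nat_lit 711530562) (nat_lit 274) (nat_lit 5) (nat_lit 289) (nat_lit 3) (nat_lit 290) (nat_lit 5) (nat_lit 384) (nat_lit 383) (nat_lit 253)) (XT.nd (nat_lit 78) (nat_lit 0) (nat_lit 0) (XT.lf (nat_lit 76) (nat_lit 5996549054) (nat_lit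 0) (nat_lit 7416108535) (nat_lit 1216) (nat_lit 1722015379) (nat_lit 275) (nat_lit 5) (nat_lit 274) (nat_lit 5) (nat_lit 290) (nat_lit 5) (nat_lit 385) (nat_lit 383) (nat_lit 252)) (XT.lf (nat_lit 76) (nat_lit 13651548387) (nat_lit 0) (nat_lit 399685815) (nat_lit 1216) (nat_lit 1304125523) (nat_lit 275) (nat_lit 5) (nat_lit 274) (nat_lit 5) (nat_lit 290) (nat_lit 5) (nat_lit 386) (nat_lit 383) (nat_lit 251)))) (XT.nd (nat_lit 156) (nat_lit 1140) (nat_lit 0) (XT.nd (nat_lit 78) (nat_lit 0) (nat_lit 0) (XT.lf (nat_lit 76) (nat_lit 5998456936) (nat_lit 0) (nat_lit 8822650682) (nat_lit 1216) (nat_lit 758199090) (nat_lit 276) (nat_lit 5) (nat_lit 275) (nat_lit 5) (nat_lit 291) (nat_lit 5) (nat_lit 387) (nat_lit 383) (nat_lit 250)) (XT.lf (nat_lit 76) (nat_lit 13956249711) (nat_lit 0) (nat_lit 1668065204) (nat_lit 1216) (nat_lit 185353754) (nat_lit 276) (nat_lit 5) (nat_lit 275) (nat_lit 5) (nat_lit 291) (nat_lit 5)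 (nat_lit 388) (nat_lit 383) (nat_lit 249))) (XT.nd (nat_lit 78) (nat_lit 0) (nat_lit 0) (XT.lf (nat_lit 0) (nat_lit 501336530) (nat_lit 1216) (nat_lit 9884035246) (nat_lit 1292) (nat_lit 5658319808) (nat_lit 260) (nat_lit 5) (nat_lit 276) (nat_lit 5) (nat_lit 277) (nat_lit 5) (nat_lit 389) (nat_lit 383) (nat_lit 248)) (XT.lf (nat_lit 0) (nat_lit 1229929930) (nat_lit 1216) (nat_lit 1858346662) (nat_lit 1292) (nat_lit 13195656089) (nat_lit 260) (nat_lit 5) (nat_lit 276) (nat_lit 5) (nat_lit 277) (nat_lit 5) (nat_lit 390) (nat_lit 383) (nat_lit 247)))))) (XT.nd (nat_lit 546) (nat_lit 2280) (nat_lit 0) (XT.nd (nat_lit 234) (nat_lit 0) (nat_lit 76) (XT.nd (nat_lit 78) (nat_lit 0) (nat_lit 0) (XT.lf (nat_lit 0) (nat_lit 2076272572) (nat_lit 1216) (nat_lit 10044062778) (nat_lit 1292) (nat_lit 4408172204) (nat_lit 261) (nat_lit 5) (nat_lit 277) (nat_lit 5) (nat_lit 278) (nat_lit 5) (nat_lit 391) (nat_lit 383) (nat_lit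 246)) (XT.nd (nat_lit 78) (nat_lit 0) (nat_lit 76) (XT.lf (nat_lit 0) (nat_lit 2987711341) (nat_lit 1216) (nat_lit 1701829526) (nat_lit 1292) (nat_lit 12089690819) (nat_lit 261) (nat_lit 5) (nat_lit 277) (nat_lit 5) (nat_lit 278) (nat_lit 5) (nat_lit 392) (nat_lit 383) (nat_lit 245)) (XT.lf (nat_lit 0) (nat_lit 4013637098) (nat_lit 1216) (nat_lit 10043880497) (nat_lit 1292) (nat_lit 2977348731) (nat_lit 262) (nat_lit 5) (nat_lit 278) (nat_lit 5) (nat_lit 279) (nat_lit 5) (nat_lit 393) (nat_lit 383) (nat_lit 244)))) (XT.nd (nat_lit 156) (nat_lit 0) (nat_lit 76) (XT.nd (nat_lit 78) (nat_lit 0) (nat_lit 76) (XT.lf (nat_lit 0) (nat_lit 5124831749) (nat_lit 1216) (nat_lit 1371653970) (nat_lit 1292) (nat_lit 10800052559) (nat_lit 262) (nat_lit 5) (nat_lit 278) (nat_lit 5) (nat_lit 279) (nat_lit 5) (nat_lit 394) (nat_lit 383) (nat_lit 243)) (XT.lf (nat_lit 0) (nat_lit 6347566621) (nat_lit 1216) (nat_lit 9872871179) (nat_lit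 1292) (nat_lit 1343279377) (nat_lit 263) (nat_lit 5) (nat_lit 279) (nat_lit 5) (nat_lit 280) (nat_lit 5) (nat_lit 395) (nat_lit 383) (nat_lit 242))) (XT.nd (nat_lit 78) (nat_lit 0) (nat_lit 0) (XT.lf (nat_lit 0) (nat_lit 7676489517) (nat_lit 1216) (nat_lit 856509377) (nat_lit 1292) (nat_lit 9303830203) (nat_lit 263) (nat_lit 5) (nat_lit 279) (nat_lit 5) (nat_lit 280) (nat_lit 5) (nat_lit 396) (nat_lit 383) (nat_lit 241)) (XT.lf (nat_lit 76) (nat_lit 8591298007) (nat_lit 0) (nat_lit 528019511) (nat_lit 1292) (nat_lit 8996598487) (nat_lit 264) (nat_lit 5) (nat_lit 263) (nat_lit 5) (nat_lit 280) (nat_lit 5) (nat_lit 397) (nat_lit 383) (nat_lit 240))))) (XT.nd (nat_lit 312) (nat_lit 1368) (nat_lit 0) (XT.nd (nat_lit 156) (nat_lit 1140) (nat_lit 0) (XT.nd (nat_lit 78) (nat_lit 0) (nat_lit 0) (XT.lf (nat_lit 0) (nat_lit 10680001171) (nat_lit 1216) (nat_lit 144183087) (nat_lit 1292) (nat_lit 7576956809) (nat_lit 264)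 (nat_lit 5) (nat_lit 280) (nat_lit 5) (nat_lit 281) (nat_lit 5) (nat_lit 398) (nat_lit 383) (nat_lit 239)) (XT.lf (nat_lit 76) (nat_lit 9694923676) (nat_lit 0) (nat_lit 2682900721) (nat_lit 1292) (nat_lit 6314391505) (nat_lit 265) (nat_lit 5) (nat_lit 264) (nat_lit 5) (nat_lit 281) (nat_lit 5) (nat_lit 399) (nat_lit 383) (nat_lit 238))) (XT.nd (nat_lit 78) (nat_lit 0) (nat_lit 0) (XT.lf (nat_lit 0) (nat_lit 793958003) (nat_lit 1216) (nat_lit 13388626151) (nat_lit 1292) (nat_lit 4807761292) (nat_lit 249) (nat_lit 5) (nat_lit 265) (nat_lit 5) (nat_lit 266) (nat_lit 5) (nat_lit 400) (nat_lit 383) (nat_lit 237)) (XT.lf (nat_lit 0) (nat_lit 11029473431) (nat_lit 1216) (nat_lit 5121418681) (nat_lit 1292) (nat_lit 3143247046) (nat_lit 249) (nat_lit 5) (nat_lit 265) (nat_lit 5) (nat_lit 266) (nat_lit 5) (nat_lit 401) (nat_lit 383) (nat_lit 236)))) (XT.nd (nat_lit 156) (nat_lit 608) (nat_lit 0) (XT.nd (nat_lit 78) (nat_lit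 76) (nat_lit 0) (XT.lf (nat_lit 0) (nat_lit 1963851795) (nat_lit 684) (nat_lit 16258380582) (nat_lit 760) (nat_lit 1383497187) (nat_lit 240) (nat_lit 5) (nat_lit 249) (nat_lit 5) (nat_lit 250) (nat_lit 5) (nat_lit 402) (nat_lit 383) (nat_lit 235)) (XT.lf (nat_lit 0) (nat_lit 548223840) (nat_lit 760) (nat_lit 7318116687) (nat_lit 76) (nat_lit 12056379137) (nat_lit 239) (nat_lit 5) (nat_lit 249) (nat_lit 5) (nat_lit 240) (nat_lit 5) (nat_lit 403) (nat_lit 383) (nat_lit 234))) (XT.nd (nat_lit 78) (nat_lit 0) (nat_lit 0) (XT.lf (nat_lit 0) (nat_lit 2543103553) (nat_lit 684) (nat_lit 16895492553) (nat_lit 76) (nat_lit 809224176) (nat_lit 231) (nat_lit 5) (nat_lit 240) (nat_lit 5) (nat_lit 232) (nat_lit 5) (nat_lit 404) (nat_lit 383) (nat_lit 233)) (XT.lf (nat_lit 0) (nat_lit 4743271924) (nat_lit 684) (nat_lit 6173061149) (nat_lit 76) (nat_lit 9661979686) (nat_lit 231) (nat_lit 5) (nat_lit 240) (nat_lit 5) (nat_lit 232)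 (nat_lit 5) (nat_lit 405) (nat_lit 383) (nat_lit 232))))))))
noncomputable def xc195 : XT := (XT.nd (nat_lit 2262) (nat_lit 4408) (nat_lit 0) (XT.nd (nat_lit 1092) (nat_lit 3116) (nat_lit 0) (XT.nd (nat_lit 546) (nat_lit 1976) (nat_lit 0) (XT.nd (nat_lit 234) (nat_lit 1064) (nat_lit 0) (XT.nd (nat_lit 78) (nat_lit 532) (nat_lit 0) (XT.lf (nat_lit 0) (nat_lit 4961166374) (nat_lit 608) (nat_lit 2089102144) (nat_lit 684) (nat_lit 13867228844) (nat_lit 223) (nat_lit 5) (nat_lit 231) (nat_lit 5) (nat_lit 232) (nat_lit 5) (nat_lit 406) (nat_lit 383) (nat_lit 231)) (XT.nd (nat_lit 78) (nat_lit 532) (nat_lit 0) (XT.lf (nat_lit 0) (nat_lit 9550015409) (nat_lit 684) (nat_lit 4783785217) (nat_lit 76) (nat_lit 6929352655) (nat_lit 223) (nat_lit 5) (nat_lit 232) (nat_lit 5) (nat_lit 224) (nat_lit 5) (nat_lit 407) (nat_lit 383) (nat_lit 230)) (XT.lf (nat_lit 0) (nat_lit 6829901118) (nat_lit 532) (nat_lit 5374657750) (nat_lit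 608) (nat_lit 9412227813) (nat_lit 216) (nat_lit 5) (nat_lit 223) (nat_lit 5) (nat_lit 224) (nat_lit 5) (nat_lit 408) (nat_lit 383) (nat_lit 229)))) (XT.nd (nat_lit 156) (nat_lit 532) (nat_lit 0) (XT.nd (nat_lit 78) (nat_lit 532) (nat_lit 0) (XT.lf (nat_lit 0) (nat_lit 15018156149) (nat_lit 608) (nat_lit 3133792270) (nat_lit 76) (nat_lit 3826700012) (nat_lit 216) (nat_lit 5) (nat_lit 224) (nat_lit 5) (nat_lit 217) (nat_lit 5) (nat_lit 409) (nat_lit 383) (nat_lit 228)) (XT.lf (nat_lit 0) (nat_lit 8984439747) (nat_lit 532) (nat_lit 9065079084) (nat_lit 608) (nat_lit 4297848298) (nat_lit 209) (nat_lit 5) (nat_lit 216) (nat_lit 5) (nat_lit 217) (nat_lit 5) (nat_lit 410) (nat_lit 383) (nat_lit 227))) (XT.nd (nat_lit 78) (nat_lit 532) (nat_lit 0) (XT.lf (nat_lit 0) (nat_lit 21200504905) (nat_lit 608) (nat_lit 1205558056) (nat_lit 76) (nat_lit 320225717) (nat_lit 209) (nat_lit 5) (nat_lit 217) (nat_lit 5) (nat_lit 210)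 (nat_lit 5) (nat_lit 411) (nat_lit 383) (nat_lit 226)) (XT.lf (nat_lit 0) (nat_lit 1499246021) (nat_lit 532) (nat_lit 11681858968) (nat_lit 76) (nat_lit 9929218801) (nat_lit 202) (nat_lit 5) (nat_lit 209) (nat_lit 5) (nat_lit 203) (nat_lit 5) (nat_lit 412) (nat_lit 383) (nat_lit 225))))) (XT.nd (nat_lit 234) (nat_lit 988) (nat_lit 0) (XT.nd (nat_lit 78) (nat_lit 456) (nat_lit 0) (XT.lf (nat_lit 0) (nat_lit 957630125) (nat_lit 532) (nat_lit 3642353180) (nat_lit 608) (nat_lit 18904976365) (nat_lit 195) (nat_lit 5) (nat_lit 202) (nat_lit 5) (nat_lit 203) (nat_lit 5) (nat_lit 413) (nat_lit 383) (nat_lit 224)) (XT.nd (nat_lit 78) (nat_lit 456) (nat_lit 0) (XT.lf (nat_lit 0) (nat_lit 7966530976) (nat_lit 608) (nat_lit 9759363212) (nat_lit 76) (nat_lit 6180358357) (nat_lit 195) (nat_lit 5) (nat_lit 203) (nat_lit 5) (nat_lit 196) (nat_lit 5) (nat_lit 414) (nat_lit 383) (nat_lit 223)) (XT.lf (nat_lit 0) (nat_lit 3436797355)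 (nat_lit 456) (nat_lit 8060771282) (nat_lit 532) (nat_lit 12820112287) (nat_lit 189) (nat_lit 5) (nat_lit 195) (nat_lit 5) (nat_lit 196) (nat_lit 5) (nat_lit 415) (nat_lit 383) (nat_lit 222)))) (XT.nd (nat_lit 156) (nat_lit 532) (nat_lit 0) (XT.nd (nat_lit 78) (nat_lit 456) (nat_lit 0) (XT.lf (nat_lit 0) (nat_lit 15246760361) (nat_lit 532) (nat_lit 7535321593) (nat_lit 76) (nat_lit 1956004992) (nat_lit 189) (nat_lit 5) (nat_lit 196) (nat_lit 5) (nat_lit 190) (nat_lit 5) (nat_lit 416) (nat_lit 383) (nat_lit 221)) (XT.lf (nat_lit 0) (nat_lit 6246335547) (nat_lit 456) (nat_lit 12996593594) (nat_lit 532) (nat_lit 5924142404) (nat_lit 183) (nat_lit 5) (nat_lit 189) (nat_lit 5) (nat_lit 190) (nat_lit 5) (nat_lit 417) (nat_lit 383) (nat_lit 220))) (XT.nd (nat_lit 78) (nat_lit 532) (nat_lit 0) (XT.lf (nat_lit 0) (nat_lit 20589620785) (nat_lit 456) (nat_lit 2840197696) (nat_lit 532) (nat_lit 2176983530) (nat_lit 183) (nat_lit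 5) (nat_lit 189) (nat_lit 5) (nat_lit 190) (nat_lit 5) (nat_lit 418) (nat_lit 383) (nat_lit 219)) (XT.lf (nat_lit 0) (nat_lit 1809900200) (nat_lit 532) (nat_lit 16665163928) (nat_lit 76) (nat_lit 7579372052) (nat_lit 176) (nat_lit 5) (nat_lit 183) (nat_lit 5) (nat_lit 177) (nat_lit 5) (nat_lit 419) (nat_lit 383) (nat_lit 218)))))) (XT.nd (nat_lit 546) (nat_lit 1444) (nat_lit 0) (XT.nd (nat_lit 234) (nat_lit 836) (nat_lit 0) (XT.nd (nat_lit 78) (nat_lit 836) (nat_lit 0) (XT.lf (nat_lit 0) (nat_lit 5946846713) (nat_lit 532) (nat_lit 2239680499) (nat_lit 76) (nat_lit 18326100463) (nat_lit 176) (nat_lit 5) (nat_lit 183) (nat_lit 5) (nat_lit 177) (nat_lit 5) (nat_lit 420) (nat_lit 383) (nat_lit 217)) (XT.nd (nat_lit 78) (nat_lit 380) (nat_lit 0) (XT.lf (nat_lit 0) (nat_lit 10351012106) (nat_lit 532) (nat_lit 14141917774) (nat_lit 76) (nat_lit 2487342959) (nat_lit 170) (nat_lit 5) (nat_lit 177) (nat_lit 5) (nat_lit 171)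 (nat_lit 5) (nat_lit 421) (nat_lit 383) (nat_lit 216)) (XT.lf (nat_lit 0) (nat_lit 883146071) (nat_lit 380) (nat_lit 14111687731) (nat_lit 456) (nat_lit 12463888819) (nat_lit 165) (nat_lit 5) (nat_lit 170) (nat_lit 5) (nat_lit 171) (nat_lit 5) (nat_lit 422) (nat_lit 383) (nat_lit 215)))) (XT.nd (nat_lit 156) (nat_lit 456) (nat_lit 0) (XT.nd (nat_lit 78) (nat_lit 380) (nat_lit 0) (XT.lf (nat_lit 0) (nat_lit 16642735173) (nat_lit 380) (nat_lit 3273270089) (nat_lit 456) (nat_lit 8031380750) (nat_lit 165) (nat_lit 5) (nat_lit 170) (nat_lit 5) (nat_lit 171) (nat_lit 5) (nat_lit 423) (nat_lit 383) (nat_lit 214)) (XT.lf (nat_lit 0) (nat_lit 4428908955) (nat_lit 380) (nat_lit 20669678488) (nat_lit 456) (nat_lit 3348709726) (nat_lit 160) (nat_lit 5) (nat_lit 165) (nat_lit 5) (nat_lit 166) (nat_lit 5) (nat_lit 424) (nat_lit 383) (nat_lit 213))) (XT.nd (nat_lit 78) (nat_lit 380) (nat_lit 0) (XT.lf (nat_lit 0) (nat_lit 1588750422)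 (nat_lit 456) (nat_lit 8146387926) (nat_lit 76) (nat_lit 19222350766) (nat_lit 159) (nat_lit 5) (nat_lit 165) (nat_lit 5) (nat_lit 160) (nat_lit 5) (nat_lit 425) (nat_lit 383) (nat_lit 212)) (XT.lf (nat_lit 0) (nat_lit 6698365708) (nat_lit 456) (nat_lit 21170372565) (nat_lit 76) (nat_lit 1610514802) (nat_lit 154) (nat_lit 5) (nat_lit 160) (nat_lit 5) (nat_lit 155) (nat_lit 5) (nat_lit 426) (nat_lit 383) (nat_lit 211))))) (XT.nd (nat_lit 312) (nat_lit 760) (nat_lit 0) (XT.nd (nat_lit 156) (nat_lit 304) (nat_lit 0) (XT.nd (nat_lit 78) (nat_lit 380) (nat_lit 0) (XT.lf (nat_lit 0) (nat_lit 12136315295) (nat_lit 456) (nat_lit 4692591881) (nat_lit 76) (nat_lit 13182512412) (nat_lit 154) (nat_lit 5) (nat_lit 160) (nat_lit 5) (nat_lit 155) (nat_lit 5) (nat_lit 427) (nat_lit 383) (nat_lit 210)) (XT.lf (nat_lit 0) (nat_lit 12517979717) (nat_lit 380) (nat_lit 5335464139) (nat_lit 456) (nat_lit 12702627003) (nat_lit 149) (nat_lit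 5) (nat_lit 154) (nat_lit 5) (nat_lit 155) (nat_lit 5) (nat_lit 428) (nat_lit 383) (nat_lit 209))) (XT.nd (nat_lit 78) (nat_lit 304) (nat_lit 0) (XT.lf (nat_lit 0) (nat_lit 23848215001) (nat_lit 456) (nat_lit 843425160) (nat_lit 76) (nat_lit 6422238595) (nat_lit 149) (nat_lit 5) (nat_lit 155) (nat_lit 5) (nat_lit 150) (nat_lit 5) (nat_lit 429) (nat_lit 383) (nat_lit 208)) (XT.lf (nat_lit 0) (nat_lit 17143079416) (nat_lit 304) (nat_lit 13093254220) (nat_lit 380) (nat_lit 1445683044) (nat_lit 145) (nat_lit 5) (nat_lit 149) (nat_lit 5) (nat_lit 150) (nat_lit 5) (nat_lit 430) (nat_lit 383) (nat_lit 207)))) (XT.nd (nat_lit 156) (nat_lit 304) (nat_lit 0) (XT.nd (nat_lit 78) (nat_lit 0) (nat_lit 0) (XT.lf (nat_lit 0) (nat_lit 3437058997) (nat_lit 380) (nat_lit 1060625902) (nat_lit 456) (nat_lit 27767076314) (nat_lit 139) (nat_lit 5) (nat_lit 144) (nat_lit 5) (nat_lit 145) (nat_lit 5) (nat_lit 431) (nat_lit 383) (nat_lit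 206)) (XT.lf (nat_lit 0) (nat_lit 10843466535) (nat_lit 456) (nat_lit 10740695544) (nat_lit 76) (nat_lit 11272802351) (nat_lit 139) (nat_lit 5) (nat_lit 145) (nat_lit 5) (nat_lit 140) (nat_lit 5) (nat_lit 432) (nat_lit 383) (nat_lit 205))) (XT.nd (nat_lit 78) (nat_lit 0) (nat_lit 0) (XT.lf (nat_lit 0) (nat_lit 8029498538) (nat_lit 304) (nat_lit 9433887938) (nat_lit 380) (nat_lit 16001035142) (nat_lit 135) (nat_lit 5) (nat_lit 139) (nat_lit 5) (nat_lit 140) (nat_lit 5) (nat_lit 433) (nat_lit 383) (nat_lit 204)) (XT.lf (nat_lit 0) (nat_lit 24417177028) (nat_lit 380) (nat_lit 6540217212) (nat_lit 76) (nat_lit 3128650887) (nat_lit 135) (nat_lit 5) (nat_lit 140) (nat_lit 5) (nat_lit 136) (nat_lit 5) (nat_lit 434) (nat_lit 383) (nat_lit 203))))))) (XT.nd (nat_lit 1092) (nat_lit 2052) (nat_lit 0) (XT.nd (nat_lit 546) (nat_lit 1064) (nat_lit 0) (XT.nd (nat_lit 234) (nat_lit 608) (nat_lit 0) (XT.nd (nat_lit 78) (nat_lit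 380) (nat_lit 0) (XT.lf (nat_lit 0) (nat_lit 13077629907) (nat_lit 304) (nat_lit 18717303040) (nat_lit 380) (nat_lit 2924924615) (nat_lit 131) (nat_lit 5) (nat_lit 135) (nat_lit 5) (nat_lit 136) (nat_lit 5) (nat_lit 435) (nat_lit 383) (nat_lit 202)) (XT.nd (nat_lit 78) (nat_lit 304) (nat_lit 0) (XT.lf (nat_lit 0) (nat_lit 4005820267) (nat_lit 380) (nat_lit 1997440230) (nat_lit 76) (nat_lit 29366376319) (nat_lit 130) (nat_lit 5) (nat_lit 135) (nat_lit 5) (nat_lit 131) (nat_lit 5) (nat_lit 436) (nat_lit 383) (nat_lit 201)) (XT.lf (nat_lit 0) (nat_lit 11330731517) (nat_lit 380) (nat_lit 17538361960) (nat_lit 76) (nat_lit 7161596925) (nat_lit 126) (nat_lit 5) (nat_lit 131) (nat_lit 5) (nat_lit 127) (nat_lit 5) (nat_lit 437) (nat_lit 383) (nat_lit 200)))) (XT.nd (nat_lit 156) (nat_lit 304) (nat_lit 0) (XT.nd (nat_lit 78) (nat_lit 0) (nat_lit 0) (XT.lf (nat_lit 0) (nat_lit 2918694665) (nat_lit 304) (nat_lit 16060963967)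 (nat_lit 380) (nat_lit 17728789592) (nat_lit 122) (nat_lit 5) (nat_lit 126) (nat_lit 5) (nat_lit 127) (nat_lit 5) (nat_lit 438) (nat_lit 383) (nat_lit 199)) (XT.lf (nat_lit 0) (nat_lit 24343648123) (nat_lit 304) (nat_lit 2687966059) (nat_lit 380) (nat_lit 10369718447) (nat_lit 122) (nat_lit 5) (nat_lit 126) (nat_lit 5) (nat_lit 127) (nat_lit 5) (nat_lit 439) (nat_lit 383) (nat_lit 198))) (XT.nd (nat_lit 78) (nat_lit 76) (nat_lit 0) (XT.lf (nat_lit 0) (nat_lit 8347401099) (nat_lit 228) (nat_lit 27161079182) (nat_lit 304) (nat_lit 2601023376) (nat_lit 119) (nat_lit 5) (nat_lit 122) (nat_lit 5) (nat_lit 123) (nat_lit 5) (nat_lit 440) (nat_lit 383) (nat_lit 197)) (XT.lf (nat_lit 0) (nat_lit 5451681068) (nat_lit 304) (nat_lit 8257772562) (nat_lit 76) (nat_lit 25123219251) (nat_lit 118) (nat_lit 5) (nat_lit 122) (nat_lit 5) (nat_lit 119) (nat_lit 5) (nat_lit 441) (nat_lit 383) (nat_lit 196))))) (XT.nd (nat_lit 234) (nat_lit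 532) (nat_lit 0) (XT.nd (nat_lit 78) (nat_lit 228) (nat_lit 0) (XT.lf (nat_lit 0) (nat_lit 13829223280) (nat_lit 380) (nat_lit 25439110217) (nat_lit 76) (nat_lit 304365657) (nat_lit 114) (nat_lit 5) (nat_lit 119) (nat_lit 5) (nat_lit 115) (nat_lit 5) (nat_lit 442) (nat_lit 383) (nat_lit 195)) (XT.nd (nat_lit 78) (nat_lit 228) (nat_lit 0) (XT.lf (nat_lit 0) (nat_lit 22674733514) (nat_lit 380) (nat_lit 3108181082) (nat_lit 76) (nat_lit 14545512942) (nat_lit 114) (nat_lit 5) (nat_lit 119) (nat_lit 5) (nat_lit 115) (nat_lit 5) (nat_lit 443) (nat_lit 383) (nat_lit 194)) (XT.lf (nat_lit 0) (nat_lit 20283468554) (nat_lit 228) (nat_lit 11693905630) (nat_lit 304) (nat_lit 9123701192) (nat_lit 111) (nat_lit 5) (nat_lit 114) (nat_lit 5) (nat_lit 115) (nat_lit 5) (nat_lit 444) (nat_lit 383) (nat_lit 193)))) (XT.nd (nat_lit 156) (nat_lit 228) (nat_lit 0) (XT.nd (nat_lit 78) (nat_lit 76) (nat_lit 0) (XT.lf (nat_lit 0) (nat_lit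 2562181724) (nat_lit 228) (nat_lit 39077141684) (nat_lit 304) (nat_lit 255172904) (nat_lit 108) (nat_lit 5) (nat_lit 111) (nat_lit 5) (nat_lit 112) (nat_lit 5) (nat_lit 445) (nat_lit 383) (nat_lit 192)) (XT.lf (nat_lit 0) (nat_lit 9031051322) (nat_lit 304) (nat_lit 15843580070) (nat_lit 76) (nat_lit 17824781081) (nat_lit 107) (nat_lit 5) (nat_lit 111) (nat_lit 5) (nat_lit 108) (nat_lit 5) (nat_lit 446) (nat_lit 383) (nat_lit 191))) (XT.nd (nat_lit 78) (nat_lit 0) (nat_lit 0) (XT.lf (nat_lit 0) (nat_lit 8508412777) (nat_lit 228) (nat_lit 10161030955) (nat_lit 304) (nat_lit 24856595785) (nat_lit 104) (nat_lit 5) (nat_lit 107) (nat_lit 5) (nat_lit 108) (nat_lit 5) (nat_lit 447) (nat_lit 383) (nat_lit 190)) (XT.lf (nat_lit 0) (nat_lit 28803513743) (nat_lit 304) (nat_lit 10511444556) (nat_lit 76) (nat_lit 5056311778) (nat_lit 104) (nat_lit 5) (nat_lit 108) (nat_lit 5) (nat_lit 105) (nat_lit 5) (nat_lit 448) (nat_lit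 383) (nat_lit 189)))))) (XT.nd (nat_lit 546) (nat_lit 1064) (nat_lit 0) (XT.nd (nat_lit 234) (nat_lit 456) (nat_lit 0) (XT.nd (nat_lit 78) (nat_lit 304) (nat_lit 0) (XT.lf (nat_lit 0) (nat_lit 14915586409) (nat_lit 228) (nat_lit 24567037879) (nat_lit 304) (nat_lit 5752003181) (nat_lit 101) (nat_lit 5) (nat_lit 104) (nat_lit 5) (nat_lit 105) (nat_lit 5) (nat_lit 449) (nat_lit 383) (nat_lit 188)) (XT.nd (nat_lit 78) (nat_lit 228) (nat_lit 0) (XT.lf (nat_lit 0) (nat_lit 4377421640) (nat_lit 304) (nat_lit 4847544937) (nat_lit 76) (nat_lit 36894535317) (nat_lit 100) (nat_lit 5) (nat_lit 104) (nat_lit 5) (nat_lit 101) (nat_lit 5) (nat_lit 450) (nat_lit 383) (nat_lit 187)) (XT.lf (nat_lit 0) (nat_lit 14967178987) (nat_lit 304) (nat_lit 25337947606) (nat_lit 76) (nat_lit 6715926091) (nat_lit 97) (nat_lit 5) (nat_lit 101) (nat_lit 5) (nat_lit 98) (nat_lit 5) (nat_lit 451) (nat_lit 383) (nat_lit 186)))) (XT.nd (nat_lit 156)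 (nat_lit 228) (nat_lit 0) (XT.nd (nat_lit 78) (nat_lit 0) (nat_lit 0) (XT.lf (nat_lit 0) (nat_lit 1085540931) (nat_lit 228) (nat_lit 24937450346) (nat_lit 304) (nat_lit 21922208268) (nat_lit 94) (nat_lit 5) (nat_lit 97) (nat_lit 5) (nat_lit 98) (nat_lit 5) (nat_lit 452) (nat_lit 383) (nat_lit 185)) (XT.lf (nat_lit 0) (nat_lit 28816499174) (nat_lit 228) (nat_lit 8847036289) (nat_lit 304) (nat_lit 11225944027) (nat_lit 94) (nat_lit 5) (nat_lit 97) (nat_lit 5) (nat_lit 98) (nat_lit 5) (nat_lit 453) (nat_lit 383) (nat_lit 184))) (XT.nd (nat_lit 78) (nat_lit 76) (nat_lit 0) (XT.lf (nat_lit 0) (nat_lit 7586502442) (nat_lit 152) (nat_lit 42211246112) (nat_lit 228) (nat_lit 60006092) (nat_lit 92) (nat_lit 5) (nat_lit 94) (nat_lit 5) (nat_lit 95) (nat_lit 5) (nat_lit 454) (nat_lit 383) (nat_lit 183)) (XT.lf (nat_lit 0) (nat_lit 11507223471) (nat_lit 228) (nat_lit 14565907310) (nat_lit 76) (nat_lit 24769961329) (nat_lit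 91) (nat_lit 5) (nat_lit 94) (nat_lit 5) (nat_lit 92) (nat_lit 5) (nat_lit 455) (nat_lit 383) (nat_lit 182))))) (XT.nd (nat_lit 312) (nat_lit 608) (nat_lit 0) (XT.nd (nat_lit 156) (nat_lit 228) (nat_lit 0) (XT.nd (nat_lit 78) (nat_lit 0) (nat_lit 0) (XT.lf (nat_lit 0) (nat_lit 14243501229) (nat_lit 228) (nat_lit 9311027239) (nat_lit 304) (nat_lit 28299415825) (nat_lit 88) (nat_lit 5) (nat_lit 91) (nat_lit 5) (nat_lit 92) (nat_lit 5) (nat_lit 456) (nat_lit 383) (nat_lit 181)) (XT.lf (nat_lit 0) (nat_lit 36185619336) (nat_lit 304) (nat_lit 8757307780) (nat_lit 76) (nat_lit 7945524273) (nat_lit 88) (nat_lit 5) (nat_lit 92) (nat_lit 5) (nat_lit 89) (nat_lit 5) (nat_lit 457) (nat_lit 383) (nat_lit 180))) (XT.nd (nat_lit 78) (nat_lit 76) (nat_lit 0) (XT.lf (nat_lit 0) (nat_lit 21280152832) (nat_lit 152) (nat_lit 28209678250) (nat_lit 228) (nat_lit 4455337307) (nat_lit 86) (nat_lit 5) (nat_lit 88) (nat_lit 5) (nat_lit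 89) (nat_lit 5) (nat_lit 458) (nat_lit 383) (nat_lit 179)) (XT.lf (nat_lit 0) (nat_lit 8087116506) (nat_lit 228) (nat_lit 2716332286) (nat_lit 76) (nat_lit 44225182667) (nat_lit 85) (nat_lit 5) (nat_lit 88) (nat_lit 5) (nat_lit 86) (nat_lit 5) (nat_lit 459) (nat_lit 383) (nat_lit 178)))) (XT.nd (nat_lit 156) (nat_lit 228) (nat_lit 0) (XT.nd (nat_lit 78) (nat_lit 152) (nat_lit 0) (XT.lf (nat_lit 0) (nat_lit 21260774190) (nat_lit 304) (nat_lit 27565344779) (nat_lit 76) (nat_lit 7306822050) (nat_lit 82) (nat_lit 5) (nat_lit 86) (nat_lit 5) (nat_lit 83) (nat_lit 5) (nat_lit 460) (nat_lit 383) (nat_lit 177)) (XT.lf (nat_lit 0) (nat_lit 3533655131) (nat_lit 152) (nat_lit 31462159686) (nat_lit 228) (nat_lit 22269580151) (nat_lit 80) (nat_lit 5) (nat_lit 82) (nat_lit 5) (nat_lit 83) (nat_lit 5) (nat_lit 461) (nat_lit 383) (nat_lit 176))) (XT.nd (nat_lit 78) (nat_lit 228) (nat_lit 0) (XT.lf (nat_lit 0) (nat_lit 36126498476)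 (nat_lit 152) (nat_lit 13292335024) (nat_lit 228) (nat_lit 9004711522) (nat_lit 80) (nat_lit 5) (nat_lit 82) (nat_lit 5) (nat_lit 83) (nat_lit 5) (nat_lit 462) (nat_lit 383) (nat_lit 175)) (XT.lf (nat_lit 0) (nat_lit 4716701410) (nat_lit 228) (nat_lit 49434294487) (nat_lit 76) (nat_lit 5459615820) (nat_lit 77) (nat_lit 5) (nat_lit 80) (nat_lit 5) (nat_lit 78) (nat_lit 5) (nat_lit 463) (nat_lit 383) (nat_lit 174))))))))
noncomputable def xc196 : XT := (XT.nd (nat_lit 47502) (nat_lit 0) (nat_lit 9272) (XT.nd (nat_lit 1092) (nat_lit 456) (nat_lit 0) (XT.nd (nat_lit 546) (nat_lit 760) (nat_lit 0) (XT.nd (nat_lit 234) (nat_lit 380) (nat_lit 0) (XT.nd (nat_lit 78) (nat_lit 152) (nat_lit 0) (XT.lf (nat_lit 0) (nat_lit 19025395626) (nat_lit 228) (nat_lit 16972707006) (nat_lit 76) (nat_lit 24821814642) (nat_lit 77) (nat_lit 5) (nat_lit 80) (nat_lit 5) (nat_lit 78) (nat_lit 5) (nat_lit 464) (nat_lit 383) (nat_lit 173)) (XT.nd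 (nat_lit 78) (nat_lit 0) (nat_lit 0) (XT.lf (nat_lit 0) (nat_lit 16786280453) (nat_lit 152) (nat_lit 17136130871) (nat_lit 228) (nat_lit 28138319111) (nat_lit 75) (nat_lit 5) (nat_lit 77) (nat_lit 5) (nat_lit 78) (nat_lit 5) (nat_lit 465) (nat_lit 383) (nat_lit 172)) (XT.lf (nat_lit 0) (nat_lit 49459167868) (nat_lit 228) (nat_lit 11455412213) (nat_lit 76) (nat_lit 2418403249) (nat_lit 75) (nat_lit 5) (nat_lit 78) (nat_lit 5) (nat_lit 76) (nat_lit 5) (nat_lit 466) (nat_lit 383) (nat_lit 171)))) (XT.nd (nat_lit 156) (nat_lit 152) (nat_lit 0) (XT.nd (nat_lit 78) (nat_lit 0) (nat_lit 0) (XT.lf (nat_lit 0) (nat_lit 1201499841) (nat_lit 228) (nat_lit 40976889681) (nat_lit 76) (nat_lit 22452812929) (nat_lit 72) (nat_lit 5) (nat_lit 75) (nat_lit 5) (nat_lit 73) (nat_lit 5) (nat_lit 467) (nat_lit 383) (nat_lit 170)) (XT.lf (nat_lit 0) (nat_lit 16564832493) (nat_lit 228) (nat_lit 6055163523) (nat_lit 76) (nat_lit 43340813188)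 (nat_lit 72) (nat_lit 5) (nat_lit 75) (nat_lit 5) (nat_lit 73) (nat_lit 5) (nat_lit 468) (nat_lit 383) (nat_lit 169))) (XT.nd (nat_lit 78) (nat_lit 0) (nat_lit 0) (XT.lf (nat_lit 0) (nat_lit 30505694185) (nat_lit 152) (nat_lit 2174460160) (nat_lit 228) (nat_lit 34641417363) (nat_lit 70) (nat_lit 5) (nat_lit 72) (nat_lit 5) (nat_lit 73) (nat_lit 5) (nat_lit 469) (nat_lit 383) (nat_lit 168)) (XT.lf (nat_lit 0) (nat_lit 49520075937) (nat_lit 228) (nat_lit 619761585) (nat_lit 76) (nat_lit 18576085578) (nat_lit 70) (nat_lit 5) (nat_lit 73) (nat_lit 5) (nat_lit 71) (nat_lit 5) (nat_lit 470) (nat_lit 383) (nat_lit 167))))) (XT.nd (nat_lit 234) (nat_lit 380) (nat_lit 0) (XT.nd (nat_lit 78) (nat_lit 228) (nat_lit 0) (XT.lf (nat_lit 0) (nat_lit 37366160599) (nat_lit 152) (nat_lit 29877673193) (nat_lit 228) (nat_lit 2896912294) (nat_lit 68) (nat_lit 5) (nat_lit 70) (nat_lit 5) (nat_lit 71) (nat_lit 5) (nat_lit 471) (nat_lit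 383) (nat_lit 166)) (XT.nd (nat_lit 78) (nat_lit 0) (nat_lit 0) (XT.lf (nat_lit 0) (nat_lit 4853659145) (nat_lit 152) (nat_lit 8817172609) (nat_lit 228) (nat_lit 57931949212) (nat_lit 65) (nat_lit 5) (nat_lit 67) (nat_lit 5) (nat_lit 68) (nat_lit 5) (nat_lit 472) (nat_lit 383) (nat_lit 165)) (XT.lf (nat_lit 0) (nat_lit 31133319963) (nat_lit 228) (nat_lit 28975584279) (nat_lit 76) (nat_lit 12985234267) (nat_lit 65) (nat_lit 5) (nat_lit 68) (nat_lit 5) (nat_lit 66) (nat_lit 5) (nat_lit 473) (nat_lit 383) (nat_lit 164)))) (XT.nd (nat_lit 156) (nat_lit 228) (nat_lit 0) (XT.nd (nat_lit 78) (nat_lit 0) (nat_lit 0) (XT.lf (nat_lit 0) (nat_lit 10036097894) (nat_lit 152) (nat_lit 39265354138) (nat_lit 228) (nat_lit 25323331856) (nat_lit 63) (nat_lit 5) (nat_lit 65) (nat_lit 5) (nat_lit 66) (nat_lit 5) (nat_lit 474) (nat_lit 383) (nat_lit 163)) (XT.lf (nat_lit 0) (nat_lit 50808533753) (nat_lit 152) (nat_lit 17496712294)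 (nat_lit 228) (nat_lit 7887384225) (nat_lit 63) (nat_lit 5) (nat_lit 65) (nat_lit 5) (nat_lit 66) (nat_lit 5) (nat_lit 475) (nat_lit 383) (nat_lit 162))) (XT.nd (nat_lit 78) (nat_lit 0) (nat_lit 0) (XT.lf (nat_lit 0) (nat_lit 10068941455) (nat_lit 228) (nat_lit 62657237240) (nat_lit 76) (nat_lit 5072614070) (nat_lit 60) (nat_lit 5) (nat_lit 63) (nat_lit 5) (nat_lit 61) (nat_lit 5) (nat_lit 476) (nat_lit 383) (nat_lit 161)) (XT.lf (nat_lit 0) (nat_lit 28835598677) (nat_lit 228) (nat_lit 22299500765) (nat_lit 76) (nat_lit 28302792958) (nat_lit 60) (nat_lit 5) (nat_lit 63) (nat_lit 5) (nat_lit 61) (nat_lit 5) (nat_lit 477) (nat_lit 383) (nat_lit 160)))))) (XT.nd (nat_lit 45864) (nat_lit 0) (nat_lit 15580) (XT.nd (nat_lit 234) (nat_lit 152) (nat_lit 0) (XT.nd (nat_lit 78) (nat_lit 152) (nat_lit 0) (XT.lf (nat_lit 0) (nat_lit 19648981328) (nat_lit 152) (nat_lit 28703276675) (nat_lit 228) (nat_lit 32768297110) (nat_lit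 58) (nat_lit 5) (nat_lit 60) (nat_lit 5) (nat_lit 61) (nat_lit 5) (nat_lit 478) (nat_lit 383) (nat_lit 159)) (XT.nd (nat_lit 78) (nat_lit 152) (nat_lit 0) (XT.lf (nat_lit 0) (nat_lit 63309660337) (nat_lit 152) (nat_lit 5368084549) (nat_lit 228) (nat_lit 14169253146) (nat_lit 58) (nat_lit 5) (nat_lit 60) (nat_lit 5) (nat_lit 61) (nat_lit 5) (nat_lit 479) (nat_lit 383) (nat_lit 158)) (XT.lf (nat_lit 0) (nat_lit 5302215683) (nat_lit 152) (nat_lit 60725674139) (nat_lit 76) (nat_lit 18583552718) (nat_lit 56) (nat_lit 5) (nat_lit 58) (nat_lit 5) (nat_lit 57) (nat_lit 5) (nat_lit 480) (nat_lit 383) (nat_lit 157)))) (XT.nd (nat_lit 156) (nat_lit 0) (nat_lit 0) (XT.nd (nat_lit 78) (nat_lit 152) (nat_lit 0) (XT.lf (nat_lit 0) (nat_lit 25323621811) (nat_lit 152) (nat_lit 17609550832) (nat_lit 76) (nat_lit 43483921760) (nat_lit 56) (nat_lit 5) (nat_lit 58) (nat_lit 5) (nat_lit 57) (nat_lit 5) (nat_lit 481) (nat_lit 383) (nat_lit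 156)) (XT.lf (nat_lit 0) (nat_lit 27330141675) (nat_lit 152) (nat_lit 18876484899) (nat_lit 228) (nat_lit 42062460691) (nat_lit 54) (nat_lit 5) (nat_lit 56) (nat_lit 5) (nat_lit 57) (nat_lit 5) (nat_lit 482) (nat_lit 383) (nat_lit 155))) (XT.nd (nat_lit 45396) (nat_lit 0) (nat_lit 16720) (XT.lf (nat_lit 0) (nat_lit 67950685663) (nat_lit 228) (nat_lit 16254025744) (nat_lit 76) (nat_lit 5964891717) (nat_lit 54) (nat_lit 5) (nat_lit 57) (nat_lit 5) (nat_lit 55) (nat_lit 4) (nat_lit 483) (nat_lit 383) (nat_lit 154)) (XT.lf (nat_lit 0) (nat_lit 3317817581) (nat_lit 0) (nat_lit 3317817581) (nat_lit 1140) (nat_lit 930430079) (nat_lit 274) (nat_lit 5) (nat_lit 274) (nat_lit 3) (nat_lit 289) (nat_lit 3) (nat_lit 384) (nat_lit 384) (nat_lit 252))))) (XT.nd (nat_lit 234) (nat_lit 1140) (nat_lit 0) (XT.nd (nat_lit 78) (nat_lit 0) (nat_lit 0) (XT.lf (nat_lit 0) (nat_lit 13761507747) (nat_lit 1140) (nat_lit 1142746541) (nat_lit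 1216) (nat_lit 446025503) (nat_lit 274) (nat_lit 5) (nat_lit 289) (nat_lit 3) (nat_lit 290) (nat_lit 5) (nat_lit 385) (nat_lit 384) (nat_lit 251)) (XT.nd (nat_lit 78) (nat_lit 0) (nat_lit 0) (XT.lf (nat_lit 76) (nat_lit 6486500527) (nat_lit 0) (nat_lit 7896864298) (nat_lit 1216) (nat_lit 1188105184) (nat_lit 275) (nat_lit 5) (nat_lit 274) (nat_lit 5) (nat_lit 290) (nat_lit 5) (nat_lit 386) (nat_lit 384) (nat_lit 250)) (XT.lf (nat_lit 76) (nat_lit 14362119112) (nat_lit 0) (nat_lit 662426396) (nat_lit 1216) (nat_lit 774734088) (nat_lit 275) (nat_lit 5) (nat_lit 274) (nat_lit 5) (nat_lit 290) (nat_lit 5) (nat_lit 387) (nat_lit 384) (nat_lit 249)))) (XT.nd (nat_lit 156) (nat_lit 0) (nat_lit 76) (XT.nd (nat_lit 78) (nat_lit 1216) (nat_lit 0) (XT.lf (nat_lit 76) (nat_lit 6495447225) (nat_lit 0) (nat_lit 9306704198) (nat_lit 1216) (nat_lit 228259944) (nat_lit 276) (nat_lit 5) (nat_lit 275) (nat_lit 5) (nat_lit 291) (nat_lit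 5) (nat_lit 388) (nat_lit 384) (nat_lit 248)) (XT.lf (nat_lit 0) (nat_lit 338927799) (nat_lit 1216) (nat_lit 1588741316) (nat_lit 1292) (nat_lit 14340389401) (nat_lit 259) (nat_lit 5) (nat_lit 275) (nat_lit 5) (nat_lit 276) (nat_lit 5) (nat_lit 389) (nat_lit 384) (nat_lit 247))) (XT.nd (nat_lit 78) (nat_lit 0) (nat_lit 0) (XT.lf (nat_lit 0) (nat_lit 1028292542) (nat_lit 1216) (nat_lit 9847743692) (nat_lit 1292) (nat_lit 5633441858) (nat_lit 260) (nat_lit 5) (nat_lit 276) (nat_lit 5) (nat_lit 277) (nat_lit 5) (nat_lit 390) (nat_lit 384) (nat_lit 246)) (XT.lf (nat_lit 0) (nat_lit 1763833571) (nat_lit 1216) (nat_lit 1590978022) (nat_lit 1292) (nat_lit 13402566992) (nat_lit 260) (nat_lit 5) (nat_lit 276) (nat_lit 5) (nat_lit 277) (nat_lit 5) (nat_lit 391) (nat_lit 384) (nat_lit 245))))))) (XT.nd (nat_lit 1092) (nat_lit 4180) (nat_lit 0) (XT.nd (nat_lit 546) (nat_lit 2280) (nat_lit 0) (XT.nd (nat_lit 234) (nat_lit 0)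 (nat_lit 76) (XT.nd (nat_lit 78) (nat_lit 0) (nat_lit 0) (XT.lf (nat_lit 0) (nat_lit 2622573794) (nat_lit 1216) (nat_lit 10009115733) (nat_lit 1292) (nat_lit 4377995672) (nat_lit 261) (nat_lit 5) (nat_lit 277) (nat_lit 5) (nat_lit 278) (nat_lit 5) (nat_lit 392) (nat_lit 384) (nat_lit 244)) (XT.nd (nat_lit 78) (nat_lit 0) (nat_lit 76) (XT.lf (nat_lit 0) (nat_lit 3547258259) (nat_lit 1216) (nat_lit 1426409725) (nat_lit 1292) (nat_lit 12294690575) (nat_lit 261) (nat_lit 5) (nat_lit 277) (nat_lit 5) (nat_lit 278) (nat_lit 5) (nat_lit 393) (nat_lit 384) (nat_lit 243)) (XT.lf (nat_lit 0) (nat_lit 4592074520) (nat_lit 1216) (nat_lit 10006686790) (nat_lit 1292) (nat_lit 2933261990) (nat_lit 262) (nat_lit 5) (nat_lit 278) (nat_lit 5) (nat_lit 279) (nat_lit 5) (nat_lit 394) (nat_lit 384) (nat_lit 242)))) (XT.nd (nat_lit 156) (nat_lit 0) (nat_lit 76) (XT.nd (nat_lit 78) (nat_lit 0) (nat_lit 76) (XT.lf (nat_lit 0) (nat_lit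 5723264381) (nat_lit 1216) (nat_lit 1084152985) (nat_lit 1292) (nat_lit 10994532580) (nat_lit 262) (nat_lit 5) (nat_lit 278) (nat_lit 5) (nat_lit 279) (nat_lit 5) (nat_lit 395) (nat_lit 384) (nat_lit 241)) (XT.lf (nat_lit 0) (nat_lit 6971805490) (nat_lit 1216) (nat_lit 9829391241) (nat_lit 1292) (nat_lit 1276277945) (nat_lit 263) (nat_lit 5) (nat_lit 279) (nat_lit 5) (nat_lit 280) (nat_lit 5) (nat_lit 396) (nat_lit 384) (nat_lit 240))) (XT.nd (nat_lit 78) (nat_lit 0) (nat_lit 0) (XT.lf (nat_lit 0) (nat_lit 8327960776) (nat_lit 1216) (nat_lit 552431771) (nat_lit 1292) (nat_lit 9478770533) (nat_lit 263) (nat_lit 5) (nat_lit 279) (nat_lit 5) (nat_lit 280) (nat_lit 5) (nat_lit 397) (nat_lit 384) (nat_lit 239)) (XT.lf (nat_lit 76) (nat_lit 9175576766) (nat_lit 0) (nat_lit 629368471) (nat_lit 1292) (nat_lit 8841955158) (nat_lit 264) (nat_lit 5) (nat_lit 263) (nat_lit 5) (nat_lit 280) (nat_lit 5) (nat_lit 398) (nat_lit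 384) (nat_lit 238))))) (XT.nd (nat_lit 234) (nat_lit 1368) (nat_lit 0) (XT.nd (nat_lit 78) (nat_lit 1140) (nat_lit 0) (XT.lf (nat_lit 76) (nat_lit 185058765) (nat_lit 0) (nat_lit 11216370111) (nat_lit 1292) (nat_lit 7539587783) (nat_lit 265) (nat_lit 5) (nat_lit 264) (nat_lit 5) (nat_lit 281) (nat_lit 5) (nat_lit 399) (nat_lit 384) (nat_lit 237)) (XT.nd (nat_lit 78) (nat_lit 1140) (nat_lit 0) (XT.lf (nat_lit 76) (nat_lit 10312492704) (nat_lit 0) (nat_lit 2827427237) (nat_lit 1292) (nat_lit 6101215527) (nat_lit 265) (nat_lit 5) (nat_lit 264) (nat_lit 5) (nat_lit 281) (nat_lit 5) (nat_lit 400) (nat_lit 384) (nat_lit 236)) (XT.lf (nat_lit 0) (nat_lit 1153635227) (nat_lit 1216) (nat_lit 13836436701) (nat_lit 1292) (nat_lit 4558403101) (nat_lit 249) (nat_lit 5) (nat_lit 265) (nat_lit 5) (nat_lit 266) (nat_lit 5) (nat_lit 401) (nat_lit 384) (nat_lit 235)))) (XT.nd (nat_lit 156) (nat_lit 684) (nat_lit 0) (XT.nd (nat_lit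 78) (nat_lit 684) (nat_lit 0) (XT.lf (nat_lit 0) (nat_lit 11686433832) (nat_lit 1216) (nat_lit 5319868780) (nat_lit 1292) (nat_lit 2855417244) (nat_lit 249) (nat_lit 5) (nat_lit 265) (nat_lit 5) (nat_lit 266) (nat_lit 5) (nat_lit 402) (nat_lit 384) (nat_lit 234)) (XT.lf (nat_lit 0) (nat_lit 2357206462) (nat_lit 684) (nat_lit 16774570846) (nat_lit 760) (nat_lit 1051124247) (nat_lit 240) (nat_lit 5) (nat_lit 249) (nat_lit 5) (nat_lit 250) (nat_lit 5) (nat_lit 403) (nat_lit 384) (nat_lit 233))) (XT.nd (nat_lit 78) (nat_lit 608) (nat_lit 0) (XT.lf (nat_lit 0) (nat_lit 920575557) (nat_lit 760) (nat_lit 7205771774) (nat_lit 76) (nat_lit 12383269735) (nat_lit 239) (nat_lit 5) (nat_lit 249) (nat_lit 5) (nat_lit 240) (nat_lit 5) (nat_lit 404) (nat_lit 384) (nat_lit 232)) (XT.lf (nat_lit 0) (nat_lit 2967901673) (nat_lit 684) (nat_lit 17062965006) (nat_lit 76) (nat_lit 813829140) (nat_lit 231) (nat_lit 5) (nat_lit 240) (nat_lit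 5) (nat_lit 232) (nat_lit 5) (nat_lit 405) (nat_lit 384) (nat_lit 231)))))) (XT.nd (nat_lit 546) (nat_lit 2508) (nat_lit 0) (XT.nd (nat_lit 234) (nat_lit 1064) (nat_lit 0) (XT.nd (nat_lit 78) (nat_lit 608) (nat_lit 0) (XT.lf (nat_lit 0) (nat_lit 5223924464) (nat_lit 684) (nat_lit 6028745874) (nat_lit 76) (nat_lit 9932740279) (nat_lit 231) (nat_lit 5) (nat_lit 240) (nat_lit 5) (nat_lit 232) (nat_lit 5) (nat_lit 406) (nat_lit 384) (nat_lit 230)) (XT.nd (nat_lit 78) (nat_lit 0) (nat_lit 0) (XT.lf (nat_lit 0) (nat_lit 5436278014) (nat_lit 608) (nat_lit 2157134331) (nat_lit 684) (nat_lit 13941562911) (nat_lit 223) (nat_lit 5) (nat_lit 231) (nat_lit 5) (nat_lit 232) (nat_lit 5) (nat_lit 407) (nat_lit 384) (nat_lit 229)) (XT.lf (nat_lit 0) (nat_lit 10158442332) (nat_lit 684) (nat_lit 4600720918) (nat_lit 76) (nat_lit 7132131733) (nat_lit 223) (nat_lit 5) (nat_lit 232) (nat_lit 5) (nat_lit 224) (nat_lit 5) (nat_lit 408)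 (nat_lit 384) (nat_lit 228)))) (XT.nd (nat_lit 156) (nat_lit 532) (nat_lit 0) (XT.nd (nat_lit 78) (nat_lit 0) (nat_lit 0) (XT.lf (nat_lit 0) (nat_lit 7358174264) (nat_lit 532) (nat_lit 5528179821) (nat_lit 608) (nat_lit 9369374110) (nat_lit 216) (nat_lit 5) (nat_lit 223) (nat_lit 5) (nat_lit 224) (nat_lit 5) (nat_lit 409) (nat_lit 384) (nat_lit 227)) (XT.lf (nat_lit 0) (nat_lit 15775237375) (nat_lit 608) (nat_lit 2904637095) (nat_lit 76) (nat_lit 3948847674) (nat_lit 216) (nat_lit 5) (nat_lit 224) (nat_lit 5) (nat_lit 217) (nat_lit 5) (nat_lit 410) (nat_lit 384) (nat_lit 226))) (XT.nd (nat_lit 78) (nat_lit 0) (nat_lit 0) (XT.lf (nat_lit 0) (nat_lit 9573973560) (nat_lit 532) (nat_lit 9317715171) (nat_lit 608) (nat_lit 4116991850) (nat_lit 209) (nat_lit 5) (nat_lit 216) (nat_lit 5) (nat_lit 217) (nat_lit 5) (nat_lit 411) (nat_lit 384) (nat_lit 225)) (XT.lf (nat_lit 0) (nat_lit 22128626863) (nat_lit 608) (nat_lit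 922382563) (nat_lit 76) (nat_lit 348220211) (nat_lit 209) (nat_lit 5) (nat_lit 217) (nat_lit 5) (nat_lit 210) (nat_lit 5) (nat_lit 412) (nat_lit 384) (nat_lit 224))))) (XT.nd (nat_lit 312) (nat_lit 988) (nat_lit 0) (XT.nd (nat_lit 156) (nat_lit 456) (nat_lit 0) (XT.nd (nat_lit 78) (nat_lit 532) (nat_lit 0) (XT.lf (nat_lit 0) (nat_lit 1833780304) (nat_lit 532) (nat_lit 11710260912) (nat_lit 76) (nat_lit 10250825935) (nat_lit 202) (nat_lit 5) (nat_lit 209) (nat_lit 5) (nat_lit 203) (nat_lit 5) (nat_lit 413) (nat_lit 384) (nat_lit 223)) (XT.lf (nat_lit 0) (nat_lit 1305255463) (nat_lit 532) (nat_lit 3716915974) (nat_lit 608) (nat_lit 19179334036) (nat_lit 195) (nat_lit 5) (nat_lit 202) (nat_lit 5) (nat_lit 203) (nat_lit 5) (nat_lit 414) (nat_lit 384) (nat_lit 222))) (XT.nd (nat_lit 78) (nat_lit 456) (nat_lit 0) (XT.lf (nat_lit 0) (nat_lit 8481762116) (nat_lit 608) (nat_lit 9734507421) (nat_lit 76) (nat_lit 6398808454)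 (nat_lit 195) (nat_lit 5) (nat_lit 203) (nat_lit 5) (nat_lit 196) (nat_lit 5) (nat_lit 415) (nat_lit 384) (nat_lit 221)) (XT.lf (nat_lit 0) (nat_lit 3854423878) (nat_lit 456) (nat_lit 8259284726) (nat_lit 532) (nat_lit 12925293472) (nat_lit 189) (nat_lit 5) (nat_lit 195) (nat_lit 5) (nat_lit 196) (nat_lit 5) (nat_lit 416) (nat_lit 384) (nat_lit 220)))) (XT.nd (nat_lit 156) (nat_lit 532) (nat_lit 0) (XT.nd (nat_lit 78) (nat_lit 456) (nat_lit 0) (XT.lf (nat_lit 0) (nat_lit 15967880869) (nat_lit 532) (nat_lit 7448453514) (nat_lit 76) (nat_lit 2055912875) (nat_lit 189) (nat_lit 5) (nat_lit 196) (nat_lit 5) (nat_lit 190) (nat_lit 5) (nat_lit 417) (nat_lit 384) (nat_lit 219)) (XT.lf (nat_lit 0) (nat_lit 6743585421) (nat_lit 456) (nat_lit 13335646755) (nat_lit 532) (nat_lit 5835012356) (nat_lit 183) (nat_lit 5) (nat_lit 189) (nat_lit 5) (nat_lit 190) (nat_lit 5) (nat_lit 418) (nat_lit 384) (nat_lit 218))) (XT.nd (nat_lit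 78) (nat_lit 532) (nat_lit 0) (XT.lf (nat_lit 0) (nat_lit 21508144173) (nat_lit 456) (nat_lit 2876039892) (nat_lit 532) (nat_lit 1983211173) (nat_lit 183) (nat_lit 5) (nat_lit 189) (nat_lit 5) (nat_lit 190) (nat_lit 5) (nat_lit 419) (nat_lit 384) (nat_lit 217)) (XT.lf (nat_lit 0) (nat_lit 2114250288) (nat_lit 532) (nat_lit 16855127665) (nat_lit 76) (nat_lit 7859126845) (nat_lit 176) (nat_lit 5) (nat_lit 183) (nat_lit 5) (nat_lit 177) (nat_lit 5) (nat_lit 420) (nat_lit 384) (nat_lit 216))))))))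
noncomputable def xc197 : XT := (XT.nd (nat_lit 2262) (nat_lit 3344) (nat_lit 0) (XT.nd (nat_lit 1092) (nat_lit 2356) (nat_lit 0) (XT.nd (nat_lit 546) (nat_lit 1444) (nat_lit 0) (XT.nd (nat_lit 234) (nat_lit 836) (nat_lit 0) (XT.nd (nat_lit 78) (nat_lit 836) (nat_lit 0) (XT.lf (nat_lit 0) (nat_lit 6368022097) (nat_lit 532) (nat_lit 2005908604) (nat_lit 76) (nat_lit 18926731663) (nat_lit 176) (nat_lit 5) (nat_lit 183) (nat_lit 5) (nat_lit 177) (nat_lit 5) (nat_lit 421) (nat_lit 384) (nat_lit 215)) (XT.nd (nat_lit 78) (nat_lit 380) (nat_lit 0) (XT.lf (nat_lit 0) (nat_lit 10900677603) (nat_lit 532) (nat_lit 14261518883) (nat_lit 76) (nat_lit 2620251220) (nat_lit 170) (nat_lit 5) (nat_lit 177) (nat_lit 5) (nat_lit 171) (nat_lit 5) (nat_lit 422) (nat_lit 384) (nat_lit 214)) (XT.lf (nat_lit 0) (nat_lit 1211310050) (nat_lit 380) (nat_lit 14468438632) (nat_lit 456) (nat_lit 12595625984) (nat_lit 165) (nat_lit 5) (nat_lit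 170) (nat_lit 5) (nat_lit 171) (nat_lit 5) (nat_lit 423) (nat_lit 384) (nat_lit 213)))) (XT.nd (nat_lit 156) (nat_lit 456) (nat_lit 0) (XT.nd (nat_lit 78) (nat_lit 380) (nat_lit 0) (XT.lf (nat_lit 0) (nat_lit 17434900331) (nat_lit 380) (nat_lit 3306808258) (nat_lit 456) (nat_lit 8037196444) (nat_lit 165) (nat_lit 5) (nat_lit 170) (nat_lit 5) (nat_lit 171) (nat_lit 5) (nat_lit 424) (nat_lit 384) (nat_lit 212)) (XT.lf (nat_lit 0) (nat_lit 4858007352) (nat_lit 380) (nat_lit 21218564610) (nat_lit 456) (nat_lit 3217339080) (nat_lit 160) (nat_lit 5) (nat_lit 165) (nat_lit 5) (nat_lit 166) (nat_lit 5) (nat_lit 425) (nat_lit 384) (nat_lit 211))) (XT.nd (nat_lit 78) (nat_lit 380) (nat_lit 0) (XT.lf (nat_lit 0) (nat_lit 1857100373) (nat_lit 456) (nat_lit 8098733291) (nat_lit 76) (nat_lit 19863708378) (nat_lit 159) (nat_lit 5) (nat_lit 165) (nat_lit 5) (nat_lit 160) (nat_lit 5) (nat_lit 426) (nat_lit 384) (nat_lit 210)) (XT.lf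 (nat_lit 0) (nat_lit 7117049622) (nat_lit 456) (nat_lit 21510433340) (nat_lit 76) (nat_lit 1729566084) (nat_lit 154) (nat_lit 5) (nat_lit 160) (nat_lit 5) (nat_lit 155) (nat_lit 5) (nat_lit 427) (nat_lit 384) (nat_lit 209))))) (XT.nd (nat_lit 234) (nat_lit 1064) (nat_lit 0) (XT.nd (nat_lit 78) (nat_lit 380) (nat_lit 0) (XT.lf (nat_lit 0) (nat_lit 12711795960) (nat_lit 456) (nat_lit 4546912937) (nat_lit 76) (nat_lit 13646663355) (nat_lit 154) (nat_lit 5) (nat_lit 160) (nat_lit 5) (nat_lit 155) (nat_lit 5) (nat_lit 428) (nat_lit 384) (nat_lit 208)) (XT.nd (nat_lit 78) (nat_lit 0) (nat_lit 0) (XT.lf (nat_lit 0) (nat_lit 13177167410) (nat_lit 380) (nat_lit 5419840543) (nat_lit 456) (nat_lit 12869459423) (nat_lit 149) (nat_lit 5) (nat_lit 154) (nat_lit 5) (nat_lit 155) (nat_lit 5) (nat_lit 429) (nat_lit 384) (nat_lit 207)) (XT.lf (nat_lit 0) (nat_lit 24766271486) (nat_lit 456) (nat_lit 587945047) (nat_lit 76) (nat_lit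 6686954863) (nat_lit 149) (nat_lit 5) (nat_lit 155) (nat_lit 5) (nat_lit 150) (nat_lit 5) (nat_lit 430) (nat_lit 384) (nat_lit 206)))) (XT.nd (nat_lit 156) (nat_lit 304) (nat_lit 0) (XT.nd (nat_lit 78) (nat_lit 456) (nat_lit 0) (XT.lf (nat_lit 0) (nat_lit 17935401894) (nat_lit 304) (nat_lit 13407403120) (nat_lit 380) (nat_lit 1283646628) (nat_lit 145) (nat_lit 5) (nat_lit 149) (nat_lit 5) (nat_lit 150) (nat_lit 5) (nat_lit 431) (nat_lit 384) (nat_lit 205)) (XT.lf (nat_lit 0) (nat_lit 3819486403) (nat_lit 380) (nat_lit 1011346693) (nat_lit 456) (nat_lit 28395882857) (nat_lit 139) (nat_lit 5) (nat_lit 144) (nat_lit 5) (nat_lit 145) (nat_lit 5) (nat_lit 432) (nat_lit 384) (nat_lit 204))) (XT.nd (nat_lit 78) (nat_lit 304) (nat_lit 0) (XT.lf (nat_lit 0) (nat_lit 11361971710) (nat_lit 456) (nat_lit 10786679353) (nat_lit 76) (nat_lit 11688185909) (nat_lit 139) (nat_lit 5) (nat_lit 145) (nat_lit 5) (nat_lit 140) (nat_lit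 5) (nat_lit 433) (nat_lit 384) (nat_lit 203)) (XT.lf (nat_lit 0) (nat_lit 8543912346) (nat_lit 304) (nat_lit 9633579012) (nat_lit 380) (nat_lit 16285117630) (nat_lit 135) (nat_lit 5) (nat_lit 139) (nat_lit 5) (nat_lit 140) (nat_lit 5) (nat_lit 434) (nat_lit 384) (nat_lit 202)))))) (XT.nd (nat_lit 546) (nat_lit 1140) (nat_lit 0) (XT.nd (nat_lit 234) (nat_lit 836) (nat_lit 0) (XT.nd (nat_lit 78) (nat_lit 380) (nat_lit 0) (XT.lf (nat_lit 0) (nat_lit 25335133370) (nat_lit 380) (nat_lit 6466061443) (nat_lit 76) (nat_lit 3301830397) (nat_lit 135) (nat_lit 5) (nat_lit 140) (nat_lit 5) (nat_lit 136) (nat_lit 5) (nat_lit 435) (nat_lit 384) (nat_lit 201)) (XT.nd (nat_lit 78) (nat_lit 76) (nat_lit 0) (XT.lf (nat_lit 0) (nat_lit 13737670479) (nat_lit 304) (nat_lit 19193723701) (nat_lit 380) (nat_lit 2824543780) (nat_lit 131) (nat_lit 5) (nat_lit 135) (nat_lit 5) (nat_lit 136) (nat_lit 5) (nat_lit 436) (nat_lit 384) (nat_lit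 200)) (XT.lf (nat_lit 0) (nat_lit 4305079835) (nat_lit 380) (nat_lit 1793850236) (nat_lit 76) (nat_lit 30326388490) (nat_lit 130) (nat_lit 5) (nat_lit 135) (nat_lit 5) (nat_lit 131) (nat_lit 5) (nat_lit 437) (nat_lit 384) (nat_lit 199)))) (XT.nd (nat_lit 156) (nat_lit 228) (nat_lit 0) (XT.nd (nat_lit 78) (nat_lit 304) (nat_lit 0) (XT.lf (nat_lit 0) (nat_lit 11847843343) (nat_lit 380) (nat_lit 17799070741) (nat_lit 76) (nat_lit 7459347536) (nat_lit 126) (nat_lit 5) (nat_lit 131) (nat_lit 5) (nat_lit 127) (nat_lit 5) (nat_lit 438) (nat_lit 384) (nat_lit 198)) (XT.lf (nat_lit 0) (nat_lit 3269095209) (nat_lit 304) (nat_lit 16454508768) (nat_lit 380) (nat_lit 18080828213) (nat_lit 122) (nat_lit 5) (nat_lit 126) (nat_lit 5) (nat_lit 127) (nat_lit 5) (nat_lit 439) (nat_lit 384) (nat_lit 197))) (XT.nd (nat_lit 78) (nat_lit 228) (nat_lit 0) (XT.lf (nat_lit 0) (nat_lit 25329141746) (nat_lit 304) (nat_lit 2682892304) (nat_lit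 380) (nat_lit 10506222557) (nat_lit 122) (nat_lit 5) (nat_lit 126) (nat_lit 5) (nat_lit 127) (nat_lit 5) (nat_lit 440) (nat_lit 384) (nat_lit 196)) (XT.lf (nat_lit 0) (nat_lit 8854755504) (nat_lit 228) (nat_lit 27886784283) (nat_lit 304) (nat_lit 2506183897) (nat_lit 119) (nat_lit 5) (nat_lit 122) (nat_lit 5) (nat_lit 123) (nat_lit 5) (nat_lit 441) (nat_lit 384) (nat_lit 195))))) (XT.nd (nat_lit 312) (nat_lit 532) (nat_lit 0) (XT.nd (nat_lit 156) (nat_lit 228) (nat_lit 0) (XT.nd (nat_lit 78) (nat_lit 304) (nat_lit 0) (XT.lf (nat_lit 0) (nat_lit 5779791559) (nat_lit 304) (nat_lit 8252752612) (nat_lit 76) (nat_lit 25960142941) (nat_lit 118) (nat_lit 5) (nat_lit 122) (nat_lit 5) (nat_lit 119) (nat_lit 5) (nat_lit 442) (nat_lit 384) (nat_lit 194)) (XT.lf (nat_lit 0) (nat_lit 14407119717) (nat_lit 380) (nat_lit 25947961772) (nat_lit 76) (nat_lit 399879743) (nat_lit 114) (nat_lit 5) (nat_lit 119) (nat_lit 5) (nat_lit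 115) (nat_lit 5) (nat_lit 443) (nat_lit 384) (nat_lit 193))) (XT.nd (nat_lit 78) (nat_lit 228) (nat_lit 0) (XT.lf (nat_lit 0) (nat_lit 23513247110) (nat_lit 380) (nat_lit 2954512192) (nat_lit 76) (nat_lit 15065745433) (nat_lit 114) (nat_lit 5) (nat_lit 119) (nat_lit 5) (nat_lit 115) (nat_lit 5) (nat_lit 444) (nat_lit 384) (nat_lit 192)) (XT.lf (nat_lit 0) (nat_lit 21136466205) (nat_lit 228) (nat_lit 11956241166) (nat_lit 304) (nat_lit 9236693228) (nat_lit 111) (nat_lit 5) (nat_lit 114) (nat_lit 5) (nat_lit 115) (nat_lit 5) (nat_lit 445) (nat_lit 384) (nat_lit 191)))) (XT.nd (nat_lit 156) (nat_lit 228) (nat_lit 0) (XT.nd (nat_lit 78) (nat_lit 76) (nat_lit 0) (XT.lf (nat_lit 0) (nat_lit 2884962465) (nat_lit 228) (nat_lit 40158198224) (nat_lit 304) (nat_lit 103504882) (nat_lit 108) (nat_lit 5) (nat_lit 111) (nat_lit 5) (nat_lit 112) (nat_lit 5) (nat_lit 446) (nat_lit 384) (nat_lit 190)) (XT.lf (nat_lit 0) (nat_lit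 9453647171) (nat_lit 304) (nat_lit 16077091931) (nat_lit 76) (nat_lit 18445081399) (nat_lit 107) (nat_lit 5) (nat_lit 111) (nat_lit 5) (nat_lit 108) (nat_lit 5) (nat_lit 447) (nat_lit 384) (nat_lit 189))) (XT.nd (nat_lit 78) (nat_lit 0) (nat_lit 0) (XT.lf (nat_lit 0) (nat_lit 9003090156) (nat_lit 228) (nat_lit 10375985290) (nat_lit 304) (nat_lit 25448235099) (nat_lit 104) (nat_lit 5) (nat_lit 107) (nat_lit 5) (nat_lit 108) (nat_lit 5) (nat_lit 448) (nat_lit 384) (nat_lit 188)) (XT.lf (nat_lit 0) (nat_lit 29813650564) (nat_lit 304) (nat_lit 10590796432) (nat_lit 76) (nat_lit 5293557227) (nat_lit 104) (nat_lit 5) (nat_lit 108) (nat_lit 5) (nat_lit 105) (nat_lit 5) (nat_lit 449) (nat_lit 384) (nat_lit 187))))))) (XT.nd (nat_lit 1092) (nat_lit 1520) (nat_lit 0) (XT.nd (nat_lit 546) (nat_lit 836) (nat_lit 0) (XT.nd (nat_lit 234) (nat_lit 456) (nat_lit 0) (XT.nd (nat_lit 78) (nat_lit 304) (nat_lit 0) (XT.lf (nat_lit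 0) (nat_lit 15596731820) (nat_lit 228) (nat_lit 25214395517) (nat_lit 304) (nat_lit 5776195882) (nat_lit 101) (nat_lit 5) (nat_lit 104) (nat_lit 5) (nat_lit 105) (nat_lit 5) (nat_lit 450) (nat_lit 384) (nat_lit 186)) (XT.nd (nat_lit 78) (nat_lit 228) (nat_lit 0) (XT.lf (nat_lit 0) (nat_lit 4649979446) (nat_lit 304) (nat_lit 4763267698) (nat_lit 76) (nat_lit 38085581690) (nat_lit 100) (nat_lit 5) (nat_lit 104) (nat_lit 5) (nat_lit 101) (nat_lit 5) (nat_lit 451) (nat_lit 384) (nat_lit 185)) (XT.lf (nat_lit 0) (nat_lit 15556349563) (nat_lit 304) (nat_lit 25867282048) (nat_lit 76) (nat_lit 7003827549) (nat_lit 97) (nat_lit 5) (nat_lit 101) (nat_lit 5) (nat_lit 98) (nat_lit 5) (nat_lit 452) (nat_lit 384) (nat_lit 184)))) (XT.nd (nat_lit 156) (nat_lit 228) (nat_lit 0) (XT.nd (nat_lit 78) (nat_lit 0) (nat_lit 0) (XT.lf (nat_lit 0) (nat_lit 1346648361) (nat_lit 228) (nat_lit 25595302549) (nat_lit 304) (nat_lit 22437436673)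 (nat_lit 94) (nat_lit 5) (nat_lit 97) (nat_lit 5) (nat_lit 98) (nat_lit 5) (nat_lit 453) (nat_lit 384) (nat_lit 183)) (XT.lf (nat_lit 0) (nat_lit 29902878811) (nat_lit 228) (nat_lit 9024805332) (nat_lit 304) (nat_lit 11424433179) (nat_lit 94) (nat_lit 5) (nat_lit 97) (nat_lit 5) (nat_lit 98) (nat_lit 5) (nat_lit 454) (nat_lit 384) (nat_lit 182))) (XT.nd (nat_lit 78) (nat_lit 0) (nat_lit 0) (XT.lf (nat_lit 0) (nat_lit 74030914) (nat_lit 228) (nat_lit 43313216067) (nat_lit 76) (nat_lit 7962201027) (nat_lit 91) (nat_lit 5) (nat_lit 94) (nat_lit 5) (nat_lit 92) (nat_lit 5) (nat_lit 455) (nat_lit 384) (nat_lit 181)) (XT.lf (nat_lit 0) (nat_lit 11983150007) (nat_lit 228) (nat_lit 14783875223) (nat_lit 76) (nat_lit 25597420709) (nat_lit 91) (nat_lit 5) (nat_lit 94) (nat_lit 5) (nat_lit 92) (nat_lit 5) (nat_lit 456) (nat_lit 384) (nat_lit 180))))) (XT.nd (nat_lit 234) (nat_lit 456) (nat_lit 0) (XT.nd (nat_lit 78) (nat_lit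 152) (nat_lit 0) (XT.lf (nat_lit 0) (nat_lit 14887668422) (nat_lit 228) (nat_lit 9502483262) (nat_lit 304) (nat_lit 29015524193) (nat_lit 88) (nat_lit 5) (nat_lit 91) (nat_lit 5) (nat_lit 92) (nat_lit 5) (nat_lit 457) (nat_lit 384) (nat_lit 179)) (XT.nd (nat_lit 78) (nat_lit 152) (nat_lit 0) (XT.lf (nat_lit 0) (nat_lit 37397238466) (nat_lit 304) (nat_lit 8806527794) (nat_lit 76) (nat_lit 8267540526) (nat_lit 88) (nat_lit 5) (nat_lit 92) (nat_lit 5) (nat_lit 89) (nat_lit 5) (nat_lit 458) (nat_lit 384) (nat_lit 178)) (XT.lf (nat_lit 0) (nat_lit 22129963506) (nat_lit 152) (nat_lit 28968973849) (nat_lit 228) (nat_lit 4460837603) (nat_lit 86) (nat_lit 5) (nat_lit 88) (nat_lit 5) (nat_lit 89) (nat_lit 5) (nat_lit 459) (nat_lit 384) (nat_lit 177)))) (XT.nd (nat_lit 156) (nat_lit 152) (nat_lit 0) (XT.nd (nat_lit 78) (nat_lit 228) (nat_lit 0) (XT.lf (nat_lit 0) (nat_lit 8451728994) (nat_lit 228) (nat_lit 2590130390) (nat_lit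 76) (nat_lit 45633955833) (nat_lit 85) (nat_lit 5) (nat_lit 88) (nat_lit 5) (nat_lit 86) (nat_lit 5) (nat_lit 460) (nat_lit 384) (nat_lit 176)) (XT.lf (nat_lit 0) (nat_lit 22019839241) (nat_lit 304) (nat_lit 28183841318) (nat_lit 76) (nat_lit 7609596663) (nat_lit 82) (nat_lit 5) (nat_lit 86) (nat_lit 5) (nat_lit 83) (nat_lit 5) (nat_lit 461) (nat_lit 384) (nat_lit 175))) (XT.nd (nat_lit 78) (nat_lit 0) (nat_lit 0) (XT.lf (nat_lit 0) (nat_lit 3846084827) (nat_lit 152) (nat_lit 32319299181) (nat_lit 228) (nat_lit 22814367625) (nat_lit 80) (nat_lit 5) (nat_lit 82) (nat_lit 5) (nat_lit 83) (nat_lit 5) (nat_lit 462) (nat_lit 384) (nat_lit 174)) (XT.lf (nat_lit 0) (nat_lit 37410701238) (nat_lit 152) (nat_lit 13606905759) (nat_lit 228) (nat_lit 9155144198) (nat_lit 80) (nat_lit 5) (nat_lit 82) (nat_lit 5) (nat_lit 83) (nat_lit 5) (nat_lit 463) (nat_lit 384) (nat_lit 173)))))) (XT.nd (nat_lit 546) (nat_lit 760) (nat_lit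 0) (XT.nd (nat_lit 234) (nat_lit 380) (nat_lit 0) (XT.nd (nat_lit 78) (nat_lit 152) (nat_lit 0) (XT.lf (nat_lit 0) (nat_lit 4974902442) (nat_lit 228) (nat_lit 50713880190) (nat_lit 76) (nat_lit 5706633312) (nat_lit 77) (nat_lit 5) (nat_lit 80) (nat_lit 5) (nat_lit 78) (nat_lit 5) (nat_lit 464) (nat_lit 384) (nat_lit 172)) (XT.nd (nat_lit 78) (nat_lit 152) (nat_lit 0) (XT.lf (nat_lit 0) (nat_lit 19709458455) (nat_lit 228) (nat_lit 17284370612) (nat_lit 76) (nat_lit 25647273953) (nat_lit 77) (nat_lit 5) (nat_lit 80) (nat_lit 5) (nat_lit 78) (nat_lit 5) (nat_lit 465) (nat_lit 384) (nat_lit 171)) (XT.lf (nat_lit 0) (nat_lit 17485450023) (nat_lit 152) (nat_lit 17566514619) (nat_lit 228) (nat_lit 28867218905) (nat_lit 75) (nat_lit 5) (nat_lit 77) (nat_lit 5) (nat_lit 78) (nat_lit 5) (nat_lit 466) (nat_lit 384) (nat_lit 170)))) (XT.nd (nat_lit 156) (nat_lit 152) (nat_lit 0) (XT.nd (nat_lit 78) (nat_lit 228) (nat_lit 0)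 (XT.lf (nat_lit 0) (nat_lit 51052346356) (nat_lit 228) (nat_lit 11606700425) (nat_lit 76) (nat_lit 2570631935) (nat_lit 75) (nat_lit 5) (nat_lit 78) (nat_lit 5) (nat_lit 76) (nat_lit 5) (nat_lit 467) (nat_lit 384) (nat_lit 169)) (XT.lf (nat_lit 0) (nat_lit 1346674085) (nat_lit 228) (nat_lit 42013525030) (nat_lit 76) (nat_lit 23206654211) (nat_lit 72) (nat_lit 5) (nat_lit 75) (nat_lit 5) (nat_lit 73) (nat_lit 5) (nat_lit 468) (nat_lit 384) (nat_lit 168))) (XT.nd (nat_lit 78) (nat_lit 152) (nat_lit 0) (XT.lf (nat_lit 0) (nat_lit 17167728195) (nat_lit 228) (nat_lit 6049758874) (nat_lit 76) (nat_lit 44718956899) (nat_lit 72) (nat_lit 5) (nat_lit 75) (nat_lit 5) (nat_lit 73) (nat_lit 5) (nat_lit 469) (nat_lit 384) (nat_lit 167)) (XT.lf (nat_lit 0) (nat_lit 31606090648) (nat_lit 152) (nat_lit 2159113612) (nat_lit 228) (nat_lit 35572864568) (nat_lit 70) (nat_lit 5) (nat_lit 72) (nat_lit 5) (nat_lit 73) (nat_lit 5) (nat_lit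 470) (nat_lit 384) (nat_lit 166))))) (XT.nd (nat_lit 312) (nat_lit 380) (nat_lit 0) (XT.nd (nat_lit 156) (nat_lit 228) (nat_lit 0) (XT.nd (nat_lit 78) (nat_lit 152) (nat_lit 0) (XT.lf (nat_lit 0) (nat_lit 51108027607) (nat_lit 228) (nat_lit 456217461) (nat_lit 76) (nat_lit 19210074882) (nat_lit 70) (nat_lit 5) (nat_lit 73) (nat_lit 5) (nat_lit 71) (nat_lit 5) (nat_lit 471) (nat_lit 384) (nat_lit 165)) (XT.lf (nat_lit 0) (nat_lit 38667496731) (nat_lit 152) (nat_lit 30694754062) (nat_lit 228) (nat_lit 2879674556) (nat_lit 68) (nat_lit 5) (nat_lit 70) (nat_lit 5) (nat_lit 71) (nat_lit 5) (nat_lit 472) (nat_lit 384) (nat_lit 164))) (XT.nd (nat_lit 78) (nat_lit 0) (nat_lit 0) (XT.lf (nat_lit 0) (nat_lit 5179874076) (nat_lit 152) (nat_lit 9001957418) (nat_lit 228) (nat_lit 59565997176) (nat_lit 65) (nat_lit 5) (nat_lit 67) (nat_lit 5) (nat_lit 68) (nat_lit 5) (nat_lit 473) (nat_lit 384) (nat_lit 163)) (XT.lf (nat_lit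 0) (nat_lit 32166000343) (nat_lit 228) (nat_lit 29667303782) (nat_lit 76) (nat_lit 13450688910) (nat_lit 65) (nat_lit 5) (nat_lit 68) (nat_lit 5) (nat_lit 66) (nat_lit 5) (nat_lit 474) (nat_lit 384) (nat_lit 162)))) (XT.nd (nat_lit 156) (nat_lit 228) (nat_lit 0) (XT.nd (nat_lit 78) (nat_lit 0) (nat_lit 0) (XT.lf (nat_lit 0) (nat_lit 10512988189) (nat_lit 152) (nat_lit 40365003956) (nat_lit 228) (nat_lit 25982601427) (nat_lit 63) (nat_lit 5) (nat_lit 65) (nat_lit 5) (nat_lit 66) (nat_lit 5) (nat_lit 475) (nat_lit 384) (nat_lit 161)) (XT.lf (nat_lit 0) (nat_lit 52503476521) (nat_lit 152) (nat_lit 17945583753) (nat_lit 228) (nat_lit 8026500523) (nat_lit 63) (nat_lit 5) (nat_lit 65) (nat_lit 5) (nat_lit 66) (nat_lit 5) (nat_lit 476) (nat_lit 384) (nat_lit 160))) (XT.nd (nat_lit 78) (nat_lit 0) (nat_lit 0) (XT.lf (nat_lit 0) (nat_lit 10466205394) (nat_lit 228) (nat_lit 64363941466) (nat_lit 76) (nat_lit 5299745639)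 (nat_lit 60) (nat_lit 5) (nat_lit 63) (nat_lit 5) (nat_lit 61) (nat_lit 5) (nat_lit 477) (nat_lit 384) (nat_lit 159)) (XT.lf (nat_lit 0) (nat_lit 29793089643) (nat_lit 228) (nat_lit 22800512107) (nat_lit 76) (nat_lit 29224646792) (nat_lit 60) (nat_lit 5) (nat_lit 63) (nat_lit 5) (nat_lit 61) (nat_lit 5) (nat_lit 478) (nat_lit 384) (nat_lit 158))))))))
noncomputable def xc198 : XT := (XT.nd (nat_lit 47736) (nat_lit 0) (nat_lit 5624) (XT.nd (nat_lit 46566) (nat_lit 0) (nat_lit 12692) (XT.nd (nat_lit 46020) (nat_lit 0) (nat_lit 15428) (XT.nd (nat_lit 234) (nat_lit 0) (nat_lit 0) (XT.nd (nat_lit 78) (nat_lit 152) (nat_lit 0) (XT.lf (nat_lit 0) (nat_lit 20404777649) (nat_lit 152) (nat_lit 29489378003) (nat_lit 228) (nat_lit 33657268508) (nat_lit 58) (nat_lit 5) (nat_lit 60) (nat_lit 5) (nat_lit 61) (nat_lit 5) (nat_lit 479) (nat_lit 384) (nat_lit 157)) (XT.nd (nat_lit 78) (nat_lit 152) (nat_lit 0) (XT.lf (nat_lit 0)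 (nat_lit 65370432556) (nat_lit 152) (nat_lit 5456314491) (nat_lit 228) (nat_lit 14502993347) (nat_lit 58) (nat_lit 5) (nat_lit 60) (nat_lit 5) (nat_lit 61) (nat_lit 5) (nat_lit 480) (nat_lit 384) (nat_lit 156)) (XT.lf (nat_lit 0) (nat_lit 5550486268) (nat_lit 152) (nat_lit 62383814354) (nat_lit 76) (nat_lit 19212802015) (nat_lit 56) (nat_lit 5) (nat_lit 58) (nat_lit 5) (nat_lit 57) (nat_lit 5) (nat_lit 481) (nat_lit 384) (nat_lit 155)))) (XT.nd (nat_lit 45630) (nat_lit 0) (nat_lit 16568) (XT.nd (nat_lit 45552) (nat_lit 0) (nat_lit 16568) (XT.lf (nat_lit 0) (nat_lit 26169936402) (nat_lit 152) (nat_lit 17978973271) (nat_lit 76) (nat_lit 44858092534) (nat_lit 56) (nat_lit 5) (nat_lit 58) (nat_lit 5) (nat_lit 57) (nat_lit 5) (nat_lit 482) (nat_lit 384) (nat_lit 154)) (XT.lf (nat_lit 0) (nat_lit 3559371465) (nat_lit 0) (nat_lit 3559371465) (nat_lit 1140) (nat_lit 665686446) (nat_lit 274) (nat_lit 5) (nat_lit 274) (nat_lit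 3) (nat_lit 289) (nat_lit 3) (nat_lit 385) (nat_lit 385) (nat_lit 250))) (XT.nd (nat_lit 78) (nat_lit 0) (nat_lit 0) (XT.lf (nat_lit 0) (nat_lit 14723233629) (nat_lit 1140) (nat_lit 881878732) (nat_lit 1216) (nat_lit 189021711) (nat_lit 274) (nat_lit 5) (nat_lit 289) (nat_lit 3) (nat_lit 290) (nat_lit 5) (nat_lit 386) (nat_lit 385) (nat_lit 249)) (XT.lf (nat_lit 76) (nat_lit 6973352119) (nat_lit 0) (nat_lit 8377216835) (nat_lit 1216) (nat_lit 671791834) (nat_lit 275) (nat_lit 5) (nat_lit 274) (nat_lit 5) (nat_lit 290) (nat_lit 5) (nat_lit 387) (nat_lit 385) (nat_lit 248))))) (XT.nd (nat_lit 234) (nat_lit 0) (nat_lit 76) (XT.nd (nat_lit 78) (nat_lit 1140) (nat_lit 0) (XT.lf (nat_lit 76) (nat_lit 15076726934) (nat_lit 0) (nat_lit 918655118) (nat_lit 1216) (nat_lit 262096008) (nat_lit 275) (nat_lit 5) (nat_lit 274) (nat_lit 5) (nat_lit 290) (nat_lit 5) (nat_lit 388) (nat_lit 385) (nat_lit 247)) (XT.nd (nat_lit 78)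 (nat_lit 0) (nat_lit 0) (XT.lf (nat_lit 0) (nat_lit 280273007) (nat_lit 1216) (nat_lit 9509583139) (nat_lit 1292) (nat_lit 6706044810) (nat_lit 259) (nat_lit 5) (nat_lit 275) (nat_lit 5) (nat_lit 276) (nat_lit 5) (nat_lit 389) (nat_lit 385) (nat_lit 246)) (XT.lf (nat_lit 0) (nat_lit 845011119) (nat_lit 1216) (nat_lit 1336238577) (nat_lit 1292) (nat_lit 14559811206) (nat_lit 259) (nat_lit 5) (nat_lit 275) (nat_lit 5) (nat_lit 276) (nat_lit 5) (nat_lit 390) (nat_lit 385) (nat_lit 245)))) (XT.nd (nat_lit 156) (nat_lit 0) (nat_lit 76) (XT.nd (nat_lit 78) (nat_lit 0) (nat_lit 0) (XT.lf (nat_lit 0) (nat_lit 1541671165) (nat_lit 1216) (nat_lit 9829468197) (nat_lit 1292) (nat_lit 5618989988) (nat_lit 260) (nat_lit 5) (nat_lit 276) (nat_lit 5) (nat_lit 277) (nat_lit 5) (nat_lit 391) (nat_lit 385) (nat_lit 244)) (XT.lf (nat_lit 0) (nat_lit 2285224158) (nat_lit 1216) (nat_lit 1334136677) (nat_lit 1292) (nat_lit 13626532228)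 (nat_lit 260) (nat_lit 5) (nat_lit 276) (nat_lit 5) (nat_lit 277) (nat_lit 5) (nat_lit 392) (nat_lit 385) (nat_lit 243))) (XT.nd (nat_lit 78) (nat_lit 0) (nat_lit 0) (XT.lf (nat_lit 0) (nat_lit 3157479724) (nat_lit 1216) (nat_lit 9992423489) (nat_lit 1292) (nat_lit 4356237515) (nat_lit 261) (nat_lit 5) (nat_lit 277) (nat_lit 5) (nat_lit 278) (nat_lit 5) (nat_lit 393) (nat_lit 385) (nat_lit 242)) (XT.lf (nat_lit 0) (nat_lit 4096616508) (nat_lit 1216) (nat_lit 1161468312) (nat_lit 1292) (nat_lit 12514892431) (nat_lit 261) (nat_lit 5) (nat_lit 277) (nat_lit 5) (nat_lit 278) (nat_lit 5) (nat_lit 394) (nat_lit 385) (nat_lit 241)))))) (XT.nd (nat_lit 546) (nat_lit 2964) (nat_lit 0) (XT.nd (nat_lit 234) (nat_lit 0) (nat_lit 76) (XT.nd (nat_lit 78) (nat_lit 0) (nat_lit 0) (XT.lf (nat_lit 0) (nat_lit 5161572367) (nat_lit 1216) (nat_lit 9987809138) (nat_lit 1292) (nat_lit 2895510766) (nat_lit 262) (nat_lit 5) (nat_lit 278)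 (nat_lit 5) (nat_lit 279) (nat_lit 5) (nat_lit 395) (nat_lit 385) (nat_lit 240)) (XT.nd (nat_lit 78) (nat_lit 0) (nat_lit 76) (XT.lf (nat_lit 0) (nat_lit 6314123099) (nat_lit 1216) (nat_lit 806892860) (nat_lit 1292) (nat_lit 11202282068) (nat_lit 262) (nat_lit 5) (nat_lit 278) (nat_lit 5) (nat_lit 279) (nat_lit 5) (nat_lit 396) (nat_lit 385) (nat_lit 239)) (XT.lf (nat_lit 0) (nat_lit 7589868948) (nat_lit 1216) (nat_lit 9804105127) (nat_lit 1292) (nat_lit 1213425919) (nat_lit 263) (nat_lit 5) (nat_lit 279) (nat_lit 5) (nat_lit 280) (nat_lit 5) (nat_lit 397) (nat_lit 385) (nat_lit 238)))) (XT.nd (nat_lit 156) (nat_lit 0) (nat_lit 76) (XT.nd (nat_lit 78) (nat_lit 0) (nat_lit 0) (XT.lf (nat_lit 0) (nat_lit 8974798913) (nat_lit 1216) (nat_lit 258162150) (nat_lit 1292) (nat_lit 9664939120) (nat_lit 263) (nat_lit 5) (nat_lit 279) (nat_lit 5) (nat_lit 280) (nat_lit 5) (nat_lit 398) (nat_lit 385) (nat_lit 237)) (XT.lf (nat_lit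 76) (nat_lit 9758639167) (nat_lit 0) (nat_lit 728849369) (nat_lit 1292) (nat_lit 8707042936) (nat_lit 264) (nat_lit 5) (nat_lit 263) (nat_lit 5) (nat_lit 280) (nat_lit 5) (nat_lit 399) (nat_lit 385) (nat_lit 236))) (XT.nd (nat_lit 78) (nat_lit 0) (nat_lit 0) (XT.lf (nat_lit 76) (nat_lit 507815691) (nat_lit 0) (nat_lit 11615035481) (nat_lit 1292) (nat_lit 7374894131) (nat_lit 265) (nat_lit 5) (nat_lit 264) (nat_lit 5) (nat_lit 281) (nat_lit 5) (nat_lit 400) (nat_lit 385) (nat_lit 235)) (XT.lf (nat_lit 76) (nat_lit 10929833662) (nat_lit 0) (nat_lit 2972613420) (nat_lit 1292) (nat_lit 5904755599) (nat_lit 265) (nat_lit 5) (nat_lit 264) (nat_lit 5) (nat_lit 281) (nat_lit 5) (nat_lit 401) (nat_lit 385) (nat_lit 234))))) (XT.nd (nat_lit 312) (nat_lit 1216) (nat_lit 0) (XT.nd (nat_lit 156) (nat_lit 760) (nat_lit 0) (XT.nd (nat_lit 78) (nat_lit 0) (nat_lit 0) (XT.lf (nat_lit 0) (nat_lit 1504823117) (nat_lit 1216) (nat_lit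 14295032267) (nat_lit 1292) (nat_lit 4324157899) (nat_lit 249) (nat_lit 5) (nat_lit 265) (nat_lit 5) (nat_lit 266) (nat_lit 5) (nat_lit 402) (nat_lit 385) (nat_lit 233)) (XT.lf (nat_lit 0) (nat_lit 12344384938) (nat_lit 1216) (nat_lit 5521700247) (nat_lit 1292) (nat_lit 2580888213) (nat_lit 249) (nat_lit 5) (nat_lit 265) (nat_lit 5) (nat_lit 266) (nat_lit 5) (nat_lit 403) (nat_lit 385) (nat_lit 232))) (XT.nd (nat_lit 78) (nat_lit 76) (nat_lit 0) (XT.lf (nat_lit 0) (nat_lit 2743163595) (nat_lit 684) (nat_lit 17304614312) (nat_lit 760) (nat_lit 730242237) (nat_lit 240) (nat_lit 5) (nat_lit 249) (nat_lit 5) (nat_lit 250) (nat_lit 5) (nat_lit 404) (nat_lit 385) (nat_lit 231)) (XT.lf (nat_lit 0) (nat_lit 1283667423) (nat_lit 760) (nat_lit 7109108266) (nat_lit 76) (nat_lit 12721964758) (nat_lit 239) (nat_lit 5) (nat_lit 249) (nat_lit 5) (nat_lit 240) (nat_lit 5) (nat_lit 405) (nat_lit 385) (nat_lit 230)))) (XT.nd (nat_lit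 156) (nat_lit 608) (nat_lit 0) (XT.nd (nat_lit 78) (nat_lit 0) (nat_lit 0) (XT.lf (nat_lit 0) (nat_lit 3385438123) (nat_lit 684) (nat_lit 17254944141) (nat_lit 76) (nat_lit 819701493) (nat_lit 231) (nat_lit 5) (nat_lit 240) (nat_lit 5) (nat_lit 232) (nat_lit 5) (nat_lit 406) (nat_lit 385) (nat_lit 229)) (XT.lf (nat_lit 0) (nat_lit 5699573654) (nat_lit 684) (nat_lit 5899016196) (nat_lit 76) (nat_lit 10212720039) (nat_lit 231) (nat_lit 5) (nat_lit 240) (nat_lit 5) (nat_lit 232) (nat_lit 5) (nat_lit 407) (nat_lit 385) (nat_lit 228))) (XT.nd (nat_lit 78) (nat_lit 0) (nat_lit 0) (XT.lf (nat_lit 0) (nat_lit 5906913388) (nat_lit 608) (nat_lit 2226899847) (nat_lit 684) (nat_lit 14037740990) (nat_lit 223) (nat_lit 5) (nat_lit 231) (nat_lit 5) (nat_lit 232) (nat_lit 5) (nat_lit 408) (nat_lit 385) (nat_lit 227)) (XT.lf (nat_lit 0) (nat_lit 10766642168) (nat_lit 684) (nat_lit 4430911594) (nat_lit 76) (nat_lit 7341287030) (nat_lit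 223) (nat_lit 5) (nat_lit 232) (nat_lit 5) (nat_lit 224) (nat_lit 5) (nat_lit 409) (nat_lit 385) (nat_lit 226))))))) (XT.nd (nat_lit 1092) (nat_lit 3040) (nat_lit 0) (XT.nd (nat_lit 546) (nat_lit 1900) (nat_lit 0) (XT.nd (nat_lit 234) (nat_lit 1064) (nat_lit 0) (XT.nd (nat_lit 78) (nat_lit 532) (nat_lit 0) (XT.lf (nat_lit 0) (nat_lit 7883732493) (nat_lit 532) (nat_lit 5686750581) (nat_lit 608) (nat_lit 9343903785) (nat_lit 216) (nat_lit 5) (nat_lit 223) (nat_lit 5) (nat_lit 224) (nat_lit 5) (nat_lit 410) (nat_lit 385) (nat_lit 225)) (XT.nd (nat_lit 78) (nat_lit 532) (nat_lit 0) (XT.lf (nat_lit 0) (nat_lit 16537434587) (nat_lit 608) (nat_lit 2687158485) (nat_lit 76) (nat_lit 4074238037) (nat_lit 216) (nat_lit 5) (nat_lit 224) (nat_lit 5) (nat_lit 217) (nat_lit 5) (nat_lit 411) (nat_lit 385) (nat_lit 224)) (XT.lf (nat_lit 0) (nat_lit 10162824042) (nat_lit 532) (nat_lit 9579039175) (nat_lit 608) (nat_lit 3948493030)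 (nat_lit 209) (nat_lit 5) (nat_lit 216) (nat_lit 5) (nat_lit 217) (nat_lit 5) (nat_lit 412) (nat_lit 385) (nat_lit 223)))) (XT.nd (nat_lit 156) (nat_lit 532) (nat_lit 0) (XT.nd (nat_lit 78) (nat_lit 532) (nat_lit 0) (XT.lf (nat_lit 0) (nat_lit 23067824354) (nat_lit 608) (nat_lit 649043355) (nat_lit 76) (nat_lit 375999010) (nat_lit 209) (nat_lit 5) (nat_lit 217) (nat_lit 5) (nat_lit 210) (nat_lit 5) (nat_lit 413) (nat_lit 385) (nat_lit 222)) (XT.lf (nat_lit 0) (nat_lit 2161728865) (nat_lit 532) (nat_lit 11758002121) (nat_lit 76) (nat_lit 10580719050) (nat_lit 202) (nat_lit 5) (nat_lit 209) (nat_lit 5) (nat_lit 203) (nat_lit 5) (nat_lit 414) (nat_lit 385) (nat_lit 221))) (XT.nd (nat_lit 78) (nat_lit 0) (nat_lit 0) (XT.lf (nat_lit 0) (nat_lit 1645003602) (nat_lit 532) (nat_lit 3795708022) (nat_lit 608) (nat_lit 19478729873) (nat_lit 195) (nat_lit 5) (nat_lit 202) (nat_lit 5) (nat_lit 203) (nat_lit 5) (nat_lit 415)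 (nat_lit 385) (nat_lit 220)) (XT.lf (nat_lit 0) (nat_lit 8996593159) (nat_lit 608) (nat_lit 9727139601) (nat_lit 76) (nat_lit 6621915460) (nat_lit 195) (nat_lit 5) (nat_lit 203) (nat_lit 5) (nat_lit 196) (nat_lit 5) (nat_lit 416) (nat_lit 385) (nat_lit 219))))) (XT.nd (nat_lit 234) (nat_lit 988) (nat_lit 0) (XT.nd (nat_lit 78) (nat_lit 456) (nat_lit 0) (XT.lf (nat_lit 0) (nat_lit 4266524313) (nat_lit 456) (nat_lit 8466239727) (nat_lit 532) (nat_lit 13049670069) (nat_lit 189) (nat_lit 5) (nat_lit 195) (nat_lit 5) (nat_lit 196) (nat_lit 5) (nat_lit 417) (nat_lit 385) (nat_lit 218)) (XT.nd (nat_lit 78) (nat_lit 456) (nat_lit 0) (XT.lf (nat_lit 0) (nat_lit 16695496517) (nat_lit 532) (nat_lit 7376942724) (nat_lit 76) (nat_lit 2156451355) (nat_lit 189) (nat_lit 5) (nat_lit 196) (nat_lit 5) (nat_lit 190) (nat_lit 5) (nat_lit 418) (nat_lit 385) (nat_lit 217)) (XT.lf (nat_lit 0) (nat_lit 7237965571) (nat_lit 456) (nat_lit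 13687790202) (nat_lit 532) (nat_lit 5758526937) (nat_lit 183) (nat_lit 5) (nat_lit 189) (nat_lit 5) (nat_lit 190) (nat_lit 5) (nat_lit 419) (nat_lit 385) (nat_lit 216)))) (XT.nd (nat_lit 156) (nat_lit 456) (nat_lit 0) (XT.nd (nat_lit 78) (nat_lit 532) (nat_lit 0) (XT.lf (nat_lit 0) (nat_lit 22436954117) (nat_lit 456) (nat_lit 2915791035) (nat_lit 532) (nat_lit 1798498003) (nat_lit 183) (nat_lit 5) (nat_lit 189) (nat_lit 5) (nat_lit 190) (nat_lit 5) (nat_lit 420) (nat_lit 385) (nat_lit 215)) (XT.lf (nat_lit 0) (nat_lit 2413376809) (nat_lit 532) (nat_lit 17068585077) (nat_lit 76) (nat_lit 8144267822) (nat_lit 176) (nat_lit 5) (nat_lit 183) (nat_lit 5) (nat_lit 177) (nat_lit 5) (nat_lit 421) (nat_lit 385) (nat_lit 214))) (XT.nd (nat_lit 78) (nat_lit 456) (nat_lit 0) (XT.lf (nat_lit 0) (nat_lit 6787896752) (nat_lit 532) (nat_lit 1782400019) (nat_lit 76) (nat_lit 19542462905) (nat_lit 176) (nat_lit 5) (nat_lit 183)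 (nat_lit 5) (nat_lit 177) (nat_lit 5) (nat_lit 422) (nat_lit 385) (nat_lit 213)) (XT.lf (nat_lit 0) (nat_lit 11453105730) (nat_lit 532) (nat_lit 14402196551) (nat_lit 76) (nat_lit 2753800760) (nat_lit 170) (nat_lit 5) (nat_lit 177) (nat_lit 5) (nat_lit 171) (nat_lit 5) (nat_lit 423) (nat_lit 385) (nat_lit 212)))))) (XT.nd (nat_lit 546) (nat_lit 1444) (nat_lit 0) (XT.nd (nat_lit 234) (nat_lit 836) (nat_lit 0) (XT.nd (nat_lit 78) (nat_lit 380) (nat_lit 0) (XT.lf (nat_lit 0) (nat_lit 1532001879) (nat_lit 380) (nat_lit 14839715157) (nat_lit 456) (nat_lit 12745217358) (nat_lit 165) (nat_lit 5) (nat_lit 170) (nat_lit 5) (nat_lit 171) (nat_lit 5) (nat_lit 424) (nat_lit 385) (nat_lit 211)) (XT.nd (nat_lit 78) (nat_lit 380) (nat_lit 0) (XT.lf (nat_lit 0) (nat_lit 18234017757) (nat_lit 380) (nat_lit 3345064318) (nat_lit 456) (nat_lit 8056683788) (nat_lit 165) (nat_lit 5) (nat_lit 170) (nat_lit 5) (nat_lit 171) (nat_lit 5)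 (nat_lit 425) (nat_lit 385) (nat_lit 210)) (XT.lf (nat_lit 0) (nat_lit 5282973823) (nat_lit 380) (nat_lit 21788004729) (nat_lit 456) (nat_lit 3095335416) (nat_lit 160) (nat_lit 5) (nat_lit 165) (nat_lit 5) (nat_lit 166) (nat_lit 5) (nat_lit 426) (nat_lit 385) (nat_lit 209)))) (XT.nd (nat_lit 156) (nat_lit 380) (nat_lit 0) (XT.nd (nat_lit 78) (nat_lit 380) (nat_lit 0) (XT.lf (nat_lit 0) (nat_lit 2120832461) (nat_lit 456) (nat_lit 8066413668) (nat_lit 76) (nat_lit 20520593414) (nat_lit 159) (nat_lit 5) (nat_lit 165) (nat_lit 5) (nat_lit 160) (nat_lit 5) (nat_lit 427) (nat_lit 385) (nat_lit 208)) (XT.lf (nat_lit 0) (nat_lit 7535795291) (nat_lit 456) (nat_lit 21877633039) (nat_lit 76) (nat_lit 1848128378) (nat_lit 154) (nat_lit 5) (nat_lit 160) (nat_lit 5) (nat_lit 155) (nat_lit 5) (nat_lit 428) (nat_lit 385) (nat_lit 207))) (XT.nd (nat_lit 78) (nat_lit 380) (nat_lit 0) (XT.lf (nat_lit 0) (nat_lit 13292406325) (nat_lit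 456) (nat_lit 4413307410) (nat_lit 76) (nat_lit 14120796567) (nat_lit 154) (nat_lit 5) (nat_lit 160) (nat_lit 5) (nat_lit 155) (nat_lit 5) (nat_lit 429) (nat_lit 385) (nat_lit 206)) (XT.lf (nat_lit 0) (nat_lit 13839848162) (nat_lit 380) (nat_lit 5511093013) (nat_lit 456) (nat_lit 13053595436) (nat_lit 149) (nat_lit 5) (nat_lit 154) (nat_lit 5) (nat_lit 155) (nat_lit 5) (nat_lit 430) (nat_lit 385) (nat_lit 205))))) (XT.nd (nat_lit 312) (nat_lit 684) (nat_lit 0) (XT.nd (nat_lit 156) (nat_lit 456) (nat_lit 0) (XT.nd (nat_lit 78) (nat_lit 304) (nat_lit 0) (XT.lf (nat_lit 0) (nat_lit 25700239022) (nat_lit 456) (nat_lit 340918615) (nat_lit 76) (nat_lit 6955476706) (nat_lit 149) (nat_lit 5) (nat_lit 155) (nat_lit 5) (nat_lit 150) (nat_lit 5) (nat_lit 431) (nat_lit 385) (nat_lit 204)) (XT.lf (nat_lit 0) (nat_lit 18735533981) (nat_lit 304) (nat_lit 13735491244) (nat_lit 380) (nat_lit 1128540316) (nat_lit 145) (nat_lit 5)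 (nat_lit 149) (nat_lit 5) (nat_lit 150) (nat_lit 5) (nat_lit 432) (nat_lit 385) (nat_lit 203))) (XT.nd (nat_lit 78) (nat_lit 0) (nat_lit 0) (XT.lf (nat_lit 0) (nat_lit 4197352772) (nat_lit 380) (nat_lit 965244464) (nat_lit 456) (nat_lit 29055275841) (nat_lit 139) (nat_lit 5) (nat_lit 144) (nat_lit 5) (nat_lit 145) (nat_lit 5) (nat_lit 433) (nat_lit 385) (nat_lit 202)) (XT.lf (nat_lit 0) (nat_lit 11884941502) (nat_lit 456) (nat_lit 10849899813) (nat_lit 76) (nat_lit 12111599408) (nat_lit 139) (nat_lit 5) (nat_lit 145) (nat_lit 5) (nat_lit 140) (nat_lit 5) (nat_lit 434) (nat_lit 385) (nat_lit 201)))) (XT.nd (nat_lit 156) (nat_lit 380) (nat_lit 0) (XT.nd (nat_lit 78) (nat_lit 0) (nat_lit 0) (XT.lf (nat_lit 0) (nat_lit 9058056892) (nat_lit 304) (nat_lit 9844044045) (nat_lit 380) (nat_lit 16588970843) (nat_lit 135) (nat_lit 5) (nat_lit 139) (nat_lit 5) (nat_lit 140) (nat_lit 5) (nat_lit 435) (nat_lit 385) (nat_lit 200))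 (XT.lf (nat_lit 0) (nat_lit 26269983329) (nat_lit 380) (nat_lit 6405200901) (nat_lit 76) (nat_lit 3475652001) (nat_lit 135) (nat_lit 5) (nat_lit 140) (nat_lit 5) (nat_lit 136) (nat_lit 5) (nat_lit 436) (nat_lit 385) (nat_lit 199))) (XT.nd (nat_lit 78) (nat_lit 76) (nat_lit 0) (XT.lf (nat_lit 0) (nat_lit 14402144524) (nat_lit 304) (nat_lit 19689321980) (nat_lit 380) (nat_lit 2731950869) (nat_lit 131) (nat_lit 5) (nat_lit 135) (nat_lit 5) (nat_lit 136) (nat_lit 5) (nat_lit 437) (nat_lit 385) (nat_lit 198)) (XT.lf (nat_lit 0) (nat_lit 4603036980) (nat_lit 380) (nat_lit 1599279277) (nat_lit 76) (nat_lit 31310664904) (nat_lit 130) (nat_lit 5) (nat_lit 135) (nat_lit 5) (nat_lit 131) (nat_lit 5) (nat_lit 438) (nat_lit 385) (nat_lit 197))))))))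
noncomputable def xc199 : XT := (XT.nd (nat_lit 2262) (nat_lit 1444) (nat_lit 0) (XT.nd (nat_lit 1092) (nat_lit 1900) (nat_lit 0) (XT.nd (nat_lit 546) (nat_lit 1064) (nat_lit 0) (XT.nd (nat_lit 234) (nat_lit 608) (nat_lit 0) (XT.nd (nat_lit 78) (nat_lit 304) (nat_lit 0) (XT.lf (nat_lit 0) (nat_lit 12370297099) (nat_lit 380) (nat_lit 18082838247) (nat_lit 76) (nat_lit 7761271711) (nat_lit 126) (nat_lit 5) (nat_lit 131) (nat_lit 5) (nat_lit 127) (nat_lit 5) (nat_lit 439) (nat_lit 385) (nat_lit 196)) (XT.nd (nat_lit 78) (nat_lit 0) (nat_lit 0) (XT.lf (nat_lit 0) (nat_lit 3614919696) (nat_lit 304) (nat_lit 16864927782) (nat_lit 380) (nat_lit 18453750687) (nat_lit 122) (nat_lit 5) (nat_lit 126) (nat_lit 5) (nat_lit 127) (nat_lit 5) (nat_lit 440) (nat_lit 385) (nat_lit 195)) (XT.lf (nat_lit 0) (nat_lit 26329551562) (nat_lit 304) (nat_lit 2682586598) (nat_lit 380) (nat_lit 10656843824) (nat_lit 122) (nat_lit 5) (nat_lit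 126) (nat_lit 5) (nat_lit 127) (nat_lit 5) (nat_lit 441) (nat_lit 385) (nat_lit 194)))) (XT.nd (nat_lit 156) (nat_lit 304) (nat_lit 0) (XT.nd (nat_lit 78) (nat_lit 76) (nat_lit 0) (XT.lf (nat_lit 0) (nat_lit 9362581572) (nat_lit 228) (nat_lit 28639376808) (nat_lit 304) (nat_lit 2418422689) (nat_lit 119) (nat_lit 5) (nat_lit 122) (nat_lit 5) (nat_lit 123) (nat_lit 5) (nat_lit 442) (nat_lit 385) (nat_lit 193)) (XT.lf (nat_lit 0) (nat_lit 6108298944) (nat_lit 304) (nat_lit 8262091127) (nat_lit 76) (nat_lit 26817396764) (nat_lit 118) (nat_lit 5) (nat_lit 122) (nat_lit 5) (nat_lit 119) (nat_lit 5) (nat_lit 443) (nat_lit 385) (nat_lit 192))) (XT.nd (nat_lit 78) (nat_lit 0) (nat_lit 0) (XT.lf (nat_lit 0) (nat_lit 14992995047) (nat_lit 380) (nat_lit 26486677982) (nat_lit 76) (nat_lit 493300508) (nat_lit 114) (nat_lit 5) (nat_lit 119) (nat_lit 5) (nat_lit 115) (nat_lit 5) (nat_lit 444) (nat_lit 385) (nat_lit 191)) (XT.lf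 (nat_lit 0) (nat_lit 24367830678) (nat_lit 380) (nat_lit 2810407127) (nat_lit 76) (nat_lit 15596770585) (nat_lit 114) (nat_lit 5) (nat_lit 119) (nat_lit 5) (nat_lit 115) (nat_lit 5) (nat_lit 445) (nat_lit 385) (nat_lit 190))))) (XT.nd (nat_lit 234) (nat_lit 532) (nat_lit 0) (XT.nd (nat_lit 78) (nat_lit 304) (nat_lit 0) (XT.lf (nat_lit 0) (nat_lit 22001018853) (nat_lit 228) (nat_lit 12231525975) (nat_lit 304) (nat_lit 9362300953) (nat_lit 111) (nat_lit 5) (nat_lit 114) (nat_lit 5) (nat_lit 115) (nat_lit 5) (nat_lit 446) (nat_lit 385) (nat_lit 189)) (XT.nd (nat_lit 78) (nat_lit 0) (nat_lit 0) (XT.lf (nat_lit 0) (nat_lit 42717218) (nat_lit 304) (nat_lit 41233776446) (nat_lit 76) (nat_lit 3160161504) (nat_lit 107) (nat_lit 5) (nat_lit 111) (nat_lit 5) (nat_lit 108) (nat_lit 5) (nat_lit 447) (nat_lit 385) (nat_lit 188)) (XT.lf (nat_lit 0) (nat_lit 9880214744) (nat_lit 304) (nat_lit 16331489202) (nat_lit 76) (nat_lit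 19079079412) (nat_lit 107) (nat_lit 5) (nat_lit 111) (nat_lit 5) (nat_lit 108) (nat_lit 5) (nat_lit 448) (nat_lit 385) (nat_lit 187)))) (XT.nd (nat_lit 156) (nat_lit 304) (nat_lit 0) (XT.nd (nat_lit 78) (nat_lit 0) (nat_lit 0) (XT.lf (nat_lit 0) (nat_lit 9498863883) (nat_lit 228) (nat_lit 10602547538) (nat_lit 304) (nat_lit 26066467185) (nat_lit 104) (nat_lit 5) (nat_lit 107) (nat_lit 5) (nat_lit 108) (nat_lit 5) (nat_lit 449) (nat_lit 385) (nat_lit 186)) (XT.lf (nat_lit 0) (nat_lit 30845708689) (nat_lit 304) (nat_lit 10686075740) (nat_lit 76) (nat_lit 5533008769) (nat_lit 104) (nat_lit 5) (nat_lit 108) (nat_lit 5) (nat_lit 105) (nat_lit 5) (nat_lit 450) (nat_lit 385) (nat_lit 185))) (XT.nd (nat_lit 78) (nat_lit 76) (nat_lit 0) (XT.lf (nat_lit 0) (nat_lit 16284897531) (nat_lit 228) (nat_lit 25886320362) (nat_lit 304) (nat_lit 5809631259) (nat_lit 101) (nat_lit 5) (nat_lit 104) (nat_lit 5) (nat_lit 105) (nat_lit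 5) (nat_lit 451) (nat_lit 385) (nat_lit 184)) (XT.lf (nat_lit 0) (nat_lit 4922606512) (nat_lit 304) (nat_lit 4689648068) (nat_lit 76) (nat_lit 39307525437) (nat_lit 100) (nat_lit 5) (nat_lit 104) (nat_lit 5) (nat_lit 101) (nat_lit 5) (nat_lit 452) (nat_lit 385) (nat_lit 183)))))) (XT.nd (nat_lit 546) (nat_lit 988) (nat_lit 0) (XT.nd (nat_lit 234) (nat_lit 456) (nat_lit 0) (XT.nd (nat_lit 78) (nat_lit 228) (nat_lit 0) (XT.lf (nat_lit 0) (nat_lit 16155149775) (nat_lit 304) (nat_lit 26425745617) (nat_lit 76) (nat_lit 7295404977) (nat_lit 97) (nat_lit 5) (nat_lit 101) (nat_lit 5) (nat_lit 98) (nat_lit 5) (nat_lit 453) (nat_lit 385) (nat_lit 182)) (XT.nd (nat_lit 78) (nat_lit 0) (nat_lit 0) (XT.lf (nat_lit 0) (nat_lit 1602469813) (nat_lit 228) (nat_lit 26278072260) (nat_lit 304) (nat_lit 22976298444) (nat_lit 94) (nat_lit 5) (nat_lit 97) (nat_lit 5) (nat_lit 98) (nat_lit 5) (nat_lit 454) (nat_lit 385) (nat_lit 181))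 (XT.lf (nat_lit 0) (nat_lit 31009112750) (nat_lit 228) (nat_lit 9212938458) (nat_lit 304) (nat_lit 11636815369) (nat_lit 94) (nat_lit 5) (nat_lit 97) (nat_lit 5) (nat_lit 98) (nat_lit 5) (nat_lit 455) (nat_lit 385) (nat_lit 180)))) (XT.nd (nat_lit 156) (nat_lit 228) (nat_lit 0) (XT.nd (nat_lit 78) (nat_lit 0) (nat_lit 0) (XT.lf (nat_lit 0) (nat_lit 203154591) (nat_lit 228) (nat_lit 44399982155) (nat_lit 76) (nat_lit 8282970495) (nat_lit 91) (nat_lit 5) (nat_lit 94) (nat_lit 5) (nat_lit 92) (nat_lit 5) (nat_lit 456) (nat_lit 385) (nat_lit 179)) (XT.lf (nat_lit 0) (nat_lit 12465851060) (nat_lit 228) (nat_lit 15020954205) (nat_lit 76) (nat_lit 26444861230) (nat_lit 91) (nat_lit 5) (nat_lit 94) (nat_lit 5) (nat_lit 92) (nat_lit 5) (nat_lit 457) (nat_lit 385) (nat_lit 178))) (XT.nd (nat_lit 78) (nat_lit 0) (nat_lit 0) (XT.lf (nat_lit 0) (nat_lit 15538711855) (nat_lit 228) (nat_lit 9704727338) (nat_lit 304) (nat_lit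 29760743329) (nat_lit 88) (nat_lit 5) (nat_lit 91) (nat_lit 5) (nat_lit 92) (nat_lit 5) (nat_lit 458) (nat_lit 385) (nat_lit 177)) (XT.lf (nat_lit 0) (nat_lit 38637970354) (nat_lit 304) (nat_lit 8869480138) (nat_lit 76) (nat_lit 8594415385) (nat_lit 88) (nat_lit 5) (nat_lit 92) (nat_lit 5) (nat_lit 89) (nat_lit 5) (nat_lit 459) (nat_lit 385) (nat_lit 176))))) (XT.nd (nat_lit 312) (nat_lit 380) (nat_lit 0) (XT.nd (nat_lit 156) (nat_lit 380) (nat_lit 0) (XT.nd (nat_lit 78) (nat_lit 76) (nat_lit 0) (XT.lf (nat_lit 0) (nat_lit 22993132926) (nat_lit 152) (nat_lit 29756042171) (nat_lit 228) (nat_lit 4473859807) (nat_lit 86) (nat_lit 5) (nat_lit 88) (nat_lit 5) (nat_lit 89) (nat_lit 5) (nat_lit 460) (nat_lit 385) (nat_lit 175)) (XT.lf (nat_lit 0) (nat_lit 8820276615) (nat_lit 228) (nat_lit 2472064800) (nat_lit 76) (nat_lit 47080284044) (nat_lit 85) (nat_lit 5) (nat_lit 88) (nat_lit 5) (nat_lit 86) (nat_lit 5) (nat_lit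 461) (nat_lit 385) (nat_lit 174))) (XT.nd (nat_lit 78) (nat_lit 152) (nat_lit 0) (XT.lf (nat_lit 0) (nat_lit 22794716467) (nat_lit 304) (nat_lit 28832859428) (nat_lit 76) (nat_lit 7916657257) (nat_lit 82) (nat_lit 5) (nat_lit 86) (nat_lit 5) (nat_lit 83) (nat_lit 5) (nat_lit 462) (nat_lit 385) (nat_lit 173)) (XT.lf (nat_lit 0) (nat_lit 4156038058) (nat_lit 152) (nat_lit 33207131248) (nat_lit 228) (nat_lit 23382576644) (nat_lit 80) (nat_lit 5) (nat_lit 82) (nat_lit 5) (nat_lit 83) (nat_lit 5) (nat_lit 463) (nat_lit 385) (nat_lit 172)))) (XT.nd (nat_lit 156) (nat_lit 152) (nat_lit 0) (XT.nd (nat_lit 78) (nat_lit 228) (nat_lit 0) (XT.lf (nat_lit 0) (nat_lit 38721925854) (nat_lit 152) (nat_lit 13935747001) (nat_lit 228) (nat_lit 9316961621) (nat_lit 80) (nat_lit 5) (nat_lit 82) (nat_lit 5) (nat_lit 83) (nat_lit 5) (nat_lit 464) (nat_lit 385) (nat_lit 171)) (XT.lf (nat_lit 0) (nat_lit 5234150448) (nat_lit 228) (nat_lit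 52043531933) (nat_lit 76) (nat_lit 5956283643) (nat_lit 77) (nat_lit 5) (nat_lit 80) (nat_lit 5) (nat_lit 78) (nat_lit 5) (nat_lit 465) (nat_lit 385) (nat_lit 170))) (XT.nd (nat_lit 78) (nat_lit 152) (nat_lit 0) (XT.lf (nat_lit 0) (nat_lit 20407539231) (nat_lit 228) (nat_lit 17616722446) (nat_lit 76) (nat_lit 26492858512) (nat_lit 77) (nat_lit 5) (nat_lit 80) (nat_lit 5) (nat_lit 78) (nat_lit 5) (nat_lit 466) (nat_lit 385) (nat_lit 169)) (XT.lf (nat_lit 0) (nat_lit 18194367521) (nat_lit 152) (nat_lit 18014614612) (nat_lit 228) (nat_lit 29624601502) (nat_lit 75) (nat_lit 5) (nat_lit 77) (nat_lit 5) (nat_lit 78) (nat_lit 5) (nat_lit 467) (nat_lit 385) (nat_lit 168))))))) (XT.nd (nat_lit 46722) (nat_lit 0) (nat_lit 15352) (XT.nd (nat_lit 546) (nat_lit 684) (nat_lit 0) (XT.nd (nat_lit 234) (nat_lit 532) (nat_lit 0) (XT.nd (nat_lit 78) (nat_lit 228) (nat_lit 0) (XT.lf (nat_lit 0) (nat_lit 52687039993) (nat_lit 228)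 (nat_lit 11773570346) (nat_lit 76) (nat_lit 2722853719) (nat_lit 75) (nat_lit 5) (nat_lit 78) (nat_lit 5) (nat_lit 76) (nat_lit 5) (nat_lit 468) (nat_lit 385) (nat_lit 167)) (XT.nd (nat_lit 78) (nat_lit 0) (nat_lit 0) (XT.lf (nat_lit 0) (nat_lit 1489939091) (nat_lit 228) (nat_lit 43092319562) (nat_lit 76) (nat_lit 23978503657) (nat_lit 72) (nat_lit 5) (nat_lit 75) (nat_lit 5) (nat_lit 73) (nat_lit 5) (nat_lit 469) (nat_lit 385) (nat_lit 166)) (XT.lf (nat_lit 0) (nat_lit 17782628762) (nat_lit 228) (nat_lit 6054930069) (nat_lit 76) (nat_lit 46133972033) (nat_lit 72) (nat_lit 5) (nat_lit 75) (nat_lit 5) (nat_lit 73) (nat_lit 5) (nat_lit 470) (nat_lit 385) (nat_lit 165)))) (XT.nd (nat_lit 156) (nat_lit 380) (nat_lit 0) (XT.nd (nat_lit 78) (nat_lit 0) (nat_lit 0) (XT.lf (nat_lit 0) (nat_lit 32728866296) (nat_lit 152) (nat_lit 2147932310) (nat_lit 228) (nat_lit 36538443082) (nat_lit 70) (nat_lit 5) (nat_lit 72) (nat_lit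 5) (nat_lit 73) (nat_lit 5) (nat_lit 471) (nat_lit 385) (nat_lit 164)) (XT.lf (nat_lit 0) (nat_lit 52737742552) (nat_lit 228) (nat_lit 298222421) (nat_lit 76) (nat_lit 19858680586) (nat_lit 70) (nat_lit 5) (nat_lit 73) (nat_lit 5) (nat_lit 71) (nat_lit 5) (nat_lit 472) (nat_lit 385) (nat_lit 163))) (XT.nd (nat_lit 78) (nat_lit 228) (nat_lit 0) (XT.lf (nat_lit 0) (nat_lit 39997520045) (nat_lit 152) (nat_lit 31540896593) (nat_lit 228) (nat_lit 2867898041) (nat_lit 68) (nat_lit 5) (nat_lit 70) (nat_lit 5) (nat_lit 71) (nat_lit 5) (nat_lit 473) (nat_lit 385) (nat_lit 162)) (XT.lf (nat_lit 0) (nat_lit 5505507981) (nat_lit 152) (nat_lit 9196862619) (nat_lit 228) (nat_lit 61255031467) (nat_lit 65) (nat_lit 5) (nat_lit 67) (nat_lit 5) (nat_lit 68) (nat_lit 5) (nat_lit 474) (nat_lit 385) (nat_lit 161))))) (XT.nd (nat_lit 234) (nat_lit 532) (nat_lit 0) (XT.nd (nat_lit 78) (nat_lit 152) (nat_lit 0) (XT.lf (nat_lit 0) (nat_lit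 33223996454) (nat_lit 228) (nat_lit 30389966854) (nat_lit 76) (nat_lit 13925750359) (nat_lit 65) (nat_lit 5) (nat_lit 68) (nat_lit 5) (nat_lit 66) (nat_lit 5) (nat_lit 475) (nat_lit 385) (nat_lit 160)) (XT.nd (nat_lit 78) (nat_lit 0) (nat_lit 0) (XT.lf (nat_lit 0) (nat_lit 10994093131) (nat_lit 152) (nat_lit 41502138629) (nat_lit 228) (nat_lit 26667414200) (nat_lit 63) (nat_lit 5) (nat_lit 65) (nat_lit 5) (nat_lit 66) (nat_lit 5) (nat_lit 476) (nat_lit 385) (nat_lit 159)) (XT.lf (nat_lit 0) (nat_lit 54239469454) (nat_lit 152) (nat_lit 18412285784) (nat_lit 228) (nat_lit 8175387510) (nat_lit 63) (nat_lit 5) (nat_lit 65) (nat_lit 5) (nat_lit 66) (nat_lit 5) (nat_lit 477) (nat_lit 385) (nat_lit 158)))) (XT.nd (nat_lit 234) (nat_lit 304) (nat_lit 0) (XT.nd (nat_lit 78) (nat_lit 0) (nat_lit 0) (XT.lf (nat_lit 0) (nat_lit 10869922628) (nat_lit 228) (nat_lit 66131778466) (nat_lit 76) (nat_lit 5529388538) (nat_lit 60)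 (nat_lit 5) (nat_lit 63) (nat_lit 5) (nat_lit 61) (nat_lit 5) (nat_lit 478) (nat_lit 385) (nat_lit 157)) (XT.lf (nat_lit 0) (nat_lit 30773999878) (nat_lit 228) (nat_lit 23326196165) (nat_lit 76) (nat_lit 30169978943) (nat_lit 60) (nat_lit 5) (nat_lit 63) (nat_lit 5) (nat_lit 61) (nat_lit 5) (nat_lit 479) (nat_lit 385) (nat_lit 156))) (XT.nd (nat_lit 78) (nat_lit 152) (nat_lit 0) (XT.lf (nat_lit 0) (nat_lit 67483758190) (nat_lit 152) (nat_lit 5551371072) (nat_lit 228) (nat_lit 14851988894) (nat_lit 58) (nat_lit 5) (nat_lit 60) (nat_lit 5) (nat_lit 61) (nat_lit 5) (nat_lit 481) (nat_lit 385) (nat_lit 154)) (XT.lf (nat_lit 0) (nat_lit 5801084290) (nat_lit 152) (nat_lit 64101091808) (nat_lit 76) (nat_lit 19856810466) (nat_lit 56) (nat_lit 5) (nat_lit 58) (nat_lit 5) (nat_lit 57) (nat_lit 5) (nat_lit 482) (nat_lit 385) (nat_lit 153)))))) (XT.nd (nat_lit 546) (nat_lit 0) (nat_lit 152) (XT.nd (nat_lit 234) (nat_lit 1216)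 (nat_lit 0) (XT.nd (nat_lit 78) (nat_lit 0) (nat_lit 0) (XT.lf (nat_lit 0) (nat_lit 3800019472) (nat_lit 0) (nat_lit 3800019472) (nat_lit 1140) (nat_lit 409800188) (nat_lit 274) (nat_lit 5) (nat_lit 274) (nat_lit 3) (nat_lit 289) (nat_lit 3) (nat_lit 386) (nat_lit 386) (nat_lit 248)) (XT.nd (nat_lit 78) (nat_lit 0) (nat_lit 0) (XT.lf (nat_lit 0) (nat_lit 15621524670) (nat_lit 0) (nat_lit 61368535) (nat_lit 1140) (nat_lit 569349095) (nat_lit 274) (nat_lit 5) (nat_lit 274) (nat_lit 3) (nat_lit 289) (nat_lit 3) (nat_lit 387) (nat_lit 386) (nat_lit 247)) (XT.lf (nat_lit 76) (nat_lit 7458032536) (nat_lit 0) (nat_lit 8858005117) (nat_lit 1216) (nat_lit 171673646) (nat_lit 275) (nat_lit 5) (nat_lit 274) (nat_lit 5) (nat_lit 290) (nat_lit 5) (nat_lit 388) (nat_lit 386) (nat_lit 246)))) (XT.nd (nat_lit 156) (nat_lit 0) (nat_lit 76) (XT.nd (nat_lit 78) (nat_lit 0) (nat_lit 76) (XT.lf (nat_lit 0) (nat_lit 230570693) (nat_lit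 1216) (nat_lit 936103899) (nat_lit 1292) (nat_lit 15563585904) (nat_lit 258) (nat_lit 5) (nat_lit 274) (nat_lit 5) (nat_lit 275) (nat_lit 5) (nat_lit 389) (nat_lit 386) (nat_lit 245)) (XT.lf (nat_lit 0) (nat_lit 770152543) (nat_lit 1216) (nat_lit 9503448325) (nat_lit 1292) (nat_lit 6702575788) (nat_lit 259) (nat_lit 5) (nat_lit 275) (nat_lit 5) (nat_lit 276) (nat_lit 5) (nat_lit 390) (nat_lit 386) (nat_lit 244))) (XT.nd (nat_lit 78) (nat_lit 0) (nat_lit 76) (XT.lf (nat_lit 0) (nat_lit 1337809361) (nat_lit 1216) (nat_lit 1093391454) (nat_lit 1292) (nat_lit 14797915865) (nat_lit 259) (nat_lit 5) (nat_lit 275) (nat_lit 5) (nat_lit 276) (nat_lit 5) (nat_lit 391) (nat_lit 386) (nat_lit 243)) (XT.lf (nat_lit 0) (nat_lit 2042751961) (nat_lit 1216) (nat_lit 9828652548) (nat_lit 1292) (nat_lit 5614635635) (nat_lit 260) (nat_lit 5) (nat_lit 276) (nat_lit 5) (nat_lit 277) (nat_lit 5) (nat_lit 392) (nat_lit 386) (nat_lit 242)))))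 (XT.nd (nat_lit 312) (nat_lit 0) (nat_lit 152) (XT.nd (nat_lit 156) (nat_lit 0) (nat_lit 76) (XT.nd (nat_lit 78) (nat_lit 0) (nat_lit 76) (XT.lf (nat_lit 0) (nat_lit 2795364048) (nat_lit 1216) (nat_lit 1087073695) (nat_lit 1292) (nat_lit 13867440766) (nat_lit 260) (nat_lit 5) (nat_lit 276) (nat_lit 5) (nat_lit 277) (nat_lit 5) (nat_lit 393) (nat_lit 386) (nat_lit 241)) (XT.lf (nat_lit 0) (nat_lit 3682243437) (nat_lit 1216) (nat_lit 9993425607) (nat_lit 1292) (nat_lit 4342615066) (nat_lit 261) (nat_lit 5) (nat_lit 277) (nat_lit 5) (nat_lit 278) (nat_lit 5) (nat_lit 394) (nat_lit 386) (nat_lit 240))) (XT.nd (nat_lit 78) (nat_lit 0) (nat_lit 76) (XT.lf (nat_lit 0) (nat_lit 4637028907) (nat_lit 1216) (nat_lit 906243830) (nat_lit 1292) (nat_lit 12750232821) (nat_lit 261) (nat_lit 5) (nat_lit 277) (nat_lit 5) (nat_lit 278) (nat_lit 5) (nat_lit 395) (nat_lit 386) (nat_lit 239)) (XT.lf (nat_lit 0) (nat_lit 5723371758)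 (nat_lit 1216) (nat_lit 9986681554) (nat_lit 1292) (nat_lit 2863845517) (nat_lit 262) (nat_lit 5) (nat_lit 278) (nat_lit 5) (nat_lit 279) (nat_lit 5) (nat_lit 396) (nat_lit 386) (nat_lit 238)))) (XT.nd (nat_lit 156) (nat_lit 0) (nat_lit 76) (XT.nd (nat_lit 78) (nat_lit 0) (nat_lit 76) (XT.lf (nat_lit 0) (nat_lit 6898646035) (nat_lit 1216) (nat_lit 539097842) (nat_lit 1292) (nat_lit 11423272305) (nat_lit 262) (nat_lit 5) (nat_lit 278) (nat_lit 5) (nat_lit 279) (nat_lit 5) (nat_lit 397) (nat_lit 386) (nat_lit 237)) (XT.lf (nat_lit 0) (nat_lit 8203001244) (nat_lit 1216) (nat_lit 9796439374) (nat_lit 1292) (nat_lit 1154494202) (nat_lit 263) (nat_lit 5) (nat_lit 279) (nat_lit 5) (nat_lit 280) (nat_lit 5) (nat_lit 398) (nat_lit 386) (nat_lit 236))) (XT.nd (nat_lit 78) (nat_lit 0) (nat_lit 0) (XT.lf (nat_lit 76) (nat_lit 27631105) (nat_lit 0) (nat_lit 9590887311) (nat_lit 1292) (nat_lit 9834964034) (nat_lit 264) (nat_lit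 5) (nat_lit 263) (nat_lit 5) (nat_lit 280) (nat_lit 5) (nat_lit 399) (nat_lit 386) (nat_lit 235)) (XT.lf (nat_lit 76) (nat_lit 10341524742) (nat_lit 0) (nat_lit 826687934) (nat_lit 1292) (nat_lit 8591054792) (nat_lit 264) (nat_lit 5) (nat_lit 263) (nat_lit 5) (nat_lit 280) (nat_lit 5) (nat_lit 400) (nat_lit 386) (nat_lit 234))))))))
noncomputable def xc200 : XT := (XT.nd (nat_lit 2184) (nat_lit 5168) (nat_lit 0) (XT.nd (nat_lit 1092) (nat_lit 3800) (nat_lit 0) (XT.nd (nat_lit 546) (nat_lit 1672) (nat_lit 0) (XT.nd (nat_lit 234) (nat_lit 1368) (nat_lit 0) (XT.nd (nat_lit 78) (nat_lit 1140) (nat_lit 0) (XT.lf (nat_lit 76) (nat_lit 822046450) (nat_lit 0) (nat_lit 12022091755) (nat_lit 1292) (nat_lit 7227697855) (nat_lit 265) (nat_lit 5) (nat_lit 264) (nat_lit 5) (nat_lit 281) (nat_lit 5) (nat_lit 401) (nat_lit 386) (nat_lit 233)) (XT.nd (nat_lit 78) (nat_lit 1140) (nat_lit 0) (XT.lf (nat_lit 76) (nat_lit 11548016331)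 (nat_lit 0) (nat_lit 3118690084) (nat_lit 1292) (nat_lit 5724186520) (nat_lit 265) (nat_lit 5) (nat_lit 264) (nat_lit 5) (nat_lit 281) (nat_lit 5) (nat_lit 402) (nat_lit 386) (nat_lit 232)) (XT.lf (nat_lit 0) (nat_lit 1848373724) (nat_lit 1216) (nat_lit 14764888481) (nat_lit 1292) (nat_lit 4104182104) (nat_lit 249) (nat_lit 5) (nat_lit 265) (nat_lit 5) (nat_lit 266) (nat_lit 5) (nat_lit 403) (nat_lit 386) (nat_lit 231)))) (XT.nd (nat_lit 156) (nat_lit 684) (nat_lit 0) (XT.nd (nat_lit 78) (nat_lit 684) (nat_lit 0) (XT.lf (nat_lit 0) (nat_lit 13004430965) (nat_lit 1216) (nat_lit 5727162173) (nat_lit 1292) (nat_lit 2318799780) (nat_lit 249) (nat_lit 5) (nat_lit 265) (nat_lit 5) (nat_lit 266) (nat_lit 5) (nat_lit 404) (nat_lit 386) (nat_lit 230)) (XT.lf (nat_lit 0) (nat_lit 3122603324) (nat_lit 684) (nat_lit 17849020288) (nat_lit 760) (nat_lit 419963872) (nat_lit 240) (nat_lit 5) (nat_lit 249) (nat_lit 5) (nat_lit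 250) (nat_lit 5) (nat_lit 405) (nat_lit 386) (nat_lit 229))) (XT.nd (nat_lit 78) (nat_lit 608) (nat_lit 0) (XT.lf (nat_lit 0) (nat_lit 1638394430) (nat_lit 760) (nat_lit 7027502957) (nat_lit 76) (nat_lit 13072703662) (nat_lit 239) (nat_lit 5) (nat_lit 249) (nat_lit 5) (nat_lit 240) (nat_lit 5) (nat_lit 406) (nat_lit 386) (nat_lit 228)) (XT.lf (nat_lit 0) (nat_lit 3796643457) (nat_lit 684) (nat_lit 17471046782) (nat_lit 76) (nat_lit 826814433) (nat_lit 231) (nat_lit 5) (nat_lit 240) (nat_lit 5) (nat_lit 232) (nat_lit 5) (nat_lit 407) (nat_lit 386) (nat_lit 227))))) (XT.nd (nat_lit 234) (nat_lit 1064) (nat_lit 0) (XT.nd (nat_lit 78) (nat_lit 608) (nat_lit 0) (XT.lf (nat_lit 0) (nat_lit 6171184349) (nat_lit 684) (nat_lit 5783223883) (nat_lit 76) (nat_lit 10502132607) (nat_lit 231) (nat_lit 5) (nat_lit 240) (nat_lit 5) (nat_lit 232) (nat_lit 5) (nat_lit 408) (nat_lit 386) (nat_lit 226)) (XT.nd (nat_lit 78) (nat_lit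 0) (nat_lit 0) (XT.lf (nat_lit 0) (nat_lit 6374013365) (nat_lit 608) (nat_lit 2298468354) (nat_lit 684) (nat_lit 14155292478) (nat_lit 223) (nat_lit 5) (nat_lit 231) (nat_lit 5) (nat_lit 232) (nat_lit 5) (nat_lit 409) (nat_lit 386) (nat_lit 225)) (XT.lf (nat_lit 0) (nat_lit 11375668924) (nat_lit 684) (nat_lit 4273678747) (nat_lit 76) (nat_lit 7556993023) (nat_lit 223) (nat_lit 5) (nat_lit 232) (nat_lit 5) (nat_lit 224) (nat_lit 5) (nat_lit 410) (nat_lit 386) (nat_lit 224)))) (XT.nd (nat_lit 156) (nat_lit 532) (nat_lit 0) (XT.nd (nat_lit 78) (nat_lit 0) (nat_lit 0) (XT.lf (nat_lit 0) (nat_lit 8407559955) (nat_lit 532) (nat_lit 5850496056) (nat_lit 608) (nat_lit 9335266663) (nat_lit 216) (nat_lit 5) (nat_lit 223) (nat_lit 5) (nat_lit 224) (nat_lit 5) (nat_lit 411) (nat_lit 386) (nat_lit 223)) (XT.lf (nat_lit 0) (nat_lit 17305911372) (nat_lit 608) (nat_lit 2480641819) (nat_lit 76) (nat_lit 4202992592) (nat_lit 216)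 (nat_lit 5) (nat_lit 224) (nat_lit 5) (nat_lit 217) (nat_lit 5) (nat_lit 412) (nat_lit 386) (nat_lit 222))) (XT.nd (nat_lit 78) (nat_lit 0) (nat_lit 0) (XT.lf (nat_lit 0) (nat_lit 10752025169) (nat_lit 532) (nat_lit 9849248082) (nat_lit 608) (nat_lit 3791701733) (nat_lit 209) (nat_lit 5) (nat_lit 216) (nat_lit 5) (nat_lit 217) (nat_lit 5) (nat_lit 413) (nat_lit 386) (nat_lit 221)) (XT.lf (nat_lit 0) (nat_lit 24019392203) (nat_lit 608) (nat_lit 384783216) (nat_lit 76) (nat_lit 403616234) (nat_lit 209) (nat_lit 5) (nat_lit 217) (nat_lit 5) (nat_lit 210) (nat_lit 5) (nat_lit 414) (nat_lit 386) (nat_lit 220)))))) (XT.nd (nat_lit 546) (nat_lit 1824) (nat_lit 0) (XT.nd (nat_lit 234) (nat_lit 912) (nat_lit 0) (XT.nd (nat_lit 78) (nat_lit 532) (nat_lit 0) (XT.lf (nat_lit 0) (nat_lit 2483848289) (nat_lit 532) (nat_lit 11824601532) (nat_lit 76) (nat_lit 10919224924) (nat_lit 202) (nat_lit 5) (nat_lit 209) (nat_lit 5) (nat_lit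 203) (nat_lit 5) (nat_lit 415) (nat_lit 386) (nat_lit 219)) (XT.nd (nat_lit 78) (nat_lit 0) (nat_lit 0) (XT.lf (nat_lit 0) (nat_lit 1977689063) (nat_lit 532) (nat_lit 3878741832) (nat_lit 608) (nat_lit 19802950207) (nat_lit 195) (nat_lit 5) (nat_lit 202) (nat_lit 5) (nat_lit 203) (nat_lit 5) (nat_lit 416) (nat_lit 386) (nat_lit 218)) (XT.lf (nat_lit 0) (nat_lit 9511922360) (nat_lit 608) (nat_lit 9736737706) (nat_lit 76) (nat_lit 6849927955) (nat_lit 195) (nat_lit 5) (nat_lit 203) (nat_lit 5) (nat_lit 196) (nat_lit 5) (nat_lit 417) (nat_lit 386) (nat_lit 217)))) (XT.nd (nat_lit 156) (nat_lit 456) (nat_lit 0) (XT.nd (nat_lit 78) (nat_lit 0) (nat_lit 0) (XT.lf (nat_lit 0) (nat_lit 4673969301) (nat_lit 456) (nat_lit 8681746817) (nat_lit 532) (nat_lit 13192897180) (nat_lit 189) (nat_lit 5) (nat_lit 195) (nat_lit 5) (nat_lit 196) (nat_lit 5) (nat_lit 418) (nat_lit 386) (nat_lit 216)) (XT.lf (nat_lit 0) (nat_lit 17430671171)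 (nat_lit 532) (nat_lit 7320218774) (nat_lit 76) (nat_lit 2257775203) (nat_lit 189) (nat_lit 5) (nat_lit 196) (nat_lit 5) (nat_lit 190) (nat_lit 5) (nat_lit 419) (nat_lit 386) (nat_lit 215))) (XT.nd (nat_lit 78) (nat_lit 0) (nat_lit 0) (XT.lf (nat_lit 0) (nat_lit 7730410964) (nat_lit 456) (nat_lit 14053249097) (nat_lit 532) (nat_lit 5694186139) (nat_lit 183) (nat_lit 5) (nat_lit 189) (nat_lit 5) (nat_lit 190) (nat_lit 5) (nat_lit 420) (nat_lit 386) (nat_lit 214)) (XT.lf (nat_lit 0) (nat_lit 23377350533) (nat_lit 456) (nat_lit 2959405727) (nat_lit 532) (nat_lit 1622262063) (nat_lit 183) (nat_lit 5) (nat_lit 189) (nat_lit 5) (nat_lit 190) (nat_lit 5) (nat_lit 421) (nat_lit 386) (nat_lit 213))))) (XT.nd (nat_lit 234) (nat_lit 836) (nat_lit 0) (XT.nd (nat_lit 78) (nat_lit 456) (nat_lit 0) (XT.lf (nat_lit 0) (nat_lit 2707947038) (nat_lit 532) (nat_lit 17305219481) (nat_lit 76) (nat_lit 8435129150) (nat_lit 176) (nat_lit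 5) (nat_lit 183) (nat_lit 5) (nat_lit 177) (nat_lit 5) (nat_lit 422) (nat_lit 386) (nat_lit 212)) (XT.nd (nat_lit 78) (nat_lit 456) (nat_lit 0) (XT.lf (nat_lit 0) (nat_lit 7207231640) (nat_lit 532) (nat_lit 1568470904) (nat_lit 76) (nat_lit 20173914747) (nat_lit 176) (nat_lit 5) (nat_lit 183) (nat_lit 5) (nat_lit 177) (nat_lit 5) (nat_lit 423) (nat_lit 386) (nat_lit 211)) (XT.lf (nat_lit 0) (nat_lit 12009167371) (nat_lit 532) (nat_lit 14563579160) (nat_lit 76) (nat_lit 2888202891) (nat_lit 170) (nat_lit 5) (nat_lit 177) (nat_lit 5) (nat_lit 171) (nat_lit 5) (nat_lit 424) (nat_lit 386) (nat_lit 210)))) (XT.nd (nat_lit 156) (nat_lit 456) (nat_lit 0) (XT.nd (nat_lit 78) (nat_lit 0) (nat_lit 0) (XT.lf (nat_lit 0) (nat_lit 1845991464) (nat_lit 380) (nat_lit 15225733613) (nat_lit 456) (nat_lit 12912400529) (nat_lit 165) (nat_lit 5) (nat_lit 170) (nat_lit 5) (nat_lit 171) (nat_lit 5) (nat_lit 425) (nat_lit 386) (nat_lit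 209)) (XT.lf (nat_lit 0) (nat_lit 19041261133) (nat_lit 380) (nat_lit 3387966734) (nat_lit 456) (nat_lit 8089478138) (nat_lit 165) (nat_lit 5) (nat_lit 170) (nat_lit 5) (nat_lit 171) (nat_lit 5) (nat_lit 426) (nat_lit 386) (nat_lit 208))) (XT.nd (nat_lit 78) (nat_lit 76) (nat_lit 0) (XT.lf (nat_lit 0) (nat_lit 5704660559) (nat_lit 380) (nat_lit 22378380832) (nat_lit 456) (nat_lit 2982215804) (nat_lit 160) (nat_lit 5) (nat_lit 165) (nat_lit 5) (nat_lit 166) (nat_lit 5) (nat_lit 427) (nat_lit 386) (nat_lit 207)) (XT.lf (nat_lit 0) (nat_lit 2380535366) (nat_lit 456) (nat_lit 8048926748) (nat_lit 76) (nat_lit 21193684856) (nat_lit 159) (nat_lit 5) (nat_lit 165) (nat_lit 5) (nat_lit 160) (nat_lit 5) (nat_lit 428) (nat_lit 386) (nat_lit 206))))))) (XT.nd (nat_lit 1092) (nat_lit 2356) (nat_lit 0) (XT.nd (nat_lit 546) (nat_lit 1292) (nat_lit 0) (XT.nd (nat_lit 234) (nat_lit 760) (nat_lit 0) (XT.nd (nat_lit 78) (nat_lit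 380) (nat_lit 0) (XT.lf (nat_lit 0) (nat_lit 7955322049) (nat_lit 456) (nat_lit 22271813569) (nat_lit 76) (nat_lit 1966420105) (nat_lit 154) (nat_lit 5) (nat_lit 160) (nat_lit 5) (nat_lit 155) (nat_lit 5) (nat_lit 429) (nat_lit 386) (nat_lit 205)) (XT.nd (nat_lit 78) (nat_lit 380) (nat_lit 0) (XT.lf (nat_lit 0) (nat_lit 13878996864) (nat_lit 456) (nat_lit 4291193564) (nat_lit 76) (nat_lit 14605437820) (nat_lit 154) (nat_lit 5) (nat_lit 160) (nat_lit 5) (nat_lit 155) (nat_lit 5) (nat_lit 430) (nat_lit 386) (nat_lit 204)) (XT.lf (nat_lit 0) (nat_lit 14507061449) (nat_lit 380) (nat_lit 5609178422) (nat_lit 456) (nat_lit 13254848157) (nat_lit 149) (nat_lit 5) (nat_lit 154) (nat_lit 5) (nat_lit 155) (nat_lit 5) (nat_lit 431) (nat_lit 386) (nat_lit 203)))) (XT.nd (nat_lit 156) (nat_lit 456) (nat_lit 0) (XT.nd (nat_lit 78) (nat_lit 304) (nat_lit 0) (XT.lf (nat_lit 0) (nat_lit 26651262585) (nat_lit 456) (nat_lit 101674231)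 (nat_lit 76) (nat_lit 7228155708) (nat_lit 149) (nat_lit 5) (nat_lit 155) (nat_lit 5) (nat_lit 150) (nat_lit 5) (nat_lit 432) (nat_lit 386) (nat_lit 202)) (XT.lf (nat_lit 0) (nat_lit 19544626139) (nat_lit 304) (nat_lit 14077677606) (nat_lit 380) (nat_lit 979895149) (nat_lit 145) (nat_lit 5) (nat_lit 149) (nat_lit 5) (nat_lit 150) (nat_lit 5) (nat_lit 433) (nat_lit 386) (nat_lit 201))) (XT.nd (nat_lit 78) (nat_lit 0) (nat_lit 0) (XT.lf (nat_lit 0) (nat_lit 4571441680) (nat_lit 380) (nat_lit 922147287) (nat_lit 456) (nat_lit 29745499955) (nat_lit 139) (nat_lit 5) (nat_lit 144) (nat_lit 5) (nat_lit 145) (nat_lit 5) (nat_lit 434) (nat_lit 386) (nat_lit 200)) (XT.lf (nat_lit 0) (nat_lit 12413146492) (nat_lit 456) (nat_lit 10929963759) (nat_lit 76) (nat_lit 12543538135) (nat_lit 139) (nat_lit 5) (nat_lit 145) (nat_lit 5) (nat_lit 140) (nat_lit 5) (nat_lit 435) (nat_lit 386) (nat_lit 199))))) (XT.nd (nat_lit 234) (nat_lit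 684) (nat_lit 0) (XT.nd (nat_lit 78) (nat_lit 304) (nat_lit 0) (XT.lf (nat_lit 0) (nat_lit 9572825441) (nat_lit 304) (nat_lit 10065331682) (nat_lit 380) (nat_lit 16912542205) (nat_lit 135) (nat_lit 5) (nat_lit 139) (nat_lit 5) (nat_lit 140) (nat_lit 5) (nat_lit 436) (nat_lit 386) (nat_lit 198)) (XT.nd (nat_lit 78) (nat_lit 304) (nat_lit 0) (XT.lf (nat_lit 0) (nat_lit 27222844784) (nat_lit 380) (nat_lit 6357143539) (nat_lit 76) (nat_lit 3650396339) (nat_lit 135) (nat_lit 5) (nat_lit 140) (nat_lit 5) (nat_lit 136) (nat_lit 5) (nat_lit 437) (nat_lit 386) (nat_lit 197)) (XT.lf (nat_lit 0) (nat_lit 15072067215) (nat_lit 304) (nat_lit 20204392787) (nat_lit 380) (nat_lit 2646759593) (nat_lit 131) (nat_lit 5) (nat_lit 135) (nat_lit 5) (nat_lit 136) (nat_lit 5) (nat_lit 438) (nat_lit 386) (nat_lit 196)))) (XT.nd (nat_lit 156) (nat_lit 304) (nat_lit 0) (XT.nd (nat_lit 78) (nat_lit 304) (nat_lit 0) (XT.lf (nat_lit 0) (nat_lit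 4900242756) (nat_lit 380) (nat_lit 1413129589) (nat_lit 76) (nat_lit 32320193881) (nat_lit 130) (nat_lit 5) (nat_lit 135) (nat_lit 5) (nat_lit 131) (nat_lit 5) (nat_lit 439) (nat_lit 386) (nat_lit 195)) (XT.lf (nat_lit 0) (nat_lit 12898836926) (nat_lit 380) (nat_lit 18389481546) (nat_lit 76) (nat_lit 8067767841) (nat_lit 126) (nat_lit 5) (nat_lit 131) (nat_lit 5) (nat_lit 127) (nat_lit 5) (nat_lit 440) (nat_lit 386) (nat_lit 194))) (XT.nd (nat_lit 78) (nat_lit 0) (nat_lit 0) (XT.lf (nat_lit 0) (nat_lit 3956896960) (nat_lit 304) (nat_lit 17292436319) (nat_lit 380) (nat_lit 18847590965) (nat_lit 122) (nat_lit 5) (nat_lit 126) (nat_lit 5) (nat_lit 127) (nat_lit 5) (nat_lit 441) (nat_lit 386) (nat_lit 193)) (XT.lf (nat_lit 0) (nat_lit 27346165947) (nat_lit 304) (nat_lit 2686909540) (nat_lit 380) (nat_lit 10821430456) (nat_lit 122) (nat_lit 5) (nat_lit 126) (nat_lit 5) (nat_lit 127) (nat_lit 5) (nat_lit 442) (nat_lit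 386) (nat_lit 192)))))) (XT.nd (nat_lit 546) (nat_lit 1216) (nat_lit 0) (XT.nd (nat_lit 234) (nat_lit 532) (nat_lit 0) (XT.nd (nat_lit 78) (nat_lit 380) (nat_lit 0) (XT.lf (nat_lit 0) (nat_lit 9871740104) (nat_lit 228) (nat_lit 29419369683) (nat_lit 304) (nat_lit 2337382453) (nat_lit 119) (nat_lit 5) (nat_lit 122) (nat_lit 5) (nat_lit 123) (nat_lit 5) (nat_lit 443) (nat_lit 386) (nat_lit 191)) (XT.nd (nat_lit 78) (nat_lit 304) (nat_lit 0) (XT.lf (nat_lit 0) (nat_lit 6437757394) (nat_lit 304) (nat_lit 8285385981) (nat_lit 76) (nat_lit 27695864878) (nat_lit 118) (nat_lit 5) (nat_lit 122) (nat_lit 5) (nat_lit 119) (nat_lit 5) (nat_lit 444) (nat_lit 386) (nat_lit 190)) (XT.lf (nat_lit 0) (nat_lit 15587625825) (nat_lit 380) (nat_lit 27055316738) (nat_lit 76) (nat_lit 584849803) (nat_lit 114) (nat_lit 5) (nat_lit 119) (nat_lit 5) (nat_lit 115) (nat_lit 5) (nat_lit 445) (nat_lit 386) (nat_lit 189)))) (XT.nd (nat_lit 156)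 (nat_lit 304) (nat_lit 0) (XT.nd (nat_lit 78) (nat_lit 228) (nat_lit 0) (XT.lf (nat_lit 0) (nat_lit 25239487857) (nat_lit 380) (nat_lit 2675339164) (nat_lit 76) (nat_lit 16139188537) (nat_lit 114) (nat_lit 5) (nat_lit 119) (nat_lit 5) (nat_lit 115) (nat_lit 5) (nat_lit 446) (nat_lit 386) (nat_lit 188)) (XT.lf (nat_lit 0) (nat_lit 22878278810) (nat_lit 228) (nat_lit 12519856970) (nat_lit 304) (nat_lit 9500373232) (nat_lit 111) (nat_lit 5) (nat_lit 114) (nat_lit 5) (nat_lit 115) (nat_lit 5) (nat_lit 447) (nat_lit 386) (nat_lit 187))) (XT.nd (nat_lit 78) (nat_lit 0) (nat_lit 0) (XT.lf (nat_lit 0) (nat_lit 182793063) (nat_lit 304) (nat_lit 42249512568) (nat_lit 76) (nat_lit 3333263020) (nat_lit 107) (nat_lit 5) (nat_lit 111) (nat_lit 5) (nat_lit 108) (nat_lit 5) (nat_lit 448) (nat_lit 386) (nat_lit 186)) (XT.lf (nat_lit 0) (nat_lit 10311372961) (nat_lit 304) (nat_lit 16606601672) (nat_lit 76) (nat_lit 19727467979)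 (nat_lit 107) (nat_lit 5) (nat_lit 111) (nat_lit 5) (nat_lit 108) (nat_lit 5) (nat_lit 449) (nat_lit 386) (nat_lit 185))))) (XT.nd (nat_lit 312) (nat_lit 684) (nat_lit 0) (XT.nd (nat_lit 156) (nat_lit 304) (nat_lit 0) (XT.nd (nat_lit 78) (nat_lit 0) (nat_lit 0) (XT.lf (nat_lit 0) (nat_lit 9996555807) (nat_lit 228) (nat_lit 10840769774) (nat_lit 304) (nat_lit 26711582166) (nat_lit 104) (nat_lit 5) (nat_lit 107) (nat_lit 5) (nat_lit 108) (nat_lit 5) (nat_lit 450) (nat_lit 386) (nat_lit 184)) (XT.lf (nat_lit 0) (nat_lit 31900826965) (nat_lit 304) (nat_lit 10796982656) (nat_lit 76) (nat_lit 5775014514) (nat_lit 104) (nat_lit 5) (nat_lit 108) (nat_lit 5) (nat_lit 105) (nat_lit 5) (nat_lit 451) (nat_lit 386) (nat_lit 183))) (XT.nd (nat_lit 78) (nat_lit 76) (nat_lit 0) (XT.lf (nat_lit 0) (nat_lit 16981064172) (nat_lit 228) (nat_lit 26583254001) (nat_lit 304) (nat_lit 5852097689) (nat_lit 101) (nat_lit 5) (nat_lit 104)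 (nat_lit 5) (nat_lit 105) (nat_lit 5) (nat_lit 452) (nat_lit 386) (nat_lit 182)) (XT.lf (nat_lit 0) (nat_lit 5195770315) (nat_lit 304) (nat_lit 4626248848) (nat_lit 76) (nat_lit 40561570973) (nat_lit 100) (nat_lit 5) (nat_lit 104) (nat_lit 5) (nat_lit 101) (nat_lit 5) (nat_lit 453) (nat_lit 386) (nat_lit 181)))) (XT.nd (nat_lit 156) (nat_lit 228) (nat_lit 0) (XT.nd (nat_lit 78) (nat_lit 228) (nat_lit 0) (XT.lf (nat_lit 0) (nat_lit 16764330354) (nat_lit 304) (nat_lit 27013451633) (nat_lit 76) (nat_lit 7591053442) (nat_lit 97) (nat_lit 5) (nat_lit 101) (nat_lit 5) (nat_lit 98) (nat_lit 5) (nat_lit 454) (nat_lit 386) (nat_lit 180)) (XT.lf (nat_lit 0) (nat_lit 1853599805) (nat_lit 228) (nat_lit 26986209541) (nat_lit 304) (nat_lit 23539033218) (nat_lit 94) (nat_lit 5) (nat_lit 97) (nat_lit 5) (nat_lit 98) (nat_lit 5) (nat_lit 455) (nat_lit 386) (nat_lit 179))) (XT.nd (nat_lit 78) (nat_lit 228) (nat_lit 0) (XT.lf (nat_lit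 0) (nat_lit 32136527781) (nat_lit 228) (nat_lit 9411457789) (nat_lit 304) (nat_lit 11863051695) (nat_lit 94) (nat_lit 5) (nat_lit 97) (nat_lit 5) (nat_lit 98) (nat_lit 5) (nat_lit 456) (nat_lit 386) (nat_lit 178)) (XT.lf (nat_lit 0) (nat_lit 328867241) (nat_lit 228) (nat_lit 45531557080) (nat_lit 76) (nat_lit 8608661454) (nat_lit 91) (nat_lit 5) (nat_lit 94) (nat_lit 5) (nat_lit 92) (nat_lit 5) (nat_lit 457) (nat_lit 386) (nat_lit 177))))))))
noncomputable def xc201 : XT := (XT.nd (nat_lit 47970) (nat_lit 0) (nat_lit 9956) (XT.nd (nat_lit 1092) (nat_lit 1064) (nat_lit 0) (XT.nd (nat_lit 546) (nat_lit 608) (nat_lit 0) (XT.nd (nat_lit 234) (nat_lit 608) (nat_lit 0) (XT.nd (nat_lit 78) (nat_lit 228) (nat_lit 0) (XT.lf (nat_lit 0) (nat_lit 12955960584) (nat_lit 228) (nat_lit 15276995899) (nat_lit 76) (nat_lit 27313160314) (nat_lit 91) (nat_lit 5) (nat_lit 94) (nat_lit 5) (nat_lit 92) (nat_lit 5) (nat_lit 458) (nat_lit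 386) (nat_lit 176)) (XT.nd (nat_lit 78) (nat_lit 0) (nat_lit 0) (XT.lf (nat_lit 0) (nat_lit 16197552427) (nat_lit 228) (nat_lit 9917793541) (nat_lit 304) (nat_lit 30535508706) (nat_lit 88) (nat_lit 5) (nat_lit 91) (nat_lit 5) (nat_lit 92) (nat_lit 5) (nat_lit 459) (nat_lit 386) (nat_lit 175)) (XT.lf (nat_lit 0) (nat_lit 39909103746) (nat_lit 304) (nat_lit 8945873252) (nat_lit 76) (nat_lit 8926570254) (nat_lit 88) (nat_lit 5) (nat_lit 92) (nat_lit 5) (nat_lit 89) (nat_lit 5) (nat_lit 460) (nat_lit 386) (nat_lit 174)))) (XT.nd (nat_lit 156) (nat_lit 380) (nat_lit 0) (XT.nd (nat_lit 78) (nat_lit 76) (nat_lit 0) (XT.lf (nat_lit 0) (nat_lit 23870758485) (nat_lit 152) (nat_lit 30571429728) (nat_lit 228) (nat_lit 4494207259) (nat_lit 86) (nat_lit 5) (nat_lit 88) (nat_lit 5) (nat_lit 89) (nat_lit 5) (nat_lit 461) (nat_lit 386) (nat_lit 173)) (XT.lf (nat_lit 0) (nat_lit 9193279439) (nat_lit 228) (nat_lit 2361695213) (nat_lit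 76) (nat_lit 48565564218) (nat_lit 85) (nat_lit 5) (nat_lit 88) (nat_lit 5) (nat_lit 86) (nat_lit 5) (nat_lit 462) (nat_lit 386) (nat_lit 172))) (XT.nd (nat_lit 78) (nat_lit 152) (nat_lit 0) (XT.lf (nat_lit 0) (nat_lit 23586279753) (nat_lit 304) (nat_lit 29512627821) (nat_lit 76) (nat_lit 8228407794) (nat_lit 82) (nat_lit 5) (nat_lit 86) (nat_lit 5) (nat_lit 83) (nat_lit 5) (nat_lit 463) (nat_lit 386) (nat_lit 171)) (XT.lf (nat_lit 0) (nat_lit 4464120733) (nat_lit 152) (nat_lit 34126290883) (nat_lit 228) (nat_lit 23974503552) (nat_lit 80) (nat_lit 5) (nat_lit 82) (nat_lit 5) (nat_lit 83) (nat_lit 5) (nat_lit 464) (nat_lit 386) (nat_lit 170))))) (XT.nd (nat_lit 234) (nat_lit 380) (nat_lit 0) (XT.nd (nat_lit 78) (nat_lit 228) (nat_lit 0) (XT.lf (nat_lit 0) (nat_lit 40061643371) (nat_lit 152) (nat_lit 14279009409) (nat_lit 228) (nat_lit 9490110866) (nat_lit 80) (nat_lit 5) (nat_lit 82) (nat_lit 5) (nat_lit 83) (nat_lit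 5) (nat_lit 465) (nat_lit 386) (nat_lit 169)) (XT.nd (nat_lit 78) (nat_lit 0) (nat_lit 0) (XT.lf (nat_lit 0) (nat_lit 5494861391) (nat_lit 228) (nat_lit 53424081303) (nat_lit 76) (nat_lit 6208920056) (nat_lit 77) (nat_lit 5) (nat_lit 80) (nat_lit 5) (nat_lit 78) (nat_lit 5) (nat_lit 466) (nat_lit 386) (nat_lit 168)) (XT.lf (nat_lit 0) (nat_lit 21120431844) (nat_lit 228) (nat_lit 17969732287) (nat_lit 76) (nat_lit 27359438349) (nat_lit 77) (nat_lit 5) (nat_lit 80) (nat_lit 5) (nat_lit 78) (nat_lit 5) (nat_lit 467) (nat_lit 386) (nat_lit 167)))) (XT.nd (nat_lit 156) (nat_lit 228) (nat_lit 0) (XT.nd (nat_lit 78) (nat_lit 0) (nat_lit 0) (XT.lf (nat_lit 0) (nat_lit 18913969871) (nat_lit 152) (nat_lit 18480686527) (nat_lit 228) (nat_lit 30410941611) (nat_lit 75) (nat_lit 5) (nat_lit 77) (nat_lit 5) (nat_lit 78) (nat_lit 5) (nat_lit 468) (nat_lit 386) (nat_lit 166)) (XT.lf (nat_lit 0) (nat_lit 54364854743) (nat_lit 228)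 (nat_lit 11955855511) (nat_lit 76) (nat_lit 2875330948) (nat_lit 75) (nat_lit 5) (nat_lit 78) (nat_lit 5) (nat_lit 76) (nat_lit 5) (nat_lit 469) (nat_lit 386) (nat_lit 165))) (XT.nd (nat_lit 78) (nat_lit 0) (nat_lit 0) (XT.lf (nat_lit 0) (nat_lit 1631597187) (nat_lit 228) (nat_lit 44213903158) (nat_lit 76) (nat_lit 24769165978) (nat_lit 72) (nat_lit 5) (nat_lit 75) (nat_lit 5) (nat_lit 73) (nat_lit 5) (nat_lit 470) (nat_lit 386) (nat_lit 164)) (XT.lf (nat_lit 0) (nat_lit 18410243473) (nat_lit 228) (nat_lit 6070377979) (nat_lit 76) (nat_lit 47587221496) (nat_lit 72) (nat_lit 5) (nat_lit 75) (nat_lit 5) (nat_lit 73) (nat_lit 5) (nat_lit 471) (nat_lit 386) (nat_lit 163)))))) (XT.nd (nat_lit 546) (nat_lit 380) (nat_lit 0) (XT.nd (nat_lit 234) (nat_lit 380) (nat_lit 0) (XT.nd (nat_lit 78) (nat_lit 152) (nat_lit 0) (XT.lf (nat_lit 0) (nat_lit 33875302866) (nat_lit 152) (nat_lit 2140775680) (nat_lit 228) (nat_lit 37538821632)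 (nat_lit 70) (nat_lit 5) (nat_lit 72) (nat_lit 5) (nat_lit 73) (nat_lit 5) (nat_lit 472) (nat_lit 386) (nat_lit 162)) (XT.nd (nat_lit 78) (nat_lit 152) (nat_lit 0) (XT.lf (nat_lit 0) (nat_lit 54410810937) (nat_lit 228) (nat_lit 145342753) (nat_lit 76) (nat_lit 20522593946) (nat_lit 70) (nat_lit 5) (nat_lit 73) (nat_lit 5) (nat_lit 71) (nat_lit 5) (nat_lit 473) (nat_lit 386) (nat_lit 161)) (XT.lf (nat_lit 0) (nat_lit 41357685453) (nat_lit 152) (nat_lit 32416711491) (nat_lit 228) (nat_lit 2861403403) (nat_lit 68) (nat_lit 5) (nat_lit 70) (nat_lit 5) (nat_lit 71) (nat_lit 5) (nat_lit 474) (nat_lit 386) (nat_lit 160)))) (XT.nd (nat_lit 156) (nat_lit 152) (nat_lit 0) (XT.nd (nat_lit 78) (nat_lit 0) (nat_lit 0) (XT.lf (nat_lit 0) (nat_lit 5831138563) (nat_lit 152) (nat_lit 9401929097) (nat_lit 228) (nat_lit 63000359267) (nat_lit 65) (nat_lit 5) (nat_lit 67) (nat_lit 5) (nat_lit 68) (nat_lit 5) (nat_lit 475) (nat_lit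 386) (nat_lit 159)) (XT.lf (nat_lit 0) (nat_lit 34308392943) (nat_lit 228) (nat_lit 31143916739) (nat_lit 76) (nat_lit 14410956918) (nat_lit 65) (nat_lit 5) (nat_lit 68) (nat_lit 5) (nat_lit 66) (nat_lit 5) (nat_lit 476) (nat_lit 386) (nat_lit 158))) (XT.nd (nat_lit 78) (nat_lit 0) (nat_lit 0) (XT.lf (nat_lit 0) (nat_lit 11480118485) (nat_lit 152) (nat_lit 42677624650) (nat_lit 228) (nat_lit 27378205529) (nat_lit 63) (nat_lit 5) (nat_lit 65) (nat_lit 5) (nat_lit 66) (nat_lit 5) (nat_lit 477) (nat_lit 386) (nat_lit 157)) (XT.lf (nat_lit 0) (nat_lit 56018306509) (nat_lit 152) (nat_lit 18897102768) (nat_lit 228) (nat_lit 8334017003) (nat_lit 63) (nat_lit 5) (nat_lit 65) (nat_lit 5) (nat_lit 66) (nat_lit 5) (nat_lit 478) (nat_lit 386) (nat_lit 156))))) (XT.nd (nat_lit 46020) (nat_lit 0) (nat_lit 15200) (XT.nd (nat_lit 234) (nat_lit 0) (nat_lit 0) (XT.nd (nat_lit 156) (nat_lit 152) (nat_lit 0) (XT.lf (nat_lit 0) (nat_lit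 11280600449) (nat_lit 228) (nat_lit 67962012106) (nat_lit 76) (nat_lit 5761865095) (nat_lit 60) (nat_lit 5) (nat_lit 63) (nat_lit 5) (nat_lit 61) (nat_lit 5) (nat_lit 479) (nat_lit 386) (nat_lit 155)) (XT.lf (nat_lit 0) (nat_lit 21956690296) (nat_lit 152) (nat_lit 31145834691) (nat_lit 228) (nat_lit 35532072114) (nat_lit 58) (nat_lit 5) (nat_lit 60) (nat_lit 5) (nat_lit 61) (nat_lit 5) (nat_lit 481) (nat_lit 386) (nat_lit 153))) (XT.nd (nat_lit 45708) (nat_lit 0) (nat_lit 16416) (XT.lf (nat_lit 0) (nat_lit 69651745964) (nat_lit 152) (nat_lit 5653219157) (nat_lit 228) (nat_lit 15216396470) (nat_lit 58) (nat_lit 5) (nat_lit 60) (nat_lit 5) (nat_lit 61) (nat_lit 5) (nat_lit 482) (nat_lit 386) (nat_lit 152)) (XT.lf (nat_lit 0) (nat_lit 4040202415) (nat_lit 0) (nat_lit 4040202415) (nat_lit 1140) (nat_lit 162072653) (nat_lit 274) (nat_lit 5) (nat_lit 274) (nat_lit 3) (nat_lit 289) (nat_lit 3) (nat_lit 387) (nat_lit 387)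 (nat_lit 246)))) (XT.nd (nat_lit 156) (nat_lit 0) (nat_lit 0) (XT.nd (nat_lit 78) (nat_lit 1216) (nat_lit 0) (XT.lf (nat_lit 0) (nat_lit 16335184698) (nat_lit 0) (nat_lit 308223879) (nat_lit 1140) (nat_lit 81533372) (nat_lit 274) (nat_lit 5) (nat_lit 274) (nat_lit 3) (nat_lit 289) (nat_lit 3) (nat_lit 388) (nat_lit 387) (nat_lit 245)) (XT.lf (nat_lit 0) (nat_lit 307463229) (nat_lit 1216) (nat_lit 9029476424) (nat_lit 1292) (nat_lit 7630871689) (nat_lit 258) (nat_lit 5) (nat_lit 274) (nat_lit 5) (nat_lit 275) (nat_lit 5) (nat_lit 389) (nat_lit 387) (nat_lit 244))) (XT.nd (nat_lit 78) (nat_lit 0) (nat_lit 76) (XT.lf (nat_lit 0) (nat_lit 704319479) (nat_lit 1216) (nat_lit 702640449) (nat_lit 1292) (nat_lit 15811050822) (nat_lit 258) (nat_lit 5) (nat_lit 274) (nat_lit 5) (nat_lit 275) (nat_lit 5) (nat_lit 390) (nat_lit 387) (nat_lit 243)) (XT.lf (nat_lit 0) (nat_lit 1247090040) (nat_lit 1216) (nat_lit 9513858299) (nat_lit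 1292) (nat_lit 6710750463) (nat_lit 259) (nat_lit 5) (nat_lit 275) (nat_lit 5) (nat_lit 276) (nat_lit 5) (nat_lit 391) (nat_lit 387) (nat_lit 242))))))) (XT.nd (nat_lit 1092) (nat_lit 4560) (nat_lit 0) (XT.nd (nat_lit 546) (nat_lit 760) (nat_lit 0) (XT.nd (nat_lit 234) (nat_lit 0) (nat_lit 152) (XT.nd (nat_lit 78) (nat_lit 0) (nat_lit 76) (XT.lf (nat_lit 0) (nat_lit 1818558129) (nat_lit 1216) (nat_lit 859500503) (nat_lit 1292) (nat_lit 15054569265) (nat_lit 259) (nat_lit 5) (nat_lit 275) (nat_lit 5) (nat_lit 276) (nat_lit 5) (nat_lit 392) (nat_lit 387) (nat_lit 241)) (XT.nd (nat_lit 78) (nat_lit 0) (nat_lit 0) (XT.lf (nat_lit 0) (nat_lit 2532756039) (nat_lit 1216) (nat_lit 9844786802) (nat_lit 1292) (nat_lit 5620077201) (nat_lit 260) (nat_lit 5) (nat_lit 276) (nat_lit 5) (nat_lit 277) (nat_lit 5) (nat_lit 393) (nat_lit 387) (nat_lit 240)) (XT.lf (nat_lit 0) (nat_lit 3295459455) (nat_lit 1216) (nat_lit 849078797)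 (nat_lit 1292) (nat_lit 14125213985) (nat_lit 260) (nat_lit 5) (nat_lit 276) (nat_lit 5) (nat_lit 277) (nat_lit 5) (nat_lit 394) (nat_lit 387) (nat_lit 239)))) (XT.nd (nat_lit 156) (nat_lit 0) (nat_lit 76) (XT.nd (nat_lit 78) (nat_lit 0) (nat_lit 0) (XT.lf (nat_lit 0) (nat_lit 4198064045) (nat_lit 1216) (nat_lit 10011608442) (nat_lit 1292) (nat_lit 4336867903) (nat_lit 261) (nat_lit 5) (nat_lit 277) (nat_lit 5) (nat_lit 278) (nat_lit 5) (nat_lit 395) (nat_lit 387) (nat_lit 238)) (XT.lf (nat_lit 0) (nat_lit 5169686673) (nat_lit 1216) (nat_lit 660013734) (nat_lit 1292) (nat_lit 13000676102) (nat_lit 261) (nat_lit 5) (nat_lit 277) (nat_lit 5) (nat_lit 278) (nat_lit 5) (nat_lit 396) (nat_lit 387) (nat_lit 237))) (XT.nd (nat_lit 78) (nat_lit 0) (nat_lit 0) (XT.lf (nat_lit 0) (nat_lit 6278664409) (nat_lit 1216) (nat_lit 10002785103) (nat_lit 1292) (nat_lit 2838034450) (nat_lit 262) (nat_lit 5) (nat_lit 278) (nat_lit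 5) (nat_lit 279) (nat_lit 5) (nat_lit 397) (nat_lit 387) (nat_lit 236)) (XT.lf (nat_lit 0) (nat_lit 7478024346) (nat_lit 1216) (nat_lit 280031071) (nat_lit 1292) (nat_lit 11657498210) (nat_lit 262) (nat_lit 5) (nat_lit 278) (nat_lit 5) (nat_lit 279) (nat_lit 5) (nat_lit 398) (nat_lit 387) (nat_lit 235))))) (XT.nd (nat_lit 234) (nat_lit 1064) (nat_lit 0) (XT.nd (nat_lit 78) (nat_lit 0) (nat_lit 0) (XT.lf (nat_lit 0) (nat_lit 8812401893) (nat_lit 1216) (nat_lit 9805867566) (nat_lit 1292) (nat_lit 1099267124) (nat_lit 263) (nat_lit 5) (nat_lit 279) (nat_lit 5) (nat_lit 280) (nat_lit 5) (nat_lit 399) (nat_lit 387) (nat_lit 234)) (XT.nd (nat_lit 78) (nat_lit 0) (nat_lit 0) (XT.lf (nat_lit 76) (nat_lit 310136155) (nat_lit 0) (nat_lit 9952374206) (nat_lit 1292) (nat_lit 9763799914) (nat_lit 264) (nat_lit 5) (nat_lit 263) (nat_lit 5) (nat_lit 280) (nat_lit 5) (nat_lit 400) (nat_lit 387) (nat_lit 233)) (XT.lf (nat_lit 76)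 (nat_lit 10925242442) (nat_lit 0) (nat_lit 923100490) (nat_lit 1292) (nat_lit 8493239794) (nat_lit 264) (nat_lit 5) (nat_lit 263) (nat_lit 5) (nat_lit 280) (nat_lit 5) (nat_lit 401) (nat_lit 387) (nat_lit 232)))) (XT.nd (nat_lit 156) (nat_lit 1140) (nat_lit 0) (XT.nd (nat_lit 78) (nat_lit 0) (nat_lit 0) (XT.lf (nat_lit 76) (nat_lit 1128540522) (nat_lit 0) (nat_lit 12437995539) (nat_lit 1292) (nat_lit 7097235831) (nat_lit 265) (nat_lit 5) (nat_lit 264) (nat_lit 5) (nat_lit 281) (nat_lit 5) (nat_lit 402) (nat_lit 387) (nat_lit 231)) (XT.lf (nat_lit 76) (nat_lit 12168080781) (nat_lit 0) (nat_lit 3265882856) (nat_lit 1292) (nat_lit 5558734485) (nat_lit 265) (nat_lit 5) (nat_lit 264) (nat_lit 5) (nat_lit 281) (nat_lit 5) (nat_lit 403) (nat_lit 387) (nat_lit 230))) (XT.nd (nat_lit 78) (nat_lit 0) (nat_lit 0) (XT.lf (nat_lit 0) (nat_lit 2185101128) (nat_lit 1216) (nat_lit 15246486513) (nat_lit 1292) (nat_lit 3897681276)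 (nat_lit 249) (nat_lit 5) (nat_lit 265) (nat_lit 5) (nat_lit 266) (nat_lit 5) (nat_lit 404) (nat_lit 387) (nat_lit 229)) (XT.lf (nat_lit 0) (nat_lit 13667647576) (nat_lit 1216) (nat_lit 5936502647) (nat_lit 1292) (nat_lit 2068338248) (nat_lit 249) (nat_lit 5) (nat_lit 265) (nat_lit 5) (nat_lit 266) (nat_lit 5) (nat_lit 405) (nat_lit 387) (nat_lit 228)))))) (XT.nd (nat_lit 546) (nat_lit 2052) (nat_lit 0) (XT.nd (nat_lit 234) (nat_lit 1140) (nat_lit 0) (XT.nd (nat_lit 78) (nat_lit 684) (nat_lit 0) (XT.lf (nat_lit 0) (nat_lit 3496368915) (nat_lit 684) (nat_lit 18408307983) (nat_lit 760) (nat_lit 119445971) (nat_lit 240) (nat_lit 5) (nat_lit 249) (nat_lit 5) (nat_lit 250) (nat_lit 5) (nat_lit 406) (nat_lit 387) (nat_lit 227)) (XT.nd (nat_lit 78) (nat_lit 608) (nat_lit 0) (XT.lf (nat_lit 0) (nat_lit 1985611099) (nat_lit 760) (nat_lit 6960376724) (nat_lit 76) (nat_lit 13435739669) (nat_lit 239) (nat_lit 5) (nat_lit 249)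 (nat_lit 5) (nat_lit 240) (nat_lit 5) (nat_lit 407) (nat_lit 387) (nat_lit 226)) (XT.lf (nat_lit 0) (nat_lit 4202410222) (nat_lit 684) (nat_lit 17710942458) (nat_lit 76) (nat_lit 835144076) (nat_lit 231) (nat_lit 5) (nat_lit 240) (nat_lit 5) (nat_lit 232) (nat_lit 5) (nat_lit 408) (nat_lit 387) (nat_lit 225)))) (XT.nd (nat_lit 156) (nat_lit 532) (nat_lit 0) (XT.nd (nat_lit 78) (nat_lit 608) (nat_lit 0) (XT.lf (nat_lit 0) (nat_lit 6639686347) (nat_lit 684) (nat_lit 5680763582) (nat_lit 76) (nat_lit 10801201643) (nat_lit 231) (nat_lit 5) (nat_lit 240) (nat_lit 5) (nat_lit 232) (nat_lit 5) (nat_lit 409) (nat_lit 387) (nat_lit 224)) (XT.lf (nat_lit 0) (nat_lit 6838485322) (nat_lit 608) (nat_lit 2371910585) (nat_lit 684) (nat_lit 14293797288) (nat_lit 223) (nat_lit 5) (nat_lit 231) (nat_lit 5) (nat_lit 232) (nat_lit 5) (nat_lit 410) (nat_lit 387) (nat_lit 223))) (XT.nd (nat_lit 78) (nat_lit 532) (nat_lit 0) (XT.lf (nat_lit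 0) (nat_lit 11986547335) (nat_lit 684) (nat_lit 4128385296) (nat_lit 76) (nat_lit 7779430387) (nat_lit 223) (nat_lit 5) (nat_lit 232) (nat_lit 5) (nat_lit 224) (nat_lit 5) (nat_lit 411) (nat_lit 387) (nat_lit 222)) (XT.lf (nat_lit 0) (nat_lit 8930609156) (nat_lit 532) (nat_lit 6019547519) (nat_lit 608) (nat_lit 9342957583) (nat_lit 216) (nat_lit 5) (nat_lit 223) (nat_lit 5) (nat_lit 224) (nat_lit 5) (nat_lit 412) (nat_lit 387) (nat_lit 221))))) (XT.nd (nat_lit 312) (nat_lit 988) (nat_lit 0) (XT.nd (nat_lit 156) (nat_lit 532) (nat_lit 0) (XT.nd (nat_lit 78) (nat_lit 532) (nat_lit 0) (XT.lf (nat_lit 0) (nat_lit 18081808242) (nat_lit 608) (nat_lit 2284412172) (nat_lit 76) (nat_lit 4335235083) (nat_lit 216) (nat_lit 5) (nat_lit 224) (nat_lit 5) (nat_lit 217) (nat_lit 5) (nat_lit 413) (nat_lit 387) (nat_lit 220)) (XT.lf (nat_lit 0) (nat_lit 11342581406) (nat_lit 532) (nat_lit 10128548440) (nat_lit 608) (nat_lit 3646006948)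 (nat_lit 209) (nat_lit 5) (nat_lit 216) (nat_lit 5) (nat_lit 217) (nat_lit 5) (nat_lit 414) (nat_lit 387) (nat_lit 219))) (XT.nd (nat_lit 78) (nat_lit 532) (nat_lit 0) (XT.lf (nat_lit 0) (nat_lit 24984608824) (nat_lit 608) (nat_lit 128882619) (nat_lit 76) (nat_lit 431124149) (nat_lit 209) (nat_lit 5) (nat_lit 217) (nat_lit 5) (nat_lit 210) (nat_lit 5) (nat_lit 415) (nat_lit 387) (nat_lit 218)) (XT.lf (nat_lit 0) (nat_lit 2800863085) (nat_lit 532) (nat_lit 11909624569) (nat_lit 76) (nat_lit 11266675650) (nat_lit 202) (nat_lit 5) (nat_lit 209) (nat_lit 5) (nat_lit 203) (nat_lit 5) (nat_lit 416) (nat_lit 387) (nat_lit 217)))) (XT.nd (nat_lit 156) (nat_lit 456) (nat_lit 0) (XT.nd (nat_lit 78) (nat_lit 0) (nat_lit 0) (XT.lf (nat_lit 0) (nat_lit 2304090478) (nat_lit 532) (nat_lit 3966036850) (nat_lit 608) (nat_lit 20151830341) (nat_lit 195) (nat_lit 5) (nat_lit 202) (nat_lit 5) (nat_lit 203) (nat_lit 5) (nat_lit 417)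 (nat_lit 387) (nat_lit 216)) (XT.lf (nat_lit 0) (nat_lit 10028622671) (nat_lit 608) (nat_lit 9762824112) (nat_lit 76) (nat_lit 7083095726) (nat_lit 195) (nat_lit 5) (nat_lit 203) (nat_lit 5) (nat_lit 196) (nat_lit 5) (nat_lit 418) (nat_lit 387) (nat_lit 215))) (XT.nd (nat_lit 78) (nat_lit 0) (nat_lit 0) (XT.lf (nat_lit 0) (nat_lit 5077596108) (nat_lit 456) (nat_lit 8905928035) (nat_lit 532) (nat_lit 13354672416) (nat_lit 189) (nat_lit 5) (nat_lit 195) (nat_lit 5) (nat_lit 196) (nat_lit 5) (nat_lit 419) (nat_lit 387) (nat_lit 214)) (XT.lf (nat_lit 0) (nat_lit 18174450725) (nat_lit 532) (nat_lit 7277753293) (nat_lit 76) (nat_lit 2360036037) (nat_lit 189) (nat_lit 5) (nat_lit 196) (nat_lit 5) (nat_lit 190) (nat_lit 5) (nat_lit 420) (nat_lit 387) (nat_lit 213))))))))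
noncomputable def xc202 : XT := (XT.nd (nat_lit 2262) (nat_lit 3344) (nat_lit 0) (XT.nd (nat_lit 1092) (nat_lit 2888) (nat_lit 0) (XT.nd (nat_lit 546) (nat_lit 1520) (nat_lit 0) (XT.nd (nat_lit 234) (nat_lit 836) (nat_lit 0) (XT.nd (nat_lit 78) (nat_lit 532) (nat_lit 0) (XT.lf (nat_lit 0) (nat_lit 8221826004) (nat_lit 456) (nat_lit 14432264979) (nat_lit 532) (nat_lit 5641525431) (nat_lit 183) (nat_lit 5) (nat_lit 189) (nat_lit 5) (nat_lit 190) (nat_lit 5) (nat_lit 421) (nat_lit 387) (nat_lit 212)) (XT.nd (nat_lit 78) (nat_lit 532) (nat_lit 0) (XT.lf (nat_lit 0) (nat_lit 24330615428) (nat_lit 456) (nat_lit 3006846548) (nat_lit 532) (nat_lit 1453952943) (nat_lit 183) (nat_lit 5) (nat_lit 189) (nat_lit 5) (nat_lit 190) (nat_lit 5) (nat_lit 422) (nat_lit 387) (nat_lit 211)) (XT.lf (nat_lit 0) (nat_lit 2998600969) (nat_lit 532) (nat_lit 17564763333) (nat_lit 76) (nat_lit 8732045116) (nat_lit 176) (nat_lit 5) (nat_lit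 183) (nat_lit 5) (nat_lit 177) (nat_lit 5) (nat_lit 423) (nat_lit 387) (nat_lit 210)))) (XT.nd (nat_lit 156) (nat_lit 380) (nat_lit 0) (XT.nd (nat_lit 78) (nat_lit 456) (nat_lit 0) (XT.lf (nat_lit 0) (nat_lit 7626764628) (nat_lit 532) (nat_lit 1363473835) (nat_lit 76) (nat_lit 20821716745) (nat_lit 176) (nat_lit 5) (nat_lit 183) (nat_lit 5) (nat_lit 177) (nat_lit 5) (nat_lit 424) (nat_lit 387) (nat_lit 209)) (XT.lf (nat_lit 0) (nat_lit 12569714302) (nat_lit 532) (nat_lit 14745341576) (nat_lit 76) (nat_lit 3023664237) (nat_lit 170) (nat_lit 5) (nat_lit 177) (nat_lit 5) (nat_lit 171) (nat_lit 5) (nat_lit 425) (nat_lit 387) (nat_lit 208))) (XT.nd (nat_lit 78) (nat_lit 0) (nat_lit 0) (XT.lf (nat_lit 0) (nat_lit 2154014746) (nat_lit 380) (nat_lit 15626729396) (nat_lit 456) (nat_lit 13096951027) (nat_lit 165) (nat_lit 5) (nat_lit 170) (nat_lit 5) (nat_lit 171) (nat_lit 5) (nat_lit 426) (nat_lit 387) (nat_lit 207)) (XT.lf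 (nat_lit 0) (nat_lit 19857783955) (nat_lit 380) (nat_lit 3435454060) (nat_lit 456) (nat_lit 8135248387) (nat_lit 165) (nat_lit 5) (nat_lit 170) (nat_lit 5) (nat_lit 171) (nat_lit 5) (nat_lit 427) (nat_lit 387) (nat_lit 206))))) (XT.nd (nat_lit 234) (nat_lit 684) (nat_lit 0) (XT.nd (nat_lit 78) (nat_lit 456) (nat_lit 0) (XT.lf (nat_lit 0) (nat_lit 6123889282) (nat_lit 380) (nat_lit 22990099833) (nat_lit 456) (nat_lit 2877526680) (nat_lit 160) (nat_lit 5) (nat_lit 165) (nat_lit 5) (nat_lit 166) (nat_lit 5) (nat_lit 428) (nat_lit 387) (nat_lit 205)) (XT.nd (nat_lit 78) (nat_lit 380) (nat_lit 0) (XT.lf (nat_lit 0) (nat_lit 2636773683) (nat_lit 456) (nat_lit 8045810395) (nat_lit 76) (nat_lit 21883669820) (nat_lit 159) (nat_lit 5) (nat_lit 165) (nat_lit 5) (nat_lit 160) (nat_lit 5) (nat_lit 429) (nat_lit 387) (nat_lit 204)) (XT.lf (nat_lit 0) (nat_lit 8376329622) (nat_lit 456) (nat_lit 22692867910) (nat_lit 76) (nat_lit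 2084652859) (nat_lit 154) (nat_lit 5) (nat_lit 160) (nat_lit 5) (nat_lit 155) (nat_lit 5) (nat_lit 430) (nat_lit 387) (nat_lit 203)))) (XT.nd (nat_lit 156) (nat_lit 304) (nat_lit 0) (XT.nd (nat_lit 78) (nat_lit 380) (nat_lit 0) (XT.lf (nat_lit 0) (nat_lit 14472403577) (nat_lit 456) (nat_lit 4180026394) (nat_lit 76) (nat_lit 15101115664) (nat_lit 154) (nat_lit 5) (nat_lit 160) (nat_lit 5) (nat_lit 155) (nat_lit 5) (nat_lit 431) (nat_lit 387) (nat_lit 202)) (XT.lf (nat_lit 0) (nat_lit 15179824279) (nat_lit 380) (nat_lit 5714066669) (nat_lit 456) (nat_lit 13473065624) (nat_lit 149) (nat_lit 5) (nat_lit 154) (nat_lit 5) (nat_lit 155) (nat_lit 5) (nat_lit 432) (nat_lit 387) (nat_lit 201))) (XT.nd (nat_lit 78) (nat_lit 0) (nat_lit 0) (XT.lf (nat_lit 0) (nat_lit 133022521) (nat_lit 304) (nat_lit 27488739350) (nat_lit 380) (nat_lit 7373596547) (nat_lit 145) (nat_lit 5) (nat_lit 149) (nat_lit 5) (nat_lit 150) (nat_lit 5)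 (nat_lit 433) (nat_lit 387) (nat_lit 200)) (XT.lf (nat_lit 0) (nat_lit 20363810751) (nat_lit 304) (nat_lit 14434140863) (nat_lit 380) (nat_lit 837266953) (nat_lit 145) (nat_lit 5) (nat_lit 149) (nat_lit 5) (nat_lit 150) (nat_lit 5) (nat_lit 434) (nat_lit 387) (nat_lit 199)))))) (XT.nd (nat_lit 546) (nat_lit 1444) (nat_lit 0) (XT.nd (nat_lit 234) (nat_lit 684) (nat_lit 0) (XT.nd (nat_lit 78) (nat_lit 304) (nat_lit 0) (XT.lf (nat_lit 0) (nat_lit 4942507379) (nat_lit 380) (nat_lit 881893419) (nat_lit 456) (nat_lit 30466845855) (nat_lit 139) (nat_lit 5) (nat_lit 144) (nat_lit 5) (nat_lit 145) (nat_lit 5) (nat_lit 435) (nat_lit 387) (nat_lit 198)) (XT.nd (nat_lit 78) (nat_lit 304) (nat_lit 0) (XT.lf (nat_lit 0) (nat_lit 12947343832) (nat_lit 456) (nat_lit 11026518485) (nat_lit 76) (nat_lit 12984497634) (nat_lit 139) (nat_lit 5) (nat_lit 145) (nat_lit 5) (nat_lit 140) (nat_lit 5) (nat_lit 436) (nat_lit 387) (nat_lit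 197)) (XT.lf (nat_lit 0) (nat_lit 10089086311) (nat_lit 304) (nat_lit 10297507783) (nat_lit 380) (nat_lit 17255814632) (nat_lit 135) (nat_lit 5) (nat_lit 139) (nat_lit 5) (nat_lit 140) (nat_lit 5) (nat_lit 437) (nat_lit 387) (nat_lit 196)))) (XT.nd (nat_lit 156) (nat_lit 380) (nat_lit 0) (XT.nd (nat_lit 78) (nat_lit 304) (nat_lit 0) (XT.lf (nat_lit 0) (nat_lit 28194834072) (nat_lit 380) (nat_lit 6321433687) (nat_lit 76) (nat_lit 3826337466) (nat_lit 135) (nat_lit 5) (nat_lit 140) (nat_lit 5) (nat_lit 136) (nat_lit 5) (nat_lit 438) (nat_lit 387) (nat_lit 195)) (XT.lf (nat_lit 0) (nat_lit 15748433545) (nat_lit 304) (nat_lit 20739255975) (nat_lit 380) (nat_lit 2568607662) (nat_lit 131) (nat_lit 5) (nat_lit 135) (nat_lit 5) (nat_lit 136) (nat_lit 5) (nat_lit 439) (nat_lit 387) (nat_lit 194))) (XT.nd (nat_lit 78) (nat_lit 304) (nat_lit 0) (XT.lf (nat_lit 0) (nat_lit 5197230873) (nat_lit 380) (nat_lit 1234835319) (nat_lit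 76) (nat_lit 33355978442) (nat_lit 130) (nat_lit 5) (nat_lit 135) (nat_lit 5) (nat_lit 131) (nat_lit 5) (nat_lit 440) (nat_lit 387) (nat_lit 193)) (XT.lf (nat_lit 0) (nat_lit 13434195769) (nat_lit 380) (nat_lit 18718862431) (nat_lit 76) (nat_lit 8379230585) (nat_lit 126) (nat_lit 5) (nat_lit 131) (nat_lit 5) (nat_lit 127) (nat_lit 5) (nat_lit 441) (nat_lit 387) (nat_lit 192))))) (XT.nd (nat_lit 312) (nat_lit 836) (nat_lit 0) (XT.nd (nat_lit 156) (nat_lit 304) (nat_lit 0) (XT.nd (nat_lit 78) (nat_lit 0) (nat_lit 0) (XT.lf (nat_lit 0) (nat_lit 4295727984) (nat_lit 304) (nat_lit 17737272850) (nat_lit 380) (nat_lit 19262418031) (nat_lit 122) (nat_lit 5) (nat_lit 126) (nat_lit 5) (nat_lit 127) (nat_lit 5) (nat_lit 442) (nat_lit 387) (nat_lit 191)) (XT.lf (nat_lit 0) (nat_lit 28380263658) (nat_lit 304) (nat_lit 2695733759) (nat_lit 380) (nat_lit 10999859134) (nat_lit 122) (nat_lit 5) (nat_lit 126) (nat_lit 5) (nat_lit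 127) (nat_lit 5) (nat_lit 443) (nat_lit 387) (nat_lit 190))) (XT.nd (nat_lit 78) (nat_lit 76) (nat_lit 0) (XT.lf (nat_lit 0) (nat_lit 10383069123) (nat_lit 228) (nat_lit 30227308085) (nat_lit 304) (nat_lit 2262727872) (nat_lit 119) (nat_lit 5) (nat_lit 122) (nat_lit 5) (nat_lit 123) (nat_lit 5) (nat_lit 444) (nat_lit 387) (nat_lit 189)) (XT.lf (nat_lit 0) (nat_lit 6768706574) (nat_lit 304) (nat_lit 8322270796) (nat_lit 76) (nat_lit 28596442220) (nat_lit 118) (nat_lit 5) (nat_lit 122) (nat_lit 5) (nat_lit 119) (nat_lit 5) (nat_lit 445) (nat_lit 387) (nat_lit 188)))) (XT.nd (nat_lit 156) (nat_lit 532) (nat_lit 0) (XT.nd (nat_lit 78) (nat_lit 0) (nat_lit 0) (XT.lf (nat_lit 0) (nat_lit 16191781065) (nat_lit 380) (nat_lit 27653985777) (nat_lit 76) (nat_lit 674739797) (nat_lit 114) (nat_lit 5) (nat_lit 119) (nat_lit 5) (nat_lit 115) (nat_lit 5) (nat_lit 446) (nat_lit 387) (nat_lit 187)) (XT.lf (nat_lit 0) (nat_lit 26129222458)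 (nat_lit 380) (nat_lit 2548812481) (nat_lit 76) (nat_lit 16693601572) (nat_lit 114) (nat_lit 5) (nat_lit 119) (nat_lit 5) (nat_lit 115) (nat_lit 5) (nat_lit 447) (nat_lit 387) (nat_lit 186))) (XT.nd (nat_lit 78) (nat_lit 304) (nat_lit 0) (XT.lf (nat_lit 0) (nat_lit 23769386710) (nat_lit 228) (nat_lit 12821350704) (nat_lit 304) (nat_lit 9650784797) (nat_lit 111) (nat_lit 5) (nat_lit 114) (nat_lit 5) (nat_lit 115) (nat_lit 5) (nat_lit 448) (nat_lit 387) (nat_lit 185)) (XT.lf (nat_lit 0) (nat_lit 319103820) (nat_lit 304) (nat_lit 43308422987) (nat_lit 76) (nat_lit 3507063032) (nat_lit 107) (nat_lit 5) (nat_lit 111) (nat_lit 5) (nat_lit 108) (nat_lit 5) (nat_lit 449) (nat_lit 387) (nat_lit 184))))))) (XT.nd (nat_lit 1092) (nat_lit 1672) (nat_lit 0) (XT.nd (nat_lit 546) (nat_lit 684) (nat_lit 0) (XT.nd (nat_lit 234) (nat_lit 760) (nat_lit 0) (XT.nd (nat_lit 78) (nat_lit 228) (nat_lit 0) (XT.lf (nat_lit 0) (nat_lit 10747730621)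 (nat_lit 304) (nat_lit 16902299763) (nat_lit 76) (nat_lit 20390944563) (nat_lit 107) (nat_lit 5) (nat_lit 111) (nat_lit 5) (nat_lit 108) (nat_lit 5) (nat_lit 450) (nat_lit 387) (nat_lit 183)) (XT.nd (nat_lit 78) (nat_lit 0) (nat_lit 0) (XT.lf (nat_lit 0) (nat_lit 10496967147) (nat_lit 228) (nat_lit 11090722635) (nat_lit 304) (nat_lit 27383908013) (nat_lit 104) (nat_lit 5) (nat_lit 107) (nat_lit 5) (nat_lit 108) (nat_lit 5) (nat_lit 451) (nat_lit 387) (nat_lit 182)) (XT.lf (nat_lit 0) (nat_lit 32980150780) (nat_lit 304) (nat_lit 10923253002) (nat_lit 76) (nat_lit 6019916833) (nat_lit 104) (nat_lit 5) (nat_lit 108) (nat_lit 5) (nat_lit 105) (nat_lit 5) (nat_lit 452) (nat_lit 387) (nat_lit 181)))) (XT.nd (nat_lit 156) (nat_lit 456) (nat_lit 0) (XT.nd (nat_lit 78) (nat_lit 76) (nat_lit 0) (XT.lf (nat_lit 0) (nat_lit 17686197592) (nat_lit 228) (nat_lit 27305668227) (nat_lit 304) (nat_lit 5903405262) (nat_lit 101) (nat_lit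 5) (nat_lit 104) (nat_lit 5) (nat_lit 105) (nat_lit 5) (nat_lit 453) (nat_lit 387) (nat_lit 180)) (XT.lf (nat_lit 0) (nat_lit 5469925646) (nat_lit 304) (nat_lit 4572663176) (nat_lit 76) (nat_lit 41848942914) (nat_lit 100) (nat_lit 5) (nat_lit 104) (nat_lit 5) (nat_lit 101) (nat_lit 5) (nat_lit 454) (nat_lit 387) (nat_lit 179))) (XT.nd (nat_lit 78) (nat_lit 228) (nat_lit 0) (XT.lf (nat_lit 0) (nat_lit 17384638044) (nat_lit 304) (nat_lit 27630560478) (nat_lit 76) (nat_lit 7891163512) (nat_lit 97) (nat_lit 5) (nat_lit 101) (nat_lit 5) (nat_lit 98) (nat_lit 5) (nat_lit 455) (nat_lit 387) (nat_lit 178)) (XT.lf (nat_lit 0) (nat_lit 2100607458) (nat_lit 228) (nat_lit 27720195028) (nat_lit 304) (nat_lit 24125914763) (nat_lit 94) (nat_lit 5) (nat_lit 97) (nat_lit 5) (nat_lit 98) (nat_lit 5) (nat_lit 456) (nat_lit 387) (nat_lit 177))))) (XT.nd (nat_lit 234) (nat_lit 456) (nat_lit 0) (XT.nd (nat_lit 78) (nat_lit 228) (nat_lit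 0) (XT.lf (nat_lit 0) (nat_lit 33286448525) (nat_lit 228) (nat_lit 9620402689) (nat_lit 304) (nat_lit 12103128244) (nat_lit 94) (nat_lit 5) (nat_lit 97) (nat_lit 5) (nat_lit 98) (nat_lit 5) (nat_lit 457) (nat_lit 387) (nat_lit 176)) (XT.nd (nat_lit 78) (nat_lit 0) (nat_lit 0) (XT.lf (nat_lit 0) (nat_lit 451484707) (nat_lit 228) (nat_lit 46708584442) (nat_lit 76) (nat_lit 8939691440) (nat_lit 91) (nat_lit 5) (nat_lit 94) (nat_lit 5) (nat_lit 92) (nat_lit 5) (nat_lit 458) (nat_lit 387) (nat_lit 175)) (XT.lf (nat_lit 0) (nat_lit 13454106828) (nat_lit 228) (nat_lit 15551888931) (nat_lit 76) (nat_lit 28203205748) (nat_lit 91) (nat_lit 5) (nat_lit 94) (nat_lit 5) (nat_lit 92) (nat_lit 5) (nat_lit 459) (nat_lit 387) (nat_lit 174)))) (XT.nd (nat_lit 156) (nat_lit 228) (nat_lit 0) (XT.nd (nat_lit 78) (nat_lit 0) (nat_lit 0) (XT.lf (nat_lit 0) (nat_lit 16865097641) (nat_lit 228) (nat_lit 10141733591) (nat_lit 304) (nat_lit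 31340293995) (nat_lit 88) (nat_lit 5) (nat_lit 91) (nat_lit 5) (nat_lit 92) (nat_lit 5) (nat_lit 460) (nat_lit 387) (nat_lit 173)) (XT.lf (nat_lit 0) (nat_lit 41211942211) (nat_lit 304) (nat_lit 9035447215) (nat_lit 76) (nat_lit 9264423360) (nat_lit 88) (nat_lit 5) (nat_lit 92) (nat_lit 5) (nat_lit 89) (nat_lit 5) (nat_lit 461) (nat_lit 387) (nat_lit 172))) (XT.nd (nat_lit 78) (nat_lit 76) (nat_lit 0) (XT.lf (nat_lit 0) (nat_lit 24763930511) (nat_lit 152) (nat_lit 31415715888) (nat_lit 228) (nat_lit 4521701643) (nat_lit 86) (nat_lit 5) (nat_lit 88) (nat_lit 5) (nat_lit 89) (nat_lit 5) (nat_lit 462) (nat_lit 387) (nat_lit 171)) (XT.lf (nat_lit 0) (nat_lit 9571250058) (nat_lit 228) (nat_lit 2258607402) (nat_lit 76) (nat_lit 50091219666) (nat_lit 85) (nat_lit 5) (nat_lit 88) (nat_lit 5) (nat_lit 86) (nat_lit 5) (nat_lit 463) (nat_lit 387) (nat_lit 170)))))) (XT.nd (nat_lit 546) (nat_lit 912) (nat_lit 0) (XT.nd (nat_lit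 234) (nat_lit 380) (nat_lit 0) (XT.nd (nat_lit 78) (nat_lit 152) (nat_lit 0) (XT.lf (nat_lit 0) (nat_lit 24395406266) (nat_lit 304) (nat_lit 30223421502) (nat_lit 76) (nat_lit 8545248547) (nat_lit 82) (nat_lit 5) (nat_lit 86) (nat_lit 5) (nat_lit 83) (nat_lit 5) (nat_lit 464) (nat_lit 387) (nat_lit 169)) (XT.nd (nat_lit 78) (nat_lit 0) (nat_lit 0) (XT.lf (nat_lit 0) (nat_lit 4770917890) (nat_lit 152) (nat_lit 35077448540) (nat_lit 228) (nat_lit 24590476909) (nat_lit 80) (nat_lit 5) (nat_lit 82) (nat_lit 5) (nat_lit 83) (nat_lit 5) (nat_lit 465) (nat_lit 387) (nat_lit 168)) (XT.lf (nat_lit 0) (nat_lit 41431331055) (nat_lit 152) (nat_lit 14636864090) (nat_lit 228) (nat_lit 9674560066) (nat_lit 80) (nat_lit 5) (nat_lit 82) (nat_lit 5) (nat_lit 83) (nat_lit 5) (nat_lit 466) (nat_lit 387) (nat_lit 167)))) (XT.nd (nat_lit 156) (nat_lit 152) (nat_lit 0) (XT.nd (nat_lit 78) (nat_lit 0) (nat_lit 0) (XT.lf (nat_lit 0) (nat_lit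 5757441636) (nat_lit 228) (nat_lit 54856423323) (nat_lit 76) (nat_lit 6464890650) (nat_lit 77) (nat_lit 5) (nat_lit 80) (nat_lit 5) (nat_lit 78) (nat_lit 5) (nat_lit 467) (nat_lit 387) (nat_lit 166)) (XT.lf (nat_lit 0) (nat_lit 21848932570) (nat_lit 228) (nat_lit 18343406372) (nat_lit 76) (nat_lit 28247894307) (nat_lit 77) (nat_lit 5) (nat_lit 80) (nat_lit 5) (nat_lit 78) (nat_lit 5) (nat_lit 468) (nat_lit 387) (nat_lit 165))) (XT.nd (nat_lit 78) (nat_lit 0) (nat_lit 0) (XT.lf (nat_lit 0) (nat_lit 19645185106) (nat_lit 152) (nat_lit 18965009541) (nat_lit 228) (nat_lit 31226749983) (nat_lit 75) (nat_lit 5) (nat_lit 77) (nat_lit 5) (nat_lit 78) (nat_lit 5) (nat_lit 469) (nat_lit 387) (nat_lit 164)) (XT.lf (nat_lit 0) (nat_lit 56087424054) (nat_lit 228) (nat_lit 12153420850) (nat_lit 76) (nat_lit 3028318764) (nat_lit 75) (nat_lit 5) (nat_lit 78) (nat_lit 5) (nat_lit 76) (nat_lit 5) (nat_lit 470) (nat_lit 387) (nat_lit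 163))))) (XT.nd (nat_lit 312) (nat_lit 380) (nat_lit 0) (XT.nd (nat_lit 156) (nat_lit 304) (nat_lit 0) (XT.nd (nat_lit 78) (nat_lit 0) (nat_lit 0) (XT.lf (nat_lit 0) (nat_lit 1771939131) (nat_lit 228) (nat_lit 45378961037) (nat_lit 76) (nat_lit 25579454842) (nat_lit 72) (nat_lit 5) (nat_lit 75) (nat_lit 5) (nat_lit 73) (nat_lit 5) (nat_lit 471) (nat_lit 387) (nat_lit 162)) (XT.lf (nat_lit 0) (nat_lit 19051282843) (nat_lit 228) (nat_lit 6095829886) (nat_lit 76) (nat_lit 49080094340) (nat_lit 72) (nat_lit 5) (nat_lit 75) (nat_lit 5) (nat_lit 73) (nat_lit 5) (nat_lit 472) (nat_lit 387) (nat_lit 161))) (XT.nd (nat_lit 78) (nat_lit 152) (nat_lit 0) (XT.lf (nat_lit 0) (nat_lit 35046685507) (nat_lit 152) (nat_lit 2137514174) (nat_lit 228) (nat_lit 38574709401) (nat_lit 70) (nat_lit 5) (nat_lit 72) (nat_lit 5) (nat_lit 73) (nat_lit 5) (nat_lit 473) (nat_lit 387) (nat_lit 160)) (XT.lf (nat_lit 0) (nat_lit 2890207) (nat_lit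 152) (nat_lit 56125988844) (nat_lit 228) (nat_lit 21199650024) (nat_lit 68) (nat_lit 5) (nat_lit 70) (nat_lit 5) (nat_lit 71) (nat_lit 5) (nat_lit 474) (nat_lit 387) (nat_lit 159)))) (XT.nd (nat_lit 156) (nat_lit 152) (nat_lit 0) (XT.nd (nat_lit 78) (nat_lit 228) (nat_lit 0) (XT.lf (nat_lit 0) (nat_lit 42749457404) (nat_lit 152) (nat_lit 33322842772) (nat_lit 228) (nat_lit 2860025618) (nat_lit 68) (nat_lit 5) (nat_lit 70) (nat_lit 5) (nat_lit 71) (nat_lit 5) (nat_lit 475) (nat_lit 387) (nat_lit 158)) (XT.lf (nat_lit 0) (nat_lit 6157326696) (nat_lit 152) (nat_lit 9617214040) (nat_lit 228) (nat_lit 64803346627) (nat_lit 65) (nat_lit 5) (nat_lit 67) (nat_lit 5) (nat_lit 68) (nat_lit 5) (nat_lit 476) (nat_lit 387) (nat_lit 157))) (XT.nd (nat_lit 78) (nat_lit 152) (nat_lit 0) (XT.lf (nat_lit 0) (nat_lit 35420288331) (nat_lit 228) (nat_lit 31929540566) (nat_lit 76) (nat_lit 14906848683) (nat_lit 65) (nat_lit 5) (nat_lit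 68) (nat_lit 5) (nat_lit 66) (nat_lit 5) (nat_lit 477) (nat_lit 387) (nat_lit 156)) (XT.lf (nat_lit 0) (nat_lit 11971757934) (nat_lit 152) (nat_lit 43892369322) (nat_lit 228) (nat_lit 28115442829) (nat_lit 63) (nat_lit 5) (nat_lit 65) (nat_lit 5) (nat_lit 66) (nat_lit 5) (nat_lit 478) (nat_lit 387) (nat_lit 155))))))))
noncomputable def xc203 : XT := (XT.nd (nat_lit 47970) (nat_lit 0) (nat_lit 5472) (XT.nd (nat_lit 46800) (nat_lit 0) (nat_lit 12540) (XT.nd (nat_lit 46254) (nat_lit 0) (nat_lit 15200) (XT.nd (nat_lit 234) (nat_lit 152) (nat_lit 0) (XT.nd (nat_lit 78) (nat_lit 228) (nat_lit 0) (XT.lf (nat_lit 0) (nat_lit 57841803174) (nat_lit 152) (nat_lit 19400341999) (nat_lit 228) (nat_lit 8502378419) (nat_lit 63) (nat_lit 5) (nat_lit 65) (nat_lit 5) (nat_lit 66) (nat_lit 5) (nat_lit 479) (nat_lit 387) (nat_lit 154)) (XT.nd (nat_lit 78) (nat_lit 0) (nat_lit 0) (XT.lf (nat_lit 0) (nat_lit 11698743358) (nat_lit 228)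 (nat_lit 69855976896) (nat_lit 76) (nat_lit 5997493128) (nat_lit 60) (nat_lit 5) (nat_lit 63) (nat_lit 5) (nat_lit 61) (nat_lit 5) (nat_lit 480) (nat_lit 387) (nat_lit 153)) (XT.lf (nat_lit 0) (nat_lit 32810119424) (nat_lit 228) (nat_lit 24452366484) (nat_lit 76) (nat_lit 32134869329) (nat_lit 60) (nat_lit 5) (nat_lit 63) (nat_lit 5) (nat_lit 61) (nat_lit 5) (nat_lit 481) (nat_lit 387) (nat_lit 152)))) (XT.nd (nat_lit 45864) (nat_lit 0) (nat_lit 15124) (XT.nd (nat_lit 45786) (nat_lit 0) (nat_lit 15124) (XT.lf (nat_lit 0) (nat_lit 22754687148) (nat_lit 152) (nat_lit 32017400948) (nat_lit 228) (nat_lit 36519245839) (nat_lit 58) (nat_lit 5) (nat_lit 60) (nat_lit 5) (nat_lit 61) (nat_lit 5) (nat_lit 482) (nat_lit 387) (nat_lit 151)) (XT.lf (nat_lit 0) (nat_lit 76635216) (nat_lit 1292) (nat_lit 4202938380) (nat_lit 1292) (nat_lit 4202938380) (nat_lit 257) (nat_lit 3) (nat_lit 274) (nat_lit 3) (nat_lit 274) (nat_lit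 5) (nat_lit 388) (nat_lit 388) (nat_lit 244))) (XT.nd (nat_lit 78) (nat_lit 0) (nat_lit 76) (XT.lf (nat_lit 0) (nat_lit 384285675) (nat_lit 1292) (nat_lit 160253853) (nat_lit 1292) (nat_lit 16668023497) (nat_lit 257) (nat_lit 3) (nat_lit 274) (nat_lit 3) (nat_lit 274) (nat_lit 5) (nat_lit 389) (nat_lit 388) (nat_lit 243)) (XT.lf (nat_lit 0) (nat_lit 769921751) (nat_lit 1216) (nat_lit 9046432011) (nat_lit 1292) (nat_lit 7646746714) (nat_lit 258) (nat_lit 5) (nat_lit 274) (nat_lit 5) (nat_lit 275) (nat_lit 5) (nat_lit 390) (nat_lit 388) (nat_lit 242))))) (XT.nd (nat_lit 234) (nat_lit 0) (nat_lit 152) (XT.nd (nat_lit 78) (nat_lit 0) (nat_lit 76) (XT.lf (nat_lit 0) (nat_lit 1165482680) (nat_lit 1216) (nat_lit 477186940) (nat_lit 1292) (nat_lit 16078536593) (nat_lit 258) (nat_lit 5) (nat_lit 274) (nat_lit 5) (nat_lit 275) (nat_lit 5) (nat_lit 391) (nat_lit 388) (nat_lit 241)) (XT.nd (nat_lit 78) (nat_lit 0) (nat_lit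 0) (XT.lf (nat_lit 0) (nat_lit 1712283796) (nat_lit 1216) (nat_lit 9540349101) (nat_lit 1292) (nat_lit 6730243776) (nat_lit 259) (nat_lit 5) (nat_lit 275) (nat_lit 5) (nat_lit 276) (nat_lit 5) (nat_lit 392) (nat_lit 388) (nat_lit 240)) (XT.lf (nat_lit 0) (nat_lit 2288436285) (nat_lit 1216) (nat_lit 633902075) (nat_lit 1292) (nat_lit 15329673138) (nat_lit 259) (nat_lit 5) (nat_lit 275) (nat_lit 5) (nat_lit 276) (nat_lit 5) (nat_lit 393) (nat_lit 388) (nat_lit 239)))) (XT.nd (nat_lit 156) (nat_lit 0) (nat_lit 76) (XT.nd (nat_lit 78) (nat_lit 0) (nat_lit 0) (XT.lf (nat_lit 0) (nat_lit 3012849871) (nat_lit 1216) (nat_lit 9877405057) (nat_lit 1292) (nat_lit 5635038737) (nat_lit 260) (nat_lit 5) (nat_lit 276) (nat_lit 5) (nat_lit 277) (nat_lit 5) (nat_lit 394) (nat_lit 388) (nat_lit 238)) (XT.lf (nat_lit 0) (nat_lit 3786664162) (nat_lit 1216) (nat_lit 619478007) (nat_lit 1292) (nat_lit 14399804599) (nat_lit 260) (nat_lit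 5) (nat_lit 276) (nat_lit 5) (nat_lit 277) (nat_lit 5) (nat_lit 395) (nat_lit 388) (nat_lit 237))) (XT.nd (nat_lit 78) (nat_lit 0) (nat_lit 0) (XT.lf (nat_lit 0) (nat_lit 4706090333) (nat_lit 1216) (nat_lit 10046502898) (nat_lit 1292) (nat_lit 4338756752) (nat_lit 261) (nat_lit 5) (nat_lit 277) (nat_lit 5) (nat_lit 278) (nat_lit 5) (nat_lit 396) (nat_lit 388) (nat_lit 236)) (XT.lf (nat_lit 0) (nat_lit 5695732969) (nat_lit 1216) (nat_lit 422092013) (nat_lit 1292) (nat_lit 13266213678) (nat_lit 261) (nat_lit 5) (nat_lit 277) (nat_lit 5) (nat_lit 278) (nat_lit 5) (nat_lit 397) (nat_lit 388) (nat_lit 235)))))) (XT.nd (nat_lit 546) (nat_lit 2964) (nat_lit 0) (XT.nd (nat_lit 234) (nat_lit 0) (nat_lit 76) (XT.nd (nat_lit 78) (nat_lit 0) (nat_lit 0) (XT.lf (nat_lit 0) (nat_lit 6828596118) (nat_lit 1216) (nat_lit 10035645640) (nat_lit 1292) (nat_lit 2817862606) (nat_lit 262) (nat_lit 5) (nat_lit 278) (nat_lit 5) (nat_lit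 279) (nat_lit 5) (nat_lit 398) (nat_lit 388) (nat_lit 234)) (XT.nd (nat_lit 78) (nat_lit 0) (nat_lit 76) (XT.lf (nat_lit 0) (nat_lit 8053405637) (nat_lit 1216) (nat_lit 28992181) (nat_lit 1292) (nat_lit 11904977644) (nat_lit 262) (nat_lit 5) (nat_lit 278) (nat_lit 5) (nat_lit 279) (nat_lit 5) (nat_lit 399) (nat_lit 388) (nat_lit 233)) (XT.lf (nat_lit 0) (nat_lit 9419229045) (nat_lit 1216) (nat_lit 9831908058) (nat_lit 1292) (nat_lit 1047541674) (nat_lit 263) (nat_lit 5) (nat_lit 279) (nat_lit 5) (nat_lit 280) (nat_lit 5) (nat_lit 400) (nat_lit 388) (nat_lit 232)))) (XT.nd (nat_lit 156) (nat_lit 0) (nat_lit 76) (XT.nd (nat_lit 78) (nat_lit 0) (nat_lit 0) (XT.lf (nat_lit 76) (nat_lit 584946995) (nat_lit 0) (nat_lit 10320471566) (nat_lit 1292) (nat_lit 9711522997) (nat_lit 264) (nat_lit 5) (nat_lit 263) (nat_lit 5) (nat_lit 280) (nat_lit 5) (nat_lit 401) (nat_lit 388) (nat_lit 231)) (XT.lf (nat_lit 76) (nat_lit 11510773265)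 (nat_lit 0) (nat_lit 1018294606) (nat_lit 1292) (nat_lit 8412900178) (nat_lit 264) (nat_lit 5) (nat_lit 263) (nat_lit 5) (nat_lit 280) (nat_lit 5) (nat_lit 402) (nat_lit 388) (nat_lit 230))) (XT.nd (nat_lit 78) (nat_lit 0) (nat_lit 0) (XT.lf (nat_lit 76) (nat_lit 1428051068) (nat_lit 0) (nat_lit 12863205374) (nat_lit 1292) (nat_lit 6982795984) (nat_lit 265) (nat_lit 5) (nat_lit 264) (nat_lit 5) (nat_lit 281) (nat_lit 5) (nat_lit 403) (nat_lit 388) (nat_lit 229)) (XT.lf (nat_lit 76) (nat_lit 12791040030) (nat_lit 0) (nat_lit 3414412710) (nat_lit 1292) (nat_lit 5407674265) (nat_lit 265) (nat_lit 5) (nat_lit 264) (nat_lit 5) (nat_lit 281) (nat_lit 5) (nat_lit 404) (nat_lit 388) (nat_lit 228))))) (XT.nd (nat_lit 312) (nat_lit 1216) (nat_lit 0) (XT.nd (nat_lit 156) (nat_lit 760) (nat_lit 0) (XT.nd (nat_lit 78) (nat_lit 0) (nat_lit 0) (XT.lf (nat_lit 0) (nat_lit 2515783951) (nat_lit 1216) (nat_lit 15740313738) (nat_lit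 1292) (nat_lit 3703907321) (nat_lit 249) (nat_lit 5) (nat_lit 265) (nat_lit 5) (nat_lit 266) (nat_lit 5) (nat_lit 405) (nat_lit 388) (nat_lit 227)) (XT.lf (nat_lit 0) (nat_lit 14335084565) (nat_lit 1216) (nat_lit 6149969212) (nat_lit 1292) (nat_lit 1828733645) (nat_lit 249) (nat_lit 5) (nat_lit 265) (nat_lit 5) (nat_lit 266) (nat_lit 5) (nat_lit 406) (nat_lit 388) (nat_lit 226))) (XT.nd (nat_lit 78) (nat_lit 0) (nat_lit 0) (XT.lf (nat_lit 0) (nat_lit 168754731) (nat_lit 760) (nat_lit 18812548287) (nat_lit 76) (nat_lit 3694810484) (nat_lit 239) (nat_lit 5) (nat_lit 249) (nat_lit 5) (nat_lit 240) (nat_lit 5) (nat_lit 407) (nat_lit 388) (nat_lit 225)) (XT.lf (nat_lit 0) (nat_lit 2326134126) (nat_lit 760) (nat_lit 6907192247) (nat_lit 76) (nat_lit 13811339805) (nat_lit 239) (nat_lit 5) (nat_lit 249) (nat_lit 5) (nat_lit 240) (nat_lit 5) (nat_lit 408) (nat_lit 388) (nat_lit 224)))) (XT.nd (nat_lit 156) (nat_lit 608)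 (nat_lit 0) (XT.nd (nat_lit 78) (nat_lit 0) (nat_lit 0) (XT.lf (nat_lit 0) (nat_lit 4603595605) (nat_lit 684) (nat_lit 17974351297) (nat_lit 76) (nat_lit 844669328) (nat_lit 231) (nat_lit 5) (nat_lit 240) (nat_lit 5) (nat_lit 232) (nat_lit 5) (nat_lit 409) (nat_lit 388) (nat_lit 223)) (XT.lf (nat_lit 0) (nat_lit 7105977011) (nat_lit 684) (nat_lit 5591070534) (nat_lit 76) (nat_lit 11110160925) (nat_lit 231) (nat_lit 5) (nat_lit 240) (nat_lit 5) (nat_lit 232) (nat_lit 5) (nat_lit 410) (nat_lit 388) (nat_lit 222))) (XT.nd (nat_lit 78) (nat_lit 0) (nat_lit 0) (XT.lf (nat_lit 0) (nat_lit 7301205681) (nat_lit 608) (nat_lit 2447298443) (nat_lit 684) (nat_lit 14452883650) (nat_lit 223) (nat_lit 5) (nat_lit 231) (nat_lit 5) (nat_lit 232) (nat_lit 5) (nat_lit 411) (nat_lit 388) (nat_lit 221)) (XT.lf (nat_lit 0) (nat_lit 12600275477) (nat_lit 684) (nat_lit 3994433280) (nat_lit 76) (nat_lit 8008786126) (nat_lit 223) (nat_lit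 5) (nat_lit 232) (nat_lit 5) (nat_lit 224) (nat_lit 5) (nat_lit 412) (nat_lit 388) (nat_lit 220))))))) (XT.nd (nat_lit 1092) (nat_lit 3040) (nat_lit 0) (XT.nd (nat_lit 546) (nat_lit 1900) (nat_lit 0) (XT.nd (nat_lit 234) (nat_lit 1064) (nat_lit 0) (XT.nd (nat_lit 78) (nat_lit 532) (nat_lit 0) (XT.lf (nat_lit 0) (nat_lit 9453803520) (nat_lit 532) (nat_lit 6194041552) (nat_lit 608) (nat_lit 9366514215) (nat_lit 216) (nat_lit 5) (nat_lit 223) (nat_lit 5) (nat_lit 224) (nat_lit 5) (nat_lit 413) (nat_lit 388) (nat_lit 219)) (XT.nd (nat_lit 78) (nat_lit 532) (nat_lit 0) (XT.lf (nat_lit 0) (nat_lit 18866245266) (nat_lit 608) (nat_lit 2097831989) (nat_lit 76) (nat_lit 4471091658) (nat_lit 216) (nat_lit 5) (nat_lit 224) (nat_lit 5) (nat_lit 217) (nat_lit 5) (nat_lit 414) (nat_lit 388) (nat_lit 218)) (XT.lf (nat_lit 0) (nat_lit 11935470292) (nat_lit 532) (nat_lit 10417156439) (nat_lit 608) (nat_lit 3510834572) (nat_lit 209)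 (nat_lit 5) (nat_lit 216) (nat_lit 5) (nat_lit 217) (nat_lit 5) (nat_lit 415) (nat_lit 388) (nat_lit 217)))) (XT.nd (nat_lit 156) (nat_lit 532) (nat_lit 0) (XT.nd (nat_lit 78) (nat_lit 76) (nat_lit 0) (XT.lf (nat_lit 0) (nat_lit 121717763) (nat_lit 456) (nat_lit 25844191165) (nat_lit 532) (nat_lit 338025574) (nat_lit 203) (nat_lit 5) (nat_lit 209) (nat_lit 5) (nat_lit 210) (nat_lit 5) (nat_lit 416) (nat_lit 388) (nat_lit 216)) (XT.lf (nat_lit 0) (nat_lit 3113467871) (nat_lit 532) (nat_lit 12012681042) (nat_lit 76) (nat_lit 11623409050) (nat_lit 202) (nat_lit 5) (nat_lit 209) (nat_lit 5) (nat_lit 203) (nat_lit 5) (nat_lit 417) (nat_lit 388) (nat_lit 215))) (XT.nd (nat_lit 78) (nat_lit 0) (nat_lit 0) (XT.lf (nat_lit 0) (nat_lit 2624952983) (nat_lit 532) (nat_lit 4057619297) (nat_lit 608) (nat_lit 20525252843) (nat_lit 195) (nat_lit 5) (nat_lit 202) (nat_lit 5) (nat_lit 203) (nat_lit 5) (nat_lit 418) (nat_lit 388)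 (nat_lit 214)) (XT.lf (nat_lit 0) (nat_lit 10547543977) (nat_lit 608) (nat_lit 9804963501) (nat_lit 76) (nat_lit 7321670163) (nat_lit 195) (nat_lit 5) (nat_lit 203) (nat_lit 5) (nat_lit 196) (nat_lit 5) (nat_lit 419) (nat_lit 388) (nat_lit 213))))) (XT.nd (nat_lit 234) (nat_lit 988) (nat_lit 0) (XT.nd (nat_lit 78) (nat_lit 456) (nat_lit 0) (XT.lf (nat_lit 0) (nat_lit 5478211038) (nat_lit 456) (nat_lit 9138916803) (nat_lit 532) (nat_lit 13534734136) (nat_lit 189) (nat_lit 5) (nat_lit 195) (nat_lit 5) (nat_lit 196) (nat_lit 5) (nat_lit 420) (nat_lit 388) (nat_lit 212)) (XT.nd (nat_lit 78) (nat_lit 456) (nat_lit 0) (XT.lf (nat_lit 0) (nat_lit 18927865432) (nat_lit 532) (nat_lit 7249057855) (nat_lit 76) (nat_lit 2463382672) (nat_lit 189) (nat_lit 5) (nat_lit 196) (nat_lit 5) (nat_lit 190) (nat_lit 5) (nat_lit 421) (nat_lit 388) (nat_lit 211)) (XT.lf (nat_lit 0) (nat_lit 8713086977) (nat_lit 456) (nat_lit 14825095695)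 (nat_lit 532) (nat_lit 5600113930) (nat_lit 183) (nat_lit 5) (nat_lit 189) (nat_lit 5) (nat_lit 190) (nat_lit 5) (nat_lit 422) (nat_lit 388) (nat_lit 210)))) (XT.nd (nat_lit 156) (nat_lit 456) (nat_lit 0) (XT.nd (nat_lit 78) (nat_lit 532) (nat_lit 0) (XT.lf (nat_lit 0) (nat_lit 25298015632) (nat_lit 456) (nat_lit 3058083756) (nat_lit 532) (nat_lit 1293049916) (nat_lit 183) (nat_lit 5) (nat_lit 189) (nat_lit 5) (nat_lit 190) (nat_lit 5) (nat_lit 423) (nat_lit 388) (nat_lit 209)) (XT.lf (nat_lit 0) (nat_lit 3285953210) (nat_lit 532) (nat_lit 17846996332) (nat_lit 76) (nat_lit 9035350698) (nat_lit 176) (nat_lit 5) (nat_lit 183) (nat_lit 5) (nat_lit 177) (nat_lit 5) (nat_lit 424) (nat_lit 388) (nat_lit 208))) (XT.nd (nat_lit 78) (nat_lit 456) (nat_lit 0) (XT.lf (nat_lit 0) (nat_lit 8047212433) (nat_lit 532) (nat_lit 1166795622) (nat_lit 76) (nat_lit 21486508275) (nat_lit 176) (nat_lit 5) (nat_lit 183) (nat_lit 5) (nat_lit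 177) (nat_lit 5) (nat_lit 425) (nat_lit 388) (nat_lit 207)) (XT.lf (nat_lit 0) (nat_lit 13135581214) (nat_lit 532) (nat_lit 14947203229) (nat_lit 76) (nat_lit 3160387227) (nat_lit 170) (nat_lit 5) (nat_lit 177) (nat_lit 5) (nat_lit 171) (nat_lit 5) (nat_lit 426) (nat_lit 388) (nat_lit 206)))))) (XT.nd (nat_lit 546) (nat_lit 1444) (nat_lit 0) (XT.nd (nat_lit 234) (nat_lit 836) (nat_lit 0) (XT.nd (nat_lit 78) (nat_lit 380) (nat_lit 0) (XT.lf (nat_lit 0) (nat_lit 2456775954) (nat_lit 380) (nat_lit 16042956835) (nat_lit 456) (nat_lit 13298680824) (nat_lit 165) (nat_lit 5) (nat_lit 170) (nat_lit 5) (nat_lit 171) (nat_lit 5) (nat_lit 427) (nat_lit 388) (nat_lit 205)) (XT.nd (nat_lit 78) (nat_lit 380) (nat_lit 0) (XT.lf (nat_lit 0) (nat_lit 20684722100) (nat_lit 380) (nat_lit 3487474534) (nat_lit 456) (nat_lit 8193695417) (nat_lit 165) (nat_lit 5) (nat_lit 170) (nat_lit 5) (nat_lit 171) (nat_lit 5) (nat_lit 428) (nat_lit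 388) (nat_lit 204)) (XT.lf (nat_lit 0) (nat_lit 6541453549) (nat_lit 380) (nat_lit 23623593549) (nat_lit 456) (nat_lit 2780842208) (nat_lit 160) (nat_lit 5) (nat_lit 165) (nat_lit 5) (nat_lit 166) (nat_lit 5) (nat_lit 429) (nat_lit 388) (nat_lit 203)))) (XT.nd (nat_lit 156) (nat_lit 380) (nat_lit 0) (XT.nd (nat_lit 78) (nat_lit 380) (nat_lit 0) (XT.lf (nat_lit 0) (nat_lit 2890089595) (nat_lit 456) (nat_lit 8056640683) (nat_lit 76) (nat_lit 22591244500) (nat_lit 159) (nat_lit 5) (nat_lit 165) (nat_lit 5) (nat_lit 160) (nat_lit 5) (nat_lit 430) (nat_lit 388) (nat_lit 202)) (XT.lf (nat_lit 0) (nat_lit 8799499907) (nat_lit 456) (nat_lit 23140738436) (nat_lit 76) (nat_lit 2203031968) (nat_lit 154) (nat_lit 5) (nat_lit 160) (nat_lit 5) (nat_lit 155) (nat_lit 5) (nat_lit 431) (nat_lit 388) (nat_lit 201))) (XT.nd (nat_lit 78) (nat_lit 380) (nat_lit 0) (XT.lf (nat_lit 0) (nat_lit 15073449855) (nat_lit 456) (nat_lit 4079295621)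 (nat_lit 76) (nat_lit 15608362263) (nat_lit 154) (nat_lit 5) (nat_lit 160) (nat_lit 5) (nat_lit 155) (nat_lit 5) (nat_lit 432) (nat_lit 388) (nat_lit 200)) (XT.lf (nat_lit 0) (nat_lit 15859133596) (nat_lit 380) (nat_lit 5825740242) (nat_lit 456) (nat_lit 13708129514) (nat_lit 149) (nat_lit 5) (nat_lit 154) (nat_lit 5) (nat_lit 155) (nat_lit 5) (nat_lit 433) (nat_lit 388) (nat_lit 199))))) (XT.nd (nat_lit 312) (nat_lit 684) (nat_lit 0) (XT.nd (nat_lit 156) (nat_lit 456) (nat_lit 0) (XT.nd (nat_lit 78) (nat_lit 0) (nat_lit 0) (XT.lf (nat_lit 0) (nat_lit 363077107) (nat_lit 304) (nat_lit 28249452917) (nat_lit 380) (nat_lit 7427789831) (nat_lit 145) (nat_lit 5) (nat_lit 149) (nat_lit 5) (nat_lit 150) (nat_lit 5) (nat_lit 434) (nat_lit 388) (nat_lit 198)) (XT.lf (nat_lit 0) (nat_lit 21194204598) (nat_lit 304) (nat_lit 14805079058) (nat_lit 380) (nat_lit 700234852) (nat_lit 145) (nat_lit 5) (nat_lit 149) (nat_lit 5)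 (nat_lit 150) (nat_lit 5) (nat_lit 435) (nat_lit 388) (nat_lit 197))) (XT.nd (nat_lit 78) (nat_lit 0) (nat_lit 0) (XT.lf (nat_lit 0) (nat_lit 5311276943) (nat_lit 380) (nat_lit 844330723) (nat_lit 456) (nat_lit 31219649329) (nat_lit 139) (nat_lit 5) (nat_lit 144) (nat_lit 5) (nat_lit 145) (nat_lit 5) (nat_lit 436) (nat_lit 388) (nat_lit 196)) (XT.lf (nat_lit 0) (nat_lit 13488278941) (nat_lit 456) (nat_lit 11139249956) (nat_lit 76) (nat_lit 13434974552) (nat_lit 139) (nat_lit 5) (nat_lit 145) (nat_lit 5) (nat_lit 140) (nat_lit 5) (nat_lit 437) (nat_lit 388) (nat_lit 195)))) (XT.nd (nat_lit 156) (nat_lit 380) (nat_lit 0) (XT.nd (nat_lit 78) (nat_lit 0) (nat_lit 0) (XT.lf (nat_lit 0) (nat_lit 10607685101) (nat_lit 304) (nat_lit 10540655046) (nat_lit 380) (nat_lit 17618805464) (nat_lit 135) (nat_lit 5) (nat_lit 139) (nat_lit 5) (nat_lit 140) (nat_lit 5) (nat_lit 438) (nat_lit 388) (nat_lit 194)) (XT.lf (nat_lit 0)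 (nat_lit 29187067957) (nat_lit 380) (nat_lit 6297650213) (nat_lit 76) (nat_lit 4003743518) (nat_lit 135) (nat_lit 5) (nat_lit 140) (nat_lit 5) (nat_lit 136) (nat_lit 5) (nat_lit 439) (nat_lit 388) (nat_lit 193))) (XT.nd (nat_lit 78) (nat_lit 76) (nat_lit 0) (XT.lf (nat_lit 0) (nat_lit 16432220620) (nat_lit 304) (nat_lit 21294256167) (nat_lit 380) (nat_lit 2497155458) (nat_lit 131) (nat_lit 5) (nat_lit 135) (nat_lit 5) (nat_lit 136) (nat_lit 5) (nat_lit 440) (nat_lit 388) (nat_lit 192)) (XT.lf (nat_lit 0) (nat_lit 5494519119) (nat_lit 380) (nat_lit 1063860625) (nat_lit 76) (nat_lit 34419037609) (nat_lit 130) (nat_lit 5) (nat_lit 135) (nat_lit 5) (nat_lit 131) (nat_lit 5) (nat_lit 441) (nat_lit 388) (nat_lit 191))))))))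
noncomputable def xc204 : XT := (XT.nd (nat_lit 2184) (nat_lit 1292) (nat_lit 0) (XT.nd (nat_lit 1092) (nat_lit 1748) (nat_lit 0) (XT.nd (nat_lit 546) (nat_lit 1064) (nat_lit 0) (XT.nd (nat_lit 234) (nat_lit 608) (nat_lit 0) (XT.nd (nat_lit 78) (nat_lit 304) (nat_lit 0) (XT.lf (nat_lit 0) (nat_lit 13977096970) (nat_lit 380) (nat_lit 19070885876) (nat_lit 76) (nat_lit 8696051662) (nat_lit 126) (nat_lit 5) (nat_lit 131) (nat_lit 5) (nat_lit 127) (nat_lit 5) (nat_lit 442) (nat_lit 388) (nat_lit 190)) (XT.nd (nat_lit 78) (nat_lit 0) (nat_lit 0) (XT.lf (nat_lit 0) (nat_lit 4632087913) (nat_lit 304) (nat_lit 18199698737) (nat_lit 380) (nat_lit 19698335004) (nat_lit 122) (nat_lit 5) (nat_lit 126) (nat_lit 5) (nat_lit 127) (nat_lit 5) (nat_lit 443) (nat_lit 388) (nat_lit 189)) (XT.lf (nat_lit 0) (nat_lit 29433116315) (nat_lit 304) (nat_lit 2708943346) (nat_lit 380) (nat_lit 11192033968) (nat_lit 122) (nat_lit 5) (nat_lit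 126) (nat_lit 5) (nat_lit 127) (nat_lit 5) (nat_lit 444) (nat_lit 388) (nat_lit 188)))) (XT.nd (nat_lit 156) (nat_lit 304) (nat_lit 0) (XT.nd (nat_lit 78) (nat_lit 76) (nat_lit 0) (XT.lf (nat_lit 0) (nat_lit 10897385984) (nat_lit 228) (nat_lit 31063769434) (nat_lit 304) (nat_lit 2194144391) (nat_lit 119) (nat_lit 5) (nat_lit 122) (nat_lit 5) (nat_lit 123) (nat_lit 5) (nat_lit 445) (nat_lit 388) (nat_lit 187)) (XT.lf (nat_lit 0) (nat_lit 7101673002) (nat_lit 304) (nat_lit 8372413267) (nat_lit 76) (nat_lit 29520035738) (nat_lit 118) (nat_lit 5) (nat_lit 122) (nat_lit 5) (nat_lit 119) (nat_lit 5) (nat_lit 446) (nat_lit 388) (nat_lit 186))) (XT.nd (nat_lit 78) (nat_lit 0) (nat_lit 0) (XT.lf (nat_lit 0) (nat_lit 16806223784) (nat_lit 380) (nat_lit 28282841410) (nat_lit 76) (nat_lit 763173620) (nat_lit 114) (nat_lit 5) (nat_lit 119) (nat_lit 5) (nat_lit 115) (nat_lit 5) (nat_lit 447) (nat_lit 388) (nat_lit 185)) (XT.lf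 (nat_lit 0) (nat_lit 27038040187) (nat_lit 380) (nat_lit 2430360409) (nat_lit 76) (nat_lit 17260615085) (nat_lit 114) (nat_lit 5) (nat_lit 119) (nat_lit 5) (nat_lit 115) (nat_lit 5) (nat_lit 448) (nat_lit 388) (nat_lit 184))))) (XT.nd (nat_lit 234) (nat_lit 532) (nat_lit 0) (XT.nd (nat_lit 78) (nat_lit 304) (nat_lit 0) (XT.lf (nat_lit 0) (nat_lit 24675473812) (nat_lit 228) (nat_lit 13136143007) (nat_lit 304) (nat_lit 9813435278) (nat_lit 111) (nat_lit 5) (nat_lit 114) (nat_lit 5) (nat_lit 115) (nat_lit 5) (nat_lit 449) (nat_lit 388) (nat_lit 183)) (XT.nd (nat_lit 78) (nat_lit 0) (nat_lit 0) (XT.lf (nat_lit 0) (nat_lit 451993898) (nat_lit 304) (nat_lit 44411073775) (nat_lit 76) (nat_lit 3681840500) (nat_lit 107) (nat_lit 5) (nat_lit 111) (nat_lit 5) (nat_lit 108) (nat_lit 5) (nat_lit 450) (nat_lit 388) (nat_lit 182)) (XT.lf (nat_lit 0) (nat_lit 11189887746) (nat_lit 304) (nat_lit 17218493124) (nat_lit 76) (nat_lit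 21070212296) (nat_lit 107) (nat_lit 5) (nat_lit 111) (nat_lit 5) (nat_lit 108) (nat_lit 5) (nat_lit 451) (nat_lit 388) (nat_lit 181)))) (XT.nd (nat_lit 156) (nat_lit 304) (nat_lit 0) (XT.nd (nat_lit 78) (nat_lit 0) (nat_lit 0) (XT.lf (nat_lit 0) (nat_lit 11000880464) (nat_lit 228) (nat_lit 11352494901) (nat_lit 304) (nat_lit 28083810004) (nat_lit 104) (nat_lit 5) (nat_lit 107) (nat_lit 5) (nat_lit 108) (nat_lit 5) (nat_lit 452) (nat_lit 388) (nat_lit 180)) (XT.lf (nat_lit 0) (nat_lit 34084833845) (nat_lit 304) (nat_lit 11064656754) (nat_lit 76) (nat_lit 6268053109) (nat_lit 104) (nat_lit 5) (nat_lit 108) (nat_lit 5) (nat_lit 105) (nat_lit 5) (nat_lit 453) (nat_lit 388) (nat_lit 179))) (XT.nd (nat_lit 78) (nat_lit 76) (nat_lit 0) (XT.lf (nat_lit 0) (nat_lit 18401250948) (nat_lit 228) (nat_lit 28054064975) (nat_lit 304) (nat_lit 5963384829) (nat_lit 101) (nat_lit 5) (nat_lit 104) (nat_lit 5) (nat_lit 105) (nat_lit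 5) (nat_lit 454) (nat_lit 388) (nat_lit 178)) (XT.lf (nat_lit 0) (nat_lit 5745515753) (nat_lit 304) (nat_lit 4528512938) (nat_lit 76) (nat_lit 43170887600) (nat_lit 100) (nat_lit 5) (nat_lit 104) (nat_lit 5) (nat_lit 101) (nat_lit 5) (nat_lit 455) (nat_lit 388) (nat_lit 177)))))) (XT.nd (nat_lit 546) (nat_lit 836) (nat_lit 0) (XT.nd (nat_lit 234) (nat_lit 456) (nat_lit 0) (XT.nd (nat_lit 78) (nat_lit 228) (nat_lit 0) (XT.lf (nat_lit 0) (nat_lit 18016817000) (nat_lit 304) (nat_lit 28277278494) (nat_lit 76) (nat_lit 8196122064) (nat_lit 97) (nat_lit 5) (nat_lit 101) (nat_lit 5) (nat_lit 98) (nat_lit 5) (nat_lit 456) (nat_lit 388) (nat_lit 176)) (XT.nd (nat_lit 78) (nat_lit 0) (nat_lit 0) (XT.lf (nat_lit 0) (nat_lit 2344038217) (nat_lit 228) (nat_lit 28480539876) (nat_lit 304) (nat_lit 24737250457) (nat_lit 94) (nat_lit 5) (nat_lit 97) (nat_lit 5) (nat_lit 98) (nat_lit 5) (nat_lit 457) (nat_lit 388) (nat_lit 175))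 (XT.lf (nat_lit 0) (nat_lit 34460199782) (nat_lit 228) (nat_lit 9839829329) (nat_lit 304) (nat_lit 12357055345) (nat_lit 94) (nat_lit 5) (nat_lit 97) (nat_lit 5) (nat_lit 98) (nat_lit 5) (nat_lit 458) (nat_lit 388) (nat_lit 174)))) (XT.nd (nat_lit 156) (nat_lit 228) (nat_lit 0) (XT.nd (nat_lit 78) (nat_lit 0) (nat_lit 0) (XT.lf (nat_lit 0) (nat_lit 571308303) (nat_lit 228) (nat_lit 47931767368) (nat_lit 76) (nat_lit 9276475022) (nat_lit 91) (nat_lit 5) (nat_lit 94) (nat_lit 5) (nat_lit 92) (nat_lit 5) (nat_lit 459) (nat_lit 388) (nat_lit 173)) (XT.lf (nat_lit 0) (nat_lit 13960913581) (nat_lit 228) (nat_lit 15845557631) (nat_lit 76) (nat_lit 29115896910) (nat_lit 91) (nat_lit 5) (nat_lit 94) (nat_lit 5) (nat_lit 92) (nat_lit 5) (nat_lit 460) (nat_lit 388) (nat_lit 172))) (XT.nd (nat_lit 78) (nat_lit 0) (nat_lit 0) (XT.lf (nat_lit 0) (nat_lit 17542243558) (nat_lit 228) (nat_lit 10376616424) (nat_lit 304) (nat_lit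 32175610767) (nat_lit 88) (nat_lit 5) (nat_lit 91) (nat_lit 5) (nat_lit 92) (nat_lit 5) (nat_lit 461) (nat_lit 388) (nat_lit 171)) (XT.lf (nat_lit 0) (nat_lit 42547805946) (nat_lit 304) (nat_lit 9137972377) (nat_lit 76) (nat_lit 9608390557) (nat_lit 88) (nat_lit 5) (nat_lit 92) (nat_lit 5) (nat_lit 89) (nat_lit 5) (nat_lit 462) (nat_lit 388) (nat_lit 170))))) (XT.nd (nat_lit 234) (nat_lit 380) (nat_lit 0) (XT.nd (nat_lit 78) (nat_lit 304) (nat_lit 0) (XT.lf (nat_lit 0) (nat_lit 25673734345) (nat_lit 152) (nat_lit 32289512906) (nat_lit 228) (nat_lit 4556182145) (nat_lit 86) (nat_lit 5) (nat_lit 88) (nat_lit 5) (nat_lit 89) (nat_lit 5) (nat_lit 463) (nat_lit 388) (nat_lit 169)) (XT.nd (nat_lit 78) (nat_lit 228) (nat_lit 0) (XT.lf (nat_lit 0) (nat_lit 9954694691) (nat_lit 228) (nat_lit 2162411748) (nat_lit 76) (nat_lit 51658701775) (nat_lit 85) (nat_lit 5) (nat_lit 88) (nat_lit 5) (nat_lit 86) (nat_lit 5) (nat_lit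 464) (nat_lit 388) (nat_lit 168)) (XT.lf (nat_lit 0) (nat_lit 25222977870) (nat_lit 304) (nat_lit 30965560895) (nat_lit 76) (nat_lit 8867576895) (nat_lit 82) (nat_lit 5) (nat_lit 86) (nat_lit 5) (nat_lit 83) (nat_lit 5) (nat_lit 465) (nat_lit 388) (nat_lit 167)))) (XT.nd (nat_lit 156) (nat_lit 228) (nat_lit 0) (XT.nd (nat_lit 78) (nat_lit 0) (nat_lit 0) (XT.lf (nat_lit 0) (nat_lit 5076995313) (nat_lit 152) (nat_lit 36061310247) (nat_lit 228) (nat_lit 25230857112) (nat_lit 80) (nat_lit 5) (nat_lit 82) (nat_lit 5) (nat_lit 83) (nat_lit 5) (nat_lit 466) (nat_lit 388) (nat_lit 166)) (XT.lf (nat_lit 0) (nat_lit 42832474760) (nat_lit 152) (nat_lit 15009502295) (nat_lit 228) (nat_lit 9870297738) (nat_lit 80) (nat_lit 5) (nat_lit 82) (nat_lit 5) (nat_lit 83) (nat_lit 5) (nat_lit 467) (nat_lit 388) (nat_lit 165))) (XT.nd (nat_lit 78) (nat_lit 0) (nat_lit 0) (XT.lf (nat_lit 0) (nat_lit 6022288935) (nat_lit 228) (nat_lit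 56341516136) (nat_lit 76) (nat_lit 6724539124) (nat_lit 77) (nat_lit 5) (nat_lit 80) (nat_lit 5) (nat_lit 78) (nat_lit 5) (nat_lit 468) (nat_lit 388) (nat_lit 164)) (XT.lf (nat_lit 0) (nat_lit 22593841371) (nat_lit 228) (nat_lit 18737786344) (nat_lit 76) (nat_lit 29159119248) (nat_lit 77) (nat_lit 5) (nat_lit 80) (nat_lit 5) (nat_lit 78) (nat_lit 5) (nat_lit 469) (nat_lit 388) (nat_lit 163))))))) (XT.nd (nat_lit 46956) (nat_lit 0) (nat_lit 15048) (XT.nd (nat_lit 546) (nat_lit 608) (nat_lit 0) (XT.nd (nat_lit 234) (nat_lit 304) (nat_lit 0) (XT.nd (nat_lit 78) (nat_lit 228) (nat_lit 0) (XT.lf (nat_lit 0) (nat_lit 20388934230) (nat_lit 152) (nat_lit 19467886134) (nat_lit 228) (nat_lit 32072573243) (nat_lit 75) (nat_lit 5) (nat_lit 77) (nat_lit 5) (nat_lit 78) (nat_lit 5) (nat_lit 470) (nat_lit 388) (nat_lit 162)) (XT.nd (nat_lit 78) (nat_lit 228) (nat_lit 0) (XT.lf (nat_lit 0) (nat_lit 57856410871) (nat_lit 228) (nat_lit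 12366161541) (nat_lit 76) (nat_lit 3182065762) (nat_lit 75) (nat_lit 5) (nat_lit 78) (nat_lit 5) (nat_lit 76) (nat_lit 5) (nat_lit 471) (nat_lit 388) (nat_lit 161)) (XT.lf (nat_lit 0) (nat_lit 1911244941) (nat_lit 228) (nat_lit 46588233332) (nat_lit 76) (nat_lit 26410194021) (nat_lit 72) (nat_lit 5) (nat_lit 75) (nat_lit 5) (nat_lit 73) (nat_lit 5) (nat_lit 472) (nat_lit 388) (nat_lit 160)))) (XT.nd (nat_lit 156) (nat_lit 152) (nat_lit 0) (XT.nd (nat_lit 78) (nat_lit 152) (nat_lit 0) (XT.lf (nat_lit 0) (nat_lit 19706459811) (nat_lit 228) (nat_lit 6131038243) (nat_lit 76) (nat_lit 50614007396) (nat_lit 72) (nat_lit 5) (nat_lit 75) (nat_lit 5) (nat_lit 73) (nat_lit 5) (nat_lit 473) (nat_lit 388) (nat_lit 159)) (XT.lf (nat_lit 0) (nat_lit 36244304901) (nat_lit 152) (nat_lit 2138028724) (nat_lit 228) (nat_lit 39646856066) (nat_lit 70) (nat_lit 5) (nat_lit 72) (nat_lit 5) (nat_lit 73) (nat_lit 5) (nat_lit 474) (nat_lit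 388) (nat_lit 158))) (XT.nd (nat_lit 78) (nat_lit 0) (nat_lit 0) (XT.lf (nat_lit 0) (nat_lit 149619037) (nat_lit 152) (nat_lit 57745331555) (nat_lit 228) (nat_lit 21750960022) (nat_lit 68) (nat_lit 5) (nat_lit 70) (nat_lit 5) (nat_lit 71) (nat_lit 5) (nat_lit 475) (nat_lit 388) (nat_lit 157)) (XT.lf (nat_lit 0) (nat_lit 44174312119) (nat_lit 152) (nat_lit 34259967905) (nat_lit 228) (nat_lit 2863613277) (nat_lit 68) (nat_lit 5) (nat_lit 70) (nat_lit 5) (nat_lit 71) (nat_lit 5) (nat_lit 476) (nat_lit 388) (nat_lit 156))))) (XT.nd (nat_lit 234) (nat_lit 228) (nat_lit 0) (XT.nd (nat_lit 78) (nat_lit 152) (nat_lit 0) (XT.lf (nat_lit 0) (nat_lit 6484617876) (nat_lit 152) (nat_lit 9842790571) (nat_lit 228) (nat_lit 66665419107) (nat_lit 65) (nat_lit 5) (nat_lit 67) (nat_lit 5) (nat_lit 68) (nat_lit 5) (nat_lit 477) (nat_lit 388) (nat_lit 155)) (XT.nd (nat_lit 78) (nat_lit 152) (nat_lit 0) (XT.lf (nat_lit 0) (nat_lit 36560796501)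 (nat_lit 228) (nat_lit 32747268733) (nat_lit 76) (nat_lit 15413968421) (nat_lit 65) (nat_lit 5) (nat_lit 68) (nat_lit 5) (nat_lit 66) (nat_lit 5) (nat_lit 478) (nat_lit 388) (nat_lit 154)) (XT.lf (nat_lit 0) (nat_lit 12469694624) (nat_lit 152) (nat_lit 45147321128) (nat_lit 228) (nat_lit 28879625440) (nat_lit 63) (nat_lit 5) (nat_lit 65) (nat_lit 5) (nat_lit 66) (nat_lit 5) (nat_lit 479) (nat_lit 388) (nat_lit 153)))) (XT.nd (nat_lit 46020) (nat_lit 0) (nat_lit 14972) (XT.nd (nat_lit 78) (nat_lit 228) (nat_lit 0) (XT.lf (nat_lit 0) (nat_lit 59711798970) (nat_lit 152) (nat_lit 19922333546) (nat_lit 228) (nat_lit 8680478244) (nat_lit 63) (nat_lit 5) (nat_lit 65) (nat_lit 5) (nat_lit 66) (nat_lit 5) (nat_lit 480) (nat_lit 388) (nat_lit 152)) (XT.lf (nat_lit 0) (nat_lit 12124854020) (nat_lit 228) (nat_lit 71815078228) (nat_lit 76) (nat_lit 6236586629) (nat_lit 60) (nat_lit 5) (nat_lit 63) (nat_lit 5) (nat_lit 61) (nat_lit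 5) (nat_lit 481) (nat_lit 388) (nat_lit 151))) (XT.nd (nat_lit 78) (nat_lit 0) (nat_lit 0) (XT.lf (nat_lit 0) (nat_lit 305451899) (nat_lit 1292) (nat_lit 4212332912) (nat_lit 1292) (nat_lit 4212332912) (nat_lit 257) (nat_lit 3) (nat_lit 274) (nat_lit 3) (nat_lit 274) (nat_lit 5) (nat_lit 389) (nat_lit 389) (nat_lit 242)) (XT.lf (nat_lit 76) (nat_lit 62752611) (nat_lit 0) (nat_lit 773504901) (nat_lit 1292) (nat_lit 16879325255) (nat_lit 258) (nat_lit 5) (nat_lit 257) (nat_lit 3) (nat_lit 274) (nat_lit 5) (nat_lit 390) (nat_lit 389) (nat_lit 241)))))) (XT.nd (nat_lit 546) (nat_lit 0) (nat_lit 228) (XT.nd (nat_lit 234) (nat_lit 0) (nat_lit 76) (XT.nd (nat_lit 78) (nat_lit 0) (nat_lit 0) (XT.lf (nat_lit 0) (nat_lit 1220236508) (nat_lit 1216) (nat_lit 9078472813) (nat_lit 1292) (nat_lit 7675327996) (nat_lit 258) (nat_lit 5) (nat_lit 274) (nat_lit 5) (nat_lit 275) (nat_lit 5) (nat_lit 391) (nat_lit 389) (nat_lit 240))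 (XT.nd (nat_lit 78) (nat_lit 0) (nat_lit 76) (XT.lf (nat_lit 0) (nat_lit 1615221048) (nat_lit 1216) (nat_lit 259121811) (nat_lit 1292) (nat_lit 16365920730) (nat_lit 258) (nat_lit 5) (nat_lit 274) (nat_lit 5) (nat_lit 275) (nat_lit 5) (nat_lit 392) (nat_lit 389) (nat_lit 239)) (XT.lf (nat_lit 0) (nat_lit 2166876982) (nat_lit 1216) (nat_lit 9582497978) (nat_lit 1292) (nat_lit 6760759629) (nat_lit 259) (nat_lit 5) (nat_lit 275) (nat_lit 5) (nat_lit 276) (nat_lit 5) (nat_lit 393) (nat_lit 389) (nat_lit 238)))) (XT.nd (nat_lit 156) (nat_lit 0) (nat_lit 76) (XT.nd (nat_lit 78) (nat_lit 0) (nat_lit 76) (XT.lf (nat_lit 0) (nat_lit 2748569638) (nat_lit 1216) (nat_lit 415966131) (nat_lit 1292) (nat_lit 15623163856) (nat_lit 259) (nat_lit 5) (nat_lit 275) (nat_lit 5) (nat_lit 276) (nat_lit 5) (nat_lit 394) (nat_lit 389) (nat_lit 237)) (XT.lf (nat_lit 0) (nat_lit 3484148885) (nat_lit 1216) (nat_lit 9926083370) (nat_lit 1292)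 (nat_lit 5659268728) (nat_lit 260) (nat_lit 5) (nat_lit 276) (nat_lit 5) (nat_lit 277) (nat_lit 5) (nat_lit 395) (nat_lit 389) (nat_lit 236))) (XT.nd (nat_lit 78) (nat_lit 0) (nat_lit 76) (XT.lf (nat_lit 0) (nat_lit 4270083036) (nat_lit 1216) (nat_lit 397631435) (nat_lit 1292) (nat_lit 14691195658) (nat_lit 260) (nat_lit 5) (nat_lit 276) (nat_lit 5) (nat_lit 277) (nat_lit 5) (nat_lit 396) (nat_lit 389) (nat_lit 235)) (XT.lf (nat_lit 0) (nat_lit 5207424204) (nat_lit 1216) (nat_lit 10097682322) (nat_lit 1292) (nat_lit 4348062458) (nat_lit 261) (nat_lit 5) (nat_lit 277) (nat_lit 5) (nat_lit 278) (nat_lit 5) (nat_lit 397) (nat_lit 389) (nat_lit 234))))) (XT.nd (nat_lit 312) (nat_lit 0) (nat_lit 152) (XT.nd (nat_lit 156) (nat_lit 0) (nat_lit 76) (XT.nd (nat_lit 78) (nat_lit 0) (nat_lit 76) (XT.lf (nat_lit 0) (nat_lit 6216266280) (nat_lit 1216) (nat_lit 191826945) (nat_lit 1292) (nat_lit 13546863198) (nat_lit 261) (nat_lit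 5) (nat_lit 277) (nat_lit 5) (nat_lit 278) (nat_lit 5) (nat_lit 398) (nat_lit 389) (nat_lit 233)) (XT.lf (nat_lit 0) (nat_lit 7374270079) (nat_lit 1216) (nat_lit 10084831687) (nat_lit 1292) (nat_lit 2803130996) (nat_lit 262) (nat_lit 5) (nat_lit 278) (nat_lit 5) (nat_lit 279) (nat_lit 5) (nat_lit 399) (nat_lit 389) (nat_lit 232))) (XT.nd (nat_lit 78) (nat_lit 0) (nat_lit 76) (XT.lf (nat_lit 76) (nat_lit 218957618) (nat_lit 0) (nat_lit 8409044338) (nat_lit 1292) (nat_lit 11948897907) (nat_lit 263) (nat_lit 5) (nat_lit 262) (nat_lit 5) (nat_lit 279) (nat_lit 5) (nat_lit 400) (nat_lit 389) (nat_lit 231)) (XT.lf (nat_lit 0) (nat_lit 10024602689) (nat_lit 1216) (nat_lit 9874121841) (nat_lit 1292) (nat_lit 999126786) (nat_lit 263) (nat_lit 5) (nat_lit 279) (nat_lit 5) (nat_lit 280) (nat_lit 5) (nat_lit 401) (nat_lit 389) (nat_lit 230)))) (XT.nd (nat_lit 156) (nat_lit 0) (nat_lit 76) (XT.nd (nat_lit 78) (nat_lit 0) (nat_lit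 0) (XT.lf (nat_lit 76) (nat_lit 852760986) (nat_lit 0) (nat_lit 10695620763) (nat_lit 1292) (nat_lit 9677493144) (nat_lit 264) (nat_lit 5) (nat_lit 263) (nat_lit 5) (nat_lit 280) (nat_lit 5) (nat_lit 402) (nat_lit 389) (nat_lit 229)) (XT.lf (nat_lit 76) (nat_lit 12099072755) (nat_lit 0) (nat_lit 1112469705) (nat_lit 1292) (nat_lit 8349388597) (nat_lit 264) (nat_lit 5) (nat_lit 263) (nat_lit 5) (nat_lit 280) (nat_lit 5) (nat_lit 403) (nat_lit 389) (nat_lit 228))) (XT.nd (nat_lit 78) (nat_lit 0) (nat_lit 0) (XT.lf (nat_lit 76) (nat_lit 1721297285) (nat_lit 0) (nat_lit 13298182476) (nat_lit 1292) (nat_lit 6883714567) (nat_lit 265) (nat_lit 5) (nat_lit 264) (nat_lit 5) (nat_lit 281) (nat_lit 5) (nat_lit 404) (nat_lit 389) (nat_lit 227)) (XT.lf (nat_lit 76) (nat_lit 13417882575) (nat_lit 0) (nat_lit 3564496489) (nat_lit 1292) (nat_lit 5270326535) (nat_lit 265) (nat_lit 5) (nat_lit 264) (nat_lit 5) (nat_lit 281) (nat_lit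 5) (nat_lit 405) (nat_lit 389) (nat_lit 226))))))))
noncomputable def xc205 : XT := (XT.nd (nat_lit 2262) (nat_lit 4636) (nat_lit 0) (XT.nd (nat_lit 1092) (nat_lit 3496) (nat_lit 0) (XT.nd (nat_lit 546) (nat_lit 2128) (nat_lit 0) (XT.nd (nat_lit 234) (nat_lit 1216) (nat_lit 0) (XT.nd (nat_lit 78) (nat_lit 760) (nat_lit 0) (XT.lf (nat_lit 0) (nat_lit 2841167724) (nat_lit 1216) (nat_lit 16246864398) (nat_lit 1292) (nat_lit 3522155850) (nat_lit 249) (nat_lit 5) (nat_lit 265) (nat_lit 5) (nat_lit 266) (nat_lit 5) (nat_lit 406) (nat_lit 389) (nat_lit 225)) (XT.nd (nat_lit 78) (nat_lit 760) (nat_lit 0) (XT.lf (nat_lit 0) (nat_lit 15007768417) (nat_lit 1216) (nat_lit 6367809305) (nat_lit 1292) (nat_lit 1599257120) (nat_lit 249) (nat_lit 5) (nat_lit 265) (nat_lit 5) (nat_lit 266) (nat_lit 5) (nat_lit 407) (nat_lit 389) (nat_lit 224)) (XT.lf (nat_lit 0) (nat_lit 446588921) (nat_lit 760) (nat_lit 19122559902) (nat_lit 76)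 (nat_lit 3778982901) (nat_lit 239) (nat_lit 5) (nat_lit 249) (nat_lit 5) (nat_lit 240) (nat_lit 5) (nat_lit 408) (nat_lit 389) (nat_lit 223)))) (XT.nd (nat_lit 156) (nat_lit 608) (nat_lit 0) (XT.nd (nat_lit 78) (nat_lit 608) (nat_lit 0) (XT.lf (nat_lit 0) (nat_lit 2660744896) (nat_lit 760) (nat_lit 6867451865) (nat_lit 76) (nat_lit 14199784953) (nat_lit 239) (nat_lit 5) (nat_lit 249) (nat_lit 5) (nat_lit 240) (nat_lit 5) (nat_lit 409) (nat_lit 389) (nat_lit 222)) (XT.lf (nat_lit 0) (nat_lit 5001023932) (nat_lit 684) (nat_lit 18261042074) (nat_lit 76) (nat_lit 855371771) (nat_lit 231) (nat_lit 5) (nat_lit 240) (nat_lit 5) (nat_lit 232) (nat_lit 5) (nat_lit 410) (nat_lit 389) (nat_lit 221))) (XT.nd (nat_lit 78) (nat_lit 608) (nat_lit 0) (XT.lf (nat_lit 0) (nat_lit 7570923758) (nat_lit 684) (nat_lit 5513618415) (nat_lit 76) (nat_lit 11429254455) (nat_lit 231) (nat_lit 5) (nat_lit 240) (nat_lit 5) (nat_lit 232) (nat_lit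 5) (nat_lit 411) (nat_lit 389) (nat_lit 220)) (XT.lf (nat_lit 0) (nat_lit 7763022320) (nat_lit 608) (nat_lit 2524705087) (nat_lit 684) (nat_lit 14632226068) (nat_lit 223) (nat_lit 5) (nat_lit 231) (nat_lit 5) (nat_lit 232) (nat_lit 5) (nat_lit 412) (nat_lit 389) (nat_lit 219))))) (XT.nd (nat_lit 234) (nat_lit 1596) (nat_lit 0) (XT.nd (nat_lit 78) (nat_lit 532) (nat_lit 0) (XT.lf (nat_lit 0) (nat_lit 13217827262) (nat_lit 684) (nat_lit 3871261683) (nat_lit 76) (nat_lit 8245253713) (nat_lit 223) (nat_lit 5) (nat_lit 232) (nat_lit 5) (nat_lit 224) (nat_lit 5) (nat_lit 413) (nat_lit 389) (nat_lit 218)) (XT.nd (nat_lit 78) (nat_lit 0) (nat_lit 0) (XT.lf (nat_lit 0) (nat_lit 9978039823) (nat_lit 532) (nat_lit 6374120134) (nat_lit 608) (nat_lit 9405515019) (nat_lit 216) (nat_lit 5) (nat_lit 223) (nat_lit 5) (nat_lit 224) (nat_lit 5) (nat_lit 414) (nat_lit 389) (nat_lit 217)) (XT.lf (nat_lit 0) (nat_lit 19660324600) (nat_lit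 608) (nat_lit 1920298905) (nat_lit 76) (nat_lit 4610691014) (nat_lit 216) (nat_lit 5) (nat_lit 224) (nat_lit 5) (nat_lit 217) (nat_lit 5) (nat_lit 415) (nat_lit 389) (nat_lit 216)))) (XT.nd (nat_lit 156) (nat_lit 608) (nat_lit 0) (XT.nd (nat_lit 78) (nat_lit 456) (nat_lit 0) (XT.lf (nat_lit 0) (nat_lit 12531644915) (nat_lit 532) (nat_lit 10715298003) (nat_lit 608) (nat_lit 3385645344) (nat_lit 209) (nat_lit 5) (nat_lit 216) (nat_lit 5) (nat_lit 217) (nat_lit 5) (nat_lit 416) (nat_lit 389) (nat_lit 215)) (XT.lf (nat_lit 0) (nat_lit 367719026) (nat_lit 456) (nat_lit 26596851684) (nat_lit 532) (nat_lit 121828418) (nat_lit 203) (nat_lit 5) (nat_lit 209) (nat_lit 5) (nat_lit 210) (nat_lit 5) (nat_lit 417) (nat_lit 389) (nat_lit 214))) (XT.nd (nat_lit 78) (nat_lit 532) (nat_lit 0) (XT.lf (nat_lit 0) (nat_lit 3422329436) (nat_lit 532) (nat_lit 12133423182) (nat_lit 76) (nat_lit 11989769093) (nat_lit 202) (nat_lit 5) (nat_lit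 209) (nat_lit 5) (nat_lit 203) (nat_lit 5) (nat_lit 418) (nat_lit 389) (nat_lit 213)) (XT.lf (nat_lit 0) (nat_lit 2940990470) (nat_lit 532) (nat_lit 4153522012) (nat_lit 608) (nat_lit 20923145966) (nat_lit 195) (nat_lit 5) (nat_lit 202) (nat_lit 5) (nat_lit 203) (nat_lit 5) (nat_lit 419) (nat_lit 389) (nat_lit 212)))))) (XT.nd (nat_lit 546) (nat_lit 2052) (nat_lit 0) (XT.nd (nat_lit 234) (nat_lit 988) (nat_lit 0) (XT.nd (nat_lit 78) (nat_lit 456) (nat_lit 0) (XT.lf (nat_lit 0) (nat_lit 11069515236) (nat_lit 608) (nat_lit 9862760880) (nat_lit 76) (nat_lit 7565904644) (nat_lit 195) (nat_lit 5) (nat_lit 203) (nat_lit 5) (nat_lit 196) (nat_lit 5) (nat_lit 420) (nat_lit 389) (nat_lit 211)) (XT.nd (nat_lit 78) (nat_lit 0) (nat_lit 0) (XT.lf (nat_lit 0) (nat_lit 5876591724) (nat_lit 456) (nat_lit 9380857828) (nat_lit 532) (nat_lit 13732859814) (nat_lit 189) (nat_lit 5) (nat_lit 195) (nat_lit 5) (nat_lit 196) (nat_lit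 5) (nat_lit 421) (nat_lit 389) (nat_lit 210)) (XT.lf (nat_lit 0) (nat_lit 19691932128) (nat_lit 532) (nat_lit 7233681973) (nat_lit 76) (nat_lit 2567961458) (nat_lit 189) (nat_lit 5) (nat_lit 196) (nat_lit 5) (nat_lit 190) (nat_lit 5) (nat_lit 422) (nat_lit 389) (nat_lit 209)))) (XT.nd (nat_lit 156) (nat_lit 532) (nat_lit 0) (XT.nd (nat_lit 78) (nat_lit 0) (nat_lit 0) (XT.lf (nat_lit 0) (nat_lit 9205044384) (nat_lit 456) (nat_lit 15232015374) (nat_lit 532) (nat_lit 5569552673) (nat_lit 183) (nat_lit 5) (nat_lit 189) (nat_lit 5) (nat_lit 190) (nat_lit 5) (nat_lit 423) (nat_lit 389) (nat_lit 208)) (XT.lf (nat_lit 0) (nat_lit 26280805419) (nat_lit 456) (nat_lit 3113095014) (nat_lit 532) (nat_lit 1139060175) (nat_lit 183) (nat_lit 5) (nat_lit 189) (nat_lit 5) (nat_lit 190) (nat_lit 5) (nat_lit 424) (nat_lit 389) (nat_lit 207))) (XT.nd (nat_lit 78) (nat_lit 0) (nat_lit 0) (XT.lf (nat_lit 0) (nat_lit 3570594783) (nat_lit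 532) (nat_lit 18151743672) (nat_lit 76) (nat_lit 9345382120) (nat_lit 176) (nat_lit 5) (nat_lit 183) (nat_lit 5) (nat_lit 177) (nat_lit 5) (nat_lit 425) (nat_lit 389) (nat_lit 206)) (XT.lf (nat_lit 0) (nat_lit 8469272472) (nat_lit 532) (nat_lit 977855267) (nat_lit 76) (nat_lit 22168939349) (nat_lit 176) (nat_lit 5) (nat_lit 183) (nat_lit 5) (nat_lit 177) (nat_lit 5) (nat_lit 426) (nat_lit 389) (nat_lit 205))))) (XT.nd (nat_lit 312) (nat_lit 836) (nat_lit 0) (XT.nd (nat_lit 156) (nat_lit 380) (nat_lit 0) (XT.nd (nat_lit 78) (nat_lit 380) (nat_lit 0) (XT.lf (nat_lit 0) (nat_lit 13707587648) (nat_lit 532) (nat_lit 15168926334) (nat_lit 76) (nat_lit 3298570569) (nat_lit 170) (nat_lit 5) (nat_lit 177) (nat_lit 5) (nat_lit 171) (nat_lit 5) (nat_lit 427) (nat_lit 389) (nat_lit 204)) (XT.lf (nat_lit 0) (nat_lit 2754949743) (nat_lit 380) (nat_lit 16474689085) (nat_lit 456) (nat_lit 13517436957) (nat_lit 165) (nat_lit 5)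 (nat_lit 170) (nat_lit 5) (nat_lit 171) (nat_lit 5) (nat_lit 428) (nat_lit 389) (nat_lit 203))) (XT.nd (nat_lit 78) (nat_lit 380) (nat_lit 0) (XT.lf (nat_lit 0) (nat_lit 21523196298) (nat_lit 380) (nat_lit 3543985707) (nat_lit 456) (nat_lit 8264550657) (nat_lit 165) (nat_lit 5) (nat_lit 170) (nat_lit 5) (nat_lit 171) (nat_lit 5) (nat_lit 429) (nat_lit 389) (nat_lit 202)) (XT.lf (nat_lit 0) (nat_lit 6958120936) (nat_lit 380) (nat_lit 24279318719) (nat_lit 456) (nat_lit 2691762740) (nat_lit 160) (nat_lit 5) (nat_lit 165) (nat_lit 5) (nat_lit 166) (nat_lit 5) (nat_lit 430) (nat_lit 389) (nat_lit 201)))) (XT.nd (nat_lit 156) (nat_lit 380) (nat_lit 0) (XT.nd (nat_lit 78) (nat_lit 380) (nat_lit 0) (XT.lf (nat_lit 0) (nat_lit 3141004464) (nat_lit 456) (nat_lit 8081030049) (nat_lit 76) (nat_lit 23317115103) (nat_lit 159) (nat_lit 5) (nat_lit 165) (nat_lit 5) (nat_lit 160) (nat_lit 5) (nat_lit 431) (nat_lit 389) (nat_lit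 200)) (XT.lf (nat_lit 0) (nat_lit 9225498661) (nat_lit 456) (nat_lit 23615415380) (nat_lit 76) (nat_lit 2321757034) (nat_lit 154) (nat_lit 5) (nat_lit 160) (nat_lit 5) (nat_lit 155) (nat_lit 5) (nat_lit 432) (nat_lit 389) (nat_lit 199))) (XT.nd (nat_lit 78) (nat_lit 380) (nat_lit 0) (XT.lf (nat_lit 0) (nat_lit 15682948261) (nat_lit 456) (nat_lit 3988523802) (nat_lit 76) (nat_lit 16127714205) (nat_lit 154) (nat_lit 5) (nat_lit 160) (nat_lit 5) (nat_lit 155) (nat_lit 5) (nat_lit 433) (nat_lit 389) (nat_lit 198)) (XT.lf (nat_lit 0) (nat_lit 16545968580) (nat_lit 380) (nat_lit 5944193826) (nat_lit 456) (nat_lit 13959953965) (nat_lit 149) (nat_lit 5) (nat_lit 154) (nat_lit 5) (nat_lit 155) (nat_lit 5) (nat_lit 434) (nat_lit 389) (nat_lit 197))))))) (XT.nd (nat_lit 1092) (nat_lit 1976) (nat_lit 0) (XT.nd (nat_lit 546) (nat_lit 1292) (nat_lit 0) (XT.nd (nat_lit 234) (nat_lit 608) (nat_lit 0) (XT.nd (nat_lit 78) (nat_lit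 456) (nat_lit 0) (XT.lf (nat_lit 0) (nat_lit 587056337) (nat_lit 304) (nat_lit 29036658804) (nat_lit 380) (nat_lit 7493196236) (nat_lit 145) (nat_lit 5) (nat_lit 149) (nat_lit 5) (nat_lit 150) (nat_lit 5) (nat_lit 435) (nat_lit 389) (nat_lit 196)) (XT.nd (nat_lit 78) (nat_lit 456) (nat_lit 0) (XT.lf (nat_lit 0) (nat_lit 22036911238) (nat_lit 304) (nat_lit 15190709390) (nat_lit 380) (nat_lit 568399868) (nat_lit 145) (nat_lit 5) (nat_lit 149) (nat_lit 5) (nat_lit 150) (nat_lit 5) (nat_lit 436) (nat_lit 389) (nat_lit 195)) (XT.lf (nat_lit 0) (nat_lit 5678452317) (nat_lit 380) (nat_lit 809316127) (nat_lit 456) (nat_lit 32004290555) (nat_lit 139) (nat_lit 5) (nat_lit 144) (nat_lit 5) (nat_lit 145) (nat_lit 5) (nat_lit 437) (nat_lit 389) (nat_lit 194)))) (XT.nd (nat_lit 156) (nat_lit 304) (nat_lit 0) (XT.nd (nat_lit 78) (nat_lit 304) (nat_lit 0) (XT.lf (nat_lit 0) (nat_lit 14036687131) (nat_lit 456) (nat_lit 11267881141)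 (nat_lit 76) (nat_lit 13895467457) (nat_lit 139) (nat_lit 5) (nat_lit 145) (nat_lit 5) (nat_lit 140) (nat_lit 5) (nat_lit 438) (nat_lit 389) (nat_lit 193)) (XT.lf (nat_lit 0) (nat_lit 11129446808) (nat_lit 304) (nat_lit 10794872652) (nat_lit 380) (nat_lit 18001565492) (nat_lit 135) (nat_lit 5) (nat_lit 139) (nat_lit 5) (nat_lit 140) (nat_lit 5) (nat_lit 439) (nat_lit 389) (nat_lit 192))) (XT.nd (nat_lit 78) (nat_lit 304) (nat_lit 0) (XT.lf (nat_lit 0) (nat_lit 30200665539) (nat_lit 380) (nat_lit 6285404788) (nat_lit 76) (nat_lit 4182877340) (nat_lit 135) (nat_lit 5) (nat_lit 140) (nat_lit 5) (nat_lit 136) (nat_lit 5) (nat_lit 440) (nat_lit 389) (nat_lit 191)) (XT.lf (nat_lit 0) (nat_lit 17124389867) (nat_lit 304) (nat_lit 21869762628) (nat_lit 380) (nat_lit 2432084795) (nat_lit 131) (nat_lit 5) (nat_lit 135) (nat_lit 5) (nat_lit 136) (nat_lit 5) (nat_lit 441) (nat_lit 389) (nat_lit 190))))) (XT.nd (nat_lit 234)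 (nat_lit 608) (nat_lit 0) (XT.nd (nat_lit 78) (nat_lit 608) (nat_lit 0) (XT.lf (nat_lit 0) (nat_lit 5792610721) (nat_lit 380) (nat_lit 899697874) (nat_lit 76) (nat_lit 35510407695) (nat_lit 130) (nat_lit 5) (nat_lit 135) (nat_lit 5) (nat_lit 131) (nat_lit 5) (nat_lit 442) (nat_lit 389) (nat_lit 189)) (XT.nd (nat_lit 78) (nat_lit 304) (nat_lit 0) (XT.lf (nat_lit 0) (nat_lit 14528255791) (nat_lit 380) (nat_lit 19445498618) (nat_lit 76) (nat_lit 9018620609) (nat_lit 126) (nat_lit 5) (nat_lit 131) (nat_lit 5) (nat_lit 127) (nat_lit 5) (nat_lit 443) (nat_lit 389) (nat_lit 188)) (XT.lf (nat_lit 0) (nat_lit 4966627975) (nat_lit 304) (nat_lit 18679998023) (nat_lit 380) (nat_lit 20155478316) (nat_lit 122) (nat_lit 5) (nat_lit 126) (nat_lit 5) (nat_lit 127) (nat_lit 5) (nat_lit 444) (nat_lit 389) (nat_lit 187)))) (XT.nd (nat_lit 156) (nat_lit 380) (nat_lit 0) (XT.nd (nat_lit 78) (nat_lit 228) (nat_lit 0) (XT.lf (nat_lit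 0) (nat_lit 30505990800) (nat_lit 304) (nat_lit 2726433321) (nat_lit 380) (nat_lit 11397885533) (nat_lit 122) (nat_lit 5) (nat_lit 126) (nat_lit 5) (nat_lit 127) (nat_lit 5) (nat_lit 445) (nat_lit 389) (nat_lit 186)) (XT.lf (nat_lit 0) (nat_lit 11415489378) (nat_lit 228) (nat_lit 31929363455) (nat_lit 304) (nat_lit 2131337073) (nat_lit 119) (nat_lit 5) (nat_lit 122) (nat_lit 5) (nat_lit 123) (nat_lit 5) (nat_lit 446) (nat_lit 389) (nat_lit 185))) (XT.nd (nat_lit 78) (nat_lit 304) (nat_lit 0) (XT.lf (nat_lit 0) (nat_lit 7437171330) (nat_lit 304) (nat_lit 8435513602) (nat_lit 76) (nat_lit 30467565598) (nat_lit 118) (nat_lit 5) (nat_lit 122) (nat_lit 5) (nat_lit 119) (nat_lit 5) (nat_lit 447) (nat_lit 389) (nat_lit 184)) (XT.lf (nat_lit 0) (nat_lit 17431712493) (nat_lit 380) (nat_lit 28942087384) (nat_lit 76) (nat_lit 850345980) (nat_lit 114) (nat_lit 5) (nat_lit 119) (nat_lit 5) (nat_lit 115) (nat_lit 5) (nat_lit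 448) (nat_lit 389) (nat_lit 183)))))) (XT.nd (nat_lit 546) (nat_lit 988) (nat_lit 0) (XT.nd (nat_lit 234) (nat_lit 456) (nat_lit 0) (XT.nd (nat_lit 78) (nat_lit 532) (nat_lit 0) (XT.lf (nat_lit 0) (nat_lit 27966950321) (nat_lit 380) (nat_lit 2319543776) (nat_lit 76) (nat_lit 17840838539) (nat_lit 114) (nat_lit 5) (nat_lit 119) (nat_lit 5) (nat_lit 115) (nat_lit 5) (nat_lit 449) (nat_lit 389) (nat_lit 182)) (XT.nd (nat_lit 78) (nat_lit 304) (nat_lit 0) (XT.lf (nat_lit 0) (nat_lit 25597664222) (nat_lit 228) (nat_lit 13464388652) (nat_lit 304) (nat_lit 9988248306) (nat_lit 111) (nat_lit 5) (nat_lit 114) (nat_lit 5) (nat_lit 115) (nat_lit 5) (nat_lit 450) (nat_lit 389) (nat_lit 181)) (XT.lf (nat_lit 0) (nat_lit 581791779) (nat_lit 304) (nat_lit 45558089840) (nat_lit 76) (nat_lit 3857867944) (nat_lit 107) (nat_lit 5) (nat_lit 111) (nat_lit 5) (nat_lit 108) (nat_lit 5) (nat_lit 451) (nat_lit 389) (nat_lit 180)))) (XT.nd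 (nat_lit 156) (nat_lit 228) (nat_lit 0) (XT.nd (nat_lit 78) (nat_lit 228) (nat_lit 0) (XT.lf (nat_lit 0) (nat_lit 11638436869) (nat_lit 304) (nat_lit 17555129327) (nat_lit 76) (nat_lit 21765981023) (nat_lit 107) (nat_lit 5) (nat_lit 111) (nat_lit 5) (nat_lit 108) (nat_lit 5) (nat_lit 452) (nat_lit 389) (nat_lit 179)) (XT.lf (nat_lit 0) (nat_lit 11509061561) (nat_lit 228) (nat_lit 11626193121) (nat_lit 304) (nat_lit 28811690268) (nat_lit 104) (nat_lit 5) (nat_lit 107) (nat_lit 5) (nat_lit 108) (nat_lit 5) (nat_lit 453) (nat_lit 389) (nat_lit 178))) (XT.nd (nat_lit 78) (nat_lit 228) (nat_lit 0) (XT.lf (nat_lit 0) (nat_lit 35216039943) (nat_lit 304) (nat_lit 11220996647) (nat_lit 76) (nat_lit 6519756473) (nat_lit 104) (nat_lit 5) (nat_lit 108) (nat_lit 5) (nat_lit 105) (nat_lit 5) (nat_lit 454) (nat_lit 389) (nat_lit 177)) (XT.lf (nat_lit 0) (nat_lit 19127166719) (nat_lit 228) (nat_lit 28828976302) (nat_lit 304) (nat_lit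 6031887098) (nat_lit 101) (nat_lit 5) (nat_lit 104) (nat_lit 5) (nat_lit 105) (nat_lit 5) (nat_lit 455) (nat_lit 389) (nat_lit 176))))) (XT.nd (nat_lit 312) (nat_lit 456) (nat_lit 0) (XT.nd (nat_lit 156) (nat_lit 228) (nat_lit 0) (XT.nd (nat_lit 78) (nat_lit 228) (nat_lit 0) (XT.lf (nat_lit 0) (nat_lit 6022973447) (nat_lit 304) (nat_lit 4493447285) (nat_lit 76) (nat_lit 44528674609) (nat_lit 100) (nat_lit 5) (nat_lit 104) (nat_lit 5) (nat_lit 101) (nat_lit 5) (nat_lit 456) (nat_lit 389) (nat_lit 175)) (XT.lf (nat_lit 0) (nat_lit 18661610147) (nat_lit 304) (nat_lit 28953857008) (nat_lit 76) (nat_lit 8506313056) (nat_lit 97) (nat_lit 5) (nat_lit 101) (nat_lit 5) (nat_lit 98) (nat_lit 5) (nat_lit 457) (nat_lit 389) (nat_lit 174))) (XT.nd (nat_lit 78) (nat_lit 0) (nat_lit 0) (XT.lf (nat_lit 0) (nat_lit 2584415481) (nat_lit 228) (nat_lit 29267785741) (nat_lit 304) (nat_lit 25373380838) (nat_lit 94) (nat_lit 5) (nat_lit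 97) (nat_lit 5) (nat_lit 98) (nat_lit 5) (nat_lit 458) (nat_lit 389) (nat_lit 173)) (XT.lf (nat_lit 0) (nat_lit 35659108802) (nat_lit 228) (nat_lit 10069810296) (nat_lit 304) (nat_lit 12624866876) (nat_lit 94) (nat_lit 5) (nat_lit 97) (nat_lit 5) (nat_lit 98) (nat_lit 5) (nat_lit 459) (nat_lit 389) (nat_lit 172)))) (XT.nd (nat_lit 156) (nat_lit 228) (nat_lit 0) (XT.nd (nat_lit 78) (nat_lit 0) (nat_lit 0) (XT.lf (nat_lit 0) (nat_lit 688625755) (nat_lit 228) (nat_lit 49201867993) (nat_lit 76) (nat_lit 9619424602) (nat_lit 91) (nat_lit 5) (nat_lit 94) (nat_lit 5) (nat_lit 92) (nat_lit 5) (nat_lit 460) (nat_lit 389) (nat_lit 171)) (XT.lf (nat_lit 0) (nat_lit 14477001379) (nat_lit 228) (nat_lit 16157960868) (nat_lit 76) (nat_lit 30052145981) (nat_lit 91) (nat_lit 5) (nat_lit 94) (nat_lit 5) (nat_lit 92) (nat_lit 5) (nat_lit 461) (nat_lit 389) (nat_lit 170))) (XT.nd (nat_lit 78) (nat_lit 0) (nat_lit 0) (XT.lf (nat_lit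 0) (nat_lit 18229876675) (nat_lit 228) (nat_lit 10622527817) (nat_lit 304) (nat_lit 33042008276) (nat_lit 88) (nat_lit 5) (nat_lit 91) (nat_lit 5) (nat_lit 92) (nat_lit 5) (nat_lit 462) (nat_lit 389) (nat_lit 169)) (XT.lf (nat_lit 0) (nat_lit 43918033572) (nat_lit 304) (nat_lit 9253248079) (nat_lit 76) (nat_lit 9958886120) (nat_lit 88) (nat_lit 5) (nat_lit 92) (nat_lit 5) (nat_lit 89) (nat_lit 5) (nat_lit 463) (nat_lit 389) (nat_lit 168))))))))
noncomputable def xc206 : XT := (XT.nd (nat_lit 48360) (nat_lit 0) (nat_lit 7372) (XT.nd (nat_lit 1248) (nat_lit 380) (nat_lit 0) (XT.nd (nat_lit 546) (nat_lit 684) (nat_lit 0) (XT.nd (nat_lit 234) (nat_lit 380) (nat_lit 0) (XT.nd (nat_lit 78) (nat_lit 304) (nat_lit 0) (XT.lf (nat_lit 0) (nat_lit 26601252360) (nat_lit 152) (nat_lit 33193466030) (nat_lit 228) (nat_lit 4597504666) (nat_lit 86) (nat_lit 5) (nat_lit 88) (nat_lit 5) (nat_lit 89) (nat_lit 5) (nat_lit 464) (nat_lit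 389) (nat_lit 167)) (XT.nd (nat_lit 78) (nat_lit 228) (nat_lit 0) (XT.lf (nat_lit 0) (nat_lit 10344114240) (nat_lit 228) (nat_lit 2072741848) (nat_lit 76) (nat_lit 53269491689) (nat_lit 85) (nat_lit 5) (nat_lit 88) (nat_lit 5) (nat_lit 86) (nat_lit 5) (nat_lit 465) (nat_lit 389) (nat_lit 166)) (XT.lf (nat_lit 0) (nat_lit 26069882511) (nat_lit 304) (nat_lit 31739411074) (nat_lit 76) (nat_lit 9195788094) (nat_lit 82) (nat_lit 5) (nat_lit 86) (nat_lit 5) (nat_lit 83) (nat_lit 5) (nat_lit 466) (nat_lit 389) (nat_lit 165)))) (XT.nd (nat_lit 156) (nat_lit 228) (nat_lit 0) (XT.nd (nat_lit 78) (nat_lit 0) (nat_lit 0) (XT.lf (nat_lit 0) (nat_lit 5382901070) (nat_lit 152) (nat_lit 37078617790) (nat_lit 228) (nat_lit 25896036098) (nat_lit 80) (nat_lit 5) (nat_lit 82) (nat_lit 5) (nat_lit 83) (nat_lit 5) (nat_lit 467) (nat_lit 389) (nat_lit 164)) (XT.lf (nat_lit 0) (nat_lit 44266571233) (nat_lit 152) (nat_lit 15397135165)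 (nat_lit 228) (nat_lit 10077332177) (nat_lit 80) (nat_lit 5) (nat_lit 82) (nat_lit 5) (nat_lit 83) (nat_lit 5) (nat_lit 468) (nat_lit 389) (nat_lit 163))) (XT.nd (nat_lit 78) (nat_lit 0) (nat_lit 0) (XT.lf (nat_lit 0) (nat_lit 6289793355) (nat_lit 228) (nat_lit 57880380824) (nat_lit 76) (nat_lit 6988205503) (nat_lit 77) (nat_lit 5) (nat_lit 80) (nat_lit 5) (nat_lit 78) (nat_lit 5) (nat_lit 469) (nat_lit 389) (nat_lit 162)) (XT.lf (nat_lit 0) (nat_lit 23355963168) (nat_lit 228) (nat_lit 19152948287) (nat_lit 76) (nat_lit 30094019239) (nat_lit 77) (nat_lit 5) (nat_lit 80) (nat_lit 5) (nat_lit 78) (nat_lit 5) (nat_lit 470) (nat_lit 389) (nat_lit 161))))) (XT.nd (nat_lit 234) (nat_lit 304) (nat_lit 0) (XT.nd (nat_lit 78) (nat_lit 228) (nat_lit 0) (XT.lf (nat_lit 0) (nat_lit 21146133005) (nat_lit 152) (nat_lit 19989641925) (nat_lit 228) (nat_lit 32948993781) (nat_lit 75) (nat_lit 5) (nat_lit 77) (nat_lit 5) (nat_lit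 78) (nat_lit 5) (nat_lit 471) (nat_lit 389) (nat_lit 160)) (XT.nd (nat_lit 78) (nat_lit 228) (nat_lit 0) (XT.lf (nat_lit 0) (nat_lit 59673509640) (nat_lit 228) (nat_lit 12594001949) (nat_lit 76) (nat_lit 3336814599) (nat_lit 75) (nat_lit 5) (nat_lit 78) (nat_lit 5) (nat_lit 76) (nat_lit 5) (nat_lit 472) (nat_lit 389) (nat_lit 159)) (XT.lf (nat_lit 0) (nat_lit 2049784699) (nat_lit 228) (nat_lit 47842514759) (nat_lit 76) (nat_lit 27262218508) (nat_lit 72) (nat_lit 5) (nat_lit 75) (nat_lit 5) (nat_lit 73) (nat_lit 5) (nat_lit 473) (nat_lit 389) (nat_lit 158)))) (XT.nd (nat_lit 156) (nat_lit 152) (nat_lit 0) (XT.nd (nat_lit 78) (nat_lit 152) (nat_lit 0) (XT.lf (nat_lit 0) (nat_lit 20376490896) (nat_lit 228) (nat_lit 6175779513) (nat_lit 76) (nat_lit 52190406906) (nat_lit 72) (nat_lit 5) (nat_lit 75) (nat_lit 5) (nat_lit 73) (nat_lit 5) (nat_lit 474) (nat_lit 389) (nat_lit 157)) (XT.lf (nat_lit 0) (nat_lit 37469459318)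 (nat_lit 152) (nat_lit 2142210236) (nat_lit 228) (nat_lit 40756051909) (nat_lit 70) (nat_lit 5) (nat_lit 72) (nat_lit 5) (nat_lit 73) (nat_lit 5) (nat_lit 475) (nat_lit 389) (nat_lit 156))) (XT.nd (nat_lit 78) (nat_lit 0) (nat_lit 0) (XT.lf (nat_lit 0) (nat_lit 292331873) (nat_lit 152) (nat_lit 59416953491) (nat_lit 228) (nat_lit 22323670270) (nat_lit 68) (nat_lit 5) (nat_lit 70) (nat_lit 5) (nat_lit 71) (nat_lit 5) (nat_lit 476) (nat_lit 389) (nat_lit 155)) (XT.lf (nat_lit 0) (nat_lit 45633739799) (nat_lit 152) (nat_lit 35228798000) (nat_lit 228) (nat_lit 2872027935) (nat_lit 68) (nat_lit 5) (nat_lit 70) (nat_lit 5) (nat_lit 71) (nat_lit 5) (nat_lit 477) (nat_lit 389) (nat_lit 154)))))) (XT.nd (nat_lit 46488) (nat_lit 0) (nat_lit 14896) (XT.nd (nat_lit 46176) (nat_lit 0) (nat_lit 14744) (XT.nd (nat_lit 78) (nat_lit 0) (nat_lit 0) (XT.lf (nat_lit 0) (nat_lit 12974602648) (nat_lit 152) (nat_lit 46443470167) (nat_lit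 228) (nat_lit 29671284565) (nat_lit 63) (nat_lit 5) (nat_lit 65) (nat_lit 5) (nat_lit 66) (nat_lit 5) (nat_lit 480) (nat_lit 389) (nat_lit 151)) (XT.nd (nat_lit 46020) (nat_lit 0) (nat_lit 14744) (XT.lf (nat_lit 0) (nat_lit 61630159915) (nat_lit 152) (nat_lit 20463430160) (nat_lit 228) (nat_lit 8868339545) (nat_lit 63) (nat_lit 5) (nat_lit 65) (nat_lit 5) (nat_lit 66) (nat_lit 5) (nat_lit 481) (nat_lit 389) (nat_lit 150)) (XT.lf (nat_lit 0) (nat_lit 528130043) (nat_lit 1292) (nat_lit 4228707972) (nat_lit 1292) (nat_lit 4228707972) (nat_lit 257) (nat_lit 3) (nat_lit 274) (nat_lit 3) (nat_lit 274) (nat_lit 5) (nat_lit 390) (nat_lit 390) (nat_lit 240)))) (XT.nd (nat_lit 156) (nat_lit 0) (nat_lit 76) (XT.nd (nat_lit 78) (nat_lit 0) (nat_lit 76) (XT.lf (nat_lit 76) (nat_lit 282468282) (nat_lit 0) (nat_lit 995562333) (nat_lit 1292) (nat_lit 16956383481) (nat_lit 258) (nat_lit 5) (nat_lit 257) (nat_lit 3) (nat_lit 274)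 (nat_lit 5) (nat_lit 391) (nat_lit 390) (nat_lit 239)) (XT.lf (nat_lit 0) (nat_lit 1659536698) (nat_lit 1216) (nat_lit 9125214632) (nat_lit 1292) (nat_lit 7716294670) (nat_lit 258) (nat_lit 5) (nat_lit 274) (nat_lit 5) (nat_lit 275) (nat_lit 5) (nat_lit 392) (nat_lit 390) (nat_lit 238))) (XT.nd (nat_lit 78) (nat_lit 0) (nat_lit 76) (XT.lf (nat_lit 0) (nat_lit 2054641849) (nat_lit 1216) (nat_lit 47854334) (nat_lit 1292) (nat_lit 16673118580) (nat_lit 258) (nat_lit 5) (nat_lit 274) (nat_lit 5) (nat_lit 275) (nat_lit 5) (nat_lit 393) (nat_lit 390) (nat_lit 237)) (XT.lf (nat_lit 0) (nat_lit 2611961218) (nat_lit 1216) (nat_lit 9639921456) (nat_lit 1292) (nat_lit 6802029528) (nat_lit 259) (nat_lit 5) (nat_lit 275) (nat_lit 5) (nat_lit 276) (nat_lit 5) (nat_lit 394) (nat_lit 390) (nat_lit 236))))) (XT.nd (nat_lit 312) (nat_lit 0) (nat_lit 152) (XT.nd (nat_lit 156) (nat_lit 0) (nat_lit 76) (XT.nd (nat_lit 78) (nat_lit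 0) (nat_lit 76) (XT.lf (nat_lit 0) (nat_lit 3200034422) (nat_lit 1216) (nat_lit 205094182) (nat_lit 1292) (nat_lit 15935011307) (nat_lit 259) (nat_lit 5) (nat_lit 275) (nat_lit 5) (nat_lit 276) (nat_lit 5) (nat_lit 395) (nat_lit 390) (nat_lit 235)) (XT.lf (nat_lit 0) (nat_lit 3947720875) (nat_lit 1216) (nat_lit 9990437802) (nat_lit 1292) (nat_lit 5692538946) (nat_lit 260) (nat_lit 5) (nat_lit 276) (nat_lit 5) (nat_lit 277) (nat_lit 5) (nat_lit 396) (nat_lit 390) (nat_lit 234))) (XT.nd (nat_lit 78) (nat_lit 0) (nat_lit 76) (XT.lf (nat_lit 0) (nat_lit 4746775355) (nat_lit 1216) (nat_lit 182931185) (nat_lit 1292) (nat_lit 14999399642) (nat_lit 260) (nat_lit 5) (nat_lit 276) (nat_lit 5) (nat_lit 277) (nat_lit 5) (nat_lit 397) (nat_lit 390) (nat_lit 233)) (XT.lf (nat_lit 0) (nat_lit 5703123942) (nat_lit 1216) (nat_lit 10164760532) (nat_lit 1292) (nat_lit 4364585021) (nat_lit 261) (nat_lit 5) (nat_lit 277) (nat_lit 5)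 (nat_lit 278) (nat_lit 5) (nat_lit 398) (nat_lit 390) (nat_lit 232)))) (XT.nd (nat_lit 156) (nat_lit 0) (nat_lit 76) (XT.nd (nat_lit 78) (nat_lit 0) (nat_lit 76) (XT.lf (nat_lit 76) (nat_lit 32025965) (nat_lit 0) (nat_lit 6700625488) (nat_lit 1292) (nat_lit 13810949710) (nat_lit 262) (nat_lit 5) (nat_lit 261) (nat_lit 5) (nat_lit 278) (nat_lit 5) (nat_lit 399) (nat_lit 390) (nat_lit 231)) (XT.lf (nat_lit 0) (nat_lit 7916750022) (nat_lit 1216) (nat_lit 10149952450) (nat_lit 1292) (nat_lit 2793655798) (nat_lit 262) (nat_lit 5) (nat_lit 278) (nat_lit 5) (nat_lit 279) (nat_lit 5) (nat_lit 400) (nat_lit 390) (nat_lit 230))) (XT.nd (nat_lit 78) (nat_lit 0) (nat_lit 76) (XT.lf (nat_lit 76) (nat_lit 460622847) (nat_lit 0) (nat_lit 8740374050) (nat_lit 1292) (nat_lit 11983684422) (nat_lit 263) (nat_lit 5) (nat_lit 262) (nat_lit 5) (nat_lit 279) (nat_lit 5) (nat_lit 401) (nat_lit 390) (nat_lit 229)) (XT.lf (nat_lit 0) (nat_lit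 10629607687) (nat_lit 1216) (nat_lit 9932110547) (nat_lit 1292) (nat_lit 953842660) (nat_lit 263) (nat_lit 5) (nat_lit 279) (nat_lit 5) (nat_lit 280) (nat_lit 5) (nat_lit 402) (nat_lit 390) (nat_lit 228))))))) (XT.nd (nat_lit 1092) (nat_lit 4256) (nat_lit 0) (XT.nd (nat_lit 546) (nat_lit 1748) (nat_lit 0) (XT.nd (nat_lit 234) (nat_lit 1824) (nat_lit 0) (XT.nd (nat_lit 78) (nat_lit 0) (nat_lit 0) (XT.lf (nat_lit 76) (nat_lit 1114243129) (nat_lit 0) (nat_lit 11078262455) (nat_lit 1292) (nat_lit 9661120282) (nat_lit 264) (nat_lit 5) (nat_lit 263) (nat_lit 5) (nat_lit 280) (nat_lit 5) (nat_lit 403) (nat_lit 390) (nat_lit 227)) (XT.nd (nat_lit 78) (nat_lit 0) (nat_lit 76) (XT.lf (nat_lit 76) (nat_lit 12691073397) (nat_lit 0) (nat_lit 1205817650) (nat_lit 1292) (nat_lit 8302105541) (nat_lit 264) (nat_lit 5) (nat_lit 263) (nat_lit 5) (nat_lit 280) (nat_lit 5) (nat_lit 404) (nat_lit 390) (nat_lit 226)) (XT.lf (nat_lit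 76) (nat_lit 2008966635) (nat_lit 0) (nat_lit 13743391444) (nat_lit 1292) (nat_lit 6799373619) (nat_lit 265) (nat_lit 5) (nat_lit 264) (nat_lit 5) (nat_lit 281) (nat_lit 5) (nat_lit 405) (nat_lit 390) (nat_lit 225)))) (XT.nd (nat_lit 156) (nat_lit 760) (nat_lit 0) (XT.nd (nat_lit 78) (nat_lit 1140) (nat_lit 0) (XT.lf (nat_lit 76) (nat_lit 14049574811) (nat_lit 0) (nat_lit 3716347397) (nat_lit 1292) (nat_lit 5146055374) (nat_lit 265) (nat_lit 5) (nat_lit 264) (nat_lit 5) (nat_lit 281) (nat_lit 5) (nat_lit 406) (nat_lit 390) (nat_lit 224)) (XT.lf (nat_lit 0) (nat_lit 3161967139) (nat_lit 1216) (nat_lit 16766640250) (nat_lit 1292) (nat_lit 3351763696) (nat_lit 249) (nat_lit 5) (nat_lit 265) (nat_lit 5) (nat_lit 266) (nat_lit 5) (nat_lit 407) (nat_lit 390) (nat_lit 223))) (XT.nd (nat_lit 78) (nat_lit 760) (nat_lit 0) (XT.lf (nat_lit 0) (nat_lit 15686704755) (nat_lit 1216) (nat_lit 6590270691) (nat_lit 1292) (nat_lit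 1379218494) (nat_lit 249) (nat_lit 5) (nat_lit 265) (nat_lit 5) (nat_lit 266) (nat_lit 5) (nat_lit 408) (nat_lit 390) (nat_lit 222)) (XT.lf (nat_lit 0) (nat_lit 717099934) (nat_lit 760) (nat_lit 19456473448) (nat_lit 76) (nat_lit 3867211567) (nat_lit 239) (nat_lit 5) (nat_lit 249) (nat_lit 5) (nat_lit 240) (nat_lit 5) (nat_lit 409) (nat_lit 390) (nat_lit 221))))) (XT.nd (nat_lit 234) (nat_lit 1140) (nat_lit 0) (XT.nd (nat_lit 78) (nat_lit 608) (nat_lit 0) (XT.lf (nat_lit 0) (nat_lit 2990191851) (nat_lit 760) (nat_lit 6840695565) (nat_lit 76) (nat_lit 14601369938) (nat_lit 239) (nat_lit 5) (nat_lit 249) (nat_lit 5) (nat_lit 240) (nat_lit 5) (nat_lit 410) (nat_lit 390) (nat_lit 220)) (XT.nd (nat_lit 78) (nat_lit 0) (nat_lit 0) (XT.lf (nat_lit 0) (nat_lit 5395489055) (nat_lit 684) (nat_lit 18570830389) (nat_lit 76) (nat_lit 867235546) (nat_lit 231) (nat_lit 5) (nat_lit 240) (nat_lit 5) (nat_lit 232) (nat_lit 5) (nat_lit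 411) (nat_lit 390) (nat_lit 219)) (XT.lf (nat_lit 0) (nat_lit 8035366426) (nat_lit 684) (nat_lit 5447917310) (nat_lit 76) (nat_lit 11758736576) (nat_lit 231) (nat_lit 5) (nat_lit 240) (nat_lit 5) (nat_lit 232) (nat_lit 5) (nat_lit 412) (nat_lit 390) (nat_lit 218)))) (XT.nd (nat_lit 156) (nat_lit 532) (nat_lit 0) (XT.nd (nat_lit 78) (nat_lit 0) (nat_lit 0) (XT.lf (nat_lit 0) (nat_lit 8224756866) (nat_lit 608) (nat_lit 2604205020) (nat_lit 684) (nat_lit 14831543409) (nat_lit 223) (nat_lit 5) (nat_lit 231) (nat_lit 5) (nat_lit 232) (nat_lit 5) (nat_lit 413) (nat_lit 390) (nat_lit 217)) (XT.lf (nat_lit 0) (nat_lit 13840154823) (nat_lit 684) (nat_lit 3758344396) (nat_lit 76) (nat_lit 8489033234) (nat_lit 223) (nat_lit 5) (nat_lit 232) (nat_lit 5) (nat_lit 224) (nat_lit 5) (nat_lit 414) (nat_lit 390) (nat_lit 216))) (XT.nd (nat_lit 78) (nat_lit 0) (nat_lit 0) (XT.lf (nat_lit 0) (nat_lit 10504190517) (nat_lit 532) (nat_lit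 6559930726) (nat_lit 608) (nat_lit 9459577328) (nat_lit 216) (nat_lit 5) (nat_lit 223) (nat_lit 5) (nat_lit 224) (nat_lit 5) (nat_lit 415) (nat_lit 390) (nat_lit 215)) (XT.lf (nat_lit 0) (nat_lit 20465132901) (nat_lit 608) (nat_lit 1751243678) (nat_lit 76) (nat_lit 4754164545) (nat_lit 216) (nat_lit 5) (nat_lit 224) (nat_lit 5) (nat_lit 217) (nat_lit 5) (nat_lit 416) (nat_lit 390) (nat_lit 214)))))) (XT.nd (nat_lit 546) (nat_lit 2204) (nat_lit 0) (XT.nd (nat_lit 234) (nat_lit 988) (nat_lit 0) (XT.nd (nat_lit 78) (nat_lit 532) (nat_lit 0) (XT.lf (nat_lit 0) (nat_lit 13132036259) (nat_lit 532) (nat_lit 11023208889) (nat_lit 608) (nat_lit 3269932901) (nat_lit 209) (nat_lit 5) (nat_lit 216) (nat_lit 5) (nat_lit 217) (nat_lit 5) (nat_lit 417) (nat_lit 390) (nat_lit 213)) (XT.nd (nat_lit 78) (nat_lit 0) (nat_lit 0) (XT.lf (nat_lit 0) (nat_lit 86147426) (nat_lit 532) (nat_lit 27286375748) (nat_lit 76) (nat_lit 520171114)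 (nat_lit 202) (nat_lit 5) (nat_lit 209) (nat_lit 5) (nat_lit 203) (nat_lit 5) (nat_lit 418) (nat_lit 390) (nat_lit 212)) (XT.lf (nat_lit 0) (nat_lit 3728088705) (nat_lit 532) (nat_lit 12271543804) (nat_lit 76) (nat_lit 12366106310) (nat_lit 202) (nat_lit 5) (nat_lit 209) (nat_lit 5) (nat_lit 203) (nat_lit 5) (nat_lit 419) (nat_lit 390) (nat_lit 211)))) (XT.nd (nat_lit 156) (nat_lit 456) (nat_lit 0) (XT.nd (nat_lit 78) (nat_lit 0) (nat_lit 0) (XT.lf (nat_lit 0) (nat_lit 3252887727) (nat_lit 532) (nat_lit 4253784320) (nat_lit 608) (nat_lit 21345482193) (nat_lit 195) (nat_lit 5) (nat_lit 202) (nat_lit 5) (nat_lit 203) (nat_lit 5) (nat_lit 420) (nat_lit 390) (nat_lit 210)) (XT.lf (nat_lit 0) (nat_lit 11595346512) (nat_lit 608) (nat_lit 9935859724) (nat_lit 76) (nat_lit 7816054916) (nat_lit 195) (nat_lit 5) (nat_lit 203) (nat_lit 5) (nat_lit 196) (nat_lit 5) (nat_lit 421) (nat_lit 390) (nat_lit 209))) (XT.nd (nat_lit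 78) (nat_lit 0) (nat_lit 0) (XT.lf (nat_lit 0) (nat_lit 6273489301) (nat_lit 456) (nat_lit 9631907015) (nat_lit 532) (nat_lit 13948864511) (nat_lit 189) (nat_lit 5) (nat_lit 195) (nat_lit 5) (nat_lit 196) (nat_lit 5) (nat_lit 422) (nat_lit 390) (nat_lit 208)) (XT.lf (nat_lit 0) (nat_lit 20467656379) (nat_lit 532) (nat_lit 7231211221) (nat_lit 76) (nat_lit 2673916605) (nat_lit 189) (nat_lit 5) (nat_lit 196) (nat_lit 5) (nat_lit 190) (nat_lit 5) (nat_lit 423) (nat_lit 390) (nat_lit 207))))) (XT.nd (nat_lit 312) (nat_lit 1216) (nat_lit 0) (XT.nd (nat_lit 156) (nat_lit 532) (nat_lit 0) (XT.nd (nat_lit 78) (nat_lit 0) (nat_lit 0) (XT.lf (nat_lit 0) (nat_lit 9698525150) (nat_lit 456) (nat_lit 15653314422) (nat_lit 532) (nat_lit 5549473002) (nat_lit 183) (nat_lit 5) (nat_lit 189) (nat_lit 5) (nat_lit 190) (nat_lit 5) (nat_lit 424) (nat_lit 390) (nat_lit 206)) (XT.lf (nat_lit 0) (nat_lit 27280229033) (nat_lit 456) (nat_lit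 3171865135) (nat_lit 532) (nat_lit 991517174) (nat_lit 183) (nat_lit 5) (nat_lit 189) (nat_lit 5) (nat_lit 190) (nat_lit 5) (nat_lit 425) (nat_lit 390) (nat_lit 205))) (XT.nd (nat_lit 78) (nat_lit 0) (nat_lit 0) (XT.lf (nat_lit 0) (nat_lit 3853094827) (nat_lit 532) (nat_lit 18478874405) (nat_lit 76) (nat_lit 9662477395) (nat_lit 176) (nat_lit 5) (nat_lit 183) (nat_lit 5) (nat_lit 177) (nat_lit 5) (nat_lit 426) (nat_lit 390) (nat_lit 204)) (XT.lf (nat_lit 0) (nat_lit 8893624628) (nat_lit 532) (nat_lit 796102016) (nat_lit 76) (nat_lit 22869671424) (nat_lit 176) (nat_lit 5) (nat_lit 183) (nat_lit 5) (nat_lit 177) (nat_lit 5) (nat_lit 427) (nat_lit 390) (nat_lit 203)))) (XT.nd (nat_lit 156) (nat_lit 380) (nat_lit 0) (XT.nd (nat_lit 78) (nat_lit 380) (nat_lit 0) (XT.lf (nat_lit 0) (nat_lit 14286539849) (nat_lit 532) (nat_lit 15410314238) (nat_lit 76) (nat_lit 3438409697) (nat_lit 170) (nat_lit 5) (nat_lit 177) (nat_lit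 5) (nat_lit 171) (nat_lit 5) (nat_lit 428) (nat_lit 390) (nat_lit 202)) (XT.lf (nat_lit 0) (nat_lit 3049183221) (nat_lit 380) (nat_lit 16922218047) (nat_lit 456) (nat_lit 13753100237) (nat_lit 165) (nat_lit 5) (nat_lit 170) (nat_lit 5) (nat_lit 171) (nat_lit 5) (nat_lit 429) (nat_lit 390) (nat_lit 201))) (XT.nd (nat_lit 78) (nat_lit 380) (nat_lit 0) (XT.lf (nat_lit 0) (nat_lit 22374314503) (nat_lit 380) (nat_lit 3604954102) (nat_lit 456) (nat_lit 8347574721) (nat_lit 165) (nat_lit 5) (nat_lit 170) (nat_lit 5) (nat_lit 171) (nat_lit 5) (nat_lit 430) (nat_lit 390) (nat_lit 200)) (XT.lf (nat_lit 0) (nat_lit 7374635118) (nat_lit 380) (nat_lit 24957757065) (nat_lit 456) (nat_lit 2609913365) (nat_lit 160) (nat_lit 5) (nat_lit 165) (nat_lit 5) (nat_lit 166) (nat_lit 5) (nat_lit 431) (nat_lit 390) (nat_lit 199))))))))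
noncomputable def xc207 : XT := (XT.nd (nat_lit 2262) (nat_lit 2356) (nat_lit 0) (XT.nd (nat_lit 1092) (nat_lit 2128) (nat_lit 0) (XT.nd (nat_lit 546) (nat_lit 1292) (nat_lit 0) (XT.nd (nat_lit 234) (nat_lit 1140) (nat_lit 0) (XT.nd (nat_lit 78) (nat_lit 380) (nat_lit 0) (XT.lf (nat_lit 0) (nat_lit 3390020327) (nat_lit 456) (nat_lit 8118625571) (nat_lit 76) (nat_lit 24061998779) (nat_lit 159) (nat_lit 5) (nat_lit 165) (nat_lit 5) (nat_lit 160) (nat_lit 5) (nat_lit 432) (nat_lit 390) (nat_lit 198)) (XT.nd (nat_lit 78) (nat_lit 0) (nat_lit 0) (XT.lf (nat_lit 0) (nat_lit 9654977126) (nat_lit 456) (nat_lit 24116935426) (nat_lit 76) (nat_lit 2441022438) (nat_lit 154) (nat_lit 5) (nat_lit 160) (nat_lit 5) (nat_lit 155) (nat_lit 5) (nat_lit 433) (nat_lit 390) (nat_lit 197)) (XT.lf (nat_lit 0) (nat_lit 16301702248) (nat_lit 456) (nat_lit 3907264549) (nat_lit 76) (nat_lit 16659713295) (nat_lit 154) (nat_lit 5) (nat_lit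 160) (nat_lit 5) (nat_lit 155) (nat_lit 5) (nat_lit 434) (nat_lit 390) (nat_lit 196)))) (XT.nd (nat_lit 156) (nat_lit 456) (nat_lit 0) (XT.nd (nat_lit 78) (nat_lit 304) (nat_lit 0) (XT.lf (nat_lit 0) (nat_lit 17241292849) (nat_lit 380) (nat_lit 6069433937) (nat_lit 456) (nat_lit 14228484477) (nat_lit 149) (nat_lit 5) (nat_lit 154) (nat_lit 5) (nat_lit 155) (nat_lit 5) (nat_lit 435) (nat_lit 390) (nat_lit 195)) (XT.lf (nat_lit 0) (nat_lit 805522884) (nat_lit 304) (nat_lit 29850941054) (nat_lit 380) (nat_lit 7569601803) (nat_lit 145) (nat_lit 5) (nat_lit 149) (nat_lit 5) (nat_lit 150) (nat_lit 5) (nat_lit 436) (nat_lit 390) (nat_lit 194))) (XT.nd (nat_lit 78) (nat_lit 456) (nat_lit 0) (XT.lf (nat_lit 0) (nat_lit 22893023290) (nat_lit 304) (nat_lit 15591268036) (nat_lit 380) (nat_lit 441383592) (nat_lit 145) (nat_lit 5) (nat_lit 149) (nat_lit 5) (nat_lit 150) (nat_lit 5) (nat_lit 437) (nat_lit 390) (nat_lit 193))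 (XT.lf (nat_lit 0) (nat_lit 6044712254) (nat_lit 380) (nat_lit 776715115) (nat_lit 456) (nat_lit 32821193469) (nat_lit 139) (nat_lit 5) (nat_lit 144) (nat_lit 5) (nat_lit 145) (nat_lit 5) (nat_lit 438) (nat_lit 390) (nat_lit 192))))) (XT.nd (nat_lit 234) (nat_lit 988) (nat_lit 0) (XT.nd (nat_lit 78) (nat_lit 304) (nat_lit 0) (XT.lf (nat_lit 0) (nat_lit 14593295164) (nat_lit 456) (nat_lit 11412170460) (nat_lit 76) (nat_lit 14366477648) (nat_lit 139) (nat_lit 5) (nat_lit 145) (nat_lit 5) (nat_lit 140) (nat_lit 5) (nat_lit 439) (nat_lit 390) (nat_lit 191)) (XT.nd (nat_lit 78) (nat_lit 0) (nat_lit 0) (XT.lf (nat_lit 0) (nat_lit 11655177845) (nat_lit 304) (nat_lit 11060275957) (nat_lit 380) (nat_lit 18404178076) (nat_lit 135) (nat_lit 5) (nat_lit 139) (nat_lit 5) (nat_lit 140) (nat_lit 5) (nat_lit 440) (nat_lit 390) (nat_lit 190)) (XT.lf (nat_lit 0) (nat_lit 31236750114) (nat_lit 380) (nat_lit 6284340264) (nat_lit 76)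 (nat_lit 4363997101) (nat_lit 135) (nat_lit 5) (nat_lit 140) (nat_lit 5) (nat_lit 136) (nat_lit 5) (nat_lit 441) (nat_lit 390) (nat_lit 189)))) (XT.nd (nat_lit 156) (nat_lit 608) (nat_lit 0) (XT.nd (nat_lit 78) (nat_lit 76) (nat_lit 0) (XT.lf (nat_lit 0) (nat_lit 17825889146) (nat_lit 304) (nat_lit 22466169180) (nat_lit 380) (nat_lit 2373097742) (nat_lit 131) (nat_lit 5) (nat_lit 135) (nat_lit 5) (nat_lit 136) (nat_lit 5) (nat_lit 442) (nat_lit 390) (nat_lit 188)) (XT.lf (nat_lit 0) (nat_lit 6091995630) (nat_lit 380) (nat_lit 741865952) (nat_lit 76) (nat_lit 36631143582) (nat_lit 130) (nat_lit 5) (nat_lit 135) (nat_lit 5) (nat_lit 131) (nat_lit 5) (nat_lit 443) (nat_lit 390) (nat_lit 187))) (XT.nd (nat_lit 78) (nat_lit 304) (nat_lit 0) (XT.lf (nat_lit 0) (nat_lit 15088380881) (nat_lit 380) (nat_lit 19842687843) (nat_lit 76) (nat_lit 9347325516) (nat_lit 126) (nat_lit 5) (nat_lit 131) (nat_lit 5) (nat_lit 127) (nat_lit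 5) (nat_lit 444) (nat_lit 390) (nat_lit 186)) (XT.lf (nat_lit 0) (nat_lit 5299977295) (nat_lit 304) (nat_lit 19178477260) (nat_lit 380) (nat_lit 20634016981) (nat_lit 122) (nat_lit 5) (nat_lit 126) (nat_lit 5) (nat_lit 127) (nat_lit 5) (nat_lit 445) (nat_lit 390) (nat_lit 185)))))) (XT.nd (nat_lit 546) (nat_lit 988) (nat_lit 0) (XT.nd (nat_lit 234) (nat_lit 836) (nat_lit 0) (XT.nd (nat_lit 78) (nat_lit 304) (nat_lit 0) (XT.lf (nat_lit 0) (nat_lit 31600151573) (nat_lit 304) (nat_lit 2748109132) (nat_lit 380) (nat_lit 11617369978) (nat_lit 122) (nat_lit 5) (nat_lit 126) (nat_lit 5) (nat_lit 127) (nat_lit 5) (nat_lit 446) (nat_lit 390) (nat_lit 184)) (XT.nd (nat_lit 78) (nat_lit 76) (nat_lit 0) (XT.lf (nat_lit 0) (nat_lit 11938161256) (nat_lit 228) (nat_lit 32824732282) (nat_lit 304) (nat_lit 2074029519) (nat_lit 119) (nat_lit 5) (nat_lit 122) (nat_lit 5) (nat_lit 123) (nat_lit 5) (nat_lit 447) (nat_lit 390) (nat_lit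 183)) (XT.lf (nat_lit 0) (nat_lit 7775705585) (nat_lit 304) (nat_lit 8511303052) (nat_lit 76) (nat_lit 31439966387) (nat_lit 118) (nat_lit 5) (nat_lit 122) (nat_lit 5) (nat_lit 119) (nat_lit 5) (nat_lit 448) (nat_lit 390) (nat_lit 182)))) (XT.nd (nat_lit 156) (nat_lit 532) (nat_lit 0) (XT.nd (nat_lit 78) (nat_lit 0) (nat_lit 0) (XT.lf (nat_lit 0) (nat_lit 18069002633) (nat_lit 380) (nat_lit 29631973846) (nat_lit 76) (nat_lit 936443739) (nat_lit 114) (nat_lit 5) (nat_lit 119) (nat_lit 5) (nat_lit 115) (nat_lit 5) (nat_lit 449) (nat_lit 390) (nat_lit 181)) (XT.lf (nat_lit 0) (nat_lit 28916967340) (nat_lit 380) (nat_lit 2215949351) (nat_lit 76) (nat_lit 18434886394) (nat_lit 114) (nat_lit 5) (nat_lit 119) (nat_lit 5) (nat_lit 115) (nat_lit 5) (nat_lit 450) (nat_lit 390) (nat_lit 180))) (XT.nd (nat_lit 78) (nat_lit 304) (nat_lit 0) (XT.lf (nat_lit 0) (nat_lit 26537077036) (nat_lit 228) (nat_lit 13806261075) (nat_lit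 304) (nat_lit 10175170683) (nat_lit 111) (nat_lit 5) (nat_lit 114) (nat_lit 5) (nat_lit 115) (nat_lit 5) (nat_lit 451) (nat_lit 390) (nat_lit 179)) (XT.lf (nat_lit 0) (nat_lit 708811057) (nat_lit 304) (nat_lit 46750154292) (nat_lit 76) (nat_lit 4035412097) (nat_lit 107) (nat_lit 5) (nat_lit 111) (nat_lit 5) (nat_lit 108) (nat_lit 5) (nat_lit 452) (nat_lit 390) (nat_lit 178))))) (XT.nd (nat_lit 312) (nat_lit 532) (nat_lit 0) (XT.nd (nat_lit 156) (nat_lit 228) (nat_lit 0) (XT.nd (nat_lit 78) (nat_lit 228) (nat_lit 0) (XT.lf (nat_lit 0) (nat_lit 12093964270) (nat_lit 304) (nat_lit 17912192679) (nat_lit 76) (nat_lit 22478968332) (nat_lit 107) (nat_lit 5) (nat_lit 111) (nat_lit 5) (nat_lit 108) (nat_lit 5) (nat_lit 453) (nat_lit 390) (nat_lit 177)) (XT.lf (nat_lit 0) (nat_lit 12022261283) (nat_lit 228) (nat_lit 11911941279) (nat_lit 304) (nat_lit 29567987402) (nat_lit 104) (nat_lit 5) (nat_lit 107) (nat_lit 5) (nat_lit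 108) (nat_lit 5) (nat_lit 454) (nat_lit 390) (nat_lit 176))) (XT.nd (nat_lit 78) (nat_lit 228) (nat_lit 0) (XT.lf (nat_lit 0) (nat_lit 36374944633) (nat_lit 304) (nat_lit 11392106884) (nat_lit 76) (nat_lit 6775356491) (nat_lit 104) (nat_lit 5) (nat_lit 108) (nat_lit 5) (nat_lit 105) (nat_lit 5) (nat_lit 455) (nat_lit 390) (nat_lit 175)) (XT.lf (nat_lit 0) (nat_lit 19864878641) (nat_lit 228) (nat_lit 29630964431) (nat_lit 304) (nat_lit 6108781806) (nat_lit 101) (nat_lit 5) (nat_lit 104) (nat_lit 5) (nat_lit 105) (nat_lit 5) (nat_lit 456) (nat_lit 390) (nat_lit 174)))) (XT.nd (nat_lit 156) (nat_lit 228) (nat_lit 0) (XT.nd (nat_lit 78) (nat_lit 228) (nat_lit 0) (XT.lf (nat_lit 0) (nat_lit 6302722148) (nat_lit 304) (nat_lit 4467141229) (nat_lit 76) (nat_lit 45923598267) (nat_lit 100) (nat_lit 5) (nat_lit 104) (nat_lit 5) (nat_lit 101) (nat_lit 5) (nat_lit 457) (nat_lit 390) (nat_lit 173)) (XT.lf (nat_lit 0) (nat_lit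 19319760494) (nat_lit 304) (nat_lit 29660591446) (nat_lit 76) (nat_lit 8822118274) (nat_lit 97) (nat_lit 5) (nat_lit 101) (nat_lit 5) (nat_lit 98) (nat_lit 5) (nat_lit 458) (nat_lit 390) (nat_lit 172))) (XT.nd (nat_lit 78) (nat_lit 0) (nat_lit 0) (XT.lf (nat_lit 0) (nat_lit 2822242146) (nat_lit 228) (nat_lit 30082504835) (nat_lit 304) (nat_lit 26034679225) (nat_lit 94) (nat_lit 5) (nat_lit 97) (nat_lit 5) (nat_lit 98) (nat_lit 5) (nat_lit 459) (nat_lit 390) (nat_lit 171)) (XT.lf (nat_lit 0) (nat_lit 36884507504) (nat_lit 228) (nat_lit 10310434237) (nat_lit 304) (nat_lit 12906619642) (nat_lit 94) (nat_lit 5) (nat_lit 97) (nat_lit 5) (nat_lit 98) (nat_lit 5) (nat_lit 460) (nat_lit 390) (nat_lit 170))))))) (XT.nd (nat_lit 1092) (nat_lit 684) (nat_lit 0) (XT.nd (nat_lit 546) (nat_lit 760) (nat_lit 0) (XT.nd (nat_lit 234) (nat_lit 456) (nat_lit 0) (XT.nd (nat_lit 78) (nat_lit 228) (nat_lit 0) (XT.lf (nat_lit 0) (nat_lit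 803712091) (nat_lit 228) (nat_lit 50519707050) (nat_lit 76) (nat_lit 9968951189) (nat_lit 91) (nat_lit 5) (nat_lit 94) (nat_lit 5) (nat_lit 92) (nat_lit 5) (nat_lit 461) (nat_lit 390) (nat_lit 169)) (XT.nd (nat_lit 78) (nat_lit 228) (nat_lit 0) (XT.lf (nat_lit 0) (nat_lit 15002988667) (nat_lit 228) (nat_lit 16489090974) (nat_lit 76) (nat_lit 31012879146) (nat_lit 91) (nat_lit 5) (nat_lit 94) (nat_lit 5) (nat_lit 92) (nat_lit 5) (nat_lit 462) (nat_lit 390) (nat_lit 168)) (XT.lf (nat_lit 0) (nat_lit 18928875728) (nat_lit 228) (nat_lit 10879570039) (nat_lit 304) (nat_lit 33940073299) (nat_lit 88) (nat_lit 5) (nat_lit 91) (nat_lit 5) (nat_lit 92) (nat_lit 5) (nat_lit 463) (nat_lit 390) (nat_lit 167)))) (XT.nd (nat_lit 156) (nat_lit 304) (nat_lit 0) (XT.nd (nat_lit 78) (nat_lit 152) (nat_lit 0) (XT.lf (nat_lit 0) (nat_lit 45323983900) (nat_lit 304) (nat_lit 9381101465) (nat_lit 76) (nat_lit 10316323499) (nat_lit 88)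 (nat_lit 5) (nat_lit 92) (nat_lit 5) (nat_lit 89) (nat_lit 5) (nat_lit 464) (nat_lit 390) (nat_lit 166)) (XT.lf (nat_lit 0) (nat_lit 27547565908) (nat_lit 152) (nat_lit 34128253645) (nat_lit 228) (nat_lit 4645541085) (nat_lit 86) (nat_lit 5) (nat_lit 88) (nat_lit 5) (nat_lit 89) (nat_lit 5) (nat_lit 465) (nat_lit 390) (nat_lit 165))) (XT.nd (nat_lit 78) (nat_lit 228) (nat_lit 0) (XT.lf (nat_lit 0) (nat_lit 10740005306) (nat_lit 228) (nat_lit 1989253209) (nat_lit 76) (nat_lit 54925101995) (nat_lit 85) (nat_lit 5) (nat_lit 88) (nat_lit 5) (nat_lit 86) (nat_lit 5) (nat_lit 466) (nat_lit 390) (nat_lit 164)) (XT.lf (nat_lit 0) (nat_lit 26937015564) (nat_lit 304) (nat_lit 32545381088) (nat_lit 76) (nat_lit 9530276020) (nat_lit 82) (nat_lit 5) (nat_lit 86) (nat_lit 5) (nat_lit 83) (nat_lit 5) (nat_lit 467) (nat_lit 390) (nat_lit 163))))) (XT.nd (nat_lit 234) (nat_lit 380) (nat_lit 0) (XT.nd (nat_lit 78) (nat_lit 228)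 (nat_lit 0) (XT.lf (nat_lit 0) (nat_lit 5689166965) (nat_lit 152) (nat_lit 38130148947) (nat_lit 228) (nat_lit 26586437091) (nat_lit 80) (nat_lit 5) (nat_lit 82) (nat_lit 5) (nat_lit 83) (nat_lit 5) (nat_lit 468) (nat_lit 390) (nat_lit 162)) (XT.nd (nat_lit 78) (nat_lit 228) (nat_lit 0) (XT.lf (nat_lit 0) (nat_lit 45735130374) (nat_lit 152) (nat_lit 15799993514) (nat_lit 228) (nat_lit 10295690890) (nat_lit 80) (nat_lit 5) (nat_lit 82) (nat_lit 5) (nat_lit 83) (nat_lit 5) (nat_lit 469) (nat_lit 390) (nat_lit 161)) (XT.lf (nat_lit 0) (nat_lit 6560338180) (nat_lit 228) (nat_lit 59474101329) (nat_lit 76) (nat_lit 7256226827) (nat_lit 77) (nat_lit 5) (nat_lit 80) (nat_lit 5) (nat_lit 78) (nat_lit 5) (nat_lit 470) (nat_lit 390) (nat_lit 160)))) (XT.nd (nat_lit 156) (nat_lit 228) (nat_lit 0) (XT.nd (nat_lit 78) (nat_lit 152) (nat_lit 0) (XT.lf (nat_lit 0) (nat_lit 24136109077) (nat_lit 228) (nat_lit 19589001863) (nat_lit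 76) (nat_lit 31053514727) (nat_lit 77) (nat_lit 5) (nat_lit 80) (nat_lit 5) (nat_lit 78) (nat_lit 5) (nat_lit 471) (nat_lit 390) (nat_lit 159)) (XT.lf (nat_lit 0) (nat_lit 21917693684) (nat_lit 152) (nat_lit 20530625562) (nat_lit 228) (nat_lit 33856629718) (nat_lit 75) (nat_lit 5) (nat_lit 77) (nat_lit 5) (nat_lit 78) (nat_lit 5) (nat_lit 472) (nat_lit 390) (nat_lit 158))) (XT.nd (nat_lit 78) (nat_lit 228) (nat_lit 0) (XT.lf (nat_lit 0) (nat_lit 61540448309) (nat_lit 228) (nat_lit 12836894646) (nat_lit 76) (nat_lit 3492802593) (nat_lit 75) (nat_lit 5) (nat_lit 78) (nat_lit 5) (nat_lit 76) (nat_lit 5) (nat_lit 473) (nat_lit 390) (nat_lit 157)) (XT.lf (nat_lit 0) (nat_lit 2187819299) (nat_lit 228) (nat_lit 49142654399) (nat_lit 76) (nat_lit 28136375634) (nat_lit 72) (nat_lit 5) (nat_lit 75) (nat_lit 5) (nat_lit 73) (nat_lit 5) (nat_lit 474) (nat_lit 390) (nat_lit 156)))))) (XT.nd (nat_lit 46722) (nat_lit 0) (nat_lit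 14820) (XT.nd (nat_lit 390) (nat_lit 380) (nat_lit 0) (XT.nd (nat_lit 78) (nat_lit 304) (nat_lit 0) (XT.lf (nat_lit 0) (nat_lit 21062097331) (nat_lit 228) (nat_lit 6229853090) (nat_lit 76) (nat_lit 53810770153) (nat_lit 72) (nat_lit 5) (nat_lit 75) (nat_lit 5) (nat_lit 73) (nat_lit 5) (nat_lit 475) (nat_lit 390) (nat_lit 155)) (XT.nd (nat_lit 78) (nat_lit 152) (nat_lit 0) (XT.lf (nat_lit 0) (nat_lit 38723456634) (nat_lit 152) (nat_lit 2149959105) (nat_lit 228) (nat_lit 41903128001) (nat_lit 70) (nat_lit 5) (nat_lit 72) (nat_lit 5) (nat_lit 73) (nat_lit 5) (nat_lit 476) (nat_lit 390) (nat_lit 154)) (XT.lf (nat_lit 0) (nat_lit 431391456) (nat_lit 152) (nat_lit 61142210696) (nat_lit 228) (nat_lit 22918143737) (nat_lit 68) (nat_lit 5) (nat_lit 70) (nat_lit 5) (nat_lit 71) (nat_lit 5) (nat_lit 477) (nat_lit 390) (nat_lit 153)))) (XT.nd (nat_lit 46176) (nat_lit 0) (nat_lit 14744) (XT.nd (nat_lit 78) (nat_lit 152) (nat_lit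 0) (XT.lf (nat_lit 0) (nat_lit 38932192324) (nat_lit 228) (nat_lit 34480973009) (nat_lit 76) (nat_lit 16464081360) (nat_lit 65) (nat_lit 5) (nat_lit 68) (nat_lit 5) (nat_lit 66) (nat_lit 5) (nat_lit 480) (nat_lit 390) (nat_lit 150)) (XT.lf (nat_lit 0) (nat_lit 13487148471) (nat_lit 152) (nat_lit 47781848647) (nat_lit 228) (nat_lit 30490983250) (nat_lit 63) (nat_lit 5) (nat_lit 65) (nat_lit 5) (nat_lit 66) (nat_lit 5) (nat_lit 481) (nat_lit 390) (nat_lit 149))) (XT.nd (nat_lit 78) (nat_lit 0) (nat_lit 0) (XT.lf (nat_lit 0) (nat_lit 745231922) (nat_lit 1292) (nat_lit 4251888442) (nat_lit 1292) (nat_lit 4251888442) (nat_lit 257) (nat_lit 3) (nat_lit 274) (nat_lit 3) (nat_lit 274) (nat_lit 5) (nat_lit 391) (nat_lit 391) (nat_lit 238)) (XT.lf (nat_lit 76) (nat_lit 496270912) (nat_lit 0) (nat_lit 1212866553) (nat_lit 1292) (nat_lit 17060398266) (nat_lit 258) (nat_lit 5) (nat_lit 257) (nat_lit 3) (nat_lit 274) (nat_lit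 5) (nat_lit 392) (nat_lit 391) (nat_lit 237))))) (XT.nd (nat_lit 312) (nat_lit 0) (nat_lit 152) (XT.nd (nat_lit 156) (nat_lit 0) (nat_lit 76) (XT.nd (nat_lit 78) (nat_lit 0) (nat_lit 0) (XT.lf (nat_lit 0) (nat_lit 2088899663) (nat_lit 1216) (nat_lit 9186309778) (nat_lit 1292) (nat_lit 7769356547) (nat_lit 258) (nat_lit 5) (nat_lit 274) (nat_lit 5) (nat_lit 275) (nat_lit 5) (nat_lit 393) (nat_lit 391) (nat_lit 236)) (XT.lf (nat_lit 76) (nat_lit 160305446) (nat_lit 0) (nat_lit 2326037839) (nat_lit 1292) (nat_lit 16841317583) (nat_lit 259) (nat_lit 5) (nat_lit 258) (nat_lit 5) (nat_lit 275) (nat_lit 5) (nat_lit 394) (nat_lit 391) (nat_lit 235))) (XT.nd (nat_lit 78) (nat_lit 0) (nat_lit 0) (XT.lf (nat_lit 0) (nat_lit 3048579953) (nat_lit 1216) (nat_lit 9712273533) (nat_lit 1292) (nat_lit 6853811322) (nat_lit 259) (nat_lit 5) (nat_lit 275) (nat_lit 5) (nat_lit 276) (nat_lit 5) (nat_lit 395) (nat_lit 391) (nat_lit 234))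 (XT.lf (nat_lit 0) (nat_lit 3643860599) (nat_lit 1216) (nat_lit 717331) (nat_lit 1292) (nat_lit 16265217866) (nat_lit 259) (nat_lit 5) (nat_lit 275) (nat_lit 5) (nat_lit 276) (nat_lit 5) (nat_lit 396) (nat_lit 391) (nat_lit 233)))) (XT.nd (nat_lit 156) (nat_lit 0) (nat_lit 76) (XT.nd (nat_lit 78) (nat_lit 0) (nat_lit 0) (XT.lf (nat_lit 0) (nat_lit 4404589228) (nat_lit 1216) (nat_lit 10070122592) (nat_lit 1292) (nat_lit 5734643380) (nat_lit 260) (nat_lit 5) (nat_lit 276) (nat_lit 5) (nat_lit 277) (nat_lit 5) (nat_lit 397) (nat_lit 391) (nat_lit 232)) (XT.lf (nat_lit 76) (nat_lit 25702172) (nat_lit 0) (nat_lit 5192302855) (nat_lit 1292) (nat_lit 15299002509) (nat_lit 261) (nat_lit 5) (nat_lit 260) (nat_lit 5) (nat_lit 277) (nat_lit 5) (nat_lit 398) (nat_lit 391) (nat_lit 231))) (XT.nd (nat_lit 78) (nat_lit 0) (nat_lit 0) (XT.lf (nat_lit 0) (nat_lit 6194207302) (nat_lit 1216) (nat_lit 10247389972) (nat_lit 1292) (nat_lit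 4388142695) (nat_lit 261) (nat_lit 5) (nat_lit 277) (nat_lit 5) (nat_lit 278) (nat_lit 5) (nat_lit 399) (nat_lit 391) (nat_lit 230)) (XT.lf (nat_lit 76) (nat_lit 253120576) (nat_lit 0) (nat_lit 6994296036) (nat_lit 1292) (nat_lit 13903008122) (nat_lit 262) (nat_lit 5) (nat_lit 261) (nat_lit 5) (nat_lit 278) (nat_lit 5) (nat_lit 400) (nat_lit 391) (nat_lit 229))))))))
noncomputable def xc208 : XT := (XT.nd (nat_lit 2184) (nat_lit 5700) (nat_lit 0) (XT.nd (nat_lit 1092) (nat_lit 3572) (nat_lit 0) (XT.nd (nat_lit 546) (nat_lit 2964) (nat_lit 0) (XT.nd (nat_lit 234) (nat_lit 0) (nat_lit 76) (XT.nd (nat_lit 78) (nat_lit 0) (nat_lit 0) (XT.lf (nat_lit 0) (nat_lit 8457063194) (nat_lit 1216) (nat_lit 10230655954) (nat_lit 1292) (nat_lit 2789267595) (nat_lit 262) (nat_lit 5) (nat_lit 278) (nat_lit 5) (nat_lit 279) (nat_lit 5) (nat_lit 401) (nat_lit 391) (nat_lit 228)) (XT.nd (nat_lit 78) (nat_lit 0) (nat_lit 76) (XT.lf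 (nat_lit 76) (nat_lit 696042532) (nat_lit 0) (nat_lit 9077105378) (nat_lit 1292) (nat_lit 12038095112) (nat_lit 263) (nat_lit 5) (nat_lit 262) (nat_lit 5) (nat_lit 279) (nat_lit 5) (nat_lit 402) (nat_lit 391) (nat_lit 227)) (XT.lf (nat_lit 0) (nat_lit 11235296669) (nat_lit 1216) (nat_lit 10005514574) (nat_lit 1292) (nat_lit 911520122) (nat_lit 263) (nat_lit 5) (nat_lit 279) (nat_lit 5) (nat_lit 280) (nat_lit 5) (nat_lit 403) (nat_lit 391) (nat_lit 226)))) (XT.nd (nat_lit 156) (nat_lit 0) (nat_lit 76) (XT.nd (nat_lit 78) (nat_lit 0) (nat_lit 0) (XT.lf (nat_lit 76) (nat_lit 1370028150) (nat_lit 0) (nat_lit 11468837371) (nat_lit 1292) (nat_lit 9661861934) (nat_lit 264) (nat_lit 5) (nat_lit 263) (nat_lit 5) (nat_lit 280) (nat_lit 5) (nat_lit 404) (nat_lit 391) (nat_lit 225)) (XT.lf (nat_lit 76) (nat_lit 13287686888) (nat_lit 0) (nat_lit 1298523289) (nat_lit 1292) (nat_lit 8270496905) (nat_lit 264) (nat_lit 5) (nat_lit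 263) (nat_lit 5) (nat_lit 280) (nat_lit 5) (nat_lit 405) (nat_lit 391) (nat_lit 224))) (XT.nd (nat_lit 78) (nat_lit 0) (nat_lit 0) (XT.lf (nat_lit 76) (nat_lit 2291716953) (nat_lit 0) (nat_lit 14199300967) (nat_lit 1292) (nat_lit 6729198558) (nat_lit 265) (nat_lit 5) (nat_lit 264) (nat_lit 5) (nat_lit 281) (nat_lit 5) (nat_lit 406) (nat_lit 391) (nat_lit 223)) (XT.lf (nat_lit 76) (nat_lit 14687063336) (nat_lit 0) (nat_lit 3870175470) (nat_lit 1292) (nat_lit 5034265901) (nat_lit 265) (nat_lit 5) (nat_lit 264) (nat_lit 5) (nat_lit 281) (nat_lit 5) (nat_lit 407) (nat_lit 391) (nat_lit 222))))) (XT.nd (nat_lit 234) (nat_lit 1216) (nat_lit 0) (XT.nd (nat_lit 78) (nat_lit 760) (nat_lit 0) (XT.lf (nat_lit 0) (nat_lit 3478868177) (nat_lit 1216) (nat_lit 17300151212) (nat_lit 1292) (nat_lit 3192106569) (nat_lit 249) (nat_lit 5) (nat_lit 265) (nat_lit 5) (nat_lit 266) (nat_lit 5) (nat_lit 408) (nat_lit 391) (nat_lit 221))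 (XT.nd (nat_lit 78) (nat_lit 760) (nat_lit 0) (XT.lf (nat_lit 0) (nat_lit 16372880678) (nat_lit 1216) (nat_lit 6817601874) (nat_lit 1292) (nat_lit 1167963944) (nat_lit 249) (nat_lit 5) (nat_lit 265) (nat_lit 5) (nat_lit 266) (nat_lit 5) (nat_lit 409) (nat_lit 391) (nat_lit 220)) (XT.lf (nat_lit 0) (nat_lit 980966920) (nat_lit 760) (nat_lit 19814167791) (nat_lit 76) (nat_lit 3959530279) (nat_lit 239) (nat_lit 5) (nat_lit 249) (nat_lit 5) (nat_lit 240) (nat_lit 5) (nat_lit 410) (nat_lit 391) (nat_lit 219)))) (XT.nd (nat_lit 156) (nat_lit 608) (nat_lit 0) (XT.nd (nat_lit 78) (nat_lit 608) (nat_lit 0) (XT.lf (nat_lit 0) (nat_lit 3315192740) (nat_lit 760) (nat_lit 6826499092) (nat_lit 76) (nat_lit 15016403623) (nat_lit 239) (nat_lit 5) (nat_lit 249) (nat_lit 5) (nat_lit 240) (nat_lit 5) (nat_lit 411) (nat_lit 391) (nat_lit 218)) (XT.lf (nat_lit 0) (nat_lit 5787756596) (nat_lit 684) (nat_lit 18903576993) (nat_lit 76)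 (nat_lit 880247261) (nat_lit 231) (nat_lit 5) (nat_lit 240) (nat_lit 5) (nat_lit 232) (nat_lit 5) (nat_lit 412) (nat_lit 391) (nat_lit 217))) (XT.nd (nat_lit 78) (nat_lit 608) (nat_lit 0) (XT.lf (nat_lit 0) (nat_lit 8500119526) (nat_lit 684) (nat_lit 5393511812) (nat_lit 76) (nat_lit 12098872119) (nat_lit 231) (nat_lit 5) (nat_lit 240) (nat_lit 5) (nat_lit 232) (nat_lit 5) (nat_lit 413) (nat_lit 391) (nat_lit 216)) (XT.lf (nat_lit 0) (nat_lit 8687206873) (nat_lit 608) (nat_lit 2685874182) (nat_lit 684) (nat_lit 15050597129) (nat_lit 223) (nat_lit 5) (nat_lit 231) (nat_lit 5) (nat_lit 232) (nat_lit 5) (nat_lit 414) (nat_lit 391) (nat_lit 215)))))) (XT.nd (nat_lit 546) (nat_lit 1444) (nat_lit 0) (XT.nd (nat_lit 234) (nat_lit 1596) (nat_lit 0) (XT.nd (nat_lit 78) (nat_lit 532) (nat_lit 0) (XT.lf (nat_lit 0) (nat_lit 14468190784) (nat_lit 684) (nat_lit 3655188292) (nat_lit 76) (nat_lit 8740331538) (nat_lit 223) (nat_lit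 5) (nat_lit 232) (nat_lit 5) (nat_lit 224) (nat_lit 5) (nat_lit 415) (nat_lit 391) (nat_lit 214)) (XT.nd (nat_lit 78) (nat_lit 0) (nat_lit 0) (XT.lf (nat_lit 0) (nat_lit 11033105938) (nat_lit 532) (nat_lit 6751626365) (nat_lit 608) (nat_lit 9528355560) (nat_lit 216) (nat_lit 5) (nat_lit 223) (nat_lit 5) (nat_lit 224) (nat_lit 5) (nat_lit 416) (nat_lit 391) (nat_lit 213)) (XT.lf (nat_lit 0) (nat_lit 21281743654) (nat_lit 608) (nat_lit 1590128246) (nat_lit 76) (nat_lit 4901646490) (nat_lit 216) (nat_lit 5) (nat_lit 224) (nat_lit 5) (nat_lit 217) (nat_lit 5) (nat_lit 417) (nat_lit 391) (nat_lit 212)))) (XT.nd (nat_lit 156) (nat_lit 532) (nat_lit 0) (XT.nd (nat_lit 78) (nat_lit 532) (nat_lit 0) (XT.lf (nat_lit 0) (nat_lit 13737555455) (nat_lit 532) (nat_lit 11341134816) (nat_lit 608) (nat_lit 3163221948) (nat_lit 209) (nat_lit 5) (nat_lit 216) (nat_lit 5) (nat_lit 217) (nat_lit 5) (nat_lit 418) (nat_lit 391) (nat_lit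 211)) (XT.lf (nat_lit 0) (nat_lit 285906010) (nat_lit 532) (nat_lit 27885664036) (nat_lit 76) (nat_lit 551935610) (nat_lit 202) (nat_lit 5) (nat_lit 209) (nat_lit 5) (nat_lit 203) (nat_lit 5) (nat_lit 419) (nat_lit 391) (nat_lit 210))) (XT.nd (nat_lit 78) (nat_lit 532) (nat_lit 0) (XT.lf (nat_lit 0) (nat_lit 4031362591) (nat_lit 532) (nat_lit 12426774599) (nat_lit 76) (nat_lit 12752778201) (nat_lit 202) (nat_lit 5) (nat_lit 209) (nat_lit 5) (nat_lit 203) (nat_lit 5) (nat_lit 420) (nat_lit 391) (nat_lit 209)) (XT.lf (nat_lit 0) (nat_lit 3561302471) (nat_lit 532) (nat_lit 4358451904) (nat_lit 608) (nat_lit 21792276905) (nat_lit 195) (nat_lit 5) (nat_lit 202) (nat_lit 5) (nat_lit 203) (nat_lit 5) (nat_lit 421) (nat_lit 391) (nat_lit 208))))) (XT.nd (nat_lit 234) (nat_lit 988) (nat_lit 0) (XT.nd (nat_lit 78) (nat_lit 456) (nat_lit 0) (XT.lf (nat_lit 0) (nat_lit 12125830924) (nat_lit 608) (nat_lit 10023940246) (nat_lit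 76) (nat_lit 8072379464) (nat_lit 195) (nat_lit 5) (nat_lit 203) (nat_lit 5) (nat_lit 196) (nat_lit 5) (nat_lit 422) (nat_lit 391) (nat_lit 207)) (XT.nd (nat_lit 78) (nat_lit 0) (nat_lit 0) (XT.lf (nat_lit 0) (nat_lit 6669630473) (nat_lit 456) (nat_lit 9892231415) (nat_lit 532) (nat_lit 14182599465) (nat_lit 189) (nat_lit 5) (nat_lit 195) (nat_lit 5) (nat_lit 196) (nat_lit 5) (nat_lit 423) (nat_lit 391) (nat_lit 206)) (XT.lf (nat_lit 0) (nat_lit 21256034535) (nat_lit 532) (nat_lit 7241265466) (nat_lit 76) (nat_lit 2781390492) (nat_lit 189) (nat_lit 5) (nat_lit 196) (nat_lit 5) (nat_lit 190) (nat_lit 5) (nat_lit 424) (nat_lit 391) (nat_lit 205)))) (XT.nd (nat_lit 156) (nat_lit 532) (nat_lit 0) (XT.nd (nat_lit 78) (nat_lit 0) (nat_lit 0) (XT.lf (nat_lit 0) (nat_lit 10194334741) (nat_lit 456) (nat_lit 16089299554) (nat_lit 532) (nat_lit 5539535050) (nat_lit 183) (nat_lit 5) (nat_lit 189) (nat_lit 5) (nat_lit 190)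 (nat_lit 5) (nat_lit 425) (nat_lit 391) (nat_lit 204)) (XT.lf (nat_lit 0) (nat_lit 28297523123) (nat_lit 456) (nat_lit 3234385845) (nat_lit 532) (nat_lit 849979056) (nat_lit 183) (nat_lit 5) (nat_lit 189) (nat_lit 5) (nat_lit 190) (nat_lit 5) (nat_lit 426) (nat_lit 391) (nat_lit 203))) (XT.nd (nat_lit 78) (nat_lit 0) (nat_lit 0) (XT.lf (nat_lit 0) (nat_lit 4134002217) (nat_lit 532) (nat_lit 18828299949) (nat_lit 76) (nat_lit 9986976857) (nat_lit 176) (nat_lit 5) (nat_lit 183) (nat_lit 5) (nat_lit 177) (nat_lit 5) (nat_lit 427) (nat_lit 391) (nat_lit 202)) (XT.lf (nat_lit 0) (nat_lit 9320932925) (nat_lit 532) (nat_lit 621013534) (nat_lit 76) (nat_lit 23589378208) (nat_lit 176) (nat_lit 5) (nat_lit 183) (nat_lit 5) (nat_lit 177) (nat_lit 5) (nat_lit 428) (nat_lit 391) (nat_lit 201))))))) (XT.nd (nat_lit 1092) (nat_lit 2584) (nat_lit 0) (XT.nd (nat_lit 546) (nat_lit 1444) (nat_lit 0) (XT.nd (nat_lit 234) (nat_lit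 836) (nat_lit 0) (XT.nd (nat_lit 78) (nat_lit 380) (nat_lit 0) (XT.lf (nat_lit 0) (nat_lit 14873232539) (nat_lit 532) (nat_lit 15671209879) (nat_lit 76) (nat_lit 3580097204) (nat_lit 170) (nat_lit 5) (nat_lit 177) (nat_lit 5) (nat_lit 171) (nat_lit 5) (nat_lit 429) (nat_lit 391) (nat_lit 200)) (XT.nd (nat_lit 78) (nat_lit 0) (nat_lit 0) (XT.lf (nat_lit 0) (nat_lit 3340097860) (nat_lit 380) (nat_lit 17385854320) (nat_lit 456) (nat_lit 14005584065) (nat_lit 165) (nat_lit 5) (nat_lit 170) (nat_lit 5) (nat_lit 171) (nat_lit 5) (nat_lit 430) (nat_lit 391) (nat_lit 199)) (XT.lf (nat_lit 0) (nat_lit 23239174173) (nat_lit 380) (nat_lit 3670354892) (nat_lit 456) (nat_lit 8442556158) (nat_lit 165) (nat_lit 5) (nat_lit 170) (nat_lit 5) (nat_lit 171) (nat_lit 5) (nat_lit 431) (nat_lit 391) (nat_lit 198)))) (XT.nd (nat_lit 156) (nat_lit 380) (nat_lit 0) (XT.nd (nat_lit 78) (nat_lit 76) (nat_lit 0) (XT.lf (nat_lit 0) (nat_lit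 7791717845) (nat_lit 380) (nat_lit 25659415390) (nat_lit 456) (nat_lit 2534942543) (nat_lit 160) (nat_lit 5) (nat_lit 165) (nat_lit 5) (nat_lit 166) (nat_lit 5) (nat_lit 432) (nat_lit 391) (nat_lit 197)) (XT.lf (nat_lit 0) (nat_lit 3637621332) (nat_lit 456) (nat_lit 8169107347) (nat_lit 76) (nat_lit 24826624528) (nat_lit 159) (nat_lit 5) (nat_lit 165) (nat_lit 5) (nat_lit 160) (nat_lit 5) (nat_lit 433) (nat_lit 391) (nat_lit 196))) (XT.nd (nat_lit 78) (nat_lit 0) (nat_lit 0) (XT.lf (nat_lit 0) (nat_lit 10088573566) (nat_lit 456) (nat_lit 24645380415) (nat_lit 76) (nat_lit 2561017834) (nat_lit 154) (nat_lit 5) (nat_lit 160) (nat_lit 5) (nat_lit 155) (nat_lit 5) (nat_lit 434) (nat_lit 391) (nat_lit 195)) (XT.lf (nat_lit 0) (nat_lit 16930507806) (nat_lit 456) (nat_lit 3835100860) (nat_lit 76) (nat_lit 17204907337) (nat_lit 154) (nat_lit 5) (nat_lit 160) (nat_lit 5) (nat_lit 155) (nat_lit 5) (nat_lit 435) (nat_lit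 391) (nat_lit 194))))) (XT.nd (nat_lit 234) (nat_lit 760) (nat_lit 0) (XT.nd (nat_lit 78) (nat_lit 304) (nat_lit 0) (XT.lf (nat_lit 0) (nat_lit 17946056577) (nat_lit 380) (nat_lit 6201478588) (nat_lit 456) (nat_lit 14513696908) (nat_lit 149) (nat_lit 5) (nat_lit 154) (nat_lit 5) (nat_lit 155) (nat_lit 5) (nat_lit 436) (nat_lit 391) (nat_lit 193)) (XT.nd (nat_lit 78) (nat_lit 0) (nat_lit 0) (XT.lf (nat_lit 0) (nat_lit 1019013536) (nat_lit 304) (nat_lit 30692913330) (nat_lit 380) (nat_lit 7656817748) (nat_lit 145) (nat_lit 5) (nat_lit 149) (nat_lit 5) (nat_lit 150) (nat_lit 5) (nat_lit 437) (nat_lit 391) (nat_lit 192)) (XT.lf (nat_lit 0) (nat_lit 23763624635) (nat_lit 304) (nat_lit 16007010003) (nat_lit 380) (nat_lit 318826936) (nat_lit 145) (nat_lit 5) (nat_lit 149) (nat_lit 5) (nat_lit 150) (nat_lit 5) (nat_lit 438) (nat_lit 391) (nat_lit 191)))) (XT.nd (nat_lit 156) (nat_lit 304) (nat_lit 0) (XT.nd (nat_lit 78)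 (nat_lit 0) (nat_lit 0) (XT.lf (nat_lit 0) (nat_lit 6410714162) (nat_lit 380) (nat_lit 746401246) (nat_lit 456) (nat_lit 33670825218) (nat_lit 139) (nat_lit 5) (nat_lit 144) (nat_lit 5) (nat_lit 145) (nat_lit 5) (nat_lit 439) (nat_lit 391) (nat_lit 190)) (XT.lf (nat_lit 0) (nat_lit 15158822758) (nat_lit 456) (nat_lit 11571910337) (nat_lit 76) (nat_lit 14848509934) (nat_lit 139) (nat_lit 5) (nat_lit 145) (nat_lit 5) (nat_lit 140) (nat_lit 5) (nat_lit 440) (nat_lit 391) (nat_lit 189))) (XT.nd (nat_lit 78) (nat_lit 0) (nat_lit 0) (XT.lf (nat_lit 0) (nat_lit 12185667975) (nat_lit 304) (nat_lit 11336996221) (nat_lit 380) (nat_lit 18826758332) (nat_lit 135) (nat_lit 5) (nat_lit 139) (nat_lit 5) (nat_lit 140) (nat_lit 5) (nat_lit 441) (nat_lit 391) (nat_lit 188)) (XT.lf (nat_lit 0) (nat_lit 32296450985) (nat_lit 380) (nat_lit 6294129150) (nat_lit 76) (nat_lit 4547356868) (nat_lit 135) (nat_lit 5) (nat_lit 140) (nat_lit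 5) (nat_lit 136) (nat_lit 5) (nat_lit 442) (nat_lit 391) (nat_lit 187)))))) (XT.nd (nat_lit 546) (nat_lit 1292) (nat_lit 0) (XT.nd (nat_lit 234) (nat_lit 608) (nat_lit 0) (XT.nd (nat_lit 78) (nat_lit 380) (nat_lit 0) (XT.lf (nat_lit 0) (nat_lit 18537654776) (nat_lit 304) (nat_lit 23083894168) (nat_lit 380) (nat_lit 2319915524) (nat_lit 131) (nat_lit 5) (nat_lit 135) (nat_lit 5) (nat_lit 136) (nat_lit 5) (nat_lit 443) (nat_lit 391) (nat_lit 186)) (XT.nd (nat_lit 78) (nat_lit 304) (nat_lit 0) (XT.lf (nat_lit 0) (nat_lit 6393151755) (nat_lit 380) (nat_lit 589908662) (nat_lit 76) (nat_lit 37782320001) (nat_lit 130) (nat_lit 5) (nat_lit 135) (nat_lit 5) (nat_lit 131) (nat_lit 5) (nat_lit 444) (nat_lit 391) (nat_lit 185)) (XT.lf (nat_lit 0) (nat_lit 15658175693) (nat_lit 380) (nat_lit 20262479994) (nat_lit 76) (nat_lit 9682553735) (nat_lit 126) (nat_lit 5) (nat_lit 131) (nat_lit 5) (nat_lit 127) (nat_lit 5) (nat_lit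 445) (nat_lit 391) (nat_lit 184)))) (XT.nd (nat_lit 156) (nat_lit 304) (nat_lit 0) (XT.nd (nat_lit 78) (nat_lit 0) (nat_lit 0) (XT.lf (nat_lit 0) (nat_lit 5632744623) (nat_lit 304) (nat_lit 19695465375) (nat_lit 380) (nat_lit 21134151937) (nat_lit 122) (nat_lit 5) (nat_lit 126) (nat_lit 5) (nat_lit 127) (nat_lit 5) (nat_lit 446) (nat_lit 391) (nat_lit 183)) (XT.lf (nat_lit 0) (nat_lit 32716862925) (nat_lit 304) (nat_lit 2773886189) (nat_lit 380) (nat_lit 11850468210) (nat_lit 122) (nat_lit 5) (nat_lit 126) (nat_lit 5) (nat_lit 127) (nat_lit 5) (nat_lit 447) (nat_lit 391) (nat_lit 182))) (XT.nd (nat_lit 78) (nat_lit 76) (nat_lit 0) (XT.lf (nat_lit 0) (nat_lit 12466168660) (nat_lit 228) (nat_lit 33750550623) (nat_lit 304) (nat_lit 2021962850) (nat_lit 119) (nat_lit 5) (nat_lit 122) (nat_lit 5) (nat_lit 123) (nat_lit 5) (nat_lit 448) (nat_lit 391) (nat_lit 181)) (XT.lf (nat_lit 0) (nat_lit 8117770337) (nat_lit 304)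 (nat_lit 8599542551) (nat_lit 76) (nat_lit 32438188305) (nat_lit 118) (nat_lit 5) (nat_lit 122) (nat_lit 5) (nat_lit 119) (nat_lit 5) (nat_lit 449) (nat_lit 391) (nat_lit 180))))) (XT.nd (nat_lit 312) (nat_lit 456) (nat_lit 0) (XT.nd (nat_lit 156) (nat_lit 532) (nat_lit 0) (XT.nd (nat_lit 78) (nat_lit 0) (nat_lit 0) (XT.lf (nat_lit 0) (nat_lit 18718847964) (nat_lit 380) (nat_lit 30352796422) (nat_lit 76) (nat_lit 1021646468) (nat_lit 114) (nat_lit 5) (nat_lit 119) (nat_lit 5) (nat_lit 115) (nat_lit 5) (nat_lit 450) (nat_lit 391) (nat_lit 179)) (XT.lf (nat_lit 0) (nat_lit 29889112527) (nat_lit 380) (nat_lit 2119188377) (nat_lit 76) (nat_lit 19043379021) (nat_lit 114) (nat_lit 5) (nat_lit 119) (nat_lit 5) (nat_lit 115) (nat_lit 5) (nat_lit 451) (nat_lit 391) (nat_lit 178))) (XT.nd (nat_lit 78) (nat_lit 304) (nat_lit 0) (XT.lf (nat_lit 0) (nat_lit 27494828415) (nat_lit 228) (nat_lit 14161952124) (nat_lit 304) (nat_lit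 10374171610) (nat_lit 111) (nat_lit 5) (nat_lit 114) (nat_lit 5) (nat_lit 115) (nat_lit 5) (nat_lit 452) (nat_lit 391) (nat_lit 177)) (XT.lf (nat_lit 0) (nat_lit 833351403) (nat_lit 304) (nat_lit 47988007923) (nat_lit 76) (nat_lit 4214734536) (nat_lit 107) (nat_lit 5) (nat_lit 111) (nat_lit 5) (nat_lit 108) (nat_lit 5) (nat_lit 453) (nat_lit 391) (nat_lit 176)))) (XT.nd (nat_lit 156) (nat_lit 228) (nat_lit 0) (XT.nd (nat_lit 78) (nat_lit 228) (nat_lit 0) (XT.lf (nat_lit 0) (nat_lit 12557051174) (nat_lit 304) (nat_lit 18289703122) (nat_lit 76) (nat_lit 23209900562) (nat_lit 107) (nat_lit 5) (nat_lit 111) (nat_lit 5) (nat_lit 108) (nat_lit 5) (nat_lit 454) (nat_lit 391) (nat_lit 175)) (XT.lf (nat_lit 0) (nat_lit 12541217249) (nat_lit 228) (nat_lit 12209880501) (nat_lit 304) (nat_lit 30353176168) (nat_lit 104) (nat_lit 5) (nat_lit 107) (nat_lit 5) (nat_lit 108) (nat_lit 5) (nat_lit 455) (nat_lit 391) (nat_lit 174)))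 (XT.nd (nat_lit 78) (nat_lit 228) (nat_lit 0) (XT.lf (nat_lit 0) (nat_lit 37562736937) (nat_lit 304) (nat_lit 11577851934) (nat_lit 76) (nat_lit 7035179843) (nat_lit 104) (nat_lit 5) (nat_lit 108) (nat_lit 5) (nat_lit 105) (nat_lit 5) (nat_lit 456) (nat_lit 391) (nat_lit 173)) (XT.lf (nat_lit 0) (nat_lit 20615313568) (nat_lit 228) (nat_lit 30460621840) (nat_lit 304) (nat_lit 6193956933) (nat_lit 101) (nat_lit 5) (nat_lit 104) (nat_lit 5) (nat_lit 105) (nat_lit 5) (nat_lit 457) (nat_lit 391) (nat_lit 172))))))))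
noncomputable def xc209 : XT := (XT.nd (nat_lit 48594) (nat_lit 0) (nat_lit 8436) (XT.nd (nat_lit 1092) (nat_lit 912) (nat_lit 0) (XT.nd (nat_lit 546) (nat_lit 836) (nat_lit 0) (XT.nd (nat_lit 234) (nat_lit 456) (nat_lit 0) (XT.nd (nat_lit 78) (nat_lit 456) (nat_lit 0) (XT.lf (nat_lit 0) (nat_lit 6585176890) (nat_lit 304) (nat_lit 4449294334) (nat_lit 76) (nat_lit 47356979153) (nat_lit 100) (nat_lit 5) (nat_lit 104) (nat_lit 5) (nat_lit 101) (nat_lit 5) (nat_lit 458) (nat_lit 391) (nat_lit 171)) (XT.nd (nat_lit 78) (nat_lit 228) (nat_lit 0) (XT.lf (nat_lit 0) (nat_lit 19992012411) (nat_lit 304) (nat_lit 30397820564) (nat_lit 76) (nat_lit 9143918053) (nat_lit 97) (nat_lit 5) (nat_lit 101) (nat_lit 5) (nat_lit 98) (nat_lit 5) (nat_lit 459) (nat_lit 391) (nat_lit 170)) (XT.lf (nat_lit 0) (nat_lit 3058002068) (nat_lit 228) (nat_lit 30925300011) (nat_lit 304) (nat_lit 26721551407) (nat_lit 94) (nat_lit 5) (nat_lit 97)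 (nat_lit 5) (nat_lit 98) (nat_lit 5) (nat_lit 460) (nat_lit 391) (nat_lit 169)))) (XT.nd (nat_lit 156) (nat_lit 228) (nat_lit 0) (XT.nd (nat_lit 78) (nat_lit 228) (nat_lit 0) (XT.lf (nat_lit 0) (nat_lit 38137734629) (nat_lit 228) (nat_lit 10561805547) (nat_lit 304) (nat_lit 13202392800) (nat_lit 94) (nat_lit 5) (nat_lit 97) (nat_lit 5) (nat_lit 98) (nat_lit 5) (nat_lit 461) (nat_lit 391) (nat_lit 168)) (XT.lf (nat_lit 0) (nat_lit 916830489) (nat_lit 228) (nat_lit 51886163582) (nat_lit 76) (nat_lit 10325465148) (nat_lit 91) (nat_lit 5) (nat_lit 94) (nat_lit 5) (nat_lit 92) (nat_lit 5) (nat_lit 462) (nat_lit 391) (nat_lit 167))) (XT.nd (nat_lit 78) (nat_lit 228) (nat_lit 0) (XT.lf (nat_lit 0) (nat_lit 15539492924) (nat_lit 228) (nat_lit 16838972752) (nat_lit 76) (nat_lit 31999037776) (nat_lit 91) (nat_lit 5) (nat_lit 94) (nat_lit 5) (nat_lit 92) (nat_lit 5) (nat_lit 463) (nat_lit 391) (nat_lit 166)) (XT.lf (nat_lit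 0) (nat_lit 19640113432) (nat_lit 228) (nat_lit 11147861549) (nat_lit 304) (nat_lit 34870430060) (nat_lit 88) (nat_lit 5) (nat_lit 91) (nat_lit 5) (nat_lit 92) (nat_lit 5) (nat_lit 464) (nat_lit 391) (nat_lit 165))))) (XT.nd (nat_lit 234) (nat_lit 608) (nat_lit 0) (XT.nd (nat_lit 78) (nat_lit 228) (nat_lit 0) (XT.lf (nat_lit 0) (nat_lit 46767037680) (nat_lit 304) (nat_lit 9521386374) (nat_lit 76) (nat_lit 10681116056) (nat_lit 88) (nat_lit 5) (nat_lit 92) (nat_lit 5) (nat_lit 89) (nat_lit 5) (nat_lit 465) (nat_lit 391) (nat_lit 164)) (XT.nd (nat_lit 78) (nat_lit 76) (nat_lit 0) (XT.lf (nat_lit 0) (nat_lit 28513757215) (nat_lit 152) (nat_lit 35094587477) (nat_lit 228) (nat_lit 4700178577) (nat_lit 86) (nat_lit 5) (nat_lit 88) (nat_lit 5) (nat_lit 89) (nat_lit 5) (nat_lit 466) (nat_lit 391) (nat_lit 163)) (XT.lf (nat_lit 0) (nat_lit 11142861172) (nat_lit 228) (nat_lit 1911622015) (nat_lit 76) (nat_lit 56627078408)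 (nat_lit 85) (nat_lit 5) (nat_lit 88) (nat_lit 5) (nat_lit 86) (nat_lit 5) (nat_lit 467) (nat_lit 391) (nat_lit 162)))) (XT.nd (nat_lit 156) (nat_lit 228) (nat_lit 0) (XT.nd (nat_lit 78) (nat_lit 152) (nat_lit 0) (XT.lf (nat_lit 0) (nat_lit 27825281160) (nat_lit 304) (nat_lit 33383923388) (nat_lit 76) (nat_lit 9871433884) (nat_lit 82) (nat_lit 5) (nat_lit 86) (nat_lit 5) (nat_lit 83) (nat_lit 5) (nat_lit 468) (nat_lit 391) (nat_lit 161)) (XT.lf (nat_lit 0) (nat_lit 5996309939) (nat_lit 152) (nat_lit 39216717778) (nat_lit 228) (nat_lit 27302514424) (nat_lit 80) (nat_lit 5) (nat_lit 82) (nat_lit 5) (nat_lit 83) (nat_lit 5) (nat_lit 469) (nat_lit 391) (nat_lit 160))) (XT.nd (nat_lit 78) (nat_lit 228) (nat_lit 0) (XT.lf (nat_lit 0) (nat_lit 47239677455) (nat_lit 152) (nat_lit 16218327653) (nat_lit 228) (nat_lit 10525420083) (nat_lit 80) (nat_lit 5) (nat_lit 82) (nat_lit 5) (nat_lit 83) (nat_lit 5) (nat_lit 470) (nat_lit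 391) (nat_lit 159)) (XT.lf (nat_lit 0) (nat_lit 6834300766) (nat_lit 228) (nat_lit 61123824493) (nat_lit 76) (nat_lit 7528937817) (nat_lit 77) (nat_lit 5) (nat_lit 80) (nat_lit 5) (nat_lit 78) (nat_lit 5) (nat_lit 471) (nat_lit 391) (nat_lit 158)))))) (XT.nd (nat_lit 46878) (nat_lit 0) (nat_lit 14592) (XT.nd (nat_lit 234) (nat_lit 760) (nat_lit 0) (XT.nd (nat_lit 78) (nat_lit 152) (nat_lit 0) (XT.lf (nat_lit 0) (nat_lit 24935097632) (nat_lit 228) (nat_lit 20046089514) (nat_lit 76) (nat_lit 32038541708) (nat_lit 77) (nat_lit 5) (nat_lit 80) (nat_lit 5) (nat_lit 78) (nat_lit 5) (nat_lit 472) (nat_lit 391) (nat_lit 157)) (XT.nd (nat_lit 78) (nat_lit 0) (nat_lit 0) (XT.lf (nat_lit 0) (nat_lit 22704526679) (nat_lit 152) (nat_lit 21091208651) (nat_lit 228) (nat_lit 34796134928) (nat_lit 75) (nat_lit 5) (nat_lit 77) (nat_lit 5) (nat_lit 78) (nat_lit 5) (nat_lit 473) (nat_lit 391) (nat_lit 156)) (XT.lf (nat_lit 0) (nat_lit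 63458990329) (nat_lit 228) (nat_lit 13094819506) (nat_lit 76) (nat_lit 3650262282) (nat_lit 75) (nat_lit 5) (nat_lit 78) (nat_lit 5) (nat_lit 76) (nat_lit 5) (nat_lit 474) (nat_lit 391) (nat_lit 155)))) (XT.nd (nat_lit 156) (nat_lit 532) (nat_lit 0) (XT.nd (nat_lit 78) (nat_lit 0) (nat_lit 0) (XT.lf (nat_lit 0) (nat_lit 2325601168) (nat_lit 228) (nat_lit 50489555576) (nat_lit 76) (nat_lit 29033526165) (nat_lit 72) (nat_lit 5) (nat_lit 75) (nat_lit 5) (nat_lit 73) (nat_lit 5) (nat_lit 475) (nat_lit 391) (nat_lit 154)) (XT.lf (nat_lit 0) (nat_lit 21764006163) (nat_lit 228) (nat_lit 6293080281) (nat_lit 76) (nat_lit 55476607104) (nat_lit 72) (nat_lit 5) (nat_lit 75) (nat_lit 5) (nat_lit 73) (nat_lit 5) (nat_lit 476) (nat_lit 391) (nat_lit 153))) (XT.nd (nat_lit 234) (nat_lit 380) (nat_lit 0) (XT.lf (nat_lit 0) (nat_lit 40007616300) (nat_lit 152) (nat_lit 2161184773) (nat_lit 228) (nat_lit 43088956439) (nat_lit 70)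 (nat_lit 5) (nat_lit 72) (nat_lit 5) (nat_lit 73) (nat_lit 5) (nat_lit 477) (nat_lit 391) (nat_lit 152)) (XT.lf (nat_lit 0) (nat_lit 7478362710) (nat_lit 152) (nat_lit 10582233039) (nat_lit 228) (nat_lit 72621311252) (nat_lit 65) (nat_lit 5) (nat_lit 67) (nat_lit 5) (nat_lit 68) (nat_lit 5) (nat_lit 480) (nat_lit 391) (nat_lit 149))))) (XT.nd (nat_lit 312) (nat_lit 0) (nat_lit 152) (XT.nd (nat_lit 156) (nat_lit 0) (nat_lit 76) (XT.nd (nat_lit 78) (nat_lit 0) (nat_lit 0) (XT.lf (nat_lit 0) (nat_lit 957293825) (nat_lit 1292) (nat_lit 4281716027) (nat_lit 1292) (nat_lit 4281716027) (nat_lit 257) (nat_lit 3) (nat_lit 274) (nat_lit 3) (nat_lit 274) (nat_lit 5) (nat_lit 392) (nat_lit 392) (nat_lit 236)) (XT.lf (nat_lit 76) (nat_lit 704700921) (nat_lit 0) (nat_lit 1425930229) (nat_lit 1292) (nat_lit 17190763594) (nat_lit 258) (nat_lit 5) (nat_lit 257) (nat_lit 3) (nat_lit 274) (nat_lit 5) (nat_lit 393) (nat_lit 392) (nat_lit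 235))) (XT.nd (nat_lit 78) (nat_lit 0) (nat_lit 0) (XT.lf (nat_lit 0) (nat_lit 2509354251) (nat_lit 1216) (nat_lit 9261445407) (nat_lit 1292) (nat_lit 7834252717) (nat_lit 258) (nat_lit 5) (nat_lit 274) (nat_lit 5) (nat_lit 275) (nat_lit 5) (nat_lit 394) (nat_lit 392) (nat_lit 234)) (XT.lf (nat_lit 76) (nat_lit 363603042) (nat_lit 0) (nat_lit 2546605135) (nat_lit 1292) (nat_lit 16986690723) (nat_lit 259) (nat_lit 5) (nat_lit 258) (nat_lit 5) (nat_lit 275) (nat_lit 5) (nat_lit 395) (nat_lit 392) (nat_lit 233)))) (XT.nd (nat_lit 156) (nat_lit 0) (nat_lit 76) (XT.nd (nat_lit 78) (nat_lit 0) (nat_lit 0) (XT.lf (nat_lit 0) (nat_lit 3477731666) (nat_lit 1216) (nat_lit 9799243995) (nat_lit 1292) (nat_lit 6915888011) (nat_lit 259) (nat_lit 5) (nat_lit 275) (nat_lit 5) (nat_lit 276) (nat_lit 5) (nat_lit 396) (nat_lit 392) (nat_lit 232)) (XT.lf (nat_lit 76) (nat_lit 201640288) (nat_lit 0) (nat_lit 3881332977) (nat_lit 1292)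 (nat_lit 16414115462) (nat_lit 260) (nat_lit 5) (nat_lit 259) (nat_lit 5) (nat_lit 276) (nat_lit 5) (nat_lit 397) (nat_lit 392) (nat_lit 231))) (XT.nd (nat_lit 78) (nat_lit 0) (nat_lit 0) (XT.lf (nat_lit 0) (nat_lit 4855735979) (nat_lit 1216) (nat_lit 10164828454) (nat_lit 1292) (nat_lit 5785397231) (nat_lit 260) (nat_lit 5) (nat_lit 276) (nat_lit 5) (nat_lit 277) (nat_lit 5) (nat_lit 398) (nat_lit 392) (nat_lit 230)) (XT.lf (nat_lit 76) (nat_lit 231837741) (nat_lit 0) (nat_lit 5454399073) (nat_lit 1292) (nat_lit 15436829305) (nat_lit 261) (nat_lit 5) (nat_lit 260) (nat_lit 5) (nat_lit 277) (nat_lit 5) (nat_lit 399) (nat_lit 392) (nat_lit 229))))))) (XT.nd (nat_lit 1092) (nat_lit 4180) (nat_lit 0) (XT.nd (nat_lit 546) (nat_lit 2280) (nat_lit 0) (XT.nd (nat_lit 234) (nat_lit 0) (nat_lit 76) (XT.nd (nat_lit 78) (nat_lit 0) (nat_lit 0) (XT.lf (nat_lit 0) (nat_lit 6681654449) (nat_lit 1216) (nat_lit 10345259992) (nat_lit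 1292) (nat_lit 4418571144) (nat_lit 261) (nat_lit 5) (nat_lit 277) (nat_lit 5) (nat_lit 278) (nat_lit 5) (nat_lit 400) (nat_lit 392) (nat_lit 228)) (XT.nd (nat_lit 78) (nat_lit 0) (nat_lit 76) (XT.lf (nat_lit 76) (nat_lit 468211444) (nat_lit 0) (nat_lit 7291458109) (nat_lit 1292) (nat_lit 14016327908) (nat_lit 262) (nat_lit 5) (nat_lit 261) (nat_lit 5) (nat_lit 278) (nat_lit 5) (nat_lit 401) (nat_lit 392) (nat_lit 227)) (XT.lf (nat_lit 0) (nat_lit 8996203189) (nat_lit 1216) (nat_lit 10326627316) (nat_lit 1292) (nat_lit 2789810664) (nat_lit 262) (nat_lit 5) (nat_lit 278) (nat_lit 5) (nat_lit 279) (nat_lit 5) (nat_lit 402) (nat_lit 392) (nat_lit 226)))) (XT.nd (nat_lit 156) (nat_lit 0) (nat_lit 76) (XT.nd (nat_lit 78) (nat_lit 0) (nat_lit 76) (XT.lf (nat_lit 76) (nat_lit 925804004) (nat_lit 0) (nat_lit 9419660888) (nat_lit 1292) (nat_lit 12111652102) (nat_lit 263) (nat_lit 5) (nat_lit 262) (nat_lit 5) (nat_lit 279)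 (nat_lit 5) (nat_lit 403) (nat_lit 392) (nat_lit 225)) (XT.lf (nat_lit 0) (nat_lit 11842692784) (nat_lit 1216) (nat_lit 10094011344) (nat_lit 1292) (nat_lit 872000030) (nat_lit 263) (nat_lit 5) (nat_lit 279) (nat_lit 5) (nat_lit 280) (nat_lit 5) (nat_lit 404) (nat_lit 392) (nat_lit 224))) (XT.nd (nat_lit 78) (nat_lit 0) (nat_lit 0) (XT.lf (nat_lit 76) (nat_lit 1620722479) (nat_lit 0) (nat_lit 11867787064) (nat_lit 1292) (nat_lit 9679220897) (nat_lit 264) (nat_lit 5) (nat_lit 263) (nat_lit 5) (nat_lit 280) (nat_lit 5) (nat_lit 405) (nat_lit 392) (nat_lit 223)) (XT.lf (nat_lit 76) (nat_lit 13889806314) (nat_lit 0) (nat_lit 1390764980) (nat_lit 1292) (nat_lit 8254051720) (nat_lit 264) (nat_lit 5) (nat_lit 263) (nat_lit 5) (nat_lit 280) (nat_lit 5) (nat_lit 406) (nat_lit 392) (nat_lit 222))))) (XT.nd (nat_lit 234) (nat_lit 1368) (nat_lit 0) (XT.nd (nat_lit 78) (nat_lit 1140) (nat_lit 0) (XT.lf (nat_lit 76) (nat_lit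 2570178443) (nat_lit 0) (nat_lit 14666384511) (nat_lit 1292) (nat_lit 6672655938) (nat_lit 265) (nat_lit 5) (nat_lit 264) (nat_lit 5) (nat_lit 281) (nat_lit 5) (nat_lit 407) (nat_lit 392) (nat_lit 221)) (XT.nd (nat_lit 78) (nat_lit 1140) (nat_lit 0) (XT.lf (nat_lit 76) (nat_lit 15331277159) (nat_lit 0) (nat_lit 4026188030) (nat_lit 1292) (nat_lit 4934402055) (nat_lit 265) (nat_lit 5) (nat_lit 264) (nat_lit 5) (nat_lit 281) (nat_lit 5) (nat_lit 408) (nat_lit 392) (nat_lit 220)) (XT.lf (nat_lit 0) (nat_lit 3792530126) (nat_lit 1216) (nat_lit 17847916002) (nat_lit 1292) (nat_lit 3042596849) (nat_lit 249) (nat_lit 5) (nat_lit 265) (nat_lit 5) (nat_lit 266) (nat_lit 5) (nat_lit 409) (nat_lit 392) (nat_lit 219)))) (XT.nd (nat_lit 156) (nat_lit 608) (nat_lit 0) (XT.nd (nat_lit 78) (nat_lit 760) (nat_lit 0) (XT.lf (nat_lit 0) (nat_lit 17067267005) (nat_lit 1216) (nat_lit 7050052508) (nat_lit 1292) (nat_lit 964873817) (nat_lit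 249) (nat_lit 5) (nat_lit 265) (nat_lit 5) (nat_lit 266) (nat_lit 5) (nat_lit 410) (nat_lit 392) (nat_lit 218)) (XT.lf (nat_lit 0) (nat_lit 1238837805) (nat_lit 760) (nat_lit 20195566281) (nat_lit 76) (nat_lit 4055978893) (nat_lit 239) (nat_lit 5) (nat_lit 249) (nat_lit 5) (nat_lit 240) (nat_lit 5) (nat_lit 411) (nat_lit 392) (nat_lit 217))) (XT.nd (nat_lit 78) (nat_lit 608) (nat_lit 0) (XT.lf (nat_lit 0) (nat_lit 3636436753) (nat_lit 760) (nat_lit 6824472178) (nat_lit 76) (nat_lit 15445209038) (nat_lit 239) (nat_lit 5) (nat_lit 249) (nat_lit 5) (nat_lit 240) (nat_lit 5) (nat_lit 412) (nat_lit 392) (nat_lit 216)) (XT.lf (nat_lit 0) (nat_lit 6178566096) (nat_lit 684) (nat_lit 19259186227) (nat_lit 76) (nat_lit 894395888) (nat_lit 231) (nat_lit 5) (nat_lit 240) (nat_lit 5) (nat_lit 232) (nat_lit 5) (nat_lit 413) (nat_lit 392) (nat_lit 215)))))) (XT.nd (nat_lit 546) (nat_lit 1976) (nat_lit 0) (XT.nd (nat_lit 234)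 (nat_lit 1596) (nat_lit 0) (XT.nd (nat_lit 78) (nat_lit 608) (nat_lit 0) (XT.lf (nat_lit 0) (nat_lit 8965974376) (nat_lit 684) (nat_lit 5349979229) (nat_lit 76) (nat_lit 12449936543) (nat_lit 231) (nat_lit 5) (nat_lit 240) (nat_lit 5) (nat_lit 232) (nat_lit 5) (nat_lit 414) (nat_lit 392) (nat_lit 214)) (XT.nd (nat_lit 78) (nat_lit 0) (nat_lit 0) (XT.lf (nat_lit 0) (nat_lit 9151147900) (nat_lit 608) (nat_lit 2769790035) (nat_lit 684) (nat_lit 15289189619) (nat_lit 223) (nat_lit 5) (nat_lit 231) (nat_lit 5) (nat_lit 232) (nat_lit 5) (nat_lit 415) (nat_lit 392) (nat_lit 213)) (XT.lf (nat_lit 0) (nat_lit 15102850435) (nat_lit 684) (nat_lit 3561331418) (nat_lit 76) (nat_lit 8999362397) (nat_lit 223) (nat_lit 5) (nat_lit 232) (nat_lit 5) (nat_lit 224) (nat_lit 5) (nat_lit 416) (nat_lit 392) (nat_lit 212)))) (XT.nd (nat_lit 156) (nat_lit 1064) (nat_lit 0) (XT.nd (nat_lit 78) (nat_lit 0) (nat_lit 0) (XT.lf (nat_lit 0)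 (nat_lit 11565616419) (nat_lit 532) (nat_lit 6949365765) (nat_lit 608) (nat_lit 9611539540) (nat_lit 216) (nat_lit 5) (nat_lit 223) (nat_lit 5) (nat_lit 224) (nat_lit 5) (nat_lit 417) (nat_lit 392) (nat_lit 211)) (XT.lf (nat_lit 0) (nat_lit 22111219402) (nat_lit 608) (nat_lit 1436443892) (nat_lit 76) (nat_lit 5053274081) (nat_lit 216) (nat_lit 5) (nat_lit 224) (nat_lit 5) (nat_lit 217) (nat_lit 5) (nat_lit 418) (nat_lit 392) (nat_lit 210))) (XT.nd (nat_lit 78) (nat_lit 532) (nat_lit 0) (XT.lf (nat_lit 0) (nat_lit 14349095925) (nat_lit 532) (nat_lit 11669331590) (nat_lit 608) (nat_lit 3065066538) (nat_lit 209) (nat_lit 5) (nat_lit 216) (nat_lit 5) (nat_lit 217) (nat_lit 5) (nat_lit 419) (nat_lit 392) (nat_lit 209)) (XT.lf (nat_lit 0) (nat_lit 480338748) (nat_lit 532) (nat_lit 28515519862) (nat_lit 76) (nat_lit 583725427) (nat_lit 202) (nat_lit 5) (nat_lit 209) (nat_lit 5) (nat_lit 203) (nat_lit 5) (nat_lit 420)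 (nat_lit 392) (nat_lit 208))))) (XT.nd (nat_lit 312) (nat_lit 988) (nat_lit 0) (XT.nd (nat_lit 156) (nat_lit 456) (nat_lit 0) (XT.nd (nat_lit 78) (nat_lit 532) (nat_lit 0) (XT.lf (nat_lit 0) (nat_lit 4332745757) (nat_lit 532) (nat_lit 12598884541) (nat_lit 76) (nat_lit 13150149653) (nat_lit 202) (nat_lit 5) (nat_lit 209) (nat_lit 5) (nat_lit 203) (nat_lit 5) (nat_lit 421) (nat_lit 392) (nat_lit 207)) (XT.lf (nat_lit 0) (nat_lit 3866867260) (nat_lit 532) (nat_lit 4467576707) (nat_lit 608) (nat_lit 22263587155) (nat_lit 195) (nat_lit 5) (nat_lit 202) (nat_lit 5) (nat_lit 203) (nat_lit 5) (nat_lit 422) (nat_lit 392) (nat_lit 206))) (XT.nd (nat_lit 78) (nat_lit 456) (nat_lit 0) (XT.lf (nat_lit 0) (nat_lit 12661746502) (nat_lit 608) (nat_lit 10126717771) (nat_lit 76) (nat_lit 8335139876) (nat_lit 195) (nat_lit 5) (nat_lit 203) (nat_lit 5) (nat_lit 196) (nat_lit 5) (nat_lit 423) (nat_lit 392) (nat_lit 205)) (XT.lf (nat_lit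 0) (nat_lit 7065719474) (nat_lit 456) (nat_lit 10162009188) (nat_lit 532) (nat_lit 14433950782) (nat_lit 189) (nat_lit 5) (nat_lit 195) (nat_lit 5) (nat_lit 196) (nat_lit 5) (nat_lit 424) (nat_lit 392) (nat_lit 204)))) (XT.nd (nat_lit 156) (nat_lit 532) (nat_lit 0) (XT.nd (nat_lit 78) (nat_lit 456) (nat_lit 0) (XT.lf (nat_lit 0) (nat_lit 22058055721) (nat_lit 532) (nat_lit 7263497216) (nat_lit 76) (nat_lit 2890523968) (nat_lit 189) (nat_lit 5) (nat_lit 196) (nat_lit 5) (nat_lit 190) (nat_lit 5) (nat_lit 425) (nat_lit 392) (nat_lit 203)) (XT.lf (nat_lit 0) (nat_lit 10693259171) (nat_lit 456) (nat_lit 16540293838) (nat_lit 532) (nat_lit 5539426312) (nat_lit 183) (nat_lit 5) (nat_lit 189) (nat_lit 5) (nat_lit 190) (nat_lit 5) (nat_lit 426) (nat_lit 392) (nat_lit 202))) (XT.nd (nat_lit 78) (nat_lit 532) (nat_lit 0) (XT.lf (nat_lit 0) (nat_lit 29333919096) (nat_lit 456) (nat_lit 3300655572) (nat_lit 532) (nat_lit 714027175)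 (nat_lit 183) (nat_lit 5) (nat_lit 189) (nat_lit 5) (nat_lit 190) (nat_lit 5) (nat_lit 427) (nat_lit 392) (nat_lit 201)) (XT.lf (nat_lit 0) (nat_lit 4413847097) (nat_lit 532) (nat_lit 19199972692) (nat_lit 76) (nat_lit 10319223679) (nat_lit 176) (nat_lit 5) (nat_lit 183) (nat_lit 5) (nat_lit 177) (nat_lit 5) (nat_lit 428) (nat_lit 392) (nat_lit 200))))))))
noncomputable def xc210 : XT := (XT.nd (nat_lit 2184) (nat_lit 2736) (nat_lit 0) (XT.nd (nat_lit 1092) (nat_lit 2356) (nat_lit 0) (XT.nd (nat_lit 546) (nat_lit 1444) (nat_lit 0) (XT.nd (nat_lit 234) (nat_lit 836) (nat_lit 0) (XT.nd (nat_lit 78) (nat_lit 836) (nat_lit 0) (XT.lf (nat_lit 0) (nat_lit 9751847140) (nat_lit 532) (nat_lit 452094178) (nat_lit 76) (nat_lit 24328746463) (nat_lit 176) (nat_lit 5) (nat_lit 183) (nat_lit 5) (nat_lit 177) (nat_lit 5) (nat_lit 429) (nat_lit 392) (nat_lit 199)) (XT.nd (nat_lit 78) (nat_lit 380) (nat_lit 0) (XT.lf (nat_lit 0)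 (nat_lit 15468450625) (nat_lit 532) (nat_lit 15951494364) (nat_lit 76) (nat_lit 3723823257) (nat_lit 170) (nat_lit 5) (nat_lit 177) (nat_lit 5) (nat_lit 171) (nat_lit 5) (nat_lit 430) (nat_lit 392) (nat_lit 198)) (XT.lf (nat_lit 0) (nat_lit 3628291314) (nat_lit 380) (nat_lit 17865927199) (nat_lit 456) (nat_lit 14274833329) (nat_lit 165) (nat_lit 5) (nat_lit 170) (nat_lit 5) (nat_lit 171) (nat_lit 5) (nat_lit 431) (nat_lit 392) (nat_lit 197)))) (XT.nd (nat_lit 156) (nat_lit 456) (nat_lit 0) (XT.nd (nat_lit 78) (nat_lit 380) (nat_lit 0) (XT.lf (nat_lit 0) (nat_lit 24118864465) (nat_lit 380) (nat_lit 3740171607) (nat_lit 456) (nat_lit 8549310262) (nat_lit 165) (nat_lit 5) (nat_lit 170) (nat_lit 5) (nat_lit 171) (nat_lit 5) (nat_lit 432) (nat_lit 392) (nat_lit 196)) (XT.lf (nat_lit 0) (nat_lit 8210070826) (nat_lit 380) (nat_lit 26384825728) (nat_lit 456) (nat_lit 2466520820) (nat_lit 160) (nat_lit 5) (nat_lit 165)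 (nat_lit 5) (nat_lit 166) (nat_lit 5) (nat_lit 433) (nat_lit 392) (nat_lit 195))) (XT.nd (nat_lit 78) (nat_lit 380) (nat_lit 0) (XT.lf (nat_lit 0) (nat_lit 3884275088) (nat_lit 456) (nat_lit 8232186986) (nat_lit 76) (nat_lit 25611734119) (nat_lit 159) (nat_lit 5) (nat_lit 165) (nat_lit 5) (nat_lit 160) (nat_lit 5) (nat_lit 434) (nat_lit 392) (nat_lit 194)) (XT.lf (nat_lit 0) (nat_lit 10526914744) (nat_lit 456) (nat_lit 25200876171) (nat_lit 76) (nat_lit 2681928604) (nat_lit 154) (nat_lit 5) (nat_lit 160) (nat_lit 5) (nat_lit 155) (nat_lit 5) (nat_lit 435) (nat_lit 392) (nat_lit 193))))) (XT.nd (nat_lit 234) (nat_lit 760) (nat_lit 0) (XT.nd (nat_lit 78) (nat_lit 684) (nat_lit 0) (XT.lf (nat_lit 0) (nat_lit 17570155051) (nat_lit 456) (nat_lit 3771643541) (nat_lit 76) (nat_lit 17763850902) (nat_lit 154) (nat_lit 5) (nat_lit 160) (nat_lit 5) (nat_lit 155) (nat_lit 5) (nat_lit 436) (nat_lit 392) (nat_lit 192)) (XT.nd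 (nat_lit 78) (nat_lit 304) (nat_lit 0) (XT.lf (nat_lit 0) (nat_lit 18661198519) (nat_lit 380) (nat_lit 6340356986) (nat_lit 456) (nat_lit 14815596549) (nat_lit 149) (nat_lit 5) (nat_lit 154) (nat_lit 5) (nat_lit 155) (nat_lit 5) (nat_lit 437) (nat_lit 392) (nat_lit 191)) (XT.lf (nat_lit 0) (nat_lit 1228040881) (nat_lit 304) (nat_lit 31563219104) (nat_lit 380) (nat_lit 7754679403) (nat_lit 145) (nat_lit 5) (nat_lit 149) (nat_lit 5) (nat_lit 150) (nat_lit 5) (nat_lit 438) (nat_lit 392) (nat_lit 190)))) (XT.nd (nat_lit 156) (nat_lit 304) (nat_lit 0) (XT.nd (nat_lit 78) (nat_lit 456) (nat_lit 0) (XT.lf (nat_lit 0) (nat_lit 24649792538) (nat_lit 304) (nat_lit 16438209017) (nat_lit 380) (nat_lit 200388950) (nat_lit 145) (nat_lit 5) (nat_lit 149) (nat_lit 5) (nat_lit 150) (nat_lit 5) (nat_lit 439) (nat_lit 392) (nat_lit 189)) (XT.lf (nat_lit 0) (nat_lit 6777095857) (nat_lit 380) (nat_lit 718255700) (nat_lit 456) (nat_lit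 34553695704) (nat_lit 139) (nat_lit 5) (nat_lit 144) (nat_lit 5) (nat_lit 145) (nat_lit 5) (nat_lit 440) (nat_lit 392) (nat_lit 188))) (XT.nd (nat_lit 78) (nat_lit 304) (nat_lit 0) (XT.lf (nat_lit 0) (nat_lit 15733984028) (nat_lit 456) (nat_lit 11746925845) (nat_lit 76) (nat_lit 15342073400) (nat_lit 139) (nat_lit 5) (nat_lit 145) (nat_lit 5) (nat_lit 140) (nat_lit 5) (nat_lit 441) (nat_lit 392) (nat_lit 187)) (XT.lf (nat_lit 0) (nat_lit 12721692151) (nat_lit 304) (nat_lit 11625180370) (nat_lit 380) (nat_lit 19269452414) (nat_lit 135) (nat_lit 5) (nat_lit 139) (nat_lit 5) (nat_lit 140) (nat_lit 5) (nat_lit 442) (nat_lit 392) (nat_lit 186)))))) (XT.nd (nat_lit 546) (nat_lit 1140) (nat_lit 0) (XT.nd (nat_lit 234) (nat_lit 836) (nat_lit 0) (XT.nd (nat_lit 78) (nat_lit 380) (nat_lit 0) (XT.lf (nat_lit 0) (nat_lit 33380905235) (nat_lit 380) (nat_lit 6314472187) (nat_lit 76) (nat_lit 4733207165) (nat_lit 135) (nat_lit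 5) (nat_lit 140) (nat_lit 5) (nat_lit 136) (nat_lit 5) (nat_lit 443) (nat_lit 392) (nat_lit 185)) (XT.nd (nat_lit 78) (nat_lit 76) (nat_lit 0) (XT.lf (nat_lit 0) (nat_lit 19260613484) (nat_lit 304) (nat_lit 23723380465) (nat_lit 380) (nat_lit 2272277482) (nat_lit 131) (nat_lit 5) (nat_lit 135) (nat_lit 5) (nat_lit 136) (nat_lit 5) (nat_lit 444) (nat_lit 392) (nat_lit 184)) (XT.lf (nat_lit 0) (nat_lit 6696546133) (nat_lit 380) (nat_lit 443393206) (nat_lit 76) (nat_lit 38965032802) (nat_lit 130) (nat_lit 5) (nat_lit 135) (nat_lit 5) (nat_lit 131) (nat_lit 5) (nat_lit 445) (nat_lit 392) (nat_lit 183)))) (XT.nd (nat_lit 156) (nat_lit 228) (nat_lit 0) (XT.nd (nat_lit 78) (nat_lit 304) (nat_lit 0) (XT.lf (nat_lit 0) (nat_lit 16238339839) (nat_lit 380) (nat_lit 20704939667) (nat_lit 76) (nat_lit 10024692571) (nat_lit 126) (nat_lit 5) (nat_lit 131) (nat_lit 5) (nat_lit 127) (nat_lit 5) (nat_lit 446) (nat_lit 392) (nat_lit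 182)) (XT.lf (nat_lit 0) (nat_lit 5965519976) (nat_lit 304) (nat_lit 20231313592) (nat_lit 380) (nat_lit 21656115458) (nat_lit 122) (nat_lit 5) (nat_lit 126) (nat_lit 5) (nat_lit 127) (nat_lit 5) (nat_lit 447) (nat_lit 392) (nat_lit 181))) (XT.nd (nat_lit 78) (nat_lit 228) (nat_lit 0) (XT.lf (nat_lit 0) (nat_lit 33857391156) (nat_lit 304) (nat_lit 2803689432) (nat_lit 380) (nat_lit 12097185133) (nat_lit 122) (nat_lit 5) (nat_lit 126) (nat_lit 5) (nat_lit 127) (nat_lit 5) (nat_lit 448) (nat_lit 392) (nat_lit 180)) (XT.lf (nat_lit 0) (nat_lit 13000265479) (nat_lit 228) (nat_lit 34707525971) (nat_lit 304) (nat_lit 1974894754) (nat_lit 119) (nat_lit 5) (nat_lit 122) (nat_lit 5) (nat_lit 123) (nat_lit 5) (nat_lit 449) (nat_lit 392) (nat_lit 179))))) (XT.nd (nat_lit 234) (nat_lit 760) (nat_lit 0) (XT.nd (nat_lit 78) (nat_lit 304) (nat_lit 0) (XT.lf (nat_lit 0) (nat_lit 8463851836) (nat_lit 304) (nat_lit 8700021435) (nat_lit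 76) (nat_lit 33463198338) (nat_lit 118) (nat_lit 5) (nat_lit 122) (nat_lit 5) (nat_lit 119) (nat_lit 5) (nat_lit 450) (nat_lit 392) (nat_lit 178)) (XT.nd (nat_lit 78) (nat_lit 0) (nat_lit 0) (XT.lf (nat_lit 0) (nat_lit 19382001914) (nat_lit 380) (nat_lit 31104895407) (nat_lit 76) (nat_lit 1106126964) (nat_lit 114) (nat_lit 5) (nat_lit 119) (nat_lit 5) (nat_lit 115) (nat_lit 5) (nat_lit 451) (nat_lit 392) (nat_lit 177)) (XT.lf (nat_lit 0) (nat_lit 30884415526) (nat_lit 380) (nat_lit 2028895186) (nat_lit 76) (nat_lit 19666943597) (nat_lit 114) (nat_lit 5) (nat_lit 119) (nat_lit 5) (nat_lit 115) (nat_lit 5) (nat_lit 452) (nat_lit 392) (nat_lit 176)))) (XT.nd (nat_lit 156) (nat_lit 228) (nat_lit 0) (XT.nd (nat_lit 78) (nat_lit 304) (nat_lit 0) (XT.lf (nat_lit 0) (nat_lit 28472033592) (nat_lit 228) (nat_lit 14531671859) (nat_lit 304) (nat_lit 10585241991) (nat_lit 111) (nat_lit 5) (nat_lit 114) (nat_lit 5) (nat_lit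 115) (nat_lit 5) (nat_lit 453) (nat_lit 392) (nat_lit 175)) (XT.lf (nat_lit 0) (nat_lit 955699494) (nat_lit 304) (nat_lit 49272448805) (nat_lit 76) (nat_lit 4396092281) (nat_lit 107) (nat_lit 5) (nat_lit 111) (nat_lit 5) (nat_lit 108) (nat_lit 5) (nat_lit 454) (nat_lit 392) (nat_lit 174))) (XT.nd (nat_lit 78) (nat_lit 228) (nat_lit 0) (XT.lf (nat_lit 0) (nat_lit 13028274892) (nat_lit 304) (nat_lit 18687715229) (nat_lit 76) (nat_lit 23959513802) (nat_lit 107) (nat_lit 5) (nat_lit 111) (nat_lit 5) (nat_lit 108) (nat_lit 5) (nat_lit 455) (nat_lit 392) (nat_lit 173)) (XT.lf (nat_lit 0) (nat_lit 13066655509) (nat_lit 228) (nat_lit 12520168794) (nat_lit 304) (nat_lit 31167767252) (nat_lit 104) (nat_lit 5) (nat_lit 107) (nat_lit 5) (nat_lit 108) (nat_lit 5) (nat_lit 456) (nat_lit 392) (nat_lit 172))))))) (XT.nd (nat_lit 1092) (nat_lit 912) (nat_lit 0) (XT.nd (nat_lit 546) (nat_lit 836) (nat_lit 0) (XT.nd (nat_lit 234)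 (nat_lit 684) (nat_lit 0) (XT.nd (nat_lit 78) (nat_lit 304) (nat_lit 0) (XT.lf (nat_lit 0) (nat_lit 38780620991) (nat_lit 304) (nat_lit 11778125415) (nat_lit 76) (nat_lit 7299550969) (nat_lit 104) (nat_lit 5) (nat_lit 108) (nat_lit 5) (nat_lit 105) (nat_lit 5) (nat_lit 457) (nat_lit 392) (nat_lit 171)) (XT.nd (nat_lit 78) (nat_lit 76) (nat_lit 0) (XT.lf (nat_lit 0) (nat_lit 21379393266) (nat_lit 228) (nat_lit 31318571399) (nat_lit 304) (nat_lit 6287317986) (nat_lit 101) (nat_lit 5) (nat_lit 104) (nat_lit 5) (nat_lit 105) (nat_lit 5) (nat_lit 458) (nat_lit 392) (nat_lit 170)) (XT.lf (nat_lit 0) (nat_lit 6870745277) (nat_lit 304) (nat_lit 4439629483) (nat_lit 76) (nat_lit 48830165610) (nat_lit 100) (nat_lit 5) (nat_lit 104) (nat_lit 5) (nat_lit 101) (nat_lit 5) (nat_lit 459) (nat_lit 392) (nat_lit 169)))) (XT.nd (nat_lit 156) (nat_lit 228) (nat_lit 0) (XT.nd (nat_lit 78) (nat_lit 228) (nat_lit 0) (XT.lf (nat_lit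 0) (nat_lit 20679112875) (nat_lit 304) (nat_lit 31165925768) (nat_lit 76) (nat_lit 9472091971) (nat_lit 97) (nat_lit 5) (nat_lit 101) (nat_lit 5) (nat_lit 98) (nat_lit 5) (nat_lit 460) (nat_lit 392) (nat_lit 168)) (XT.lf (nat_lit 0) (nat_lit 3292161451) (nat_lit 228) (nat_lit 31796804917) (nat_lit 304) (nat_lit 27434435394) (nat_lit 94) (nat_lit 5) (nat_lit 97) (nat_lit 5) (nat_lit 98) (nat_lit 5) (nat_lit 461) (nat_lit 392) (nat_lit 167))) (XT.nd (nat_lit 78) (nat_lit 228) (nat_lit 0) (XT.lf (nat_lit 0) (nat_lit 39420137854) (nat_lit 228) (nat_lit 10824044088) (nat_lit 304) (nat_lit 13512287346) (nat_lit 94) (nat_lit 5) (nat_lit 97) (nat_lit 5) (nat_lit 98) (nat_lit 5) (nat_lit 462) (nat_lit 392) (nat_lit 166)) (XT.lf (nat_lit 0) (nat_lit 1028233071) (nat_lit 228) (nat_lit 53302174750) (nat_lit 76) (nat_lit 10689376923) (nat_lit 91) (nat_lit 5) (nat_lit 94) (nat_lit 5) (nat_lit 92) (nat_lit 5) (nat_lit 463) (nat_lit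 392) (nat_lit 165))))) (XT.nd (nat_lit 234) (nat_lit 608) (nat_lit 0) (XT.nd (nat_lit 78) (nat_lit 228) (nat_lit 0) (XT.lf (nat_lit 0) (nat_lit 16087131758) (nat_lit 228) (nat_lit 17207662575) (nat_lit 76) (nat_lit 33011579608) (nat_lit 91) (nat_lit 5) (nat_lit 94) (nat_lit 5) (nat_lit 92) (nat_lit 5) (nat_lit 464) (nat_lit 392) (nat_lit 164)) (XT.nd (nat_lit 78) (nat_lit 0) (nat_lit 0) (XT.lf (nat_lit 0) (nat_lit 20364458161) (nat_lit 228) (nat_lit 11427536729) (nat_lit 304) (nat_lit 35833740211) (nat_lit 88) (nat_lit 5) (nat_lit 91) (nat_lit 5) (nat_lit 92) (nat_lit 5) (nat_lit 465) (nat_lit 392) (nat_lit 163)) (XT.lf (nat_lit 0) (nat_lit 48248599346) (nat_lit 304) (nat_lit 9673982311) (nat_lit 76) (nat_lit 11053677779) (nat_lit 88) (nat_lit 5) (nat_lit 92) (nat_lit 5) (nat_lit 89) (nat_lit 5) (nat_lit 466) (nat_lit 392) (nat_lit 162)))) (XT.nd (nat_lit 156) (nat_lit 380) (nat_lit 0) (XT.nd (nat_lit 78) (nat_lit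 76) (nat_lit 0) (XT.lf (nat_lit 0) (nat_lit 29500911217) (nat_lit 152) (nat_lit 36093212850) (nat_lit 228) (nat_lit 4761318970) (nat_lit 86) (nat_lit 5) (nat_lit 88) (nat_lit 5) (nat_lit 89) (nat_lit 5) (nat_lit 467) (nat_lit 392) (nat_lit 161)) (XT.lf (nat_lit 0) (nat_lit 11553172746) (nat_lit 228) (nat_lit 1839543972) (nat_lit 76) (nat_lit 58377001471) (nat_lit 85) (nat_lit 5) (nat_lit 88) (nat_lit 5) (nat_lit 86) (nat_lit 5) (nat_lit 468) (nat_lit 392) (nat_lit 160))) (XT.nd (nat_lit 78) (nat_lit 152) (nat_lit 0) (XT.lf (nat_lit 0) (nat_lit 28735593492) (nat_lit 304) (nat_lit 34255533339) (nat_lit 76) (nat_lit 10219654931) (nat_lit 82) (nat_lit 5) (nat_lit 86) (nat_lit 5) (nat_lit 83) (nat_lit 5) (nat_lit 469) (nat_lit 392) (nat_lit 159)) (XT.lf (nat_lit 0) (nat_lit 6304833383) (nat_lit 152) (nat_lit 40339174975) (nat_lit 228) (nat_lit 28044753417) (nat_lit 80) (nat_lit 5) (nat_lit 82) (nat_lit 5) (nat_lit 83)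 (nat_lit 5) (nat_lit 470) (nat_lit 392) (nat_lit 158)))))) (XT.nd (nat_lit 702) (nat_lit 304) (nat_lit 0) (XT.nd (nat_lit 234) (nat_lit 380) (nat_lit 0) (XT.nd (nat_lit 78) (nat_lit 228) (nat_lit 0) (XT.lf (nat_lit 0) (nat_lit 48781755298) (nat_lit 152) (nat_lit 16652407252) (nat_lit 228) (nat_lit 10766584200) (nat_lit 80) (nat_lit 5) (nat_lit 82) (nat_lit 5) (nat_lit 83) (nat_lit 5) (nat_lit 471) (nat_lit 392) (nat_lit 157)) (XT.nd (nat_lit 78) (nat_lit 0) (nat_lit 0) (XT.lf (nat_lit 0) (nat_lit 7112053365) (nat_lit 228) (nat_lit 62830760194) (nat_lit 76) (nat_lit 7806671523) (nat_lit 77) (nat_lit 5) (nat_lit 80) (nat_lit 5) (nat_lit 78) (nat_lit 5) (nat_lit 472) (nat_lit 392) (nat_lit 156)) (XT.lf (nat_lit 0) (nat_lit 25753755974) (nat_lit 228) (nat_lit 20524385759) (nat_lit 76) (nat_lit 33050052883) (nat_lit 77) (nat_lit 5) (nat_lit 80) (nat_lit 5) (nat_lit 78) (nat_lit 5) (nat_lit 473) (nat_lit 392) (nat_lit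 155)))) (XT.nd (nat_lit 156) (nat_lit 228) (nat_lit 0) (XT.nd (nat_lit 78) (nat_lit 0) (nat_lit 0) (XT.lf (nat_lit 0) (nat_lit 23507542190) (nat_lit 152) (nat_lit 21671785727) (nat_lit 228) (nat_lit 35768199124) (nat_lit 75) (nat_lit 5) (nat_lit 77) (nat_lit 5) (nat_lit 78) (nat_lit 5) (nat_lit 474) (nat_lit 392) (nat_lit 154)) (XT.lf (nat_lit 0) (nat_lit 65430936653) (nat_lit 228) (nat_lit 13367782877) (nat_lit 76) (nat_lit 3809421966) (nat_lit 75) (nat_lit 5) (nat_lit 78) (nat_lit 5) (nat_lit 76) (nat_lit 5) (nat_lit 475) (nat_lit 392) (nat_lit 153))) (XT.nd (nat_lit 78) (nat_lit 0) (nat_lit 0) (XT.lf (nat_lit 0) (nat_lit 2463374942) (nat_lit 228) (nat_lit 51884175833) (nat_lit 76) (nat_lit 29954545393) (nat_lit 72) (nat_lit 5) (nat_lit 75) (nat_lit 5) (nat_lit 73) (nat_lit 5) (nat_lit 476) (nat_lit 392) (nat_lit 152)) (XT.lf (nat_lit 0) (nat_lit 22482951338) (nat_lit 228) (nat_lit 6365303359) (nat_lit 76) (nat_lit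 57189462058) (nat_lit 72) (nat_lit 5) (nat_lit 75) (nat_lit 5) (nat_lit 73) (nat_lit 5) (nat_lit 477) (nat_lit 392) (nat_lit 151))))) (XT.nd (nat_lit 46566) (nat_lit 0) (nat_lit 14440) (XT.nd (nat_lit 46410) (nat_lit 0) (nat_lit 14364) (XT.nd (nat_lit 46332) (nat_lit 0) (nat_lit 14364) (XT.lf (nat_lit 0) (nat_lit 50234617351) (nat_lit 152) (nat_lit 38333139316) (nat_lit 228) (nat_lit 2925031191) (nat_lit 68) (nat_lit 5) (nat_lit 70) (nat_lit 5) (nat_lit 71) (nat_lit 5) (nat_lit 480) (nat_lit 392) (nat_lit 148)) (XT.lf (nat_lit 0) (nat_lit 1164827745) (nat_lit 1292) (nat_lit 4318048487) (nat_lit 1292) (nat_lit 4318048487) (nat_lit 257) (nat_lit 3) (nat_lit 274) (nat_lit 3) (nat_lit 274) (nat_lit 5) (nat_lit 393) (nat_lit 393) (nat_lit 234))) (XT.nd (nat_lit 78) (nat_lit 0) (nat_lit 76) (XT.lf (nat_lit 76) (nat_lit 908273734) (nat_lit 0) (nat_lit 1635243794) (nat_lit 1292) (nat_lit 17346936478) (nat_lit 258) (nat_lit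 5) (nat_lit 257) (nat_lit 3) (nat_lit 274) (nat_lit 5) (nat_lit 394) (nat_lit 393) (nat_lit 233)) (XT.lf (nat_lit 0) (nat_lit 2921884006) (nat_lit 1216) (nat_lit 9350341965) (nat_lit 1292) (nat_lit 7910750253) (nat_lit 258) (nat_lit 5) (nat_lit 274) (nat_lit 5) (nat_lit 275) (nat_lit 5) (nat_lit 395) (nat_lit 393) (nat_lit 232)))) (XT.nd (nat_lit 156) (nat_lit 0) (nat_lit 76) (XT.nd (nat_lit 78) (nat_lit 0) (nat_lit 76) (XT.lf (nat_lit 76) (nat_lit 561605518) (nat_lit 0) (nat_lit 2765133707) (nat_lit 1292) (nat_lit 17157082859) (nat_lit 259) (nat_lit 5) (nat_lit 258) (nat_lit 5) (nat_lit 275) (nat_lit 5) (nat_lit 396) (nat_lit 393) (nat_lit 231)) (XT.lf (nat_lit 0) (nat_lit 3900372896) (nat_lit 1216) (nat_lit 9900556838) (nat_lit 1292) (nat_lit 6988066650) (nat_lit 259) (nat_lit 5) (nat_lit 275) (nat_lit 5) (nat_lit 276) (nat_lit 5) (nat_lit 397) (nat_lit 393) (nat_lit 230))) (XT.nd (nat_lit 78) (nat_lit 0) (nat_lit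 76) (XT.lf (nat_lit 76) (nat_lit 398465106) (nat_lit 0) (nat_lit 4117869344) (nat_lit 1292) (nat_lit 16586239885) (nat_lit 260) (nat_lit 5) (nat_lit 259) (nat_lit 5) (nat_lit 276) (nat_lit 5) (nat_lit 398) (nat_lit 393) (nat_lit 229)) (XT.lf (nat_lit 0) (nat_lit 5302104706) (nat_lit 1216) (nat_lit 10274280974) (nat_lit 1292) (nat_lit 5844635978) (nat_lit 260) (nat_lit 5) (nat_lit 276) (nat_lit 5) (nat_lit 277) (nat_lit 5) (nat_lit 399) (nat_lit 393) (nat_lit 228))))))))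
noncomputable def xc211 : XT := (XT.nd (nat_lit 2262) (nat_lit 6004) (nat_lit 0) (XT.nd (nat_lit 1092) (nat_lit 4256) (nat_lit 0) (XT.nd (nat_lit 546) (nat_lit 1596) (nat_lit 0) (XT.nd (nat_lit 234) (nat_lit 0) (nat_lit 152) (XT.nd (nat_lit 78) (nat_lit 0) (nat_lit 76) (XT.lf (nat_lit 76) (nat_lit 432368615) (nat_lit 0) (nat_lit 5718254565) (nat_lit 1292) (nat_lit 15597225842) (nat_lit 261) (nat_lit 5) (nat_lit 260) (nat_lit 5) (nat_lit 277) (nat_lit 5) (nat_lit 400) (nat_lit 393) (nat_lit 227)) (XT.nd (nat_lit 78) (nat_lit 0) (nat_lit 0) (XT.lf (nat_lit 0) (nat_lit 7166410735) (nat_lit 1216) (nat_lit 10458095237) (nat_lit 1292) (nat_lit 4455722649) (nat_lit 261) (nat_lit 5) (nat_lit 277) (nat_lit 5) (nat_lit 278) (nat_lit 5) (nat_lit 401) (nat_lit 393) (nat_lit 226)) (XT.lf (nat_lit 76) (nat_lit 677843847) (nat_lit 0) (nat_lit 7592521762) (nat_lit 1292) (nat_lit 14150484954) (nat_lit 262) (nat_lit 5) (nat_lit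 261) (nat_lit 5) (nat_lit 278) (nat_lit 5) (nat_lit 402) (nat_lit 393) (nat_lit 225)))) (XT.nd (nat_lit 156) (nat_lit 0) (nat_lit 76) (XT.nd (nat_lit 78) (nat_lit 0) (nat_lit 0) (XT.lf (nat_lit 0) (nat_lit 9535132644) (nat_lit 1216) (nat_lit 10437587116) (nat_lit 1292) (nat_lit 2795142313) (nat_lit 262) (nat_lit 5) (nat_lit 278) (nat_lit 5) (nat_lit 279) (nat_lit 5) (nat_lit 403) (nat_lit 393) (nat_lit 224)) (XT.lf (nat_lit 76) (nat_lit 1150467742) (nat_lit 0) (nat_lit 9768460865) (nat_lit 1292) (nat_lit 12203924407) (nat_lit 263) (nat_lit 5) (nat_lit 262) (nat_lit 5) (nat_lit 279) (nat_lit 5) (nat_lit 404) (nat_lit 393) (nat_lit 223))) (XT.nd (nat_lit 78) (nat_lit 0) (nat_lit 0) (XT.lf (nat_lit 0) (nat_lit 12452792321) (nat_lit 1216) (nat_lit 10197313664) (nat_lit 1292) (nat_lit 835132699) (nat_lit 263) (nat_lit 5) (nat_lit 279) (nat_lit 5) (nat_lit 280) (nat_lit 5) (nat_lit 405) (nat_lit 393) (nat_lit 222)) (XT.lf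 (nat_lit 76) (nat_lit 1866906114) (nat_lit 0) (nat_lit 12275554649) (nat_lit 1292) (nat_lit 9712743066) (nat_lit 264) (nat_lit 5) (nat_lit 263) (nat_lit 5) (nat_lit 280) (nat_lit 5) (nat_lit 406) (nat_lit 393) (nat_lit 221))))) (XT.nd (nat_lit 234) (nat_lit 1824) (nat_lit 0) (XT.nd (nat_lit 78) (nat_lit 0) (nat_lit 76) (XT.lf (nat_lit 76) (nat_lit 14498308233) (nat_lit 0) (nat_lit 1482715088) (nat_lit 1292) (nat_lit 8252300010) (nat_lit 264) (nat_lit 5) (nat_lit 263) (nat_lit 5) (nat_lit 280) (nat_lit 5) (nat_lit 407) (nat_lit 393) (nat_lit 220)) (XT.nd (nat_lit 78) (nat_lit 0) (nat_lit 0) (XT.lf (nat_lit 76) (nat_lit 2844955566) (nat_lit 0) (nat_lit 15145120994) (nat_lit 1292) (nat_lit 6629251322) (nat_lit 265) (nat_lit 5) (nat_lit 264) (nat_lit 5) (nat_lit 281) (nat_lit 5) (nat_lit 408) (nat_lit 393) (nat_lit 219)) (XT.lf (nat_lit 76) (nat_lit 15983129814) (nat_lit 0) (nat_lit 4184590124) (nat_lit 1292) (nat_lit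 4845944511) (nat_lit 265) (nat_lit 5) (nat_lit 264) (nat_lit 5) (nat_lit 281) (nat_lit 5) (nat_lit 409) (nat_lit 393) (nat_lit 218)))) (XT.nd (nat_lit 156) (nat_lit 760) (nat_lit 0) (XT.nd (nat_lit 78) (nat_lit 0) (nat_lit 0) (XT.lf (nat_lit 0) (nat_lit 4103587492) (nat_lit 1216) (nat_lit 18410462781) (nat_lit 1292) (nat_lit 2902681506) (nat_lit 249) (nat_lit 5) (nat_lit 265) (nat_lit 5) (nat_lit 266) (nat_lit 5) (nat_lit 410) (nat_lit 393) (nat_lit 217)) (XT.lf (nat_lit 0) (nat_lit 17770820415) (nat_lit 1216) (nat_lit 7287873790) (nat_lit 1292) (nat_lit 769360567) (nat_lit 249) (nat_lit 5) (nat_lit 265) (nat_lit 5) (nat_lit 266) (nat_lit 5) (nat_lit 411) (nat_lit 393) (nat_lit 216))) (XT.nd (nat_lit 78) (nat_lit 0) (nat_lit 0) (XT.lf (nat_lit 0) (nat_lit 1491331319) (nat_lit 760) (nat_lit 20600635321) (nat_lit 76) (nat_lit 4156603218) (nat_lit 239) (nat_lit 5) (nat_lit 249) (nat_lit 5) (nat_lit 240) (nat_lit 5)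 (nat_lit 412) (nat_lit 393) (nat_lit 215)) (XT.lf (nat_lit 0) (nat_lit 3954586534) (nat_lit 760) (nat_lit 6834256879) (nat_lit 76) (nat_lit 15888123521) (nat_lit 239) (nat_lit 5) (nat_lit 249) (nat_lit 5) (nat_lit 240) (nat_lit 5) (nat_lit 413) (nat_lit 393) (nat_lit 214)))))) (XT.nd (nat_lit 546) (nat_lit 1976) (nat_lit 0) (XT.nd (nat_lit 234) (nat_lit 1064) (nat_lit 0) (XT.nd (nat_lit 78) (nat_lit 608) (nat_lit 0) (XT.lf (nat_lit 0) (nat_lit 6568633045) (nat_lit 684) (nat_lit 19637604593) (nat_lit 76) (nat_lit 909672678) (nat_lit 231) (nat_lit 5) (nat_lit 240) (nat_lit 5) (nat_lit 232) (nat_lit 5) (nat_lit 414) (nat_lit 393) (nat_lit 213)) (XT.nd (nat_lit 78) (nat_lit 608) (nat_lit 0) (XT.lf (nat_lit 0) (nat_lit 9433701146) (nat_lit 684) (nat_lit 5316927906) (nat_lit 76) (nat_lit 12812216109) (nat_lit 231) (nat_lit 5) (nat_lit 240) (nat_lit 5) (nat_lit 232) (nat_lit 5) (nat_lit 415) (nat_lit 393) (nat_lit 212))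 (XT.lf (nat_lit 0) (nat_lit 9617335480) (nat_lit 608) (nat_lit 2856031656) (nat_lit 684) (nat_lit 15547162674) (nat_lit 223) (nat_lit 5) (nat_lit 231) (nat_lit 5) (nat_lit 232) (nat_lit 5) (nat_lit 416) (nat_lit 393) (nat_lit 211)))) (XT.nd (nat_lit 156) (nat_lit 532) (nat_lit 0) (XT.nd (nat_lit 78) (nat_lit 532) (nat_lit 0) (XT.lf (nat_lit 0) (nat_lit 15745033815) (nat_lit 684) (nat_lit 3476341289) (nat_lit 76) (nat_lit 9266346674) (nat_lit 223) (nat_lit 5) (nat_lit 232) (nat_lit 5) (nat_lit 224) (nat_lit 5) (nat_lit 417) (nat_lit 393) (nat_lit 210)) (XT.lf (nat_lit 0) (nat_lit 12102534296) (nat_lit 532) (nat_lit 7153313426) (nat_lit 608) (nat_lit 9708852936) (nat_lit 216) (nat_lit 5) (nat_lit 223) (nat_lit 5) (nat_lit 224) (nat_lit 5) (nat_lit 418) (nat_lit 393) (nat_lit 209))) (XT.nd (nat_lit 78) (nat_lit 532) (nat_lit 0) (XT.lf (nat_lit 0) (nat_lit 22954613897) (nat_lit 608) (nat_lit 1289709515) (nat_lit 76)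 (nat_lit 5209187693) (nat_lit 216) (nat_lit 5) (nat_lit 224) (nat_lit 5) (nat_lit 217) (nat_lit 5) (nat_lit 419) (nat_lit 393) (nat_lit 208)) (XT.lf (nat_lit 0) (nat_lit 14967535441) (nat_lit 532) (nat_lit 12008065257) (nat_lit 608) (nat_lit 2975048445) (nat_lit 209) (nat_lit 5) (nat_lit 216) (nat_lit 5) (nat_lit 217) (nat_lit 5) (nat_lit 420) (nat_lit 393) (nat_lit 207))))) (XT.nd (nat_lit 312) (nat_lit 912) (nat_lit 0) (XT.nd (nat_lit 156) (nat_lit 532) (nat_lit 0) (XT.nd (nat_lit 78) (nat_lit 0) (nat_lit 0) (XT.lf (nat_lit 0) (nat_lit 669935599) (nat_lit 532) (nat_lit 29176137597) (nat_lit 76) (nat_lit 615594575) (nat_lit 202) (nat_lit 5) (nat_lit 209) (nat_lit 5) (nat_lit 203) (nat_lit 5) (nat_lit 421) (nat_lit 393) (nat_lit 206)) (XT.lf (nat_lit 0) (nat_lit 4632812294) (nat_lit 532) (nat_lit 12787678396) (nat_lit 76) (nat_lit 13558593351) (nat_lit 202) (nat_lit 5) (nat_lit 209) (nat_lit 5) (nat_lit 203) (nat_lit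 5) (nat_lit 422) (nat_lit 393) (nat_lit 205))) (XT.nd (nat_lit 78) (nat_lit 0) (nat_lit 0) (XT.lf (nat_lit 0) (nat_lit 4170191324) (nat_lit 532) (nat_lit 4581216833) (nat_lit 608) (nat_lit 22759510551) (nat_lit 195) (nat_lit 5) (nat_lit 202) (nat_lit 5) (nat_lit 203) (nat_lit 5) (nat_lit 423) (nat_lit 393) (nat_lit 204)) (XT.lf (nat_lit 0) (nat_lit 13203857970) (nat_lit 608) (nat_lit 10243941226) (nat_lit 76) (nat_lit 8604601206) (nat_lit 195) (nat_lit 5) (nat_lit 203) (nat_lit 5) (nat_lit 196) (nat_lit 5) (nat_lit 424) (nat_lit 393) (nat_lit 203)))) (XT.nd (nat_lit 156) (nat_lit 456) (nat_lit 0) (XT.nd (nat_lit 78) (nat_lit 0) (nat_lit 0) (XT.lf (nat_lit 0) (nat_lit 7462439939) (nat_lit 456) (nat_lit 10441429583) (nat_lit 532) (nat_lit 14702838222) (nat_lit 189) (nat_lit 5) (nat_lit 195) (nat_lit 5) (nat_lit 196) (nat_lit 5) (nat_lit 425) (nat_lit 393) (nat_lit 202)) (XT.lf (nat_lit 0) (nat_lit 22874703746) (nat_lit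 532) (nat_lit 7297590074) (nat_lit 76) (nat_lit 3001456635) (nat_lit 189) (nat_lit 5) (nat_lit 196) (nat_lit 5) (nat_lit 190) (nat_lit 5) (nat_lit 426) (nat_lit 393) (nat_lit 201))) (XT.nd (nat_lit 78) (nat_lit 0) (nat_lit 0) (XT.lf (nat_lit 0) (nat_lit 11196066927) (nat_lit 456) (nat_lit 17006636781) (nat_lit 532) (nat_lit 5548860313) (nat_lit 183) (nat_lit 5) (nat_lit 189) (nat_lit 5) (nat_lit 190) (nat_lit 5) (nat_lit 427) (nat_lit 393) (nat_lit 200)) (XT.lf (nat_lit 0) (nat_lit 30390645388) (nat_lit 456) (nat_lit 3370679248) (nat_lit 532) (nat_lit 583264701) (nat_lit 183) (nat_lit 5) (nat_lit 189) (nat_lit 5) (nat_lit 190) (nat_lit 5) (nat_lit 428) (nat_lit 393) (nat_lit 199))))))) (XT.nd (nat_lit 1092) (nat_lit 2660) (nat_lit 0) (XT.nd (nat_lit 546) (nat_lit 1520) (nat_lit 0) (XT.nd (nat_lit 234) (nat_lit 836) (nat_lit 0) (XT.nd (nat_lit 78) (nat_lit 456) (nat_lit 0) (XT.lf (nat_lit 0) (nat_lit 4693142342)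 (nat_lit 532) (nat_lit 19593884725) (nat_lit 76) (nat_lit 10659564378) (nat_lit 176) (nat_lit 5) (nat_lit 183) (nat_lit 5) (nat_lit 177) (nat_lit 5) (nat_lit 429) (nat_lit 393) (nat_lit 198)) (XT.nd (nat_lit 78) (nat_lit 456) (nat_lit 0) (XT.lf (nat_lit 0) (nat_lit 10187004333) (nat_lit 532) (nat_lit 288873365) (nat_lit 76) (nat_lit 25088476807) (nat_lit 176) (nat_lit 5) (nat_lit 183) (nat_lit 5) (nat_lit 177) (nat_lit 5) (nat_lit 430) (nat_lit 393) (nat_lit 197)) (XT.lf (nat_lit 0) (nat_lit 16072970832) (nat_lit 532) (nat_lit 16251085654) (nat_lit 76) (nat_lit 3869775995) (nat_lit 170) (nat_lit 5) (nat_lit 177) (nat_lit 5) (nat_lit 171) (nat_lit 5) (nat_lit 431) (nat_lit 393) (nat_lit 196)))) (XT.nd (nat_lit 156) (nat_lit 456) (nat_lit 0) (XT.nd (nat_lit 78) (nat_lit 0) (nat_lit 0) (XT.lf (nat_lit 0) (nat_lit 3914339148) (nat_lit 380) (nat_lit 18362784692) (nat_lit 456) (nat_lit 14560823397) (nat_lit 165) (nat_lit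 5) (nat_lit 170) (nat_lit 5) (nat_lit 171) (nat_lit 5) (nat_lit 432) (nat_lit 393) (nat_lit 195)) (XT.lf (nat_lit 0) (nat_lit 25014468355) (nat_lit 380) (nat_lit 3814395859) (nat_lit 456) (nat_lit 8667677985) (nat_lit 165) (nat_lit 5) (nat_lit 170) (nat_lit 5) (nat_lit 171) (nat_lit 5) (nat_lit 433) (nat_lit 393) (nat_lit 194))) (XT.nd (nat_lit 78) (nat_lit 76) (nat_lit 0) (XT.lf (nat_lit 0) (nat_lit 8630377518) (nat_lit 380) (nat_lit 27134545517) (nat_lit 456) (nat_lit 2404339615) (nat_lit 160) (nat_lit 5) (nat_lit 165) (nat_lit 5) (nat_lit 166) (nat_lit 5) (nat_lit 434) (nat_lit 393) (nat_lit 193)) (XT.lf (nat_lit 0) (nat_lit 4130433952) (nat_lit 456) (nat_lit 8307606190) (nat_lit 76) (nat_lit 26418082989) (nat_lit 159) (nat_lit 5) (nat_lit 165) (nat_lit 5) (nat_lit 160) (nat_lit 5) (nat_lit 435) (nat_lit 393) (nat_lit 192))))) (XT.nd (nat_lit 234) (nat_lit 760) (nat_lit 0) (XT.nd (nat_lit 78) (nat_lit 380) (nat_lit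 0) (XT.lf (nat_lit 0) (nat_lit 10970617343) (nat_lit 456) (nat_lit 25783591441) (nat_lit 76) (nat_lit 2803936312) (nat_lit 154) (nat_lit 5) (nat_lit 160) (nat_lit 5) (nat_lit 155) (nat_lit 5) (nat_lit 436) (nat_lit 393) (nat_lit 191)) (XT.nd (nat_lit 78) (nat_lit 380) (nat_lit 0) (XT.lf (nat_lit 0) (nat_lit 18221429757) (nat_lit 456) (nat_lit 3716529725) (nat_lit 76) (nat_lit 18337106089) (nat_lit 154) (nat_lit 5) (nat_lit 160) (nat_lit 5) (nat_lit 155) (nat_lit 5) (nat_lit 437) (nat_lit 393) (nat_lit 190)) (XT.lf (nat_lit 0) (nat_lit 19387647957) (nat_lit 380) (nat_lit 6486109254) (nat_lit 456) (nat_lit 15134217272) (nat_lit 149) (nat_lit 5) (nat_lit 154) (nat_lit 5) (nat_lit 155) (nat_lit 5) (nat_lit 438) (nat_lit 393) (nat_lit 189)))) (XT.nd (nat_lit 156) (nat_lit 456) (nat_lit 0) (XT.nd (nat_lit 78) (nat_lit 0) (nat_lit 0) (XT.lf (nat_lit 0) (nat_lit 1433094887) (nat_lit 304) (nat_lit 32462531904) (nat_lit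 380) (nat_lit 7863045228) (nat_lit 145) (nat_lit 5) (nat_lit 149) (nat_lit 5) (nat_lit 150) (nat_lit 5) (nat_lit 439) (nat_lit 393) (nat_lit 188)) (XT.lf (nat_lit 0) (nat_lit 25552599693) (nat_lit 304) (nat_lit 16885157449) (nat_lit 380) (nat_lit 85745709) (nat_lit 145) (nat_lit 5) (nat_lit 149) (nat_lit 5) (nat_lit 150) (nat_lit 5) (nat_lit 440) (nat_lit 393) (nat_lit 187))) (XT.nd (nat_lit 78) (nat_lit 0) (nat_lit 0) (XT.lf (nat_lit 0) (nat_lit 7144477232) (nat_lit 380) (nat_lit 692166851) (nat_lit 456) (nat_lit 35470357221) (nat_lit 139) (nat_lit 5) (nat_lit 144) (nat_lit 5) (nat_lit 145) (nat_lit 5) (nat_lit 441) (nat_lit 393) (nat_lit 186)) (XT.lf (nat_lit 0) (nat_lit 16319488880) (nat_lit 456) (nat_lit 11937073462) (nat_lit 76) (nat_lit 15847682165) (nat_lit 139) (nat_lit 5) (nat_lit 145) (nat_lit 5) (nat_lit 140) (nat_lit 5) (nat_lit 442) (nat_lit 393) (nat_lit 185)))))) (XT.nd (nat_lit 546) (nat_lit 1368)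 (nat_lit 0) (XT.nd (nat_lit 234) (nat_lit 684) (nat_lit 0) (XT.nd (nat_lit 78) (nat_lit 304) (nat_lit 0) (XT.lf (nat_lit 0) (nat_lit 13264012288) (nat_lit 304) (nat_lit 11924990794) (nat_lit 380) (nat_lit 19732436855) (nat_lit 135) (nat_lit 5) (nat_lit 139) (nat_lit 5) (nat_lit 140) (nat_lit 5) (nat_lit 443) (nat_lit 393) (nat_lit 184)) (XT.nd (nat_lit 78) (nat_lit 304) (nat_lit 0) (XT.lf (nat_lit 0) (nat_lit 34491259454) (nat_lit 380) (nat_lit 6345097004) (nat_lit 76) (nat_lit 4921795511) (nat_lit 135) (nat_lit 5) (nat_lit 140) (nat_lit 5) (nat_lit 136) (nat_lit 5) (nat_lit 444) (nat_lit 393) (nat_lit 183)) (XT.lf (nat_lit 0) (nat_lit 19995684283) (nat_lit 304) (nat_lit 24385095520) (nat_lit 380) (nat_lit 2229940097) (nat_lit 131) (nat_lit 5) (nat_lit 135) (nat_lit 5) (nat_lit 136) (nat_lit 5) (nat_lit 445) (nat_lit 393) (nat_lit 182)))) (XT.nd (nat_lit 156) (nat_lit 304) (nat_lit 0) (XT.nd (nat_lit 78) (nat_lit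 304) (nat_lit 0) (XT.lf (nat_lit 0) (nat_lit 7002636056) (nat_lit 380) (nat_lit 301908769) (nat_lit 76) (nat_lit 40180400226) (nat_lit 130) (nat_lit 5) (nat_lit 135) (nat_lit 5) (nat_lit 131) (nat_lit 5) (nat_lit 446) (nat_lit 393) (nat_lit 181)) (XT.lf (nat_lit 0) (nat_lit 16829570414) (nat_lit 380) (nat_lit 21170168612) (nat_lit 76) (nat_lit 10374129949) (nat_lit 126) (nat_lit 5) (nat_lit 131) (nat_lit 5) (nat_lit 127) (nat_lit 5) (nat_lit 447) (nat_lit 393) (nat_lit 180))) (XT.nd (nat_lit 78) (nat_lit 0) (nat_lit 0) (XT.lf (nat_lit 0) (nat_lit 6298876200) (nat_lit 304) (nat_lit 20786395385) (nat_lit 380) (nat_lit 22200170647) (nat_lit 122) (nat_lit 5) (nat_lit 126) (nat_lit 5) (nat_lit 127) (nat_lit 5) (nat_lit 448) (nat_lit 393) (nat_lit 179)) (XT.lf (nat_lit 0) (nat_lit 35023006702) (nat_lit 304) (nat_lit 2837452915) (nat_lit 380) (nat_lit 12357548964) (nat_lit 122) (nat_lit 5) (nat_lit 126) (nat_lit 5) (nat_lit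 127) (nat_lit 5) (nat_lit 449) (nat_lit 393) (nat_lit 178))))) (XT.nd (nat_lit 312) (nat_lit 760) (nat_lit 0) (XT.nd (nat_lit 156) (nat_lit 304) (nat_lit 0) (XT.nd (nat_lit 78) (nat_lit 76) (nat_lit 0) (XT.lf (nat_lit 0) (nat_lit 13541194133) (nat_lit 228) (nat_lit 35696398870) (nat_lit 304) (nat_lit 1932598585) (nat_lit 119) (nat_lit 5) (nat_lit 122) (nat_lit 5) (nat_lit 123) (nat_lit 5) (nat_lit 450) (nat_lit 393) (nat_lit 177)) (XT.lf (nat_lit 0) (nat_lit 8814429082) (nat_lit 304) (nat_lit 8812556254) (nat_lit 76) (nat_lit 34515981445) (nat_lit 118) (nat_lit 5) (nat_lit 122) (nat_lit 5) (nat_lit 119) (nat_lit 5) (nat_lit 451) (nat_lit 393) (nat_lit 176))) (XT.nd (nat_lit 78) (nat_lit 0) (nat_lit 0) (XT.lf (nat_lit 0) (nat_lit 20059218887) (nat_lit 380) (nat_lit 31888655043) (nat_lit 76) (nat_lit 1190051750) (nat_lit 114) (nat_lit 5) (nat_lit 119) (nat_lit 5) (nat_lit 115) (nat_lit 5) (nat_lit 452) (nat_lit 393)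 (nat_lit 175)) (XT.lf (nat_lit 0) (nat_lit 31903915871) (nat_lit 380) (nat_lit 1944725899) (nat_lit 76) (nat_lit 20306214989) (nat_lit 114) (nat_lit 5) (nat_lit 119) (nat_lit 5) (nat_lit 115) (nat_lit 5) (nat_lit 453) (nat_lit 393) (nat_lit 174)))) (XT.nd (nat_lit 156) (nat_lit 228) (nat_lit 0) (XT.nd (nat_lit 78) (nat_lit 304) (nat_lit 0) (XT.lf (nat_lit 0) (nat_lit 29469808819) (nat_lit 228) (nat_lit 14915648381) (nat_lit 304) (nat_lit 10808393777) (nat_lit 111) (nat_lit 5) (nat_lit 114) (nat_lit 5) (nat_lit 115) (nat_lit 5) (nat_lit 454) (nat_lit 393) (nat_lit 173)) (XT.lf (nat_lit 0) (nat_lit 1076129880) (nat_lit 304) (nat_lit 50604331990) (nat_lit 76) (nat_lit 4579738373) (nat_lit 107) (nat_lit 5) (nat_lit 111) (nat_lit 5) (nat_lit 108) (nat_lit 5) (nat_lit 455) (nat_lit 393) (nat_lit 172))) (XT.nd (nat_lit 78) (nat_lit 228) (nat_lit 0) (XT.lf (nat_lit 0) (nat_lit 13508209937) (nat_lit 304) (nat_lit 19106317289)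 (nat_lit 76) (nat_lit 24728554869) (nat_lit 107) (nat_lit 5) (nat_lit 111) (nat_lit 5) (nat_lit 108) (nat_lit 5) (nat_lit 456) (nat_lit 393) (nat_lit 171)) (XT.lf (nat_lit 0) (nat_lit 13599292126) (nat_lit 228) (nat_lit 12842980831) (nat_lit 304) (nat_lit 32012307103) (nat_lit 104) (nat_lit 5) (nat_lit 107) (nat_lit 5) (nat_lit 108) (nat_lit 5) (nat_lit 457) (nat_lit 393) (nat_lit 170))))))))
noncomputable def xc212 : XT := (XT.nd (nat_lit 48750) (nat_lit 0) (nat_lit 8208) (XT.nd (nat_lit 1092) (nat_lit 912) (nat_lit 0) (XT.nd (nat_lit 546) (nat_lit 836) (nat_lit 0) (XT.nd (nat_lit 234) (nat_lit 684) (nat_lit 0) (XT.nd (nat_lit 78) (nat_lit 304) (nat_lit 0) (XT.lf (nat_lit 0) (nat_lit 40029817682) (nat_lit 304) (nat_lit 11992849066) (nat_lit 76) (nat_lit 7568792687) (nat_lit 104) (nat_lit 5) (nat_lit 108) (nat_lit 5) (nat_lit 105) (nat_lit 5) (nat_lit 458) (nat_lit 393) (nat_lit 169)) (XT.nd (nat_lit 78) (nat_lit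 76) (nat_lit 0) (XT.lf (nat_lit 0) (nat_lit 22158036154) (nat_lit 228) (nat_lit 32205466559) (nat_lit 304) (nat_lit 6388787318) (nat_lit 101) (nat_lit 5) (nat_lit 104) (nat_lit 5) (nat_lit 105) (nat_lit 5) (nat_lit 459) (nat_lit 393) (nat_lit 168)) (XT.lf (nat_lit 0) (nat_lit 7159828406) (nat_lit 304) (nat_lit 4437891719) (nat_lit 76) (nat_lit 50344535262) (nat_lit 100) (nat_lit 5) (nat_lit 104) (nat_lit 5) (nat_lit 101) (nat_lit 5) (nat_lit 460) (nat_lit 393) (nat_lit 167)))) (XT.nd (nat_lit 156) (nat_lit 228) (nat_lit 0) (XT.nd (nat_lit 78) (nat_lit 228) (nat_lit 0) (XT.lf (nat_lit 0) (nat_lit 21381812674) (nat_lit 304) (nat_lit 31965330524) (nat_lit 76) (nat_lit 9807019531) (nat_lit 97) (nat_lit 5) (nat_lit 101) (nat_lit 5) (nat_lit 98) (nat_lit 5) (nat_lit 461) (nat_lit 393) (nat_lit 166)) (XT.lf (nat_lit 0) (nat_lit 3525170164) (nat_lit 228) (nat_lit 32697684186) (nat_lit 304) (nat_lit 28173801235) (nat_lit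 94) (nat_lit 5) (nat_lit 97) (nat_lit 5) (nat_lit 98) (nat_lit 5) (nat_lit 462) (nat_lit 393) (nat_lit 165))) (XT.nd (nat_lit 78) (nat_lit 228) (nat_lit 0) (XT.lf (nat_lit 0) (nat_lit 40733075843) (nat_lit 228) (nat_lit 11097284946) (nat_lit 304) (nat_lit 13836425654) (nat_lit 94) (nat_lit 5) (nat_lit 97) (nat_lit 5) (nat_lit 98) (nat_lit 5) (nat_lit 463) (nat_lit 393) (nat_lit 164)) (XT.lf (nat_lit 0) (nat_lit 1138161661) (nat_lit 228) (nat_lit 54768735761) (nat_lit 76) (nat_lit 11061097745) (nat_lit 91) (nat_lit 5) (nat_lit 94) (nat_lit 5) (nat_lit 92) (nat_lit 5) (nat_lit 464) (nat_lit 393) (nat_lit 163))))) (XT.nd (nat_lit 234) (nat_lit 608) (nat_lit 0) (XT.nd (nat_lit 78) (nat_lit 228) (nat_lit 0) (XT.lf (nat_lit 0) (nat_lit 16646523961) (nat_lit 228) (nat_lit 17595247568) (nat_lit 76) (nat_lit 34051479923) (nat_lit 91) (nat_lit 5) (nat_lit 94) (nat_lit 5) (nat_lit 92) (nat_lit 5) (nat_lit 465) (nat_lit 393)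 (nat_lit 162)) (XT.nd (nat_lit 78) (nat_lit 0) (nat_lit 0) (XT.lf (nat_lit 0) (nat_lit 21102775566) (nat_lit 228) (nat_lit 11718745650) (nat_lit 304) (nat_lit 36830702884) (nat_lit 88) (nat_lit 5) (nat_lit 91) (nat_lit 5) (nat_lit 92) (nat_lit 5) (nat_lit 466) (nat_lit 393) (nat_lit 161)) (XT.lf (nat_lit 0) (nat_lit 49770098741) (nat_lit 304) (nat_lit 9838793491) (nat_lit 76) (nat_lit 11434423980) (nat_lit 88) (nat_lit 5) (nat_lit 92) (nat_lit 5) (nat_lit 89) (nat_lit 5) (nat_lit 467) (nat_lit 393) (nat_lit 160)))) (XT.nd (nat_lit 156) (nat_lit 380) (nat_lit 0) (XT.nd (nat_lit 78) (nat_lit 76) (nat_lit 0) (XT.lf (nat_lit 0) (nat_lit 30510117350) (nat_lit 152) (nat_lit 37124908989) (nat_lit 228) (nat_lit 4828878150) (nat_lit 86) (nat_lit 5) (nat_lit 88) (nat_lit 5) (nat_lit 89) (nat_lit 5) (nat_lit 468) (nat_lit 393) (nat_lit 159)) (XT.lf (nat_lit 0) (nat_lit 11971429479) (nat_lit 228) (nat_lit 1772733210) (nat_lit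 76) (nat_lit 60176488262) (nat_lit 85) (nat_lit 5) (nat_lit 88) (nat_lit 5) (nat_lit 86) (nat_lit 5) (nat_lit 469) (nat_lit 393) (nat_lit 158))) (XT.nd (nat_lit 78) (nat_lit 152) (nat_lit 0) (XT.lf (nat_lit 0) (nat_lit 29668878092) (nat_lit 304) (nat_lit 35160748825) (nat_lit 76) (nat_lit 10575333118) (nat_lit 82) (nat_lit 5) (nat_lit 86) (nat_lit 5) (nat_lit 83) (nat_lit 5) (nat_lit 470) (nat_lit 393) (nat_lit 157)) (XT.lf (nat_lit 0) (nat_lit 6615228404) (nat_lit 152) (nat_lit 41498408253) (nat_lit 228) (nat_lit 28813670305) (nat_lit 80) (nat_lit 5) (nat_lit 82) (nat_lit 5) (nat_lit 83) (nat_lit 5) (nat_lit 471) (nat_lit 393) (nat_lit 156)))))) (XT.nd (nat_lit 47112) (nat_lit 0) (nat_lit 14364) (XT.nd (nat_lit 234) (nat_lit 684) (nat_lit 0) (XT.nd (nat_lit 78) (nat_lit 228) (nat_lit 0) (XT.lf (nat_lit 0) (nat_lit 50362926422) (nat_lit 152) (nat_lit 17102521246) (nat_lit 228) (nat_lit 11019265499) (nat_lit 80)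 (nat_lit 5) (nat_lit 82) (nat_lit 5) (nat_lit 83) (nat_lit 5) (nat_lit 472) (nat_lit 393) (nat_lit 155)) (XT.nd (nat_lit 78) (nat_lit 0) (nat_lit 0) (XT.lf (nat_lit 0) (nat_lit 7393963910) (nat_lit 228) (nat_lit 64596181601) (nat_lit 76) (nat_lit 8089759945) (nat_lit 77) (nat_lit 5) (nat_lit 80) (nat_lit 5) (nat_lit 78) (nat_lit 5) (nat_lit 473) (nat_lit 393) (nat_lit 154)) (XT.lf (nat_lit 0) (nat_lit 26592921026) (nat_lit 228) (nat_lit 21024096557) (nat_lit 76) (nat_lit 34089018815) (nat_lit 77) (nat_lit 5) (nat_lit 80) (nat_lit 5) (nat_lit 78) (nat_lit 5) (nat_lit 474) (nat_lit 393) (nat_lit 153)))) (XT.nd (nat_lit 390) (nat_lit 532) (nat_lit 0) (XT.nd (nat_lit 78) (nat_lit 0) (nat_lit 0) (XT.lf (nat_lit 0) (nat_lit 24327651772) (nat_lit 152) (nat_lit 22272774266) (nat_lit 228) (nat_lit 36773547999) (nat_lit 75) (nat_lit 5) (nat_lit 77) (nat_lit 5) (nat_lit 78) (nat_lit 5) (nat_lit 475) (nat_lit 393) (nat_lit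 152)) (XT.lf (nat_lit 0) (nat_lit 67458127751) (nat_lit 228) (nat_lit 13655816822) (nat_lit 76) (nat_lit 3970506224) (nat_lit 75) (nat_lit 5) (nat_lit 78) (nat_lit 5) (nat_lit 76) (nat_lit 5) (nat_lit 476) (nat_lit 393) (nat_lit 151))) (XT.nd (nat_lit 46410) (nat_lit 0) (nat_lit 14364) (XT.lf (nat_lit 0) (nat_lit 830031696) (nat_lit 152) (nat_lit 66654152781) (nat_lit 228) (nat_lit 24836176124) (nat_lit 68) (nat_lit 5) (nat_lit 70) (nat_lit 5) (nat_lit 71) (nat_lit 5) (nat_lit 480) (nat_lit 393) (nat_lit 147)) (XT.lf (nat_lit 0) (nat_lit 1368322965) (nat_lit 1292) (nat_lit 4360758930) (nat_lit 1292) (nat_lit 4360758930) (nat_lit 257) (nat_lit 3) (nat_lit 274) (nat_lit 3) (nat_lit 274) (nat_lit 5) (nat_lit 394) (nat_lit 394) (nat_lit 232))))) (XT.nd (nat_lit 234) (nat_lit 0) (nat_lit 152) (XT.nd (nat_lit 78) (nat_lit 0) (nat_lit 76) (XT.lf (nat_lit 76) (nat_lit 1107481401) (nat_lit 0) (nat_lit 1841276938) (nat_lit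 1292) (nat_lit 17528434191) (nat_lit 258) (nat_lit 5) (nat_lit 257) (nat_lit 3) (nat_lit 274) (nat_lit 5) (nat_lit 395) (nat_lit 394) (nat_lit 231)) (XT.nd (nat_lit 78) (nat_lit 0) (nat_lit 0) (XT.lf (nat_lit 0) (nat_lit 3327430174) (nat_lit 1216) (nat_lit 9452751739) (nat_lit 1292) (nat_lit 7998642988) (nat_lit 258) (nat_lit 5) (nat_lit 274) (nat_lit 5) (nat_lit 275) (nat_lit 5) (nat_lit 396) (nat_lit 394) (nat_lit 230)) (XT.lf (nat_lit 76) (nat_lit 754808085) (nat_lit 0) (nat_lit 2982059268) (nat_lit 1292) (nat_lit 17352058720) (nat_lit 259) (nat_lit 5) (nat_lit 258) (nat_lit 5) (nat_lit 275) (nat_lit 5) (nat_lit 397) (nat_lit 394) (nat_lit 229)))) (XT.nd (nat_lit 156) (nat_lit 0) (nat_lit 76) (XT.nd (nat_lit 78) (nat_lit 0) (nat_lit 0) (XT.lf (nat_lit 0) (nat_lit 4317421108) (nat_lit 1216) (nat_lit 10015968795) (nat_lit 1292) (nat_lit 7070177307) (nat_lit 259) (nat_lit 5) (nat_lit 275) (nat_lit 5) (nat_lit 276)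 (nat_lit 5) (nat_lit 398) (nat_lit 394) (nat_lit 228)) (XT.lf (nat_lit 76) (nat_lit 590243369) (nat_lit 0) (nat_lit 4354607778) (nat_lit 1292) (nat_lit 16781914516) (nat_lit 260) (nat_lit 5) (nat_lit 259) (nat_lit 5) (nat_lit 276) (nat_lit 5) (nat_lit 399) (nat_lit 394) (nat_lit 227))) (XT.nd (nat_lit 78) (nat_lit 0) (nat_lit 0) (XT.lf (nat_lit 0) (nat_lit 5744603278) (nat_lit 1216) (nat_lit 10398239130) (nat_lit 1292) (nat_lit 5912214506) (nat_lit 260) (nat_lit 5) (nat_lit 276) (nat_lit 5) (nat_lit 277) (nat_lit 5) (nat_lit 400) (nat_lit 394) (nat_lit 226)) (XT.lf (nat_lit 76) (nat_lit 627803376) (nat_lit 0) (nat_lit 5984272482) (nat_lit 1292) (nat_lit 15779810972) (nat_lit 261) (nat_lit 5) (nat_lit 260) (nat_lit 5) (nat_lit 277) (nat_lit 5) (nat_lit 401) (nat_lit 394) (nat_lit 225))))))) (XT.nd (nat_lit 1092) (nat_lit 4180) (nat_lit 0) (XT.nd (nat_lit 546) (nat_lit 2280) (nat_lit 0) (XT.nd (nat_lit 234) (nat_lit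 0) (nat_lit 76) (XT.nd (nat_lit 78) (nat_lit 0) (nat_lit 0) (XT.lf (nat_lit 0) (nat_lit 7649389345) (nat_lit 1216) (nat_lit 10585654142) (nat_lit 1292) (nat_lit 4499465372) (nat_lit 261) (nat_lit 5) (nat_lit 277) (nat_lit 5) (nat_lit 278) (nat_lit 5) (nat_lit 402) (nat_lit 394) (nat_lit 224)) (XT.nd (nat_lit 78) (nat_lit 0) (nat_lit 76) (XT.lf (nat_lit 76) (nat_lit 882537782) (nat_lit 0) (nat_lit 7897891825) (nat_lit 1292) (nat_lit 14305103385) (nat_lit 262) (nat_lit 5) (nat_lit 261) (nat_lit 5) (nat_lit 278) (nat_lit 5) (nat_lit 403) (nat_lit 394) (nat_lit 223)) (XT.lf (nat_lit 0) (nat_lit 10074785792) (nat_lit 1216) (nat_lit 10563289882) (nat_lit 1292) (nat_lit 2805132248) (nat_lit 262) (nat_lit 5) (nat_lit 278) (nat_lit 5) (nat_lit 279) (nat_lit 5) (nat_lit 404) (nat_lit 394) (nat_lit 222)))) (XT.nd (nat_lit 156) (nat_lit 0) (nat_lit 76) (XT.nd (nat_lit 78) (nat_lit 0) (nat_lit 76) (XT.lf (nat_lit 76) (nat_lit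 1370569123) (nat_lit 0) (nat_lit 10123924107) (nat_lit 1292) (nat_lit 12314525825) (nat_lit 263) (nat_lit 5) (nat_lit 262) (nat_lit 5) (nat_lit 279) (nat_lit 5) (nat_lit 405) (nat_lit 394) (nat_lit 221)) (XT.lf (nat_lit 0) (nat_lit 13066567205) (nat_lit 1216) (nat_lit 10315168205) (nat_lit 1292) (nat_lit 800777375) (nat_lit 263) (nat_lit 5) (nat_lit 279) (nat_lit 5) (nat_lit 280) (nat_lit 5) (nat_lit 406) (nat_lit 394) (nat_lit 220))) (XT.nd (nat_lit 78) (nat_lit 0) (nat_lit 0) (XT.lf (nat_lit 76) (nat_lit 2109134394) (nat_lit 0) (nat_lit 12692585520) (nat_lit 1292) (nat_lit 9762015396) (nat_lit 264) (nat_lit 5) (nat_lit 263) (nat_lit 5) (nat_lit 280) (nat_lit 5) (nat_lit 407) (nat_lit 394) (nat_lit 219)) (XT.lf (nat_lit 76) (nat_lit 15114054660) (nat_lit 0) (nat_lit 1574540454) (nat_lit 1292) (nat_lit 8264810795) (nat_lit 264) (nat_lit 5) (nat_lit 263) (nat_lit 5) (nat_lit 280) (nat_lit 5) (nat_lit 408) (nat_lit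 394) (nat_lit 218))))) (XT.nd (nat_lit 234) (nat_lit 1368) (nat_lit 0) (XT.nd (nat_lit 78) (nat_lit 1140) (nat_lit 0) (XT.lf (nat_lit 76) (nat_lit 3116628835) (nat_lit 0) (nat_lit 15635995453) (nat_lit 1292) (nat_lit 6598527302) (nat_lit 265) (nat_lit 5) (nat_lit 264) (nat_lit 5) (nat_lit 281) (nat_lit 5) (nat_lit 409) (nat_lit 394) (nat_lit 217)) (XT.nd (nat_lit 78) (nat_lit 1140) (nat_lit 0) (XT.lf (nat_lit 76) (nat_lit 16643521381) (nat_lit 0) (nat_lit 4345584944) (nat_lit 1292) (nat_lit 4768408711) (nat_lit 265) (nat_lit 5) (nat_lit 264) (nat_lit 5) (nat_lit 281) (nat_lit 5) (nat_lit 410) (nat_lit 394) (nat_lit 216)) (XT.lf (nat_lit 0) (nat_lit 4412651817) (nat_lit 1216) (nat_lit 18988329778) (nat_lit 1292) (nat_lit 2771840141) (nat_lit 249) (nat_lit 5) (nat_lit 265) (nat_lit 5) (nat_lit 266) (nat_lit 5) (nat_lit 411) (nat_lit 394) (nat_lit 215)))) (XT.nd (nat_lit 156) (nat_lit 608) (nat_lit 0) (XT.nd (nat_lit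 78) (nat_lit 760) (nat_lit 0) (XT.lf (nat_lit 0) (nat_lit 18484485513) (nat_lit 1216) (nat_lit 7531318852) (nat_lit 1292) (nat_lit 580866810) (nat_lit 249) (nat_lit 5) (nat_lit 265) (nat_lit 5) (nat_lit 266) (nat_lit 5) (nat_lit 412) (nat_lit 394) (nat_lit 214)) (XT.lf (nat_lit 0) (nat_lit 1739038908) (nat_lit 760) (nat_lit 21029383056) (nat_lit 76) (nat_lit 4261454918) (nat_lit 239) (nat_lit 5) (nat_lit 249) (nat_lit 5) (nat_lit 240) (nat_lit 5) (nat_lit 413) (nat_lit 394) (nat_lit 213))) (XT.nd (nat_lit 78) (nat_lit 608) (nat_lit 0) (XT.lf (nat_lit 0) (nat_lit 4270280101) (nat_lit 760) (nat_lit 6855526017) (nat_lit 76) (nat_lit 16345498881) (nat_lit 239) (nat_lit 5) (nat_lit 249) (nat_lit 5) (nat_lit 240) (nat_lit 5) (nat_lit 414) (nat_lit 394) (nat_lit 212)) (XT.lf (nat_lit 0) (nat_lit 6958650812) (nat_lit 684) (nat_lit 20038819431) (nat_lit 76) (nat_lit 926071082) (nat_lit 231) (nat_lit 5) (nat_lit 240) (nat_lit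 5) (nat_lit 232) (nat_lit 5) (nat_lit 415) (nat_lit 394) (nat_lit 211)))))) (XT.nd (nat_lit 546) (nat_lit 1976) (nat_lit 0) (XT.nd (nat_lit 234) (nat_lit 1596) (nat_lit 0) (XT.nd (nat_lit 78) (nat_lit 608) (nat_lit 0) (XT.lf (nat_lit 0) (nat_lit 9904050798) (nat_lit 684) (nat_lit 5293995646) (nat_lit 76) (nat_lit 13186008051) (nat_lit 231) (nat_lit 5) (nat_lit 240) (nat_lit 5) (nat_lit 232) (nat_lit 5) (nat_lit 416) (nat_lit 394) (nat_lit 210)) (XT.nd (nat_lit 78) (nat_lit 0) (nat_lit 0) (XT.lf (nat_lit 0) (nat_lit 10086507014) (nat_lit 608) (nat_lit 2944679822) (nat_lit 684) (nat_lit 15824396073) (nat_lit 223) (nat_lit 5) (nat_lit 231) (nat_lit 5) (nat_lit 232) (nat_lit 5) (nat_lit 417) (nat_lit 394) (nat_lit 209)) (XT.lf (nat_lit 0) (nat_lit 16395627706) (nat_lit 684) (nat_lit 3399813287) (nat_lit 76) (nat_lit 9541512497) (nat_lit 223) (nat_lit 5) (nat_lit 232) (nat_lit 5) (nat_lit 224) (nat_lit 5) (nat_lit 418)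 (nat_lit 394) (nat_lit 208)))) (XT.nd (nat_lit 156) (nat_lit 1064) (nat_lit 0) (XT.nd (nat_lit 78) (nat_lit 0) (nat_lit 0) (XT.lf (nat_lit 0) (nat_lit 12644655838) (nat_lit 532) (nat_lit 7363639747) (nat_lit 608) (nat_lit 9820051798) (nat_lit 216) (nat_lit 5) (nat_lit 223) (nat_lit 5) (nat_lit 224) (nat_lit 5) (nat_lit 419) (nat_lit 394) (nat_lit 207)) (XT.lf (nat_lit 0) (nat_lit 23812974165) (nat_lit 608) (nat_lit 1149469992) (nat_lit 76) (nat_lit 5369530992) (nat_lit 216) (nat_lit 5) (nat_lit 224) (nat_lit 5) (nat_lit 217) (nat_lit 5) (nat_lit 420) (nat_lit 394) (nat_lit 206))) (XT.nd (nat_lit 78) (nat_lit 532) (nat_lit 0) (XT.lf (nat_lit 0) (nat_lit 15593738089) (nat_lit 532) (nat_lit 12357612256) (nat_lit 608) (nat_lit 2892775636) (nat_lit 209) (nat_lit 5) (nat_lit 216) (nat_lit 5) (nat_lit 217) (nat_lit 5) (nat_lit 421) (nat_lit 394) (nat_lit 205)) (XT.lf (nat_lit 0) (nat_lit 855163922) (nat_lit 532) (nat_lit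 29867758928) (nat_lit 76) (nat_lit 647595624) (nat_lit 202) (nat_lit 5) (nat_lit 209) (nat_lit 5) (nat_lit 203) (nat_lit 5) (nat_lit 422) (nat_lit 394) (nat_lit 204))))) (XT.nd (nat_lit 312) (nat_lit 988) (nat_lit 0) (XT.nd (nat_lit 156) (nat_lit 456) (nat_lit 0) (XT.nd (nat_lit 78) (nat_lit 532) (nat_lit 0) (XT.lf (nat_lit 0) (nat_lit 4932117299) (nat_lit 532) (nat_lit 12992995354) (nat_lit 76) (nat_lit 13978490192) (nat_lit 202) (nat_lit 5) (nat_lit 209) (nat_lit 5) (nat_lit 203) (nat_lit 5) (nat_lit 423) (nat_lit 394) (nat_lit 203)) (XT.lf (nat_lit 0) (nat_lit 4471862288) (nat_lit 532) (nat_lit 4699436471) (nat_lit 608) (nat_lit 23280184246) (nat_lit 195) (nat_lit 5) (nat_lit 202) (nat_lit 5) (nat_lit 203) (nat_lit 5) (nat_lit 424) (nat_lit 394) (nat_lit 202))) (XT.nd (nat_lit 78) (nat_lit 456) (nat_lit 0) (XT.lf (nat_lit 0) (nat_lit 13752918448) (nat_lit 608) (nat_lit 10375391731) (nat_lit 76) (nat_lit 8881032327)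 (nat_lit 195) (nat_lit 5) (nat_lit 203) (nat_lit 5) (nat_lit 196) (nat_lit 5) (nat_lit 425) (nat_lit 394) (nat_lit 201)) (XT.lf (nat_lit 0) (nat_lit 7860456677) (nat_lit 456) (nat_lit 10730692943) (nat_lit 532) (nat_lit 14989214080) (nat_lit 189) (nat_lit 5) (nat_lit 195) (nat_lit 5) (nat_lit 196) (nat_lit 5) (nat_lit 426) (nat_lit 394) (nat_lit 200)))) (XT.nd (nat_lit 156) (nat_lit 532) (nat_lit 0) (XT.nd (nat_lit 78) (nat_lit 456) (nat_lit 0) (XT.lf (nat_lit 0) (nat_lit 23706958953) (nat_lit 532) (nat_lit 7343257281) (nat_lit 76) (nat_lit 3114327131) (nat_lit 189) (nat_lit 5) (nat_lit 196) (nat_lit 5) (nat_lit 190) (nat_lit 5) (nat_lit 427) (nat_lit 394) (nat_lit 199)) (XT.lf (nat_lit 0) (nat_lit 11703510797) (nat_lit 456) (nat_lit 17488684437) (nat_lit 532) (nat_lit 5567575356) (nat_lit 183) (nat_lit 5) (nat_lit 189) (nat_lit 5) (nat_lit 190) (nat_lit 5) (nat_lit 428) (nat_lit 394) (nat_lit 198))) (XT.nd (nat_lit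 78) (nat_lit 532) (nat_lit 0) (XT.lf (nat_lit 0) (nat_lit 31468929665) (nat_lit 456) (nat_lit 3444468122) (nat_lit 532) (nat_lit 457315296) (nat_lit 183) (nat_lit 5) (nat_lit 189) (nat_lit 5) (nat_lit 190) (nat_lit 5) (nat_lit 429) (nat_lit 394) (nat_lit 197)) (XT.lf (nat_lit 0) (nat_lit 4972384941) (nat_lit 532) (nat_lit 20010066667) (nat_lit 76) (nat_lit 11008349319) (nat_lit 176) (nat_lit 5) (nat_lit 183) (nat_lit 5) (nat_lit 177) (nat_lit 5) (nat_lit 430) (nat_lit 394) (nat_lit 196))))))))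
noncomputable def xc213 : XT := (XT.nd (nat_lit 2262) (nat_lit 2584) (nat_lit 0) (XT.nd (nat_lit 1092) (nat_lit 2356) (nat_lit 0) (XT.nd (nat_lit 546) (nat_lit 1444) (nat_lit 0) (XT.nd (nat_lit 234) (nat_lit 836) (nat_lit 0) (XT.nd (nat_lit 78) (nat_lit 836) (nat_lit 0) (XT.lf (nat_lit 0) (nat_lit 10627030316) (nat_lit 532) (nat_lit 130904031) (nat_lit 76) (nat_lit 25869284519) (nat_lit 176) (nat_lit 5) (nat_lit 183) (nat_lit 5) (nat_lit 177) (nat_lit 5) (nat_lit 431) (nat_lit 394) (nat_lit 195)) (XT.nd (nat_lit 78) (nat_lit 380) (nat_lit 0) (XT.lf (nat_lit 0) (nat_lit 16687563282) (nat_lit 532) (nat_lit 16569937348) (nat_lit 76) (nat_lit 4018141912) (nat_lit 170) (nat_lit 5) (nat_lit 177) (nat_lit 5) (nat_lit 171) (nat_lit 5) (nat_lit 432) (nat_lit 394) (nat_lit 194)) (XT.lf (nat_lit 0) (nat_lit 4198796464) (nat_lit 380) (nat_lit 18876793577) (nat_lit 456) (nat_lit 14863559181) (nat_lit 165) (nat_lit 5) (nat_lit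 170) (nat_lit 5) (nat_lit 171) (nat_lit 5) (nat_lit 433) (nat_lit 394) (nat_lit 193)))) (XT.nd (nat_lit 156) (nat_lit 456) (nat_lit 0) (XT.nd (nat_lit 78) (nat_lit 380) (nat_lit 0) (XT.lf (nat_lit 0) (nat_lit 25927064679) (nat_lit 380) (nat_lit 3893027097) (nat_lit 456) (nat_lit 8797524910) (nat_lit 165) (nat_lit 5) (nat_lit 170) (nat_lit 5) (nat_lit 171) (nat_lit 5) (nat_lit 434) (nat_lit 394) (nat_lit 192)) (XT.lf (nat_lit 0) (nat_lit 9053304838) (nat_lit 380) (nat_lit 27909157826) (nat_lit 456) (nat_lit 2348110080) (nat_lit 160) (nat_lit 5) (nat_lit 165) (nat_lit 5) (nat_lit 166) (nat_lit 5) (nat_lit 435) (nat_lit 394) (nat_lit 191))) (XT.nd (nat_lit 78) (nat_lit 380) (nat_lit 0) (XT.lf (nat_lit 0) (nat_lit 4376536255) (nat_lit 456) (nat_lit 8395135435) (nat_lit 76) (nat_lit 27246441151) (nat_lit 159) (nat_lit 5) (nat_lit 165) (nat_lit 5) (nat_lit 160) (nat_lit 5) (nat_lit 436) (nat_lit 394) (nat_lit 190)) (XT.lf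 (nat_lit 0) (nat_lit 11420289314) (nat_lit 456) (nat_lit 26393736931) (nat_lit 76) (nat_lit 2927219120) (nat_lit 154) (nat_lit 5) (nat_lit 160) (nat_lit 5) (nat_lit 155) (nat_lit 5) (nat_lit 437) (nat_lit 394) (nat_lit 189))))) (XT.nd (nat_lit 234) (nat_lit 760) (nat_lit 0) (XT.nd (nat_lit 78) (nat_lit 684) (nat_lit 0) (XT.lf (nat_lit 0) (nat_lit 18885114836) (nat_lit 456) (nat_lit 3669421487) (nat_lit 76) (nat_lit 18925243270) (nat_lit 154) (nat_lit 5) (nat_lit 160) (nat_lit 5) (nat_lit 155) (nat_lit 5) (nat_lit 438) (nat_lit 394) (nat_lit 188)) (XT.nd (nat_lit 78) (nat_lit 304) (nat_lit 0) (XT.lf (nat_lit 0) (nat_lit 20126326584) (nat_lit 380) (nat_lit 6638786187) (nat_lit 456) (nat_lit 15469620759) (nat_lit 149) (nat_lit 5) (nat_lit 154) (nat_lit 5) (nat_lit 155) (nat_lit 5) (nat_lit 439) (nat_lit 394) (nat_lit 187)) (XT.lf (nat_lit 0) (nat_lit 1634644412) (nat_lit 304) (nat_lit 33391555591) (nat_lit 380) (nat_lit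 7981795896) (nat_lit 145) (nat_lit 5) (nat_lit 149) (nat_lit 5) (nat_lit 150) (nat_lit 5) (nat_lit 440) (nat_lit 394) (nat_lit 186)))) (XT.nd (nat_lit 156) (nat_lit 304) (nat_lit 0) (XT.nd (nat_lit 78) (nat_lit 380) (nat_lit 0) (XT.lf (nat_lit 0) (nat_lit 24914888) (nat_lit 380) (nat_lit 17322999799) (nat_lit 76) (nat_lit 26447949726) (nat_lit 144) (nat_lit 5) (nat_lit 149) (nat_lit 5) (nat_lit 145) (nat_lit 5) (nat_lit 441) (nat_lit 394) (nat_lit 185)) (XT.lf (nat_lit 0) (nat_lit 7513461844) (nat_lit 380) (nat_lit 668029868) (nat_lit 456) (nat_lit 36421404166) (nat_lit 139) (nat_lit 5) (nat_lit 144) (nat_lit 5) (nat_lit 145) (nat_lit 5) (nat_lit 442) (nat_lit 394) (nat_lit 184))) (XT.nd (nat_lit 78) (nat_lit 304) (nat_lit 0) (XT.lf (nat_lit 0) (nat_lit 16916044354) (nat_lit 456) (nat_lit 12142239905) (nat_lit 76) (nat_lit 16365856114) (nat_lit 139) (nat_lit 5) (nat_lit 145) (nat_lit 5) (nat_lit 140) (nat_lit 5)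 (nat_lit 443) (nat_lit 394) (nat_lit 183)) (XT.lf (nat_lit 0) (nat_lit 13813378949) (nat_lit 304) (nat_lit 12236605173) (nat_lit 380) (nat_lit 20215917991) (nat_lit 135) (nat_lit 5) (nat_lit 139) (nat_lit 5) (nat_lit 140) (nat_lit 5) (nat_lit 444) (nat_lit 394) (nat_lit 182)))))) (XT.nd (nat_lit 546) (nat_lit 1140) (nat_lit 0) (XT.nd (nat_lit 234) (nat_lit 836) (nat_lit 0) (XT.nd (nat_lit 78) (nat_lit 380) (nat_lit 0) (XT.lf (nat_lit 0) (nat_lit 35628671441) (nat_lit 380) (nat_lit 6385756871) (nat_lit 76) (nat_lit 5113366928) (nat_lit 135) (nat_lit 5) (nat_lit 140) (nat_lit 5) (nat_lit 136) (nat_lit 5) (nat_lit 445) (nat_lit 394) (nat_lit 181)) (XT.nd (nat_lit 78) (nat_lit 76) (nat_lit 0) (XT.lf (nat_lit 0) (nat_lit 20743780275) (nat_lit 304) (nat_lit 25069531448) (nat_lit 380) (nat_lit 2192676070) (nat_lit 131) (nat_lit 5) (nat_lit 135) (nat_lit 5) (nat_lit 136) (nat_lit 5) (nat_lit 446) (nat_lit 394) (nat_lit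 180)) (XT.lf (nat_lit 0) (nat_lit 7311870138) (nat_lit 380) (nat_lit 165065162) (nat_lit 76) (nat_lit 41429564179) (nat_lit 130) (nat_lit 5) (nat_lit 135) (nat_lit 5) (nat_lit 131) (nat_lit 5) (nat_lit 447) (nat_lit 394) (nat_lit 179)))) (XT.nd (nat_lit 156) (nat_lit 228) (nat_lit 0) (XT.nd (nat_lit 78) (nat_lit 304) (nat_lit 0) (XT.lf (nat_lit 0) (nat_lit 17432563267) (nat_lit 380) (nat_lit 21658304828) (nat_lit 76) (nat_lit 10731255064) (nat_lit 126) (nat_lit 5) (nat_lit 131) (nat_lit 5) (nat_lit 127) (nat_lit 5) (nat_lit 448) (nat_lit 394) (nat_lit 178)) (XT.lf (nat_lit 0) (nat_lit 6633370458) (nat_lit 304) (nat_lit 21361106470) (nat_lit 380) (nat_lit 22766610987) (nat_lit 122) (nat_lit 5) (nat_lit 126) (nat_lit 5) (nat_lit 127) (nat_lit 5) (nat_lit 449) (nat_lit 394) (nat_lit 177))) (XT.nd (nat_lit 78) (nat_lit 228) (nat_lit 0) (XT.lf (nat_lit 0) (nat_lit 36214986196) (nat_lit 304) (nat_lit 2875119439) (nat_lit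 380) (nat_lit 12631610599) (nat_lit 122) (nat_lit 5) (nat_lit 126) (nat_lit 5) (nat_lit 127) (nat_lit 5) (nat_lit 450) (nat_lit 394) (nat_lit 176)) (XT.lf (nat_lit 0) (nat_lit 14089687182) (nat_lit 228) (nat_lit 36717943225) (nat_lit 304) (nat_lit 1894862515) (nat_lit 119) (nat_lit 5) (nat_lit 122) (nat_lit 5) (nat_lit 123) (nat_lit 5) (nat_lit 451) (nat_lit 394) (nat_lit 175))))) (XT.nd (nat_lit 312) (nat_lit 532) (nat_lit 0) (XT.nd (nat_lit 156) (nat_lit 228) (nat_lit 0) (XT.nd (nat_lit 78) (nat_lit 304) (nat_lit 0) (XT.lf (nat_lit 0) (nat_lit 9169974869) (nat_lit 304) (nat_lit 8936989663) (nat_lit 76) (nat_lit 35597541723) (nat_lit 118) (nat_lit 5) (nat_lit 122) (nat_lit 5) (nat_lit 119) (nat_lit 5) (nat_lit 452) (nat_lit 394) (nat_lit 174)) (XT.lf (nat_lit 0) (nat_lit 20751255531) (nat_lit 380) (nat_lit 32704502907) (nat_lit 76) (nat_lit 1273581539) (nat_lit 114) (nat_lit 5) (nat_lit 119) (nat_lit 5) (nat_lit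 115) (nat_lit 5) (nat_lit 453) (nat_lit 394) (nat_lit 173))) (XT.nd (nat_lit 78) (nat_lit 228) (nat_lit 0) (XT.lf (nat_lit 0) (nat_lit 32948664489) (nat_lit 380) (nat_lit 1866357203) (nat_lit 76) (nat_lit 20961836621) (nat_lit 114) (nat_lit 5) (nat_lit 119) (nat_lit 5) (nat_lit 115) (nat_lit 5) (nat_lit 454) (nat_lit 394) (nat_lit 172)) (XT.lf (nat_lit 0) (nat_lit 30489273259) (nat_lit 228) (nat_lit 15314127697) (nat_lit 304) (nat_lit 11043659377) (nat_lit 111) (nat_lit 5) (nat_lit 114) (nat_lit 5) (nat_lit 115) (nat_lit 5) (nat_lit 455) (nat_lit 394) (nat_lit 171)))) (XT.nd (nat_lit 156) (nat_lit 228) (nat_lit 0) (XT.nd (nat_lit 78) (nat_lit 0) (nat_lit 0) (XT.lf (nat_lit 0) (nat_lit 1194905813) (nat_lit 304) (nat_lit 51984569332) (nat_lit 76) (nat_lit 4765922420) (nat_lit 107) (nat_lit 5) (nat_lit 111) (nat_lit 5) (nat_lit 108) (nat_lit 5) (nat_lit 456) (nat_lit 394) (nat_lit 170)) (XT.lf (nat_lit 0) (nat_lit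 13997429086) (nat_lit 304) (nat_lit 19545630479) (nat_lit 76) (nat_lit 25517782289) (nat_lit 107) (nat_lit 5) (nat_lit 111) (nat_lit 5) (nat_lit 108) (nat_lit 5) (nat_lit 457) (nat_lit 394) (nat_lit 169))) (XT.nd (nat_lit 78) (nat_lit 0) (nat_lit 0) (XT.lf (nat_lit 0) (nat_lit 14139834705) (nat_lit 228) (nat_lit 13178507765) (nat_lit 304) (nat_lit 32887377827) (nat_lit 104) (nat_lit 5) (nat_lit 107) (nat_lit 5) (nat_lit 108) (nat_lit 5) (nat_lit 458) (nat_lit 394) (nat_lit 168)) (XT.lf (nat_lit 0) (nat_lit 41311566263) (nat_lit 304) (nat_lit 12221971788) (nat_lit 76) (nat_lit 7843226803) (nat_lit 104) (nat_lit 5) (nat_lit 108) (nat_lit 5) (nat_lit 105) (nat_lit 5) (nat_lit 459) (nat_lit 394) (nat_lit 167))))))) (XT.nd (nat_lit 1092) (nat_lit 760) (nat_lit 0) (XT.nd (nat_lit 546) (nat_lit 836) (nat_lit 0) (XT.nd (nat_lit 234) (nat_lit 456) (nat_lit 0) (XT.nd (nat_lit 78) (nat_lit 304) (nat_lit 0) (XT.lf (nat_lit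 0) (nat_lit 22952158982) (nat_lit 228) (nat_lit 33121991588) (nat_lit 304) (nat_lit 6498303509) (nat_lit 101) (nat_lit 5) (nat_lit 104) (nat_lit 5) (nat_lit 105) (nat_lit 5) (nat_lit 460) (nat_lit 394) (nat_lit 166)) (XT.nd (nat_lit 78) (nat_lit 228) (nat_lit 0) (XT.lf (nat_lit 0) (nat_lit 7452821740) (nat_lit 304) (nat_lit 4443847164) (nat_lit 76) (nat_lit 51901496529) (nat_lit 100) (nat_lit 5) (nat_lit 104) (nat_lit 5) (nat_lit 101) (nat_lit 5) (nat_lit 461) (nat_lit 394) (nat_lit 165)) (XT.lf (nat_lit 0) (nat_lit 22100867594) (nat_lit 304) (nat_lit 32796499869) (nat_lit 76) (nat_lit 10149080810) (nat_lit 97) (nat_lit 5) (nat_lit 101) (nat_lit 5) (nat_lit 98) (nat_lit 5) (nat_lit 462) (nat_lit 394) (nat_lit 164)))) (XT.nd (nat_lit 156) (nat_lit 228) (nat_lit 0) (XT.nd (nat_lit 78) (nat_lit 0) (nat_lit 0) (XT.lf (nat_lit 0) (nat_lit 3757462991) (nat_lit 228) (nat_lit 33628633677) (nat_lit 304) (nat_lit 28940150891)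 (nat_lit 94) (nat_lit 5) (nat_lit 97) (nat_lit 5) (nat_lit 98) (nat_lit 5) (nat_lit 463) (nat_lit 394) (nat_lit 163)) (XT.lf (nat_lit 0) (nat_lit 42077920276) (nat_lit 228) (nat_lit 11381678218) (nat_lit 304) (nat_lit 14174951064) (nat_lit 94) (nat_lit 5) (nat_lit 97) (nat_lit 5) (nat_lit 98) (nat_lit 5) (nat_lit 464) (nat_lit 394) (nat_lit 162))) (XT.nd (nat_lit 78) (nat_lit 0) (nat_lit 0) (XT.lf (nat_lit 0) (nat_lit 1246848501) (nat_lit 228) (nat_lit 56286899887) (nat_lit 76) (nat_lit 11441040314) (nat_lit 91) (nat_lit 5) (nat_lit 94) (nat_lit 5) (nat_lit 92) (nat_lit 5) (nat_lit 465) (nat_lit 394) (nat_lit 161)) (XT.lf (nat_lit 0) (nat_lit 17218290544) (nat_lit 228) (nat_lit 18001844852) (nat_lit 76) (nat_lit 35119732706) (nat_lit 91) (nat_lit 5) (nat_lit 94) (nat_lit 5) (nat_lit 92) (nat_lit 5) (nat_lit 466) (nat_lit 394) (nat_lit 160))))) (XT.nd (nat_lit 234) (nat_lit 456) (nat_lit 0) (XT.nd (nat_lit 78) (nat_lit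 152) (nat_lit 0) (XT.lf (nat_lit 0) (nat_lit 21855930151) (nat_lit 228) (nat_lit 12021653877) (nat_lit 304) (nat_lit 37862054799) (nat_lit 88) (nat_lit 5) (nat_lit 91) (nat_lit 5) (nat_lit 92) (nat_lit 5) (nat_lit 467) (nat_lit 394) (nat_lit 159)) (XT.nd (nat_lit 78) (nat_lit 152) (nat_lit 0) (XT.lf (nat_lit 0) (nat_lit 51332992837) (nat_lit 304) (nat_lit 10015747955) (nat_lit 76) (nat_lit 11823771966) (nat_lit 88) (nat_lit 5) (nat_lit 92) (nat_lit 5) (nat_lit 89) (nat_lit 5) (nat_lit 468) (nat_lit 394) (nat_lit 158)) (XT.lf (nat_lit 0) (nat_lit 31542471296) (nat_lit 152) (nat_lit 38190489376) (nat_lit 228) (nat_lit 4902785509) (nat_lit 86) (nat_lit 5) (nat_lit 88) (nat_lit 5) (nat_lit 89) (nat_lit 5) (nat_lit 469) (nat_lit 394) (nat_lit 157)))) (XT.nd (nat_lit 156) (nat_lit 152) (nat_lit 0) (XT.nd (nat_lit 78) (nat_lit 228) (nat_lit 0) (XT.lf (nat_lit 0) (nat_lit 12398120248) (nat_lit 228) (nat_lit 1710921257)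 (nat_lit 76) (nat_lit 62027194114) (nat_lit 85) (nat_lit 5) (nat_lit 88) (nat_lit 5) (nat_lit 86) (nat_lit 5) (nat_lit 470) (nat_lit 394) (nat_lit 156)) (XT.lf (nat_lit 0) (nat_lit 30626073094) (nat_lit 304) (nat_lit 36100149935) (nat_lit 76) (nat_lit 10938863768) (nat_lit 82) (nat_lit 5) (nat_lit 86) (nat_lit 5) (nat_lit 83) (nat_lit 5) (nat_lit 471) (nat_lit 394) (nat_lit 155))) (XT.nd (nat_lit 78) (nat_lit 0) (nat_lit 0) (XT.lf (nat_lit 0) (nat_lit 6927975028) (nat_lit 152) (nat_lit 42695342807) (nat_lit 228) (nat_lit 29609812232) (nat_lit 80) (nat_lit 5) (nat_lit 82) (nat_lit 5) (nat_lit 83) (nat_lit 5) (nat_lit 472) (nat_lit 394) (nat_lit 154)) (XT.lf (nat_lit 0) (nat_lit 51984775159) (nat_lit 152) (nat_lit 17568977763) (nat_lit 228) (nat_lit 11283563676) (nat_lit 80) (nat_lit 5) (nat_lit 82) (nat_lit 5) (nat_lit 83) (nat_lit 5) (nat_lit 473) (nat_lit 394) (nat_lit 153)))))) (XT.nd (nat_lit 47190) (nat_lit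 0) (nat_lit 14288) (XT.nd (nat_lit 468) (nat_lit 380) (nat_lit 0) (XT.nd (nat_lit 78) (nat_lit 152) (nat_lit 0) (XT.lf (nat_lit 0) (nat_lit 7680396782) (nat_lit 228) (nat_lit 66421425520) (nat_lit 76) (nat_lit 8378534632) (nat_lit 77) (nat_lit 5) (nat_lit 80) (nat_lit 5) (nat_lit 78) (nat_lit 5) (nat_lit 474) (nat_lit 394) (nat_lit 152)) (XT.nd (nat_lit 78) (nat_lit 152) (nat_lit 0) (XT.lf (nat_lit 0) (nat_lit 27453440652) (nat_lit 228) (nat_lit 21545458746) (nat_lit 76) (nat_lit 35156429078) (nat_lit 77) (nat_lit 5) (nat_lit 80) (nat_lit 5) (nat_lit 78) (nat_lit 5) (nat_lit 475) (nat_lit 394) (nat_lit 151)) (XT.lf (nat_lit 0) (nat_lit 25165769869) (nat_lit 152) (nat_lit 22894614735) (nat_lit 228) (nat_lit 37812943431) (nat_lit 75) (nat_lit 5) (nat_lit 77) (nat_lit 5) (nat_lit 78) (nat_lit 5) (nat_lit 476) (nat_lit 394) (nat_lit 150)))) (XT.nd (nat_lit 46566) (nat_lit 0) (nat_lit 14212) (XT.nd (nat_lit 46488) (nat_lit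 0) (nat_lit 14212) (XT.lf (nat_lit 0) (nat_lit 44054478006) (nat_lit 152) (nat_lit 2214944022) (nat_lit 228) (nat_lit 46888299108) (nat_lit 70) (nat_lit 5) (nat_lit 72) (nat_lit 5) (nat_lit 73) (nat_lit 5) (nat_lit 480) (nat_lit 394) (nat_lit 146)) (XT.lf (nat_lit 0) (nat_lit 1568247559) (nat_lit 1292) (nat_lit 4409735141) (nat_lit 1292) (nat_lit 4409735141) (nat_lit 257) (nat_lit 3) (nat_lit 274) (nat_lit 3) (nat_lit 274) (nat_lit 5) (nat_lit 395) (nat_lit 395) (nat_lit 230))) (XT.nd (nat_lit 78) (nat_lit 0) (nat_lit 76) (XT.lf (nat_lit 76) (nat_lit 1302794121) (nat_lit 0) (nat_lit 2044480021) (nat_lit 1292) (nat_lit 17734831677) (nat_lit 258) (nat_lit 5) (nat_lit 257) (nat_lit 3) (nat_lit 274) (nat_lit 5) (nat_lit 396) (nat_lit 395) (nat_lit 229)) (XT.lf (nat_lit 0) (nat_lit 3726894560) (nat_lit 1216) (nat_lit 9568457503) (nat_lit 1292) (nat_lit 8097750385) (nat_lit 258) (nat_lit 5) (nat_lit 274) (nat_lit 5)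 (nat_lit 275) (nat_lit 5) (nat_lit 397) (nat_lit 395) (nat_lit 228))))) (XT.nd (nat_lit 312) (nat_lit 0) (nat_lit 152) (XT.nd (nat_lit 156) (nat_lit 0) (nat_lit 76) (XT.nd (nat_lit 78) (nat_lit 0) (nat_lit 76) (XT.lf (nat_lit 76) (nat_lit 943683265) (nat_lit 0) (nat_lit 3197802082) (nat_lit 1292) (nat_lit 17571238048) (nat_lit 259) (nat_lit 5) (nat_lit 258) (nat_lit 5) (nat_lit 275) (nat_lit 5) (nat_lit 398) (nat_lit 395) (nat_lit 227)) (XT.lf (nat_lit 0) (nat_lit 4729757413) (nat_lit 1216) (nat_lit 10145267966) (nat_lit 1292) (nat_lit 7162072104) (nat_lit 259) (nat_lit 5) (nat_lit 275) (nat_lit 5) (nat_lit 276) (nat_lit 5) (nat_lit 399) (nat_lit 395) (nat_lit 226))) (XT.nd (nat_lit 78) (nat_lit 0) (nat_lit 76) (XT.lf (nat_lit 76) (nat_lit 777452329) (nat_lit 0) (nat_lit 4591950088) (nat_lit 1292) (nat_lit 17000790402) (nat_lit 260) (nat_lit 5) (nat_lit 259) (nat_lit 5) (nat_lit 276) (nat_lit 5) (nat_lit 400) (nat_lit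 395) (nat_lit 225)) (XT.lf (nat_lit 0) (nat_lit 6184106454) (nat_lit 1216) (nat_lit 10536493898) (nat_lit 1292) (nat_lit 5988006285) (nat_lit 260) (nat_lit 5) (nat_lit 276) (nat_lit 5) (nat_lit 277) (nat_lit 5) (nat_lit 401) (nat_lit 395) (nat_lit 224)))) (XT.nd (nat_lit 156) (nat_lit 0) (nat_lit 76) (XT.nd (nat_lit 78) (nat_lit 0) (nat_lit 76) (XT.lf (nat_lit 76) (nat_lit 818627017) (nat_lit 0) (nat_lit 6252847956) (nat_lit 1292) (nat_lit 15984252861) (nat_lit 261) (nat_lit 5) (nat_lit 260) (nat_lit 5) (nat_lit 277) (nat_lit 5) (nat_lit 402) (nat_lit 395) (nat_lit 223)) (XT.lf (nat_lit 0) (nat_lit 8131473803) (nat_lit 1216) (nat_lit 10727727535) (nat_lit 1292) (nat_lit 4549682668) (nat_lit 261) (nat_lit 5) (nat_lit 277) (nat_lit 5) (nat_lit 278) (nat_lit 5) (nat_lit 403) (nat_lit 395) (nat_lit 222))) (XT.nd (nat_lit 78) (nat_lit 0) (nat_lit 76) (XT.lf (nat_lit 76) (nat_lit 1082789595) (nat_lit 0) (nat_lit 8207968753)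 (nat_lit 1292) (nat_lit 14479853510) (nat_lit 262) (nat_lit 5) (nat_lit 261) (nat_lit 5) (nat_lit 278) (nat_lit 5) (nat_lit 404) (nat_lit 395) (nat_lit 221)) (XT.lf (nat_lit 0) (nat_lit 10616070906) (nat_lit 1216) (nat_lit 10703522685) (nat_lit 1292) (nat_lit 2819661997) (nat_lit 262) (nat_lit 5) (nat_lit 278) (nat_lit 5) (nat_lit 279) (nat_lit 5) (nat_lit 405) (nat_lit 395) (nat_lit 220))))))))
noncomputable def xc214 : XT := (XT.nd (nat_lit 2262) (nat_lit 5168) (nat_lit 0) (XT.nd (nat_lit 1092) (nat_lit 4408) (nat_lit 0) (XT.nd (nat_lit 546) (nat_lit 1976) (nat_lit 0) (XT.nd (nat_lit 234) (nat_lit 988) (nat_lit 0) (XT.nd (nat_lit 78) (nat_lit 0) (nat_lit 76) (XT.lf (nat_lit 76) (nat_lit 1586620072) (nat_lit 0) (nat_lit 10486468692) (nat_lit 1292) (nat_lit 12443112966) (nat_lit 263) (nat_lit 5) (nat_lit 262) (nat_lit 5) (nat_lit 279) (nat_lit 5) (nat_lit 406) (nat_lit 395) (nat_lit 219)) (XT.nd (nat_lit 78) (nat_lit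 0) (nat_lit 0) (XT.lf (nat_lit 0) (nat_lit 13684967383) (nat_lit 1216) (nat_lit 10447354074) (nat_lit 1292) (nat_lit 768801728) (nat_lit 263) (nat_lit 5) (nat_lit 279) (nat_lit 5) (nat_lit 280) (nat_lit 5) (nat_lit 407) (nat_lit 395) (nat_lit 218)) (XT.lf (nat_lit 76) (nat_lit 2347939669) (nat_lit 0) (nat_lit 13119328051) (nat_lit 1292) (nat_lit 9826663998) (nat_lit 264) (nat_lit 5) (nat_lit 263) (nat_lit 5) (nat_lit 280) (nat_lit 5) (nat_lit 408) (nat_lit 395) (nat_lit 217)))) (XT.nd (nat_lit 156) (nat_lit 1064) (nat_lit 0) (XT.nd (nat_lit 78) (nat_lit 0) (nat_lit 76) (XT.lf (nat_lit 76) (nat_lit 15737894983) (nat_lit 0) (nat_lit 1666402848) (nat_lit 1292) (nat_lit 8291190207) (nat_lit 264) (nat_lit 5) (nat_lit 263) (nat_lit 5) (nat_lit 280) (nat_lit 5) (nat_lit 409) (nat_lit 395) (nat_lit 216)) (XT.lf (nat_lit 76) (nat_lit 3385756508) (nat_lit 0) (nat_lit 16139499700) (nat_lit 1292) (nat_lit 6580061631) (nat_lit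 265) (nat_lit 5) (nat_lit 264) (nat_lit 5) (nat_lit 281) (nat_lit 5) (nat_lit 410) (nat_lit 395) (nat_lit 215))) (XT.nd (nat_lit 78) (nat_lit 1140) (nat_lit 0) (XT.lf (nat_lit 76) (nat_lit 17313340428) (nat_lit 0) (nat_lit 4509374224) (nat_lit 1292) (nat_lit 4701343021) (nat_lit 265) (nat_lit 5) (nat_lit 264) (nat_lit 5) (nat_lit 281) (nat_lit 5) (nat_lit 411) (nat_lit 395) (nat_lit 214)) (XT.lf (nat_lit 0) (nat_lit 4720313395) (nat_lit 1216) (nat_lit 19582065932) (nat_lit 1292) (nat_lit 2649583138) (nat_lit 249) (nat_lit 5) (nat_lit 265) (nat_lit 5) (nat_lit 266) (nat_lit 5) (nat_lit 412) (nat_lit 395) (nat_lit 213))))) (XT.nd (nat_lit 234) (nat_lit 1216) (nat_lit 0) (XT.nd (nat_lit 78) (nat_lit 760) (nat_lit 0) (XT.lf (nat_lit 0) (nat_lit 19209196801) (nat_lit 1216) (nat_lit 7780643136) (nat_lit 1292) (nat_lit 398863488) (nat_lit 249) (nat_lit 5) (nat_lit 265) (nat_lit 5) (nat_lit 266) (nat_lit 5) (nat_lit 413)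 (nat_lit 395) (nat_lit 212)) (XT.nd (nat_lit 78) (nat_lit 0) (nat_lit 0) (XT.lf (nat_lit 0) (nat_lit 1982526551) (nat_lit 760) (nat_lit 21481858171) (nat_lit 76) (nat_lit 4370591434) (nat_lit 239) (nat_lit 5) (nat_lit 249) (nat_lit 5) (nat_lit 240) (nat_lit 5) (nat_lit 414) (nat_lit 395) (nat_lit 211)) (XT.lf (nat_lit 0) (nat_lit 4584132655) (nat_lit 760) (nat_lit 6887981723) (nat_lit 76) (nat_lit 16817701583) (nat_lit 239) (nat_lit 5) (nat_lit 249) (nat_lit 5) (nat_lit 240) (nat_lit 5) (nat_lit 415) (nat_lit 395) (nat_lit 210)))) (XT.nd (nat_lit 156) (nat_lit 608) (nat_lit 0) (XT.nd (nat_lit 78) (nat_lit 0) (nat_lit 0) (XT.lf (nat_lit 0) (nat_lit 7349292489) (nat_lit 684) (nat_lit 20462857705) (nat_lit 76) (nat_lit 943586669) (nat_lit 231) (nat_lit 5) (nat_lit 240) (nat_lit 5) (nat_lit 232) (nat_lit 5) (nat_lit 416) (nat_lit 395) (nat_lit 209)) (XT.lf (nat_lit 0) (nat_lit 10377756937) (nat_lit 684) (nat_lit 5280848225)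 (nat_lit 76) (nat_lit 13571620774) (nat_lit 231) (nat_lit 5) (nat_lit 240) (nat_lit 5) (nat_lit 232) (nat_lit 5) (nat_lit 417) (nat_lit 395) (nat_lit 208))) (XT.nd (nat_lit 78) (nat_lit 0) (nat_lit 0) (XT.lf (nat_lit 0) (nat_lit 10559383560) (nat_lit 608) (nat_lit 3035817102) (nat_lit 684) (nat_lit 16120806265) (nat_lit 223) (nat_lit 5) (nat_lit 231) (nat_lit 5) (nat_lit 232) (nat_lit 5) (nat_lit 418) (nat_lit 395) (nat_lit 207)) (XT.lf (nat_lit 0) (nat_lit 17055507543) (nat_lit 684) (nat_lit 3331369152) (nat_lit 76) (nat_lit 9825095436) (nat_lit 223) (nat_lit 5) (nat_lit 232) (nat_lit 5) (nat_lit 224) (nat_lit 5) (nat_lit 419) (nat_lit 395) (nat_lit 206)))))) (XT.nd (nat_lit 546) (nat_lit 2280) (nat_lit 0) (XT.nd (nat_lit 234) (nat_lit 1064) (nat_lit 0) (XT.nd (nat_lit 78) (nat_lit 532) (nat_lit 0) (XT.lf (nat_lit 0) (nat_lit 13192763081) (nat_lit 532) (nat_lit 7580521150) (nat_lit 608) (nat_lit 9944923192) (nat_lit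 216) (nat_lit 5) (nat_lit 223) (nat_lit 5) (nat_lit 224) (nat_lit 5) (nat_lit 420) (nat_lit 395) (nat_lit 205)) (XT.nd (nat_lit 78) (nat_lit 532) (nat_lit 0) (XT.lf (nat_lit 0) (nat_lit 24687342512) (nat_lit 608) (nat_lit 1015294644) (nat_lit 76) (nat_lit 5534451090) (nat_lit 216) (nat_lit 5) (nat_lit 224) (nat_lit 5) (nat_lit 217) (nat_lit 5) (nat_lit 421) (nat_lit 395) (nat_lit 204)) (XT.lf (nat_lit 0) (nat_lit 16228556156) (nat_lit 532) (nat_lit 12718259599) (nat_lit 608) (nat_lit 2817880837) (nat_lit 209) (nat_lit 5) (nat_lit 216) (nat_lit 5) (nat_lit 217) (nat_lit 5) (nat_lit 422) (nat_lit 395) (nat_lit 203)))) (XT.nd (nat_lit 156) (nat_lit 532) (nat_lit 0) (XT.nd (nat_lit 78) (nat_lit 0) (nat_lit 0) (XT.lf (nat_lit 0) (nat_lit 1036469943) (nat_lit 532) (nat_lit 30590671895) (nat_lit 76) (nat_lit 679779843) (nat_lit 202) (nat_lit 5) (nat_lit 209) (nat_lit 5) (nat_lit 203) (nat_lit 5) (nat_lit 423) (nat_lit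 395) (nat_lit 202)) (XT.lf (nat_lit 0) (nat_lit 5231198394) (nat_lit 532) (nat_lit 13214707738) (nat_lit 76) (nat_lit 14410229704) (nat_lit 202) (nat_lit 5) (nat_lit 209) (nat_lit 5) (nat_lit 203) (nat_lit 5) (nat_lit 424) (nat_lit 395) (nat_lit 201))) (XT.nd (nat_lit 78) (nat_lit 0) (nat_lit 0) (XT.lf (nat_lit 0) (nat_lit 4772447815) (nat_lit 532) (nat_lit 4822305824) (nat_lit 608) (nat_lit 23825784023) (nat_lit 195) (nat_lit 5) (nat_lit 202) (nat_lit 5) (nat_lit 203) (nat_lit 5) (nat_lit 425) (nat_lit 395) (nat_lit 200)) (XT.lf (nat_lit 0) (nat_lit 14309671086) (nat_lit 608) (nat_lit 10520881277) (nat_lit 76) (nat_lit 9164706284) (nat_lit 195) (nat_lit 5) (nat_lit 203) (nat_lit 5) (nat_lit 196) (nat_lit 5) (nat_lit 426) (nat_lit 395) (nat_lit 199))))) (XT.nd (nat_lit 312) (nat_lit 1368) (nat_lit 0) (XT.nd (nat_lit 156) (nat_lit 456) (nat_lit 0) (XT.nd (nat_lit 78) (nat_lit 0) (nat_lit 0) (XT.lf (nat_lit 0) (nat_lit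 8260417365) (nat_lit 456) (nat_lit 11030010727) (nat_lit 532) (nat_lit 15293062160) (nat_lit 189) (nat_lit 5) (nat_lit 195) (nat_lit 5) (nat_lit 196) (nat_lit 5) (nat_lit 427) (nat_lit 395) (nat_lit 198)) (XT.lf (nat_lit 0) (nat_lit 24555800010) (nat_lit 532) (nat_lit 7400240365) (nat_lit 76) (nat_lit 3229273390) (nat_lit 189) (nat_lit 5) (nat_lit 196) (nat_lit 5) (nat_lit 190) (nat_lit 5) (nat_lit 428) (nat_lit 395) (nat_lit 197))) (XT.nd (nat_lit 78) (nat_lit 0) (nat_lit 0) (XT.lf (nat_lit 0) (nat_lit 12216329631) (nat_lit 456) (nat_lit 17986809530) (nat_lit 532) (nat_lit 5595333348) (nat_lit 183) (nat_lit 5) (nat_lit 189) (nat_lit 5) (nat_lit 190) (nat_lit 5) (nat_lit 429) (nat_lit 395) (nat_lit 196)) (XT.lf (nat_lit 0) (nat_lit 32570000963) (nat_lit 456) (nat_lit 3522039603) (nat_lit 532) (nat_lit 335821873) (nat_lit 183) (nat_lit 5) (nat_lit 189) (nat_lit 5) (nat_lit 190) (nat_lit 5) (nat_lit 430) (nat_lit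 395) (nat_lit 195)))) (XT.nd (nat_lit 156) (nat_lit 380) (nat_lit 0) (XT.nd (nat_lit 78) (nat_lit 456) (nat_lit 0) (XT.lf (nat_lit 0) (nat_lit 5252057318) (nat_lit 532) (nat_lit 20448586595) (nat_lit 76) (nat_lit 11365933205) (nat_lit 176) (nat_lit 5) (nat_lit 183) (nat_lit 5) (nat_lit 177) (nat_lit 5) (nat_lit 431) (nat_lit 395) (nat_lit 194)) (XT.lf (nat_lit 0) (nat_lit 22681416) (nat_lit 456) (nat_lit 11050077670) (nat_lit 532) (nat_lit 26649436953) (nat_lit 170) (nat_lit 5) (nat_lit 176) (nat_lit 5) (nat_lit 177) (nat_lit 5) (nat_lit 432) (nat_lit 395) (nat_lit 193))) (XT.nd (nat_lit 78) (nat_lit 380) (nat_lit 0) (XT.lf (nat_lit 0) (nat_lit 17312993013) (nat_lit 532) (nat_lit 16908037565) (nat_lit 76) (nat_lit 4169106225) (nat_lit 170) (nat_lit 5) (nat_lit 177) (nat_lit 5) (nat_lit 171) (nat_lit 5) (nat_lit 433) (nat_lit 395) (nat_lit 192)) (XT.lf (nat_lit 0) (nat_lit 4482199458) (nat_lit 380) (nat_lit 19408339484)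 (nat_lit 456) (nat_lit 15183074292) (nat_lit 165) (nat_lit 5) (nat_lit 170) (nat_lit 5) (nat_lit 171) (nat_lit 5) (nat_lit 434) (nat_lit 395) (nat_lit 191))))))) (XT.nd (nat_lit 1092) (nat_lit 2508) (nat_lit 0) (XT.nd (nat_lit 546) (nat_lit 1140) (nat_lit 0) (XT.nd (nat_lit 234) (nat_lit 1064) (nat_lit 0) (XT.nd (nat_lit 78) (nat_lit 456) (nat_lit 0) (XT.lf (nat_lit 0) (nat_lit 26857730114) (nat_lit 380) (nat_lit 3976072376) (nat_lit 456) (nat_lit 8938740303) (nat_lit 165) (nat_lit 5) (nat_lit 170) (nat_lit 5) (nat_lit 171) (nat_lit 5) (nat_lit 435) (nat_lit 395) (nat_lit 190)) (XT.nd (nat_lit 78) (nat_lit 76) (nat_lit 0) (XT.lf (nat_lit 0) (nat_lit 9479504787) (nat_lit 380) (nat_lit 28709271605) (nat_lit 456) (nat_lit 2297562033) (nat_lit 160) (nat_lit 5) (nat_lit 165) (nat_lit 5) (nat_lit 166) (nat_lit 5) (nat_lit 436) (nat_lit 395) (nat_lit 189)) (XT.lf (nat_lit 0) (nat_lit 4623007462) (nat_lit 456) (nat_lit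 8494572739) (nat_lit 76) (nat_lit 28097594092) (nat_lit 159) (nat_lit 5) (nat_lit 165) (nat_lit 5) (nat_lit 160) (nat_lit 5) (nat_lit 437) (nat_lit 395) (nat_lit 188)))) (XT.nd (nat_lit 156) (nat_lit 684) (nat_lit 0) (XT.nd (nat_lit 78) (nat_lit 0) (nat_lit 0) (XT.lf (nat_lit 0) (nat_lit 11876531183) (nat_lit 456) (nat_lit 27031564447) (nat_lit 76) (nat_lit 3051952197) (nat_lit 154) (nat_lit 5) (nat_lit 160) (nat_lit 5) (nat_lit 155) (nat_lit 5) (nat_lit 438) (nat_lit 395) (nat_lit 187)) (XT.lf (nat_lit 0) (nat_lit 19561991766) (nat_lit 456) (nat_lit 3630004528) (nat_lit 76) (nat_lit 19528841834) (nat_lit 154) (nat_lit 5) (nat_lit 160) (nat_lit 5) (nat_lit 155) (nat_lit 5) (nat_lit 439) (nat_lit 395) (nat_lit 186))) (XT.nd (nat_lit 78) (nat_lit 304) (nat_lit 0) (XT.lf (nat_lit 0) (nat_lit 20878150303) (nat_lit 380) (nat_lit 6798449024) (nat_lit 456) (nat_lit 15821895797) (nat_lit 149) (nat_lit 5) (nat_lit 154)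 (nat_lit 5) (nat_lit 155) (nat_lit 5) (nat_lit 440) (nat_lit 395) (nat_lit 185)) (XT.lf (nat_lit 0) (nat_lit 1833138621) (nat_lit 304) (nat_lit 34351024692) (nat_lit 380) (nat_lit 8110833439) (nat_lit 145) (nat_lit 5) (nat_lit 149) (nat_lit 5) (nat_lit 150) (nat_lit 5) (nat_lit 441) (nat_lit 395) (nat_lit 184))))) (XT.nd (nat_lit 234) (nat_lit 684) (nat_lit 0) (XT.nd (nat_lit 78) (nat_lit 380) (nat_lit 0) (XT.lf (nat_lit 0) (nat_lit 130770795) (nat_lit 380) (nat_lit 17695473762) (nat_lit 76) (nat_lit 27280320190) (nat_lit 144) (nat_lit 5) (nat_lit 149) (nat_lit 5) (nat_lit 145) (nat_lit 5) (nat_lit 442) (nat_lit 395) (nat_lit 183)) (XT.nd (nat_lit 78) (nat_lit 0) (nat_lit 0) (XT.lf (nat_lit 0) (nat_lit 7884638436) (nat_lit 380) (nat_lit 645746333) (nat_lit 456) (nat_lit 37407472844) (nat_lit 139) (nat_lit 5) (nat_lit 144) (nat_lit 5) (nat_lit 145) (nat_lit 5) (nat_lit 443) (nat_lit 395) (nat_lit 182)) (XT.lf (nat_lit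 0) (nat_lit 17524355931) (nat_lit 456) (nat_lit 12362341053) (nat_lit 76) (nat_lit 16897121631) (nat_lit 139) (nat_lit 5) (nat_lit 145) (nat_lit 5) (nat_lit 140) (nat_lit 5) (nat_lit 444) (nat_lit 395) (nat_lit 181)))) (XT.nd (nat_lit 156) (nat_lit 380) (nat_lit 0) (XT.nd (nat_lit 78) (nat_lit 0) (nat_lit 0) (XT.lf (nat_lit 0) (nat_lit 14370532974) (nat_lit 304) (nat_lit 12560216341) (nat_lit 380) (nat_lit 20720131444) (nat_lit 135) (nat_lit 5) (nat_lit 139) (nat_lit 5) (nat_lit 140) (nat_lit 5) (nat_lit 445) (nat_lit 395) (nat_lit 180)) (XT.lf (nat_lit 0) (nat_lit 36794311868) (nat_lit 380) (nat_lit 6436229528) (nat_lit 76) (nat_lit 5308164440) (nat_lit 135) (nat_lit 5) (nat_lit 140) (nat_lit 5) (nat_lit 136) (nat_lit 5) (nat_lit 446) (nat_lit 395) (nat_lit 179))) (XT.nd (nat_lit 78) (nat_lit 76) (nat_lit 0) (XT.lf (nat_lit 0) (nat_lit 21505810399) (nat_lit 304) (nat_lit 25777205159) (nat_lit 380) (nat_lit 2160273460)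 (nat_lit 131) (nat_lit 5) (nat_lit 135) (nat_lit 5) (nat_lit 136) (nat_lit 5) (nat_lit 447) (nat_lit 395) (nat_lit 178)) (XT.lf (nat_lit 0) (nat_lit 7624689339) (nat_lit 380) (nat_lit 32491553) (nat_lit 76) (nat_lit 42713691510) (nat_lit 130) (nat_lit 5) (nat_lit 135) (nat_lit 5) (nat_lit 131) (nat_lit 5) (nat_lit 448) (nat_lit 395) (nat_lit 177)))))) (XT.nd (nat_lit 546) (nat_lit 1292) (nat_lit 0) (XT.nd (nat_lit 234) (nat_lit 608) (nat_lit 0) (XT.nd (nat_lit 78) (nat_lit 304) (nat_lit 0) (XT.lf (nat_lit 0) (nat_lit 18048014235) (nat_lit 380) (nat_lit 22169521742) (nat_lit 76) (nat_lit 11096459015) (nat_lit 126) (nat_lit 5) (nat_lit 131) (nat_lit 5) (nat_lit 127) (nat_lit 5) (nat_lit 449) (nat_lit 395) (nat_lit 176)) (XT.nd (nat_lit 78) (nat_lit 0) (nat_lit 0) (XT.lf (nat_lit 0) (nat_lit 6969545643) (nat_lit 304) (nat_lit 21955864845) (nat_lit 380) (nat_lit 23355759963) (nat_lit 122) (nat_lit 5) (nat_lit 126)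 (nat_lit 5) (nat_lit 127) (nat_lit 5) (nat_lit 450) (nat_lit 395) (nat_lit 175)) (XT.lf (nat_lit 0) (nat_lit 37434614491) (nat_lit 304) (nat_lit 2916640188) (nat_lit 380) (nat_lit 12919443039) (nat_lit 122) (nat_lit 5) (nat_lit 126) (nat_lit 5) (nat_lit 127) (nat_lit 5) (nat_lit 451) (nat_lit 395) (nat_lit 174)))) (XT.nd (nat_lit 156) (nat_lit 304) (nat_lit 0) (XT.nd (nat_lit 78) (nat_lit 76) (nat_lit 0) (XT.lf (nat_lit 0) (nat_lit 14646468876) (nat_lit 228) (nat_lit 37772966666) (nat_lit 304) (nat_lit 1861488739) (nat_lit 119) (nat_lit 5) (nat_lit 122) (nat_lit 5) (nat_lit 123) (nat_lit 5) (nat_lit 452) (nat_lit 395) (nat_lit 173)) (XT.lf (nat_lit 0) (nat_lit 9530956776) (nat_lit 304) (nat_lit 9073189392) (nat_lit 76) (nat_lit 36708903580) (nat_lit 118) (nat_lit 5) (nat_lit 122) (nat_lit 5) (nat_lit 119) (nat_lit 5) (nat_lit 453) (nat_lit 395) (nat_lit 172))) (XT.nd (nat_lit 78) (nat_lit 0) (nat_lit 0) (XT.lf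 (nat_lit 0) (nat_lit 21458871976) (nat_lit 380) (nat_lit 33552909378) (nat_lit 76) (nat_lit 1356871686) (nat_lit 114) (nat_lit 5) (nat_lit 119) (nat_lit 5) (nat_lit 115) (nat_lit 5) (nat_lit 454) (nat_lit 395) (nat_lit 171)) (XT.lf (nat_lit 0) (nat_lit 34019725181) (nat_lit 380) (nat_lit 1793485185) (nat_lit 76) (nat_lit 21634461331) (nat_lit 114) (nat_lit 5) (nat_lit 119) (nat_lit 5) (nat_lit 115) (nat_lit 5) (nat_lit 455) (nat_lit 395) (nat_lit 170))))) (XT.nd (nat_lit 312) (nat_lit 532) (nat_lit 0) (XT.nd (nat_lit 156) (nat_lit 228) (nat_lit 0) (XT.nd (nat_lit 78) (nat_lit 304) (nat_lit 0) (XT.lf (nat_lit 0) (nat_lit 31531550829) (nat_lit 228) (nat_lit 15727373627) (nat_lit 304) (nat_lit 11291091118) (nat_lit 111) (nat_lit 5) (nat_lit 114) (nat_lit 5) (nat_lit 115) (nat_lit 5) (nat_lit 456) (nat_lit 395) (nat_lit 169)) (XT.lf (nat_lit 0) (nat_lit 1312280028) (nat_lit 304) (nat_lit 53414129394) (nat_lit 76) (nat_lit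 4954891135) (nat_lit 107) (nat_lit 5) (nat_lit 111) (nat_lit 5) (nat_lit 108) (nat_lit 5) (nat_lit 457) (nat_lit 395) (nat_lit 168))) (XT.nd (nat_lit 78) (nat_lit 228) (nat_lit 0) (XT.lf (nat_lit 0) (nat_lit 14496504424) (nat_lit 304) (nat_lit 20005808114) (nat_lit 76) (nat_lit 26327967254) (nat_lit 107) (nat_lit 5) (nat_lit 111) (nat_lit 5) (nat_lit 108) (nat_lit 5) (nat_lit 458) (nat_lit 395) (nat_lit 167)) (XT.lf (nat_lit 0) (nat_lit 14688983856) (nat_lit 228) (nat_lit 13526957077) (nat_lit 304) (nat_lit 33793597155) (nat_lit 104) (nat_lit 5) (nat_lit 107) (nat_lit 5) (nat_lit 108) (nat_lit 5) (nat_lit 459) (nat_lit 395) (nat_lit 166)))) (XT.nd (nat_lit 156) (nat_lit 304) (nat_lit 0) (XT.nd (nat_lit 78) (nat_lit 228) (nat_lit 0) (XT.lf (nat_lit 0) (nat_lit 42627125948) (nat_lit 304) (nat_lit 12465468768) (nat_lit 76) (nat_lit 8123174692) (nat_lit 104) (nat_lit 5) (nat_lit 108) (nat_lit 5) (nat_lit 105) (nat_lit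 5) (nat_lit 460) (nat_lit 395) (nat_lit 165)) (XT.lf (nat_lit 0) (nat_lit 23762678453) (nat_lit 228) (nat_lit 34068861847) (nat_lit 304) (nat_lit 6615820784) (nat_lit 101) (nat_lit 5) (nat_lit 104) (nat_lit 5) (nat_lit 105) (nat_lit 5) (nat_lit 461) (nat_lit 395) (nat_lit 164))) (XT.nd (nat_lit 78) (nat_lit 228) (nat_lit 0) (XT.lf (nat_lit 0) (nat_lit 7750115962) (nat_lit 304) (nat_lit 4457281999) (nat_lit 76) (nat_lit 53502490156) (nat_lit 100) (nat_lit 5) (nat_lit 104) (nat_lit 5) (nat_lit 101) (nat_lit 5) (nat_lit 462) (nat_lit 395) (nat_lit 163)) (XT.lf (nat_lit 0) (nat_lit 22837039574) (nat_lit 304) (nat_lit 33659939996) (nat_lit 76) (nat_lit 10498657102) (nat_lit 97) (nat_lit 5) (nat_lit 101) (nat_lit 5) (nat_lit 98) (nat_lit 5) (nat_lit 463) (nat_lit 395) (nat_lit 162))))))))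
noncomputable def xc215 : XT := (XT.nd (nat_lit 49062) (nat_lit 0) (nat_lit 5852) (XT.nd (nat_lit 47892) (nat_lit 0) (nat_lit 13680) (XT.nd (nat_lit 546) (nat_lit 684) (nat_lit 0) (XT.nd (nat_lit 234) (nat_lit 380) (nat_lit 0) (XT.nd (nat_lit 78) (nat_lit 228) (nat_lit 0) (XT.lf (nat_lit 0) (nat_lit 3989460820) (nat_lit 228) (nat_lit 34590380769) (nat_lit 304) (nat_lit 29734018175) (nat_lit 94) (nat_lit 5) (nat_lit 97) (nat_lit 5) (nat_lit 98) (nat_lit 5) (nat_lit 464) (nat_lit 395) (nat_lit 161)) (XT.nd (nat_lit 78) (nat_lit 228) (nat_lit 0) (XT.lf (nat_lit 0) (nat_lit 43456057826) (nat_lit 228) (nat_lit 11677388838) (nat_lit 304) (nat_lit 14528027516) (nat_lit 94) (nat_lit 5) (nat_lit 97) (nat_lit 5) (nat_lit 98) (nat_lit 5) (nat_lit 465) (nat_lit 395) (nat_lit 160)) (XT.lf (nat_lit 0) (nat_lit 1354516932) (nat_lit 228) (nat_lit 57857778590) (nat_lit 76) (nat_lit 11829619471) (nat_lit 91) (nat_lit 5) (nat_lit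 94) (nat_lit 5) (nat_lit 92) (nat_lit 5) (nat_lit 466) (nat_lit 395) (nat_lit 159)))) (XT.nd (nat_lit 156) (nat_lit 152) (nat_lit 0) (XT.nd (nat_lit 78) (nat_lit 228) (nat_lit 0) (XT.lf (nat_lit 0) (nat_lit 17803055742) (nat_lit 228) (nat_lit 18427600884) (nat_lit 76) (nat_lit 36217351820) (nat_lit 91) (nat_lit 5) (nat_lit 94) (nat_lit 5) (nat_lit 92) (nat_lit 5) (nat_lit 467) (nat_lit 395) (nat_lit 158)) (XT.lf (nat_lit 0) (nat_lit 22624786788) (nat_lit 228) (nat_lit 12336442297) (nat_lit 304) (nat_lit 38928570443) (nat_lit 88) (nat_lit 5) (nat_lit 91) (nat_lit 5) (nat_lit 92) (nat_lit 5) (nat_lit 468) (nat_lit 395) (nat_lit 157))) (XT.nd (nat_lit 78) (nat_lit 152) (nat_lit 0) (XT.lf (nat_lit 0) (nat_lit 52938767459) (nat_lit 304) (nat_lit 10204796752) (nat_lit 76) (nat_lit 12222141707) (nat_lit 88) (nat_lit 5) (nat_lit 92) (nat_lit 5) (nat_lit 89) (nat_lit 5) (nat_lit 469) (nat_lit 395) (nat_lit 156)) (XT.lf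 (nat_lit 0) (nat_lit 32599076687) (nat_lit 152) (nat_lit 39290802150) (nat_lit 228) (nat_lit 4982983424) (nat_lit 86) (nat_lit 5) (nat_lit 88) (nat_lit 5) (nat_lit 89) (nat_lit 5) (nat_lit 470) (nat_lit 395) (nat_lit 155))))) (XT.nd (nat_lit 234) (nat_lit 228) (nat_lit 0) (XT.nd (nat_lit 78) (nat_lit 380) (nat_lit 0) (XT.lf (nat_lit 0) (nat_lit 12833734215) (nat_lit 228) (nat_lit 1653856068) (nat_lit 76) (nat_lit 63930814353) (nat_lit 85) (nat_lit 5) (nat_lit 88) (nat_lit 5) (nat_lit 86) (nat_lit 5) (nat_lit 471) (nat_lit 395) (nat_lit 154)) (XT.nd (nat_lit 78) (nat_lit 152) (nat_lit 0) (XT.lf (nat_lit 0) (nat_lit 31608130486) (nat_lit 304) (nat_lit 37074358737) (nat_lit 76) (nat_lit 11310644212) (nat_lit 82) (nat_lit 5) (nat_lit 86) (nat_lit 5) (nat_lit 83) (nat_lit 5) (nat_lit 472) (nat_lit 395) (nat_lit 153)) (XT.lf (nat_lit 0) (nat_lit 7243543350) (nat_lit 152) (nat_lit 43930941810) (nat_lit 228) (nat_lit 30433757290)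 (nat_lit 80) (nat_lit 5) (nat_lit 82) (nat_lit 5) (nat_lit 83) (nat_lit 5) (nat_lit 473) (nat_lit 395) (nat_lit 152)))) (XT.nd (nat_lit 156) (nat_lit 0) (nat_lit 0) (XT.nd (nat_lit 78) (nat_lit 228) (nat_lit 0) (XT.lf (nat_lit 0) (nat_lit 53648909745) (nat_lit 152) (nat_lit 18052104105) (nat_lit 228) (nat_lit 11559595529) (nat_lit 80) (nat_lit 5) (nat_lit 82) (nat_lit 5) (nat_lit 83) (nat_lit 5) (nat_lit 474) (nat_lit 395) (nat_lit 151)) (XT.lf (nat_lit 0) (nat_lit 7971713535) (nat_lit 228) (nat_lit 68307892841) (nat_lit 76) (nat_lit 8673327272) (nat_lit 77) (nat_lit 5) (nat_lit 80) (nat_lit 5) (nat_lit 78) (nat_lit 5) (nat_lit 475) (nat_lit 395) (nat_lit 150))) (XT.nd (nat_lit 46878) (nat_lit 0) (nat_lit 13680) (XT.lf (nat_lit 0) (nat_lit 28336174793) (nat_lit 228) (nat_lit 22088739552) (nat_lit 76) (nat_lit 36253293407) (nat_lit 77) (nat_lit 5) (nat_lit 80) (nat_lit 5) (nat_lit 78) (nat_lit 5) (nat_lit 476) (nat_lit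 395) (nat_lit 149)) (XT.lf (nat_lit 0) (nat_lit 1765049822) (nat_lit 1292) (nat_lit 4464878966) (nat_lit 1292) (nat_lit 4464878966) (nat_lit 257) (nat_lit 3) (nat_lit 274) (nat_lit 3) (nat_lit 274) (nat_lit 5) (nat_lit 396) (nat_lit 396) (nat_lit 228)))))) (XT.nd (nat_lit 546) (nat_lit 0) (nat_lit 304) (XT.nd (nat_lit 234) (nat_lit 0) (nat_lit 152) (XT.nd (nat_lit 78) (nat_lit 0) (nat_lit 76) (XT.lf (nat_lit 76) (nat_lit 1494661693) (nat_lit 0) (nat_lit 2245285414) (nat_lit 1292) (nat_lit 17965759143) (nat_lit 258) (nat_lit 5) (nat_lit 257) (nat_lit 3) (nat_lit 274) (nat_lit 5) (nat_lit 397) (nat_lit 396) (nat_lit 227)) (XT.nd (nat_lit 78) (nat_lit 0) (nat_lit 0) (XT.lf (nat_lit 0) (nat_lit 4121142232) (nat_lit 1216) (nat_lit 9697271254) (nat_lit 1292) (nat_lit 8207916478) (nat_lit 258) (nat_lit 5) (nat_lit 274) (nat_lit 5) (nat_lit 275) (nat_lit 5) (nat_lit 398) (nat_lit 396) (nat_lit 226)) (XT.lf (nat_lit 76)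 (nat_lit 1128682365) (nat_lit 0) (nat_lit 3412768132) (nat_lit 1292) (nat_lit 17814293339) (nat_lit 259) (nat_lit 5) (nat_lit 258) (nat_lit 5) (nat_lit 275) (nat_lit 5) (nat_lit 399) (nat_lit 396) (nat_lit 225)))) (XT.nd (nat_lit 156) (nat_lit 0) (nat_lit 76) (XT.nd (nat_lit 78) (nat_lit 0) (nat_lit 0) (XT.lf (nat_lit 0) (nat_lit 5138229146) (nat_lit 1216) (nat_lit 10288272539) (nat_lit 1292) (nat_lit 7263624321) (nat_lit 259) (nat_lit 5) (nat_lit 275) (nat_lit 5) (nat_lit 276) (nat_lit 5) (nat_lit 400) (nat_lit 396) (nat_lit 224)) (XT.lf (nat_lit 76) (nat_lit 960547468) (nat_lit 0) (nat_lit 4830287416) (nat_lit 1292) (nat_lit 17242568710) (nat_lit 260) (nat_lit 5) (nat_lit 259) (nat_lit 5) (nat_lit 276) (nat_lit 5) (nat_lit 401) (nat_lit 396) (nat_lit 223))) (XT.nd (nat_lit 78) (nat_lit 0) (nat_lit 0) (XT.lf (nat_lit 0) (nat_lit 6621458356) (nat_lit 1216) (nat_lit 10688866963) (nat_lit 1292) (nat_lit 6071902619)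 (nat_lit 260) (nat_lit 5) (nat_lit 276) (nat_lit 5) (nat_lit 277) (nat_lit 5) (nat_lit 402) (nat_lit 396) (nat_lit 222)) (XT.lf (nat_lit 76) (nat_lit 1005302464) (nat_lit 0) (nat_lit 6524369015) (nat_lit 1292) (nat_lit 16210266976) (nat_lit 261) (nat_lit 5) (nat_lit 260) (nat_lit 5) (nat_lit 277) (nat_lit 5) (nat_lit 403) (nat_lit 396) (nat_lit 221))))) (XT.nd (nat_lit 312) (nat_lit 0) (nat_lit 152) (XT.nd (nat_lit 156) (nat_lit 0) (nat_lit 76) (XT.nd (nat_lit 78) (nat_lit 0) (nat_lit 0) (XT.lf (nat_lit 0) (nat_lit 8613520363) (nat_lit 1216) (nat_lit 10884137331) (nat_lit 1292) (nat_lit 4606272435) (nat_lit 261) (nat_lit 5) (nat_lit 277) (nat_lit 5) (nat_lit 278) (nat_lit 5) (nat_lit 404) (nat_lit 396) (nat_lit 220)) (XT.lf (nat_lit 76) (nat_lit 1279073529) (nat_lit 0) (nat_lit 8523149444) (nat_lit 1292) (nat_lit 14674449911) (nat_lit 262) (nat_lit 5) (nat_lit 261) (nat_lit 5) (nat_lit 278) (nat_lit 5) (nat_lit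 405) (nat_lit 396) (nat_lit 219))) (XT.nd (nat_lit 78) (nat_lit 0) (nat_lit 0) (XT.lf (nat_lit 0) (nat_lit 11159872611) (nat_lit 1216) (nat_lit 10858103816) (nat_lit 1292) (nat_lit 2838624353) (nat_lit 262) (nat_lit 5) (nat_lit 278) (nat_lit 5) (nat_lit 279) (nat_lit 5) (nat_lit 406) (nat_lit 396) (nat_lit 218)) (XT.lf (nat_lit 76) (nat_lit 1799110629) (nat_lit 0) (nat_lit 10856512711) (nat_lit 1292) (nat_lit 12589383419) (nat_lit 263) (nat_lit 5) (nat_lit 262) (nat_lit 5) (nat_lit 279) (nat_lit 5) (nat_lit 407) (nat_lit 396) (nat_lit 217)))) (XT.nd (nat_lit 156) (nat_lit 0) (nat_lit 0) (XT.nd (nat_lit 78) (nat_lit 0) (nat_lit 0) (XT.lf (nat_lit 0) (nat_lit 14308923098) (nat_lit 1216) (nat_lit 10593681496) (nat_lit 1292) (nat_lit 739081382) (nat_lit 263) (nat_lit 5) (nat_lit 279) (nat_lit 5) (nat_lit 280) (nat_lit 5) (nat_lit 408) (nat_lit 396) (nat_lit 216)) (XT.lf (nat_lit 76) (nat_lit 2583832891) (nat_lit 0)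 (nat_lit 13556234280) (nat_lit 1292) (nat_lit 9906352352) (nat_lit 264) (nat_lit 5) (nat_lit 263) (nat_lit 5) (nat_lit 280) (nat_lit 5) (nat_lit 409) (nat_lit 396) (nat_lit 215))) (XT.nd (nat_lit 78) (nat_lit 0) (nat_lit 76) (XT.lf (nat_lit 76) (nat_lit 16370667786) (nat_lit 0) (nat_lit 1758459387) (nat_lit 1292) (nat_lit 8331079733) (nat_lit 264) (nat_lit 5) (nat_lit 263) (nat_lit 5) (nat_lit 280) (nat_lit 5) (nat_lit 410) (nat_lit 396) (nat_lit 214)) (XT.lf (nat_lit 76) (nat_lit 3652876199) (nat_lit 0) (nat_lit 16656132975) (nat_lit 1292) (nat_lit 6573465469) (nat_lit 265) (nat_lit 5) (nat_lit 264) (nat_lit 5) (nat_lit 281) (nat_lit 5) (nat_lit 411) (nat_lit 396) (nat_lit 213))))))) (XT.nd (nat_lit 1092) (nat_lit 3648) (nat_lit 0) (XT.nd (nat_lit 546) (nat_lit 2204) (nat_lit 0) (XT.nd (nat_lit 234) (nat_lit 1368) (nat_lit 0) (XT.nd (nat_lit 78) (nat_lit 1140) (nat_lit 0) (XT.lf (nat_lit 76) (nat_lit 17993465879)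 (nat_lit 0) (nat_lit 4676158639) (nat_lit 1292) (nat_lit 4644326990) (nat_lit 265) (nat_lit 5) (nat_lit 264) (nat_lit 5) (nat_lit 281) (nat_lit 5) (nat_lit 412) (nat_lit 396) (nat_lit 212)) (XT.nd (nat_lit 78) (nat_lit 0) (nat_lit 0) (XT.lf (nat_lit 0) (nat_lit 5027142916) (nat_lit 1216) (nat_lit 20192231520) (nat_lit 1292) (nat_lit 2535449926) (nat_lit 249) (nat_lit 5) (nat_lit 265) (nat_lit 5) (nat_lit 266) (nat_lit 5) (nat_lit 413) (nat_lit 396) (nat_lit 211)) (XT.lf (nat_lit 0) (nat_lit 19945880587) (nat_lit 1216) (nat_lit 8036104770) (nat_lit 1292) (nat_lit 222848125) (nat_lit 249) (nat_lit 5) (nat_lit 265) (nat_lit 5) (nat_lit 266) (nat_lit 5) (nat_lit 414) (nat_lit 396) (nat_lit 210)))) (XT.nd (nat_lit 156) (nat_lit 608) (nat_lit 0) (XT.nd (nat_lit 78) (nat_lit 0) (nat_lit 0) (XT.lf (nat_lit 0) (nat_lit 2222336475) (nat_lit 760) (nat_lit 21958148795) (nat_lit 76) (nat_lit 4484075910) (nat_lit 239) (nat_lit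 5) (nat_lit 249) (nat_lit 5) (nat_lit 240) (nat_lit 5) (nat_lit 415) (nat_lit 396) (nat_lit 209)) (XT.lf (nat_lit 0) (nat_lit 4896738312) (nat_lit 760) (nat_lit 6931354068) (nat_lit 76) (nat_lit 17305112955) (nat_lit 239) (nat_lit 5) (nat_lit 249) (nat_lit 5) (nat_lit 240) (nat_lit 5) (nat_lit 416) (nat_lit 396) (nat_lit 208))) (XT.nd (nat_lit 78) (nat_lit 0) (nat_lit 0) (XT.lf (nat_lit 0) (nat_lit 7741212637) (nat_lit 684) (nat_lit 20909784903) (nat_lit 76) (nat_lit 962217067) (nat_lit 231) (nat_lit 5) (nat_lit 240) (nat_lit 5) (nat_lit 232) (nat_lit 5) (nat_lit 417) (nat_lit 396) (nat_lit 207)) (XT.lf (nat_lit 0) (nat_lit 10855537580) (nat_lit 684) (nat_lit 5277178008) (nat_lit 76) (nat_lit 13969374055) (nat_lit 231) (nat_lit 5) (nat_lit 240) (nat_lit 5) (nat_lit 232) (nat_lit 5) (nat_lit 418) (nat_lit 396) (nat_lit 206))))) (XT.nd (nat_lit 234) (nat_lit 1064) (nat_lit 0) (XT.nd (nat_lit 78) (nat_lit 532) (nat_lit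 0) (XT.lf (nat_lit 0) (nat_lit 11036671558) (nat_lit 608) (nat_lit 3129527948) (nat_lit 684) (nat_lit 16436345157) (nat_lit 223) (nat_lit 5) (nat_lit 231) (nat_lit 5) (nat_lit 232) (nat_lit 5) (nat_lit 419) (nat_lit 396) (nat_lit 205)) (XT.nd (nat_lit 78) (nat_lit 532) (nat_lit 0) (XT.lf (nat_lit 0) (nat_lit 17725539257) (nat_lit 684) (nat_lit 3270655561) (nat_lit 76) (nat_lit 10117338699) (nat_lit 223) (nat_lit 5) (nat_lit 232) (nat_lit 5) (nat_lit 224) (nat_lit 5) (nat_lit 420) (nat_lit 396) (nat_lit 204)) (XT.lf (nat_lit 0) (nat_lit 13747625592) (nat_lit 532) (nat_lit 7804140207) (nat_lit 608) (nat_lit 10083283934) (nat_lit 216) (nat_lit 5) (nat_lit 223) (nat_lit 5) (nat_lit 224) (nat_lit 5) (nat_lit 421) (nat_lit 396) (nat_lit 203)))) (XT.nd (nat_lit 156) (nat_lit 532) (nat_lit 0) (XT.nd (nat_lit 78) (nat_lit 532) (nat_lit 0) (XT.lf (nat_lit 0) (nat_lit 25578758454) (nat_lit 608) (nat_lit 886775778) (nat_lit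 76) (nat_lit 5704098693) (nat_lit 216) (nat_lit 5) (nat_lit 224) (nat_lit 5) (nat_lit 217) (nat_lit 5) (nat_lit 422) (nat_lit 396) (nat_lit 202)) (XT.lf (nat_lit 0) (nat_lit 16872831941) (nat_lit 532) (nat_lit 13090305055) (nat_lit 608) (nat_lit 2750020177) (nat_lit 209) (nat_lit 5) (nat_lit 216) (nat_lit 5) (nat_lit 217) (nat_lit 5) (nat_lit 423) (nat_lit 396) (nat_lit 201))) (XT.nd (nat_lit 78) (nat_lit 0) (nat_lit 0) (XT.lf (nat_lit 0) (nat_lit 1214280135) (nat_lit 532) (nat_lit 31345210036) (nat_lit 76) (nat_lit 712197322) (nat_lit 202) (nat_lit 5) (nat_lit 209) (nat_lit 5) (nat_lit 203) (nat_lit 5) (nat_lit 424) (nat_lit 396) (nat_lit 200)) (XT.lf (nat_lit 0) (nat_lit 5530577155) (nat_lit 532) (nat_lit 13452719828) (nat_lit 76) (nat_lit 14854210462) (nat_lit 202) (nat_lit 5) (nat_lit 209) (nat_lit 5) (nat_lit 203) (nat_lit 5) (nat_lit 425) (nat_lit 396) (nat_lit 199)))))) (XT.nd (nat_lit 546) (nat_lit 1672)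 (nat_lit 0) (XT.nd (nat_lit 234) (nat_lit 988) (nat_lit 0) (XT.nd (nat_lit 78) (nat_lit 456) (nat_lit 0) (XT.lf (nat_lit 0) (nat_lit 5072497164) (nat_lit 532) (nat_lit 4949901060) (nat_lit 608) (nat_lit 24396523468) (nat_lit 195) (nat_lit 5) (nat_lit 202) (nat_lit 5) (nat_lit 203) (nat_lit 5) (nat_lit 426) (nat_lit 396) (nat_lit 198)) (XT.nd (nat_lit 78) (nat_lit 456) (nat_lit 0) (XT.lf (nat_lit 0) (nat_lit 14874850638) (nat_lit 608) (nat_lit 10680251513) (nat_lit 76) (nat_lit 9455900641) (nat_lit 195) (nat_lit 5) (nat_lit 203) (nat_lit 5) (nat_lit 196) (nat_lit 5) (nat_lit 427) (nat_lit 396) (nat_lit 197)) (XT.lf (nat_lit 0) (nat_lit 8662954164) (nat_lit 456) (nat_lit 11339605549) (nat_lit 532) (nat_lit 15614396826) (nat_lit 189) (nat_lit 5) (nat_lit 195) (nat_lit 5) (nat_lit 196) (nat_lit 5) (nat_lit 428) (nat_lit 396) (nat_lit 196)))) (XT.nd (nat_lit 156) (nat_lit 532) (nat_lit 0) (XT.nd (nat_lit 78) (nat_lit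 456) (nat_lit 0) (XT.lf (nat_lit 0) (nat_lit 25422205642) (nat_lit 532) (nat_lit 7468307871) (nat_lit 76) (nat_lit 3346432905) (nat_lit 189) (nat_lit 5) (nat_lit 196) (nat_lit 5) (nat_lit 190) (nat_lit 5) (nat_lit 429) (nat_lit 396) (nat_lit 195)) (XT.lf (nat_lit 0) (nat_lit 12735250013) (nat_lit 456) (nat_lit 18501401619) (nat_lit 532) (nat_lit 5631918706) (nat_lit 183) (nat_lit 5) (nat_lit 189) (nat_lit 5) (nat_lit 190) (nat_lit 5) (nat_lit 430) (nat_lit 396) (nat_lit 194))) (XT.nd (nat_lit 78) (nat_lit 532) (nat_lit 0) (XT.lf (nat_lit 0) (nat_lit 33695091761) (nat_lit 456) (nat_lit 3603417105) (nat_lit 532) (nat_lit 218445420) (nat_lit 183) (nat_lit 5) (nat_lit 189) (nat_lit 5) (nat_lit 190) (nat_lit 5) (nat_lit 431) (nat_lit 396) (nat_lit 193)) (XT.lf (nat_lit 0) (nat_lit 5532628585) (nat_lit 532) (nat_lit 20909549073) (nat_lit 76) (nat_lit 11732675557) (nat_lit 176) (nat_lit 5) (nat_lit 183) (nat_lit 5) (nat_lit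 177) (nat_lit 5) (nat_lit 432) (nat_lit 396) (nat_lit 192))))) (XT.nd (nat_lit 312) (nat_lit 836) (nat_lit 0) (XT.nd (nat_lit 156) (nat_lit 380) (nat_lit 0) (XT.nd (nat_lit 78) (nat_lit 0) (nat_lit 0) (XT.lf (nat_lit 0) (nat_lit 174361928) (nat_lit 456) (nat_lit 11351458180) (nat_lit 532) (nat_lit 27324385435) (nat_lit 170) (nat_lit 5) (nat_lit 176) (nat_lit 5) (nat_lit 177) (nat_lit 5) (nat_lit 433) (nat_lit 396) (nat_lit 191)) (XT.lf (nat_lit 0) (nat_lit 17950021444) (nat_lit 532) (nat_lit 17265407919) (nat_lit 76) (nat_lit 4322853231) (nat_lit 170) (nat_lit 5) (nat_lit 177) (nat_lit 5) (nat_lit 171) (nat_lit 5) (nat_lit 434) (nat_lit 396) (nat_lit 190))) (XT.nd (nat_lit 78) (nat_lit 0) (nat_lit 0) (XT.lf (nat_lit 0) (nat_lit 4765066893) (nat_lit 380) (nat_lit 19957827014) (nat_lit 456) (nat_lit 15519430254) (nat_lit 165) (nat_lit 5) (nat_lit 170) (nat_lit 5) (nat_lit 171) (nat_lit 5) (nat_lit 435) (nat_lit 396)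 (nat_lit 189)) (XT.lf (nat_lit 0) (nat_lit 27807541097) (nat_lit 380) (nat_lit 4063546145) (nat_lit 456) (nat_lit 9091236234) (nat_lit 165) (nat_lit 5) (nat_lit 170) (nat_lit 5) (nat_lit 171) (nat_lit 5) (nat_lit 436) (nat_lit 396) (nat_lit 188)))) (XT.nd (nat_lit 156) (nat_lit 380) (nat_lit 0) (XT.nd (nat_lit 78) (nat_lit 76) (nat_lit 0) (XT.lf (nat_lit 0) (nat_lit 9909616017) (nat_lit 380) (nat_lit 29535521989) (nat_lit 456) (nat_lit 2252442942) (nat_lit 160) (nat_lit 5) (nat_lit 165) (nat_lit 5) (nat_lit 166) (nat_lit 5) (nat_lit 437) (nat_lit 396) (nat_lit 187)) (XT.lf (nat_lit 0) (nat_lit 4870261282) (nat_lit 456) (nat_lit 8605742507) (nat_lit 76) (nat_lit 28972343676) (nat_lit 159) (nat_lit 5) (nat_lit 165) (nat_lit 5) (nat_lit 160) (nat_lit 5) (nat_lit 438) (nat_lit 396) (nat_lit 186))) (XT.nd (nat_lit 78) (nat_lit 0) (nat_lit 0) (XT.lf (nat_lit 0) (nat_lit 12339937299) (nat_lit 456) (nat_lit 27697366133)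 (nat_lit 76) (nat_lit 3178308108) (nat_lit 154) (nat_lit 5) (nat_lit 160) (nat_lit 5) (nat_lit 155) (nat_lit 5) (nat_lit 439) (nat_lit 396) (nat_lit 185)) (XT.lf (nat_lit 0) (nat_lit 20252841985) (nat_lit 456) (nat_lit 3597986949) (nat_lit 76) (nat_lit 20148490919) (nat_lit 154) (nat_lit 5) (nat_lit 160) (nat_lit 5) (nat_lit 155) (nat_lit 5) (nat_lit 440) (nat_lit 396) (nat_lit 184))))))))
noncomputable def xc216 : XT := (XT.nd (nat_lit 2184) (nat_lit 836) (nat_lit 0) (XT.nd (nat_lit 1092) (nat_lit 2052) (nat_lit 0) (XT.nd (nat_lit 546) (nat_lit 1292) (nat_lit 0) (XT.nd (nat_lit 234) (nat_lit 684) (nat_lit 0) (XT.nd (nat_lit 78) (nat_lit 380) (nat_lit 0) (XT.lf (nat_lit 0) (nat_lit 21644030981) (nat_lit 380) (nat_lit 6965169250) (nat_lit 456) (nat_lit 16191157644) (nat_lit 149) (nat_lit 5) (nat_lit 154) (nat_lit 5) (nat_lit 155) (nat_lit 5) (nat_lit 441) (nat_lit 396) (nat_lit 183)) (XT.nd (nat_lit 78) (nat_lit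 76) (nat_lit 0) (XT.lf (nat_lit 0) (nat_lit 2029008335) (nat_lit 304) (nat_lit 35341704771) (nat_lit 380) (nat_lit 8250080457) (nat_lit 145) (nat_lit 5) (nat_lit 149) (nat_lit 5) (nat_lit 150) (nat_lit 5) (nat_lit 442) (nat_lit 396) (nat_lit 182)) (XT.lf (nat_lit 0) (nat_lit 233768723) (nat_lit 380) (nat_lit 18087572747) (nat_lit 76) (nat_lit 28135426914) (nat_lit 144) (nat_lit 5) (nat_lit 149) (nat_lit 5) (nat_lit 145) (nat_lit 5) (nat_lit 443) (nat_lit 396) (nat_lit 181)))) (XT.nd (nat_lit 156) (nat_lit 304) (nat_lit 0) (XT.nd (nat_lit 78) (nat_lit 0) (nat_lit 0) (XT.lf (nat_lit 0) (nat_lit 8258582373) (nat_lit 380) (nat_lit 625223888) (nat_lit 456) (nat_lit 38429241333) (nat_lit 139) (nat_lit 5) (nat_lit 144) (nat_lit 5) (nat_lit 145) (nat_lit 5) (nat_lit 444) (nat_lit 396) (nat_lit 180)) (XT.lf (nat_lit 0) (nat_lit 18145128787) (nat_lit 456) (nat_lit 12597320957) (nat_lit 76) (nat_lit 17442012313) (nat_lit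 139) (nat_lit 5) (nat_lit 145) (nat_lit 5) (nat_lit 140) (nat_lit 5) (nat_lit 445) (nat_lit 396) (nat_lit 179))) (XT.nd (nat_lit 78) (nat_lit 0) (nat_lit 0) (XT.lf (nat_lit 0) (nat_lit 14936207033) (nat_lit 304) (nat_lit 12896032174) (nat_lit 380) (nat_lit 21245341677) (nat_lit 135) (nat_lit 5) (nat_lit 139) (nat_lit 5) (nat_lit 140) (nat_lit 5) (nat_lit 446) (nat_lit 396) (nat_lit 178)) (XT.lf (nat_lit 0) (nat_lit 37989365924) (nat_lit 380) (nat_lit 6496316084) (nat_lit 76) (nat_lit 5506429549) (nat_lit 135) (nat_lit 5) (nat_lit 140) (nat_lit 5) (nat_lit 136) (nat_lit 5) (nat_lit 447) (nat_lit 396) (nat_lit 177))))) (XT.nd (nat_lit 234) (nat_lit 608) (nat_lit 0) (XT.nd (nat_lit 78) (nat_lit 380) (nat_lit 0) (XT.lf (nat_lit 0) (nat_lit 22282681116) (nat_lit 304) (nat_lit 26508658525) (nat_lit 380) (nat_lit 2132534871) (nat_lit 131) (nat_lit 5) (nat_lit 135) (nat_lit 5) (nat_lit 136) (nat_lit 5) (nat_lit 448) (nat_lit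 396) (nat_lit 176)) (XT.nd (nat_lit 78) (nat_lit 0) (nat_lit 0) (XT.lf (nat_lit 0) (nat_lit 98078600) (nat_lit 304) (nat_lit 7844392144) (nat_lit 380) (nat_lit 43936839484) (nat_lit 126) (nat_lit 5) (nat_lit 130) (nat_lit 5) (nat_lit 131) (nat_lit 5) (nat_lit 449) (nat_lit 396) (nat_lit 175)) (XT.lf (nat_lit 0) (nat_lit 18676620342) (nat_lit 380) (nat_lit 22704027482) (nat_lit 76) (nat_lit 11470135422) (nat_lit 126) (nat_lit 5) (nat_lit 131) (nat_lit 5) (nat_lit 127) (nat_lit 5) (nat_lit 450) (nat_lit 396) (nat_lit 174)))) (XT.nd (nat_lit 156) (nat_lit 304) (nat_lit 0) (XT.nd (nat_lit 78) (nat_lit 0) (nat_lit 0) (XT.lf (nat_lit 0) (nat_lit 7307931730) (nat_lit 304) (nat_lit 22571110854) (nat_lit 380) (nat_lit 23967970745) (nat_lit 122) (nat_lit 5) (nat_lit 126) (nat_lit 5) (nat_lit 127) (nat_lit 5) (nat_lit 451) (nat_lit 396) (nat_lit 173)) (XT.lf (nat_lit 0) (nat_lit 38683186633) (nat_lit 304) (nat_lit 2961974406)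 (nat_lit 380) (nat_lit 13221140877) (nat_lit 122) (nat_lit 5) (nat_lit 126) (nat_lit 5) (nat_lit 127) (nat_lit 5) (nat_lit 452) (nat_lit 396) (nat_lit 172))) (XT.nd (nat_lit 78) (nat_lit 76) (nat_lit 0) (XT.lf (nat_lit 0) (nat_lit 15212256644) (nat_lit 228) (nat_lit 38862310953) (nat_lit 304) (nat_lit 1832292727) (nat_lit 119) (nat_lit 5) (nat_lit 122) (nat_lit 5) (nat_lit 123) (nat_lit 5) (nat_lit 453) (nat_lit 396) (nat_lit 171)) (XT.lf (nat_lit 0) (nat_lit 9897838124) (nat_lit 304) (nat_lit 9221047283) (nat_lit 76) (nat_lit 37851112911) (nat_lit 118) (nat_lit 5) (nat_lit 122) (nat_lit 5) (nat_lit 119) (nat_lit 5) (nat_lit 454) (nat_lit 396) (nat_lit 170)))))) (XT.nd (nat_lit 546) (nat_lit 988) (nat_lit 0) (XT.nd (nat_lit 234) (nat_lit 532) (nat_lit 0) (XT.nd (nat_lit 78) (nat_lit 228) (nat_lit 0) (XT.lf (nat_lit 0) (nat_lit 22182833044) (nat_lit 380) (nat_lit 34434387210) (nat_lit 76) (nat_lit 1440072606) (nat_lit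 114) (nat_lit 5) (nat_lit 119) (nat_lit 5) (nat_lit 115) (nat_lit 5) (nat_lit 455) (nat_lit 396) (nat_lit 169)) (XT.nd (nat_lit 78) (nat_lit 228) (nat_lit 0) (XT.lf (nat_lit 0) (nat_lit 35118176071) (nat_lit 380) (nat_lit 1725824256) (nat_lit 76) (nat_lit 22324752229) (nat_lit 114) (nat_lit 5) (nat_lit 119) (nat_lit 5) (nat_lit 115) (nat_lit 5) (nat_lit 456) (nat_lit 396) (nat_lit 168)) (XT.lf (nat_lit 0) (nat_lit 32597772002) (nat_lit 228) (nat_lit 16155667736) (nat_lit 304) (nat_lit 11550760753) (nat_lit 111) (nat_lit 5) (nat_lit 114) (nat_lit 5) (nat_lit 115) (nat_lit 5) (nat_lit 457) (nat_lit 396) (nat_lit 167)))) (XT.nd (nat_lit 156) (nat_lit 228) (nat_lit 0) (XT.nd (nat_lit 78) (nat_lit 0) (nat_lit 0) (XT.lf (nat_lit 0) (nat_lit 1428495483) (nat_lit 304) (nat_lit 54894037470) (nat_lit 76) (nat_lit 5146888837) (nat_lit 107) (nat_lit 5) (nat_lit 111) (nat_lit 5) (nat_lit 108) (nat_lit 5) (nat_lit 458) (nat_lit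 396) (nat_lit 166)) (XT.lf (nat_lit 0) (nat_lit 15006008347) (nat_lit 304) (nat_lit 20487034974) (nat_lit 76) (nat_lit 27159894591) (nat_lit 107) (nat_lit 5) (nat_lit 111) (nat_lit 5) (nat_lit 108) (nat_lit 5) (nat_lit 459) (nat_lit 396) (nat_lit 165))) (XT.nd (nat_lit 78) (nat_lit 0) (nat_lit 0) (XT.lf (nat_lit 0) (nat_lit 15247434605) (nat_lit 228) (nat_lit 13888552461) (nat_lit 304) (nat_lit 34731618468) (nat_lit 104) (nat_lit 5) (nat_lit 107) (nat_lit 5) (nat_lit 108) (nat_lit 5) (nat_lit 460) (nat_lit 396) (nat_lit 164)) (XT.lf (nat_lit 0) (nat_lit 43977777503) (nat_lit 304) (nat_lit 12723340671) (nat_lit 76) (nat_lit 8408957862) (nat_lit 104) (nat_lit 5) (nat_lit 108) (nat_lit 5) (nat_lit 105) (nat_lit 5) (nat_lit 461) (nat_lit 396) (nat_lit 163))))) (XT.nd (nat_lit 234) (nat_lit 456) (nat_lit 0) (XT.nd (nat_lit 78) (nat_lit 304) (nat_lit 0) (XT.lf (nat_lit 0) (nat_lit 24590512809) (nat_lit 228) (nat_lit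 35046824122) (nat_lit 304) (nat_lit 6741308480) (nat_lit 101) (nat_lit 5) (nat_lit 104) (nat_lit 5) (nat_lit 105) (nat_lit 5) (nat_lit 462) (nat_lit 396) (nat_lit 162)) (XT.nd (nat_lit 78) (nat_lit 228) (nat_lit 0) (XT.lf (nat_lit 0) (nat_lit 8052097780) (nat_lit 304) (nat_lit 4478001516) (nat_lit 76) (nat_lit 55148990754) (nat_lit 100) (nat_lit 5) (nat_lit 104) (nat_lit 5) (nat_lit 101) (nat_lit 5) (nat_lit 463) (nat_lit 396) (nat_lit 161)) (XT.lf (nat_lit 0) (nat_lit 23591097835) (nat_lit 304) (nat_lit 34556197929) (nat_lit 76) (nat_lit 10856131536) (nat_lit 97) (nat_lit 5) (nat_lit 101) (nat_lit 5) (nat_lit 98) (nat_lit 5) (nat_lit 464) (nat_lit 396) (nat_lit 160)))) (XT.nd (nat_lit 156) (nat_lit 228) (nat_lit 0) (XT.nd (nat_lit 78) (nat_lit 0) (nat_lit 0) (XT.lf (nat_lit 0) (nat_lit 4221571772) (nat_lit 228) (nat_lit 35583684691) (nat_lit 304) (nat_lit 30555968740) (nat_lit 94) (nat_lit 5) (nat_lit 97) (nat_lit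 5) (nat_lit 98) (nat_lit 5) (nat_lit 465) (nat_lit 396) (nat_lit 159)) (XT.lf (nat_lit 0) (nat_lit 44868892111) (nat_lit 228) (nat_lit 11984596424) (nat_lit 304) (nat_lit 14895839234) (nat_lit 94) (nat_lit 5) (nat_lit 97) (nat_lit 5) (nat_lit 98) (nat_lit 5) (nat_lit 466) (nat_lit 396) (nat_lit 158))) (XT.nd (nat_lit 78) (nat_lit 0) (nat_lit 0) (XT.lf (nat_lit 0) (nat_lit 1461382033) (nat_lit 228) (nat_lit 59482541740) (nat_lit 76) (nat_lit 12227252844) (nat_lit 91) (nat_lit 5) (nat_lit 94) (nat_lit 5) (nat_lit 92) (nat_lit 5) (nat_lit 467) (nat_lit 396) (nat_lit 157)) (XT.lf (nat_lit 0) (nat_lit 18401447990) (nat_lit 228) (nat_lit 18872690844) (nat_lit 76) (nat_lit 37345372171) (nat_lit 91) (nat_lit 5) (nat_lit 94) (nat_lit 5) (nat_lit 92) (nat_lit 5) (nat_lit 468) (nat_lit 396) (nat_lit 156))))))) (XT.nd (nat_lit 48048) (nat_lit 0) (nat_lit 11476) (XT.nd (nat_lit 47502) (nat_lit 0) (nat_lit 13452) (XT.nd (nat_lit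 234) (nat_lit 456) (nat_lit 0) (XT.nd (nat_lit 78) (nat_lit 152) (nat_lit 0) (XT.lf (nat_lit 0) (nat_lit 23410212202) (nat_lit 228) (nat_lit 12663306990) (nat_lit 304) (nat_lit 40031062300) (nat_lit 88) (nat_lit 5) (nat_lit 91) (nat_lit 5) (nat_lit 92) (nat_lit 5) (nat_lit 469) (nat_lit 396) (nat_lit 155)) (XT.nd (nat_lit 78) (nat_lit 152) (nat_lit 0) (XT.lf (nat_lit 0) (nat_lit 54588939001) (nat_lit 304) (nat_lit 10405913187) (nat_lit 76) (nat_lit 12629956473) (nat_lit 88) (nat_lit 5) (nat_lit 92) (nat_lit 5) (nat_lit 89) (nat_lit 5) (nat_lit 470) (nat_lit 396) (nat_lit 154)) (XT.lf (nat_lit 0) (nat_lit 33681046775) (nat_lit 152) (nat_lit 40426730563) (nat_lit 228) (nat_lit 5069426786) (nat_lit 86) (nat_lit 5) (nat_lit 88) (nat_lit 5) (nat_lit 89) (nat_lit 5) (nat_lit 471) (nat_lit 396) (nat_lit 153)))) (XT.nd (nat_lit 156) (nat_lit 152) (nat_lit 0) (XT.nd (nat_lit 78) (nat_lit 228) (nat_lit 0) (XT.lf (nat_lit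 0) (nat_lit 13278761662) (nat_lit 228) (nat_lit 1601301115) (nat_lit 76) (nat_lit 65889086051) (nat_lit 85) (nat_lit 5) (nat_lit 88) (nat_lit 5) (nat_lit 86) (nat_lit 5) (nat_lit 472) (nat_lit 396) (nat_lit 152)) (XT.lf (nat_lit 0) (nat_lit 32616017345) (nat_lit 304) (nat_lit 38084039121) (nat_lit 76) (nat_lit 11691074417) (nat_lit 82) (nat_lit 5) (nat_lit 86) (nat_lit 5) (nat_lit 83) (nat_lit 5) (nat_lit 473) (nat_lit 396) (nat_lit 151))) (XT.nd (nat_lit 78) (nat_lit 0) (nat_lit 0) (XT.lf (nat_lit 0) (nat_lit 7562394633) (nat_lit 152) (nat_lit 45206206966) (nat_lit 228) (nat_lit 31286114614) (nat_lit 80) (nat_lit 5) (nat_lit 82) (nat_lit 5) (nat_lit 83) (nat_lit 5) (nat_lit 474) (nat_lit 396) (nat_lit 150)) (XT.lf (nat_lit 0) (nat_lit 55356964399) (nat_lit 152) (nat_lit 18552246744) (nat_lit 228) (nat_lit 11847494661) (nat_lit 80) (nat_lit 5) (nat_lit 82) (nat_lit 5) (nat_lit 83) (nat_lit 5) (nat_lit 475) (nat_lit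 396) (nat_lit 149))))) (XT.nd (nat_lit 234) (nat_lit 0) (nat_lit 76) (XT.nd (nat_lit 78) (nat_lit 0) (nat_lit 0) (XT.lf (nat_lit 0) (nat_lit 1959159612) (nat_lit 1292) (nat_lit 4526105730) (nat_lit 1292) (nat_lit 4526105730) (nat_lit 257) (nat_lit 3) (nat_lit 274) (nat_lit 3) (nat_lit 274) (nat_lit 5) (nat_lit 397) (nat_lit 397) (nat_lit 226)) (XT.nd (nat_lit 78) (nat_lit 0) (nat_lit 76) (XT.lf (nat_lit 76) (nat_lit 1683514880) (nat_lit 0) (nat_lit 2444108762) (nat_lit 1292) (nat_lit 18220899808) (nat_lit 258) (nat_lit 5) (nat_lit 257) (nat_lit 3) (nat_lit 274) (nat_lit 5) (nat_lit 398) (nat_lit 397) (nat_lit 225)) (XT.lf (nat_lit 0) (nat_lit 4511004074) (nat_lit 1216) (nat_lit 9839033039) (nat_lit 1292) (nat_lit 8329008890) (nat_lit 258) (nat_lit 5) (nat_lit 274) (nat_lit 5) (nat_lit 275) (nat_lit 5) (nat_lit 399) (nat_lit 397) (nat_lit 224)))) (XT.nd (nat_lit 156) (nat_lit 0) (nat_lit 76) (XT.nd (nat_lit 78)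 (nat_lit 0) (nat_lit 76) (XT.lf (nat_lit 76) (nat_lit 1310236871) (nat_lit 0) (nat_lit 3627350240) (nat_lit 1292) (nat_lit 18080947750) (nat_lit 259) (nat_lit 5) (nat_lit 258) (nat_lit 5) (nat_lit 275) (nat_lit 5) (nat_lit 400) (nat_lit 397) (nat_lit 223)) (XT.lf (nat_lit 0) (nat_lit 5543652305) (nat_lit 1216) (nat_lit 10444829597) (nat_lit 1292) (nat_lit 7374727559) (nat_lit 259) (nat_lit 5) (nat_lit 275) (nat_lit 5) (nat_lit 276) (nat_lit 5) (nat_lit 401) (nat_lit 397) (nat_lit 222))) (XT.nd (nat_lit 78) (nat_lit 0) (nat_lit 76) (XT.lf (nat_lit 76) (nat_lit 1139963921) (nat_lit 0) (nat_lit 5070001228) (nat_lit 1292) (nat_lit 17506998750) (nat_lit 260) (nat_lit 5) (nat_lit 259) (nat_lit 5) (nat_lit 276) (nat_lit 5) (nat_lit 402) (nat_lit 397) (nat_lit 221)) (XT.lf (nat_lit 0) (nat_lit 7057474818) (nat_lit 1216) (nat_lit 10855209519) (nat_lit 1292) (nat_lit 6163811932) (nat_lit 260) (nat_lit 5) (nat_lit 276) (nat_lit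 5) (nat_lit 277) (nat_lit 5) (nat_lit 403) (nat_lit 397) (nat_lit 220)))))) (XT.nd (nat_lit 546) (nat_lit 2204) (nat_lit 0) (XT.nd (nat_lit 234) (nat_lit 0) (nat_lit 152) (XT.nd (nat_lit 78) (nat_lit 0) (nat_lit 76) (XT.lf (nat_lit 76) (nat_lit 1188272016) (nat_lit 0) (nat_lit 6799217458) (nat_lit 1292) (nat_lit 16457614225) (nat_lit 261) (nat_lit 5) (nat_lit 260) (nat_lit 5) (nat_lit 277) (nat_lit 5) (nat_lit 404) (nat_lit 397) (nat_lit 219)) (XT.nd (nat_lit 78) (nat_lit 0) (nat_lit 0) (XT.lf (nat_lit 0) (nat_lit 9096360271) (nat_lit 1216) (nat_lit 11054735322) (nat_lit 1292) (nat_lit 4669146523) (nat_lit 261) (nat_lit 5) (nat_lit 277) (nat_lit 5) (nat_lit 278) (nat_lit 5) (nat_lit 405) (nat_lit 397) (nat_lit 218)) (XT.lf (nat_lit 76) (nat_lit 1471843176) (nat_lit 0) (nat_lit 8843828025) (nat_lit 1292) (nat_lit 14888649659) (nat_lit 262) (nat_lit 5) (nat_lit 261) (nat_lit 5) (nat_lit 278) (nat_lit 5) (nat_lit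 406) (nat_lit 397) (nat_lit 217)))) (XT.nd (nat_lit 156) (nat_lit 0) (nat_lit 76) (XT.nd (nat_lit 78) (nat_lit 0) (nat_lit 0) (XT.lf (nat_lit 0) (nat_lit 11707054101) (nat_lit 1216) (nat_lit 11026881572) (nat_lit 1292) (nat_lit 2861922867) (nat_lit 262) (nat_lit 5) (nat_lit 278) (nat_lit 5) (nat_lit 279) (nat_lit 5) (nat_lit 407) (nat_lit 397) (nat_lit 216)) (XT.lf (nat_lit 76) (nat_lit 2008510431) (nat_lit 0) (nat_lit 11234474996) (nat_lit 1292) (nat_lit 12753074031) (nat_lit 263) (nat_lit 5) (nat_lit 262) (nat_lit 5) (nat_lit 279) (nat_lit 5) (nat_lit 408) (nat_lit 397) (nat_lit 215))) (XT.nd (nat_lit 78) (nat_lit 0) (nat_lit 0) (XT.lf (nat_lit 0) (nat_lit 14939347068) (nat_lit 1216) (nat_lit 10753990573) (nat_lit 1292) (nat_lit 711499466) (nat_lit 263) (nat_lit 5) (nat_lit 279) (nat_lit 5) (nat_lit 280) (nat_lit 5) (nat_lit 409) (nat_lit 397) (nat_lit 214)) (XT.lf (nat_lit 76) (nat_lit 2817305115) (nat_lit 0)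 (nat_lit 14003760585) (nat_lit 1292) (nat_lit 10000779641) (nat_lit 264) (nat_lit 5) (nat_lit 263) (nat_lit 5) (nat_lit 280) (nat_lit 5) (nat_lit 410) (nat_lit 397) (nat_lit 213))))) (XT.nd (nat_lit 312) (nat_lit 1368) (nat_lit 0) (XT.nd (nat_lit 156) (nat_lit 1064) (nat_lit 0) (XT.nd (nat_lit 78) (nat_lit 0) (nat_lit 76) (XT.lf (nat_lit 76) (nat_lit 17013202612) (nat_lit 0) (nat_lit 1850862952) (nat_lit 1292) (nat_lit 8384154570) (nat_lit 264) (nat_lit 5) (nat_lit 263) (nat_lit 5) (nat_lit 280) (nat_lit 5) (nat_lit 411) (nat_lit 397) (nat_lit 212)) (XT.lf (nat_lit 76) (nat_lit 3918506406) (nat_lit 0) (nat_lit 17186402584) (nat_lit 1292) (nat_lit 6578381742) (nat_lit 265) (nat_lit 5) (nat_lit 264) (nat_lit 5) (nat_lit 281) (nat_lit 5) (nat_lit 412) (nat_lit 397) (nat_lit 211))) (XT.nd (nat_lit 78) (nat_lit 1140) (nat_lit 0) (XT.lf (nat_lit 76) (nat_lit 18684768808) (nat_lit 0) (nat_lit 4846138174) (nat_lit 1292)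 (nat_lit 4596969721) (nat_lit 265) (nat_lit 5) (nat_lit 264) (nat_lit 5) (nat_lit 281) (nat_lit 5) (nat_lit 413) (nat_lit 397) (nat_lit 210)) (XT.lf (nat_lit 0) (nat_lit 5333693012) (nat_lit 1216) (nat_lit 20819398796) (nat_lit 1292) (nat_lit 2429007339) (nat_lit 249) (nat_lit 5) (nat_lit 265) (nat_lit 5) (nat_lit 266) (nat_lit 5) (nat_lit 414) (nat_lit 397) (nat_lit 209)))) (XT.nd (nat_lit 156) (nat_lit 608) (nat_lit 0) (XT.nd (nat_lit 78) (nat_lit 760) (nat_lit 0) (XT.lf (nat_lit 0) (nat_lit 20695456819) (nat_lit 1216) (nat_lit 8297964933) (nat_lit 1292) (nat_lit 52343194) (nat_lit 249) (nat_lit 5) (nat_lit 265) (nat_lit 5) (nat_lit 266) (nat_lit 5) (nat_lit 415) (nat_lit 397) (nat_lit 208)) (XT.lf (nat_lit 0) (nat_lit 2458988781) (nat_lit 760) (nat_lit 22458381504) (nat_lit 76) (nat_lit 4601977143) (nat_lit 239) (nat_lit 5) (nat_lit 249) (nat_lit 5) (nat_lit 240) (nat_lit 5) (nat_lit 416) (nat_lit 397) (nat_lit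 207))) (XT.nd (nat_lit 78) (nat_lit 608) (nat_lit 0) (XT.lf (nat_lit 0) (nat_lit 5208671734) (nat_lit 760) (nat_lit 6985399782) (nat_lit 76) (nat_lit 17808129407) (nat_lit 239) (nat_lit 5) (nat_lit 249) (nat_lit 5) (nat_lit 240) (nat_lit 5) (nat_lit 417) (nat_lit 397) (nat_lit 206)) (XT.lf (nat_lit 0) (nat_lit 8135048953) (nat_lit 684) (nat_lit 21379704019) (nat_lit 76) (nat_lit 981961887) (nat_lit 231) (nat_lit 5) (nat_lit 240) (nat_lit 5) (nat_lit 232) (nat_lit 5) (nat_lit 418) (nat_lit 397) (nat_lit 205))))))))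
noncomputable def xc217 : XT := (XT.nd (nat_lit 2262) (nat_lit 4180) (nat_lit 0) (XT.nd (nat_lit 1092) (nat_lit 3648) (nat_lit 0) (XT.nd (nat_lit 546) (nat_lit 1444) (nat_lit 0) (XT.nd (nat_lit 234) (nat_lit 1596) (nat_lit 0) (XT.nd (nat_lit 78) (nat_lit 608) (nat_lit 0) (XT.lf (nat_lit 0) (nat_lit 11338096850) (nat_lit 684) (nat_lit 5282702639) (nat_lit 76) (nat_lit 14379599265) (nat_lit 231) (nat_lit 5) (nat_lit 240) (nat_lit 5) (nat_lit 232) (nat_lit 5) (nat_lit 419) (nat_lit 397) (nat_lit 204)) (XT.nd (nat_lit 78) (nat_lit 0) (nat_lit 0) (XT.lf (nat_lit 0) (nat_lit 11519064466) (nat_lit 608) (nat_lit 3225898783) (nat_lit 684) (nat_lit 16770999000) (nat_lit 223) (nat_lit 5) (nat_lit 231) (nat_lit 5) (nat_lit 232) (nat_lit 5) (nat_lit 420) (nat_lit 397) (nat_lit 203)) (XT.lf (nat_lit 0) (nat_lit 18406581037) (nat_lit 684) (nat_lit 3217342798) (nat_lit 76) (nat_lit 10418493320) (nat_lit 223) (nat_lit 5) (nat_lit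 232) (nat_lit 5) (nat_lit 224) (nat_lit 5) (nat_lit 421) (nat_lit 397) (nat_lit 202)))) (XT.nd (nat_lit 156) (nat_lit 1064) (nat_lit 0) (XT.nd (nat_lit 78) (nat_lit 0) (nat_lit 0) (XT.lf (nat_lit 0) (nat_lit 14310002158) (nat_lit 532) (nat_lit 8034685774) (nat_lit 608) (nat_lit 10234979403) (nat_lit 216) (nat_lit 5) (nat_lit 223) (nat_lit 5) (nat_lit 224) (nat_lit 5) (nat_lit 422) (nat_lit 397) (nat_lit 201)) (XT.lf (nat_lit 0) (nat_lit 26488260586) (nat_lit 608) (nat_lit 763527316) (nat_lit 76) (nat_lit 5878628262) (nat_lit 216) (nat_lit 5) (nat_lit 224) (nat_lit 5) (nat_lit 217) (nat_lit 5) (nat_lit 423) (nat_lit 397) (nat_lit 200))) (XT.nd (nat_lit 78) (nat_lit 532) (nat_lit 0) (XT.lf (nat_lit 0) (nat_lit 17527399500) (nat_lit 532) (nat_lit 13474057347) (nat_lit 608) (nat_lit 2688871913) (nat_lit 209) (nat_lit 5) (nat_lit 216) (nat_lit 5) (nat_lit 217) (nat_lit 5) (nat_lit 424) (nat_lit 397) (nat_lit 199)) (XT.lf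 (nat_lit 0) (nat_lit 1389002529) (nat_lit 532) (nat_lit 32131751637) (nat_lit 76) (nat_lit 744897093) (nat_lit 202) (nat_lit 5) (nat_lit 209) (nat_lit 5) (nat_lit 203) (nat_lit 5) (nat_lit 425) (nat_lit 397) (nat_lit 198))))) (XT.nd (nat_lit 234) (nat_lit 912) (nat_lit 0) (XT.nd (nat_lit 78) (nat_lit 532) (nat_lit 0) (XT.lf (nat_lit 0) (nat_lit 5830760479) (nat_lit 532) (nat_lit 13706966762) (nat_lit 76) (nat_lit 15310840516) (nat_lit 202) (nat_lit 5) (nat_lit 209) (nat_lit 5) (nat_lit 203) (nat_lit 5) (nat_lit 426) (nat_lit 397) (nat_lit 197)) (XT.nd (nat_lit 78) (nat_lit 0) (nat_lit 0) (XT.lf (nat_lit 0) (nat_lit 5372542674) (nat_lit 532) (nat_lit 5082304268) (nat_lit 608) (nat_lit 24992653241) (nat_lit 195) (nat_lit 5) (nat_lit 202) (nat_lit 5) (nat_lit 203) (nat_lit 5) (nat_lit 427) (nat_lit 397) (nat_lit 196)) (XT.lf (nat_lit 0) (nat_lit 15449184968) (nat_lit 608) (nat_lit 10853372601) (nat_lit 76) (nat_lit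 9754897831) (nat_lit 195) (nat_lit 5) (nat_lit 203) (nat_lit 5) (nat_lit 196) (nat_lit 5) (nat_lit 428) (nat_lit 397) (nat_lit 195)))) (XT.nd (nat_lit 156) (nat_lit 456) (nat_lit 0) (XT.nd (nat_lit 78) (nat_lit 0) (nat_lit 0) (XT.lf (nat_lit 0) (nat_lit 9068685262) (nat_lit 456) (nat_lit 11659711239) (nat_lit 532) (nat_lit 15953262138) (nat_lit 189) (nat_lit 5) (nat_lit 195) (nat_lit 5) (nat_lit 196) (nat_lit 5) (nat_lit 429) (nat_lit 397) (nat_lit 194)) (XT.lf (nat_lit 0) (nat_lit 26307156317) (nat_lit 532) (nat_lit 7547254170) (nat_lit 76) (nat_lit 3465942975) (nat_lit 189) (nat_lit 5) (nat_lit 196) (nat_lit 5) (nat_lit 190) (nat_lit 5) (nat_lit 430) (nat_lit 397) (nat_lit 193))) (XT.nd (nat_lit 78) (nat_lit 0) (nat_lit 0) (XT.lf (nat_lit 0) (nat_lit 13260987872) (nat_lit 456) (nat_lit 19032867273) (nat_lit 532) (nat_lit 5677137326) (nat_lit 183) (nat_lit 5) (nat_lit 189) (nat_lit 5) (nat_lit 190) (nat_lit 5)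 (nat_lit 431) (nat_lit 397) (nat_lit 192)) (XT.lf (nat_lit 0) (nat_lit 34845440008) (nat_lit 456) (nat_lit 3688629914) (nat_lit 532) (nat_lit 104863888) (nat_lit 183) (nat_lit 5) (nat_lit 189) (nat_lit 5) (nat_lit 190) (nat_lit 5) (nat_lit 432) (nat_lit 397) (nat_lit 191)))))) (XT.nd (nat_lit 546) (nat_lit 1824) (nat_lit 0) (XT.nd (nat_lit 234) (nat_lit 836) (nat_lit 0) (XT.nd (nat_lit 78) (nat_lit 456) (nat_lit 0) (XT.lf (nat_lit 0) (nat_lit 5814555738) (nat_lit 532) (nat_lit 21393094269) (nat_lit 76) (nat_lit 12108941201) (nat_lit 176) (nat_lit 5) (nat_lit 183) (nat_lit 5) (nat_lit 177) (nat_lit 5) (nat_lit 433) (nat_lit 397) (nat_lit 190)) (XT.nd (nat_lit 78) (nat_lit 0) (nat_lit 0) (XT.lf (nat_lit 0) (nat_lit 321924833) (nat_lit 456) (nat_lit 11663609222) (nat_lit 532) (nat_lit 28026731169) (nat_lit 170) (nat_lit 5) (nat_lit 176) (nat_lit 5) (nat_lit 177) (nat_lit 5) (nat_lit 434) (nat_lit 397) (nat_lit 189))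 (XT.lf (nat_lit 0) (nat_lit 18599407788) (nat_lit 532) (nat_lit 17642102579) (nat_lit 76) (nat_lit 4479566653) (nat_lit 170) (nat_lit 5) (nat_lit 177) (nat_lit 5) (nat_lit 171) (nat_lit 5) (nat_lit 435) (nat_lit 397) (nat_lit 188)))) (XT.nd (nat_lit 156) (nat_lit 456) (nat_lit 0) (XT.nd (nat_lit 78) (nat_lit 0) (nat_lit 0) (XT.lf (nat_lit 0) (nat_lit 5047901502) (nat_lit 380) (nat_lit 20525679880) (nat_lit 456) (nat_lit 15872715805) (nat_lit 165) (nat_lit 5) (nat_lit 170) (nat_lit 5) (nat_lit 171) (nat_lit 5) (nat_lit 436) (nat_lit 397) (nat_lit 187)) (XT.lf (nat_lit 0) (nat_lit 28777575681) (nat_lit 380) (nat_lit 4155470059) (nat_lit 456) (nat_lit 9254946761) (nat_lit 165) (nat_lit 5) (nat_lit 170) (nat_lit 5) (nat_lit 171) (nat_lit 5) (nat_lit 437) (nat_lit 397) (nat_lit 186))) (XT.nd (nat_lit 78) (nat_lit 76) (nat_lit 0) (XT.lf (nat_lit 0) (nat_lit 10344265310) (nat_lit 380) (nat_lit 30388570621) (nat_lit 456)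 (nat_lit 2212516983) (nat_lit 160) (nat_lit 5) (nat_lit 165) (nat_lit 5) (nat_lit 166) (nat_lit 5) (nat_lit 438) (nat_lit 397) (nat_lit 185)) (XT.lf (nat_lit 0) (nat_lit 5118700722) (nat_lit 456) (nat_lit 8728494466) (nat_lit 76) (nat_lit 29871509048) (nat_lit 159) (nat_lit 5) (nat_lit 165) (nat_lit 5) (nat_lit 160) (nat_lit 5) (nat_lit 439) (nat_lit 397) (nat_lit 184))))) (XT.nd (nat_lit 312) (nat_lit 760) (nat_lit 0) (XT.nd (nat_lit 156) (nat_lit 684) (nat_lit 0) (XT.nd (nat_lit 78) (nat_lit 0) (nat_lit 0) (XT.lf (nat_lit 0) (nat_lit 12811097035) (nat_lit 456) (nat_lit 28391473802) (nat_lit 76) (nat_lit 3306457186) (nat_lit 154) (nat_lit 5) (nat_lit 160) (nat_lit 5) (nat_lit 155) (nat_lit 5) (nat_lit 440) (nat_lit 397) (nat_lit 183)) (XT.lf (nat_lit 0) (nat_lit 20958448232) (nat_lit 456) (nat_lit 3573098095) (nat_lit 76) (nat_lit 20784790147) (nat_lit 154) (nat_lit 5) (nat_lit 160) (nat_lit 5) (nat_lit 155) (nat_lit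 5) (nat_lit 441) (nat_lit 397) (nat_lit 182))) (XT.nd (nat_lit 78) (nat_lit 304) (nat_lit 0) (XT.lf (nat_lit 0) (nat_lit 22424878132) (nat_lit 380) (nat_lit 7139028424) (nat_lit 456) (nat_lit 16577547453) (nat_lit 149) (nat_lit 5) (nat_lit 154) (nat_lit 5) (nat_lit 155) (nat_lit 5) (nat_lit 442) (nat_lit 397) (nat_lit 181)) (XT.lf (nat_lit 0) (nat_lit 2222667307) (nat_lit 304) (nat_lit 36364392844) (nat_lit 380) (nat_lit 8399479388) (nat_lit 145) (nat_lit 5) (nat_lit 149) (nat_lit 5) (nat_lit 150) (nat_lit 5) (nat_lit 443) (nat_lit 397) (nat_lit 180)))) (XT.nd (nat_lit 156) (nat_lit 304) (nat_lit 0) (XT.nd (nat_lit 78) (nat_lit 380) (nat_lit 0) (XT.lf (nat_lit 0) (nat_lit 334169290) (nat_lit 380) (nat_lit 18499400393) (nat_lit 76) (nat_lit 29014080275) (nat_lit 144) (nat_lit 5) (nat_lit 149) (nat_lit 5) (nat_lit 145) (nat_lit 5) (nat_lit 444) (nat_lit 397) (nat_lit 179)) (XT.lf (nat_lit 0) (nat_lit 8635857033)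 (nat_lit 380) (nat_lit 606375896) (nat_lit 456) (nat_lit 39487429445) (nat_lit 139) (nat_lit 5) (nat_lit 144) (nat_lit 5) (nat_lit 145) (nat_lit 5) (nat_lit 445) (nat_lit 397) (nat_lit 178))) (XT.nd (nat_lit 78) (nat_lit 304) (nat_lit 0) (XT.lf (nat_lit 0) (nat_lit 18779069018) (nat_lit 456) (nat_lit 12847150918) (nat_lit 76) (nat_lit 18001069677) (nat_lit 139) (nat_lit 5) (nat_lit 145) (nat_lit 5) (nat_lit 140) (nat_lit 5) (nat_lit 446) (nat_lit 397) (nat_lit 177)) (XT.lf (nat_lit 0) (nat_lit 15511127130) (nat_lit 304) (nat_lit 13244275515) (nat_lit 380) (nat_lit 21791841610) (nat_lit 135) (nat_lit 5) (nat_lit 139) (nat_lit 5) (nat_lit 140) (nat_lit 5) (nat_lit 447) (nat_lit 397) (nat_lit 176))))))) (XT.nd (nat_lit 1092) (nat_lit 1824) (nat_lit 0) (XT.nd (nat_lit 546) (nat_lit 1140) (nat_lit 0) (XT.nd (nat_lit 234) (nat_lit 532) (nat_lit 0) (XT.nd (nat_lit 78) (nat_lit 684) (nat_lit 0) (XT.lf (nat_lit 0) (nat_lit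 39215034930) (nat_lit 380) (nat_lit 6565840000) (nat_lit 76) (nat_lit 5708402694) (nat_lit 135) (nat_lit 5) (nat_lit 140) (nat_lit 5) (nat_lit 136) (nat_lit 5) (nat_lit 448) (nat_lit 397) (nat_lit 175)) (XT.nd (nat_lit 78) (nat_lit 380) (nat_lit 0) (XT.lf (nat_lit 0) (nat_lit 23075298042) (nat_lit 304) (nat_lit 27264458588) (nat_lit 380) (nat_lit 2109276689) (nat_lit 131) (nat_lit 5) (nat_lit 135) (nat_lit 5) (nat_lit 136) (nat_lit 5) (nat_lit 449) (nat_lit 397) (nat_lit 174)) (XT.lf (nat_lit 0) (nat_lit 225642454) (nat_lit 304) (nat_lit 8039341101) (nat_lit 380) (nat_lit 45168162676) (nat_lit 126) (nat_lit 5) (nat_lit 130) (nat_lit 5) (nat_lit 131) (nat_lit 5) (nat_lit 450) (nat_lit 397) (nat_lit 173)))) (XT.nd (nat_lit 156) (nat_lit 228) (nat_lit 0) (XT.nd (nat_lit 78) (nat_lit 304) (nat_lit 0) (XT.lf (nat_lit 0) (nat_lit 19319080966) (nat_lit 380) (nat_lit 23262064214) (nat_lit 76) (nat_lit 11852681031) (nat_lit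 126) (nat_lit 5) (nat_lit 131) (nat_lit 5) (nat_lit 127) (nat_lit 5) (nat_lit 451) (nat_lit 397) (nat_lit 172)) (XT.lf (nat_lit 0) (nat_lit 7649047067) (nat_lit 304) (nat_lit 23207307299) (nat_lit 380) (nat_lit 24603625932) (nat_lit 122) (nat_lit 5) (nat_lit 126) (nat_lit 5) (nat_lit 127) (nat_lit 5) (nat_lit 452) (nat_lit 397) (nat_lit 171))) (XT.nd (nat_lit 78) (nat_lit 228) (nat_lit 0) (XT.lf (nat_lit 0) (nat_lit 39962009790) (nat_lit 304) (nat_lit 3011089095) (nat_lit 380) (nat_lit 13536819826) (nat_lit 122) (nat_lit 5) (nat_lit 126) (nat_lit 5) (nat_lit 127) (nat_lit 5) (nat_lit 453) (nat_lit 397) (nat_lit 170)) (XT.lf (nat_lit 0) (nat_lit 15787762530) (nat_lit 228) (nat_lit 39986852434) (nat_lit 304) (nat_lit 1807102518) (nat_lit 119) (nat_lit 5) (nat_lit 122) (nat_lit 5) (nat_lit 123) (nat_lit 5) (nat_lit 454) (nat_lit 397) (nat_lit 169))))) (XT.nd (nat_lit 234) (nat_lit 760) (nat_lit 0) (XT.nd (nat_lit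 78) (nat_lit 304) (nat_lit 0) (XT.lf (nat_lit 0) (nat_lit 10271078899) (nat_lit 304) (nat_lit 9380478410) (nat_lit 76) (nat_lit 39025238272) (nat_lit 118) (nat_lit 5) (nat_lit 122) (nat_lit 5) (nat_lit 119) (nat_lit 5) (nat_lit 455) (nat_lit 397) (nat_lit 168)) (XT.nd (nat_lit 78) (nat_lit 0) (nat_lit 0) (XT.lf (nat_lit 0) (nat_lit 22923909429) (nat_lit 380) (nat_lit 35349491171) (nat_lit 76) (nat_lit 1523330180) (nat_lit 114) (nat_lit 5) (nat_lit 119) (nat_lit 5) (nat_lit 115) (nat_lit 5) (nat_lit 456) (nat_lit 397) (nat_lit 167)) (XT.lf (nat_lit 0) (nat_lit 36245111056) (nat_lit 380) (nat_lit 1663106114) (nat_lit 76) (nat_lit 23033383529) (nat_lit 114) (nat_lit 5) (nat_lit 119) (nat_lit 5) (nat_lit 115) (nat_lit 5) (nat_lit 457) (nat_lit 397) (nat_lit 166)))) (XT.nd (nat_lit 156) (nat_lit 228) (nat_lit 0) (XT.nd (nat_lit 78) (nat_lit 304) (nat_lit 0) (XT.lf (nat_lit 0) (nat_lit 33689075552) (nat_lit 228) (nat_lit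 16599309301) (nat_lit 304) (nat_lit 11822759023) (nat_lit 111) (nat_lit 5) (nat_lit 114) (nat_lit 5) (nat_lit 115) (nat_lit 5) (nat_lit 458) (nat_lit 397) (nat_lit 165)) (XT.lf (nat_lit 0) (nat_lit 1543786066) (nat_lit 304) (nat_lit 56425375697) (nat_lit 76) (nat_lit 5342157947) (nat_lit 107) (nat_lit 5) (nat_lit 111) (nat_lit 5) (nat_lit 108) (nat_lit 5) (nat_lit 459) (nat_lit 397) (nat_lit 164))) (XT.nd (nat_lit 78) (nat_lit 228) (nat_lit 0) (XT.lf (nat_lit 0) (nat_lit 15526514538) (nat_lit 304) (nat_lit 20989526706) (nat_lit 76) (nat_lit 28014363705) (nat_lit 107) (nat_lit 5) (nat_lit 111) (nat_lit 5) (nat_lit 108) (nat_lit 5) (nat_lit 460) (nat_lit 397) (nat_lit 163)) (XT.lf (nat_lit 0) (nat_lit 15815877751) (nat_lit 228) (nat_lit 14263533732) (nat_lit 304) (nat_lit 35702130880) (nat_lit 104) (nat_lit 5) (nat_lit 107) (nat_lit 5) (nat_lit 108) (nat_lit 5) (nat_lit 461) (nat_lit 397) (nat_lit 162)))))) (XT.nd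 (nat_lit 546) (nat_lit 836) (nat_lit 0) (XT.nd (nat_lit 234) (nat_lit 684) (nat_lit 0) (XT.nd (nat_lit 78) (nat_lit 304) (nat_lit 0) (XT.lf (nat_lit 0) (nat_lit 45364824822) (nat_lit 304) (nat_lit 12995612895) (nat_lit 76) (nat_lit 8700898508) (nat_lit 104) (nat_lit 5) (nat_lit 108) (nat_lit 5) (nat_lit 105) (nat_lit 5) (nat_lit 462) (nat_lit 397) (nat_lit 161)) (XT.nd (nat_lit 78) (nat_lit 76) (nat_lit 0) (XT.lf (nat_lit 0) (nat_lit 25436583366) (nat_lit 228) (nat_lit 36056656991) (nat_lit 304) (nat_lit 6874750556) (nat_lit 101) (nat_lit 5) (nat_lit 104) (nat_lit 5) (nat_lit 105) (nat_lit 5) (nat_lit 463) (nat_lit 397) (nat_lit 160)) (XT.lf (nat_lit 0) (nat_lit 8359150711) (nat_lit 304) (nat_lit 4505829219) (nat_lit 76) (nat_lit 56842508355) (nat_lit 100) (nat_lit 5) (nat_lit 104) (nat_lit 5) (nat_lit 101) (nat_lit 5) (nat_lit 464) (nat_lit 397) (nat_lit 159)))) (XT.nd (nat_lit 156) (nat_lit 228) (nat_lit 0) (XT.nd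 (nat_lit 78) (nat_lit 228) (nat_lit 0) (XT.lf (nat_lit 0) (nat_lit 24363820001) (nat_lit 304) (nat_lit 35485861275) (nat_lit 76) (nat_lit 11221889684) (nat_lit 97) (nat_lit 5) (nat_lit 101) (nat_lit 5) (nat_lit 98) (nat_lit 5) (nat_lit 465) (nat_lit 397) (nat_lit 158)) (XT.lf (nat_lit 0) (nat_lit 4454192275) (nat_lit 228) (nat_lit 36609336902) (nat_lit 304) (nat_lit 31406600125) (nat_lit 94) (nat_lit 5) (nat_lit 97) (nat_lit 5) (nat_lit 98) (nat_lit 5) (nat_lit 466) (nat_lit 397) (nat_lit 157))) (XT.nd (nat_lit 78) (nat_lit 228) (nat_lit 0) (XT.lf (nat_lit 0) (nat_lit 46317845622) (nat_lit 228) (nat_lit 12303495162) (nat_lit 304) (nat_lit 15278590452) (nat_lit 94) (nat_lit 5) (nat_lit 97) (nat_lit 5) (nat_lit 98) (nat_lit 5) (nat_lit 467) (nat_lit 397) (nat_lit 156)) (XT.lf (nat_lit 0) (nat_lit 1567651238) (nat_lit 228) (nat_lit 61162417928) (nat_lit 76) (nat_lit 12634361493) (nat_lit 91) (nat_lit 5) (nat_lit 94)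 (nat_lit 5) (nat_lit 92) (nat_lit 5) (nat_lit 468) (nat_lit 397) (nat_lit 155))))) (XT.nd (nat_lit 312) (nat_lit 456) (nat_lit 0) (XT.nd (nat_lit 156) (nat_lit 152) (nat_lit 0) (XT.nd (nat_lit 78) (nat_lit 228) (nat_lit 0) (XT.lf (nat_lit 0) (nat_lit 19014100889) (nat_lit 228) (nat_lit 19337318109) (nat_lit 76) (nat_lit 38504850873) (nat_lit 91) (nat_lit 5) (nat_lit 94) (nat_lit 5) (nat_lit 92) (nat_lit 5) (nat_lit 469) (nat_lit 397) (nat_lit 154)) (XT.lf (nat_lit 0) (nat_lit 24213076406) (nat_lit 228) (nat_lit 13002459121) (nat_lit 304) (nat_lit 41170381147) (nat_lit 88) (nat_lit 5) (nat_lit 91) (nat_lit 5) (nat_lit 92) (nat_lit 5) (nat_lit 470) (nat_lit 397) (nat_lit 153))) (XT.nd (nat_lit 78) (nat_lit 152) (nat_lit 0) (XT.lf (nat_lit 0) (nat_lit 56285056147) (nat_lit 304) (nat_lit 10619092120) (nat_lit 76) (nat_lit 13047643475) (nat_lit 88) (nat_lit 5) (nat_lit 92) (nat_lit 5) (nat_lit 89) (nat_lit 5) (nat_lit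 471) (nat_lit 397) (nat_lit 152)) (XT.lf (nat_lit 0) (nat_lit 34789506067) (nat_lit 152) (nat_lit 41599193474) (nat_lit 228) (nat_lit 5162082556) (nat_lit 86) (nat_lit 5) (nat_lit 88) (nat_lit 5) (nat_lit 89) (nat_lit 5) (nat_lit 472) (nat_lit 397) (nat_lit 151)))) (XT.nd (nat_lit 156) (nat_lit 152) (nat_lit 0) (XT.nd (nat_lit 78) (nat_lit 228) (nat_lit 0) (XT.lf (nat_lit 0) (nat_lit 13733694801) (nat_lit 228) (nat_lit 1553034526) (nat_lit 76) (nat_lit 67903789801) (nat_lit 85) (nat_lit 5) (nat_lit 88) (nat_lit 5) (nat_lit 86) (nat_lit 5) (nat_lit 473) (nat_lit 397) (nat_lit 150)) (XT.lf (nat_lit 0) (nat_lit 33650717060) (nat_lit 304) (nat_lit 39129896728) (nat_lit 76) (nat_lit 12080557595) (nat_lit 82) (nat_lit 5) (nat_lit 86) (nat_lit 5) (nat_lit 83) (nat_lit 5) (nat_lit 474) (nat_lit 397) (nat_lit 149))) (XT.nd (nat_lit 47112) (nat_lit 0) (nat_lit 13452) (XT.lf (nat_lit 0) (nat_lit 7884982357) (nat_lit 152)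 (nat_lit 46522179113) (nat_lit 228) (nat_lit 32167524524) (nat_lit 80) (nat_lit 5) (nat_lit 82) (nat_lit 5) (nat_lit 83) (nat_lit 5) (nat_lit 475) (nat_lit 397) (nat_lit 148)) (XT.lf (nat_lit 0) (nat_lit 2150989633) (nat_lit 1292) (nat_lit 4593343699) (nat_lit 1292) (nat_lit 4593343699) (nat_lit 257) (nat_lit 3) (nat_lit 274) (nat_lit 3) (nat_lit 274) (nat_lit 5) (nat_lit 398) (nat_lit 398) (nat_lit 224))))))))
noncomputable def xc218 : XT := (XT.nd (nat_lit 2262) (nat_lit 6384) (nat_lit 0) (XT.nd (nat_lit 1092) (nat_lit 4180) (nat_lit 0) (XT.nd (nat_lit 546) (nat_lit 0) (nat_lit 304) (XT.nd (nat_lit 234) (nat_lit 0) (nat_lit 152) (XT.nd (nat_lit 78) (nat_lit 0) (nat_lit 76) (XT.lf (nat_lit 76) (nat_lit 1869766708) (nat_lit 0) (nat_lit 2641350195) (nat_lit 1292) (nat_lit 18499987818) (nat_lit 258) (nat_lit 5) (nat_lit 257) (nat_lit 3) (nat_lit 274) (nat_lit 5) (nat_lit 399) (nat_lit 398) (nat_lit 223)) (XT.nd (nat_lit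 78) (nat_lit 0) (nat_lit 0) (XT.lf (nat_lit 0) (nat_lit 4897279219) (nat_lit 1216) (nat_lit 9993609863) (nat_lit 1292) (nat_lit 8460917914) (nat_lit 258) (nat_lit 5) (nat_lit 274) (nat_lit 5) (nat_lit 275) (nat_lit 5) (nat_lit 400) (nat_lit 398) (nat_lit 222)) (XT.lf (nat_lit 76) (nat_lit 1488759770) (nat_lit 0) (nat_lit 3841929127) (nat_lit 1292) (nat_lit 18370973138) (nat_lit 259) (nat_lit 5) (nat_lit 258) (nat_lit 5) (nat_lit 275) (nat_lit 5) (nat_lit 401) (nat_lit 398) (nat_lit 221)))) (XT.nd (nat_lit 156) (nat_lit 0) (nat_lit 76) (XT.nd (nat_lit 78) (nat_lit 0) (nat_lit 0) (XT.lf (nat_lit 0) (nat_lit 5946813873) (nat_lit 1216) (nat_lit 10614814020) (nat_lit 1292) (nat_lit 7495294966) (nat_lit 259) (nat_lit 5) (nat_lit 275) (nat_lit 5) (nat_lit 276) (nat_lit 5) (nat_lit 402) (nat_lit 398) (nat_lit 220)) (XT.lf (nat_lit 76) (nat_lit 1316117809) (nat_lit 0) (nat_lit 5311464248) (nat_lit 1292) (nat_lit 17793876145)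 (nat_lit 260) (nat_lit 5) (nat_lit 259) (nat_lit 5) (nat_lit 276) (nat_lit 5) (nat_lit 403) (nat_lit 398) (nat_lit 219))) (XT.nd (nat_lit 78) (nat_lit 0) (nat_lit 0) (XT.lf (nat_lit 0) (nat_lit 7492945608) (nat_lit 1216) (nat_lit 11035401149) (nat_lit 1292) (nat_lit 6263659115) (nat_lit 260) (nat_lit 5) (nat_lit 276) (nat_lit 5) (nat_lit 277) (nat_lit 5) (nat_lit 404) (nat_lit 398) (nat_lit 218)) (XT.lf (nat_lit 76) (nat_lit 1367958708) (nat_lit 0) (nat_lit 7077769693) (nat_lit 1292) (nat_lit 16726099216) (nat_lit 261) (nat_lit 5) (nat_lit 260) (nat_lit 5) (nat_lit 277) (nat_lit 5) (nat_lit 405) (nat_lit 398) (nat_lit 217))))) (XT.nd (nat_lit 234) (nat_lit 0) (nat_lit 76) (XT.nd (nat_lit 78) (nat_lit 0) (nat_lit 0) (XT.lf (nat_lit 0) (nat_lit 9580801929) (nat_lit 1216) (nat_lit 11239402050) (nat_lit 1292) (nat_lit 4738230171) (nat_lit 261) (nat_lit 5) (nat_lit 277) (nat_lit 5) (nat_lit 278) (nat_lit 5) (nat_lit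 406) (nat_lit 398) (nat_lit 216)) (XT.nd (nat_lit 78) (nat_lit 0) (nat_lit 76) (XT.lf (nat_lit 76) (nat_lit 1661532868) (nat_lit 0) (nat_lit 9170396609) (nat_lit 1292) (nat_lit 15122250661) (nat_lit 262) (nat_lit 5) (nat_lit 261) (nat_lit 5) (nat_lit 278) (nat_lit 5) (nat_lit 407) (nat_lit 398) (nat_lit 215)) (XT.lf (nat_lit 0) (nat_lit 12258459250) (nat_lit 1216) (nat_lit 11209733115) (nat_lit 1292) (nat_lit 2889471366) (nat_lit 262) (nat_lit 5) (nat_lit 278) (nat_lit 5) (nat_lit 279) (nat_lit 5) (nat_lit 408) (nat_lit 398) (nat_lit 214)))) (XT.nd (nat_lit 156) (nat_lit 0) (nat_lit 76) (XT.nd (nat_lit 78) (nat_lit 0) (nat_lit 76) (XT.lf (nat_lit 76) (nat_lit 2215270110) (nat_lit 0) (nat_lit 11620775816) (nat_lit 1292) (nat_lit 12933959314) (nat_lit 263) (nat_lit 5) (nat_lit 262) (nat_lit 5) (nat_lit 279) (nat_lit 5) (nat_lit 409) (nat_lit 398) (nat_lit 213)) (XT.lf (nat_lit 0) (nat_lit 15577136563) (nat_lit 1216)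 (nat_lit 10928150146) (nat_lit 1292) (nat_lit 685946196) (nat_lit 263) (nat_lit 5) (nat_lit 279) (nat_lit 5) (nat_lit 280) (nat_lit 5) (nat_lit 410) (nat_lit 398) (nat_lit 212))) (XT.nd (nat_lit 78) (nat_lit 0) (nat_lit 0) (XT.lf (nat_lit 76) (nat_lit 3048828921) (nat_lit 0) (nat_lit 14462368337) (nat_lit 1292) (nat_lit 10109679191) (nat_lit 264) (nat_lit 5) (nat_lit 263) (nat_lit 5) (nat_lit 280) (nat_lit 5) (nat_lit 411) (nat_lit 398) (nat_lit 211)) (XT.lf (nat_lit 76) (nat_lit 17666321655) (nat_lit 0) (nat_lit 1943762563) (nat_lit 1292) (nat_lit 8450122081) (nat_lit 264) (nat_lit 5) (nat_lit 263) (nat_lit 5) (nat_lit 280) (nat_lit 5) (nat_lit 412) (nat_lit 398) (nat_lit 210)))))) (XT.nd (nat_lit 546) (nat_lit 2204) (nat_lit 0) (XT.nd (nat_lit 234) (nat_lit 1368) (nat_lit 0) (XT.nd (nat_lit 78) (nat_lit 1140) (nat_lit 0) (XT.lf (nat_lit 76) (nat_lit 4183147960) (nat_lit 0) (nat_lit 17730824541) (nat_lit 1292)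 (nat_lit 6594483603) (nat_lit 265) (nat_lit 5) (nat_lit 264) (nat_lit 5) (nat_lit 281) (nat_lit 5) (nat_lit 413) (nat_lit 398) (nat_lit 209)) (XT.nd (nat_lit 78) (nat_lit 1140) (nat_lit 0) (XT.lf (nat_lit 76) (nat_lit 19388114165) (nat_lit 0) (nat_lit 5019512494) (nat_lit 1292) (nat_lit 4558908336) (nat_lit 265) (nat_lit 5) (nat_lit 264) (nat_lit 5) (nat_lit 281) (nat_lit 5) (nat_lit 414) (nat_lit 398) (nat_lit 208)) (XT.lf (nat_lit 0) (nat_lit 5640499738) (nat_lit 1216) (nat_lit 21464152624) (nat_lit 1292) (nat_lit 2329848070) (nat_lit 249) (nat_lit 5) (nat_lit 265) (nat_lit 5) (nat_lit 266) (nat_lit 5) (nat_lit 415) (nat_lit 398) (nat_lit 207)))) (XT.nd (nat_lit 156) (nat_lit 608) (nat_lit 0) (XT.nd (nat_lit 78) (nat_lit 684) (nat_lit 0) (XT.lf (nat_lit 0) (nat_lit 110898336) (nat_lit 1292) (nat_lit 8454470023) (nat_lit 76) (nat_lit 21346822657) (nat_lit 248) (nat_lit 5) (nat_lit 265) (nat_lit 5) (nat_lit 249)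 (nat_lit 5) (nat_lit 416) (nat_lit 398) (nat_lit 206)) (XT.lf (nat_lit 0) (nat_lit 2692982981) (nat_lit 760) (nat_lit 22982720418) (nat_lit 76) (nat_lit 4724369529) (nat_lit 239) (nat_lit 5) (nat_lit 249) (nat_lit 5) (nat_lit 240) (nat_lit 5) (nat_lit 417) (nat_lit 398) (nat_lit 205))) (XT.nd (nat_lit 78) (nat_lit 608) (nat_lit 0) (XT.lf (nat_lit 0) (nat_lit 5520489689) (nat_lit 760) (nat_lit 7049901065) (nat_lit 76) (nat_lit 18327162679) (nat_lit 239) (nat_lit 5) (nat_lit 249) (nat_lit 5) (nat_lit 240) (nat_lit 5) (nat_lit 418) (nat_lit 398) (nat_lit 204)) (XT.lf (nat_lit 0) (nat_lit 8531423862) (nat_lit 684) (nat_lit 21872754645) (nat_lit 76) (nat_lit 1002822674) (nat_lit 231) (nat_lit 5) (nat_lit 240) (nat_lit 5) (nat_lit 232) (nat_lit 5) (nat_lit 419) (nat_lit 398) (nat_lit 203))))) (XT.nd (nat_lit 312) (nat_lit 1064) (nat_lit 0) (XT.nd (nat_lit 156) (nat_lit 532) (nat_lit 0) (XT.nd (nat_lit 78) (nat_lit 608)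 (nat_lit 0) (XT.lf (nat_lit 0) (nat_lit 11826126590) (nat_lit 684) (nat_lit 5297163821) (nat_lit 76) (nat_lit 14802639602) (nat_lit 231) (nat_lit 5) (nat_lit 240) (nat_lit 5) (nat_lit 232) (nat_lit 5) (nat_lit 420) (nat_lit 398) (nat_lit 202)) (XT.lf (nat_lit 0) (nat_lit 12007244338) (nat_lit 608) (nat_lit 3325018095) (nat_lit 684) (nat_lit 17124787361) (nat_lit 223) (nat_lit 5) (nat_lit 231) (nat_lit 5) (nat_lit 232) (nat_lit 5) (nat_lit 421) (nat_lit 398) (nat_lit 201))) (XT.nd (nat_lit 78) (nat_lit 532) (nat_lit 0) (XT.lf (nat_lit 0) (nat_lit 19099485041) (nat_lit 684) (nat_lit 3171123493) (nat_lit 76) (nat_lit 10728818372) (nat_lit 223) (nat_lit 5) (nat_lit 232) (nat_lit 5) (nat_lit 224) (nat_lit 5) (nat_lit 422) (nat_lit 398) (nat_lit 200)) (XT.lf (nat_lit 0) (nat_lit 14880642404) (nat_lit 532) (nat_lit 8272353138) (nat_lit 608) (nat_lit 10399882449) (nat_lit 216) (nat_lit 5) (nat_lit 223) (nat_lit 5) (nat_lit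 224) (nat_lit 5) (nat_lit 423) (nat_lit 398) (nat_lit 199)))) (XT.nd (nat_lit 156) (nat_lit 532) (nat_lit 0) (XT.nd (nat_lit 78) (nat_lit 532) (nat_lit 0) (XT.lf (nat_lit 0) (nat_lit 27416888400) (nat_lit 608) (nat_lit 645183503) (nat_lit 76) (nat_lit 6058198165) (nat_lit 216) (nat_lit 5) (nat_lit 224) (nat_lit 5) (nat_lit 217) (nat_lit 5) (nat_lit 424) (nat_lit 398) (nat_lit 198)) (XT.lf (nat_lit 0) (nat_lit 18193086316) (nat_lit 532) (nat_lit 13869836369) (nat_lit 608) (nat_lit 2634135233) (nat_lit 209) (nat_lit 5) (nat_lit 216) (nat_lit 5) (nat_lit 217) (nat_lit 5) (nat_lit 425) (nat_lit 398) (nat_lit 197))) (XT.nd (nat_lit 78) (nat_lit 0) (nat_lit 0) (XT.lf (nat_lit 0) (nat_lit 1561027953) (nat_lit 532) (nat_lit 32950719078) (nat_lit 76) (nat_lit 777927248) (nat_lit 202) (nat_lit 5) (nat_lit 209) (nat_lit 5) (nat_lit 203) (nat_lit 5) (nat_lit 426) (nat_lit 398) (nat_lit 196)) (XT.lf (nat_lit 0) (nat_lit 6132241884)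 (nat_lit 532) (nat_lit 13977413525) (nat_lit 76) (nat_lit 15780537812) (nat_lit 202) (nat_lit 5) (nat_lit 209) (nat_lit 5) (nat_lit 203) (nat_lit 5) (nat_lit 427) (nat_lit 398) (nat_lit 195))))))) (XT.nd (nat_lit 1092) (nat_lit 2736) (nat_lit 0) (XT.nd (nat_lit 546) (nat_lit 1672) (nat_lit 0) (XT.nd (nat_lit 234) (nat_lit 988) (nat_lit 0) (XT.nd (nat_lit 78) (nat_lit 456) (nat_lit 0) (XT.lf (nat_lit 0) (nat_lit 5673101173) (nat_lit 532) (nat_lit 5219603423) (nat_lit 608) (nat_lit 25614460428) (nat_lit 195) (nat_lit 5) (nat_lit 202) (nat_lit 5) (nat_lit 203) (nat_lit 5) (nat_lit 428) (nat_lit 398) (nat_lit 194)) (XT.nd (nat_lit 78) (nat_lit 456) (nat_lit 0) (XT.lf (nat_lit 0) (nat_lit 16033396506) (nat_lit 608) (nat_lit 11040142167) (nat_lit 76) (nat_lit 10061985497) (nat_lit 195) (nat_lit 5) (nat_lit 203) (nat_lit 5) (nat_lit 196) (nat_lit 5) (nat_lit 429) (nat_lit 398) (nat_lit 193)) (XT.lf (nat_lit 0) (nat_lit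 9478216338) (nat_lit 456) (nat_lit 11990572916) (nat_lit 532) (nat_lit 16309731061) (nat_lit 189) (nat_lit 5) (nat_lit 195) (nat_lit 5) (nat_lit 196) (nat_lit 5) (nat_lit 430) (nat_lit 398) (nat_lit 192)))) (XT.nd (nat_lit 156) (nat_lit 532) (nat_lit 0) (XT.nd (nat_lit 78) (nat_lit 456) (nat_lit 0) (XT.lf (nat_lit 0) (nat_lit 27211635882) (nat_lit 532) (nat_lit 7636898360) (nat_lit 76) (nat_lit 3587940948) (nat_lit 189) (nat_lit 5) (nat_lit 196) (nat_lit 5) (nat_lit 190) (nat_lit 5) (nat_lit 431) (nat_lit 398) (nat_lit 191)) (XT.lf (nat_lit 0) (nat_lit 13794250027) (nat_lit 456) (nat_lit 19581630278) (nat_lit 532) (nat_lit 5730815627) (nat_lit 183) (nat_lit 5) (nat_lit 189) (nat_lit 5) (nat_lit 190) (nat_lit 5) (nat_lit 432) (nat_lit 398) (nat_lit 190))) (XT.nd (nat_lit 78) (nat_lit 456) (nat_lit 0) (XT.lf (nat_lit 0) (nat_lit 5126820) (nat_lit 532) (nat_lit 3772534479) (nat_lit 76) (nat_lit 36017112499) (nat_lit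 182) (nat_lit 5) (nat_lit 189) (nat_lit 5) (nat_lit 183) (nat_lit 5) (nat_lit 433) (nat_lit 398) (nat_lit 189)) (XT.lf (nat_lit 0) (nat_lit 6098284799) (nat_lit 532) (nat_lit 21899397159) (nat_lit 76) (nat_lit 12495100734) (nat_lit 176) (nat_lit 5) (nat_lit 183) (nat_lit 5) (nat_lit 177) (nat_lit 5) (nat_lit 434) (nat_lit 398) (nat_lit 188))))) (XT.nd (nat_lit 234) (nat_lit 836) (nat_lit 0) (XT.nd (nat_lit 78) (nat_lit 380) (nat_lit 0) (XT.lf (nat_lit 0) (nat_lit 465744184) (nat_lit 456) (nat_lit 11986754652) (nat_lit 532) (nat_lit 28756885702) (nat_lit 170) (nat_lit 5) (nat_lit 176) (nat_lit 5) (nat_lit 177) (nat_lit 5) (nat_lit 435) (nat_lit 398) (nat_lit 187)) (XT.nd (nat_lit 78) (nat_lit 380) (nat_lit 0) (XT.lf (nat_lit 0) (nat_lit 19261910429) (nat_lit 532) (nat_lit 18038207416) (nat_lit 76) (nat_lit 4639429970) (nat_lit 170) (nat_lit 5) (nat_lit 177) (nat_lit 5) (nat_lit 171) (nat_lit 5) (nat_lit 436) (nat_lit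 398) (nat_lit 186)) (XT.lf (nat_lit 0) (nat_lit 5331191314) (nat_lit 380) (nat_lit 21112341082) (nat_lit 456) (nat_lit 16243046250) (nat_lit 165) (nat_lit 5) (nat_lit 170) (nat_lit 5) (nat_lit 171) (nat_lit 5) (nat_lit 437) (nat_lit 398) (nat_lit 185)))) (XT.nd (nat_lit 156) (nat_lit 456) (nat_lit 0) (XT.nd (nat_lit 78) (nat_lit 380) (nat_lit 0) (XT.lf (nat_lit 0) (nat_lit 29768915347) (nat_lit 380) (nat_lit 4251872808) (nat_lit 456) (nat_lit 9429827174) (nat_lit 165) (nat_lit 5) (nat_lit 170) (nat_lit 5) (nat_lit 171) (nat_lit 5) (nat_lit 438) (nat_lit 398) (nat_lit 184)) (XT.lf (nat_lit 0) (nat_lit 10784069009) (nat_lit 380) (nat_lit 31269106025) (nat_lit 456) (nat_lit 2177564142) (nat_lit 160) (nat_lit 5) (nat_lit 165) (nat_lit 5) (nat_lit 166) (nat_lit 5) (nat_lit 439) (nat_lit 398) (nat_lit 183))) (XT.nd (nat_lit 78) (nat_lit 380) (nat_lit 0) (XT.lf (nat_lit 0) (nat_lit 5368719093) (nat_lit 456) (nat_lit 8862702663)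 (nat_lit 76) (nat_lit 30795927542) (nat_lit 159) (nat_lit 5) (nat_lit 165) (nat_lit 5) (nat_lit 160) (nat_lit 5) (nat_lit 440) (nat_lit 398) (nat_lit 182)) (XT.lf (nat_lit 0) (nat_lit 13290595954) (nat_lit 456) (nat_lit 29114258344) (nat_lit 76) (nat_lit 3436567892) (nat_lit 154) (nat_lit 5) (nat_lit 160) (nat_lit 5) (nat_lit 155) (nat_lit 5) (nat_lit 441) (nat_lit 398) (nat_lit 181)))))) (XT.nd (nat_lit 546) (nat_lit 1292) (nat_lit 0) (XT.nd (nat_lit 234) (nat_lit 760) (nat_lit 0) (XT.nd (nat_lit 78) (nat_lit 684) (nat_lit 0) (XT.lf (nat_lit 0) (nat_lit 21679595861) (nat_lit 456) (nat_lit 3555087474) (nat_lit 76) (nat_lit 21438350346) (nat_lit 154) (nat_lit 5) (nat_lit 160) (nat_lit 5) (nat_lit 155) (nat_lit 5) (nat_lit 442) (nat_lit 398) (nat_lit 180)) (XT.nd (nat_lit 78) (nat_lit 304) (nat_lit 0) (XT.lf (nat_lit 0) (nat_lit 23221600555) (nat_lit 380) (nat_lit 7320118021) (nat_lit 456) (nat_lit 16981231760) (nat_lit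 149) (nat_lit 5) (nat_lit 154) (nat_lit 5) (nat_lit 155) (nat_lit 5) (nat_lit 443) (nat_lit 398) (nat_lit 179)) (XT.lf (nat_lit 0) (nat_lit 2414513432) (nat_lit 304) (nat_lit 37419917833) (nat_lit 380) (nat_lit 8558991828) (nat_lit 145) (nat_lit 5) (nat_lit 149) (nat_lit 5) (nat_lit 150) (nat_lit 5) (nat_lit 444) (nat_lit 398) (nat_lit 178)))) (XT.nd (nat_lit 156) (nat_lit 304) (nat_lit 0) (XT.nd (nat_lit 78) (nat_lit 380) (nat_lit 0) (XT.lf (nat_lit 0) (nat_lit 432221049) (nat_lit 380) (nat_lit 18931091297) (nat_lit 76) (nat_lit 29917107597) (nat_lit 144) (nat_lit 5) (nat_lit 149) (nat_lit 5) (nat_lit 145) (nat_lit 5) (nat_lit 445) (nat_lit 398) (nat_lit 177)) (XT.lf (nat_lit 0) (nat_lit 9017015115) (nat_lit 380) (nat_lit 589121129) (nat_lit 456) (nat_lit 40582798743) (nat_lit 139) (nat_lit 5) (nat_lit 144) (nat_lit 5) (nat_lit 145) (nat_lit 5) (nat_lit 446) (nat_lit 398) (nat_lit 176))) (XT.nd (nat_lit 78) (nat_lit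 304) (nat_lit 0) (XT.lf (nat_lit 0) (nat_lit 19426884832) (nat_lit 456) (nat_lit 13111828649) (nat_lit 76) (nat_lit 18574843869) (nat_lit 139) (nat_lit 5) (nat_lit 145) (nat_lit 5) (nat_lit 140) (nat_lit 5) (nat_lit 447) (nat_lit 398) (nat_lit 175)) (XT.lf (nat_lit 0) (nat_lit 16096014047) (nat_lit 304) (nat_lit 13605184113) (nat_lit 380) (nat_lit 22359952296) (nat_lit 135) (nat_lit 5) (nat_lit 139) (nat_lit 5) (nat_lit 140) (nat_lit 5) (nat_lit 448) (nat_lit 398) (nat_lit 174))))) (XT.nd (nat_lit 312) (nat_lit 608) (nat_lit 0) (XT.nd (nat_lit 156) (nat_lit 380) (nat_lit 0) (XT.nd (nat_lit 78) (nat_lit 304) (nat_lit 0) (XT.lf (nat_lit 0) (nat_lit 40472537942) (nat_lit 380) (nat_lit 6644646130) (nat_lit 76) (nat_lit 5914323695) (nat_lit 135) (nat_lit 5) (nat_lit 140) (nat_lit 5) (nat_lit 136) (nat_lit 5) (nat_lit 449) (nat_lit 398) (nat_lit 173)) (XT.lf (nat_lit 0) (nat_lit 23884567533) (nat_lit 304) (nat_lit 28045197800)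 (nat_lit 380) (nat_lit 2090328364) (nat_lit 131) (nat_lit 5) (nat_lit 135) (nat_lit 5) (nat_lit 136) (nat_lit 5) (nat_lit 450) (nat_lit 398) (nat_lit 172))) (XT.nd (nat_lit 78) (nat_lit 0) (nat_lit 0) (XT.lf (nat_lit 0) (nat_lit 349879441) (nat_lit 304) (nat_lit 8242456666) (nat_lit 380) (nat_lit 46441407206) (nat_lit 126) (nat_lit 5) (nat_lit 130) (nat_lit 5) (nat_lit 131) (nat_lit 5) (nat_lit 451) (nat_lit 398) (nat_lit 171)) (XT.lf (nat_lit 0) (nat_lit 19976098972) (nat_lit 380) (nat_lit 23843907579) (nat_lit 76) (nat_lit 12244496307) (nat_lit 126) (nat_lit 5) (nat_lit 131) (nat_lit 5) (nat_lit 127) (nat_lit 5) (nat_lit 452) (nat_lit 398) (nat_lit 170)))) (XT.nd (nat_lit 156) (nat_lit 304) (nat_lit 0) (XT.nd (nat_lit 78) (nat_lit 0) (nat_lit 0) (XT.lf (nat_lit 0) (nat_lit 7993399604) (nat_lit 304) (nat_lit 23864939582) (nat_lit 380) (nat_lit 25263137353) (nat_lit 122) (nat_lit 5) (nat_lit 126) (nat_lit 5) (nat_lit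 127) (nat_lit 5) (nat_lit 453) (nat_lit 398) (nat_lit 169)) (XT.lf (nat_lit 0) (nat_lit 41272405156) (nat_lit 304) (nat_lit 3063958723) (nat_lit 380) (nat_lit 13866616308) (nat_lit 122) (nat_lit 5) (nat_lit 126) (nat_lit 5) (nat_lit 127) (nat_lit 5) (nat_lit 454) (nat_lit 398) (nat_lit 168))) (XT.nd (nat_lit 78) (nat_lit 76) (nat_lit 0) (XT.lf (nat_lit 0) (nat_lit 16373694572) (nat_lit 228) (nat_lit 41147502548) (nat_lit 304) (nat_lit 1785758056) (nat_lit 119) (nat_lit 5) (nat_lit 122) (nat_lit 5) (nat_lit 123) (nat_lit 5) (nat_lit 455) (nat_lit 398) (nat_lit 167)) (XT.lf (nat_lit 0) (nat_lit 10651136643) (nat_lit 304) (nat_lit 9551420246) (nat_lit 76) (nat_lit 40232372056) (nat_lit 118) (nat_lit 5) (nat_lit 122) (nat_lit 5) (nat_lit 119) (nat_lit 5) (nat_lit 456) (nat_lit 398) (nat_lit 166))))))))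
noncomputable def xc219 : XT := (XT.nd (nat_lit 49374) (nat_lit 0) (nat_lit 6688) (XT.nd (nat_lit 1092) (nat_lit 684) (nat_lit 0) (XT.nd (nat_lit 546) (nat_lit 988) (nat_lit 0) (XT.nd (nat_lit 234) (nat_lit 532) (nat_lit 0) (XT.nd (nat_lit 78) (nat_lit 228) (nat_lit 0) (XT.lf (nat_lit 0) (nat_lit 23682878850) (nat_lit 380) (nat_lit 36298817780) (nat_lit 76) (nat_lit 1606786137) (nat_lit 114) (nat_lit 5) (nat_lit 119) (nat_lit 5) (nat_lit 115) (nat_lit 5) (nat_lit 457) (nat_lit 398) (nat_lit 165)) (XT.nd (nat_lit 78) (nat_lit 228) (nat_lit 0) (XT.lf (nat_lit 0) (nat_lit 37401641220) (nat_lit 380) (nat_lit 1605078787) (nat_lit 76) (nat_lit 23761041396) (nat_lit 114) (nat_lit 5) (nat_lit 119) (nat_lit 5) (nat_lit 115) (nat_lit 5) (nat_lit 458) (nat_lit 398) (nat_lit 164)) (XT.lf (nat_lit 0) (nat_lit 34806610285) (nat_lit 228) (nat_lit 17058615315) (nat_lit 304) (nat_lit 12107195255) (nat_lit 111) (nat_lit 5) (nat_lit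 114) (nat_lit 5) (nat_lit 115) (nat_lit 5) (nat_lit 459) (nat_lit 398) (nat_lit 163)))) (XT.nd (nat_lit 156) (nat_lit 228) (nat_lit 0) (XT.nd (nat_lit 78) (nat_lit 0) (nat_lit 0) (XT.lf (nat_lit 0) (nat_lit 1658377260) (nat_lit 304) (nat_lit 58009283262) (nat_lit 76) (nat_lit 5540939459) (nat_lit 107) (nat_lit 5) (nat_lit 111) (nat_lit 5) (nat_lit 108) (nat_lit 5) (nat_lit 460) (nat_lit 398) (nat_lit 162)) (XT.lf (nat_lit 0) (nat_lit 16058598919) (nat_lit 304) (nat_lit 21513529297) (nat_lit 76) (nat_lit 28892189542) (nat_lit 107) (nat_lit 5) (nat_lit 111) (nat_lit 5) (nat_lit 108) (nat_lit 5) (nat_lit 461) (nat_lit 398) (nat_lit 161))) (XT.nd (nat_lit 78) (nat_lit 0) (nat_lit 0) (XT.lf (nat_lit 0) (nat_lit 16395001184) (nat_lit 228) (nat_lit 14652156774) (nat_lit 304) (nat_lit 36705859392) (nat_lit 104) (nat_lit 5) (nat_lit 107) (nat_lit 5) (nat_lit 108) (nat_lit 5) (nat_lit 462) (nat_lit 398) (nat_lit 160)) (XT.lf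 (nat_lit 0) (nat_lit 46789596501) (nat_lit 304) (nat_lit 13282334900) (nat_lit 76) (nat_lit 8999320044) (nat_lit 104) (nat_lit 5) (nat_lit 108) (nat_lit 5) (nat_lit 105) (nat_lit 5) (nat_lit 463) (nat_lit 398) (nat_lit 159))))) (XT.nd (nat_lit 234) (nat_lit 456) (nat_lit 0) (XT.nd (nat_lit 78) (nat_lit 304) (nat_lit 0) (XT.lf (nat_lit 0) (nat_lit 26301816009) (nat_lit 228) (nat_lit 37099171241) (nat_lit 304) (nat_lit 7016145134) (nat_lit 101) (nat_lit 5) (nat_lit 104) (nat_lit 5) (nat_lit 105) (nat_lit 5) (nat_lit 464) (nat_lit 398) (nat_lit 158)) (XT.nd (nat_lit 78) (nat_lit 228) (nat_lit 0) (XT.lf (nat_lit 0) (nat_lit 8671655836) (nat_lit 304) (nat_lit 4540605997) (nat_lit 76) (nat_lit 58584589976) (nat_lit 100) (nat_lit 5) (nat_lit 104) (nat_lit 5) (nat_lit 101) (nat_lit 5) (nat_lit 465) (nat_lit 398) (nat_lit 157)) (XT.lf (nat_lit 0) (nat_lit 25155993184) (nat_lit 304) (nat_lit 36449558057) (nat_lit 76) (nat_lit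 11596320154) (nat_lit 97) (nat_lit 5) (nat_lit 101) (nat_lit 5) (nat_lit 98) (nat_lit 5) (nat_lit 466) (nat_lit 398) (nat_lit 156)))) (XT.nd (nat_lit 156) (nat_lit 228) (nat_lit 0) (XT.nd (nat_lit 78) (nat_lit 0) (nat_lit 0) (XT.lf (nat_lit 0) (nat_lit 4687708090) (nat_lit 228) (nat_lit 37668161519) (nat_lit 304) (nat_lit 32286541858) (nat_lit 94) (nat_lit 5) (nat_lit 97) (nat_lit 5) (nat_lit 98) (nat_lit 5) (nat_lit 467) (nat_lit 398) (nat_lit 155)) (XT.lf (nat_lit 0) (nat_lit 47804361619) (nat_lit 228) (nat_lit 12634293716) (nat_lit 304) (nat_lit 15676505185) (nat_lit 94) (nat_lit 5) (nat_lit 97) (nat_lit 5) (nat_lit 98) (nat_lit 5) (nat_lit 468) (nat_lit 398) (nat_lit 154))) (XT.nd (nat_lit 78) (nat_lit 0) (nat_lit 0) (XT.lf (nat_lit 0) (nat_lit 1673524911) (nat_lit 228) (nat_lit 62898694873) (nat_lit 76) (nat_lit 13051370530) (nat_lit 91) (nat_lit 5) (nat_lit 94) (nat_lit 5) (nat_lit 92) (nat_lit 5) (nat_lit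 469) (nat_lit 398) (nat_lit 153)) (XT.lf (nat_lit 0) (nat_lit 19641654145) (nat_lit 228) (nat_lit 19821713777) (nat_lit 76) (nat_lit 39696868431) (nat_lit 91) (nat_lit 5) (nat_lit 94) (nat_lit 5) (nat_lit 92) (nat_lit 5) (nat_lit 470) (nat_lit 398) (nat_lit 152)))))) (XT.nd (nat_lit 47658) (nat_lit 0) (nat_lit 13376) (XT.nd (nat_lit 234) (nat_lit 304) (nat_lit 0) (XT.nd (nat_lit 78) (nat_lit 152) (nat_lit 0) (XT.lf (nat_lit 0) (nat_lit 25034254105) (nat_lit 228) (nat_lit 13354124865) (nat_lit 304) (nat_lit 42347416398) (nat_lit 88) (nat_lit 5) (nat_lit 91) (nat_lit 5) (nat_lit 92) (nat_lit 5) (nat_lit 471) (nat_lit 398) (nat_lit 151)) (XT.nd (nat_lit 78) (nat_lit 152) (nat_lit 0) (XT.lf (nat_lit 0) (nat_lit 58028701597) (nat_lit 304) (nat_lit 10844349339) (nat_lit 76) (nat_lit 13475634479) (nat_lit 88) (nat_lit 5) (nat_lit 92) (nat_lit 5) (nat_lit 89) (nat_lit 5) (nat_lit 472) (nat_lit 398) (nat_lit 150)) (XT.lf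 (nat_lit 0) (nat_lit 35925591936) (nat_lit 152) (nat_lit 42809145895) (nat_lit 228) (nat_lit 5260929353) (nat_lit 86) (nat_lit 5) (nat_lit 88) (nat_lit 5) (nat_lit 89) (nat_lit 5) (nat_lit 473) (nat_lit 398) (nat_lit 149)))) (XT.nd (nat_lit 47268) (nat_lit 0) (nat_lit 13300) (XT.nd (nat_lit 78) (nat_lit 228) (nat_lit 0) (XT.lf (nat_lit 0) (nat_lit 14199028569) (nat_lit 228) (nat_lit 1508848276) (nat_lit 76) (nat_lit 69976751519) (nat_lit 85) (nat_lit 5) (nat_lit 88) (nat_lit 5) (nat_lit 86) (nat_lit 5) (nat_lit 474) (nat_lit 398) (nat_lit 148)) (XT.lf (nat_lit 0) (nat_lit 34713230556) (nat_lit 304) (nat_lit 40212678947) (nat_lit 76) (nat_lit 12479500806) (nat_lit 82) (nat_lit 5) (nat_lit 86) (nat_lit 5) (nat_lit 83) (nat_lit 5) (nat_lit 475) (nat_lit 398) (nat_lit 147))) (XT.nd (nat_lit 78) (nat_lit 0) (nat_lit 0) (XT.lf (nat_lit 0) (nat_lit 2340936639) (nat_lit 1292) (nat_lit 4666533583) (nat_lit 1292) (nat_lit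 4666533583) (nat_lit 257) (nat_lit 3) (nat_lit 274) (nat_lit 3) (nat_lit 274) (nat_lit 5) (nat_lit 399) (nat_lit 399) (nat_lit 222)) (XT.lf (nat_lit 76) (nat_lit 2053813693) (nat_lit 0) (nat_lit 2837395461) (nat_lit 1292) (nat_lit 18802806300) (nat_lit 258) (nat_lit 5) (nat_lit 257) (nat_lit 3) (nat_lit 274) (nat_lit 5) (nat_lit 400) (nat_lit 399) (nat_lit 221))))) (XT.nd (nat_lit 312) (nat_lit 0) (nat_lit 152) (XT.nd (nat_lit 156) (nat_lit 0) (nat_lit 76) (XT.nd (nat_lit 78) (nat_lit 0) (nat_lit 0) (XT.lf (nat_lit 0) (nat_lit 5280737348) (nat_lit 1216) (nat_lit 10160894672) (nat_lit 1292) (nat_lit 8603555667) (nat_lit 258) (nat_lit 5) (nat_lit 274) (nat_lit 5) (nat_lit 275) (nat_lit 5) (nat_lit 401) (nat_lit 399) (nat_lit 220)) (XT.lf (nat_lit 76) (nat_lit 1664646800) (nat_lit 0) (nat_lit 4056874416) (nat_lit 1292) (nat_lit 18684188256) (nat_lit 259) (nat_lit 5) (nat_lit 258) (nat_lit 5) (nat_lit 275) (nat_lit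 5) (nat_lit 402) (nat_lit 399) (nat_lit 219))) (XT.nd (nat_lit 78) (nat_lit 0) (nat_lit 0) (XT.lf (nat_lit 0) (nat_lit 6348474013) (nat_lit 1216) (nat_lit 10798127453) (nat_lit 1292) (nat_lit 7625258519) (nat_lit 259) (nat_lit 5) (nat_lit 275) (nat_lit 5) (nat_lit 276) (nat_lit 5) (nat_lit 403) (nat_lit 399) (nat_lit 218)) (XT.lf (nat_lit 76) (nat_lit 1489407517) (nat_lit 0) (nat_lit 5555041359) (nat_lit 1292) (nat_lit 18103041127) (nat_lit 260) (nat_lit 5) (nat_lit 259) (nat_lit 5) (nat_lit 276) (nat_lit 5) (nat_lit 404) (nat_lit 399) (nat_lit 217)))) (XT.nd (nat_lit 156) (nat_lit 0) (nat_lit 76) (XT.nd (nat_lit 78) (nat_lit 0) (nat_lit 0) (XT.lf (nat_lit 0) (nat_lit 7928636556) (nat_lit 1216) (nat_lit 11229348794) (nat_lit 1292) (nat_lit 6371384917) (nat_lit 260) (nat_lit 5) (nat_lit 276) (nat_lit 5) (nat_lit 277) (nat_lit 5) (nat_lit 405) (nat_lit 399) (nat_lit 216)) (XT.lf (nat_lit 76) (nat_lit 1544767599)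 (nat_lit 0) (nat_lit 7360397544) (nat_lit 1292) (nat_lit 17015568652) (nat_lit 261) (nat_lit 5) (nat_lit 260) (nat_lit 5) (nat_lit 277) (nat_lit 5) (nat_lit 406) (nat_lit 399) (nat_lit 215))) (XT.nd (nat_lit 78) (nat_lit 0) (nat_lit 0) (XT.lf (nat_lit 0) (nat_lit 10067632953) (nat_lit 1216) (nat_lit 11438045766) (nat_lit 1292) (nat_lit 4813461487) (nat_lit 261) (nat_lit 5) (nat_lit 277) (nat_lit 5) (nat_lit 278) (nat_lit 5) (nat_lit 407) (nat_lit 399) (nat_lit 214)) (XT.lf (nat_lit 76) (nat_lit 1848558981) (nat_lit 0) (nat_lit 9503246036) (nat_lit 1292) (nat_lit 15375090122) (nat_lit 262) (nat_lit 5) (nat_lit 261) (nat_lit 5) (nat_lit 278) (nat_lit 5) (nat_lit 408) (nat_lit 399) (nat_lit 213))))))) (XT.nd (nat_lit 1092) (nat_lit 4028) (nat_lit 0) (XT.nd (nat_lit 546) (nat_lit 2964) (nat_lit 0) (XT.nd (nat_lit 234) (nat_lit 0) (nat_lit 76) (XT.nd (nat_lit 78) (nat_lit 0) (nat_lit 0) (XT.lf (nat_lit 0) (nat_lit 12814914627)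 (nat_lit 1216) (nat_lit 11406563420) (nat_lit 1292) (nat_lit 2921193506) (nat_lit 262) (nat_lit 5) (nat_lit 278) (nat_lit 5) (nat_lit 279) (nat_lit 5) (nat_lit 409) (nat_lit 399) (nat_lit 212)) (XT.nd (nat_lit 78) (nat_lit 0) (nat_lit 76) (XT.lf (nat_lit 76) (nat_lit 2419822630) (nat_lit 0) (nat_lit 12015837557) (nat_lit 1292) (nat_lit 13131849958) (nat_lit 263) (nat_lit 5) (nat_lit 262) (nat_lit 5) (nat_lit 279) (nat_lit 5) (nat_lit 410) (nat_lit 399) (nat_lit 211)) (XT.lf (nat_lit 0) (nat_lit 16223175407) (nat_lit 1216) (nat_lit 11116056726) (nat_lit 1292) (nat_lit 662318480) (nat_lit 263) (nat_lit 5) (nat_lit 279) (nat_lit 5) (nat_lit 280) (nat_lit 5) (nat_lit 411) (nat_lit 399) (nat_lit 210)))) (XT.nd (nat_lit 156) (nat_lit 0) (nat_lit 76) (XT.nd (nat_lit 78) (nat_lit 0) (nat_lit 0) (XT.lf (nat_lit 76) (nat_lit 3278859773) (nat_lit 0) (nat_lit 14932524555) (nat_lit 1292) (nat_lit 10232817017) (nat_lit 264)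 (nat_lit 5) (nat_lit 263) (nat_lit 5) (nat_lit 280) (nat_lit 5) (nat_lit 412) (nat_lit 399) (nat_lit 209)) (XT.lf (nat_lit 76) (nat_lit 18330841386) (nat_lit 0) (nat_lit 2037303758) (nat_lit 1292) (nat_lit 8528720356) (nat_lit 264) (nat_lit 5) (nat_lit 263) (nat_lit 5) (nat_lit 280) (nat_lit 5) (nat_lit 413) (nat_lit 399) (nat_lit 208))) (XT.nd (nat_lit 78) (nat_lit 0) (nat_lit 0) (XT.lf (nat_lit 76) (nat_lit 4447285401) (nat_lit 0) (nat_lit 18289924204) (nat_lit 1292) (nat_lit 6621472988) (nat_lit 265) (nat_lit 5) (nat_lit 264) (nat_lit 5) (nat_lit 281) (nat_lit 5) (nat_lit 414) (nat_lit 399) (nat_lit 207)) (XT.lf (nat_lit 76) (nat_lit 20104362447) (nat_lit 0) (nat_lit 5196481293) (nat_lit 1292) (nat_lit 4529806534) (nat_lit 265) (nat_lit 5) (nat_lit 264) (nat_lit 5) (nat_lit 281) (nat_lit 5) (nat_lit 415) (nat_lit 399) (nat_lit 206))))) (XT.nd (nat_lit 234) (nat_lit 1216) (nat_lit 0) (XT.nd (nat_lit 78) (nat_lit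 760) (nat_lit 0) (XT.lf (nat_lit 0) (nat_lit 5948083979) (nat_lit 1216) (nat_lit 22127091119) (nat_lit 1292) (nat_lit 2237589219) (nat_lit 249) (nat_lit 5) (nat_lit 265) (nat_lit 5) (nat_lit 266) (nat_lit 5) (nat_lit 416) (nat_lit 399) (nat_lit 205)) (XT.nd (nat_lit 78) (nat_lit 684) (nat_lit 0) (XT.lf (nat_lit 0) (nat_lit 268584586) (nat_lit 1292) (nat_lit 8570646210) (nat_lit 76) (nat_lit 21965648387) (nat_lit 248) (nat_lit 5) (nat_lit 265) (nat_lit 5) (nat_lit 249) (nat_lit 5) (nat_lit 417) (nat_lit 399) (nat_lit 204)) (XT.lf (nat_lit 0) (nat_lit 2924799463) (nat_lit 760) (nat_lit 23531366389) (nat_lit 76) (nat_lit 4851333032) (nat_lit 239) (nat_lit 5) (nat_lit 249) (nat_lit 5) (nat_lit 240) (nat_lit 5) (nat_lit 418) (nat_lit 399) (nat_lit 203)))) (XT.nd (nat_lit 156) (nat_lit 608) (nat_lit 0) (XT.nd (nat_lit 78) (nat_lit 608) (nat_lit 0) (XT.lf (nat_lit 0) (nat_lit 5832732528) (nat_lit 760) (nat_lit 7124664465)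 (nat_lit 76) (nat_lit 18862640100) (nat_lit 239) (nat_lit 5) (nat_lit 249) (nat_lit 5) (nat_lit 240) (nat_lit 5) (nat_lit 419) (nat_lit 399) (nat_lit 202)) (XT.lf (nat_lit 0) (nat_lit 8930946029) (nat_lit 684) (nat_lit 22389112141) (nat_lit 76) (nat_lit 1024802849) (nat_lit 231) (nat_lit 5) (nat_lit 240) (nat_lit 5) (nat_lit 232) (nat_lit 5) (nat_lit 420) (nat_lit 399) (nat_lit 201))) (XT.nd (nat_lit 78) (nat_lit 608) (nat_lit 0) (XT.lf (nat_lit 0) (nat_lit 12320307913) (nat_lit 684) (nat_lit 5320326169) (nat_lit 76) (nat_lit 15238850339) (nat_lit 231) (nat_lit 5) (nat_lit 240) (nat_lit 5) (nat_lit 232) (nat_lit 5) (nat_lit 421) (nat_lit 399) (nat_lit 200)) (XT.lf (nat_lit 0) (nat_lit 12501883327) (nat_lit 608) (nat_lit 3426976525) (nat_lit 684) (nat_lit 17497762193) (nat_lit 223) (nat_lit 5) (nat_lit 231) (nat_lit 5) (nat_lit 232) (nat_lit 5) (nat_lit 422) (nat_lit 399) (nat_lit 199)))))) (XT.nd (nat_lit 546)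 (nat_lit 1900) (nat_lit 0) (XT.nd (nat_lit 234) (nat_lit 1596) (nat_lit 0) (XT.nd (nat_lit 78) (nat_lit 532) (nat_lit 0) (XT.lf (nat_lit 0) (nat_lit 19805099032) (nat_lit 684) (nat_lit 3131711446) (nat_lit 76) (nat_lit 11048581172) (nat_lit 223) (nat_lit 5) (nat_lit 232) (nat_lit 5) (nat_lit 224) (nat_lit 5) (nat_lit 423) (nat_lit 399) (nat_lit 198)) (XT.nd (nat_lit 78) (nat_lit 0) (nat_lit 0) (XT.lf (nat_lit 0) (nat_lit 15460288353) (nat_lit 532) (nat_lit 8517344158) (nat_lit 608) (nat_lit 10577892367) (nat_lit 216) (nat_lit 5) (nat_lit 223) (nat_lit 5) (nat_lit 224) (nat_lit 5) (nat_lit 424) (nat_lit 399) (nat_lit 197)) (XT.lf (nat_lit 0) (nat_lit 28365684049) (nat_lit 608) (nat_lit 531397683) (nat_lit 76) (nat_lit 6242970837) (nat_lit 216) (nat_lit 5) (nat_lit 224) (nat_lit 5) (nat_lit 217) (nat_lit 5) (nat_lit 425) (nat_lit 399) (nat_lit 196)))) (XT.nd (nat_lit 156) (nat_lit 532) (nat_lit 0) (XT.nd (nat_lit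 78) (nat_lit 532) (nat_lit 0) (XT.lf (nat_lit 0) (nat_lit 18870714924) (nat_lit 532) (nat_lit 14277973406) (nat_lit 608) (nat_lit 2585529131) (nat_lit 209) (nat_lit 5) (nat_lit 216) (nat_lit 5) (nat_lit 217) (nat_lit 5) (nat_lit 426) (nat_lit 399) (nat_lit 195)) (XT.lf (nat_lit 0) (nat_lit 1730731210) (nat_lit 532) (nat_lit 33802578281) (nat_lit 76) (nat_lit 811335046) (nat_lit 202) (nat_lit 5) (nat_lit 209) (nat_lit 5) (nat_lit 203) (nat_lit 5) (nat_lit 427) (nat_lit 399) (nat_lit 194))) (XT.nd (nat_lit 78) (nat_lit 532) (nat_lit 0) (XT.lf (nat_lit 0) (nat_lit 6435502751) (nat_lit 532) (nat_lit 14264054019) (nat_lit 76) (nat_lit 16263730626) (nat_lit 202) (nat_lit 5) (nat_lit 209) (nat_lit 5) (nat_lit 203) (nat_lit 5) (nat_lit 428) (nat_lit 399) (nat_lit 193)) (XT.lf (nat_lit 0) (nat_lit 5974675317) (nat_lit 532) (nat_lit 5361892372) (nat_lit 608) (nat_lit 26262267970) (nat_lit 195) (nat_lit 5) (nat_lit 202) (nat_lit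 5) (nat_lit 203) (nat_lit 5) (nat_lit 429) (nat_lit 399) (nat_lit 192))))) (XT.nd (nat_lit 312) (nat_lit 988) (nat_lit 0) (XT.nd (nat_lit 156) (nat_lit 456) (nat_lit 0) (XT.nd (nat_lit 78) (nat_lit 456) (nat_lit 0) (XT.lf (nat_lit 0) (nat_lit 16628203650) (nat_lit 608) (nat_lit 11240484323) (nat_lit 76) (nat_lit 10377456835) (nat_lit 195) (nat_lit 5) (nat_lit 203) (nat_lit 5) (nat_lit 196) (nat_lit 5) (nat_lit 430) (nat_lit 399) (nat_lit 191)) (XT.lf (nat_lit 0) (nat_lit 9892141976) (nat_lit 456) (nat_lit 12332447083) (nat_lit 532) (nat_lit 16683904753) (nat_lit 189) (nat_lit 5) (nat_lit 195) (nat_lit 5) (nat_lit 196) (nat_lit 5) (nat_lit 431) (nat_lit 399) (nat_lit 190))) (XT.nd (nat_lit 78) (nat_lit 456) (nat_lit 0) (XT.lf (nat_lit 0) (nat_lit 28136633157) (nat_lit 532) (nat_lit 7737083231) (nat_lit 76) (nat_lit 3712564457) (nat_lit 189) (nat_lit 5) (nat_lit 196) (nat_lit 5) (nat_lit 190) (nat_lit 5) (nat_lit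 432) (nat_lit 399) (nat_lit 189)) (XT.lf (nat_lit 0) (nat_lit 14335735666) (nat_lit 456) (nat_lit 20148131865) (nat_lit 532) (nat_lit 5792799649) (nat_lit 183) (nat_lit 5) (nat_lit 189) (nat_lit 5) (nat_lit 190) (nat_lit 5) (nat_lit 433) (nat_lit 399) (nat_lit 188)))) (XT.nd (nat_lit 156) (nat_lit 456) (nat_lit 0) (XT.nd (nat_lit 78) (nat_lit 456) (nat_lit 0) (XT.lf (nat_lit 0) (nat_lit 109936074) (nat_lit 532) (nat_lit 3759661045) (nat_lit 76) (nat_lit 37115853551) (nat_lit 182) (nat_lit 5) (nat_lit 189) (nat_lit 5) (nat_lit 183) (nat_lit 5) (nat_lit 434) (nat_lit 399) (nat_lit 187)) (XT.lf (nat_lit 0) (nat_lit 6384251902) (nat_lit 532) (nat_lit 22428666812) (nat_lit 76) (nat_lit 12891530999) (nat_lit 176) (nat_lit 5) (nat_lit 183) (nat_lit 5) (nat_lit 177) (nat_lit 5) (nat_lit 435) (nat_lit 399) (nat_lit 186))) (XT.nd (nat_lit 78) (nat_lit 0) (nat_lit 0) (XT.lf (nat_lit 0) (nat_lit 606176690) (nat_lit 456) (nat_lit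 12321130742) (nat_lit 532) (nat_lit 29515296484) (nat_lit 170) (nat_lit 5) (nat_lit 176) (nat_lit 5) (nat_lit 177) (nat_lit 5) (nat_lit 436) (nat_lit 399) (nat_lit 185)) (XT.lf (nat_lit 0) (nat_lit 19938288251) (nat_lit 532) (nat_lit 18453839226) (nat_lit 76) (nat_lit 4802626742) (nat_lit 170) (nat_lit 5) (nat_lit 177) (nat_lit 5) (nat_lit 171) (nat_lit 5) (nat_lit 437) (nat_lit 399) (nat_lit 184))))))))
noncomputable def xc220 : XT := (XT.nd (nat_lit 2184) (nat_lit 1216) (nat_lit 0) (XT.nd (nat_lit 1092) (nat_lit 2280) (nat_lit 0) (XT.nd (nat_lit 546) (nat_lit 1368) (nat_lit 0) (XT.nd (nat_lit 234) (nat_lit 836) (nat_lit 0) (XT.nd (nat_lit 78) (nat_lit 380) (nat_lit 0) (XT.lf (nat_lit 0) (nat_lit 5615410933) (nat_lit 380) (nat_lit 21718273107) (nat_lit 456) (nat_lit 16630562890) (nat_lit 165) (nat_lit 5) (nat_lit 170) (nat_lit 5) (nat_lit 171) (nat_lit 5) (nat_lit 438) (nat_lit 399) (nat_lit 183)) (XT.nd (nat_lit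 78) (nat_lit 380) (nat_lit 0) (XT.lf (nat_lit 0) (nat_lit 30782646768) (nat_lit 380) (nat_lit 4352789956) (nat_lit 456) (nat_lit 9615853303) (nat_lit 165) (nat_lit 5) (nat_lit 170) (nat_lit 5) (nat_lit 171) (nat_lit 5) (nat_lit 439) (nat_lit 399) (nat_lit 182)) (XT.lf (nat_lit 0) (nat_lit 11229634382) (nat_lit 380) (nat_lit 32177844005) (nat_lit 456) (nat_lit 2147379377) (nat_lit 160) (nat_lit 5) (nat_lit 165) (nat_lit 5) (nat_lit 166) (nat_lit 5) (nat_lit 440) (nat_lit 399) (nat_lit 181)))) (XT.nd (nat_lit 156) (nat_lit 380) (nat_lit 0) (XT.nd (nat_lit 78) (nat_lit 380) (nat_lit 0) (XT.lf (nat_lit 0) (nat_lit 5620700969) (nat_lit 456) (nat_lit 9008264545) (nat_lit 76) (nat_lit 31746455593) (nat_lit 159) (nat_lit 5) (nat_lit 165) (nat_lit 5) (nat_lit 160) (nat_lit 5) (nat_lit 441) (nat_lit 399) (nat_lit 180)) (XT.lf (nat_lit 0) (nat_lit 13779016922) (nat_lit 456) (nat_lit 29866129236) (nat_lit 76) (nat_lit 3568807157)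 (nat_lit 154) (nat_lit 5) (nat_lit 160) (nat_lit 5) (nat_lit 155) (nat_lit 5) (nat_lit 442) (nat_lit 399) (nat_lit 179))) (XT.nd (nat_lit 78) (nat_lit 380) (nat_lit 0) (XT.lf (nat_lit 0) (nat_lit 22417074115) (nat_lit 456) (nat_lit 3543723730) (nat_lit 76) (nat_lit 22109794283) (nat_lit 154) (nat_lit 5) (nat_lit 160) (nat_lit 5) (nat_lit 155) (nat_lit 5) (nat_lit 443) (nat_lit 399) (nat_lit 178)) (XT.lf (nat_lit 0) (nat_lit 24035107916) (nat_lit 380) (nat_lit 7508539306) (nat_lit 456) (nat_lit 17402402037) (nat_lit 149) (nat_lit 5) (nat_lit 154) (nat_lit 5) (nat_lit 155) (nat_lit 5) (nat_lit 444) (nat_lit 399) (nat_lit 177))))) (XT.nd (nat_lit 234) (nat_lit 608) (nat_lit 0) (XT.nd (nat_lit 78) (nat_lit 456) (nat_lit 0) (XT.lf (nat_lit 0) (nat_lit 2604929894) (nat_lit 304) (nat_lit 38509141067) (nat_lit 380) (nat_lit 8728597909) (nat_lit 145) (nat_lit 5) (nat_lit 149) (nat_lit 5) (nat_lit 150) (nat_lit 5) (nat_lit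 445) (nat_lit 399) (nat_lit 176)) (XT.nd (nat_lit 78) (nat_lit 380) (nat_lit 0) (XT.lf (nat_lit 0) (nat_lit 528161270) (nat_lit 380) (nat_lit 19382810342) (nat_lit 76) (nat_lit 30845354083) (nat_lit 144) (nat_lit 5) (nat_lit 149) (nat_lit 5) (nat_lit 145) (nat_lit 5) (nat_lit 446) (nat_lit 399) (nat_lit 175)) (XT.lf (nat_lit 0) (nat_lit 9402599913) (nat_lit 380) (nat_lit 573383466) (nat_lit 456) (nat_lit 41716152642) (nat_lit 139) (nat_lit 5) (nat_lit 144) (nat_lit 5) (nat_lit 145) (nat_lit 5) (nat_lit 447) (nat_lit 399) (nat_lit 174)))) (XT.nd (nat_lit 156) (nat_lit 304) (nat_lit 0) (XT.nd (nat_lit 78) (nat_lit 304) (nat_lit 0) (XT.lf (nat_lit 0) (nat_lit 20089287705) (nat_lit 456) (nat_lit 13391377499) (nat_lit 76) (nat_lit 19163894352) (nat_lit 139) (nat_lit 5) (nat_lit 145) (nat_lit 5) (nat_lit 140) (nat_lit 5) (nat_lit 448) (nat_lit 399) (nat_lit 173)) (XT.lf (nat_lit 0) (nat_lit 16691584733) (nat_lit 304)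 (nat_lit 13979010607) (nat_lit 380) (nat_lit 22950022650) (nat_lit 135) (nat_lit 5) (nat_lit 139) (nat_lit 5) (nat_lit 140) (nat_lit 5) (nat_lit 449) (nat_lit 399) (nat_lit 172))) (XT.nd (nat_lit 78) (nat_lit 304) (nat_lit 0) (XT.lf (nat_lit 0) (nat_lit 41763113330) (nat_lit 380) (nat_lit 6732599832) (nat_lit 76) (nat_lit 6124432189) (nat_lit 135) (nat_lit 5) (nat_lit 140) (nat_lit 5) (nat_lit 136) (nat_lit 5) (nat_lit 450) (nat_lit 399) (nat_lit 171)) (XT.lf (nat_lit 0) (nat_lit 24711398224) (nat_lit 304) (nat_lit 28851494307) (nat_lit 380) (nat_lit 2075531733) (nat_lit 131) (nat_lit 5) (nat_lit 135) (nat_lit 5) (nat_lit 136) (nat_lit 5) (nat_lit 451) (nat_lit 399) (nat_lit 170)))))) (XT.nd (nat_lit 546) (nat_lit 988) (nat_lit 0) (XT.nd (nat_lit 234) (nat_lit 608) (nat_lit 0) (XT.nd (nat_lit 78) (nat_lit 304) (nat_lit 0) (XT.lf (nat_lit 0) (nat_lit 471100409) (nat_lit 304) (nat_lit 8453850765) (nat_lit 380) (nat_lit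 47757544746) (nat_lit 126) (nat_lit 5) (nat_lit 130) (nat_lit 5) (nat_lit 131) (nat_lit 5) (nat_lit 452) (nat_lit 399) (nat_lit 169)) (XT.nd (nat_lit 78) (nat_lit 304) (nat_lit 0) (XT.lf (nat_lit 0) (nat_lit 20648381826) (nat_lit 380) (nat_lit 24449866185) (nat_lit 76) (nat_lit 12645986012) (nat_lit 126) (nat_lit 5) (nat_lit 131) (nat_lit 5) (nat_lit 127) (nat_lit 5) (nat_lit 453) (nat_lit 399) (nat_lit 168)) (XT.lf (nat_lit 0) (nat_lit 8341488070) (nat_lit 304) (nat_lit 24544515882) (nat_lit 380) (nat_lit 25946945927) (nat_lit 122) (nat_lit 5) (nat_lit 126) (nat_lit 5) (nat_lit 127) (nat_lit 5) (nat_lit 454) (nat_lit 399) (nat_lit 167)))) (XT.nd (nat_lit 156) (nat_lit 380) (nat_lit 0) (XT.nd (nat_lit 78) (nat_lit 228) (nat_lit 0) (XT.lf (nat_lit 0) (nat_lit 42615709814) (nat_lit 304) (nat_lit 3120564972) (nat_lit 380) (nat_lit 14210687082) (nat_lit 122) (nat_lit 5) (nat_lit 126) (nat_lit 5) (nat_lit 127) (nat_lit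 5) (nat_lit 455) (nat_lit 399) (nat_lit 166)) (XT.lf (nat_lit 0) (nat_lit 16970758145) (nat_lit 228) (nat_lit 42345208368) (nat_lit 304) (nat_lit 1768110572) (nat_lit 119) (nat_lit 5) (nat_lit 122) (nat_lit 5) (nat_lit 123) (nat_lit 5) (nat_lit 456) (nat_lit 399) (nat_lit 165))) (XT.nd (nat_lit 78) (nat_lit 304) (nat_lit 0) (XT.lf (nat_lit 0) (nat_lit 11038467308) (nat_lit 304) (nat_lit 9733831911) (nat_lit 76) (nat_lit 41473631686) (nat_lit 118) (nat_lit 5) (nat_lit 122) (nat_lit 5) (nat_lit 119) (nat_lit 5) (nat_lit 457) (nat_lit 399) (nat_lit 164)) (XT.lf (nat_lit 0) (nat_lit 24460527189) (nat_lit 380) (nat_lit 37283005119) (nat_lit 76) (nat_lit 1690578421) (nat_lit 114) (nat_lit 5) (nat_lit 119) (nat_lit 5) (nat_lit 115) (nat_lit 5) (nat_lit 458) (nat_lit 399) (nat_lit 163))))) (XT.nd (nat_lit 234) (nat_lit 456) (nat_lit 0) (XT.nd (nat_lit 78) (nat_lit 532) (nat_lit 0) (XT.lf (nat_lit 0) (nat_lit 38588896257)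 (nat_lit 380) (nat_lit 1551505719) (nat_lit 76) (nat_lit 24508424774) (nat_lit 114) (nat_lit 5) (nat_lit 119) (nat_lit 5) (nat_lit 115) (nat_lit 5) (nat_lit 459) (nat_lit 399) (nat_lit 162)) (XT.nd (nat_lit 78) (nat_lit 304) (nat_lit 0) (XT.lf (nat_lit 0) (nat_lit 35951536717) (nat_lit 228) (nat_lit 17533920514) (nat_lit 304) (nat_lit 12404197013) (nat_lit 111) (nat_lit 5) (nat_lit 114) (nat_lit 5) (nat_lit 115) (nat_lit 5) (nat_lit 460) (nat_lit 399) (nat_lit 161)) (XT.lf (nat_lit 0) (nat_lit 1772486776) (nat_lit 304) (nat_lit 59646956702) (nat_lit 76) (nat_lit 5743473396) (nat_lit 107) (nat_lit 5) (nat_lit 111) (nat_lit 5) (nat_lit 108) (nat_lit 5) (nat_lit 461) (nat_lit 399) (nat_lit 160)))) (XT.nd (nat_lit 156) (nat_lit 228) (nat_lit 0) (XT.nd (nat_lit 78) (nat_lit 228) (nat_lit 0) (XT.lf (nat_lit 0) (nat_lit 16602840574) (nat_lit 304) (nat_lit 22059318615) (nat_lit 76) (nat_lit 29794203532) (nat_lit 107) (nat_lit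 5) (nat_lit 111) (nat_lit 5) (nat_lit 108) (nat_lit 5) (nat_lit 462) (nat_lit 399) (nat_lit 159)) (XT.lf (nat_lit 0) (nat_lit 16985491148) (nat_lit 228) (nat_lit 15054693510) (nat_lit 304) (nat_lit 37743565087) (nat_lit 104) (nat_lit 5) (nat_lit 107) (nat_lit 5) (nat_lit 108) (nat_lit 5) (nat_lit 463) (nat_lit 399) (nat_lit 158))) (XT.nd (nat_lit 78) (nat_lit 228) (nat_lit 0) (XT.lf (nat_lit 0) (nat_lit 48253447402) (nat_lit 304) (nat_lit 13583579590) (nat_lit 76) (nat_lit 9304547624) (nat_lit 104) (nat_lit 5) (nat_lit 108) (nat_lit 5) (nat_lit 105) (nat_lit 5) (nat_lit 464) (nat_lit 399) (nat_lit 157)) (XT.lf (nat_lit 0) (nat_lit 27187142657) (nat_lit 228) (nat_lit 38175210324) (nat_lit 304) (nat_lit 7165504086) (nat_lit 101) (nat_lit 5) (nat_lit 104) (nat_lit 5) (nat_lit 105) (nat_lit 5) (nat_lit 465) (nat_lit 399) (nat_lit 156))))))) (XT.nd (nat_lit 48282) (nat_lit 0) (nat_lit 12388) (XT.nd (nat_lit 546) (nat_lit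 228) (nat_lit 0) (XT.nd (nat_lit 234) (nat_lit 456) (nat_lit 0) (XT.nd (nat_lit 78) (nat_lit 456) (nat_lit 0) (XT.lf (nat_lit 0) (nat_lit 8989992527) (nat_lit 304) (nat_lit 4582189341) (nat_lit 76) (nat_lit 60376821209) (nat_lit 100) (nat_lit 5) (nat_lit 104) (nat_lit 5) (nat_lit 101) (nat_lit 5) (nat_lit 466) (nat_lit 399) (nat_lit 155)) (XT.nd (nat_lit 78) (nat_lit 228) (nat_lit 0) (XT.lf (nat_lit 0) (nat_lit 25968415069) (nat_lit 304) (nat_lit 37447956612) (nat_lit 76) (nat_lit 11979815168) (nat_lit 97) (nat_lit 5) (nat_lit 101) (nat_lit 5) (nat_lit 98) (nat_lit 5) (nat_lit 467) (nat_lit 399) (nat_lit 154)) (XT.lf (nat_lit 0) (nat_lit 4922495282) (nat_lit 228) (nat_lit 38761015781) (nat_lit 304) (nat_lit 33196455609) (nat_lit 94) (nat_lit 5) (nat_lit 97) (nat_lit 5) (nat_lit 98) (nat_lit 5) (nat_lit 468) (nat_lit 399) (nat_lit 153)))) (XT.nd (nat_lit 156) (nat_lit 228) (nat_lit 0) (XT.nd (nat_lit 78) (nat_lit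 228) (nat_lit 0) (XT.lf (nat_lit 0) (nat_lit 49329906010) (nat_lit 228) (nat_lit 12977215165) (nat_lit 304) (nat_lit 16089827034) (nat_lit 94) (nat_lit 5) (nat_lit 97) (nat_lit 5) (nat_lit 98) (nat_lit 5) (nat_lit 469) (nat_lit 399) (nat_lit 152)) (XT.lf (nat_lit 0) (nat_lit 1779196900) (nat_lit 228) (nat_lit 64692719918) (nat_lit 76) (nat_lit 13478709734) (nat_lit 91) (nat_lit 5) (nat_lit 94) (nat_lit 5) (nat_lit 92) (nat_lit 5) (nat_lit 470) (nat_lit 399) (nat_lit 151))) (XT.nd (nat_lit 78) (nat_lit 228) (nat_lit 0) (XT.lf (nat_lit 0) (nat_lit 20284754489) (nat_lit 228) (nat_lit 20326136256) (nat_lit 76) (nat_lit 40922529909) (nat_lit 91) (nat_lit 5) (nat_lit 94) (nat_lit 5) (nat_lit 92) (nat_lit 5) (nat_lit 471) (nat_lit 399) (nat_lit 150)) (XT.lf (nat_lit 0) (nat_lit 25874626065) (nat_lit 228) (nat_lit 13718545359) (nat_lit 304) (nat_lit 43563096517) (nat_lit 88) (nat_lit 5) (nat_lit 91) (nat_lit 5) (nat_lit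 92) (nat_lit 5) (nat_lit 472) (nat_lit 399) (nat_lit 149))))) (XT.nd (nat_lit 47424) (nat_lit 0) (nat_lit 13072) (XT.nd (nat_lit 78) (nat_lit 228) (nat_lit 0) (XT.lf (nat_lit 0) (nat_lit 59821493803) (nat_lit 304) (nat_lit 11081720968) (nat_lit 76) (nat_lit 13914366422) (nat_lit 88) (nat_lit 5) (nat_lit 92) (nat_lit 5) (nat_lit 89) (nat_lit 5) (nat_lit 473) (nat_lit 399) (nat_lit 148)) (XT.nd (nat_lit 78) (nat_lit 76) (nat_lit 0) (XT.lf (nat_lit 0) (nat_lit 37090456204) (nat_lit 152) (nat_lit 44057579588) (nat_lit 228) (nat_lit 5365957084) (nat_lit 86) (nat_lit 5) (nat_lit 88) (nat_lit 5) (nat_lit 89) (nat_lit 5) (nat_lit 474) (nat_lit 399) (nat_lit 147)) (XT.lf (nat_lit 0) (nat_lit 14675261396) (nat_lit 228) (nat_lit 1468547426) (nat_lit 76) (nat_lit 72109844266) (nat_lit 85) (nat_lit 5) (nat_lit 88) (nat_lit 5) (nat_lit 86) (nat_lit 5) (nat_lit 475) (nat_lit 399) (nat_lit 146)))) (XT.nd (nat_lit 156) (nat_lit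 0) (nat_lit 76) (XT.nd (nat_lit 78) (nat_lit 0) (nat_lit 0) (XT.lf (nat_lit 0) (nat_lit 2529382589) (nat_lit 1292) (nat_lit 4745628066) (nat_lit 1292) (nat_lit 4745628066) (nat_lit 257) (nat_lit 3) (nat_lit 274) (nat_lit 3) (nat_lit 274) (nat_lit 5) (nat_lit 400) (nat_lit 400) (nat_lit 220)) (XT.lf (nat_lit 76) (nat_lit 2236037006) (nat_lit 0) (nat_lit 3032617013) (nat_lit 1292) (nat_lit 19129185566) (nat_lit 258) (nat_lit 5) (nat_lit 257) (nat_lit 3) (nat_lit 274) (nat_lit 5) (nat_lit 401) (nat_lit 400) (nat_lit 219))) (XT.nd (nat_lit 78) (nat_lit 0) (nat_lit 0) (XT.lf (nat_lit 0) (nat_lit 5662120871) (nat_lit 1216) (nat_lit 10340805416) (nat_lit 1292) (nat_lit 8756855301) (nat_lit 258) (nat_lit 5) (nat_lit 274) (nat_lit 5) (nat_lit 275) (nat_lit 5) (nat_lit 402) (nat_lit 400) (nat_lit 218)) (XT.lf (nat_lit 76) (nat_lit 1838277634) (nat_lit 0) (nat_lit 4272545599) (nat_lit 1292) (nat_lit 19020457068) (nat_lit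 259) (nat_lit 5) (nat_lit 258) (nat_lit 5) (nat_lit 275) (nat_lit 5) (nat_lit 403) (nat_lit 400) (nat_lit 217)))))) (XT.nd (nat_lit 546) (nat_lit 836) (nat_lit 0) (XT.nd (nat_lit 234) (nat_lit 0) (nat_lit 76) (XT.nd (nat_lit 78) (nat_lit 0) (nat_lit 0) (XT.lf (nat_lit 0) (nat_lit 6749368166) (nat_lit 1216) (nat_lit 10994697360) (nat_lit 1292) (nat_lit 7764568357) (nat_lit 259) (nat_lit 5) (nat_lit 275) (nat_lit 5) (nat_lit 276) (nat_lit 5) (nat_lit 404) (nat_lit 400) (nat_lit 216)) (XT.nd (nat_lit 78) (nat_lit 0) (nat_lit 76) (XT.lf (nat_lit 76) (nat_lit 1660214895) (nat_lit 0) (nat_lit 5801090453) (nat_lit 1292) (nat_lit 18434376961) (nat_lit 260) (nat_lit 5) (nat_lit 259) (nat_lit 5) (nat_lit 276) (nat_lit 5) (nat_lit 405) (nat_lit 400) (nat_lit 215)) (XT.lf (nat_lit 0) (nat_lit 8365291561) (nat_lit 1216) (nat_lit 11436985795) (nat_lit 1292) (nat_lit 6486945382) (nat_lit 260) (nat_lit 5) (nat_lit 276) (nat_lit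 5) (nat_lit 277) (nat_lit 5) (nat_lit 406) (nat_lit 400) (nat_lit 214)))) (XT.nd (nat_lit 156) (nat_lit 0) (nat_lit 76) (XT.nd (nat_lit 78) (nat_lit 0) (nat_lit 76) (XT.lf (nat_lit 76) (nat_lit 1719086997) (nat_lit 0) (nat_lit 7647469024) (nat_lit 1292) (nat_lit 17325909837) (nat_lit 261) (nat_lit 5) (nat_lit 260) (nat_lit 5) (nat_lit 277) (nat_lit 5) (nat_lit 407) (nat_lit 400) (nat_lit 213)) (XT.lf (nat_lit 0) (nat_lit 10557622132) (nat_lit 1216) (nat_lit 11650601460) (nat_lit 1292) (nat_lit 4894790971) (nat_lit 261) (nat_lit 5) (nat_lit 277) (nat_lit 5) (nat_lit 278) (nat_lit 5) (nat_lit 408) (nat_lit 400) (nat_lit 212))) (XT.nd (nat_lit 78) (nat_lit 0) (nat_lit 76) (XT.lf (nat_lit 76) (nat_lit 2033321177) (nat_lit 0) (nat_lit 9842766575) (nat_lit 1292) (nat_lit 15647043119) (nat_lit 262) (nat_lit 5) (nat_lit 261) (nat_lit 5) (nat_lit 278) (nat_lit 5) (nat_lit 409) (nat_lit 400) (nat_lit 211)) (XT.lf (nat_lit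 0) (nat_lit 13377231421) (nat_lit 1216) (nat_lit 11617304306) (nat_lit 1292) (nat_lit 2957022353) (nat_lit 262) (nat_lit 5) (nat_lit 278) (nat_lit 5) (nat_lit 279) (nat_lit 5) (nat_lit 410) (nat_lit 400) (nat_lit 210))))) (XT.nd (nat_lit 312) (nat_lit 1064) (nat_lit 0) (XT.nd (nat_lit 156) (nat_lit 0) (nat_lit 76) (XT.nd (nat_lit 78) (nat_lit 0) (nat_lit 76) (XT.lf (nat_lit 76) (nat_lit 2622584541) (nat_lit 0) (nat_lit 12420085393) (nat_lit 1292) (nat_lit 13346591455) (nat_lit 263) (nat_lit 5) (nat_lit 262) (nat_lit 5) (nat_lit 279) (nat_lit 5) (nat_lit 411) (nat_lit 400) (nat_lit 209)) (XT.lf (nat_lit 0) (nat_lit 16878335884) (nat_lit 1216) (nat_lit 11317633512) (nat_lit 1292) (nat_lit 640519543) (nat_lit 263) (nat_lit 5) (nat_lit 279) (nat_lit 5) (nat_lit 280) (nat_lit 5) (nat_lit 412) (nat_lit 400) (nat_lit 208))) (XT.nd (nat_lit 78) (nat_lit 0) (nat_lit 0) (XT.lf (nat_lit 76) (nat_lit 3507837296) (nat_lit 0)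 (nat_lit 15414702542) (nat_lit 1292) (nat_lit 10369990472) (nat_lit 264) (nat_lit 5) (nat_lit 263) (nat_lit 5) (nat_lit 280) (nat_lit 5) (nat_lit 413) (nat_lit 400) (nat_lit 207)) (XT.lf (nat_lit 76) (nat_lit 19007574133) (nat_lit 0) (nat_lit 2131628940) (nat_lit 1292) (nat_lit 8619716864) (nat_lit 264) (nat_lit 5) (nat_lit 263) (nat_lit 5) (nat_lit 280) (nat_lit 5) (nat_lit 414) (nat_lit 400) (nat_lit 206)))) (XT.nd (nat_lit 156) (nat_lit 1216) (nat_lit 0) (XT.nd (nat_lit 78) (nat_lit 0) (nat_lit 0) (XT.lf (nat_lit 76) (nat_lit 4711388290) (nat_lit 0) (nat_lit 18864236904) (nat_lit 1292) (nat_lit 6659079264) (nat_lit 265) (nat_lit 5) (nat_lit 264) (nat_lit 5) (nat_lit 281) (nat_lit 5) (nat_lit 415) (nat_lit 400) (nat_lit 205)) (XT.lf (nat_lit 76) (nat_lit 20834371308) (nat_lit 0) (nat_lit 5377244639) (nat_lit 1292) (nat_lit 4509353241) (nat_lit 265) (nat_lit 5) (nat_lit 264) (nat_lit 5) (nat_lit 281) (nat_lit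 5) (nat_lit 416) (nat_lit 400) (nat_lit 204))) (XT.nd (nat_lit 78) (nat_lit 76) (nat_lit 0) (XT.lf (nat_lit 0) (nat_lit 6256952786) (nat_lit 1216) (nat_lit 22808826292) (nat_lit 1292) (nat_lit 2151870922) (nat_lit 249) (nat_lit 5) (nat_lit 265) (nat_lit 5) (nat_lit 266) (nat_lit 5) (nat_lit 417) (nat_lit 400) (nat_lit 203)) (XT.lf (nat_lit 0) (nat_lit 422140568) (nat_lit 1292) (nat_lit 8698198330) (nat_lit 76) (nat_lit 22604277609) (nat_lit 248) (nat_lit 5) (nat_lit 265) (nat_lit 5) (nat_lit 249) (nat_lit 5) (nat_lit 418) (nat_lit 400) (nat_lit 202))))))))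
noncomputable def xc221 : XT := (XT.nd (nat_lit 2262) (nat_lit 4256) (nat_lit 0) (XT.nd (nat_lit 1092) (nat_lit 3420) (nat_lit 0) (XT.nd (nat_lit 546) (nat_lit 2052) (nat_lit 0) (XT.nd (nat_lit 234) (nat_lit 1140) (nat_lit 0) (XT.nd (nat_lit 78) (nat_lit 608) (nat_lit 0) (XT.lf (nat_lit 0) (nat_lit 3154900872) (nat_lit 760) (nat_lit 24104556282) (nat_lit 76) (nat_lit 4982953160) (nat_lit 239) (nat_lit 5) (nat_lit 249) (nat_lit 5) (nat_lit 240) (nat_lit 5) (nat_lit 419) (nat_lit 400) (nat_lit 201)) (XT.nd (nat_lit 78) (nat_lit 608) (nat_lit 0) (XT.lf (nat_lit 0) (nat_lit 6145925597) (nat_lit 760) (nat_lit 7209519837) (nat_lit 76) (nat_lit 19415004873) (nat_lit 239) (nat_lit 5) (nat_lit 249) (nat_lit 5) (nat_lit 240) (nat_lit 5) (nat_lit 420) (nat_lit 400) (nat_lit 200)) (XT.lf (nat_lit 0) (nat_lit 9334211813) (nat_lit 684) (nat_lit 22928986897) (nat_lit 76) (nat_lit 1047907661) (nat_lit 231) (nat_lit 5) (nat_lit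 240) (nat_lit 5) (nat_lit 232) (nat_lit 5) (nat_lit 421) (nat_lit 400) (nat_lit 199)))) (XT.nd (nat_lit 156) (nat_lit 532) (nat_lit 0) (XT.nd (nat_lit 78) (nat_lit 608) (nat_lit 0) (XT.lf (nat_lit 0) (nat_lit 12821312688) (nat_lit 684) (nat_lit 5351976140) (nat_lit 76) (nat_lit 15688599079) (nat_lit 231) (nat_lit 5) (nat_lit 240) (nat_lit 5) (nat_lit 232) (nat_lit 5) (nat_lit 422) (nat_lit 400) (nat_lit 198)) (XT.lf (nat_lit 0) (nat_lit 13003645133) (nat_lit 608) (nat_lit 3531866966) (nat_lit 684) (nat_lit 17890006974) (nat_lit 223) (nat_lit 5) (nat_lit 231) (nat_lit 5) (nat_lit 232) (nat_lit 5) (nat_lit 423) (nat_lit 400) (nat_lit 197))) (XT.nd (nat_lit 78) (nat_lit 532) (nat_lit 0) (XT.lf (nat_lit 0) (nat_lit 20524267970) (nat_lit 684) (nat_lit 3098840513) (nat_lit 76) (nat_lit 11378057506) (nat_lit 223) (nat_lit 5) (nat_lit 232) (nat_lit 5) (nat_lit 224) (nat_lit 5) (nat_lit 424) (nat_lit 400) (nat_lit 196))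 (XT.lf (nat_lit 0) (nat_lit 16049675924) (nat_lit 532) (nat_lit 8769867429) (nat_lit 608) (nat_lit 10768933959) (nat_lit 216) (nat_lit 5) (nat_lit 223) (nat_lit 5) (nat_lit 224) (nat_lit 5) (nat_lit 425) (nat_lit 400) (nat_lit 195))))) (XT.nd (nat_lit 234) (nat_lit 988) (nat_lit 0) (XT.nd (nat_lit 78) (nat_lit 1064) (nat_lit 0) (XT.lf (nat_lit 0) (nat_lit 29335694062) (nat_lit 608) (nat_lit 421841144) (nat_lit 76) (nat_lit 6433112943) (nat_lit 216) (nat_lit 5) (nat_lit 224) (nat_lit 5) (nat_lit 217) (nat_lit 5) (nat_lit 426) (nat_lit 400) (nat_lit 194)) (XT.nd (nat_lit 78) (nat_lit 532) (nat_lit 0) (XT.lf (nat_lit 0) (nat_lit 19561104464) (nat_lit 532) (nat_lit 14698811380) (nat_lit 608) (nat_lit 2542791338) (nat_lit 209) (nat_lit 5) (nat_lit 216) (nat_lit 5) (nat_lit 217) (nat_lit 5) (nat_lit 427) (nat_lit 400) (nat_lit 193)) (XT.lf (nat_lit 0) (nat_lit 1898472185) (nat_lit 532) (nat_lit 34687838239) (nat_lit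 76) (nat_lit 845167020) (nat_lit 202) (nat_lit 5) (nat_lit 209) (nat_lit 5) (nat_lit 203) (nat_lit 5) (nat_lit 428) (nat_lit 400) (nat_lit 192)))) (XT.nd (nat_lit 156) (nat_lit 456) (nat_lit 0) (XT.nd (nat_lit 78) (nat_lit 532) (nat_lit 0) (XT.lf (nat_lit 0) (nat_lit 6741013502) (nat_lit 532) (nat_lit 14566910212) (nat_lit 76) (nat_lit 16760858004) (nat_lit 202) (nat_lit 5) (nat_lit 209) (nat_lit 5) (nat_lit 203) (nat_lit 5) (nat_lit 429) (nat_lit 400) (nat_lit 191)) (XT.lf (nat_lit 0) (nat_lit 6277754873) (nat_lit 532) (nat_lit 5509270818) (nat_lit 608) (nat_lit 26936434180) (nat_lit 195) (nat_lit 5) (nat_lit 202) (nat_lit 5) (nat_lit 203) (nat_lit 5) (nat_lit 430) (nat_lit 400) (nat_lit 190))) (XT.nd (nat_lit 78) (nat_lit 456) (nat_lit 0) (XT.lf (nat_lit 0) (nat_lit 17234322122) (nat_lit 608) (nat_lit 11454348763) (nat_lit 76) (nat_lit 10701610941) (nat_lit 195) (nat_lit 5) (nat_lit 203) (nat_lit 5) (nat_lit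 196) (nat_lit 5) (nat_lit 431) (nat_lit 400) (nat_lit 189)) (XT.lf (nat_lit 0) (nat_lit 10311047009) (nat_lit 456) (nat_lit 12685601737) (nat_lit 532) (nat_lit 17075911913) (nat_lit 189) (nat_lit 5) (nat_lit 195) (nat_lit 5) (nat_lit 196) (nat_lit 5) (nat_lit 432) (nat_lit 400) (nat_lit 188)))))) (XT.nd (nat_lit 546) (nat_lit 1596) (nat_lit 0) (XT.nd (nat_lit 234) (nat_lit 1292) (nat_lit 0) (XT.nd (nat_lit 78) (nat_lit 532) (nat_lit 0) (XT.lf (nat_lit 0) (nat_lit 29083143500) (nat_lit 532) (nat_lit 7847674303) (nat_lit 76) (nat_lit 3839951647) (nat_lit 189) (nat_lit 5) (nat_lit 196) (nat_lit 5) (nat_lit 190) (nat_lit 5) (nat_lit 433) (nat_lit 400) (nat_lit 187)) (XT.nd (nat_lit 78) (nat_lit 76) (nat_lit 0) (XT.lf (nat_lit 0) (nat_lit 14886137775) (nat_lit 456) (nat_lit 20732830961) (nat_lit 532) (nat_lit 5862954224) (nat_lit 183) (nat_lit 5) (nat_lit 189) (nat_lit 5) (nat_lit 190) (nat_lit 5) (nat_lit 434) (nat_lit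 400) (nat_lit 186)) (XT.lf (nat_lit 0) (nat_lit 211881954) (nat_lit 532) (nat_lit 3753637163) (nat_lit 76) (nat_lit 38246510490) (nat_lit 182) (nat_lit 5) (nat_lit 189) (nat_lit 5) (nat_lit 183) (nat_lit 5) (nat_lit 435) (nat_lit 400) (nat_lit 185)))) (XT.nd (nat_lit 156) (nat_lit 380) (nat_lit 0) (XT.nd (nat_lit 78) (nat_lit 456) (nat_lit 0) (XT.lf (nat_lit 0) (nat_lit 6672884332) (nat_lit 532) (nat_lit 22981145761) (nat_lit 76) (nat_lit 13298615549) (nat_lit 176) (nat_lit 5) (nat_lit 183) (nat_lit 5) (nat_lit 177) (nat_lit 5) (nat_lit 436) (nat_lit 400) (nat_lit 184)) (XT.lf (nat_lit 0) (nat_lit 743562840) (nat_lit 456) (nat_lit 12666986222) (nat_lit 532) (nat_lit 30302446595) (nat_lit 170) (nat_lit 5) (nat_lit 176) (nat_lit 5) (nat_lit 177) (nat_lit 5) (nat_lit 437) (nat_lit 400) (nat_lit 183))) (XT.nd (nat_lit 78) (nat_lit 380) (nat_lit 0) (XT.lf (nat_lit 0) (nat_lit 20629301927) (nat_lit 532) (nat_lit 18889145030)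 (nat_lit 76) (nat_lit 4969340923) (nat_lit 170) (nat_lit 5) (nat_lit 177) (nat_lit 5) (nat_lit 171) (nat_lit 5) (nat_lit 438) (nat_lit 400) (nat_lit 182)) (XT.lf (nat_lit 0) (nat_lit 5901022738) (nat_lit 380) (nat_lit 22343958159) (nat_lit 456) (nat_lit 17035432508) (nat_lit 165) (nat_lit 5) (nat_lit 170) (nat_lit 5) (nat_lit 171) (nat_lit 5) (nat_lit 439) (nat_lit 400) (nat_lit 181))))) (XT.nd (nat_lit 312) (nat_lit 760) (nat_lit 0) (XT.nd (nat_lit 156) (nat_lit 456) (nat_lit 0) (XT.nd (nat_lit 78) (nat_lit 380) (nat_lit 0) (XT.lf (nat_lit 0) (nat_lit 31819863527) (nat_lit 380) (nat_lit 4458263808) (nat_lit 456) (nat_lit 9813020874) (nat_lit 165) (nat_lit 5) (nat_lit 170) (nat_lit 5) (nat_lit 171) (nat_lit 5) (nat_lit 440) (nat_lit 400) (nat_lit 180)) (XT.lf (nat_lit 0) (nat_lit 11681560932) (nat_lit 380) (nat_lit 33115528084) (nat_lit 456) (nat_lit 2121771831) (nat_lit 160) (nat_lit 5) (nat_lit 165) (nat_lit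 5) (nat_lit 166) (nat_lit 5) (nat_lit 441) (nat_lit 400) (nat_lit 179))) (XT.nd (nat_lit 78) (nat_lit 380) (nat_lit 0) (XT.lf (nat_lit 0) (nat_lit 5875023103) (nat_lit 456) (nat_lit 9165100099) (nat_lit 76) (nat_lit 32723969652) (nat_lit 159) (nat_lit 5) (nat_lit 165) (nat_lit 5) (nat_lit 160) (nat_lit 5) (nat_lit 442) (nat_lit 400) (nat_lit 178)) (XT.lf (nat_lit 0) (nat_lit 14276941195) (nat_lit 456) (nat_lit 30647534115) (nat_lit 76) (nat_lit 3703340718) (nat_lit 154) (nat_lit 5) (nat_lit 160) (nat_lit 5) (nat_lit 155) (nat_lit 5) (nat_lit 443) (nat_lit 400) (nat_lit 177)))) (XT.nd (nat_lit 156) (nat_lit 380) (nat_lit 0) (XT.nd (nat_lit 78) (nat_lit 380) (nat_lit 0) (XT.lf (nat_lit 0) (nat_lit 23171677373) (nat_lit 456) (nat_lit 3538793696) (nat_lit 76) (nat_lit 22799757379) (nat_lit 154) (nat_lit 5) (nat_lit 160) (nat_lit 5) (nat_lit 155) (nat_lit 5) (nat_lit 444) (nat_lit 400) (nat_lit 176)) (XT.lf (nat_lit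 0) (nat_lit 24866312294) (nat_lit 380) (nat_lit 7704403218) (nat_lit 456) (nat_lit 17841274291) (nat_lit 149) (nat_lit 5) (nat_lit 154) (nat_lit 5) (nat_lit 155) (nat_lit 5) (nat_lit 445) (nat_lit 400) (nat_lit 175))) (XT.nd (nat_lit 78) (nat_lit 76) (nat_lit 0) (XT.lf (nat_lit 0) (nat_lit 2794286255) (nat_lit 304) (nat_lit 39632956819) (nat_lit 380) (nat_lit 8908295724) (nat_lit 145) (nat_lit 5) (nat_lit 149) (nat_lit 5) (nat_lit 150) (nat_lit 5) (nat_lit 446) (nat_lit 400) (nat_lit 174)) (XT.lf (nat_lit 0) (nat_lit 622216673) (nat_lit 380) (nat_lit 19854752100) (nat_lit 76) (nat_lit 31799683749) (nat_lit 144) (nat_lit 5) (nat_lit 149) (nat_lit 5) (nat_lit 145) (nat_lit 5) (nat_lit 447) (nat_lit 400) (nat_lit 173))))))) (XT.nd (nat_lit 1092) (nat_lit 1748) (nat_lit 0) (XT.nd (nat_lit 546) (nat_lit 1140) (nat_lit 0) (XT.nd (nat_lit 234) (nat_lit 684) (nat_lit 0) (XT.nd (nat_lit 78) (nat_lit 304) (nat_lit 0) (XT.lf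 (nat_lit 0) (nat_lit 9793146516) (nat_lit 380) (nat_lit 559091619) (nat_lit 456) (nat_lit 42888336567) (nat_lit 139) (nat_lit 5) (nat_lit 144) (nat_lit 5) (nat_lit 145) (nat_lit 5) (nat_lit 448) (nat_lit 400) (nat_lit 172)) (XT.nd (nat_lit 78) (nat_lit 304) (nat_lit 0) (XT.lf (nat_lit 0) (nat_lit 20766993509) (nat_lit 456) (nat_lit 13685845744) (nat_lit 76) (nat_lit 19768790602) (nat_lit 139) (nat_lit 5) (nat_lit 145) (nat_lit 5) (nat_lit 140) (nat_lit 5) (nat_lit 449) (nat_lit 400) (nat_lit 171)) (XT.lf (nat_lit 0) (nat_lit 17298553658) (nat_lit 304) (nat_lit 14366022522) (nat_lit 380) (nat_lit 23562429245) (nat_lit 135) (nat_lit 5) (nat_lit 139) (nat_lit 5) (nat_lit 140) (nat_lit 5) (nat_lit 450) (nat_lit 400) (nat_lit 170)))) (XT.nd (nat_lit 156) (nat_lit 380) (nat_lit 0) (XT.nd (nat_lit 78) (nat_lit 304) (nat_lit 0) (XT.lf (nat_lit 0) (nat_lit 43088020351) (nat_lit 380) (nat_lit 6829586139) (nat_lit 76) (nat_lit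 6338968042) (nat_lit 135) (nat_lit 5) (nat_lit 140) (nat_lit 5) (nat_lit 136) (nat_lit 5) (nat_lit 451) (nat_lit 400) (nat_lit 169)) (XT.lf (nat_lit 0) (nat_lit 25556702529) (nat_lit 304) (nat_lit 29683992265) (nat_lit 380) (nat_lit 2064740392) (nat_lit 131) (nat_lit 5) (nat_lit 135) (nat_lit 5) (nat_lit 136) (nat_lit 5) (nat_lit 452) (nat_lit 400) (nat_lit 168))) (XT.nd (nat_lit 78) (nat_lit 0) (nat_lit 0) (XT.lf (nat_lit 0) (nat_lit 589601963) (nat_lit 304) (nat_lit 8673646323) (nat_lit 380) (nat_lit 49117592536) (nat_lit 126) (nat_lit 5) (nat_lit 130) (nat_lit 5) (nat_lit 131) (nat_lit 5) (nat_lit 453) (nat_lit 400) (nat_lit 167)) (XT.lf (nat_lit 0) (nat_lit 21336642674) (nat_lit 380) (nat_lit 25080281181) (nat_lit 76) (nat_lit 13057559783) (nat_lit 126) (nat_lit 5) (nat_lit 131) (nat_lit 5) (nat_lit 127) (nat_lit 5) (nat_lit 454) (nat_lit 400) (nat_lit 166))))) (XT.nd (nat_lit 234) (nat_lit 608) (nat_lit 0)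 (XT.nd (nat_lit 78) (nat_lit 228) (nat_lit 0) (XT.lf (nat_lit 0) (nat_lit 8693803103) (nat_lit 304) (nat_lit 25246567366) (nat_lit 380) (nat_lit 26655521572) (nat_lit 122) (nat_lit 5) (nat_lit 126) (nat_lit 5) (nat_lit 127) (nat_lit 5) (nat_lit 455) (nat_lit 400) (nat_lit 165)) (XT.nd (nat_lit 78) (nat_lit 228) (nat_lit 0) (XT.lf (nat_lit 0) (nat_lit 43993278576) (nat_lit 304) (nat_lit 3180896491) (nat_lit 380) (nat_lit 14569208924) (nat_lit 122) (nat_lit 5) (nat_lit 126) (nat_lit 5) (nat_lit 127) (nat_lit 5) (nat_lit 456) (nat_lit 400) (nat_lit 164)) (XT.lf (nat_lit 0) (nat_lit 17579657245) (nat_lit 228) (nat_lit 43580953197) (nat_lit 304) (nat_lit 1754021996) (nat_lit 119) (nat_lit 5) (nat_lit 122) (nat_lit 5) (nat_lit 123) (nat_lit 5) (nat_lit 457) (nat_lit 400) (nat_lit 163)))) (XT.nd (nat_lit 156) (nat_lit 228) (nat_lit 0) (XT.nd (nat_lit 78) (nat_lit 304) (nat_lit 0) (XT.lf (nat_lit 0) (nat_lit 11433526092)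 (nat_lit 304) (nat_lit 9927693469) (nat_lit 76) (nat_lit 42750160806) (nat_lit 118) (nat_lit 5) (nat_lit 122) (nat_lit 5) (nat_lit 119) (nat_lit 5) (nat_lit 458) (nat_lit 400) (nat_lit 162)) (XT.lf (nat_lit 0) (nat_lit 25257649607) (nat_lit 380) (nat_lit 38302732718) (nat_lit 76) (nat_lit 1774841537) (nat_lit 114) (nat_lit 5) (nat_lit 119) (nat_lit 5) (nat_lit 115) (nat_lit 5) (nat_lit 459) (nat_lit 400) (nat_lit 161))) (XT.nd (nat_lit 78) (nat_lit 228) (nat_lit 0) (XT.lf (nat_lit 0) (nat_lit 39808025865) (nat_lit 380) (nat_lit 1502164915) (nat_lit 76) (nat_lit 25276246220) (nat_lit 114) (nat_lit 5) (nat_lit 119) (nat_lit 5) (nat_lit 115) (nat_lit 5) (nat_lit 460) (nat_lit 400) (nat_lit 160)) (XT.lf (nat_lit 0) (nat_lit 37125028736) (nat_lit 228) (nat_lit 18025577434) (nat_lit 304) (nat_lit 12713909783) (nat_lit 111) (nat_lit 5) (nat_lit 114) (nat_lit 5) (nat_lit 115) (nat_lit 5) (nat_lit 461) (nat_lit 400) (nat_lit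 159)))))) (XT.nd (nat_lit 546) (nat_lit 684) (nat_lit 0) (XT.nd (nat_lit 234) (nat_lit 532) (nat_lit 0) (XT.nd (nat_lit 78) (nat_lit 228) (nat_lit 0) (XT.lf (nat_lit 0) (nat_lit 1886325154) (nat_lit 304) (nat_lit 61339650295) (nat_lit 76) (nat_lit 5949999253) (nat_lit 107) (nat_lit 5) (nat_lit 111) (nat_lit 5) (nat_lit 108) (nat_lit 5) (nat_lit 462) (nat_lit 400) (nat_lit 158)) (XT.nd (nat_lit 78) (nat_lit 228) (nat_lit 0) (XT.lf (nat_lit 0) (nat_lit 17159822659) (nat_lit 304) (nat_lit 22627200010) (nat_lit 76) (nat_lit 30721254546) (nat_lit 107) (nat_lit 5) (nat_lit 111) (nat_lit 5) (nat_lit 108) (nat_lit 5) (nat_lit 463) (nat_lit 400) (nat_lit 157)) (XT.lf (nat_lit 0) (nat_lit 17588033475) (nat_lit 228) (nat_lit 15471431905) (nat_lit 304) (nat_lit 38816045396) (nat_lit 104) (nat_lit 5) (nat_lit 107) (nat_lit 5) (nat_lit 108) (nat_lit 5) (nat_lit 464) (nat_lit 400) (nat_lit 156)))) (XT.nd (nat_lit 156) (nat_lit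 304) (nat_lit 0) (XT.nd (nat_lit 78) (nat_lit 228) (nat_lit 0) (XT.lf (nat_lit 0) (nat_lit 49757760229) (nat_lit 304) (nat_lit 13899442754) (nat_lit 76) (nat_lit 9616908653) (nat_lit 104) (nat_lit 5) (nat_lit 108) (nat_lit 5) (nat_lit 105) (nat_lit 5) (nat_lit 465) (nat_lit 400) (nat_lit 155)) (XT.lf (nat_lit 0) (nat_lit 28093502687) (nat_lit 228) (nat_lit 39285650860) (nat_lit 304) (nat_lit 7322852654) (nat_lit 101) (nat_lit 5) (nat_lit 104) (nat_lit 5) (nat_lit 105) (nat_lit 5) (nat_lit 466) (nat_lit 400) (nat_lit 154))) (XT.nd (nat_lit 78) (nat_lit 228) (nat_lit 0) (XT.lf (nat_lit 0) (nat_lit 9314539145) (nat_lit 304) (nat_lit 4630452611) (nat_lit 76) (nat_lit 62220827829) (nat_lit 100) (nat_lit 5) (nat_lit 104) (nat_lit 5) (nat_lit 101) (nat_lit 5) (nat_lit 467) (nat_lit 400) (nat_lit 153)) (XT.lf (nat_lit 0) (nat_lit 26801894978) (nat_lit 304) (nat_lit 38481765575) (nat_lit 76) (nat_lit 12372771136) (nat_lit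 97) (nat_lit 5) (nat_lit 101) (nat_lit 5) (nat_lit 98) (nat_lit 5) (nat_lit 468) (nat_lit 400) (nat_lit 152))))) (XT.nd (nat_lit 312) (nat_lit 228) (nat_lit 0) (XT.nd (nat_lit 156) (nat_lit 228) (nat_lit 0) (XT.nd (nat_lit 78) (nat_lit 0) (nat_lit 0) (XT.lf (nat_lit 0) (nat_lit 5158921153) (nat_lit 228) (nat_lit 39888790563) (nat_lit 304) (nat_lit 34137035387) (nat_lit 94) (nat_lit 5) (nat_lit 97) (nat_lit 5) (nat_lit 98) (nat_lit 5) (nat_lit 469) (nat_lit 400) (nat_lit 151)) (XT.lf (nat_lit 0) (nat_lit 50895969222) (nat_lit 228) (nat_lit 13332496968) (nat_lit 304) (nat_lit 16518819040) (nat_lit 94) (nat_lit 5) (nat_lit 97) (nat_lit 5) (nat_lit 98) (nat_lit 5) (nat_lit 470) (nat_lit 400) (nat_lit 150))) (XT.nd (nat_lit 78) (nat_lit 0) (nat_lit 0) (XT.lf (nat_lit 0) (nat_lit 1884855059) (nat_lit 228) (nat_lit 66545900608) (nat_lit 76) (nat_lit 13916814158) (nat_lit 91) (nat_lit 5) (nat_lit 94) (nat_lit 5) (nat_lit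 92) (nat_lit 5) (nat_lit 471) (nat_lit 400) (nat_lit 149)) (XT.lf (nat_lit 0) (nat_lit 20944056593) (nat_lit 228) (nat_lit 20850870919) (nat_lit 76) (nat_lit 42182966128) (nat_lit 91) (nat_lit 5) (nat_lit 94) (nat_lit 5) (nat_lit 92) (nat_lit 5) (nat_lit 472) (nat_lit 400) (nat_lit 148)))) (XT.nd (nat_lit 47502) (nat_lit 0) (nat_lit 12844) (XT.nd (nat_lit 78) (nat_lit 0) (nat_lit 0) (XT.lf (nat_lit 0) (nat_lit 26735080453) (nat_lit 228) (nat_lit 14095976682) (nat_lit 304) (nat_lit 44818389476) (nat_lit 88) (nat_lit 5) (nat_lit 91) (nat_lit 5) (nat_lit 92) (nat_lit 5) (nat_lit 473) (nat_lit 400) (nat_lit 147)) (XT.lf (nat_lit 0) (nat_lit 61665088714) (nat_lit 304) (nat_lit 11331262944) (nat_lit 76) (nat_lit 14364282012) (nat_lit 88) (nat_lit 5) (nat_lit 92) (nat_lit 5) (nat_lit 89) (nat_lit 5) (nat_lit 474) (nat_lit 400) (nat_lit 146))) (XT.nd (nat_lit 78) (nat_lit 0) (nat_lit 0) (XT.lf (nat_lit 0) (nat_lit 2716695729)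 (nat_lit 1292) (nat_lit 4830591380) (nat_lit 1292) (nat_lit 4830591380) (nat_lit 257) (nat_lit 3) (nat_lit 274) (nat_lit 3) (nat_lit 274) (nat_lit 5) (nat_lit 401) (nat_lit 401) (nat_lit 218)) (XT.lf (nat_lit 76) (nat_lit 2416803573) (nat_lit 0) (nat_lit 3227375040) (nat_lit 1292) (nat_lit 19479001445) (nat_lit 258) (nat_lit 5) (nat_lit 257) (nat_lit 3) (nat_lit 274) (nat_lit 5) (nat_lit 402) (nat_lit 401) (nat_lit 217))))))))
noncomputable def xc222 : XT := (XT.nd (nat_lit 2262) (nat_lit 6156) (nat_lit 0) (XT.nd (nat_lit 1092) (nat_lit 4788) (nat_lit 0) (XT.nd (nat_lit 546) (nat_lit 0) (nat_lit 228) (XT.nd (nat_lit 234) (nat_lit 0) (nat_lit 76) (XT.nd (nat_lit 78) (nat_lit 0) (nat_lit 0) (XT.lf (nat_lit 0) (nat_lit 6042147004) (nat_lit 1216) (nat_lit 10533284176) (nat_lit 1292) (nat_lit 8920770276) (nat_lit 258) (nat_lit 5) (nat_lit 274) (nat_lit 5) (nat_lit 275) (nat_lit 5) (nat_lit 403) (nat_lit 401) (nat_lit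 216)) (XT.nd (nat_lit 78) (nat_lit 0) (nat_lit 76) (XT.lf (nat_lit 76) (nat_lit 2010016998) (nat_lit 0) (nat_lit 4489292944) (nat_lit 1292) (nat_lit 19379687204) (nat_lit 259) (nat_lit 5) (nat_lit 258) (nat_lit 5) (nat_lit 275) (nat_lit 5) (nat_lit 404) (nat_lit 401) (nat_lit 215)) (XT.lf (nat_lit 0) (nat_lit 7150209031) (nat_lit 1216) (nat_lit 11204476148) (nat_lit 1292) (nat_lit 7913192166) (nat_lit 259) (nat_lit 5) (nat_lit 275) (nat_lit 5) (nat_lit 276) (nat_lit 5) (nat_lit 405) (nat_lit 401) (nat_lit 214)))) (XT.nd (nat_lit 156) (nat_lit 0) (nat_lit 76) (XT.nd (nat_lit 78) (nat_lit 0) (nat_lit 76) (XT.lf (nat_lit 76) (nat_lit 1828906395) (nat_lit 0) (nat_lit 6049963259) (nat_lit 1292) (nat_lit 18787808497) (nat_lit 260) (nat_lit 5) (nat_lit 259) (nat_lit 5) (nat_lit 276) (nat_lit 5) (nat_lit 406) (nat_lit 401) (nat_lit 213)) (XT.lf (nat_lit 0) (nat_lit 8803634518) (nat_lit 1216) (nat_lit 11658271010) (nat_lit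 1292) (nat_lit 6610311324) (nat_lit 260) (nat_lit 5) (nat_lit 276) (nat_lit 5) (nat_lit 277) (nat_lit 5) (nat_lit 407) (nat_lit 401) (nat_lit 212))) (XT.nd (nat_lit 78) (nat_lit 0) (nat_lit 76) (XT.lf (nat_lit 76) (nat_lit 1891289610) (nat_lit 0) (nat_lit 7939349079) (nat_lit 1292) (nat_lit 17657049301) (nat_lit 261) (nat_lit 5) (nat_lit 260) (nat_lit 5) (nat_lit 277) (nat_lit 5) (nat_lit 408) (nat_lit 401) (nat_lit 211)) (XT.lf (nat_lit 0) (nat_lit 11051521302) (nat_lit 1216) (nat_lit 11877029978) (nat_lit 1292) (nat_lit 4982181066) (nat_lit 261) (nat_lit 5) (nat_lit 277) (nat_lit 5) (nat_lit 278) (nat_lit 5) (nat_lit 409) (nat_lit 401) (nat_lit 210))))) (XT.nd (nat_lit 234) (nat_lit 0) (nat_lit 152) (XT.nd (nat_lit 78) (nat_lit 0) (nat_lit 76) (XT.lf (nat_lit 76) (nat_lit 2216203578) (nat_lit 0) (nat_lit 10189348619) (nat_lit 1292) (nat_lit 15938021284) (nat_lit 262) (nat_lit 5) (nat_lit 261) (nat_lit 5) (nat_lit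 278) (nat_lit 5) (nat_lit 410) (nat_lit 401) (nat_lit 209)) (XT.nd (nat_lit 78) (nat_lit 0) (nat_lit 0) (XT.lf (nat_lit 0) (nat_lit 13946207290) (nat_lit 1216) (nat_lit 11841913532) (nat_lit 1292) (nat_lit 2996899998) (nat_lit 262) (nat_lit 5) (nat_lit 278) (nat_lit 5) (nat_lit 279) (nat_lit 5) (nat_lit 411) (nat_lit 401) (nat_lit 208)) (XT.lf (nat_lit 76) (nat_lit 2823957178) (nat_lit 0) (nat_lit 12833947932) (nat_lit 1292) (nat_lit 13578062813) (nat_lit 263) (nat_lit 5) (nat_lit 262) (nat_lit 5) (nat_lit 279) (nat_lit 5) (nat_lit 412) (nat_lit 401) (nat_lit 207)))) (XT.nd (nat_lit 156) (nat_lit 0) (nat_lit 0) (XT.nd (nat_lit 78) (nat_lit 0) (nat_lit 0) (XT.lf (nat_lit 0) (nat_lit 17543480583) (nat_lit 1216) (nat_lit 11532829483) (nat_lit 1292) (nat_lit 620458580) (nat_lit 263) (nat_lit 5) (nat_lit 279) (nat_lit 5) (nat_lit 280) (nat_lit 5) (nat_lit 413) (nat_lit 401) (nat_lit 206)) (XT.lf (nat_lit 76) (nat_lit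 3736186498) (nat_lit 0) (nat_lit 15909382520) (nat_lit 1292) (nat_lit 10521026979) (nat_lit 264) (nat_lit 5) (nat_lit 263) (nat_lit 5) (nat_lit 280) (nat_lit 5) (nat_lit 414) (nat_lit 401) (nat_lit 205))) (XT.nd (nat_lit 78) (nat_lit 0) (nat_lit 76) (XT.lf (nat_lit 76) (nat_lit 19697329592) (nat_lit 0) (nat_lit 2226877713) (nat_lit 1292) (nat_lit 8722907198) (nat_lit 264) (nat_lit 5) (nat_lit 263) (nat_lit 5) (nat_lit 280) (nat_lit 5) (nat_lit 415) (nat_lit 401) (nat_lit 204)) (XT.lf (nat_lit 76) (nat_lit 4975912451) (nat_lit 0) (nat_lit 19454308582) (nat_lit 1292) (nat_lit 6707057963) (nat_lit 265) (nat_lit 5) (nat_lit 264) (nat_lit 5) (nat_lit 281) (nat_lit 5) (nat_lit 416) (nat_lit 401) (nat_lit 203)))))) (XT.nd (nat_lit 546) (nat_lit 2736) (nat_lit 0) (XT.nd (nat_lit 234) (nat_lit 1292) (nat_lit 0) (XT.nd (nat_lit 78) (nat_lit 1216) (nat_lit 0) (XT.lf (nat_lit 76) (nat_lit 21578997119) (nat_lit 0) (nat_lit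 5562003309) (nat_lit 1292) (nat_lit 4497261334) (nat_lit 265) (nat_lit 5) (nat_lit 264) (nat_lit 5) (nat_lit 281) (nat_lit 5) (nat_lit 417) (nat_lit 401) (nat_lit 202)) (XT.nd (nat_lit 78) (nat_lit 76) (nat_lit 0) (XT.lf (nat_lit 0) (nat_lit 6567600655) (nat_lit 1216) (nat_lit 23509984699) (nat_lit 1292) (nat_lit 2072355061) (nat_lit 249) (nat_lit 5) (nat_lit 265) (nat_lit 5) (nat_lit 266) (nat_lit 5) (nat_lit 418) (nat_lit 401) (nat_lit 201)) (XT.lf (nat_lit 0) (nat_lit 571951024) (nat_lit 1292) (nat_lit 8837014705) (nat_lit 76) (nat_lit 23263233320) (nat_lit 248) (nat_lit 5) (nat_lit 265) (nat_lit 5) (nat_lit 249) (nat_lit 5) (nat_lit 419) (nat_lit 401) (nat_lit 200)))) (XT.nd (nat_lit 156) (nat_lit 608) (nat_lit 0) (XT.nd (nat_lit 78) (nat_lit 0) (nat_lit 0) (XT.lf (nat_lit 0) (nat_lit 3383733426) (nat_lit 760) (nat_lit 24702562327) (nat_lit 76) (nat_lit 5119320948) (nat_lit 239) (nat_lit 5) (nat_lit 249) (nat_lit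 5) (nat_lit 240) (nat_lit 5) (nat_lit 420) (nat_lit 401) (nat_lit 199)) (XT.lf (nat_lit 0) (nat_lit 6460580575) (nat_lit 760) (nat_lit 7304319371) (nat_lit 76) (nat_lit 19984716372) (nat_lit 239) (nat_lit 5) (nat_lit 249) (nat_lit 5) (nat_lit 240) (nat_lit 5) (nat_lit 421) (nat_lit 401) (nat_lit 198))) (XT.nd (nat_lit 78) (nat_lit 0) (nat_lit 0) (XT.lf (nat_lit 0) (nat_lit 9741806650) (nat_lit 684) (nat_lit 23492623675) (nat_lit 76) (nat_lit 1072144143) (nat_lit 231) (nat_lit 5) (nat_lit 240) (nat_lit 5) (nat_lit 232) (nat_lit 5) (nat_lit 422) (nat_lit 401) (nat_lit 197)) (XT.lf (nat_lit 0) (nat_lit 13329804964) (nat_lit 684) (nat_lit 5391921027) (nat_lit 76) (nat_lit 16152266034) (nat_lit 231) (nat_lit 5) (nat_lit 240) (nat_lit 5) (nat_lit 232) (nat_lit 5) (nat_lit 423) (nat_lit 401) (nat_lit 196))))) (XT.nd (nat_lit 312) (nat_lit 1596) (nat_lit 0) (XT.nd (nat_lit 156) (nat_lit 532) (nat_lit 0) (XT.nd (nat_lit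 78) (nat_lit 0) (nat_lit 0) (XT.lf (nat_lit 0) (nat_lit 13513186390) (nat_lit 608) (nat_lit 3639784655) (nat_lit 684) (nat_lit 18301635938) (nat_lit 223) (nat_lit 5) (nat_lit 231) (nat_lit 5) (nat_lit 232) (nat_lit 5) (nat_lit 424) (nat_lit 401) (nat_lit 195)) (XT.lf (nat_lit 0) (nat_lit 21257835548) (nat_lit 684) (nat_lit 3072263570) (nat_lit 76) (nat_lit 11717531852) (nat_lit 223) (nat_lit 5) (nat_lit 232) (nat_lit 5) (nat_lit 224) (nat_lit 5) (nat_lit 425) (nat_lit 401) (nat_lit 194))) (XT.nd (nat_lit 78) (nat_lit 0) (nat_lit 0) (XT.lf (nat_lit 0) (nat_lit 16649536378) (nat_lit 532) (nat_lit 9030138441) (nat_lit 608) (nat_lit 10972956659) (nat_lit 216) (nat_lit 5) (nat_lit 223) (nat_lit 5) (nat_lit 224) (nat_lit 5) (nat_lit 426) (nat_lit 401) (nat_lit 193)) (XT.lf (nat_lit 0) (nat_lit 30327971022) (nat_lit 608) (nat_lit 316202035) (nat_lit 76) (nat_lit 6628795539) (nat_lit 216) (nat_lit 5) (nat_lit 224) (nat_lit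 5) (nat_lit 217) (nat_lit 5) (nat_lit 427) (nat_lit 401) (nat_lit 192)))) (XT.nd (nat_lit 156) (nat_lit 532) (nat_lit 0) (XT.nd (nat_lit 78) (nat_lit 532) (nat_lit 0) (XT.lf (nat_lit 0) (nat_lit 20265072193) (nat_lit 532) (nat_lit 15132705093) (nat_lit 608) (nat_lit 2505677334) (nat_lit 209) (nat_lit 5) (nat_lit 216) (nat_lit 5) (nat_lit 217) (nat_lit 5) (nat_lit 428) (nat_lit 401) (nat_lit 191)) (XT.lf (nat_lit 0) (nat_lit 2064596903) (nat_lit 532) (nat_lit 35607050642) (nat_lit 76) (nat_lit 879469078) (nat_lit 202) (nat_lit 5) (nat_lit 209) (nat_lit 5) (nat_lit 203) (nat_lit 5) (nat_lit 429) (nat_lit 401) (nat_lit 190))) (XT.nd (nat_lit 78) (nat_lit 532) (nat_lit 0) (XT.lf (nat_lit 0) (nat_lit 7049234735) (nat_lit 532) (nat_lit 14886031358) (nat_lit 76) (nat_lit 17272370198) (nat_lit 202) (nat_lit 5) (nat_lit 209) (nat_lit 5) (nat_lit 203) (nat_lit 5) (nat_lit 430) (nat_lit 401) (nat_lit 189)) (XT.lf (nat_lit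 0) (nat_lit 6582817932) (nat_lit 532) (nat_lit 5661844329) (nat_lit 608) (nat_lit 27637352326) (nat_lit 195) (nat_lit 5) (nat_lit 202) (nat_lit 5) (nat_lit 203) (nat_lit 5) (nat_lit 431) (nat_lit 401) (nat_lit 188))))))) (XT.nd (nat_lit 1092) (nat_lit 3040) (nat_lit 0) (XT.nd (nat_lit 546) (nat_lit 1216) (nat_lit 0) (XT.nd (nat_lit 234) (nat_lit 1444) (nat_lit 0) (XT.nd (nat_lit 78) (nat_lit 456) (nat_lit 0) (XT.lf (nat_lit 0) (nat_lit 17852466276) (nat_lit 608) (nat_lit 11681709937) (nat_lit 76) (nat_lit 11034753154) (nat_lit 195) (nat_lit 5) (nat_lit 203) (nat_lit 5) (nat_lit 196) (nat_lit 5) (nat_lit 432) (nat_lit 401) (nat_lit 187)) (XT.nd (nat_lit 78) (nat_lit 0) (nat_lit 0) (XT.lf (nat_lit 0) (nat_lit 10735507814) (nat_lit 456) (nat_lit 13050316497) (nat_lit 532) (nat_lit 17485908206) (nat_lit 189) (nat_lit 5) (nat_lit 195) (nat_lit 5) (nat_lit 196) (nat_lit 5) (nat_lit 433) (nat_lit 401) (nat_lit 186)) (XT.lf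 (nat_lit 0) (nat_lit 30052170323) (nat_lit 532) (nat_lit 7968558934) (nat_lit 76) (nat_lit 3970241398) (nat_lit 189) (nat_lit 5) (nat_lit 196) (nat_lit 5) (nat_lit 190) (nat_lit 5) (nat_lit 434) (nat_lit 401) (nat_lit 185)))) (XT.nd (nat_lit 156) (nat_lit 912) (nat_lit 0) (XT.nd (nat_lit 78) (nat_lit 76) (nat_lit 0) (XT.lf (nat_lit 0) (nat_lit 15446144510) (nat_lit 456) (nat_lit 21336204467) (nat_lit 532) (nat_lit 5941162188) (nat_lit 183) (nat_lit 5) (nat_lit 189) (nat_lit 5) (nat_lit 190) (nat_lit 5) (nat_lit 435) (nat_lit 401) (nat_lit 184)) (XT.lf (nat_lit 0) (nat_lit 311223423) (nat_lit 532) (nat_lit 3754252957) (nat_lit 76) (nat_lit 39410100859) (nat_lit 182) (nat_lit 5) (nat_lit 189) (nat_lit 5) (nat_lit 183) (nat_lit 5) (nat_lit 436) (nat_lit 401) (nat_lit 183))) (XT.nd (nat_lit 78) (nat_lit 456) (nat_lit 0) (XT.lf (nat_lit 0) (nat_lit 6964601517) (nat_lit 532) (nat_lit 23557109443) (nat_lit 76) (nat_lit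 13716745117) (nat_lit 176) (nat_lit 5) (nat_lit 183) (nat_lit 5) (nat_lit 177) (nat_lit 5) (nat_lit 437) (nat_lit 401) (nat_lit 182)) (XT.lf (nat_lit 0) (nat_lit 878227958) (nat_lit 456) (nat_lit 13024582346) (nat_lit 532) (nat_lit 31118854536) (nat_lit 170) (nat_lit 5) (nat_lit 176) (nat_lit 5) (nat_lit 177) (nat_lit 5) (nat_lit 438) (nat_lit 401) (nat_lit 181))))) (XT.nd (nat_lit 234) (nat_lit 836) (nat_lit 0) (XT.nd (nat_lit 78) (nat_lit 380) (nat_lit 0) (XT.lf (nat_lit 0) (nat_lit 21335715181) (nat_lit 532) (nat_lit 19344301451) (nat_lit 76) (nat_lit 5139757165) (nat_lit 170) (nat_lit 5) (nat_lit 177) (nat_lit 5) (nat_lit 171) (nat_lit 5) (nat_lit 439) (nat_lit 401) (nat_lit 180)) (XT.nd (nat_lit 78) (nat_lit 0) (nat_lit 0) (XT.lf (nat_lit 0) (nat_lit 6188478037) (nat_lit 380) (nat_lit 22989898411) (nat_lit 456) (nat_lit 17457846912) (nat_lit 165) (nat_lit 5) (nat_lit 170) (nat_lit 5) (nat_lit 171) (nat_lit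 5) (nat_lit 440) (nat_lit 401) (nat_lit 179)) (XT.lf (nat_lit 0) (nat_lit 32881667799) (nat_lit 380) (nat_lit 4568343283) (nat_lit 456) (nat_lit 10021344927) (nat_lit 165) (nat_lit 5) (nat_lit 170) (nat_lit 5) (nat_lit 171) (nat_lit 5) (nat_lit 441) (nat_lit 401) (nat_lit 178)))) (XT.nd (nat_lit 156) (nat_lit 380) (nat_lit 0) (XT.nd (nat_lit 78) (nat_lit 76) (nat_lit 0) (XT.lf (nat_lit 0) (nat_lit 12140441654) (nat_lit 380) (nat_lit 34082929980) (nat_lit 456) (nat_lit 2100564087) (nat_lit 160) (nat_lit 5) (nat_lit 165) (nat_lit 5) (nat_lit 166) (nat_lit 5) (nat_lit 442) (nat_lit 401) (nat_lit 177)) (XT.lf (nat_lit 0) (nat_lit 6132055308) (nat_lit 456) (nat_lit 9333151053) (nat_lit 76) (nat_lit 33729367121) (nat_lit 159) (nat_lit 5) (nat_lit 165) (nat_lit 5) (nat_lit 160) (nat_lit 5) (nat_lit 443) (nat_lit 401) (nat_lit 176))) (XT.nd (nat_lit 78) (nat_lit 0) (nat_lit 0) (XT.lf (nat_lit 0) (nat_lit 14784949464) (nat_lit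 456) (nat_lit 31458958443) (nat_lit 76) (nat_lit 3840333432) (nat_lit 154) (nat_lit 5) (nat_lit 160) (nat_lit 5) (nat_lit 155) (nat_lit 5) (nat_lit 444) (nat_lit 401) (nat_lit 175)) (XT.lf (nat_lit 0) (nat_lit 23944206367) (nat_lit 456) (nat_lit 3540101493) (nat_lit 76) (nat_lit 23508888442) (nat_lit 154) (nat_lit 5) (nat_lit 160) (nat_lit 5) (nat_lit 155) (nat_lit 5) (nat_lit 445) (nat_lit 401) (nat_lit 174)))))) (XT.nd (nat_lit 546) (nat_lit 1596) (nat_lit 0) (XT.nd (nat_lit 234) (nat_lit 684) (nat_lit 0) (XT.nd (nat_lit 78) (nat_lit 380) (nat_lit 0) (XT.lf (nat_lit 0) (nat_lit 25716129677) (nat_lit 380) (nat_lit 7907830284) (nat_lit 456) (nat_lit 18298088722) (nat_lit 149) (nat_lit 5) (nat_lit 154) (nat_lit 5) (nat_lit 155) (nat_lit 5) (nat_lit 446) (nat_lit 401) (nat_lit 173)) (XT.nd (nat_lit 78) (nat_lit 76) (nat_lit 0) (XT.lf (nat_lit 0) (nat_lit 2982939486) (nat_lit 304) (nat_lit 40792292889) (nat_lit 380)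 (nat_lit 9098100800) (nat_lit 145) (nat_lit 5) (nat_lit 149) (nat_lit 5) (nat_lit 150) (nat_lit 5) (nat_lit 447) (nat_lit 401) (nat_lit 172)) (XT.lf (nat_lit 0) (nat_lit 714604133) (nat_lit 380) (nat_lit 20347140302) (nat_lit 76) (nat_lit 32780980364) (nat_lit 144) (nat_lit 5) (nat_lit 149) (nat_lit 5) (nat_lit 145) (nat_lit 5) (nat_lit 448) (nat_lit 401) (nat_lit 171)))) (XT.nd (nat_lit 156) (nat_lit 304) (nat_lit 0) (XT.nd (nat_lit 78) (nat_lit 0) (nat_lit 0) (XT.lf (nat_lit 0) (nat_lit 10189182975) (nat_lit 380) (nat_lit 546178863) (nat_lit 456) (nat_lit 44100238191) (nat_lit 139) (nat_lit 5) (nat_lit 144) (nat_lit 5) (nat_lit 145) (nat_lit 5) (nat_lit 449) (nat_lit 401) (nat_lit 170)) (XT.lf (nat_lit 0) (nat_lit 21460723620) (nat_lit 456) (nat_lit 13995305950) (nat_lit 76) (nat_lit 20390112799) (nat_lit 139) (nat_lit 5) (nat_lit 145) (nat_lit 5) (nat_lit 140) (nat_lit 5) (nat_lit 450) (nat_lit 401) (nat_lit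 169))) (XT.nd (nat_lit 78) (nat_lit 0) (nat_lit 0) (XT.lf (nat_lit 0) (nat_lit 17917634109) (nat_lit 304) (nat_lit 14766502300) (nat_lit 380) (nat_lit 24197576149) (nat_lit 135) (nat_lit 5) (nat_lit 139) (nat_lit 5) (nat_lit 140) (nat_lit 5) (nat_lit 451) (nat_lit 401) (nat_lit 168)) (XT.lf (nat_lit 0) (nat_lit 44448540705) (nat_lit 380) (nat_lit 6935508987) (nat_lit 76) (nat_lit 6558171759) (nat_lit 135) (nat_lit 5) (nat_lit 140) (nat_lit 5) (nat_lit 136) (nat_lit 5) (nat_lit 452) (nat_lit 401) (nat_lit 167))))) (XT.nd (nat_lit 312) (nat_lit 608) (nat_lit 0) (XT.nd (nat_lit 156) (nat_lit 304) (nat_lit 0) (XT.nd (nat_lit 78) (nat_lit 380) (nat_lit 0) (XT.lf (nat_lit 0) (nat_lit 26421398098) (nat_lit 304) (nat_lit 30543362186) (nat_lit 380) (nat_lit 2057819099) (nat_lit 131) (nat_lit 5) (nat_lit 135) (nat_lit 5) (nat_lit 136) (nat_lit 5) (nat_lit 453) (nat_lit 401) (nat_lit 166)) (XT.lf (nat_lit 0) (nat_lit 705667382)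 (nat_lit 304) (nat_lit 8901977152) (nat_lit 380) (nat_lit 50522613806) (nat_lit 126) (nat_lit 5) (nat_lit 130) (nat_lit 5) (nat_lit 131) (nat_lit 5) (nat_lit 454) (nat_lit 401) (nat_lit 165))) (XT.nd (nat_lit 78) (nat_lit 304) (nat_lit 0) (XT.lf (nat_lit 0) (nat_lit 22041601406) (nat_lit 380) (nat_lit 25735525898) (nat_lit 76) (nat_lit 13479632688) (nat_lit 126) (nat_lit 5) (nat_lit 131) (nat_lit 5) (nat_lit 127) (nat_lit 5) (nat_lit 455) (nat_lit 401) (nat_lit 164)) (XT.lf (nat_lit 0) (nat_lit 9050828330) (nat_lit 304) (nat_lit 25971648435) (nat_lit 380) (nat_lit 27389363170) (nat_lit 122) (nat_lit 5) (nat_lit 126) (nat_lit 5) (nat_lit 127) (nat_lit 5) (nat_lit 456) (nat_lit 401) (nat_lit 163)))) (XT.nd (nat_lit 156) (nat_lit 380) (nat_lit 0) (XT.nd (nat_lit 78) (nat_lit 228) (nat_lit 0) (XT.lf (nat_lit 0) (nat_lit 45406485801) (nat_lit 304) (nat_lit 3244948676) (nat_lit 380) (nat_lit 14942378349) (nat_lit 122)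 (nat_lit 5) (nat_lit 126) (nat_lit 5) (nat_lit 127) (nat_lit 5) (nat_lit 457) (nat_lit 401) (nat_lit 162)) (XT.lf (nat_lit 0) (nat_lit 18201095746) (nat_lit 228) (nat_lit 44855757209) (nat_lit 304) (nat_lit 1743364408) (nat_lit 119) (nat_lit 5) (nat_lit 122) (nat_lit 5) (nat_lit 123) (nat_lit 5) (nat_lit 458) (nat_lit 401) (nat_lit 161))) (XT.nd (nat_lit 78) (nat_lit 304) (nat_lit 0) (XT.lf (nat_lit 0) (nat_lit 11836768245) (nat_lit 304) (nat_lit 10133005280) (nat_lit 76) (nat_lit 44063130490) (nat_lit 118) (nat_lit 5) (nat_lit 122) (nat_lit 5) (nat_lit 119) (nat_lit 5) (nat_lit 459) (nat_lit 401) (nat_lit 160)) (XT.lf (nat_lit 0) (nat_lit 26075051639) (nat_lit 380) (nat_lit 39358721519) (nat_lit 76) (nat_lit 1859706882) (nat_lit 114) (nat_lit 5) (nat_lit 119) (nat_lit 5) (nat_lit 115) (nat_lit 5) (nat_lit 460) (nat_lit 401) (nat_lit 159))))))))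
noncomputable def xc223 : XT := (XT.nd (nat_lit 49686) (nat_lit 0) (nat_lit 5016) (XT.nd (nat_lit 48516) (nat_lit 0) (nat_lit 12844) (XT.nd (nat_lit 546) (nat_lit 988) (nat_lit 0) (XT.nd (nat_lit 234) (nat_lit 456) (nat_lit 0) (XT.nd (nat_lit 78) (nat_lit 532) (nat_lit 0) (XT.lf (nat_lit 0) (nat_lit 41060201150) (nat_lit 380) (nat_lit 1456848134) (nat_lit 76) (nat_lit 26065232732) (nat_lit 114) (nat_lit 5) (nat_lit 119) (nat_lit 5) (nat_lit 115) (nat_lit 5) (nat_lit 461) (nat_lit 401) (nat_lit 158)) (XT.nd (nat_lit 78) (nat_lit 304) (nat_lit 0) (XT.lf (nat_lit 0) (nat_lit 38328275231) (nat_lit 228) (nat_lit 18533956507) (nat_lit 304) (nat_lit 13036496706) (nat_lit 111) (nat_lit 5) (nat_lit 114) (nat_lit 5) (nat_lit 115) (nat_lit 5) (nat_lit 462) (nat_lit 401) (nat_lit 157)) (XT.lf (nat_lit 0) (nat_lit 2000096334) (nat_lit 304) (nat_lit 63088676539) (nat_lit 76) (nat_lit 6160756422) (nat_lit 107) (nat_lit 5) (nat_lit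 111) (nat_lit 5) (nat_lit 108) (nat_lit 5) (nat_lit 463) (nat_lit 401) (nat_lit 156)))) (XT.nd (nat_lit 156) (nat_lit 228) (nat_lit 0) (XT.nd (nat_lit 78) (nat_lit 228) (nat_lit 0) (XT.lf (nat_lit 0) (nat_lit 17730133286) (nat_lit 304) (nat_lit 23217507986) (nat_lit 76) (nat_lit 31674209844) (nat_lit 107) (nat_lit 5) (nat_lit 111) (nat_lit 5) (nat_lit 108) (nat_lit 5) (nat_lit 464) (nat_lit 401) (nat_lit 155)) (XT.lf (nat_lit 0) (nat_lit 18203314778) (nat_lit 228) (nat_lit 15902675994) (nat_lit 304) (nat_lit 39924134408) (nat_lit 104) (nat_lit 5) (nat_lit 107) (nat_lit 5) (nat_lit 108) (nat_lit 5) (nat_lit 465) (nat_lit 401) (nat_lit 154))) (XT.nd (nat_lit 78) (nat_lit 228) (nat_lit 0) (XT.lf (nat_lit 0) (nat_lit 51303947088) (nat_lit 304) (nat_lit 14230042566) (nat_lit 76) (nat_lit 9936733285) (nat_lit 104) (nat_lit 5) (nat_lit 108) (nat_lit 5) (nat_lit 105) (nat_lit 5) (nat_lit 466) (nat_lit 401) (nat_lit 153))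 (XT.lf (nat_lit 0) (nat_lit 29021844342) (nat_lit 228) (nat_lit 40431403180) (nat_lit 304) (nat_lit 7488229106) (nat_lit 101) (nat_lit 5) (nat_lit 104) (nat_lit 5) (nat_lit 105) (nat_lit 5) (nat_lit 467) (nat_lit 401) (nat_lit 152))))) (XT.nd (nat_lit 234) (nat_lit 456) (nat_lit 0) (XT.nd (nat_lit 78) (nat_lit 456) (nat_lit 0) (XT.lf (nat_lit 0) (nat_lit 9645673728) (nat_lit 304) (nat_lit 4685284363) (nat_lit 76) (nat_lit 64118277419) (nat_lit 100) (nat_lit 5) (nat_lit 104) (nat_lit 5) (nat_lit 101) (nat_lit 5) (nat_lit 468) (nat_lit 401) (nat_lit 151)) (XT.nd (nat_lit 78) (nat_lit 228) (nat_lit 0) (XT.lf (nat_lit 0) (nat_lit 27657254926) (nat_lit 304) (nat_lit 39551733921) (nat_lit 76) (nat_lit 12775589216) (nat_lit 97) (nat_lit 5) (nat_lit 101) (nat_lit 5) (nat_lit 98) (nat_lit 5) (nat_lit 469) (nat_lit 401) (nat_lit 150)) (XT.lf (nat_lit 0) (nat_lit 5397345129) (nat_lit 228) (nat_lit 41052410928) (nat_lit 304)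 (nat_lit 35109007802) (nat_lit 94) (nat_lit 5) (nat_lit 97) (nat_lit 5) (nat_lit 98) (nat_lit 5) (nat_lit 470) (nat_lit 401) (nat_lit 149)))) (XT.nd (nat_lit 156) (nat_lit 228) (nat_lit 0) (XT.nd (nat_lit 78) (nat_lit 228) (nat_lit 0) (XT.lf (nat_lit 0) (nat_lit 52504068047) (nat_lit 228) (nat_lit 13700390953) (nat_lit 304) (nat_lit 16963763566) (nat_lit 94) (nat_lit 5) (nat_lit 97) (nat_lit 5) (nat_lit 98) (nat_lit 5) (nat_lit 471) (nat_lit 401) (nat_lit 148)) (XT.lf (nat_lit 0) (nat_lit 1990681748) (nat_lit 228) (nat_lit 68459705370) (nat_lit 76) (nat_lit 14366124720) (nat_lit 91) (nat_lit 5) (nat_lit 94) (nat_lit 5) (nat_lit 92) (nat_lit 5) (nat_lit 472) (nat_lit 401) (nat_lit 147))) (XT.nd (nat_lit 78) (nat_lit 228) (nat_lit 0) (XT.lf (nat_lit 0) (nat_lit 21620223958) (nat_lit 228) (nat_lit 21396229808) (nat_lit 76) (nat_lit 43479334857) (nat_lit 91) (nat_lit 5) (nat_lit 94) (nat_lit 5) (nat_lit 92) (nat_lit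 5) (nat_lit 473) (nat_lit 401) (nat_lit 146)) (XT.lf (nat_lit 0) (nat_lit 27616514153) (nat_lit 228) (nat_lit 14486689863) (nat_lit 304) (nat_lit 46114303271) (nat_lit 88) (nat_lit 5) (nat_lit 91) (nat_lit 5) (nat_lit 92) (nat_lit 5) (nat_lit 474) (nat_lit 401) (nat_lit 145)))))) (XT.nd (nat_lit 546) (nat_lit 0) (nat_lit 228) (XT.nd (nat_lit 234) (nat_lit 0) (nat_lit 76) (XT.nd (nat_lit 78) (nat_lit 0) (nat_lit 0) (XT.lf (nat_lit 0) (nat_lit 2903231629) (nat_lit 1292) (nat_lit 4921398905) (nat_lit 1292) (nat_lit 4921398905) (nat_lit 257) (nat_lit 3) (nat_lit 274) (nat_lit 3) (nat_lit 274) (nat_lit 5) (nat_lit 402) (nat_lit 402) (nat_lit 216)) (XT.nd (nat_lit 78) (nat_lit 0) (nat_lit 76) (XT.lf (nat_lit 76) (nat_lit 2596467128) (nat_lit 0) (nat_lit 3422018439) (nat_lit 1292) (nat_lit 19852173743) (nat_lit 258) (nat_lit 5) (nat_lit 257) (nat_lit 3) (nat_lit 274) (nat_lit 5) (nat_lit 403) (nat_lit 402) (nat_lit 215))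 (XT.lf (nat_lit 0) (nat_lit 6421509733) (nat_lit 1216) (nat_lit 10738296368) (nat_lit 1292) (nat_lit 9095273690) (nat_lit 258) (nat_lit 5) (nat_lit 274) (nat_lit 5) (nat_lit 275) (nat_lit 5) (nat_lit 404) (nat_lit 402) (nat_lit 214)))) (XT.nd (nat_lit 156) (nat_lit 0) (nat_lit 76) (XT.nd (nat_lit 78) (nat_lit 0) (nat_lit 76) (XT.lf (nat_lit 76) (nat_lit 2180215740) (nat_lit 0) (nat_lit 4707458374) (nat_lit 1292) (nat_lit 19761828527) (nat_lit 259) (nat_lit 5) (nat_lit 258) (nat_lit 5) (nat_lit 275) (nat_lit 5) (nat_lit 405) (nat_lit 402) (nat_lit 213)) (XT.lf (nat_lit 0) (nat_lit 7551688456) (nat_lit 1216) (nat_lit 11427440357) (nat_lit 1292) (nat_lit 8071114614) (nat_lit 259) (nat_lit 5) (nat_lit 275) (nat_lit 5) (nat_lit 276) (nat_lit 5) (nat_lit 406) (nat_lit 402) (nat_lit 212))) (XT.nd (nat_lit 78) (nat_lit 0) (nat_lit 76) (XT.lf (nat_lit 76) (nat_lit 1995834151) (nat_lit 0) (nat_lit 6302006121) (nat_lit 1292)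 (nat_lit 19163300822) (nat_lit 260) (nat_lit 5) (nat_lit 259) (nat_lit 5) (nat_lit 276) (nat_lit 5) (nat_lit 407) (nat_lit 402) (nat_lit 211)) (XT.lf (nat_lit 0) (nat_lit 9244371143) (nat_lit 1216) (nat_lit 11893187998) (nat_lit 1292) (nat_lit 6741467850) (nat_lit 260) (nat_lit 5) (nat_lit 276) (nat_lit 5) (nat_lit 277) (nat_lit 5) (nat_lit 408) (nat_lit 402) (nat_lit 210))))) (XT.nd (nat_lit 312) (nat_lit 0) (nat_lit 152) (XT.nd (nat_lit 156) (nat_lit 0) (nat_lit 76) (XT.nd (nat_lit 78) (nat_lit 0) (nat_lit 76) (XT.lf (nat_lit 76) (nat_lit 2061733645) (nat_lit 0) (nat_lit 8236400307) (nat_lit 1292) (nat_lit 18008951532) (nat_lit 261) (nat_lit 5) (nat_lit 260) (nat_lit 5) (nat_lit 277) (nat_lit 5) (nat_lit 409) (nat_lit 402) (nat_lit 209)) (XT.lf (nat_lit 0) (nat_lit 11550067136) (nat_lit 1216) (nat_lit 12117317194) (nat_lit 1292) (nat_lit 5075605746) (nat_lit 261) (nat_lit 5) (nat_lit 277) (nat_lit 5) (nat_lit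 278) (nat_lit 5) (nat_lit 410) (nat_lit 402) (nat_lit 208))) (XT.nd (nat_lit 78) (nat_lit 0) (nat_lit 76) (XT.lf (nat_lit 76) (nat_lit 2397575882) (nat_lit 0) (nat_lit 10543383348) (nat_lit 1292) (nat_lit 16247971585) (nat_lit 262) (nat_lit 5) (nat_lit 261) (nat_lit 5) (nat_lit 278) (nat_lit 5) (nat_lit 411) (nat_lit 402) (nat_lit 207)) (XT.lf (nat_lit 0) (nat_lit 14522628127) (nat_lit 1216) (nat_lit 12080373969) (nat_lit 1292) (nat_lit 3040777187) (nat_lit 262) (nat_lit 5) (nat_lit 278) (nat_lit 5) (nat_lit 279) (nat_lit 5) (nat_lit 412) (nat_lit 402) (nat_lit 206)))) (XT.nd (nat_lit 156) (nat_lit 0) (nat_lit 76) (XT.nd (nat_lit 78) (nat_lit 0) (nat_lit 76) (XT.lf (nat_lit 76) (nat_lit 3024327793) (nat_lit 0) (nat_lit 13257857855) (nat_lit 1292) (nat_lit 13826175378) (nat_lit 263) (nat_lit 5) (nat_lit 262) (nat_lit 5) (nat_lit 279) (nat_lit 5) (nat_lit 413) (nat_lit 402) (nat_lit 205)) (XT.lf (nat_lit 0) (nat_lit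 18219464162) (nat_lit 1216) (nat_lit 11761618559) (nat_lit 1292) (nat_lit 602050422) (nat_lit 263) (nat_lit 5) (nat_lit 279) (nat_lit 5) (nat_lit 280) (nat_lit 5) (nat_lit 414) (nat_lit 402) (nat_lit 204))) (XT.nd (nat_lit 78) (nat_lit 0) (nat_lit 0) (XT.lf (nat_lit 76) (nat_lit 3964318923) (nat_lit 0) (nat_lit 16417052253) (nat_lit 1292) (nat_lit 10685782865) (nat_lit 264) (nat_lit 5) (nat_lit 263) (nat_lit 5) (nat_lit 280) (nat_lit 5) (nat_lit 415) (nat_lit 402) (nat_lit 203)) (XT.lf (nat_lit 76) (nat_lit 20400916306) (nat_lit 0) (nat_lit 2323187206) (nat_lit 1292) (nat_lit 8838113905) (nat_lit 264) (nat_lit 5) (nat_lit 263) (nat_lit 5) (nat_lit 280) (nat_lit 5) (nat_lit 416) (nat_lit 402) (nat_lit 202))))))) (XT.nd (nat_lit 1092) (nat_lit 3648) (nat_lit 0) (XT.nd (nat_lit 546) (nat_lit 2204) (nat_lit 0) (XT.nd (nat_lit 234) (nat_lit 1368) (nat_lit 0) (XT.nd (nat_lit 78) (nat_lit 1140) (nat_lit 0) (XT.lf (nat_lit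 76) (nat_lit 5241301157) (nat_lit 0) (nat_lit 20060696413) (nat_lit 1292) (nat_lit 6765189601) (nat_lit 265) (nat_lit 5) (nat_lit 264) (nat_lit 5) (nat_lit 281) (nat_lit 5) (nat_lit 417) (nat_lit 402) (nat_lit 201)) (XT.nd (nat_lit 78) (nat_lit 1140) (nat_lit 0) (XT.lf (nat_lit 76) (nat_lit 22339096481) (nat_lit 0) (nat_lit 5750959110) (nat_lit 1292) (nat_lit 4493266455) (nat_lit 265) (nat_lit 5) (nat_lit 264) (nat_lit 5) (nat_lit 281) (nat_lit 5) (nat_lit 418) (nat_lit 402) (nat_lit 200)) (XT.lf (nat_lit 0) (nat_lit 6880510742) (nat_lit 1216) (nat_lit 24231208096) (nat_lit 1292) (nat_lit 1998724045) (nat_lit 249) (nat_lit 5) (nat_lit 265) (nat_lit 5) (nat_lit 266) (nat_lit 5) (nat_lit 419) (nat_lit 402) (nat_lit 199)))) (XT.nd (nat_lit 156) (nat_lit 608) (nat_lit 0) (XT.nd (nat_lit 78) (nat_lit 684) (nat_lit 0) (XT.lf (nat_lit 0) (nat_lit 718383038) (nat_lit 1292) (nat_lit 8987006308) (nat_lit 76) (nat_lit 23943058289)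 (nat_lit 248) (nat_lit 5) (nat_lit 265) (nat_lit 5) (nat_lit 249) (nat_lit 5) (nat_lit 420) (nat_lit 402) (nat_lit 198)) (XT.lf (nat_lit 0) (nat_lit 3611728157) (nat_lit 760) (nat_lit 25325691565) (nat_lit 76) (nat_lit 5260532959) (nat_lit 239) (nat_lit 5) (nat_lit 249) (nat_lit 5) (nat_lit 240) (nat_lit 5) (nat_lit 421) (nat_lit 402) (nat_lit 197))) (XT.nd (nat_lit 78) (nat_lit 608) (nat_lit 0) (XT.lf (nat_lit 0) (nat_lit 6777196759) (nat_lit 760) (nat_lit 7408936687) (nat_lit 76) (nat_lit 20572250467) (nat_lit 239) (nat_lit 5) (nat_lit 249) (nat_lit 5) (nat_lit 240) (nat_lit 5) (nat_lit 422) (nat_lit 402) (nat_lit 196)) (XT.lf (nat_lit 0) (nat_lit 10154306379) (nat_lit 684) (nat_lit 24080301029) (nat_lit 76) (nat_lit 1097521072) (nat_lit 231) (nat_lit 5) (nat_lit 240) (nat_lit 5) (nat_lit 232) (nat_lit 5) (nat_lit 423) (nat_lit 402) (nat_lit 195))))) (XT.nd (nat_lit 234) (nat_lit 1596) (nat_lit 0) (XT.nd (nat_lit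 78) (nat_lit 608) (nat_lit 0) (XT.lf (nat_lit 0) (nat_lit 13846442346) (nat_lit 684) (nat_lit 5439988021) (nat_lit 76) (nat_lit 16630244311) (nat_lit 231) (nat_lit 5) (nat_lit 240) (nat_lit 5) (nat_lit 232) (nat_lit 5) (nat_lit 424) (nat_lit 402) (nat_lit 194)) (XT.nd (nat_lit 78) (nat_lit 0) (nat_lit 0) (XT.lf (nat_lit 0) (nat_lit 14031158004) (nat_lit 608) (nat_lit 3750827265) (nat_lit 684) (nat_lit 18732793371) (nat_lit 223) (nat_lit 5) (nat_lit 231) (nat_lit 5) (nat_lit 232) (nat_lit 5) (nat_lit 425) (nat_lit 402) (nat_lit 193)) (XT.lf (nat_lit 0) (nat_lit 22006645682) (nat_lit 684) (nat_lit 3051751527) (nat_lit 76) (nat_lit 12067297624) (nat_lit 223) (nat_lit 5) (nat_lit 232) (nat_lit 5) (nat_lit 224) (nat_lit 5) (nat_lit 426) (nat_lit 402) (nat_lit 192)))) (XT.nd (nat_lit 156) (nat_lit 1064) (nat_lit 0) (XT.nd (nat_lit 78) (nat_lit 0) (nat_lit 0) (XT.lf (nat_lit 0) (nat_lit 17260597714) (nat_lit 532) (nat_lit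 9298379752) (nat_lit 608) (nat_lit 11189933728) (nat_lit 216) (nat_lit 5) (nat_lit 223) (nat_lit 5) (nat_lit 224) (nat_lit 5) (nat_lit 427) (nat_lit 402) (nat_lit 191)) (XT.lf (nat_lit 0) (nat_lit 31343575199) (nat_lit 608) (nat_lit 214184332) (nat_lit 76) (nat_lit 6830194242) (nat_lit 216) (nat_lit 5) (nat_lit 224) (nat_lit 5) (nat_lit 217) (nat_lit 5) (nat_lit 428) (nat_lit 402) (nat_lit 190))) (XT.nd (nat_lit 78) (nat_lit 532) (nat_lit 0) (XT.lf (nat_lit 0) (nat_lit 20983434948) (nat_lit 532) (nat_lit 15580021502) (nat_lit 608) (nat_lit 2473959405) (nat_lit 209) (nat_lit 5) (nat_lit 216) (nat_lit 5) (nat_lit 217) (nat_lit 5) (nat_lit 429) (nat_lit 402) (nat_lit 189)) (XT.lf (nat_lit 0) (nat_lit 2229438526) (nat_lit 532) (nat_lit 36560809578) (nat_lit 76) (nat_lit 914286601) (nat_lit 202) (nat_lit 5) (nat_lit 209) (nat_lit 5) (nat_lit 203) (nat_lit 5) (nat_lit 430) (nat_lit 402) (nat_lit 188)))))) (XT.nd (nat_lit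 546) (nat_lit 2128) (nat_lit 0) (XT.nd (nat_lit 234) (nat_lit 988) (nat_lit 0) (XT.nd (nat_lit 78) (nat_lit 532) (nat_lit 0) (XT.lf (nat_lit 0) (nat_lit 7360618297) (nat_lit 532) (nat_lit 15221493286) (nat_lit 76) (nat_lit 17798729119) (nat_lit 202) (nat_lit 5) (nat_lit 209) (nat_lit 5) (nat_lit 203) (nat_lit 5) (nat_lit 431) (nat_lit 402) (nat_lit 187)) (XT.nd (nat_lit 78) (nat_lit 0) (nat_lit 0) (XT.lf (nat_lit 0) (nat_lit 6890332081) (nat_lit 532) (nat_lit 5819724343) (nat_lit 608) (nat_lit 28365450293) (nat_lit 195) (nat_lit 5) (nat_lit 202) (nat_lit 5) (nat_lit 203) (nat_lit 5) (nat_lit 432) (nat_lit 402) (nat_lit 186)) (XT.lf (nat_lit 0) (nat_lit 18483350369) (nat_lit 608) (nat_lit 11922566278) (nat_lit 76) (nat_lit 11377195394) (nat_lit 195) (nat_lit 5) (nat_lit 203) (nat_lit 5) (nat_lit 196) (nat_lit 5) (nat_lit 433) (nat_lit 402) (nat_lit 185)))) (XT.nd (nat_lit 156) (nat_lit 532) (nat_lit 0) (XT.nd (nat_lit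 78) (nat_lit 0) (nat_lit 0) (XT.lf (nat_lit 0) (nat_lit 11166093545) (nat_lit 456) (nat_lit 13426882743) (nat_lit 532) (nat_lit 17914075738) (nat_lit 189) (nat_lit 5) (nat_lit 195) (nat_lit 5) (nat_lit 196) (nat_lit 5) (nat_lit 434) (nat_lit 402) (nat_lit 184)) (XT.lf (nat_lit 0) (nat_lit 31044726589) (nat_lit 532) (nat_lit 8099645489) (nat_lit 76) (nat_lit 4103573545) (nat_lit 189) (nat_lit 5) (nat_lit 196) (nat_lit 5) (nat_lit 190) (nat_lit 5) (nat_lit 435) (nat_lit 402) (nat_lit 183))) (XT.nd (nat_lit 78) (nat_lit 76) (nat_lit 0) (XT.lf (nat_lit 0) (nat_lit 16016440526) (nat_lit 456) (nat_lit 21958747549) (nat_lit 532) (nat_lit 6027323660) (nat_lit 183) (nat_lit 5) (nat_lit 189) (nat_lit 5) (nat_lit 190) (nat_lit 5) (nat_lit 436) (nat_lit 402) (nat_lit 182)) (XT.lf (nat_lit 0) (nat_lit 408207417) (nat_lit 532) (nat_lit 3761316100) (nat_lit 76) (nat_lit 40607669277) (nat_lit 182) (nat_lit 5) (nat_lit 189) (nat_lit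 5) (nat_lit 183) (nat_lit 5) (nat_lit 437) (nat_lit 402) (nat_lit 181))))) (XT.nd (nat_lit 312) (nat_lit 836) (nat_lit 0) (XT.nd (nat_lit 156) (nat_lit 380) (nat_lit 0) (XT.nd (nat_lit 78) (nat_lit 456) (nat_lit 0) (XT.lf (nat_lit 0) (nat_lit 7259815984) (nat_lit 532) (nat_lit 24156865718) (nat_lit 76) (nat_lit 14146318071) (nat_lit 176) (nat_lit 5) (nat_lit 183) (nat_lit 5) (nat_lit 177) (nat_lit 5) (nat_lit 438) (nat_lit 402) (nat_lit 180)) (XT.lf (nat_lit 0) (nat_lit 1010483207) (nat_lit 456) (nat_lit 13394192978) (nat_lit 532) (nat_lit 31965074091) (nat_lit 170) (nat_lit 5) (nat_lit 176) (nat_lit 5) (nat_lit 177) (nat_lit 5) (nat_lit 439) (nat_lit 402) (nat_lit 179))) (XT.nd (nat_lit 78) (nat_lit 380) (nat_lit 0) (XT.lf (nat_lit 0) (nat_lit 22058296011) (nat_lit 532) (nat_lit 19819514150) (nat_lit 76) (nat_lit 5314061120) (nat_lit 170) (nat_lit 5) (nat_lit 177) (nat_lit 5) (nat_lit 171) (nat_lit 5) (nat_lit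 440) (nat_lit 402) (nat_lit 178)) (XT.lf (nat_lit 0) (nat_lit 6478218171) (nat_lit 380) (nat_lit 23656616297) (nat_lit 456) (nat_lit 17898022540) (nat_lit 165) (nat_lit 5) (nat_lit 170) (nat_lit 5) (nat_lit 171) (nat_lit 5) (nat_lit 441) (nat_lit 402) (nat_lit 177)))) (XT.nd (nat_lit 156) (nat_lit 456) (nat_lit 0) (XT.nd (nat_lit 78) (nat_lit 380) (nat_lit 0) (XT.lf (nat_lit 0) (nat_lit 33969172001) (nat_lit 380) (nat_lit 4683083808) (nat_lit 456) (nat_lit 10240859274) (nat_lit 165) (nat_lit 5) (nat_lit 170) (nat_lit 5) (nat_lit 171) (nat_lit 5) (nat_lit 442) (nat_lit 402) (nat_lit 176)) (XT.lf (nat_lit 0) (nat_lit 12606864248) (nat_lit 380) (nat_lit 35080850111) (nat_lit 456) (nat_lit 2083591474) (nat_lit 160) (nat_lit 5) (nat_lit 165) (nat_lit 5) (nat_lit 166) (nat_lit 5) (nat_lit 443) (nat_lit 402) (nat_lit 175))) (XT.nd (nat_lit 78) (nat_lit 380) (nat_lit 0) (XT.lf (nat_lit 0) (nat_lit 6392161289) (nat_lit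 456) (nat_lit 9512380151) (nat_lit 76) (nat_lit 34763567277) (nat_lit 159) (nat_lit 5) (nat_lit 165) (nat_lit 5) (nat_lit 160) (nat_lit 5) (nat_lit 444) (nat_lit 402) (nat_lit 174)) (XT.lf (nat_lit 0) (nat_lit 15303622873) (nat_lit 456) (nat_lit 32300925241) (nat_lit 76) (nat_lit 3979949593) (nat_lit 154) (nat_lit 5) (nat_lit 160) (nat_lit 5) (nat_lit 155) (nat_lit 5) (nat_lit 445) (nat_lit 402) (nat_lit 173))))))))
noncomputable def xc224 : XT := (XT.nd (nat_lit 2184) (nat_lit 0) (nat_lit 0) (XT.nd (nat_lit 1092) (nat_lit 2128) (nat_lit 0) (XT.nd (nat_lit 546) (nat_lit 1216) (nat_lit 0) (XT.nd (nat_lit 234) (nat_lit 760) (nat_lit 0) (XT.nd (nat_lit 78) (nat_lit 684) (nat_lit 0) (XT.lf (nat_lit 0) (nat_lit 24735469379) (nat_lit 456) (nat_lit 3547467687) (nat_lit 76) (nat_lit 24237850394) (nat_lit 154) (nat_lit 5) (nat_lit 160) (nat_lit 5) (nat_lit 155) (nat_lit 5) (nat_lit 446) (nat_lit 402) (nat_lit 172)) (XT.nd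 (nat_lit 78) (nat_lit 304) (nat_lit 0) (XT.lf (nat_lit 0) (nat_lit 26585481429) (nat_lit 380) (nat_lit 8118950544) (nat_lit 456) (nat_lit 18773109432) (nat_lit 149) (nat_lit 5) (nat_lit 154) (nat_lit 5) (nat_lit 155) (nat_lit 5) (nat_lit 447) (nat_lit 402) (nat_lit 171)) (XT.lf (nat_lit 0) (nat_lit 3171234951) (nat_lit 304) (nat_lit 41988111224) (nat_lit 380) (nat_lit 9298045619) (nat_lit 145) (nat_lit 5) (nat_lit 149) (nat_lit 5) (nat_lit 150) (nat_lit 5) (nat_lit 448) (nat_lit 402) (nat_lit 170)))) (XT.nd (nat_lit 156) (nat_lit 304) (nat_lit 0) (XT.nd (nat_lit 78) (nat_lit 380) (nat_lit 0) (XT.lf (nat_lit 0) (nat_lit 805531331) (nat_lit 380) (nat_lit 20860227372) (nat_lit 76) (nat_lit 33790148395) (nat_lit 144) (nat_lit 5) (nat_lit 149) (nat_lit 5) (nat_lit 145) (nat_lit 5) (nat_lit 449) (nat_lit 402) (nat_lit 169)) (XT.lf (nat_lit 0) (nat_lit 10591231416) (nat_lit 380) (nat_lit 534582794) (nat_lit 456) (nat_lit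 45352787733) (nat_lit 139) (nat_lit 5) (nat_lit 144) (nat_lit 5) (nat_lit 145) (nat_lit 5) (nat_lit 450) (nat_lit 402) (nat_lit 168))) (XT.nd (nat_lit 78) (nat_lit 304) (nat_lit 0) (XT.lf (nat_lit 0) (nat_lit 22171206000) (nat_lit 456) (nat_lit 14319854387) (nat_lit 76) (nat_lit 21028452510) (nat_lit 139) (nat_lit 5) (nat_lit 145) (nat_lit 5) (nat_lit 140) (nat_lit 5) (nat_lit 451) (nat_lit 402) (nat_lit 167)) (XT.lf (nat_lit 0) (nat_lit 18549539455) (nat_lit 304) (nat_lit 15180747347) (nat_lit 380) (nat_lit 24855894824) (nat_lit 135) (nat_lit 5) (nat_lit 139) (nat_lit 5) (nat_lit 140) (nat_lit 5) (nat_lit 452) (nat_lit 402) (nat_lit 166))))) (XT.nd (nat_lit 234) (nat_lit 532) (nat_lit 0) (XT.nd (nat_lit 78) (nat_lit 684) (nat_lit 0) (XT.lf (nat_lit 0) (nat_lit 45845980095) (nat_lit 380) (nat_lit 7050290502) (nat_lit 76) (nat_lit 6782284878) (nat_lit 135) (nat_lit 5) (nat_lit 140) (nat_lit 5) (nat_lit 136) (nat_lit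 5) (nat_lit 453) (nat_lit 402) (nat_lit 165)) (XT.nd (nat_lit 78) (nat_lit 380) (nat_lit 0) (XT.lf (nat_lit 0) (nat_lit 27306409250) (nat_lit 304) (nat_lit 31430301334) (nat_lit 380) (nat_lit 2054643214) (nat_lit 131) (nat_lit 5) (nat_lit 135) (nat_lit 5) (nat_lit 136) (nat_lit 5) (nat_lit 454) (nat_lit 402) (nat_lit 164)) (XT.lf (nat_lit 0) (nat_lit 819567500) (nat_lit 304) (nat_lit 9138987865) (nat_lit 380) (nat_lit 51973718268) (nat_lit 126) (nat_lit 5) (nat_lit 130) (nat_lit 5) (nat_lit 131) (nat_lit 5) (nat_lit 455) (nat_lit 402) (nat_lit 163)))) (XT.nd (nat_lit 156) (nat_lit 228) (nat_lit 0) (XT.nd (nat_lit 78) (nat_lit 304) (nat_lit 0) (XT.lf (nat_lit 0) (nat_lit 22763985702) (nat_lit 380) (nat_lit 26416005551) (nat_lit 76) (nat_lit 13912625789) (nat_lit 126) (nat_lit 5) (nat_lit 131) (nat_lit 5) (nat_lit 127) (nat_lit 5) (nat_lit 456) (nat_lit 402) (nat_lit 162)) (XT.lf (nat_lit 0) (nat_lit 9413041401)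 (nat_lit 304) (nat_lit 26720337005) (nat_lit 380) (nat_lit 28148998587) (nat_lit 122) (nat_lit 5) (nat_lit 126) (nat_lit 5) (nat_lit 127) (nat_lit 5) (nat_lit 457) (nat_lit 402) (nat_lit 161))) (XT.nd (nat_lit 78) (nat_lit 228) (nat_lit 0) (XT.lf (nat_lit 0) (nat_lit 46856727191) (nat_lit 304) (nat_lit 3312723463) (nat_lit 380) (nat_lit 15330411370) (nat_lit 122) (nat_lit 5) (nat_lit 126) (nat_lit 5) (nat_lit 127) (nat_lit 5) (nat_lit 458) (nat_lit 402) (nat_lit 160)) (XT.lf (nat_lit 0) (nat_lit 18835778618) (nat_lit 228) (nat_lit 46170678126) (nat_lit 304) (nat_lit 1736019523) (nat_lit 119) (nat_lit 5) (nat_lit 122) (nat_lit 5) (nat_lit 123) (nat_lit 5) (nat_lit 459) (nat_lit 402) (nat_lit 159)))))) (XT.nd (nat_lit 546) (nat_lit 988) (nat_lit 0) (XT.nd (nat_lit 234) (nat_lit 760) (nat_lit 0) (XT.nd (nat_lit 78) (nat_lit 304) (nat_lit 0) (XT.lf (nat_lit 0) (nat_lit 12248649849) (nat_lit 304) (nat_lit 10349787414)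 (nat_lit 76) (nat_lit 45413740457) (nat_lit 118) (nat_lit 5) (nat_lit 122) (nat_lit 5) (nat_lit 119) (nat_lit 5) (nat_lit 460) (nat_lit 402) (nat_lit 158)) (XT.nd (nat_lit 78) (nat_lit 0) (nat_lit 0) (XT.lf (nat_lit 0) (nat_lit 26913550284) (nat_lit 380) (nat_lit 40451733913) (nat_lit 76) (nat_lit 1945303065) (nat_lit 114) (nat_lit 5) (nat_lit 119) (nat_lit 5) (nat_lit 115) (nat_lit 5) (nat_lit 461) (nat_lit 402) (nat_lit 157)) (XT.lf (nat_lit 0) (nat_lit 42346616015) (nat_lit 380) (nat_lit 1415360130) (nat_lit 76) (nat_lit 26876126583) (nat_lit 114) (nat_lit 5) (nat_lit 119) (nat_lit 5) (nat_lit 115) (nat_lit 5) (nat_lit 462) (nat_lit 402) (nat_lit 156)))) (XT.nd (nat_lit 156) (nat_lit 228) (nat_lit 0) (XT.nd (nat_lit 78) (nat_lit 304) (nat_lit 0) (XT.lf (nat_lit 0) (nat_lit 39562481705) (nat_lit 228) (nat_lit 19059446169) (nat_lit 304) (nat_lit 13372138341) (nat_lit 111) (nat_lit 5) (nat_lit 114) (nat_lit 5)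 (nat_lit 115) (nat_lit 5) (nat_lit 463) (nat_lit 402) (nat_lit 155)) (XT.lf (nat_lit 0) (nat_lit 2113998201) (nat_lit 304) (nat_lit 64895406714) (nat_lit 76) (nat_lit 6375984611) (nat_lit 107) (nat_lit 5) (nat_lit 111) (nat_lit 5) (nat_lit 108) (nat_lit 5) (nat_lit 464) (nat_lit 402) (nat_lit 154))) (XT.nd (nat_lit 78) (nat_lit 228) (nat_lit 0) (XT.lf (nat_lit 0) (nat_lit 18314366389) (nat_lit 304) (nat_lit 23830605924) (nat_lit 76) (nat_lit 32653956039) (nat_lit 107) (nat_lit 5) (nat_lit 111) (nat_lit 5) (nat_lit 108) (nat_lit 5) (nat_lit 465) (nat_lit 402) (nat_lit 153)) (XT.lf (nat_lit 0) (nat_lit 18832023609) (nat_lit 228) (nat_lit 16348745934) (nat_lit 304) (nat_lit 41068703242) (nat_lit 104) (nat_lit 5) (nat_lit 107) (nat_lit 5) (nat_lit 108) (nat_lit 5) (nat_lit 466) (nat_lit 402) (nat_lit 152))))) (XT.nd (nat_lit 234) (nat_lit 684) (nat_lit 0) (XT.nd (nat_lit 78) (nat_lit 304) (nat_lit 0) (XT.lf (nat_lit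 0) (nat_lit 52893451071) (nat_lit 304) (nat_lit 14575519137) (nat_lit 76) (nat_lit 10264354910) (nat_lit 104) (nat_lit 5) (nat_lit 108) (nat_lit 5) (nat_lit 105) (nat_lit 5) (nat_lit 467) (nat_lit 402) (nat_lit 151)) (XT.nd (nat_lit 78) (nat_lit 76) (nat_lit 0) (XT.lf (nat_lit 0) (nat_lit 29973126097) (nat_lit 228) (nat_lit 41613411912) (nat_lit 304) (nat_lit 7661684417) (nat_lit 101) (nat_lit 5) (nat_lit 104) (nat_lit 5) (nat_lit 105) (nat_lit 5) (nat_lit 468) (nat_lit 402) (nat_lit 150)) (XT.lf (nat_lit 0) (nat_lit 9983774649) (nat_lit 304) (nat_lit 4746587709) (nat_lit 76) (nat_lit 66070881031) (nat_lit 100) (nat_lit 5) (nat_lit 104) (nat_lit 5) (nat_lit 101) (nat_lit 5) (nat_lit 469) (nat_lit 402) (nat_lit 149)))) (XT.nd (nat_lit 156) (nat_lit 228) (nat_lit 0) (XT.nd (nat_lit 78) (nat_lit 228) (nat_lit 0) (XT.lf (nat_lit 0) (nat_lit 28535330665) (nat_lit 304) (nat_lit 40658651079) (nat_lit 76) (nat_lit 13188675862)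 (nat_lit 97) (nat_lit 5) (nat_lit 101) (nat_lit 5) (nat_lit 98) (nat_lit 5) (nat_lit 470) (nat_lit 402) (nat_lit 148)) (XT.lf (nat_lit 0) (nat_lit 5638119608) (nat_lit 228) (nat_lit 42252836728) (nat_lit 304) (nat_lit 36113132362) (nat_lit 94) (nat_lit 5) (nat_lit 97) (nat_lit 5) (nat_lit 98) (nat_lit 5) (nat_lit 471) (nat_lit 402) (nat_lit 147))) (XT.nd (nat_lit 78) (nat_lit 228) (nat_lit 0) (XT.lf (nat_lit 0) (nat_lit 54155747492) (nat_lit 228) (nat_lit 14081163334) (nat_lit 304) (nat_lit 17424962226) (nat_lit 94) (nat_lit 5) (nat_lit 97) (nat_lit 5) (nat_lit 98) (nat_lit 5) (nat_lit 472) (nat_lit 402) (nat_lit 146)) (XT.lf (nat_lit 0) (nat_lit 2096854305) (nat_lit 228) (nat_lit 70435664260) (nat_lit 76) (nat_lit 14827088797) (nat_lit 91) (nat_lit 5) (nat_lit 94) (nat_lit 5) (nat_lit 92) (nat_lit 5) (nat_lit 473) (nat_lit 402) (nat_lit 145))))))) (XT.nd (nat_lit 48594) (nat_lit 0) (nat_lit 8968) (XT.nd (nat_lit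 48048) (nat_lit 0) (nat_lit 12844) (XT.nd (nat_lit 47736) (nat_lit 0) (nat_lit 12692) (XT.nd (nat_lit 47580) (nat_lit 0) (nat_lit 12616) (XT.lf (nat_lit 0) (nat_lit 22313929807) (nat_lit 228) (nat_lit 21962551390) (nat_lit 76) (nat_lit 44812822025) (nat_lit 91) (nat_lit 5) (nat_lit 94) (nat_lit 5) (nat_lit 92) (nat_lit 5) (nat_lit 474) (nat_lit 402) (nat_lit 144)) (XT.nd (nat_lit 78) (nat_lit 0) (nat_lit 0) (XT.lf (nat_lit 0) (nat_lit 3089334167) (nat_lit 1292) (nat_lit 5018036804) (nat_lit 1292) (nat_lit 5018036804) (nat_lit 257) (nat_lit 3) (nat_lit 274) (nat_lit 3) (nat_lit 274) (nat_lit 5) (nat_lit 403) (nat_lit 403) (nat_lit 214)) (XT.lf (nat_lit 76) (nat_lit 2775369198) (nat_lit 0) (nat_lit 3616885748) (nat_lit 1292) (nat_lit 20248664825) (nat_lit 258) (nat_lit 5) (nat_lit 257) (nat_lit 3) (nat_lit 274) (nat_lit 5) (nat_lit 404) (nat_lit 403) (nat_lit 213)))) (XT.nd (nat_lit 156) (nat_lit 0) (nat_lit 76)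 (XT.nd (nat_lit 78) (nat_lit 0) (nat_lit 0) (XT.lf (nat_lit 0) (nat_lit 6800881689) (nat_lit 1216) (nat_lit 10955829994) (nat_lit 1292) (nat_lit 9280357658) (nat_lit 258) (nat_lit 5) (nat_lit 274) (nat_lit 5) (nat_lit 275) (nat_lit 5) (nat_lit 405) (nat_lit 403) (nat_lit 212)) (XT.lf (nat_lit 76) (nat_lit 2349211837) (nat_lit 0) (nat_lit 4927376291) (nat_lit 1292) (nat_lit 20166871814) (nat_lit 259) (nat_lit 5) (nat_lit 258) (nat_lit 5) (nat_lit 275) (nat_lit 5) (nat_lit 406) (nat_lit 403) (nat_lit 211))) (XT.nd (nat_lit 78) (nat_lit 0) (nat_lit 0) (XT.lf (nat_lit 0) (nat_lit 7954479241) (nat_lit 1216) (nat_lit 11663589918) (nat_lit 1292) (nat_lit 8238336830) (nat_lit 259) (nat_lit 5) (nat_lit 275) (nat_lit 5) (nat_lit 276) (nat_lit 5) (nat_lit 407) (nat_lit 403) (nat_lit 210)) (XT.lf (nat_lit 76) (nat_lit 2161337006) (nat_lit 0) (nat_lit 6557560757) (nat_lit 1292) (nat_lit 19560858034) (nat_lit 260) (nat_lit 5)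 (nat_lit 259) (nat_lit 5) (nat_lit 276) (nat_lit 5) (nat_lit 408) (nat_lit 403) (nat_lit 209))))) (XT.nd (nat_lit 234) (nat_lit 0) (nat_lit 76) (XT.nd (nat_lit 78) (nat_lit 0) (nat_lit 0) (XT.lf (nat_lit 0) (nat_lit 9688190721) (nat_lit 1216) (nat_lit 12141744273) (nat_lit 1292) (nat_lit 6880413918) (nat_lit 260) (nat_lit 5) (nat_lit 276) (nat_lit 5) (nat_lit 277) (nat_lit 5) (nat_lit 409) (nat_lit 403) (nat_lit 208)) (XT.nd (nat_lit 78) (nat_lit 0) (nat_lit 76) (XT.lf (nat_lit 76) (nat_lit 2230763849) (nat_lit 0) (nat_lit 8538983649) (nat_lit 1292) (nat_lit 18381617809) (nat_lit 261) (nat_lit 5) (nat_lit 260) (nat_lit 5) (nat_lit 277) (nat_lit 5) (nat_lit 410) (nat_lit 403) (nat_lit 207)) (XT.lf (nat_lit 0) (nat_lit 12053982850) (nat_lit 1216) (nat_lit 12371473260) (nat_lit 1292) (nat_lit 5175050135) (nat_lit 261) (nat_lit 5) (nat_lit 277) (nat_lit 5) (nat_lit 278) (nat_lit 5) (nat_lit 411) (nat_lit 403) (nat_lit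 206)))) (XT.nd (nat_lit 156) (nat_lit 0) (nat_lit 76) (XT.nd (nat_lit 78) (nat_lit 0) (nat_lit 76) (XT.lf (nat_lit 76) (nat_lit 2577794417) (nat_lit 0) (nat_lit 10905263387) (nat_lit 1292) (nat_lit 16576875208) (nat_lit 262) (nat_lit 5) (nat_lit 261) (nat_lit 5) (nat_lit 278) (nat_lit 5) (nat_lit 412) (nat_lit 403) (nat_lit 205)) (XT.lf (nat_lit 0) (nat_lit 15107269755) (nat_lit 1216) (nat_lit 12332692844) (nat_lit 1292) (nat_lit 3088612991) (nat_lit 262) (nat_lit 5) (nat_lit 278) (nat_lit 5) (nat_lit 279) (nat_lit 5) (nat_lit 413) (nat_lit 403) (nat_lit 204))) (XT.nd (nat_lit 78) (nat_lit 0) (nat_lit 76) (XT.lf (nat_lit 76) (nat_lit 3224070635) (nat_lit 0) (nat_lit 13692252545) (nat_lit 1292) (nat_lit 14090871734) (nat_lit 263) (nat_lit 5) (nat_lit 262) (nat_lit 5) (nat_lit 279) (nat_lit 5) (nat_lit 414) (nat_lit 403) (nat_lit 203)) (XT.lf (nat_lit 0) (nat_lit 18907135052) (nat_lit 1216) (nat_lit 12003998825)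 (nat_lit 1292) (nat_lit 585215230) (nat_lit 263) (nat_lit 5) (nat_lit 279) (nat_lit 5) (nat_lit 280) (nat_lit 5) (nat_lit 415) (nat_lit 403) (nat_lit 202)))))) (XT.nd (nat_lit 546) (nat_lit 2280) (nat_lit 0) (XT.nd (nat_lit 234) (nat_lit 1824) (nat_lit 0) (XT.nd (nat_lit 78) (nat_lit 0) (nat_lit 0) (XT.lf (nat_lit 76) (nat_lit 4192633759) (nat_lit 0) (nat_lit 16938207667) (nat_lit 1292) (nat_lit 10864142264) (nat_lit 264) (nat_lit 5) (nat_lit 263) (nat_lit 5) (nat_lit 280) (nat_lit 5) (nat_lit 416) (nat_lit 403) (nat_lit 201)) (XT.nd (nat_lit 78) (nat_lit 0) (nat_lit 76) (XT.lf (nat_lit 76) (nat_lit 21119143084) (nat_lit 0) (nat_lit 2420692382) (nat_lit 1292) (nat_lit 8965185394) (nat_lit 264) (nat_lit 5) (nat_lit 263) (nat_lit 5) (nat_lit 280) (nat_lit 5) (nat_lit 417) (nat_lit 403) (nat_lit 200)) (XT.lf (nat_lit 76) (nat_lit 5507986258) (nat_lit 0) (nat_lit 20683969443) (nat_lit 1292) (nat_lit 6833278571) (nat_lit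 265) (nat_lit 5) (nat_lit 264) (nat_lit 5) (nat_lit 281) (nat_lit 5) (nat_lit 418) (nat_lit 403) (nat_lit 199)))) (XT.nd (nat_lit 156) (nat_lit 760) (nat_lit 0) (XT.nd (nat_lit 78) (nat_lit 1140) (nat_lit 0) (XT.lf (nat_lit 76) (nat_lit 23115527693) (nat_lit 0) (nat_lit 5944315202) (nat_lit 1292) (nat_lit 4497125888) (nat_lit 265) (nat_lit 5) (nat_lit 264) (nat_lit 5) (nat_lit 281) (nat_lit 5) (nat_lit 419) (nat_lit 403) (nat_lit 198)) (XT.lf (nat_lit 0) (nat_lit 7196156026) (nat_lit 1216) (nat_lit 24973154100) (nat_lit 1292) (nat_lit 1930679670) (nat_lit 249) (nat_lit 5) (nat_lit 265) (nat_lit 5) (nat_lit 266) (nat_lit 5) (nat_lit 420) (nat_lit 403) (nat_lit 197))) (XT.nd (nat_lit 78) (nat_lit 684) (nat_lit 0) (XT.lf (nat_lit 0) (nat_lit 861787185) (nat_lit 1292) (nat_lit 9148105951) (nat_lit 76) (nat_lit 24644315415) (nat_lit 248) (nat_lit 5) (nat_lit 265) (nat_lit 5) (nat_lit 249) (nat_lit 5) (nat_lit 421) (nat_lit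 403) (nat_lit 196)) (XT.lf (nat_lit 0) (nat_lit 3839302105) (nat_lit 760) (nat_lit 25974285356) (nat_lit 76) (nat_lit 5406691281) (nat_lit 239) (nat_lit 5) (nat_lit 249) (nat_lit 5) (nat_lit 240) (nat_lit 5) (nat_lit 422) (nat_lit 403) (nat_lit 195))))) (XT.nd (nat_lit 312) (nat_lit 1064) (nat_lit 0) (XT.nd (nat_lit 156) (nat_lit 608) (nat_lit 0) (XT.nd (nat_lit 78) (nat_lit 608) (nat_lit 0) (XT.lf (nat_lit 0) (nat_lit 7096262276) (nat_lit 760) (nat_lit 7523265996) (nat_lit 76) (nat_lit 21178099859) (nat_lit 239) (nat_lit 5) (nat_lit 249) (nat_lit 5) (nat_lit 240) (nat_lit 5) (nat_lit 423) (nat_lit 403) (nat_lit 194)) (XT.lf (nat_lit 0) (nat_lit 10572278515) (nat_lit 684) (nat_lit 24692330800) (nat_lit 76) (nat_lit 1124048933) (nat_lit 231) (nat_lit 5) (nat_lit 240) (nat_lit 5) (nat_lit 232) (nat_lit 5) (nat_lit 424) (nat_lit 403) (nat_lit 193))) (XT.nd (nat_lit 78) (nat_lit 608) (nat_lit 0) (XT.lf (nat_lit 0)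 (nat_lit 14371877310) (nat_lit 684) (nat_lit 5496023332) (nat_lit 76) (nat_lit 17122940212) (nat_lit 231) (nat_lit 5) (nat_lit 240) (nat_lit 5) (nat_lit 232) (nat_lit 5) (nat_lit 425) (nat_lit 403) (nat_lit 192)) (XT.lf (nat_lit 0) (nat_lit 14558206444) (nat_lit 608) (nat_lit 3865095010) (nat_lit 684) (nat_lit 19183652990) (nat_lit 223) (nat_lit 5) (nat_lit 231) (nat_lit 5) (nat_lit 232) (nat_lit 5) (nat_lit 426) (nat_lit 403) (nat_lit 191)))) (XT.nd (nat_lit 156) (nat_lit 532) (nat_lit 0) (XT.nd (nat_lit 78) (nat_lit 532) (nat_lit 0) (XT.lf (nat_lit 0) (nat_lit 22771543957) (nat_lit 684) (nat_lit 3037092414) (nat_lit 76) (nat_lit 12427657411) (nat_lit 223) (nat_lit 5) (nat_lit 232) (nat_lit 5) (nat_lit 224) (nat_lit 5) (nat_lit 427) (nat_lit 403) (nat_lit 190)) (XT.lf (nat_lit 0) (nat_lit 17883586014) (nat_lit 532) (nat_lit 9574821159) (nat_lit 608) (nat_lit 11419861516) (nat_lit 216) (nat_lit 5) (nat_lit 223)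 (nat_lit 5) (nat_lit 224) (nat_lit 5) (nat_lit 428) (nat_lit 403) (nat_lit 189))) (XT.nd (nat_lit 78) (nat_lit 532) (nat_lit 0) (XT.lf (nat_lit 0) (nat_lit 32383576155) (nat_lit 608) (nat_lit 115506871) (nat_lit 76) (nat_lit 7037489396) (nat_lit 216) (nat_lit 5) (nat_lit 224) (nat_lit 5) (nat_lit 217) (nat_lit 5) (nat_lit 429) (nat_lit 403) (nat_lit 188)) (XT.lf (nat_lit 0) (nat_lit 21717010567) (nat_lit 532) (nat_lit 16041139986) (nat_lit 608) (nat_lit 2447425760) (nat_lit 209) (nat_lit 5) (nat_lit 216) (nat_lit 5) (nat_lit 217) (nat_lit 5) (nat_lit 430) (nat_lit 403) (nat_lit 187))))))))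
noncomputable def xc225 : XT := (XT.nd (nat_lit 2262) (nat_lit 2128) (nat_lit 0) (XT.nd (nat_lit 1092) (nat_lit 2888) (nat_lit 0) (XT.nd (nat_lit 546) (nat_lit 1748) (nat_lit 0) (XT.nd (nat_lit 234) (nat_lit 912) (nat_lit 0) (XT.nd (nat_lit 78) (nat_lit 532) (nat_lit 0) (XT.lf (nat_lit 0) (nat_lit 2393318304) (nat_lit 532) (nat_lit 37549751329) (nat_lit 76) (nat_lit 949664535) (nat_lit 202) (nat_lit 5) (nat_lit 209) (nat_lit 5) (nat_lit 203) (nat_lit 5) (nat_lit 431) (nat_lit 403) (nat_lit 186)) (XT.nd (nat_lit 78) (nat_lit 532) (nat_lit 0) (XT.lf (nat_lit 0) (nat_lit 7675608323) (nat_lit 532) (nat_lit 15573397758) (nat_lit 76) (nat_lit 18340408794) (nat_lit 202) (nat_lit 5) (nat_lit 209) (nat_lit 5) (nat_lit 203) (nat_lit 5) (nat_lit 432) (nat_lit 403) (nat_lit 185)) (XT.lf (nat_lit 0) (nat_lit 7200755504) (nat_lit 532) (nat_lit 5983028188) (nat_lit 608) (nat_lit 29121190310) (nat_lit 195) (nat_lit 5) (nat_lit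 202) (nat_lit 5) (nat_lit 203) (nat_lit 5) (nat_lit 433) (nat_lit 403) (nat_lit 184)))) (XT.nd (nat_lit 156) (nat_lit 456) (nat_lit 0) (XT.nd (nat_lit 78) (nat_lit 456) (nat_lit 0) (XT.lf (nat_lit 0) (nat_lit 19127689794) (nat_lit 608) (nat_lit 12176939509) (nat_lit 76) (nat_lit 11729256515) (nat_lit 195) (nat_lit 5) (nat_lit 203) (nat_lit 5) (nat_lit 196) (nat_lit 5) (nat_lit 434) (nat_lit 403) (nat_lit 183)) (XT.lf (nat_lit 0) (nat_lit 11603367327) (nat_lit 456) (nat_lit 13815603780) (nat_lit 532) (nat_lit 18360622609) (nat_lit 189) (nat_lit 5) (nat_lit 195) (nat_lit 5) (nat_lit 196) (nat_lit 5) (nat_lit 435) (nat_lit 403) (nat_lit 182))) (XT.nd (nat_lit 78) (nat_lit 456) (nat_lit 0) (XT.lf (nat_lit 0) (nat_lit 32061836279) (nat_lit 532) (nat_lit 8240862573) (nat_lit 76) (nat_lit 4240089088) (nat_lit 189) (nat_lit 5) (nat_lit 196) (nat_lit 5) (nat_lit 190) (nat_lit 5) (nat_lit 436) (nat_lit 403) (nat_lit 181))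 (XT.lf (nat_lit 0) (nat_lit 16597708255) (nat_lit 456) (nat_lit 22600973967) (nat_lit 532) (nat_lit 6121355366) (nat_lit 183) (nat_lit 5) (nat_lit 189) (nat_lit 5) (nat_lit 190) (nat_lit 5) (nat_lit 437) (nat_lit 403) (nat_lit 180))))) (XT.nd (nat_lit 234) (nat_lit 760) (nat_lit 0) (XT.nd (nat_lit 78) (nat_lit 912) (nat_lit 0) (XT.lf (nat_lit 0) (nat_lit 503069617) (nat_lit 532) (nat_lit 3774650969) (nat_lit 76) (nat_lit 41840288451) (nat_lit 182) (nat_lit 5) (nat_lit 189) (nat_lit 5) (nat_lit 183) (nat_lit 5) (nat_lit 438) (nat_lit 403) (nat_lit 179)) (XT.nd (nat_lit 78) (nat_lit 456) (nat_lit 0) (XT.lf (nat_lit 0) (nat_lit 7558934265) (nat_lit 532) (nat_lit 24780754451) (nat_lit 76) (nat_lit 14587740888) (nat_lit 176) (nat_lit 5) (nat_lit 183) (nat_lit 5) (nat_lit 177) (nat_lit 5) (nat_lit 439) (nat_lit 403) (nat_lit 178)) (XT.lf (nat_lit 0) (nat_lit 1140626538) (nat_lit 456) (nat_lit 13776104696) (nat_lit 532)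 (nat_lit 32841694255) (nat_lit 170) (nat_lit 5) (nat_lit 176) (nat_lit 5) (nat_lit 177) (nat_lit 5) (nat_lit 440) (nat_lit 403) (nat_lit 177)))) (XT.nd (nat_lit 156) (nat_lit 380) (nat_lit 0) (XT.nd (nat_lit 78) (nat_lit 380) (nat_lit 0) (XT.lf (nat_lit 0) (nat_lit 22797817891) (nat_lit 532) (nat_lit 20315017337) (nat_lit 76) (nat_lit 5492439727) (nat_lit 170) (nat_lit 5) (nat_lit 177) (nat_lit 5) (nat_lit 171) (nat_lit 5) (nat_lit 441) (nat_lit 403) (nat_lit 176)) (XT.lf (nat_lit 0) (nat_lit 6770675558) (nat_lit 380) (nat_lit 24344654812) (nat_lit 456) (nat_lit 18356200109) (nat_lit 165) (nat_lit 5) (nat_lit 170) (nat_lit 5) (nat_lit 171) (nat_lit 5) (nat_lit 442) (nat_lit 403) (nat_lit 175))) (XT.nd (nat_lit 78) (nat_lit 380) (nat_lit 0) (XT.lf (nat_lit 0) (nat_lit 35083500405) (nat_lit 380) (nat_lit 4802547221) (nat_lit 456) (nat_lit 10471616017) (nat_lit 165) (nat_lit 5) (nat_lit 170) (nat_lit 5) (nat_lit 171)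 (nat_lit 5) (nat_lit 443) (nat_lit 403) (nat_lit 174)) (XT.lf (nat_lit 0) (nat_lit 13081412285) (nat_lit 380) (nat_lit 36110118135) (nat_lit 456) (nat_lit 2070701409) (nat_lit 160) (nat_lit 5) (nat_lit 165) (nat_lit 5) (nat_lit 166) (nat_lit 5) (nat_lit 444) (nat_lit 403) (nat_lit 173)))))) (XT.nd (nat_lit 546) (nat_lit 1292) (nat_lit 0) (XT.nd (nat_lit 234) (nat_lit 1140) (nat_lit 0) (XT.nd (nat_lit 78) (nat_lit 380) (nat_lit 0) (XT.lf (nat_lit 0) (nat_lit 6655699454) (nat_lit 456) (nat_lit 9702770470) (nat_lit 76) (nat_lit 35827512229) (nat_lit 159) (nat_lit 5) (nat_lit 165) (nat_lit 5) (nat_lit 160) (nat_lit 5) (nat_lit 445) (nat_lit 403) (nat_lit 172)) (XT.nd (nat_lit 78) (nat_lit 0) (nat_lit 0) (XT.lf (nat_lit 0) (nat_lit 15833544006) (nat_lit 456) (nat_lit 33173994891) (nat_lit 76) (nat_lit 4122353225) (nat_lit 154) (nat_lit 5) (nat_lit 160) (nat_lit 5) (nat_lit 155) (nat_lit 5) (nat_lit 446) (nat_lit 403)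 (nat_lit 171)) (XT.lf (nat_lit 0) (nat_lit 25546283409) (nat_lit 456) (nat_lit 3560728507) (nat_lit 76) (nat_lit 24987320998) (nat_lit 154) (nat_lit 5) (nat_lit 160) (nat_lit 5) (nat_lit 155) (nat_lit 5) (nat_lit 447) (nat_lit 403) (nat_lit 170)))) (XT.nd (nat_lit 156) (nat_lit 456) (nat_lit 0) (XT.nd (nat_lit 78) (nat_lit 304) (nat_lit 0) (XT.lf (nat_lit 0) (nat_lit 27475295717) (nat_lit 380) (nat_lit 8337903499) (nat_lit 456) (nat_lit 19266624186) (nat_lit 149) (nat_lit 5) (nat_lit 154) (nat_lit 5) (nat_lit 155) (nat_lit 5) (nat_lit 448) (nat_lit 403) (nat_lit 169)) (XT.lf (nat_lit 0) (nat_lit 3359507337) (nat_lit 304) (nat_lit 43221408579) (nat_lit 380) (nat_lit 9508179179) (nat_lit 145) (nat_lit 5) (nat_lit 149) (nat_lit 5) (nat_lit 150) (nat_lit 5) (nat_lit 449) (nat_lit 403) (nat_lit 168))) (XT.nd (nat_lit 78) (nat_lit 380) (nat_lit 0) (XT.lf (nat_lit 0) (nat_lit 895197389) (nat_lit 380) (nat_lit 21394294030)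 (nat_lit 76) (nat_lit 34828113965) (nat_lit 144) (nat_lit 5) (nat_lit 149) (nat_lit 5) (nat_lit 145) (nat_lit 5) (nat_lit 450) (nat_lit 403) (nat_lit 167)) (XT.lf (nat_lit 0) (nat_lit 10999809108) (nat_lit 380) (nat_lit 524245092) (nat_lit 456) (nat_lit 46646958316) (nat_lit 139) (nat_lit 5) (nat_lit 144) (nat_lit 5) (nat_lit 145) (nat_lit 5) (nat_lit 451) (nat_lit 403) (nat_lit 166))))) (XT.nd (nat_lit 312) (nat_lit 684) (nat_lit 0) (XT.nd (nat_lit 156) (nat_lit 304) (nat_lit 0) (XT.nd (nat_lit 78) (nat_lit 304) (nat_lit 0) (XT.lf (nat_lit 0) (nat_lit 22899176256) (nat_lit 456) (nat_lit 14659610503) (nat_lit 76) (nat_lit 21684413377) (nat_lit 139) (nat_lit 5) (nat_lit 145) (nat_lit 5) (nat_lit 140) (nat_lit 5) (nat_lit 452) (nat_lit 403) (nat_lit 165)) (XT.lf (nat_lit 0) (nat_lit 19194984374) (nat_lit 304) (nat_lit 15609070114) (nat_lit 380) (nat_lit 25537844071) (nat_lit 135) (nat_lit 5) (nat_lit 139) (nat_lit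 5) (nat_lit 140) (nat_lit 5) (nat_lit 453) (nat_lit 403) (nat_lit 164))) (XT.nd (nat_lit 78) (nat_lit 304) (nat_lit 0) (XT.lf (nat_lit 0) (nat_lit 47281669771) (nat_lit 380) (nat_lit 7173870331) (nat_lit 76) (nat_lit 7011550357) (nat_lit 135) (nat_lit 5) (nat_lit 140) (nat_lit 5) (nat_lit 136) (nat_lit 5) (nat_lit 454) (nat_lit 403) (nat_lit 163)) (XT.lf (nat_lit 0) (nat_lit 28212668365) (nat_lit 304) (nat_lit 32345534139) (nat_lit 380) (nat_lit 2055098178) (nat_lit 131) (nat_lit 5) (nat_lit 135) (nat_lit 5) (nat_lit 136) (nat_lit 5) (nat_lit 455) (nat_lit 403) (nat_lit 162)))) (XT.nd (nat_lit 156) (nat_lit 304) (nat_lit 0) (XT.nd (nat_lit 78) (nat_lit 0) (nat_lit 0) (XT.lf (nat_lit 0) (nat_lit 931561535) (nat_lit 304) (nat_lit 9384833813) (nat_lit 380) (nat_lit 53472062673) (nat_lit 126) (nat_lit 5) (nat_lit 130) (nat_lit 5) (nat_lit 131) (nat_lit 5) (nat_lit 456) (nat_lit 403) (nat_lit 161)) (XT.lf (nat_lit 0)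 (nat_lit 23504532056) (nat_lit 380) (nat_lit 27122157012) (nat_lit 76) (nat_lit 14356966690) (nat_lit 126) (nat_lit 5) (nat_lit 131) (nat_lit 5) (nat_lit 127) (nat_lit 5) (nat_lit 457) (nat_lit 403) (nat_lit 160))) (XT.nd (nat_lit 78) (nat_lit 0) (nat_lit 0) (XT.lf (nat_lit 0) (nat_lit 9780914988) (nat_lit 304) (nat_lit 27493234811) (nat_lit 380) (nat_lit 28934984730) (nat_lit 122) (nat_lit 5) (nat_lit 126) (nat_lit 5) (nat_lit 127) (nat_lit 5) (nat_lit 458) (nat_lit 403) (nat_lit 159)) (XT.lf (nat_lit 0) (nat_lit 48345421575) (nat_lit 304) (nat_lit 3384229144) (nat_lit 380) (nat_lit 15733543309) (nat_lit 122) (nat_lit 5) (nat_lit 126) (nat_lit 5) (nat_lit 127) (nat_lit 5) (nat_lit 459) (nat_lit 403) (nat_lit 158))))))) (XT.nd (nat_lit 48750) (nat_lit 0) (nat_lit 12388) (XT.nd (nat_lit 546) (nat_lit 988) (nat_lit 0) (XT.nd (nat_lit 234) (nat_lit 532) (nat_lit 0) (XT.nd (nat_lit 78) (nat_lit 380) (nat_lit 0) (XT.lf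 (nat_lit 0) (nat_lit 19484413104) (nat_lit 228) (nat_lit 47526811949) (nat_lit 304) (nat_lit 1731878205) (nat_lit 119) (nat_lit 5) (nat_lit 122) (nat_lit 5) (nat_lit 123) (nat_lit 5) (nat_lit 460) (nat_lit 403) (nat_lit 157)) (XT.nd (nat_lit 78) (nat_lit 304) (nat_lit 0) (XT.lf (nat_lit 0) (nat_lit 12669628579) (nat_lit 304) (nat_lit 10578079110) (nat_lit 76) (nat_lit 46803220304) (nat_lit 118) (nat_lit 5) (nat_lit 122) (nat_lit 5) (nat_lit 119) (nat_lit 5) (nat_lit 461) (nat_lit 403) (nat_lit 156)) (XT.lf (nat_lit 0) (nat_lit 27773975075) (nat_lit 380) (nat_lit 41582573846) (nat_lit 76) (nat_lit 2031756205) (nat_lit 114) (nat_lit 5) (nat_lit 119) (nat_lit 5) (nat_lit 115) (nat_lit 5) (nat_lit 462) (nat_lit 403) (nat_lit 155)))) (XT.nd (nat_lit 156) (nat_lit 304) (nat_lit 0) (XT.nd (nat_lit 78) (nat_lit 228) (nat_lit 0) (XT.lf (nat_lit 0) (nat_lit 43668488556) (nat_lit 380) (nat_lit 1377517939) (nat_lit 76) (nat_lit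 27709686156) (nat_lit 114) (nat_lit 5) (nat_lit 119) (nat_lit 5) (nat_lit 115) (nat_lit 5) (nat_lit 463) (nat_lit 403) (nat_lit 154)) (XT.lf (nat_lit 0) (nat_lit 40828871867) (nat_lit 228) (nat_lit 19602453013) (nat_lit 304) (nat_lit 13721032470) (nat_lit 111) (nat_lit 5) (nat_lit 114) (nat_lit 5) (nat_lit 115) (nat_lit 5) (nat_lit 464) (nat_lit 403) (nat_lit 153))) (XT.nd (nat_lit 78) (nat_lit 0) (nat_lit 0) (XT.lf (nat_lit 0) (nat_lit 2228223103) (nat_lit 304) (nat_lit 66761271535) (nat_lit 76) (nat_lit 6595924246) (nat_lit 107) (nat_lit 5) (nat_lit 111) (nat_lit 5) (nat_lit 108) (nat_lit 5) (nat_lit 465) (nat_lit 403) (nat_lit 152)) (XT.lf (nat_lit 0) (nat_lit 18913122580) (nat_lit 304) (nat_lit 24466885868) (nat_lit 76) (nat_lit 33661400057) (nat_lit 107) (nat_lit 5) (nat_lit 111) (nat_lit 5) (nat_lit 108) (nat_lit 5) (nat_lit 466) (nat_lit 403) (nat_lit 151))))) (XT.nd (nat_lit 234) (nat_lit 532) (nat_lit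 0) (XT.nd (nat_lit 78) (nat_lit 228) (nat_lit 0) (XT.lf (nat_lit 0) (nat_lit 19474851587) (nat_lit 228) (nat_lit 16809978093) (nat_lit 304) (nat_lit 42250660466) (nat_lit 104) (nat_lit 5) (nat_lit 107) (nat_lit 5) (nat_lit 108) (nat_lit 5) (nat_lit 467) (nat_lit 403) (nat_lit 150)) (XT.nd (nat_lit 78) (nat_lit 228) (nat_lit 0) (XT.lf (nat_lit 0) (nat_lit 54527747837) (nat_lit 304) (nat_lit 14936034116) (nat_lit 76) (nat_lit 10600110637) (nat_lit 104) (nat_lit 5) (nat_lit 108) (nat_lit 5) (nat_lit 105) (nat_lit 5) (nat_lit 468) (nat_lit 403) (nat_lit 149)) (XT.lf (nat_lit 0) (nat_lit 30948318018) (nat_lit 228) (nat_lit 42832656607) (nat_lit 304) (nat_lit 7843281993) (nat_lit 101) (nat_lit 5) (nat_lit 104) (nat_lit 5) (nat_lit 105) (nat_lit 5) (nat_lit 469) (nat_lit 403) (nat_lit 148)))) (XT.nd (nat_lit 156) (nat_lit 228) (nat_lit 0) (XT.nd (nat_lit 78) (nat_lit 228) (nat_lit 0) (XT.lf (nat_lit 0) (nat_lit 10329221255)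 (nat_lit 304) (nat_lit 4814279726) (nat_lit 76) (nat_lit 68080394858) (nat_lit 100) (nat_lit 5) (nat_lit 104) (nat_lit 5) (nat_lit 101) (nat_lit 5) (nat_lit 470) (nat_lit 403) (nat_lit 147)) (XT.lf (nat_lit 0) (nat_lit 29436972724) (nat_lit 304) (nat_lit 41803347119) (nat_lit 76) (nat_lit 13612443377) (nat_lit 97) (nat_lit 5) (nat_lit 101) (nat_lit 5) (nat_lit 98) (nat_lit 5) (nat_lit 471) (nat_lit 403) (nat_lit 146))) (XT.nd (nat_lit 78) (nat_lit 0) (nat_lit 0) (XT.lf (nat_lit 0) (nat_lit 5881590772) (nat_lit 228) (nat_lit 43491063240) (nat_lit 304) (nat_lit 37150201821) (nat_lit 94) (nat_lit 5) (nat_lit 97) (nat_lit 5) (nat_lit 98) (nat_lit 5) (nat_lit 472) (nat_lit 403) (nat_lit 145)) (XT.lf (nat_lit 0) (nat_lit 55852582611) (nat_lit 228) (nat_lit 14475094748) (nat_lit 304) (nat_lit 17902735838) (nat_lit 94) (nat_lit 5) (nat_lit 97) (nat_lit 5) (nat_lit 98) (nat_lit 5) (nat_lit 473) (nat_lit 403) (nat_lit 144))))))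 (XT.nd (nat_lit 546) (nat_lit 0) (nat_lit 228) (XT.nd (nat_lit 234) (nat_lit 0) (nat_lit 76) (XT.nd (nat_lit 78) (nat_lit 0) (nat_lit 0) (XT.lf (nat_lit 0) (nat_lit 3275336455) (nat_lit 1292) (nat_lit 5120501683) (nat_lit 1292) (nat_lit 5120501683) (nat_lit 257) (nat_lit 3) (nat_lit 274) (nat_lit 3) (nat_lit 274) (nat_lit 5) (nat_lit 404) (nat_lit 404) (nat_lit 212)) (XT.nd (nat_lit 78) (nat_lit 0) (nat_lit 76) (XT.lf (nat_lit 76) (nat_lit 2953840054) (nat_lit 0) (nat_lit 3812306031) (nat_lit 1292) (nat_lit 20668478309) (nat_lit 258) (nat_lit 5) (nat_lit 257) (nat_lit 3) (nat_lit 274) (nat_lit 5) (nat_lit 405) (nat_lit 404) (nat_lit 211)) (XT.lf (nat_lit 0) (nat_lit 7180915930) (nat_lit 1216) (nat_lit 11185894974) (nat_lit 1292) (nat_lit 9476032746) (nat_lit 258) (nat_lit 5) (nat_lit 274) (nat_lit 5) (nat_lit 275) (nat_lit 5) (nat_lit 406) (nat_lit 404) (nat_lit 210)))) (XT.nd (nat_lit 156) (nat_lit 0) (nat_lit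 76) (XT.nd (nat_lit 78) (nat_lit 0) (nat_lit 76) (XT.lf (nat_lit 76) (nat_lit 2517331348) (nat_lit 0) (nat_lit 5149374379) (nat_lit 1292) (nat_lit 20594847551) (nat_lit 259) (nat_lit 5) (nat_lit 258) (nat_lit 5) (nat_lit 275) (nat_lit 5) (nat_lit 407) (nat_lit 404) (nat_lit 209)) (XT.lf (nat_lit 0) (nat_lit 8359236844) (nat_lit 1216) (nat_lit 11912947470) (nat_lit 1292) (nat_lit 8414875922) (nat_lit 259) (nat_lit 5) (nat_lit 275) (nat_lit 5) (nat_lit 276) (nat_lit 5) (nat_lit 408) (nat_lit 404) (nat_lit 208))) (XT.nd (nat_lit 78) (nat_lit 0) (nat_lit 76) (XT.lf (nat_lit 76) (nat_lit 2325741476) (nat_lit 0) (nat_lit 6816964979) (nat_lit 1292) (nat_lit 19980522107) (nat_lit 260) (nat_lit 5) (nat_lit 259) (nat_lit 5) (nat_lit 276) (nat_lit 5) (nat_lit 409) (nat_lit 404) (nat_lit 207)) (XT.lf (nat_lit 0) (nat_lit 10135767768) (nat_lit 1216) (nat_lit 12403970619) (nat_lit 1292) (nat_lit 7027161931) (nat_lit 260) (nat_lit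 5) (nat_lit 276) (nat_lit 5) (nat_lit 277) (nat_lit 5) (nat_lit 410) (nat_lit 404) (nat_lit 206))))) (XT.nd (nat_lit 312) (nat_lit 0) (nat_lit 152) (XT.nd (nat_lit 156) (nat_lit 0) (nat_lit 76) (XT.nd (nat_lit 78) (nat_lit 0) (nat_lit 76) (XT.lf (nat_lit 76) (nat_lit 2398712492) (nat_lit 0) (nat_lit 8847459062) (nat_lit 1292) (nat_lit 18775085129) (nat_lit 261) (nat_lit 5) (nat_lit 260) (nat_lit 5) (nat_lit 277) (nat_lit 5) (nat_lit 411) (nat_lit 404) (nat_lit 205)) (XT.lf (nat_lit 0) (nat_lit 12563979845) (nat_lit 1216) (nat_lit 12639531918) (nat_lit 1292) (nat_lit 5280510156) (nat_lit 261) (nat_lit 5) (nat_lit 277) (nat_lit 5) (nat_lit 278) (nat_lit 5) (nat_lit 412) (nat_lit 404) (nat_lit 204))) (XT.nd (nat_lit 78) (nat_lit 0) (nat_lit 76) (XT.lf (nat_lit 76) (nat_lit 2757203148) (nat_lit 0) (nat_lit 11275383432) (nat_lit 1292) (nat_lit 16924746528) (nat_lit 262) (nat_lit 5) (nat_lit 261) (nat_lit 5) (nat_lit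 278) (nat_lit 5) (nat_lit 413) (nat_lit 404) (nat_lit 203)) (XT.lf (nat_lit 0) (nat_lit 15700899559) (nat_lit 1216) (nat_lit 12598901036) (nat_lit 1292) (nat_lit 3140374490) (nat_lit 262) (nat_lit 5) (nat_lit 278) (nat_lit 5) (nat_lit 279) (nat_lit 5) (nat_lit 414) (nat_lit 404) (nat_lit 202)))) (XT.nd (nat_lit 156) (nat_lit 0) (nat_lit 76) (XT.nd (nat_lit 78) (nat_lit 0) (nat_lit 76) (XT.lf (nat_lit 76) (nat_lit 3423547969) (nat_lit 0) (nat_lit 14137574702) (nat_lit 1292) (nat_lit 14372124698) (nat_lit 263) (nat_lit 5) (nat_lit 262) (nat_lit 5) (nat_lit 279) (nat_lit 5) (nat_lit 415) (nat_lit 404) (nat_lit 201)) (XT.lf (nat_lit 0) (nat_lit 19607337100) (nat_lit 1216) (nat_lit 12259991832) (nat_lit 1292) (nat_lit 569878195) (nat_lit 263) (nat_lit 5) (nat_lit 279) (nat_lit 5) (nat_lit 280) (nat_lit 5) (nat_lit 416) (nat_lit 404) (nat_lit 200))) (XT.nd (nat_lit 78) (nat_lit 0) (nat_lit 0) (XT.lf (nat_lit 76) (nat_lit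 4421518877) (nat_lit 0) (nat_lit 17473353470) (nat_lit 1292) (nat_lit 11056016117) (nat_lit 264) (nat_lit 5) (nat_lit 263) (nat_lit 5) (nat_lit 280) (nat_lit 5) (nat_lit 417) (nat_lit 404) (nat_lit 199)) (XT.lf (nat_lit 76) (nat_lit 21852820392) (nat_lit 0) (nat_lit 2519526331) (nat_lit 1292) (nat_lit 9103994921) (nat_lit 264) (nat_lit 5) (nat_lit 263) (nat_lit 5) (nat_lit 280) (nat_lit 5) (nat_lit 418) (nat_lit 404) (nat_lit 198))))))))
noncomputable def xc226 : XT := (XT.nd (nat_lit 2184) (nat_lit 4940) (nat_lit 0) (XT.nd (nat_lit 1092) (nat_lit 3268) (nat_lit 0) (XT.nd (nat_lit 546) (nat_lit 2204) (nat_lit 0) (XT.nd (nat_lit 234) (nat_lit 1368) (nat_lit 0) (XT.nd (nat_lit 78) (nat_lit 1140) (nat_lit 0) (XT.lf (nat_lit 76) (nat_lit 5776389261) (nat_lit 0) (nat_lit 21324709224) (nat_lit 1292) (nat_lit 6911152112) (nat_lit 265) (nat_lit 5) (nat_lit 264) (nat_lit 5) (nat_lit 281) (nat_lit 5) (nat_lit 419) (nat_lit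 404) (nat_lit 197)) (XT.nd (nat_lit 78) (nat_lit 1140) (nat_lit 0) (XT.lf (nat_lit 76) (nat_lit 23909152178) (nat_lit 0) (nat_lit 6142276403) (nat_lit 1292) (nat_lit 4508617513) (nat_lit 265) (nat_lit 5) (nat_lit 264) (nat_lit 5) (nat_lit 281) (nat_lit 5) (nat_lit 420) (nat_lit 404) (nat_lit 196)) (XT.lf (nat_lit 0) (nat_lit 7515000423) (nat_lit 1216) (nat_lit 25736496862) (nat_lit 1292) (nat_lit 1867942038) (nat_lit 249) (nat_lit 5) (nat_lit 265) (nat_lit 5) (nat_lit 266) (nat_lit 5) (nat_lit 421) (nat_lit 404) (nat_lit 195)))) (XT.nd (nat_lit 156) (nat_lit 608) (nat_lit 0) (XT.nd (nat_lit 78) (nat_lit 684) (nat_lit 0) (XT.lf (nat_lit 0) (nat_lit 1002498616) (nat_lit 1292) (nat_lit 9320267533) (nat_lit 76) (nat_lit 25367588112) (nat_lit 248) (nat_lit 5) (nat_lit 265) (nat_lit 5) (nat_lit 249) (nat_lit 5) (nat_lit 422) (nat_lit 404) (nat_lit 194)) (XT.lf (nat_lit 0) (nat_lit 4066859434) (nat_lit 760) (nat_lit 26648718973)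 (nat_lit 76) (nat_lit 5557903551) (nat_lit 239) (nat_lit 5) (nat_lit 249) (nat_lit 5) (nat_lit 240) (nat_lit 5) (nat_lit 423) (nat_lit 404) (nat_lit 193))) (XT.nd (nat_lit 78) (nat_lit 608) (nat_lit 0) (XT.lf (nat_lit 0) (nat_lit 7418255257) (nat_lit 760) (nat_lit 7647221312) (nat_lit 76) (nat_lit 21802774438) (nat_lit 239) (nat_lit 5) (nat_lit 249) (nat_lit 5) (nat_lit 240) (nat_lit 5) (nat_lit 424) (nat_lit 404) (nat_lit 192)) (XT.lf (nat_lit 0) (nat_lit 10996283466) (nat_lit 684) (nat_lit 25329057686) (nat_lit 76) (nat_lit 1151739888) (nat_lit 231) (nat_lit 5) (nat_lit 240) (nat_lit 5) (nat_lit 232) (nat_lit 5) (nat_lit 425) (nat_lit 404) (nat_lit 191))))) (XT.nd (nat_lit 234) (nat_lit 1596) (nat_lit 0) (XT.nd (nat_lit 78) (nat_lit 608) (nat_lit 0) (XT.lf (nat_lit 0) (nat_lit 14906758480) (nat_lit 684) (nat_lit 5559891373) (nat_lit 76) (nat_lit 17630773551) (nat_lit 231) (nat_lit 5) (nat_lit 240) (nat_lit 5)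 (nat_lit 232) (nat_lit 5) (nat_lit 426) (nat_lit 404) (nat_lit 190)) (XT.nd (nat_lit 78) (nat_lit 0) (nat_lit 0) (XT.lf (nat_lit 0) (nat_lit 15094974975) (nat_lit 608) (nat_lit 3982690736) (nat_lit 684) (nat_lit 19654417381) (nat_lit 223) (nat_lit 5) (nat_lit 231) (nat_lit 5) (nat_lit 232) (nat_lit 5) (nat_lit 427) (nat_lit 404) (nat_lit 189)) (XT.lf (nat_lit 0) (nat_lit 23553379035) (nat_lit 684) (nat_lit 3028090510) (nat_lit 76) (nat_lit 12798923233) (nat_lit 223) (nat_lit 5) (nat_lit 232) (nat_lit 5) (nat_lit 224) (nat_lit 5) (nat_lit 428) (nat_lit 404) (nat_lit 188)))) (XT.nd (nat_lit 156) (nat_lit 1064) (nat_lit 0) (XT.nd (nat_lit 78) (nat_lit 0) (nat_lit 0) (XT.lf (nat_lit 0) (nat_lit 18519226754) (nat_lit 532) (nat_lit 9859699892) (nat_lit 608) (nat_lit 11662758781) (nat_lit 216) (nat_lit 5) (nat_lit 223) (nat_lit 5) (nat_lit 224) (nat_lit 5) (nat_lit 429) (nat_lit 404) (nat_lit 187)) (XT.lf (nat_lit 0)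 (nat_lit 33449054314) (nat_lit 608) (nat_lit 19902427) (nat_lit 76) (nat_lit 7250866247) (nat_lit 216) (nat_lit 5) (nat_lit 224) (nat_lit 5) (nat_lit 217) (nat_lit 5) (nat_lit 430) (nat_lit 404) (nat_lit 186))) (XT.nd (nat_lit 78) (nat_lit 532) (nat_lit 0) (XT.lf (nat_lit 0) (nat_lit 22466619263) (nat_lit 532) (nat_lit 16516452646) (nat_lit 608) (nat_lit 2425879708) (nat_lit 209) (nat_lit 5) (nat_lit 216) (nat_lit 5) (nat_lit 217) (nat_lit 5) (nat_lit 431) (nat_lit 404) (nat_lit 185)) (XT.lf (nat_lit 0) (nat_lit 2556546472) (nat_lit 532) (nat_lit 38574554232) (nat_lit 76) (nat_lit 985647482) (nat_lit 202) (nat_lit 5) (nat_lit 209) (nat_lit 5) (nat_lit 203) (nat_lit 5) (nat_lit 432) (nat_lit 404) (nat_lit 184)))))) (XT.nd (nat_lit 546) (nat_lit 1748) (nat_lit 0) (XT.nd (nat_lit 234) (nat_lit 988) (nat_lit 0) (XT.nd (nat_lit 78) (nat_lit 532) (nat_lit 0) (XT.lf (nat_lit 0) (nat_lit 7994642223) (nat_lit 532) (nat_lit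 15941871888) (nat_lit 76) (nat_lit 18897895827) (nat_lit 202) (nat_lit 5) (nat_lit 209) (nat_lit 5) (nat_lit 203) (nat_lit 5) (nat_lit 433) (nat_lit 404) (nat_lit 183)) (XT.nd (nat_lit 78) (nat_lit 0) (nat_lit 0) (XT.lf (nat_lit 0) (nat_lit 7514538052) (nat_lit 532) (nat_lit 6151879120) (nat_lit 608) (nat_lit 29905068745) (nat_lit 195) (nat_lit 5) (nat_lit 202) (nat_lit 5) (nat_lit 203) (nat_lit 5) (nat_lit 434) (nat_lit 404) (nat_lit 182)) (XT.lf (nat_lit 0) (nat_lit 19786202282) (nat_lit 608) (nat_lit 12444873994) (nat_lit 76) (nat_lit 12091262649) (nat_lit 195) (nat_lit 5) (nat_lit 203) (nat_lit 5) (nat_lit 196) (nat_lit 5) (nat_lit 435) (nat_lit 404) (nat_lit 181)))) (XT.nd (nat_lit 156) (nat_lit 532) (nat_lit 0) (XT.nd (nat_lit 78) (nat_lit 0) (nat_lit 0) (XT.lf (nat_lit 0) (nat_lit 12047887402) (nat_lit 456) (nat_lit 14216795010) (nat_lit 532) (nat_lit 18825782505) (nat_lit 189) (nat_lit 5) (nat_lit 195)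 (nat_lit 5) (nat_lit 196) (nat_lit 5) (nat_lit 436) (nat_lit 404) (nat_lit 180)) (XT.lf (nat_lit 0) (nat_lit 33104535831) (nat_lit 532) (nat_lit 8392158315) (nat_lit 76) (nat_lit 4379930405) (nat_lit 189) (nat_lit 5) (nat_lit 196) (nat_lit 5) (nat_lit 190) (nat_lit 5) (nat_lit 437) (nat_lit 404) (nat_lit 179))) (XT.nd (nat_lit 78) (nat_lit 76) (nat_lit 0) (XT.lf (nat_lit 0) (nat_lit 17190629147) (nat_lit 456) (nat_lit 23263416411) (nat_lit 532) (nat_lit 6223190010) (nat_lit 183) (nat_lit 5) (nat_lit 189) (nat_lit 5) (nat_lit 190) (nat_lit 5) (nat_lit 438) (nat_lit 404) (nat_lit 178)) (XT.lf (nat_lit 0) (nat_lit 596035188) (nat_lit 532) (nat_lit 3794097855) (nat_lit 76) (nat_lit 43109060207) (nat_lit 182) (nat_lit 5) (nat_lit 189) (nat_lit 5) (nat_lit 183) (nat_lit 5) (nat_lit 439) (nat_lit 404) (nat_lit 177))))) (XT.nd (nat_lit 234) (nat_lit 836) (nat_lit 0) (XT.nd (nat_lit 78) (nat_lit 456) (nat_lit 0) (XT.lf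 (nat_lit 0) (nat_lit 7862357776) (nat_lit 532) (nat_lit 25429147168) (nat_lit 76) (nat_lit 15041428610) (nat_lit 176) (nat_lit 5) (nat_lit 183) (nat_lit 5) (nat_lit 177) (nat_lit 5) (nat_lit 440) (nat_lit 404) (nat_lit 176)) (XT.nd (nat_lit 78) (nat_lit 0) (nat_lit 0) (XT.lf (nat_lit 0) (nat_lit 1268943585) (nat_lit 456) (nat_lit 14170616915) (nat_lit 532) (nat_lit 33749339221) (nat_lit 170) (nat_lit 5) (nat_lit 176) (nat_lit 5) (nat_lit 177) (nat_lit 5) (nat_lit 441) (nat_lit 404) (nat_lit 175)) (XT.lf (nat_lit 0) (nat_lit 23555060939) (nat_lit 532) (nat_lit 20831073347) (nat_lit 76) (nat_lit 5675081495) (nat_lit 170) (nat_lit 5) (nat_lit 177) (nat_lit 5) (nat_lit 171) (nat_lit 5) (nat_lit 442) (nat_lit 404) (nat_lit 174)))) (XT.nd (nat_lit 156) (nat_lit 456) (nat_lit 0) (XT.nd (nat_lit 78) (nat_lit 0) (nat_lit 0) (XT.lf (nat_lit 0) (nat_lit 7066274703) (nat_lit 380) (nat_lit 25054577853) (nat_lit 456) (nat_lit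 18832644330) (nat_lit 165) (nat_lit 5) (nat_lit 170) (nat_lit 5) (nat_lit 171) (nat_lit 5) (nat_lit 443) (nat_lit 404) (nat_lit 173)) (XT.lf (nat_lit 0) (nat_lit 36225790737) (nat_lit 380) (nat_lit 4926801693) (nat_lit 456) (nat_lit 10713685097) (nat_lit 165) (nat_lit 5) (nat_lit 170) (nat_lit 5) (nat_lit 171) (nat_lit 5) (nat_lit 444) (nat_lit 404) (nat_lit 172))) (XT.nd (nat_lit 78) (nat_lit 76) (nat_lit 0) (XT.lf (nat_lit 0) (nat_lit 13564666333) (nat_lit 380) (nat_lit 37171593535) (nat_lit 456) (nat_lit 2061752785) (nat_lit 160) (nat_lit 5) (nat_lit 165) (nat_lit 5) (nat_lit 166) (nat_lit 5) (nat_lit 445) (nat_lit 404) (nat_lit 171)) (XT.lf (nat_lit 0) (nat_lit 6923023682) (nat_lit 456) (nat_lit 9904324801) (nat_lit 76) (nat_lit 36922167865) (nat_lit 159) (nat_lit 5) (nat_lit 165) (nat_lit 5) (nat_lit 160) (nat_lit 5) (nat_lit 446) (nat_lit 404) (nat_lit 170))))))) (XT.nd (nat_lit 1092) (nat_lit 2128) (nat_lit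 0) (XT.nd (nat_lit 546) (nat_lit 1292) (nat_lit 0) (XT.nd (nat_lit 234) (nat_lit 760) (nat_lit 0) (XT.nd (nat_lit 78) (nat_lit 380) (nat_lit 0) (XT.lf (nat_lit 0) (nat_lit 16375297850) (nat_lit 456) (nat_lit 34078765019) (nat_lit 76) (nat_lit 4267708377) (nat_lit 154) (nat_lit 5) (nat_lit 160) (nat_lit 5) (nat_lit 155) (nat_lit 5) (nat_lit 447) (nat_lit 404) (nat_lit 169)) (XT.nd (nat_lit 78) (nat_lit 380) (nat_lit 0) (XT.lf (nat_lit 0) (nat_lit 26377475332) (nat_lit 456) (nat_lit 3579735101) (nat_lit 76) (nat_lit 25757993594) (nat_lit 154) (nat_lit 5) (nat_lit 160) (nat_lit 5) (nat_lit 155) (nat_lit 5) (nat_lit 448) (nat_lit 404) (nat_lit 168)) (XT.lf (nat_lit 0) (nat_lit 28386508916) (nat_lit 380) (nat_lit 8564838078) (nat_lit 456) (nat_lit 19778944215) (nat_lit 149) (nat_lit 5) (nat_lit 154) (nat_lit 5) (nat_lit 155) (nat_lit 5) (nat_lit 449) (nat_lit 404) (nat_lit 167)))) (XT.nd (nat_lit 156) (nat_lit 380)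 (nat_lit 0) (XT.nd (nat_lit 78) (nat_lit 76) (nat_lit 0) (XT.lf (nat_lit 0) (nat_lit 3548081546) (nat_lit 304) (nat_lit 44493217222) (nat_lit 380) (nat_lit 9728566595) (nat_lit 145) (nat_lit 5) (nat_lit 149) (nat_lit 5) (nat_lit 150) (nat_lit 5) (nat_lit 450) (nat_lit 404) (nat_lit 166)) (XT.lf (nat_lit 0) (nat_lit 983793453) (nat_lit 380) (nat_lit 21949648948) (nat_lit 76) (nat_lit 35895825814) (nat_lit 144) (nat_lit 5) (nat_lit 149) (nat_lit 5) (nat_lit 145) (nat_lit 5) (nat_lit 451) (nat_lit 404) (nat_lit 165))) (XT.nd (nat_lit 78) (nat_lit 0) (nat_lit 0) (XT.lf (nat_lit 0) (nat_lit 11415429501) (nat_lit 380) (nat_lit 515111302) (nat_lit 456) (nat_lit 47983766397) (nat_lit 139) (nat_lit 5) (nat_lit 144) (nat_lit 5) (nat_lit 145) (nat_lit 5) (nat_lit 452) (nat_lit 404) (nat_lit 164)) (XT.lf (nat_lit 0) (nat_lit 23645378686) (nat_lit 456) (nat_lit 15014716458) (nat_lit 76) (nat_lit 22358611809) (nat_lit 139) (nat_lit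 5) (nat_lit 145) (nat_lit 5) (nat_lit 140) (nat_lit 5) (nat_lit 453) (nat_lit 404) (nat_lit 163))))) (XT.nd (nat_lit 234) (nat_lit 684) (nat_lit 0) (XT.nd (nat_lit 78) (nat_lit 304) (nat_lit 0) (XT.lf (nat_lit 0) (nat_lit 19854686046) (nat_lit 304) (nat_lit 16051798196) (nat_lit 380) (nat_lit 26243910020) (nat_lit 135) (nat_lit 5) (nat_lit 139) (nat_lit 5) (nat_lit 140) (nat_lit 5) (nat_lit 454) (nat_lit 404) (nat_lit 162)) (XT.nd (nat_lit 78) (nat_lit 304) (nat_lit 0) (XT.lf (nat_lit 0) (nat_lit 48756968081) (nat_lit 380) (nat_lit 7306205033) (nat_lit 76) (nat_lit 7246212951) (nat_lit 135) (nat_lit 5) (nat_lit 140) (nat_lit 5) (nat_lit 136) (nat_lit 5) (nat_lit 455) (nat_lit 404) (nat_lit 161)) (XT.lf (nat_lit 0) (nat_lit 29141117262) (nat_lit 304) (nat_lit 33289812657) (nat_lit 380) (nat_lit 2059079022) (nat_lit 131) (nat_lit 5) (nat_lit 135) (nat_lit 5) (nat_lit 136) (nat_lit 5) (nat_lit 456) (nat_lit 404) (nat_lit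 160)))) (XT.nd (nat_lit 156) (nat_lit 304) (nat_lit 0) (XT.nd (nat_lit 78) (nat_lit 0) (nat_lit 0) (XT.lf (nat_lit 0) (nat_lit 1041897872) (nat_lit 304) (nat_lit 9639681035) (nat_lit 380) (nat_lit 55018851433) (nat_lit 126) (nat_lit 5) (nat_lit 130) (nat_lit 5) (nat_lit 131) (nat_lit 5) (nat_lit 457) (nat_lit 404) (nat_lit 159)) (XT.lf (nat_lit 0) (nat_lit 24263986788) (nat_lit 380) (nat_lit 27854448637) (nat_lit 76) (nat_lit 14813090082) (nat_lit 126) (nat_lit 5) (nat_lit 131) (nat_lit 5) (nat_lit 127) (nat_lit 5) (nat_lit 458) (nat_lit 404) (nat_lit 158))) (XT.nd (nat_lit 78) (nat_lit 0) (nat_lit 0) (XT.lf (nat_lit 0) (nat_lit 10154917748) (nat_lit 304) (nat_lit 28290967755) (nat_lit 380) (nat_lit 29747907667) (nat_lit 122) (nat_lit 5) (nat_lit 126) (nat_lit 5) (nat_lit 127) (nat_lit 5) (nat_lit 459) (nat_lit 404) (nat_lit 157)) (XT.lf (nat_lit 0) (nat_lit 49874012678) (nat_lit 304) (nat_lit 3459480192) (nat_lit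 380) (nat_lit 16152028633) (nat_lit 122) (nat_lit 5) (nat_lit 126) (nat_lit 5) (nat_lit 127) (nat_lit 5) (nat_lit 460) (nat_lit 404) (nat_lit 156)))))) (XT.nd (nat_lit 546) (nat_lit 988) (nat_lit 0) (XT.nd (nat_lit 234) (nat_lit 532) (nat_lit 0) (XT.nd (nat_lit 78) (nat_lit 380) (nat_lit 0) (XT.lf (nat_lit 0) (nat_lit 20147709873) (nat_lit 228) (nat_lit 48925293732) (nat_lit 304) (nat_lit 1730840015) (nat_lit 119) (nat_lit 5) (nat_lit 122) (nat_lit 5) (nat_lit 123) (nat_lit 5) (nat_lit 461) (nat_lit 404) (nat_lit 155)) (XT.nd (nat_lit 78) (nat_lit 304) (nat_lit 0) (XT.lf (nat_lit 0) (nat_lit 13100164448) (nat_lit 304) (nat_lit 10817938283) (nat_lit 76) (nat_lit 48232830754) (nat_lit 118) (nat_lit 5) (nat_lit 122) (nat_lit 5) (nat_lit 119) (nat_lit 5) (nat_lit 462) (nat_lit 404) (nat_lit 154)) (XT.lf (nat_lit 0) (nat_lit 28657169143) (nat_lit 380) (nat_lit 42752086988) (nat_lit 76) (nat_lit 2119190227) (nat_lit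 114) (nat_lit 5) (nat_lit 119) (nat_lit 5) (nat_lit 115) (nat_lit 5) (nat_lit 463) (nat_lit 404) (nat_lit 153)))) (XT.nd (nat_lit 156) (nat_lit 304) (nat_lit 0) (XT.nd (nat_lit 78) (nat_lit 228) (nat_lit 0) (XT.lf (nat_lit 0) (nat_lit 45027062452) (nat_lit 380) (nat_lit 1343150203) (nat_lit 76) (nat_lit 28566686775) (nat_lit 114) (nat_lit 5) (nat_lit 119) (nat_lit 5) (nat_lit 115) (nat_lit 5) (nat_lit 464) (nat_lit 404) (nat_lit 152)) (XT.lf (nat_lit 0) (nat_lit 42128689207) (nat_lit 228) (nat_lit 20163401954) (nat_lit 304) (nat_lit 14083393935) (nat_lit 111) (nat_lit 5) (nat_lit 114) (nat_lit 5) (nat_lit 115) (nat_lit 5) (nat_lit 465) (nat_lit 404) (nat_lit 151))) (XT.nd (nat_lit 78) (nat_lit 0) (nat_lit 0) (XT.lf (nat_lit 0) (nat_lit 2342958340) (nat_lit 304) (nat_lit 68687761882) (nat_lit 76) (nat_lit 6820816864) (nat_lit 107) (nat_lit 5) (nat_lit 111) (nat_lit 5) (nat_lit 108) (nat_lit 5) (nat_lit 466) (nat_lit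 404) (nat_lit 150)) (XT.lf (nat_lit 0) (nat_lit 19527009989) (nat_lit 304) (nat_lit 25126768367) (nat_lit 76) (nat_lit 34697470107) (nat_lit 107) (nat_lit 5) (nat_lit 111) (nat_lit 5) (nat_lit 108) (nat_lit 5) (nat_lit 467) (nat_lit 404) (nat_lit 149))))) (XT.nd (nat_lit 312) (nat_lit 456) (nat_lit 0) (XT.nd (nat_lit 156) (nat_lit 304) (nat_lit 0) (XT.nd (nat_lit 78) (nat_lit 0) (nat_lit 0) (XT.lf (nat_lit 0) (nat_lit 20132494505) (nat_lit 228) (nat_lit 17286725151) (nat_lit 304) (nat_lit 43470952575) (nat_lit 104) (nat_lit 5) (nat_lit 107) (nat_lit 5) (nat_lit 108) (nat_lit 5) (nat_lit 468) (nat_lit 404) (nat_lit 148)) (XT.lf (nat_lit 0) (nat_lit 56208347199) (nat_lit 304) (nat_lit 15311770343) (nat_lit 76) (nat_lit 10944341763) (nat_lit 104) (nat_lit 5) (nat_lit 108) (nat_lit 5) (nat_lit 105) (nat_lit 5) (nat_lit 469) (nat_lit 404) (nat_lit 147))) (XT.nd (nat_lit 78) (nat_lit 76) (nat_lit 0) (XT.lf (nat_lit 0)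 (nat_lit 31948403092) (nat_lit 228) (nat_lit 44090152412) (nat_lit 304) (nat_lit 8033097413) (nat_lit 101) (nat_lit 5) (nat_lit 104) (nat_lit 5) (nat_lit 105) (nat_lit 5) (nat_lit 470) (nat_lit 404) (nat_lit 146)) (XT.lf (nat_lit 0) (nat_lit 10682394496) (nat_lit 304) (nat_lit 4888290912) (nat_lit 76) (nat_lit 70148621951) (nat_lit 100) (nat_lit 5) (nat_lit 104) (nat_lit 5) (nat_lit 101) (nat_lit 5) (nat_lit 471) (nat_lit 404) (nat_lit 145)))) (XT.nd (nat_lit 47892) (nat_lit 0) (nat_lit 12388) (XT.nd (nat_lit 78) (nat_lit 228) (nat_lit 0) (XT.lf (nat_lit 0) (nat_lit 30363047443) (nat_lit 304) (nat_lit 42986692992) (nat_lit 76) (nat_lit 14047310447) (nat_lit 97) (nat_lit 5) (nat_lit 101) (nat_lit 5) (nat_lit 98) (nat_lit 5) (nat_lit 472) (nat_lit 404) (nat_lit 144)) (XT.lf (nat_lit 0) (nat_lit 6128099364) (nat_lit 228) (nat_lit 44768121850) (nat_lit 304) (nat_lit 38221042580) (nat_lit 94) (nat_lit 5) (nat_lit 97)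 (nat_lit 5) (nat_lit 98) (nat_lit 5) (nat_lit 473) (nat_lit 404) (nat_lit 143))) (XT.nd (nat_lit 78) (nat_lit 0) (nat_lit 0) (XT.lf (nat_lit 0) (nat_lit 3461561731) (nat_lit 1292) (nat_lit 5228800279) (nat_lit 1292) (nat_lit 5228800279) (nat_lit 257) (nat_lit 3) (nat_lit 274) (nat_lit 3) (nat_lit 274) (nat_lit 5) (nat_lit 405) (nat_lit 405) (nat_lit 210)) (XT.lf (nat_lit 76) (nat_lit 3132199606) (nat_lit 0) (nat_lit 4008599721) (nat_lit 1292) (nat_lit 21111657871) (nat_lit 258) (nat_lit 5) (nat_lit 257) (nat_lit 3) (nat_lit 274) (nat_lit 5) (nat_lit 406) (nat_lit 405) (nat_lit 209))))))))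
noncomputable def xc227 : XT := (XT.nd (nat_lit 2262) (nat_lit 6156) (nat_lit 0) (XT.nd (nat_lit 1092) (nat_lit 4788) (nat_lit 0) (XT.nd (nat_lit 546) (nat_lit 0) (nat_lit 228) (XT.nd (nat_lit 234) (nat_lit 0) (nat_lit 76) (XT.nd (nat_lit 78) (nat_lit 0) (nat_lit 0) (XT.lf (nat_lit 0) (nat_lit 7562247632) (nat_lit 1216) (nat_lit 11428522516) (nat_lit 1292) (nat_lit 9682327450) (nat_lit 258) (nat_lit 5) (nat_lit 274) (nat_lit 5) (nat_lit 275) (nat_lit 5) (nat_lit 407) (nat_lit 405) (nat_lit 208)) (XT.nd (nat_lit 78) (nat_lit 0) (nat_lit 76) (XT.lf (nat_lit 76) (nat_lit 2684889328) (nat_lit 0) (nat_lit 5373774358) (nat_lit 1292) (nat_lit 21045824831) (nat_lit 259) (nat_lit 5) (nat_lit 258) (nat_lit 5) (nat_lit 275) (nat_lit 5) (nat_lit 408) (nat_lit 405) (nat_lit 207)) (XT.lf (nat_lit 0) (nat_lit 8766601022) (nat_lit 1216) (nat_lit 12175557738) (nat_lit 1292) (nat_lit 8600764548) (nat_lit 259) (nat_lit 5) (nat_lit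 275) (nat_lit 5) (nat_lit 276) (nat_lit 5) (nat_lit 409) (nat_lit 405) (nat_lit 206)))) (XT.nd (nat_lit 156) (nat_lit 0) (nat_lit 76) (XT.nd (nat_lit 78) (nat_lit 0) (nat_lit 76) (XT.lf (nat_lit 76) (nat_lit 2489362679) (nat_lit 0) (nat_lit 7080553388) (nat_lit 1292) (nat_lit 20422371867) (nat_lit 260) (nat_lit 5) (nat_lit 259) (nat_lit 5) (nat_lit 276) (nat_lit 5) (nat_lit 410) (nat_lit 405) (nat_lit 205)) (XT.lf (nat_lit 0) (nat_lit 10587763627) (nat_lit 1216) (nat_lit 12679920463) (nat_lit 1292) (nat_lit 7181737365) (nat_lit 260) (nat_lit 5) (nat_lit 276) (nat_lit 5) (nat_lit 277) (nat_lit 5) (nat_lit 411) (nat_lit 405) (nat_lit 204))) (XT.nd (nat_lit 78) (nat_lit 0) (nat_lit 76) (XT.lf (nat_lit 76) (nat_lit 2565900305) (nat_lit 0) (nat_lit 9162186165) (nat_lit 1292) (nat_lit 19189425238) (nat_lit 261) (nat_lit 5) (nat_lit 260) (nat_lit 5) (nat_lit 277) (nat_lit 5) (nat_lit 412) (nat_lit 405) (nat_lit 203))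 (XT.lf (nat_lit 0) (nat_lit 13080759275) (nat_lit 1216) (nat_lit 12921549867) (nat_lit 1292) (nat_lit 5391992213) (nat_lit 261) (nat_lit 5) (nat_lit 277) (nat_lit 5) (nat_lit 278) (nat_lit 5) (nat_lit 413) (nat_lit 405) (nat_lit 202))))) (XT.nd (nat_lit 234) (nat_lit 0) (nat_lit 152) (XT.nd (nat_lit 78) (nat_lit 0) (nat_lit 76) (XT.lf (nat_lit 76) (nat_lit 2936134623) (nat_lit 0) (nat_lit 11654140876) (nat_lit 1292) (nat_lit 17291632164) (nat_lit 262) (nat_lit 5) (nat_lit 261) (nat_lit 5) (nat_lit 278) (nat_lit 5) (nat_lit 414) (nat_lit 405) (nat_lit 201)) (XT.nd (nat_lit 78) (nat_lit 0) (nat_lit 0) (XT.lf (nat_lit 0) (nat_lit 16304278051) (nat_lit 1216) (nat_lit 12879052445) (nat_lit 1292) (nat_lit 3196036483) (nat_lit 262) (nat_lit 5) (nat_lit 278) (nat_lit 5) (nat_lit 279) (nat_lit 5) (nat_lit 415) (nat_lit 405) (nat_lit 200)) (XT.lf (nat_lit 76) (nat_lit 3623111054) (nat_lit 0) (nat_lit 14594272950) (nat_lit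 1292) (nat_lit 14669936390) (nat_lit 263) (nat_lit 5) (nat_lit 262) (nat_lit 5) (nat_lit 279) (nat_lit 5) (nat_lit 416) (nat_lit 405) (nat_lit 199)))) (XT.nd (nat_lit 156) (nat_lit 0) (nat_lit 0) (XT.nd (nat_lit 78) (nat_lit 0) (nat_lit 0) (XT.lf (nat_lit 0) (nat_lit 20320911154) (nat_lit 1216) (nat_lit 12529641942) (nat_lit 1292) (nat_lit 555969270) (nat_lit 263) (nat_lit 5) (nat_lit 279) (nat_lit 5) (nat_lit 280) (nat_lit 5) (nat_lit 417) (nat_lit 405) (nat_lit 198)) (XT.lf (nat_lit 76) (nat_lit 4651351837) (nat_lit 0) (nat_lit 18023003760) (nat_lit 1292) (nat_lit 11261341227) (nat_lit 264) (nat_lit 5) (nat_lit 263) (nat_lit 5) (nat_lit 280) (nat_lit 5) (nat_lit 418) (nat_lit 405) (nat_lit 197))) (XT.nd (nat_lit 78) (nat_lit 0) (nat_lit 76) (XT.lf (nat_lit 76) (nat_lit 22602761696) (nat_lit 0) (nat_lit 2619820554) (nat_lit 1292) (nat_lit 9254439649) (nat_lit 264) (nat_lit 5) (nat_lit 263) (nat_lit 5) (nat_lit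 280) (nat_lit 5) (nat_lit 419) (nat_lit 405) (nat_lit 196)) (XT.lf (nat_lit 76) (nat_lit 6046922351) (nat_lit 0) (nat_lit 21983510448) (nat_lit 1292) (nat_lit 6998659344) (nat_lit 265) (nat_lit 5) (nat_lit 264) (nat_lit 5) (nat_lit 281) (nat_lit 5) (nat_lit 420) (nat_lit 405) (nat_lit 195)))))) (XT.nd (nat_lit 546) (nat_lit 2736) (nat_lit 0) (XT.nd (nat_lit 234) (nat_lit 1292) (nat_lit 0) (XT.nd (nat_lit 78) (nat_lit 1216) (nat_lit 0) (XT.lf (nat_lit 76) (nat_lit 24720835882) (nat_lit 0) (nat_lit 6345049498) (nat_lit 1292) (nat_lit 4527538823) (nat_lit 265) (nat_lit 5) (nat_lit 264) (nat_lit 5) (nat_lit 281) (nat_lit 5) (nat_lit 421) (nat_lit 405) (nat_lit 194)) (XT.nd (nat_lit 78) (nat_lit 76) (nat_lit 0) (XT.lf (nat_lit 0) (nat_lit 7837499843) (nat_lit 1216) (nat_lit 26521927747) (nat_lit 1292) (nat_lit 1810248541) (nat_lit 249) (nat_lit 5) (nat_lit 265) (nat_lit 5) (nat_lit 266) (nat_lit 5) (nat_lit 422) (nat_lit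 405) (nat_lit 193)) (XT.lf (nat_lit 0) (nat_lit 1140838082) (nat_lit 1292) (nat_lit 9503465345) (nat_lit 76) (nat_lit 26113480715) (nat_lit 248) (nat_lit 5) (nat_lit 265) (nat_lit 5) (nat_lit 249) (nat_lit 5) (nat_lit 423) (nat_lit 405) (nat_lit 192)))) (XT.nd (nat_lit 156) (nat_lit 608) (nat_lit 0) (XT.nd (nat_lit 78) (nat_lit 0) (nat_lit 0) (XT.lf (nat_lit 0) (nat_lit 4294792511) (nat_lit 760) (nat_lit 27349401258) (nat_lit 76) (nat_lit 5714282972) (nat_lit 239) (nat_lit 5) (nat_lit 249) (nat_lit 5) (nat_lit 240) (nat_lit 5) (nat_lit 424) (nat_lit 405) (nat_lit 191)) (XT.lf (nat_lit 0) (nat_lit 7743644948) (nat_lit 760) (nat_lit 7780735733) (nat_lit 76) (nat_lit 22446801666) (nat_lit 239) (nat_lit 5) (nat_lit 249) (nat_lit 5) (nat_lit 240) (nat_lit 5) (nat_lit 425) (nat_lit 405) (nat_lit 190))) (XT.nd (nat_lit 78) (nat_lit 0) (nat_lit 0) (XT.lf (nat_lit 0) (nat_lit 11426875708) (nat_lit 684) (nat_lit 25990858874)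 (nat_lit 76) (nat_lit 1180607748) (nat_lit 231) (nat_lit 5) (nat_lit 240) (nat_lit 5) (nat_lit 232) (nat_lit 5) (nat_lit 426) (nat_lit 405) (nat_lit 189)) (XT.lf (nat_lit 0) (nat_lit 15451731854) (nat_lit 684) (nat_lit 5631473996) (nat_lit 76) (nat_lit 18154177984) (nat_lit 231) (nat_lit 5) (nat_lit 240) (nat_lit 5) (nat_lit 232) (nat_lit 5) (nat_lit 427) (nat_lit 405) (nat_lit 188))))) (XT.nd (nat_lit 312) (nat_lit 1064) (nat_lit 0) (XT.nd (nat_lit 156) (nat_lit 1064) (nat_lit 0) (XT.nd (nat_lit 78) (nat_lit 0) (nat_lit 0) (XT.lf (nat_lit 0) (nat_lit 15642104872) (nat_lit 608) (nat_lit 4103720026) (nat_lit 684) (nat_lit 20145317506) (nat_lit 223) (nat_lit 5) (nat_lit 231) (nat_lit 5) (nat_lit 232) (nat_lit 5) (nat_lit 428) (nat_lit 405) (nat_lit 187)) (XT.lf (nat_lit 0) (nat_lit 24353004027) (nat_lit 684) (nat_lit 3024565542) (nat_lit 76) (nat_lit 13181416805) (nat_lit 223) (nat_lit 5) (nat_lit 232) (nat_lit 5)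 (nat_lit 224) (nat_lit 5) (nat_lit 429) (nat_lit 405) (nat_lit 186))) (XT.nd (nat_lit 78) (nat_lit 532) (nat_lit 0) (XT.lf (nat_lit 0) (nat_lit 19168246067) (nat_lit 532) (nat_lit 10153260800) (nat_lit 608) (nat_lit 11918666070) (nat_lit 216) (nat_lit 5) (nat_lit 223) (nat_lit 5) (nat_lit 224) (nat_lit 5) (nat_lit 430) (nat_lit 405) (nat_lit 185)) (XT.lf (nat_lit 0) (nat_lit 74333664) (nat_lit 532) (nat_lit 34467483381) (nat_lit 608) (nat_lit 7396895996) (nat_lit 209) (nat_lit 5) (nat_lit 216) (nat_lit 5) (nat_lit 217) (nat_lit 5) (nat_lit 431) (nat_lit 405) (nat_lit 184)))) (XT.nd (nat_lit 156) (nat_lit 532) (nat_lit 0) (XT.nd (nat_lit 78) (nat_lit 532) (nat_lit 0) (XT.lf (nat_lit 0) (nat_lit 23233084972) (nat_lit 532) (nat_lit 17006364607) (nat_lit 608) (nat_lit 2409138873) (nat_lit 209) (nat_lit 5) (nat_lit 216) (nat_lit 5) (nat_lit 217) (nat_lit 5) (nat_lit 432) (nat_lit 405) (nat_lit 183)) (XT.lf (nat_lit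 0) (nat_lit 2719423108) (nat_lit 532) (nat_lit 39635938622) (nat_lit 76) (nat_lit 1022279788) (nat_lit 202) (nat_lit 5) (nat_lit 209) (nat_lit 5) (nat_lit 203) (nat_lit 5) (nat_lit 433) (nat_lit 405) (nat_lit 182))) (XT.nd (nat_lit 78) (nat_lit 532) (nat_lit 0) (XT.lf (nat_lit 0) (nat_lit 8318151627) (nat_lit 532) (nat_lit 16327067621) (nat_lit 76) (nat_lit 19471689868) (nat_lit 202) (nat_lit 5) (nat_lit 209) (nat_lit 5) (nat_lit 203) (nat_lit 5) (nat_lit 434) (nat_lit 405) (nat_lit 181)) (XT.lf (nat_lit 0) (nat_lit 7832122260) (nat_lit 532) (nat_lit 6326406355) (nat_lit 608) (nat_lit 30717615968) (nat_lit 195) (nat_lit 5) (nat_lit 202) (nat_lit 5) (nat_lit 203) (nat_lit 5) (nat_lit 435) (nat_lit 405) (nat_lit 180))))))) (XT.nd (nat_lit 1092) (nat_lit 3040) (nat_lit 0) (XT.nd (nat_lit 546) (nat_lit 1216) (nat_lit 0) (XT.nd (nat_lit 234) (nat_lit 1444) (nat_lit 0) (XT.nd (nat_lit 78) (nat_lit 456) (nat_lit 0) (XT.lf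 (nat_lit 0) (nat_lit 20459609062) (nat_lit 608) (nat_lit 12726436163) (nat_lit 76) (nat_lit 12463547552) (nat_lit 195) (nat_lit 5) (nat_lit 203) (nat_lit 5) (nat_lit 196) (nat_lit 5) (nat_lit 436) (nat_lit 405) (nat_lit 179)) (XT.nd (nat_lit 78) (nat_lit 0) (nat_lit 0) (XT.lf (nat_lit 0) (nat_lit 12500208232) (nat_lit 456) (nat_lit 14630784125) (nat_lit 532) (nat_lit 19309814363) (nat_lit 189) (nat_lit 5) (nat_lit 195) (nat_lit 5) (nat_lit 196) (nat_lit 5) (nat_lit 437) (nat_lit 405) (nat_lit 178)) (XT.lf (nat_lit 0) (nat_lit 34173875567) (nat_lit 532) (nat_lit 8553499712) (nat_lit 76) (nat_lit 4523241451) (nat_lit 189) (nat_lit 5) (nat_lit 196) (nat_lit 5) (nat_lit 190) (nat_lit 5) (nat_lit 438) (nat_lit 405) (nat_lit 177)))) (XT.nd (nat_lit 156) (nat_lit 912) (nat_lit 0) (XT.nd (nat_lit 78) (nat_lit 76) (nat_lit 0) (XT.lf (nat_lit 0) (nat_lit 17795884871) (nat_lit 456) (nat_lit 23946626874) (nat_lit 532) (nat_lit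 6332775694) (nat_lit 183) (nat_lit 5) (nat_lit 189) (nat_lit 5) (nat_lit 190) (nat_lit 5) (nat_lit 439) (nat_lit 405) (nat_lit 176)) (XT.lf (nat_lit 0) (nat_lit 687319470) (nat_lit 532) (nat_lit 3819512230) (nat_lit 76) (nat_lit 44415116539) (nat_lit 182) (nat_lit 5) (nat_lit 189) (nat_lit 5) (nat_lit 183) (nat_lit 5) (nat_lit 440) (nat_lit 405) (nat_lit 175))) (XT.nd (nat_lit 78) (nat_lit 456) (nat_lit 0) (XT.lf (nat_lit 0) (nat_lit 8170483654) (nat_lit 532) (nat_lit 26102446772) (nat_lit 76) (nat_lit 15507805312) (nat_lit 176) (nat_lit 5) (nat_lit 183) (nat_lit 5) (nat_lit 177) (nat_lit 5) (nat_lit 441) (nat_lit 405) (nat_lit 174)) (XT.lf (nat_lit 0) (nat_lit 1395708519) (nat_lit 456) (nat_lit 14578042028) (nat_lit 532) (nat_lit 34688668430) (nat_lit 170) (nat_lit 5) (nat_lit 176) (nat_lit 5) (nat_lit 177) (nat_lit 5) (nat_lit 442) (nat_lit 405) (nat_lit 173))))) (XT.nd (nat_lit 234) (nat_lit 836) (nat_lit 0)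 (XT.nd (nat_lit 78) (nat_lit 380) (nat_lit 0) (XT.lf (nat_lit 0) (nat_lit 24330813070) (nat_lit 532) (nat_lit 21367972263) (nat_lit 76) (nat_lit 5862176787) (nat_lit 170) (nat_lit 5) (nat_lit 177) (nat_lit 5) (nat_lit 171) (nat_lit 5) (nat_lit 443) (nat_lit 405) (nat_lit 172)) (XT.nd (nat_lit 78) (nat_lit 0) (nat_lit 0) (XT.lf (nat_lit 0) (nat_lit 7365433157) (nat_lit 380) (nat_lit 25786970582) (nat_lit 456) (nat_lit 19327643659) (nat_lit 165) (nat_lit 5) (nat_lit 170) (nat_lit 5) (nat_lit 171) (nat_lit 5) (nat_lit 444) (nat_lit 405) (nat_lit 171)) (XT.lf (nat_lit 0) (nat_lit 37397195733) (nat_lit 380) (nat_lit 5055921660) (nat_lit 456) (nat_lit 10967153902) (nat_lit 165) (nat_lit 5) (nat_lit 170) (nat_lit 5) (nat_lit 171) (nat_lit 5) (nat_lit 445) (nat_lit 405) (nat_lit 170)))) (XT.nd (nat_lit 156) (nat_lit 380) (nat_lit 0) (XT.nd (nat_lit 78) (nat_lit 76) (nat_lit 0) (XT.lf (nat_lit 0) (nat_lit 14057205040) (nat_lit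 380) (nat_lit 38266166221) (nat_lit 456) (nat_lit 2056615392) (nat_lit 160) (nat_lit 5) (nat_lit 165) (nat_lit 5) (nat_lit 166) (nat_lit 5) (nat_lit 446) (nat_lit 405) (nat_lit 169)) (XT.lf (nat_lit 0) (nat_lit 7194484064) (nat_lit 456) (nat_lit 10117065081) (nat_lit 76) (nat_lit 38048524832) (nat_lit 159) (nat_lit 5) (nat_lit 165) (nat_lit 5) (nat_lit 160) (nat_lit 5) (nat_lit 447) (nat_lit 405) (nat_lit 168))) (XT.nd (nat_lit 78) (nat_lit 0) (nat_lit 0) (XT.lf (nat_lit 0) (nat_lit 16929472727) (nat_lit 456) (nat_lit 35015870434) (nat_lit 76) (nat_lit 4416179401) (nat_lit 154) (nat_lit 5) (nat_lit 160) (nat_lit 5) (nat_lit 155) (nat_lit 5) (nat_lit 448) (nat_lit 405) (nat_lit 167)) (XT.lf (nat_lit 0) (nat_lit 27229883030) (nat_lit 456) (nat_lit 3604352848) (nat_lit 76) (nat_lit 26550577841) (nat_lit 154) (nat_lit 5) (nat_lit 160) (nat_lit 5) (nat_lit 155) (nat_lit 5) (nat_lit 449) (nat_lit 405) (nat_lit 166))))))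 (XT.nd (nat_lit 546) (nat_lit 1596) (nat_lit 0) (XT.nd (nat_lit 234) (nat_lit 684) (nat_lit 0) (XT.nd (nat_lit 78) (nat_lit 380) (nat_lit 0) (XT.lf (nat_lit 0) (nat_lit 29320066977) (nat_lit 380) (nat_lit 8799912613) (nat_lit 456) (nat_lit 20310404071) (nat_lit 149) (nat_lit 5) (nat_lit 154) (nat_lit 5) (nat_lit 155) (nat_lit 5) (nat_lit 450) (nat_lit 405) (nat_lit 165)) (XT.nd (nat_lit 78) (nat_lit 76) (nat_lit 0) (XT.lf (nat_lit 0) (nat_lit 3737273533) (nat_lit 304) (nat_lit 45804605675) (nat_lit 380) (nat_lit 9959288746) (nat_lit 145) (nat_lit 5) (nat_lit 149) (nat_lit 5) (nat_lit 150) (nat_lit 5) (nat_lit 451) (nat_lit 405) (nat_lit 164)) (XT.lf (nat_lit 0) (nat_lit 1071503262) (nat_lit 380) (nat_lit 22526628470) (nat_lit 76) (nat_lit 36994256278) (nat_lit 144) (nat_lit 5) (nat_lit 149) (nat_lit 5) (nat_lit 145) (nat_lit 5) (nat_lit 452) (nat_lit 405) (nat_lit 163)))) (XT.nd (nat_lit 156) (nat_lit 304) (nat_lit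 0) (XT.nd (nat_lit 78) (nat_lit 0) (nat_lit 0) (XT.lf (nat_lit 0) (nat_lit 11838603215) (nat_lit 380) (nat_lit 507130630) (nat_lit 456) (nat_lit 49364272254) (nat_lit 139) (nat_lit 5) (nat_lit 144) (nat_lit 5) (nat_lit 145) (nat_lit 5) (nat_lit 453) (nat_lit 405) (nat_lit 162)) (XT.lf (nat_lit 0) (nat_lit 24410567310) (nat_lit 456) (nat_lit 15385336706) (nat_lit 76) (nat_lit 23051677668) (nat_lit 139) (nat_lit 5) (nat_lit 145) (nat_lit 5) (nat_lit 140) (nat_lit 5) (nat_lit 454) (nat_lit 405) (nat_lit 161))) (XT.nd (nat_lit 78) (nat_lit 0) (nat_lit 0) (XT.lf (nat_lit 0) (nat_lit 20529365312) (nat_lit 304) (nat_lit 16509274451) (nat_lit 380) (nat_lit 26974606175) (nat_lit 135) (nat_lit 5) (nat_lit 139) (nat_lit 5) (nat_lit 140) (nat_lit 5) (nat_lit 455) (nat_lit 405) (nat_lit 160)) (XT.lf (nat_lit 0) (nat_lit 50273262020) (nat_lit 380) (nat_lit 7447267507) (nat_lit 76) (nat_lit 7486519581) (nat_lit 135) (nat_lit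 5) (nat_lit 140) (nat_lit 5) (nat_lit 136) (nat_lit 5) (nat_lit 456) (nat_lit 405) (nat_lit 159))))) (XT.nd (nat_lit 312) (nat_lit 608) (nat_lit 0) (XT.nd (nat_lit 156) (nat_lit 304) (nat_lit 0) (XT.nd (nat_lit 78) (nat_lit 380) (nat_lit 0) (XT.lf (nat_lit 0) (nat_lit 30092708537) (nat_lit 304) (nat_lit 34263917061) (nat_lit 380) (nat_lit 2066489906) (nat_lit 131) (nat_lit 5) (nat_lit 135) (nat_lit 5) (nat_lit 136) (nat_lit 5) (nat_lit 457) (nat_lit 405) (nat_lit 158)) (XT.lf (nat_lit 0) (nat_lit 1150814804) (nat_lit 304) (nat_lit 9903706236) (nat_lit 380) (nat_lit 56615337308) (nat_lit 126) (nat_lit 5) (nat_lit 130) (nat_lit 5) (nat_lit 131) (nat_lit 5) (nat_lit 458) (nat_lit 405) (nat_lit 157))) (XT.nd (nat_lit 78) (nat_lit 304) (nat_lit 0) (XT.lf (nat_lit 0) (nat_lit 25043107042) (nat_lit 380) (nat_lit 28613380159) (nat_lit 76) (nat_lit 15281438285) (nat_lit 126) (nat_lit 5) (nat_lit 131) (nat_lit 5) (nat_lit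 127) (nat_lit 5) (nat_lit 459) (nat_lit 405) (nat_lit 156)) (XT.lf (nat_lit 0) (nat_lit 10535515237) (nat_lit 304) (nat_lit 29114186277) (nat_lit 380) (nat_lit 30588382785) (nat_lit 122) (nat_lit 5) (nat_lit 126) (nat_lit 5) (nat_lit 127) (nat_lit 5) (nat_lit 460) (nat_lit 405) (nat_lit 155)))) (XT.nd (nat_lit 156) (nat_lit 380) (nat_lit 0) (XT.nd (nat_lit 78) (nat_lit 228) (nat_lit 0) (XT.lf (nat_lit 0) (nat_lit 51443970881) (nat_lit 304) (nat_lit 3538497112) (nat_lit 380) (nat_lit 16586140839) (nat_lit 122) (nat_lit 5) (nat_lit 126) (nat_lit 5) (nat_lit 127) (nat_lit 5) (nat_lit 461) (nat_lit 405) (nat_lit 154)) (XT.lf (nat_lit 0) (nat_lit 20826384148) (nat_lit 228) (nat_lit 50367298396) (nat_lit 304) (nat_lit 1732812782) (nat_lit 119) (nat_lit 5) (nat_lit 122) (nat_lit 5) (nat_lit 123) (nat_lit 5) (nat_lit 462) (nat_lit 405) (nat_lit 153))) (XT.nd (nat_lit 78) (nat_lit 304) (nat_lit 0) (XT.lf (nat_lit 0) (nat_lit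 13540720529) (nat_lit 304) (nat_lit 11069441084) (nat_lit 76) (nat_lit 49703864918) (nat_lit 118) (nat_lit 5) (nat_lit 122) (nat_lit 5) (nat_lit 119) (nat_lit 5) (nat_lit 463) (nat_lit 405) (nat_lit 152)) (XT.lf (nat_lit 0) (nat_lit 29563990275) (nat_lit 380) (nat_lit 43961160982) (nat_lit 76) (nat_lit 2207727132) (nat_lit 114) (nat_lit 5) (nat_lit 119) (nat_lit 5) (nat_lit 115) (nat_lit 5) (nat_lit 464) (nat_lit 405) (nat_lit 151))))))))
noncomputable def xc228 : XT := (XT.nd (nat_lit 49998) (nat_lit 0) (nat_lit 3572) (XT.nd (nat_lit 48906) (nat_lit 0) (nat_lit 11476) (XT.nd (nat_lit 546) (nat_lit 304) (nat_lit 0) (XT.nd (nat_lit 234) (nat_lit 456) (nat_lit 0) (XT.nd (nat_lit 78) (nat_lit 532) (nat_lit 0) (XT.lf (nat_lit 0) (nat_lit 46423608361) (nat_lit 380) (nat_lit 1312096538) (nat_lit 76) (nat_lit 29447921552) (nat_lit 114) (nat_lit 5) (nat_lit 119) (nat_lit 5) (nat_lit 115) (nat_lit 5) (nat_lit 465) (nat_lit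 405) (nat_lit 150)) (XT.nd (nat_lit 78) (nat_lit 304) (nat_lit 0) (XT.lf (nat_lit 0) (nat_lit 43463198562) (nat_lit 228) (nat_lit 20742736428) (nat_lit 304) (nat_lit 14459454515) (nat_lit 111) (nat_lit 5) (nat_lit 114) (nat_lit 5) (nat_lit 115) (nat_lit 5) (nat_lit 466) (nat_lit 405) (nat_lit 149)) (XT.lf (nat_lit 0) (nat_lit 2458386635) (nat_lit 304) (nat_lit 70676429615) (nat_lit 76) (nat_lit 7050905495) (nat_lit 107) (nat_lit 5) (nat_lit 111) (nat_lit 5) (nat_lit 108) (nat_lit 5) (nat_lit 467) (nat_lit 405) (nat_lit 148)))) (XT.nd (nat_lit 156) (nat_lit 228) (nat_lit 0) (XT.nd (nat_lit 78) (nat_lit 228) (nat_lit 0) (XT.lf (nat_lit 0) (nat_lit 20156645090) (nat_lit 304) (nat_lit 25810702366) (nat_lit 76) (nat_lit 35763116662) (nat_lit 107) (nat_lit 5) (nat_lit 111) (nat_lit 5) (nat_lit 108) (nat_lit 5) (nat_lit 468) (nat_lit 405) (nat_lit 147)) (XT.lf (nat_lit 0) (nat_lit 20805653401) (nat_lit 228) (nat_lit 17779356235)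 (nat_lit 304) (nat_lit 44730564511) (nat_lit 104) (nat_lit 5) (nat_lit 107) (nat_lit 5) (nat_lit 108) (nat_lit 5) (nat_lit 469) (nat_lit 405) (nat_lit 146))) (XT.nd (nat_lit 78) (nat_lit 228) (nat_lit 0) (XT.lf (nat_lit 0) (nat_lit 57936794737) (nat_lit 304) (nat_lit 15702931544) (nat_lit 76) (nat_lit 11297394239) (nat_lit 104) (nat_lit 5) (nat_lit 108) (nat_lit 5) (nat_lit 105) (nat_lit 5) (nat_lit 470) (nat_lit 405) (nat_lit 145)) (XT.lf (nat_lit 0) (nat_lit 32974378546) (nat_lit 228) (nat_lit 45386950779) (nat_lit 304) (nat_lit 8231218208) (nat_lit 101) (nat_lit 5) (nat_lit 104) (nat_lit 5) (nat_lit 105) (nat_lit 5) (nat_lit 471) (nat_lit 405) (nat_lit 144))))) (XT.nd (nat_lit 48048) (nat_lit 0) (nat_lit 12160) (XT.nd (nat_lit 78) (nat_lit 228) (nat_lit 0) (XT.lf (nat_lit 0) (nat_lit 11043677533) (nat_lit 304) (nat_lit 4968564669) (nat_lit 76) (nat_lit 72277413956) (nat_lit 100) (nat_lit 5) (nat_lit 104) (nat_lit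 5) (nat_lit 101) (nat_lit 5) (nat_lit 472) (nat_lit 405) (nat_lit 143)) (XT.nd (nat_lit 47892) (nat_lit 0) (nat_lit 12160) (XT.lf (nat_lit 0) (nat_lit 31314438006) (nat_lit 304) (nat_lit 44209600841) (nat_lit 76) (nat_lit 14493702678) (nat_lit 97) (nat_lit 5) (nat_lit 101) (nat_lit 5) (nat_lit 98) (nat_lit 5) (nat_lit 473) (nat_lit 405) (nat_lit 142)) (XT.lf (nat_lit 0) (nat_lit 3648324205) (nat_lit 1292) (nat_lit 5342949183) (nat_lit 1292) (nat_lit 5342949183) (nat_lit 257) (nat_lit 3) (nat_lit 274) (nat_lit 3) (nat_lit 274) (nat_lit 5) (nat_lit 406) (nat_lit 406) (nat_lit 208)))) (XT.nd (nat_lit 156) (nat_lit 0) (nat_lit 76) (XT.nd (nat_lit 78) (nat_lit 0) (nat_lit 76) (XT.lf (nat_lit 76) (nat_lit 3310758251) (nat_lit 0) (nat_lit 4206079419) (nat_lit 1292) (nat_lit 21578286157) (nat_lit 258) (nat_lit 5) (nat_lit 257) (nat_lit 3) (nat_lit 274) (nat_lit 5) (nat_lit 407) (nat_lit 406) (nat_lit 207)) (XT.lf (nat_lit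 0) (nat_lit 7945495703) (nat_lit 1216) (nat_lit 11683764554) (nat_lit 1292) (nat_lit 9899287727) (nat_lit 258) (nat_lit 5) (nat_lit 274) (nat_lit 5) (nat_lit 275) (nat_lit 5) (nat_lit 408) (nat_lit 406) (nat_lit 206))) (XT.nd (nat_lit 78) (nat_lit 0) (nat_lit 76) (XT.lf (nat_lit 76) (nat_lit 2852190688) (nat_lit 0) (nat_lit 5600892714) (nat_lit 1292) (nat_lit 21519910344) (nat_lit 259) (nat_lit 5) (nat_lit 258) (nat_lit 5) (nat_lit 275) (nat_lit 5) (nat_lit 409) (nat_lit 406) (nat_lit 205)) (XT.lf (nat_lit 0) (nat_lit 9177197388) (nat_lit 1216) (nat_lit 12451486968) (nat_lit 1292) (nat_lit 8796050515) (nat_lit 259) (nat_lit 5) (nat_lit 275) (nat_lit 5) (nat_lit 276) (nat_lit 5) (nat_lit 410) (nat_lit 406) (nat_lit 204)))))) (XT.nd (nat_lit 546) (nat_lit 836) (nat_lit 0) (XT.nd (nat_lit 234) (nat_lit 0) (nat_lit 152) (XT.nd (nat_lit 78) (nat_lit 0) (nat_lit 76) (XT.lf (nat_lit 76) (nat_lit 2652505204) (nat_lit 0)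 (nat_lit 7348658047) (nat_lit 1292) (nat_lit 20886522046) (nat_lit 260) (nat_lit 5) (nat_lit 259) (nat_lit 5) (nat_lit 276) (nat_lit 5) (nat_lit 411) (nat_lit 406) (nat_lit 203)) (XT.nd (nat_lit 78) (nat_lit 0) (nat_lit 0) (XT.lf (nat_lit 0) (nat_lit 11044827986) (nat_lit 1216) (nat_lit 12969669313) (nat_lit 1292) (nat_lit 7344178435) (nat_lit 260) (nat_lit 5) (nat_lit 276) (nat_lit 5) (nat_lit 277) (nat_lit 5) (nat_lit 412) (nat_lit 406) (nat_lit 202)) (XT.lf (nat_lit 76) (nat_lit 2732637365) (nat_lit 0) (nat_lit 9483524868) (nat_lit 1292) (nat_lit 19624743733) (nat_lit 261) (nat_lit 5) (nat_lit 260) (nat_lit 5) (nat_lit 277) (nat_lit 5) (nat_lit 413) (nat_lit 406) (nat_lit 201)))) (XT.nd (nat_lit 156) (nat_lit 0) (nat_lit 76) (XT.nd (nat_lit 78) (nat_lit 0) (nat_lit 0) (XT.lf (nat_lit 0) (nat_lit 13605013549) (nat_lit 1216) (nat_lit 13217606196) (nat_lit 1292) (nat_lit 5509512893) (nat_lit 261) (nat_lit 5) (nat_lit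 277) (nat_lit 5) (nat_lit 278) (nat_lit 5) (nat_lit 414) (nat_lit 406) (nat_lit 200)) (XT.lf (nat_lit 76) (nat_lit 3114910886) (nat_lit 0) (nat_lit 12041936410) (nat_lit 1292) (nat_lit 17677610124) (nat_lit 262) (nat_lit 5) (nat_lit 261) (nat_lit 5) (nat_lit 278) (nat_lit 5) (nat_lit 415) (nat_lit 406) (nat_lit 199))) (XT.nd (nat_lit 78) (nat_lit 0) (nat_lit 0) (XT.lf (nat_lit 0) (nat_lit 16918160380) (nat_lit 1216) (nat_lit 13173223413) (nat_lit 1292) (nat_lit 3255581220) (nat_lit 262) (nat_lit 5) (nat_lit 278) (nat_lit 5) (nat_lit 279) (nat_lit 5) (nat_lit 416) (nat_lit 406) (nat_lit 198)) (XT.lf (nat_lit 76) (nat_lit 3823101063) (nat_lit 0) (nat_lit 15062802436) (nat_lit 1292) (nat_lit 14984337387) (nat_lit 263) (nat_lit 5) (nat_lit 262) (nat_lit 5) (nat_lit 279) (nat_lit 5) (nat_lit 417) (nat_lit 406) (nat_lit 197))))) (XT.nd (nat_lit 234) (nat_lit 1140) (nat_lit 0) (XT.nd (nat_lit 78) (nat_lit 0) (nat_lit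 0) (XT.lf (nat_lit 0) (nat_lit 21048696601) (nat_lit 1216) (nat_lit 12813015746) (nat_lit 1292) (nat_lit 543422907) (nat_lit 263) (nat_lit 5) (nat_lit 279) (nat_lit 5) (nat_lit 280) (nat_lit 5) (nat_lit 418) (nat_lit 406) (nat_lit 196)) (XT.nd (nat_lit 78) (nat_lit 0) (nat_lit 0) (XT.lf (nat_lit 76) (nat_lit 4882500832) (nat_lit 0) (nat_lit 18587682644) (nat_lit 1292) (nat_lit 11480079405) (nat_lit 264) (nat_lit 5) (nat_lit 263) (nat_lit 5) (nat_lit 280) (nat_lit 5) (nat_lit 419) (nat_lit 406) (nat_lit 195)) (XT.lf (nat_lit 76) (nat_lit 23369784780) (nat_lit 0) (nat_lit 2721705239) (nat_lit 1292) (nat_lit 9416439772) (nat_lit 264) (nat_lit 5) (nat_lit 263) (nat_lit 5) (nat_lit 280) (nat_lit 5) (nat_lit 420) (nat_lit 406) (nat_lit 194)))) (XT.nd (nat_lit 156) (nat_lit 1216) (nat_lit 0) (XT.nd (nat_lit 78) (nat_lit 0) (nat_lit 0) (XT.lf (nat_lit 76) (nat_lit 6319989379) (nat_lit 0) (nat_lit 22660981589) (nat_lit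 1292) (nat_lit 7095670371) (nat_lit 265) (nat_lit 5) (nat_lit 264) (nat_lit 5) (nat_lit 281) (nat_lit 5) (nat_lit 421) (nat_lit 406) (nat_lit 193)) (XT.lf (nat_lit 76) (nat_lit 25551450626) (nat_lit 0) (nat_lit 6552843534) (nat_lit 1292) (nat_lit 4553706004) (nat_lit 265) (nat_lit 5) (nat_lit 264) (nat_lit 5) (nat_lit 281) (nat_lit 5) (nat_lit 422) (nat_lit 406) (nat_lit 192))) (XT.nd (nat_lit 78) (nat_lit 76) (nat_lit 0) (XT.lf (nat_lit 0) (nat_lit 8164103212) (nat_lit 1216) (nat_lit 27330156018) (nat_lit 1292) (nat_lit 1757352906) (nat_lit 249) (nat_lit 5) (nat_lit 265) (nat_lit 5) (nat_lit 266) (nat_lit 5) (nat_lit 423) (nat_lit 406) (nat_lit 191)) (XT.lf (nat_lit 0) (nat_lit 1277112906) (nat_lit 1292) (nat_lit 9697693431) (nat_lit 76) (nat_lit 26882618908) (nat_lit 248) (nat_lit 5) (nat_lit 265) (nat_lit 5) (nat_lit 249) (nat_lit 5) (nat_lit 424) (nat_lit 406) (nat_lit 190))))))) (XT.nd (nat_lit 1092) (nat_lit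 3420) (nat_lit 0) (XT.nd (nat_lit 546) (nat_lit 2052) (nat_lit 0) (XT.nd (nat_lit 234) (nat_lit 1140) (nat_lit 0) (XT.nd (nat_lit 78) (nat_lit 608) (nat_lit 0) (XT.lf (nat_lit 0) (nat_lit 4523482921) (nat_lit 760) (nat_lit 28076774345) (nat_lit 76) (nat_lit 5875948349) (nat_lit 239) (nat_lit 5) (nat_lit 249) (nat_lit 5) (nat_lit 240) (nat_lit 5) (nat_lit 425) (nat_lit 406) (nat_lit 189)) (XT.nd (nat_lit 78) (nat_lit 608) (nat_lit 0) (XT.lf (nat_lit 0) (nat_lit 8072892776) (nat_lit 760) (nat_lit 7923760766) (nat_lit 76) (nat_lit 23110726967) (nat_lit 239) (nat_lit 5) (nat_lit 249) (nat_lit 5) (nat_lit 240) (nat_lit 5) (nat_lit 426) (nat_lit 406) (nat_lit 188)) (XT.lf (nat_lit 0) (nat_lit 11864604911) (nat_lit 684) (nat_lit 26678143748) (nat_lit 76) (nat_lit 1210667948) (nat_lit 231) (nat_lit 5) (nat_lit 240) (nat_lit 5) (nat_lit 232) (nat_lit 5) (nat_lit 427) (nat_lit 406) (nat_lit 187)))) (XT.nd (nat_lit 156) (nat_lit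 532) (nat_lit 0) (XT.nd (nat_lit 78) (nat_lit 608) (nat_lit 0) (XT.lf (nat_lit 0) (nat_lit 16007441995) (nat_lit 684) (nat_lit 5710669777) (nat_lit 76) (nat_lit 18693601350) (nat_lit 231) (nat_lit 5) (nat_lit 240) (nat_lit 5) (nat_lit 232) (nat_lit 5) (nat_lit 428) (nat_lit 406) (nat_lit 186)) (XT.lf (nat_lit 0) (nat_lit 16200236570) (nat_lit 608) (nat_lit 4228291301) (nat_lit 684) (nat_lit 20656612278) (nat_lit 223) (nat_lit 5) (nat_lit 231) (nat_lit 5) (nat_lit 232) (nat_lit 5) (nat_lit 429) (nat_lit 406) (nat_lit 185))) (XT.nd (nat_lit 78) (nat_lit 532) (nat_lit 0) (XT.lf (nat_lit 0) (nat_lit 25171277832) (nat_lit 684) (nat_lit 3026351915) (nat_lit 76) (nat_lit 13575469804) (nat_lit 223) (nat_lit 5) (nat_lit 232) (nat_lit 5) (nat_lit 224) (nat_lit 5) (nat_lit 430) (nat_lit 406) (nat_lit 184)) (XT.lf (nat_lit 0) (nat_lit 19831371977) (nat_lit 532) (nat_lit 10455756551) (nat_lit 608) (nat_lit 12187645155) (nat_lit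 216) (nat_lit 5) (nat_lit 223) (nat_lit 5) (nat_lit 224) (nat_lit 5) (nat_lit 431) (nat_lit 406) (nat_lit 183))))) (XT.nd (nat_lit 234) (nat_lit 988) (nat_lit 0) (XT.nd (nat_lit 78) (nat_lit 532) (nat_lit 0) (XT.lf (nat_lit 0) (nat_lit 166337588) (nat_lit 532) (nat_lit 35496088835) (nat_lit 608) (nat_lit 7531892947) (nat_lit 209) (nat_lit 5) (nat_lit 216) (nat_lit 5) (nat_lit 217) (nat_lit 5) (nat_lit 432) (nat_lit 406) (nat_lit 182)) (XT.nd (nat_lit 78) (nat_lit 532) (nat_lit 0) (XT.lf (nat_lit 0) (nat_lit 24017236660) (nat_lit 532) (nat_lit 17511294334) (nat_lit 608) (nat_lit 2397034468) (nat_lit 209) (nat_lit 5) (nat_lit 216) (nat_lit 5) (nat_lit 217) (nat_lit 5) (nat_lit 433) (nat_lit 406) (nat_lit 181)) (XT.lf (nat_lit 0) (nat_lit 2882238945) (nat_lit 532) (nat_lit 40734666855) (nat_lit 76) (nat_lit 1059605626) (nat_lit 202) (nat_lit 5) (nat_lit 209) (nat_lit 5) (nat_lit 203) (nat_lit 5) (nat_lit 434) (nat_lit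 406) (nat_lit 180)))) (XT.nd (nat_lit 156) (nat_lit 456) (nat_lit 0) (XT.nd (nat_lit 78) (nat_lit 532) (nat_lit 0) (XT.lf (nat_lit 0) (nat_lit 8646563306) (nat_lit 532) (nat_lit 16729161275) (nat_lit 76) (nat_lit 20062304102) (nat_lit 202) (nat_lit 5) (nat_lit 209) (nat_lit 5) (nat_lit 203) (nat_lit 5) (nat_lit 435) (nat_lit 406) (nat_lit 179)) (XT.lf (nat_lit 0) (nat_lit 8153944319) (nat_lit 532) (nat_lit 6506745120) (nat_lit 608) (nat_lit 31559396272) (nat_lit 195) (nat_lit 5) (nat_lit 202) (nat_lit 5) (nat_lit 203) (nat_lit 5) (nat_lit 436) (nat_lit 406) (nat_lit 178))) (XT.nd (nat_lit 78) (nat_lit 456) (nat_lit 0) (XT.lf (nat_lit 0) (nat_lit 21148636011) (nat_lit 608) (nat_lit 13021713978) (nat_lit 76) (nat_lit 12846452964) (nat_lit 195) (nat_lit 5) (nat_lit 203) (nat_lit 5) (nat_lit 196) (nat_lit 5) (nat_lit 437) (nat_lit 406) (nat_lit 177)) (XT.lf (nat_lit 0) (nat_lit 12960881560) (nat_lit 456) (nat_lit 15057911310)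 (nat_lit 532) (nat_lit 19813002076) (nat_lit 189) (nat_lit 5) (nat_lit 195) (nat_lit 5) (nat_lit 196) (nat_lit 5) (nat_lit 438) (nat_lit 406) (nat_lit 176)))))) (XT.nd (nat_lit 546) (nat_lit 1596) (nat_lit 0) (XT.nd (nat_lit 234) (nat_lit 1292) (nat_lit 0) (XT.nd (nat_lit 78) (nat_lit 532) (nat_lit 0) (XT.lf (nat_lit 0) (nat_lit 35270921094) (nat_lit 532) (nat_lit 8724872021) (nat_lit 76) (nat_lit 4670167966) (nat_lit 189) (nat_lit 5) (nat_lit 196) (nat_lit 5) (nat_lit 190) (nat_lit 5) (nat_lit 439) (nat_lit 406) (nat_lit 175)) (XT.nd (nat_lit 78) (nat_lit 76) (nat_lit 0) (XT.lf (nat_lit 0) (nat_lit 18414158485) (nat_lit 456) (nat_lit 24651177033) (nat_lit 532) (nat_lit 6450075378) (nat_lit 183) (nat_lit 5) (nat_lit 189) (nat_lit 5) (nat_lit 190) (nat_lit 5) (nat_lit 440) (nat_lit 406) (nat_lit 174)) (XT.lf (nat_lit 0) (nat_lit 777128635) (nat_lit 532) (nat_lit 3850764048) (nat_lit 76) (nat_lit 45759620677) (nat_lit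 182) (nat_lit 5) (nat_lit 189) (nat_lit 5) (nat_lit 183) (nat_lit 5) (nat_lit 441) (nat_lit 406) (nat_lit 173)))) (XT.nd (nat_lit 156) (nat_lit 380) (nat_lit 0) (XT.nd (nat_lit 78) (nat_lit 456) (nat_lit 0) (XT.lf (nat_lit 0) (nat_lit 8483705567) (nat_lit 532) (nat_lit 26801087325) (nat_lit 76) (nat_lit 15987304571) (nat_lit 176) (nat_lit 5) (nat_lit 183) (nat_lit 5) (nat_lit 177) (nat_lit 5) (nat_lit 442) (nat_lit 406) (nat_lit 172)) (XT.lf (nat_lit 0) (nat_lit 1521184852) (nat_lit 456) (nat_lit 14998705567) (nat_lit 532) (nat_lit 35660376679) (nat_lit 170) (nat_lit 5) (nat_lit 176) (nat_lit 5) (nat_lit 177) (nat_lit 5) (nat_lit 443) (nat_lit 406) (nat_lit 171))) (XT.nd (nat_lit 78) (nat_lit 380) (nat_lit 0) (XT.lf (nat_lit 0) (nat_lit 25125871125) (nat_lit 532) (nat_lit 21926031618) (nat_lit 76) (nat_lit 6053918090) (nat_lit 170) (nat_lit 5) (nat_lit 177) (nat_lit 5) (nat_lit 171) (nat_lit 5) (nat_lit 444) (nat_lit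 406) (nat_lit 170)) (XT.lf (nat_lit 0) (nat_lit 7668562437) (nat_lit 380) (nat_lit 26542439812) (nat_lit 456) (nat_lit 19841510107) (nat_lit 165) (nat_lit 5) (nat_lit 170) (nat_lit 5) (nat_lit 171) (nat_lit 5) (nat_lit 445) (nat_lit 406) (nat_lit 169))))) (XT.nd (nat_lit 312) (nat_lit 760) (nat_lit 0) (XT.nd (nat_lit 156) (nat_lit 456) (nat_lit 0) (XT.nd (nat_lit 78) (nat_lit 380) (nat_lit 0) (XT.lf (nat_lit 0) (nat_lit 38598884698) (nat_lit 380) (nat_lit 5189987768) (nat_lit 456) (nat_lit 11232126905) (nat_lit 165) (nat_lit 5) (nat_lit 170) (nat_lit 5) (nat_lit 171) (nat_lit 5) (nat_lit 446) (nat_lit 406) (nat_lit 168)) (XT.lf (nat_lit 0) (nat_lit 14559606192) (nat_lit 380) (nat_lit 39394757184) (nat_lit 456) (nat_lit 2055169375) (nat_lit 160) (nat_lit 5) (nat_lit 165) (nat_lit 5) (nat_lit 166) (nat_lit 5) (nat_lit 447) (nat_lit 406) (nat_lit 167))) (XT.nd (nat_lit 78) (nat_lit 380) (nat_lit 0) (XT.lf (nat_lit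 0) (nat_lit 7470427617) (nat_lit 456) (nat_lit 10341031870) (nat_lit 76) (nat_lit 39207599514) (nat_lit 159) (nat_lit 5) (nat_lit 165) (nat_lit 5) (nat_lit 160) (nat_lit 5) (nat_lit 448) (nat_lit 406) (nat_lit 166)) (XT.lf (nat_lit 0) (nat_lit 17496661219) (nat_lit 456) (nat_lit 35985983144) (nat_lit 76) (nat_lit 4567931229) (nat_lit 154) (nat_lit 5) (nat_lit 160) (nat_lit 5) (nat_lit 155) (nat_lit 5) (nat_lit 449) (nat_lit 406) (nat_lit 165)))) (XT.nd (nat_lit 156) (nat_lit 380) (nat_lit 0) (XT.nd (nat_lit 78) (nat_lit 380) (nat_lit 0) (XT.lf (nat_lit 0) (nat_lit 28104356521) (nat_lit 456) (nat_lit 3634460712) (nat_lit 76) (nat_lit 27365800464) (nat_lit 154) (nat_lit 5) (nat_lit 160) (nat_lit 5) (nat_lit 155) (nat_lit 5) (nat_lit 450) (nat_lit 406) (nat_lit 164)) (XT.lf (nat_lit 0) (nat_lit 30276926780) (nat_lit 380) (nat_lit 9043294847) (nat_lit 456) (nat_lit 20861361523) (nat_lit 149) (nat_lit 5) (nat_lit 154)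 (nat_lit 5) (nat_lit 155) (nat_lit 5) (nat_lit 451) (nat_lit 406) (nat_lit 163))) (XT.nd (nat_lit 78) (nat_lit 76) (nat_lit 0) (XT.lf (nat_lit 0) (nat_lit 3927391119) (nat_lit 304) (nat_lit 47156679500) (nat_lit 380) (nat_lit 10200441951) (nat_lit 145) (nat_lit 5) (nat_lit 149) (nat_lit 5) (nat_lit 150) (nat_lit 5) (nat_lit 452) (nat_lit 406) (nat_lit 162)) (XT.lf (nat_lit 0) (nat_lit 1158503677) (nat_lit 380) (nat_lit 23125596382) (nat_lit 76) (nat_lit 38124402271) (nat_lit 144) (nat_lit 5) (nat_lit 149) (nat_lit 5) (nat_lit 145) (nat_lit 5) (nat_lit 453) (nat_lit 406) (nat_lit 161))))))))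
noncomputable def xc229 : XT := (XT.nd (nat_lit 50232) (nat_lit 0) (nat_lit 5244) (XT.nd (nat_lit 1092) (nat_lit 760) (nat_lit 0) (XT.nd (nat_lit 546) (nat_lit 1140) (nat_lit 0) (XT.nd (nat_lit 234) (nat_lit 684) (nat_lit 0) (XT.nd (nat_lit 78) (nat_lit 304) (nat_lit 0) (XT.lf (nat_lit 0) (nat_lit 12269839010) (nat_lit 380) (nat_lit 500255746) (nat_lit 456) (nat_lit 50789580539) (nat_lit 139) (nat_lit 5) (nat_lit 144) (nat_lit 5) (nat_lit 145) (nat_lit 5) (nat_lit 454) (nat_lit 406) (nat_lit 160)) (XT.nd (nat_lit 78) (nat_lit 304) (nat_lit 0) (XT.lf (nat_lit 0) (nat_lit 25195506878) (nat_lit 456) (nat_lit 15771657628) (nat_lit 76) (nat_lit 23764254960) (nat_lit 139) (nat_lit 5) (nat_lit 145) (nat_lit 5) (nat_lit 140) (nat_lit 5) (nat_lit 455) (nat_lit 406) (nat_lit 159)) (XT.lf (nat_lit 0) (nat_lit 21219747812) (nat_lit 304) (nat_lit 16981857152) (nat_lit 380) (nat_lit 27730473500) (nat_lit 135) (nat_lit 5) (nat_lit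 139) (nat_lit 5) (nat_lit 140) (nat_lit 5) (nat_lit 456) (nat_lit 406) (nat_lit 158)))) (XT.nd (nat_lit 156) (nat_lit 380) (nat_lit 0) (XT.nd (nat_lit 78) (nat_lit 304) (nat_lit 0) (XT.lf (nat_lit 0) (nat_lit 51831968785) (nat_lit 380) (nat_lit 7597046475) (nat_lit 76) (nat_lit 7732719694) (nat_lit 135) (nat_lit 5) (nat_lit 140) (nat_lit 5) (nat_lit 136) (nat_lit 5) (nat_lit 457) (nat_lit 406) (nat_lit 157)) (XT.lf (nat_lit 0) (nat_lit 31068406900) (nat_lit 304) (nat_lit 35268656161) (nat_lit 380) (nat_lit 2077243688) (nat_lit 131) (nat_lit 5) (nat_lit 135) (nat_lit 5) (nat_lit 136) (nat_lit 5) (nat_lit 458) (nat_lit 406) (nat_lit 156))) (XT.nd (nat_lit 78) (nat_lit 0) (nat_lit 0) (XT.lf (nat_lit 0) (nat_lit 1258541243) (nat_lit 304) (nat_lit 10177096780) (nat_lit 380) (nat_lit 58262822153) (nat_lit 126) (nat_lit 5) (nat_lit 130) (nat_lit 5) (nat_lit 131) (nat_lit 5) (nat_lit 459) (nat_lit 406) (nat_lit 155)) (XT.lf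 (nat_lit 0) (nat_lit 25842661777) (nat_lit 380) (nat_lit 29399482632) (nat_lit 76) (nat_lit 15762461791) (nat_lit 126) (nat_lit 5) (nat_lit 131) (nat_lit 5) (nat_lit 127) (nat_lit 5) (nat_lit 460) (nat_lit 406) (nat_lit 154))))) (XT.nd (nat_lit 234) (nat_lit 608) (nat_lit 0) (XT.nd (nat_lit 78) (nat_lit 228) (nat_lit 0) (XT.lf (nat_lit 0) (nat_lit 10923170813) (nat_lit 304) (nat_lit 29963565762) (nat_lit 380) (nat_lit 31457054995) (nat_lit 122) (nat_lit 5) (nat_lit 126) (nat_lit 5) (nat_lit 127) (nat_lit 5) (nat_lit 461) (nat_lit 406) (nat_lit 153)) (XT.nd (nat_lit 78) (nat_lit 228) (nat_lit 0) (XT.lf (nat_lit 0) (nat_lit 53056794977) (nat_lit 304) (nat_lit 3621306295) (nat_lit 380) (nat_lit 17036172371) (nat_lit 122) (nat_lit 5) (nat_lit 126) (nat_lit 5) (nat_lit 127) (nat_lit 5) (nat_lit 462) (nat_lit 406) (nat_lit 152)) (XT.lf (nat_lit 0) (nat_lit 21521156801) (nat_lit 228) (nat_lit 51854041594) (nat_lit 304)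 (nat_lit 1737712206) (nat_lit 119) (nat_lit 5) (nat_lit 122) (nat_lit 5) (nat_lit 123) (nat_lit 5) (nat_lit 463) (nat_lit 406) (nat_lit 151)))) (XT.nd (nat_lit 156) (nat_lit 228) (nat_lit 0) (XT.nd (nat_lit 78) (nat_lit 304) (nat_lit 0) (XT.lf (nat_lit 0) (nat_lit 13991763661) (nat_lit 304) (nat_lit 11332681497) (nat_lit 76) (nat_lit 51217649583) (nat_lit 118) (nat_lit 5) (nat_lit 122) (nat_lit 5) (nat_lit 119) (nat_lit 5) (nat_lit 464) (nat_lit 406) (nat_lit 150)) (XT.lf (nat_lit 0) (nat_lit 30495311960) (nat_lit 380) (nat_lit 45210725742) (nat_lit 76) (nat_lit 2297487269) (nat_lit 114) (nat_lit 5) (nat_lit 119) (nat_lit 5) (nat_lit 115) (nat_lit 5) (nat_lit 465) (nat_lit 406) (nat_lit 149))) (XT.nd (nat_lit 78) (nat_lit 228) (nat_lit 0) (XT.lf (nat_lit 0) (nat_lit 47859425327) (nat_lit 380) (nat_lit 1284206940) (nat_lit 76) (nat_lit 30354202230) (nat_lit 114) (nat_lit 5) (nat_lit 119) (nat_lit 5) (nat_lit 115)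 (nat_lit 5) (nat_lit 466) (nat_lit 406) (nat_lit 148)) (XT.lf (nat_lit 0) (nat_lit 44833687675) (nat_lit 228) (nat_lit 21340918621) (nat_lit 304) (nat_lit 14849462830) (nat_lit 111) (nat_lit 5) (nat_lit 114) (nat_lit 5) (nat_lit 115) (nat_lit 5) (nat_lit 467) (nat_lit 406) (nat_lit 147)))))) (XT.nd (nat_lit 48516) (nat_lit 0) (nat_lit 11932) (XT.nd (nat_lit 234) (nat_lit 228) (nat_lit 0) (XT.nd (nat_lit 78) (nat_lit 228) (nat_lit 0) (XT.lf (nat_lit 0) (nat_lit 2574686585) (nat_lit 304) (nat_lit 72728888472) (nat_lit 76) (nat_lit 7286435039) (nat_lit 107) (nat_lit 5) (nat_lit 111) (nat_lit 5) (nat_lit 108) (nat_lit 5) (nat_lit 468) (nat_lit 406) (nat_lit 146)) (XT.nd (nat_lit 78) (nat_lit 228) (nat_lit 0) (XT.lf (nat_lit 0) (nat_lit 20802653521) (nat_lit 304) (nat_lit 26519165155) (nat_lit 76) (nat_lit 36859313443) (nat_lit 107) (nat_lit 5) (nat_lit 111) (nat_lit 5) (nat_lit 108) (nat_lit 5) (nat_lit 469) (nat_lit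 406) (nat_lit 145)) (XT.lf (nat_lit 0) (nat_lit 21495035617) (nat_lit 228) (nat_lit 18288257074) (nat_lit 304) (nat_lit 46030520242) (nat_lit 104) (nat_lit 5) (nat_lit 107) (nat_lit 5) (nat_lit 108) (nat_lit 5) (nat_lit 470) (nat_lit 406) (nat_lit 144)))) (XT.nd (nat_lit 48126) (nat_lit 0) (nat_lit 11856) (XT.nd (nat_lit 78) (nat_lit 228) (nat_lit 0) (XT.lf (nat_lit 0) (nat_lit 59714673415) (nat_lit 304) (nat_lit 16109742075) (nat_lit 76) (nat_lit 11659619132) (nat_lit 104) (nat_lit 5) (nat_lit 108) (nat_lit 5) (nat_lit 105) (nat_lit 5) (nat_lit 471) (nat_lit 406) (nat_lit 143)) (XT.lf (nat_lit 0) (nat_lit 34027257146) (nat_lit 228) (nat_lit 46724140219) (nat_lit 304) (nat_lit 8437743663) (nat_lit 101) (nat_lit 5) (nat_lit 104) (nat_lit 5) (nat_lit 105) (nat_lit 5) (nat_lit 472) (nat_lit 406) (nat_lit 142))) (XT.nd (nat_lit 78) (nat_lit 0) (nat_lit 0) (XT.lf (nat_lit 0) (nat_lit 3835929857) (nat_lit 1292) (nat_lit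 5462974577) (nat_lit 1292) (nat_lit 5462974577) (nat_lit 257) (nat_lit 3) (nat_lit 274) (nat_lit 3) (nat_lit 274) (nat_lit 5) (nat_lit 407) (nat_lit 407) (nat_lit 206)) (XT.lf (nat_lit 76) (nat_lit 3489817691) (nat_lit 0) (nat_lit 4405050666) (nat_lit 1292) (nat_lit 22068483785) (nat_lit 258) (nat_lit 5) (nat_lit 257) (nat_lit 3) (nat_lit 274) (nat_lit 5) (nat_lit 408) (nat_lit 407) (nat_lit 205))))) (XT.nd (nat_lit 312) (nat_lit 0) (nat_lit 152) (XT.nd (nat_lit 156) (nat_lit 0) (nat_lit 76) (XT.nd (nat_lit 78) (nat_lit 0) (nat_lit 0) (XT.lf (nat_lit 0) (nat_lit 8331264327) (nat_lit 1216) (nat_lit 11951693235) (nat_lit 1292) (nat_lit 10126976561) (nat_lit 258) (nat_lit 5) (nat_lit 274) (nat_lit 5) (nat_lit 275) (nat_lit 5) (nat_lit 409) (nat_lit 407) (nat_lit 204)) (XT.lf (nat_lit 76) (nat_lit 3019531015) (nat_lit 0) (nat_lit 5831041397) (nat_lit 1292) (nat_lit 22017247467) (nat_lit 259) (nat_lit 5) (nat_lit 258)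 (nat_lit 5) (nat_lit 275) (nat_lit 5) (nat_lit 410) (nat_lit 407) (nat_lit 203))) (XT.nd (nat_lit 78) (nat_lit 0) (nat_lit 0) (XT.lf (nat_lit 0) (nat_lit 9591638896) (nat_lit 1216) (nat_lit 12740822413) (nat_lit 1292) (nat_lit 9000796419) (nat_lit 259) (nat_lit 5) (nat_lit 275) (nat_lit 5) (nat_lit 276) (nat_lit 5) (nat_lit 411) (nat_lit 407) (nat_lit 202)) (XT.lf (nat_lit 76) (nat_lit 2815463944) (nat_lit 0) (nat_lit 7621609123) (nat_lit 1292) (nat_lit 21373122442) (nat_lit 260) (nat_lit 5) (nat_lit 259) (nat_lit 5) (nat_lit 276) (nat_lit 5) (nat_lit 412) (nat_lit 407) (nat_lit 201)))) (XT.nd (nat_lit 156) (nat_lit 0) (nat_lit 76) (XT.nd (nat_lit 78) (nat_lit 0) (nat_lit 0) (XT.lf (nat_lit 0) (nat_lit 11507600340) (nat_lit 1216) (nat_lit 13273314238) (nat_lit 1292) (nat_lit 7514535788) (nat_lit 260) (nat_lit 5) (nat_lit 276) (nat_lit 5) (nat_lit 277) (nat_lit 5) (nat_lit 413) (nat_lit 407) (nat_lit 200)) (XT.lf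 (nat_lit 76) (nat_lit 2899223943) (nat_lit 0) (nat_lit 9811835985) (nat_lit 1292) (nat_lit 20081179265) (nat_lit 261) (nat_lit 5) (nat_lit 260) (nat_lit 5) (nat_lit 277) (nat_lit 5) (nat_lit 414) (nat_lit 407) (nat_lit 199))) (XT.nd (nat_lit 78) (nat_lit 0) (nat_lit 0) (XT.lf (nat_lit 0) (nat_lit 14137427784) (nat_lit 1216) (nat_lit 13527801864) (nat_lit 1292) (nat_lit 5633098697) (nat_lit 261) (nat_lit 5) (nat_lit 277) (nat_lit 5) (nat_lit 278) (nat_lit 5) (nat_lit 415) (nat_lit 407) (nat_lit 198)) (XT.lf (nat_lit 76) (nat_lit 3293844333) (nat_lit 0) (nat_lit 12439174621) (nat_lit 1292) (nat_lit 18082789021) (nat_lit 262) (nat_lit 5) (nat_lit 261) (nat_lit 5) (nat_lit 278) (nat_lit 5) (nat_lit 416) (nat_lit 407) (nat_lit 197))))))) (XT.nd (nat_lit 1092) (nat_lit 4028) (nat_lit 0) (XT.nd (nat_lit 546) (nat_lit 2964) (nat_lit 0) (XT.nd (nat_lit 234) (nat_lit 0) (nat_lit 76) (XT.nd (nat_lit 78) (nat_lit 0) (nat_lit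 0) (XT.lf (nat_lit 0) (nat_lit 17543297789) (nat_lit 1216) (nat_lit 13481512202) (nat_lit 1292) (nat_lit 3318998155) (nat_lit 262) (nat_lit 5) (nat_lit 278) (nat_lit 5) (nat_lit 279) (nat_lit 5) (nat_lit 417) (nat_lit 407) (nat_lit 196)) (XT.nd (nat_lit 78) (nat_lit 0) (nat_lit 76) (XT.lf (nat_lit 76) (nat_lit 4023849970) (nat_lit 0) (nat_lit 15543625427) (nat_lit 1292) (nat_lit 15315385940) (nat_lit 263) (nat_lit 5) (nat_lit 262) (nat_lit 5) (nat_lit 279) (nat_lit 5) (nat_lit 418) (nat_lit 407) (nat_lit 195)) (XT.lf (nat_lit 0) (nat_lit 21791532852) (nat_lit 1216) (nat_lit 13110201530) (nat_lit 1292) (nat_lit 532177812) (nat_lit 263) (nat_lit 5) (nat_lit 279) (nat_lit 5) (nat_lit 280) (nat_lit 5) (nat_lit 419) (nat_lit 407) (nat_lit 194)))) (XT.nd (nat_lit 156) (nat_lit 0) (nat_lit 76) (XT.nd (nat_lit 78) (nat_lit 0) (nat_lit 0) (XT.lf (nat_lit 76) (nat_lit 5115325597) (nat_lit 0) (nat_lit 19167924840) (nat_lit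 1292) (nat_lit 11712216675) (nat_lit 264) (nat_lit 5) (nat_lit 263) (nat_lit 5) (nat_lit 280) (nat_lit 5) (nat_lit 420) (nat_lit 407) (nat_lit 193)) (XT.lf (nat_lit 76) (nat_lit 24154713023) (nat_lit 0) (nat_lit 2825309520) (nat_lit 1292) (nat_lit 9589937710) (nat_lit 264) (nat_lit 5) (nat_lit 263) (nat_lit 5) (nat_lit 280) (nat_lit 5) (nat_lit 421) (nat_lit 407) (nat_lit 192))) (XT.nd (nat_lit 78) (nat_lit 0) (nat_lit 0) (XT.lf (nat_lit 76) (nat_lit 6595986796) (nat_lit 0) (nat_lit 23357745552) (nat_lit 1292) (nat_lit 7202075450) (nat_lit 265) (nat_lit 5) (nat_lit 264) (nat_lit 5) (nat_lit 281) (nat_lit 5) (nat_lit 422) (nat_lit 407) (nat_lit 191)) (XT.lf (nat_lit 76) (nat_lit 26401875442) (nat_lit 0) (nat_lit 6765870118) (nat_lit 1292) (nat_lit 4586953075) (nat_lit 265) (nat_lit 5) (nat_lit 264) (nat_lit 5) (nat_lit 281) (nat_lit 5) (nat_lit 423) (nat_lit 407) (nat_lit 190))))) (XT.nd (nat_lit 234) (nat_lit 1216)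 (nat_lit 0) (XT.nd (nat_lit 78) (nat_lit 760) (nat_lit 0) (XT.lf (nat_lit 0) (nat_lit 8495253449) (nat_lit 1216) (nat_lit 28161909542) (nat_lit 1292) (nat_lit 1709024299) (nat_lit 249) (nat_lit 5) (nat_lit 265) (nat_lit 5) (nat_lit 266) (nat_lit 5) (nat_lit 424) (nat_lit 407) (nat_lit 189)) (XT.nd (nat_lit 78) (nat_lit 684) (nat_lit 0) (XT.lf (nat_lit 0) (nat_lit 1411617906) (nat_lit 1292) (nat_lit 9902965007) (nat_lit 76) (nat_lit 27675650187) (nat_lit 248) (nat_lit 5) (nat_lit 265) (nat_lit 5) (nat_lit 249) (nat_lit 5) (nat_lit 425) (nat_lit 407) (nat_lit 188)) (XT.lf (nat_lit 0) (nat_lit 4753302437) (nat_lit 760) (nat_lit 28831313460) (nat_lit 76) (nat_lit 6043024131) (nat_lit 239) (nat_lit 5) (nat_lit 249) (nat_lit 5) (nat_lit 240) (nat_lit 5) (nat_lit 426) (nat_lit 407) (nat_lit 187)))) (XT.nd (nat_lit 156) (nat_lit 608) (nat_lit 0) (XT.nd (nat_lit 78) (nat_lit 608) (nat_lit 0) (XT.lf (nat_lit 0) (nat_lit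 8406453374) (nat_lit 760) (nat_lit 8076265710) (nat_lit 76) (nat_lit 23795114145) (nat_lit 239) (nat_lit 5) (nat_lit 249) (nat_lit 5) (nat_lit 240) (nat_lit 5) (nat_lit 427) (nat_lit 407) (nat_lit 186)) (XT.lf (nat_lit 0) (nat_lit 12310017026) (nat_lit 684) (nat_lit 27391353654) (nat_lit 76) (nat_lit 1241937527) (nat_lit 231) (nat_lit 5) (nat_lit 240) (nat_lit 5) (nat_lit 232) (nat_lit 5) (nat_lit 428) (nat_lit 407) (nat_lit 185))) (XT.nd (nat_lit 78) (nat_lit 608) (nat_lit 0) (XT.lf (nat_lit 0) (nat_lit 16574533184) (nat_lit 684) (nat_lit 5797393359) (nat_lit 76) (nat_lit 19249506032) (nat_lit 231) (nat_lit 5) (nat_lit 240) (nat_lit 5) (nat_lit 232) (nat_lit 5) (nat_lit 429) (nat_lit 407) (nat_lit 184)) (XT.lf (nat_lit 0) (nat_lit 16770010801) (nat_lit 608) (nat_lit 4356515922) (nat_lit 684) (nat_lit 21188588191) (nat_lit 223) (nat_lit 5) (nat_lit 231) (nat_lit 5) (nat_lit 232) (nat_lit 5) (nat_lit 430) (nat_lit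 407) (nat_lit 183)))))) (XT.nd (nat_lit 546) (nat_lit 1900) (nat_lit 0) (XT.nd (nat_lit 234) (nat_lit 1064) (nat_lit 0) (XT.nd (nat_lit 78) (nat_lit 1064) (nat_lit 0) (XT.lf (nat_lit 0) (nat_lit 26009066448) (nat_lit 684) (nat_lit 3033298008) (nat_lit 76) (nat_lit 13981424156) (nat_lit 223) (nat_lit 5) (nat_lit 232) (nat_lit 5) (nat_lit 224) (nat_lit 5) (nat_lit 431) (nat_lit 407) (nat_lit 182)) (XT.nd (nat_lit 78) (nat_lit 532) (nat_lit 0) (XT.lf (nat_lit 0) (nat_lit 20509335597) (nat_lit 532) (nat_lit 10767447842) (nat_lit 608) (nat_lit 12469778518) (nat_lit 216) (nat_lit 5) (nat_lit 223) (nat_lit 5) (nat_lit 224) (nat_lit 5) (nat_lit 432) (nat_lit 407) (nat_lit 181)) (XT.lf (nat_lit 0) (nat_lit 255948239) (nat_lit 532) (nat_lit 36555863528) (nat_lit 608) (nat_lit 7675928793) (nat_lit 209) (nat_lit 5) (nat_lit 216) (nat_lit 5) (nat_lit 217) (nat_lit 5) (nat_lit 433) (nat_lit 407) (nat_lit 180)))) (XT.nd (nat_lit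 156) (nat_lit 532) (nat_lit 0) (XT.nd (nat_lit 78) (nat_lit 532) (nat_lit 0) (XT.lf (nat_lit 0) (nat_lit 24819909608) (nat_lit 532) (nat_lit 18031673968) (nat_lit 608) (nat_lit 2389410606) (nat_lit 209) (nat_lit 5) (nat_lit 216) (nat_lit 5) (nat_lit 217) (nat_lit 5) (nat_lit 434) (nat_lit 407) (nat_lit 179)) (XT.lf (nat_lit 0) (nat_lit 3045276142) (nat_lit 532) (nat_lit 41871543390) (nat_lit 76) (nat_lit 1097669073) (nat_lit 202) (nat_lit 5) (nat_lit 209) (nat_lit 5) (nat_lit 203) (nat_lit 5) (nat_lit 435) (nat_lit 407) (nat_lit 178))) (XT.nd (nat_lit 78) (nat_lit 532) (nat_lit 0) (XT.lf (nat_lit 0) (nat_lit 8980300039) (nat_lit 532) (nat_lit 17148353132) (nat_lit 76) (nat_lit 20670265729) (nat_lit 202) (nat_lit 5) (nat_lit 209) (nat_lit 5) (nat_lit 203) (nat_lit 5) (nat_lit 436) (nat_lit 407) (nat_lit 177)) (XT.lf (nat_lit 0) (nat_lit 8480435012) (nat_lit 532) (nat_lit 6693036713) (nat_lit 608) (nat_lit 32431007856)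 (nat_lit 195) (nat_lit 5) (nat_lit 202) (nat_lit 5) (nat_lit 203) (nat_lit 5) (nat_lit 437) (nat_lit 407) (nat_lit 176))))) (XT.nd (nat_lit 312) (nat_lit 988) (nat_lit 0) (XT.nd (nat_lit 156) (nat_lit 456) (nat_lit 0) (XT.nd (nat_lit 78) (nat_lit 456) (nat_lit 0) (XT.lf (nat_lit 0) (nat_lit 21854014760) (nat_lit 608) (nat_lit 13330816457) (nat_lit 76) (nat_lit 13240328960) (nat_lit 195) (nat_lit 5) (nat_lit 203) (nat_lit 5) (nat_lit 196) (nat_lit 5) (nat_lit 438) (nat_lit 407) (nat_lit 175)) (XT.lf (nat_lit 0) (nat_lit 13430457448) (nat_lit 456) (nat_lit 15498529469) (nat_lit 532) (nat_lit 20335654257) (nat_lit 189) (nat_lit 5) (nat_lit 195) (nat_lit 5) (nat_lit 196) (nat_lit 5) (nat_lit 439) (nat_lit 407) (nat_lit 174))) (XT.nd (nat_lit 78) (nat_lit 456) (nat_lit 0) (XT.lf (nat_lit 0) (nat_lit 36396754692) (nat_lit 532) (nat_lit 8906278203) (nat_lit 76) (nat_lit 4820857670) (nat_lit 189) (nat_lit 5) (nat_lit 196)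 (nat_lit 5) (nat_lit 190) (nat_lit 5) (nat_lit 440) (nat_lit 407) (nat_lit 173)) (XT.lf (nat_lit 0) (nat_lit 19046135571) (nat_lit 456) (nat_lit 25377658666) (nat_lit 532) (nat_lit 6575066388) (nat_lit 183) (nat_lit 5) (nat_lit 189) (nat_lit 5) (nat_lit 190) (nat_lit 5) (nat_lit 441) (nat_lit 407) (nat_lit 172)))) (XT.nd (nat_lit 156) (nat_lit 456) (nat_lit 0) (XT.nd (nat_lit 78) (nat_lit 456) (nat_lit 0) (XT.lf (nat_lit 0) (nat_lit 865660309) (nat_lit 532) (nat_lit 3887737108) (nat_lit 76) (nat_lit 47143768182) (nat_lit 182) (nat_lit 5) (nat_lit 189) (nat_lit 5) (nat_lit 183) (nat_lit 5) (nat_lit 442) (nat_lit 407) (nat_lit 171)) (XT.lf (nat_lit 0) (nat_lit 8802414494) (nat_lit 532) (nat_lit 27525533885) (nat_lit 76) (nat_lit 16480369932) (nat_lit 176) (nat_lit 5) (nat_lit 183) (nat_lit 5) (nat_lit 177) (nat_lit 5) (nat_lit 443) (nat_lit 407) (nat_lit 170))) (XT.nd (nat_lit 78) (nat_lit 0) (nat_lit 0) (XT.lf (nat_lit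 0) (nat_lit 1645626201) (nat_lit 456) (nat_lit 15432946383) (nat_lit 532) (nat_lit 36665194292) (nat_lit 170) (nat_lit 5) (nat_lit 176) (nat_lit 5) (nat_lit 177) (nat_lit 5) (nat_lit 444) (nat_lit 407) (nat_lit 169)) (XT.lf (nat_lit 0) (nat_lit 25941041982) (nat_lit 532) (nat_lit 22505596134) (nat_lit 76) (nat_lit 6250500284) (nat_lit 170) (nat_lit 5) (nat_lit 177) (nat_lit 5) (nat_lit 171) (nat_lit 5) (nat_lit 445) (nat_lit 407) (nat_lit 168))))))))
noncomputable def xc230 : XT := (XT.nd (nat_lit 50310) (nat_lit 0) (nat_lit 6916) (XT.nd (nat_lit 1092) (nat_lit 2052) (nat_lit 0) (XT.nd (nat_lit 546) (nat_lit 1368) (nat_lit 0) (XT.nd (nat_lit 234) (nat_lit 836) (nat_lit 0) (XT.nd (nat_lit 78) (nat_lit 380) (nat_lit 0) (XT.lf (nat_lit 0) (nat_lit 7976068915) (nat_lit 380) (nat_lit 27321614423) (nat_lit 456) (nat_lit 20374579086) (nat_lit 165) (nat_lit 5) (nat_lit 170) (nat_lit 5) (nat_lit 171) (nat_lit 5) (nat_lit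 446) (nat_lit 407) (nat_lit 167)) (XT.nd (nat_lit 78) (nat_lit 380) (nat_lit 0) (XT.lf (nat_lit 0) (nat_lit 39832045030) (nat_lit 380) (nat_lit 5329086835) (nat_lit 456) (nat_lit 11508725350) (nat_lit 165) (nat_lit 5) (nat_lit 170) (nat_lit 5) (nat_lit 171) (nat_lit 5) (nat_lit 447) (nat_lit 407) (nat_lit 166)) (XT.lf (nat_lit 0) (nat_lit 15072447729) (nat_lit 380) (nat_lit 40558319172) (nat_lit 456) (nat_lit 2057304730) (nat_lit 160) (nat_lit 5) (nat_lit 165) (nat_lit 5) (nat_lit 166) (nat_lit 5) (nat_lit 448) (nat_lit 407) (nat_lit 165)))) (XT.nd (nat_lit 156) (nat_lit 380) (nat_lit 0) (XT.nd (nat_lit 78) (nat_lit 380) (nat_lit 0) (XT.lf (nat_lit 0) (nat_lit 7751198972) (nat_lit 456) (nat_lit 10576283880) (nat_lit 76) (nat_lit 40400435038) (nat_lit 159) (nat_lit 5) (nat_lit 165) (nat_lit 5) (nat_lit 160) (nat_lit 5) (nat_lit 449) (nat_lit 407) (nat_lit 164)) (XT.lf (nat_lit 0) (nat_lit 18077461055) (nat_lit 456)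 (nat_lit 36989812422) (nat_lit 76) (nat_lit 4723129639) (nat_lit 154) (nat_lit 5) (nat_lit 160) (nat_lit 5) (nat_lit 155) (nat_lit 5) (nat_lit 450) (nat_lit 407) (nat_lit 163))) (XT.nd (nat_lit 78) (nat_lit 380) (nat_lit 0) (XT.lf (nat_lit 0) (nat_lit 29001759061) (nat_lit 456) (nat_lit 3669950634) (nat_lit 76) (nat_lit 28204406006) (nat_lit 154) (nat_lit 5) (nat_lit 160) (nat_lit 5) (nat_lit 155) (nat_lit 5) (nat_lit 451) (nat_lit 407) (nat_lit 162)) (XT.lf (nat_lit 0) (nat_lit 31258057463) (nat_lit 380) (nat_lit 9295161941) (nat_lit 456) (nat_lit 21432197494) (nat_lit 149) (nat_lit 5) (nat_lit 154) (nat_lit 5) (nat_lit 155) (nat_lit 5) (nat_lit 452) (nat_lit 407) (nat_lit 161))))) (XT.nd (nat_lit 234) (nat_lit 608) (nat_lit 0) (XT.nd (nat_lit 78) (nat_lit 456) (nat_lit 0) (XT.lf (nat_lit 0) (nat_lit 4118734748) (nat_lit 304) (nat_lit 48550582124) (nat_lit 380) (nat_lit 10452137690) (nat_lit 145) (nat_lit 5) (nat_lit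 149) (nat_lit 5) (nat_lit 150) (nat_lit 5) (nat_lit 453) (nat_lit 407) (nat_lit 160)) (XT.nd (nat_lit 78) (nat_lit 380) (nat_lit 0) (XT.lf (nat_lit 0) (nat_lit 1244965185) (nat_lit 380) (nat_lit 23746943741) (nat_lit 76) (nat_lit 39287286289) (nat_lit 144) (nat_lit 5) (nat_lit 149) (nat_lit 5) (nat_lit 145) (nat_lit 5) (nat_lit 454) (nat_lit 407) (nat_lit 159)) (XT.lf (nat_lit 0) (nat_lit 12709644707) (nat_lit 380) (nat_lit 494442603) (nat_lit 456) (nat_lit 52260840881) (nat_lit 139) (nat_lit 5) (nat_lit 144) (nat_lit 5) (nat_lit 145) (nat_lit 5) (nat_lit 455) (nat_lit 407) (nat_lit 158)))) (XT.nd (nat_lit 156) (nat_lit 304) (nat_lit 0) (XT.nd (nat_lit 78) (nat_lit 304) (nat_lit 0) (XT.lf (nat_lit 0) (nat_lit 26000973885) (nat_lit 456) (nat_lit 16173887213) (nat_lit 76) (nat_lit 24497002537) (nat_lit 139) (nat_lit 5) (nat_lit 145) (nat_lit 5) (nat_lit 140) (nat_lit 5) (nat_lit 456) (nat_lit 407) (nat_lit 157))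 (XT.lf (nat_lit 0) (nat_lit 21926565094) (nat_lit 304) (nat_lit 17469920151) (nat_lit 380) (nat_lit 28512080551) (nat_lit 135) (nat_lit 5) (nat_lit 139) (nat_lit 5) (nat_lit 140) (nat_lit 5) (nat_lit 457) (nat_lit 407) (nat_lit 156))) (XT.nd (nat_lit 78) (nat_lit 304) (nat_lit 0) (XT.lf (nat_lit 0) (nat_lit 53434537335) (nat_lit 380) (nat_lit 7755545994) (nat_lit 76) (nat_lit 7985065622) (nat_lit 135) (nat_lit 5) (nat_lit 140) (nat_lit 5) (nat_lit 136) (nat_lit 5) (nat_lit 458) (nat_lit 407) (nat_lit 155)) (XT.lf (nat_lit 0) (nat_lit 32069190473) (nat_lit 304) (nat_lit 36304867971) (nat_lit 380) (nat_lit 2091261522) (nat_lit 131) (nat_lit 5) (nat_lit 135) (nat_lit 5) (nat_lit 136) (nat_lit 5) (nat_lit 459) (nat_lit 407) (nat_lit 154)))))) (XT.nd (nat_lit 546) (nat_lit 760) (nat_lit 0) (XT.nd (nat_lit 234) (nat_lit 608) (nat_lit 0) (XT.nd (nat_lit 78) (nat_lit 304) (nat_lit 0) (XT.lf (nat_lit 0) (nat_lit 1365297381)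 (nat_lit 304) (nat_lit 10460050702) (nat_lit 380) (nat_lit 59962657733) (nat_lit 126) (nat_lit 5) (nat_lit 130) (nat_lit 5) (nat_lit 131) (nat_lit 5) (nat_lit 460) (nat_lit 407) (nat_lit 153)) (XT.nd (nat_lit 78) (nat_lit 304) (nat_lit 0) (XT.lf (nat_lit 0) (nat_lit 26663432745) (nat_lit 380) (nat_lit 30213318434) (nat_lit 76) (nat_lit 16256619797) (nat_lit 126) (nat_lit 5) (nat_lit 131) (nat_lit 5) (nat_lit 127) (nat_lit 5) (nat_lit 461) (nat_lit 407) (nat_lit 152)) (XT.lf (nat_lit 0) (nat_lit 11318346491) (nat_lit 304) (nat_lit 30839806977) (nat_lit 380) (nat_lit 32354598981) (nat_lit 122) (nat_lit 5) (nat_lit 126) (nat_lit 5) (nat_lit 127) (nat_lit 5) (nat_lit 462) (nat_lit 407) (nat_lit 151)))) (XT.nd (nat_lit 156) (nat_lit 380) (nat_lit 0) (XT.nd (nat_lit 78) (nat_lit 228) (nat_lit 0) (XT.lf (nat_lit 0) (nat_lit 54714013927) (nat_lit 304) (nat_lit 3707939893) (nat_lit 380) (nat_lit 17502434568) (nat_lit 122)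 (nat_lit 5) (nat_lit 126) (nat_lit 5) (nat_lit 127) (nat_lit 5) (nat_lit 463) (nat_lit 407) (nat_lit 150)) (XT.lf (nat_lit 0) (nat_lit 22232755430) (nat_lit 228) (nat_lit 53386780615) (nat_lit 304) (nat_lit 1745461482) (nat_lit 119) (nat_lit 5) (nat_lit 122) (nat_lit 5) (nat_lit 123) (nat_lit 5) (nat_lit 464) (nat_lit 407) (nat_lit 149))) (XT.nd (nat_lit 78) (nat_lit 304) (nat_lit 0) (XT.lf (nat_lit 0) (nat_lit 14453765149) (nat_lit 304) (nat_lit 11607770982) (nat_lit 76) (nat_lit 52775546510) (nat_lit 118) (nat_lit 5) (nat_lit 122) (nat_lit 5) (nat_lit 119) (nat_lit 5) (nat_lit 465) (nat_lit 407) (nat_lit 148)) (XT.lf (nat_lit 0) (nat_lit 31452024440) (nat_lit 380) (nat_lit 46501753831) (nat_lit 76) (nat_lit 2388589588) (nat_lit 114) (nat_lit 5) (nat_lit 119) (nat_lit 5) (nat_lit 115) (nat_lit 5) (nat_lit 466) (nat_lit 407) (nat_lit 147))))) (XT.nd (nat_lit 312) (nat_lit 228) (nat_lit 0) (XT.nd (nat_lit 156) (nat_lit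 304) (nat_lit 0) (XT.nd (nat_lit 78) (nat_lit 228) (nat_lit 0) (XT.lf (nat_lit 0) (nat_lit 49335842186) (nat_lit 380) (nat_lit 1259341222) (nat_lit 76) (nat_lit 31286360046) (nat_lit 114) (nat_lit 5) (nat_lit 119) (nat_lit 5) (nat_lit 115) (nat_lit 5) (nat_lit 467) (nat_lit 407) (nat_lit 146)) (XT.lf (nat_lit 0) (nat_lit 46241468742) (nat_lit 228) (nat_lit 21958429713) (nat_lit 304) (nat_lit 15253684277) (nat_lit 111) (nat_lit 5) (nat_lit 114) (nat_lit 5) (nat_lit 115) (nat_lit 5) (nat_lit 468) (nat_lit 407) (nat_lit 145))) (XT.nd (nat_lit 78) (nat_lit 0) (nat_lit 0) (XT.lf (nat_lit 0) (nat_lit 2692033084) (nat_lit 304) (nat_lit 74846815047) (nat_lit 76) (nat_lit 7527652636) (nat_lit 107) (nat_lit 5) (nat_lit 111) (nat_lit 5) (nat_lit 108) (nat_lit 5) (nat_lit 469) (nat_lit 407) (nat_lit 144)) (XT.lf (nat_lit 0) (nat_lit 21465670895) (nat_lit 304) (nat_lit 27252662362) (nat_lit 76) (nat_lit 37987058424) (nat_lit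 107) (nat_lit 5) (nat_lit 111) (nat_lit 5) (nat_lit 108) (nat_lit 5) (nat_lit 470) (nat_lit 407) (nat_lit 143)))) (XT.nd (nat_lit 48204) (nat_lit 0) (nat_lit 11628) (XT.nd (nat_lit 78) (nat_lit 0) (nat_lit 0) (XT.lf (nat_lit 0) (nat_lit 22201355827) (nat_lit 228) (nat_lit 18813830181) (nat_lit 304) (nat_lit 47371883390) (nat_lit 104) (nat_lit 5) (nat_lit 107) (nat_lit 5) (nat_lit 108) (nat_lit 5) (nat_lit 471) (nat_lit 407) (nat_lit 142)) (XT.lf (nat_lit 0) (nat_lit 61543605214) (nat_lit 304) (nat_lit 16532446709) (nat_lit 76) (nat_lit 12031373081) (nat_lit 104) (nat_lit 5) (nat_lit 108) (nat_lit 5) (nat_lit 105) (nat_lit 5) (nat_lit 472) (nat_lit 407) (nat_lit 141))) (XT.nd (nat_lit 78) (nat_lit 0) (nat_lit 0) (XT.lf (nat_lit 0) (nat_lit 4024677209) (nat_lit 1292) (nat_lit 5588911997) (nat_lit 1292) (nat_lit 5588911997) (nat_lit 257) (nat_lit 3) (nat_lit 274) (nat_lit 3) (nat_lit 274) (nat_lit 5) (nat_lit 408)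 (nat_lit 408) (nat_lit 204)) (XT.lf (nat_lit 76) (nat_lit 3669671702) (nat_lit 0) (nat_lit 4605812672) (nat_lit 1292) (nat_lit 22582408449) (nat_lit 258) (nat_lit 5) (nat_lit 257) (nat_lit 3) (nat_lit 274) (nat_lit 5) (nat_lit 409) (nat_lit 408) (nat_lit 203))))))) (XT.nd (nat_lit 1092) (nat_lit 4788) (nat_lit 0) (XT.nd (nat_lit 546) (nat_lit 0) (nat_lit 228) (XT.nd (nat_lit 234) (nat_lit 0) (nat_lit 76) (XT.nd (nat_lit 78) (nat_lit 0) (nat_lit 0) (XT.lf (nat_lit 0) (nat_lit 8720144432) (nat_lit 1216) (nat_lit 12232400451) (nat_lit 1292) (nat_lit 10365473578) (nat_lit 258) (nat_lit 5) (nat_lit 274) (nat_lit 5) (nat_lit 275) (nat_lit 5) (nat_lit 410) (nat_lit 408) (nat_lit 202)) (XT.nd (nat_lit 78) (nat_lit 0) (nat_lit 76) (XT.lf (nat_lit 76) (nat_lit 3187197355) (nat_lit 0) (nat_lit 6064528490) (nat_lit 1292) (nat_lit 22538015445) (nat_lit 259) (nat_lit 5) (nat_lit 258) (nat_lit 5) (nat_lit 275) (nat_lit 5) (nat_lit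 411) (nat_lit 408) (nat_lit 201)) (XT.lf (nat_lit 0) (nat_lit 10010527271) (nat_lit 1216) (nat_lit 13043671871) (nat_lit 1292) (nat_lit 9215079327) (nat_lit 259) (nat_lit 5) (nat_lit 275) (nat_lit 5) (nat_lit 276) (nat_lit 5) (nat_lit 412) (nat_lit 408) (nat_lit 200)))) (XT.nd (nat_lit 156) (nat_lit 0) (nat_lit 76) (XT.nd (nat_lit 78) (nat_lit 0) (nat_lit 76) (XT.lf (nat_lit 76) (nat_lit 2978524888) (nat_lit 0) (nat_lit 7899735514) (nat_lit 1292) (nat_lit 21882357152) (nat_lit 260) (nat_lit 5) (nat_lit 259) (nat_lit 5) (nat_lit 276) (nat_lit 5) (nat_lit 413) (nat_lit 408) (nat_lit 199)) (XT.lf (nat_lit 0) (nat_lit 11976711388) (nat_lit 1216) (nat_lit 13590973412) (nat_lit 1292) (nat_lit 7692872230) (nat_lit 260) (nat_lit 5) (nat_lit 276) (nat_lit 5) (nat_lit 277) (nat_lit 5) (nat_lit 414) (nat_lit 408) (nat_lit 198))) (XT.nd (nat_lit 78) (nat_lit 0) (nat_lit 76) (XT.lf (nat_lit 76) (nat_lit 3065951304) (nat_lit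 0) (nat_lit 10147481827) (nat_lit 1292) (nat_lit 20558902815) (nat_lit 261) (nat_lit 5) (nat_lit 260) (nat_lit 5) (nat_lit 277) (nat_lit 5) (nat_lit 415) (nat_lit 408) (nat_lit 197)) (XT.lf (nat_lit 0) (nat_lit 14678681194) (nat_lit 1216) (nat_lit 13852259243) (nat_lit 1292) (nat_lit 5762785802) (nat_lit 261) (nat_lit 5) (nat_lit 277) (nat_lit 5) (nat_lit 278) (nat_lit 5) (nat_lit 416) (nat_lit 408) (nat_lit 196))))) (XT.nd (nat_lit 234) (nat_lit 0) (nat_lit 152) (XT.nd (nat_lit 78) (nat_lit 0) (nat_lit 76) (XT.lf (nat_lit 76) (nat_lit 3473238529) (nat_lit 0) (nat_lit 12846264573) (nat_lit 1292) (nat_lit 18507307373) (nat_lit 262) (nat_lit 5) (nat_lit 261) (nat_lit 5) (nat_lit 278) (nat_lit 5) (nat_lit 417) (nat_lit 408) (nat_lit 195)) (XT.nd (nat_lit 78) (nat_lit 0) (nat_lit 0) (XT.lf (nat_lit 0) (nat_lit 18180439024) (nat_lit 1216) (nat_lit 13804038525) (nat_lit 1292) (nat_lit 3386283716) (nat_lit 262) (nat_lit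 5) (nat_lit 278) (nat_lit 5) (nat_lit 279) (nat_lit 5) (nat_lit 418) (nat_lit 408) (nat_lit 194)) (XT.lf (nat_lit 76) (nat_lit 4225681385) (nat_lit 0) (nat_lit 16037211895) (nat_lit 1292) (nat_lit 15663167277) (nat_lit 263) (nat_lit 5) (nat_lit 262) (nat_lit 5) (nat_lit 279) (nat_lit 5) (nat_lit 419) (nat_lit 408) (nat_lit 193)))) (XT.nd (nat_lit 156) (nat_lit 0) (nat_lit 0) (XT.nd (nat_lit 78) (nat_lit 0) (nat_lit 0) (XT.lf (nat_lit 0) (nat_lit 22550260790) (nat_lit 1216) (nat_lit 13421308794) (nat_lit 1292) (nat_lit 522176721) (nat_lit 263) (nat_lit 5) (nat_lit 279) (nat_lit 5) (nat_lit 280) (nat_lit 5) (nat_lit 420) (nat_lit 408) (nat_lit 192)) (XT.lf (nat_lit 76) (nat_lit 5350178277) (nat_lit 0) (nat_lit 19764276297) (nat_lit 1292) (nat_lit 11957762539) (nat_lit 264) (nat_lit 5) (nat_lit 263) (nat_lit 5) (nat_lit 280) (nat_lit 5) (nat_lit 421) (nat_lit 408) (nat_lit 191))) (XT.nd (nat_lit 78) (nat_lit 0) (nat_lit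 76) (XT.lf (nat_lit 76) (nat_lit 24958376658) (nat_lit 0) (nat_lit 2930761730) (nat_lit 1292) (nat_lit 9774897360) (nat_lit 264) (nat_lit 5) (nat_lit 263) (nat_lit 5) (nat_lit 280) (nat_lit 5) (nat_lit 422) (nat_lit 408) (nat_lit 190)) (XT.lf (nat_lit 76) (nat_lit 6875304552) (nat_lit 0) (nat_lit 24074440324) (nat_lit 1292) (nat_lit 7317784209) (nat_lit 265) (nat_lit 5) (nat_lit 264) (nat_lit 5) (nat_lit 281) (nat_lit 5) (nat_lit 423) (nat_lit 408) (nat_lit 189)))))) (XT.nd (nat_lit 546) (nat_lit 2736) (nat_lit 0) (XT.nd (nat_lit 234) (nat_lit 1292) (nat_lit 0) (XT.nd (nat_lit 78) (nat_lit 1216) (nat_lit 0) (XT.lf (nat_lit 76) (nat_lit 27272997872) (nat_lit 0) (nat_lit 6984343702) (nat_lit 1292) (nat_lit 4627131081) (nat_lit 265) (nat_lit 5) (nat_lit 264) (nat_lit 5) (nat_lit 281) (nat_lit 5) (nat_lit 424) (nat_lit 408) (nat_lit 188)) (XT.nd (nat_lit 78) (nat_lit 76) (nat_lit 0) (XT.lf (nat_lit 0) (nat_lit 8831388403)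 (nat_lit 1216) (nat_lit 29017935500) (nat_lit 1292) (nat_lit 1665046471) (nat_lit 249) (nat_lit 5) (nat_lit 265) (nat_lit 5) (nat_lit 266) (nat_lit 5) (nat_lit 425) (nat_lit 408) (nat_lit 187)) (XT.lf (nat_lit 0) (nat_lit 1544636263) (nat_lit 1292) (nat_lit 10119311921) (nat_lit 76) (nat_lit 28493244334) (nat_lit 248) (nat_lit 5) (nat_lit 265) (nat_lit 5) (nat_lit 249) (nat_lit 5) (nat_lit 426) (nat_lit 408) (nat_lit 186)))) (XT.nd (nat_lit 156) (nat_lit 608) (nat_lit 0) (XT.nd (nat_lit 78) (nat_lit 0) (nat_lit 0) (XT.lf (nat_lit 0) (nat_lit 4984613952) (nat_lit 760) (nat_lit 29613526768) (nat_lit 76) (nat_lit 6215640456) (nat_lit 239) (nat_lit 5) (nat_lit 249) (nat_lit 5) (nat_lit 240) (nat_lit 5) (nat_lit 427) (nat_lit 408) (nat_lit 185)) (XT.lf (nat_lit 0) (nat_lit 8744775559) (nat_lit 760) (nat_lit 8238237083) (nat_lit 76) (nat_lit 24500545823) (nat_lit 239) (nat_lit 5) (nat_lit 249) (nat_lit 5) (nat_lit 240)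 (nat_lit 5) (nat_lit 428) (nat_lit 408) (nat_lit 184))) (XT.nd (nat_lit 78) (nat_lit 0) (nat_lit 0) (XT.lf (nat_lit 0) (nat_lit 12763655332) (nat_lit 684) (nat_lit 28130961728) (nat_lit 76) (nat_lit 1274435110) (nat_lit 231) (nat_lit 5) (nat_lit 240) (nat_lit 5) (nat_lit 232) (nat_lit 5) (nat_lit 429) (nat_lit 408) (nat_lit 183)) (XT.lf (nat_lit 0) (nat_lit 17153650535) (nat_lit 684) (nat_lit 5891574834) (nat_lit 76) (nat_lit 19822369327) (nat_lit 231) (nat_lit 5) (nat_lit 240) (nat_lit 5) (nat_lit 232) (nat_lit 5) (nat_lit 430) (nat_lit 408) (nat_lit 182))))) (XT.nd (nat_lit 312) (nat_lit 1064) (nat_lit 0) (XT.nd (nat_lit 156) (nat_lit 1064) (nat_lit 0) (XT.nd (nat_lit 78) (nat_lit 0) (nat_lit 0) (XT.lf (nat_lit 0) (nat_lit 17352069683) (nat_lit 608) (nat_lit 4488508301) (nat_lit 684) (nat_lit 21741559009) (nat_lit 223) (nat_lit 5) (nat_lit 231) (nat_lit 5) (nat_lit 232) (nat_lit 5) (nat_lit 431) (nat_lit 408)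 (nat_lit 181)) (XT.lf (nat_lit 0) (nat_lit 26867244260) (nat_lit 684) (nat_lit 3045265498) (nat_lit 76) (nat_lit 14399632323) (nat_lit 223) (nat_lit 5) (nat_lit 232) (nat_lit 5) (nat_lit 224) (nat_lit 5) (nat_lit 432) (nat_lit 408) (nat_lit 180))) (XT.nd (nat_lit 78) (nat_lit 532) (nat_lit 0) (XT.lf (nat_lit 0) (nat_lit 21202872296) (nat_lit 532) (nat_lit 11088603612) (nat_lit 608) (nat_lit 12765168894) (nat_lit 216) (nat_lit 5) (nat_lit 223) (nat_lit 5) (nat_lit 224) (nat_lit 5) (nat_lit 433) (nat_lit 408) (nat_lit 179)) (XT.lf (nat_lit 0) (nat_lit 343389645) (nat_lit 532) (nat_lit 37647724681) (nat_lit 608) (nat_lit 7828988311) (nat_lit 209) (nat_lit 5) (nat_lit 216) (nat_lit 5) (nat_lit 217) (nat_lit 5) (nat_lit 434) (nat_lit 408) (nat_lit 178)))) (XT.nd (nat_lit 156) (nat_lit 532) (nat_lit 0) (XT.nd (nat_lit 78) (nat_lit 532) (nat_lit 0) (XT.lf (nat_lit 0) (nat_lit 25641946663) (nat_lit 532) (nat_lit 18567949670)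 (nat_lit 608) (nat_lit 2386123656) (nat_lit 209) (nat_lit 5) (nat_lit 216) (nat_lit 5) (nat_lit 217) (nat_lit 5) (nat_lit 435) (nat_lit 408) (nat_lit 177)) (XT.lf (nat_lit 0) (nat_lit 3208809023) (nat_lit 532) (nat_lit 43047414953) (nat_lit 76) (nat_lit 1136514198) (nat_lit 202) (nat_lit 5) (nat_lit 209) (nat_lit 5) (nat_lit 203) (nat_lit 5) (nat_lit 436) (nat_lit 408) (nat_lit 176))) (XT.nd (nat_lit 78) (nat_lit 532) (nat_lit 0) (XT.lf (nat_lit 0) (nat_lit 9319781463) (nat_lit 532) (nat_lit 17584867087) (nat_lit 76) (nat_lit 21296116470) (nat_lit 202) (nat_lit 5) (nat_lit 209) (nat_lit 5) (nat_lit 203) (nat_lit 5) (nat_lit 437) (nat_lit 408) (nat_lit 175)) (XT.lf (nat_lit 0) (nat_lit 8812020617) (nat_lit 532) (nat_lit 6885428568) (nat_lit 608) (nat_lit 33333082871) (nat_lit 195) (nat_lit 5) (nat_lit 202) (nat_lit 5) (nat_lit 203) (nat_lit 5) (nat_lit 438) (nat_lit 408) (nat_lit 174))))))))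
noncomputable def xc231 : XT := (XT.nd (nat_lit 2262) (nat_lit 760) (nat_lit 0) (XT.nd (nat_lit 1092) (nat_lit 3040) (nat_lit 0) (XT.nd (nat_lit 546) (nat_lit 1216) (nat_lit 0) (XT.nd (nat_lit 234) (nat_lit 1444) (nat_lit 0) (XT.nd (nat_lit 78) (nat_lit 456) (nat_lit 0) (XT.lf (nat_lit 0) (nat_lit 22576483793) (nat_lit 608) (nat_lit 13653873253) (nat_lit 76) (nat_lit 13645534311) (nat_lit 195) (nat_lit 5) (nat_lit 203) (nat_lit 5) (nat_lit 196) (nat_lit 5) (nat_lit 439) (nat_lit 408) (nat_lit 173)) (XT.nd (nat_lit 78) (nat_lit 0) (nat_lit 0) (XT.lf (nat_lit 0) (nat_lit 13909485264) (nat_lit 456) (nat_lit 15953004459) (nat_lit 532) (nat_lit 20878104051) (nat_lit 189) (nat_lit 5) (nat_lit 195) (nat_lit 5) (nat_lit 196) (nat_lit 5) (nat_lit 440) (nat_lit 408) (nat_lit 172)) (XT.lf (nat_lit 0) (nat_lit 37552476699) (nat_lit 532) (nat_lit 9097738415) (nat_lit 76) (nat_lit 4975460462) (nat_lit 189) (nat_lit 5) (nat_lit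 196) (nat_lit 5) (nat_lit 190) (nat_lit 5) (nat_lit 441) (nat_lit 408) (nat_lit 171)))) (XT.nd (nat_lit 156) (nat_lit 912) (nat_lit 0) (XT.nd (nat_lit 78) (nat_lit 76) (nat_lit 0) (XT.lf (nat_lit 0) (nat_lit 19692505340) (nat_lit 456) (nat_lit 26126684082) (nat_lit 532) (nat_lit 6707739954) (nat_lit 183) (nat_lit 5) (nat_lit 189) (nat_lit 5) (nat_lit 190) (nat_lit 5) (nat_lit 442) (nat_lit 408) (nat_lit 170)) (XT.lf (nat_lit 0) (nat_lit 953104165) (nat_lit 532) (nat_lit 3930328443) (nat_lit 76) (nat_lit 48568788066) (nat_lit 182) (nat_lit 5) (nat_lit 189) (nat_lit 5) (nat_lit 183) (nat_lit 5) (nat_lit 443) (nat_lit 408) (nat_lit 169))) (XT.nd (nat_lit 78) (nat_lit 456) (nat_lit 0) (XT.lf (nat_lit 0) (nat_lit 9126999475) (nat_lit 532) (nat_lit 28276282408) (nat_lit 76) (nat_lit 16987455386) (nat_lit 176) (nat_lit 5) (nat_lit 183) (nat_lit 5) (nat_lit 177) (nat_lit 5) (nat_lit 444) (nat_lit 408) (nat_lit 168)) (XT.lf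 (nat_lit 0) (nat_lit 1769277015) (nat_lit 456) (nat_lit 15881116835) (nat_lit 532) (nat_lit 37703887337) (nat_lit 170) (nat_lit 5) (nat_lit 176) (nat_lit 5) (nat_lit 177) (nat_lit 5) (nat_lit 445) (nat_lit 408) (nat_lit 167))))) (XT.nd (nat_lit 234) (nat_lit 836) (nat_lit 0) (XT.nd (nat_lit 78) (nat_lit 380) (nat_lit 0) (XT.lf (nat_lit 0) (nat_lit 26777143658) (nat_lit 532) (nat_lit 23107037528) (nat_lit 76) (nat_lit 6452120912) (nat_lit 170) (nat_lit 5) (nat_lit 177) (nat_lit 5) (nat_lit 171) (nat_lit 5) (nat_lit 446) (nat_lit 408) (nat_lit 166)) (XT.nd (nat_lit 78) (nat_lit 0) (nat_lit 0) (XT.lf (nat_lit 0) (nat_lit 8288354663) (nat_lit 380) (nat_lit 28125145800) (nat_lit 456) (nat_lit 20927209310) (nat_lit 165) (nat_lit 5) (nat_lit 170) (nat_lit 5) (nat_lit 171) (nat_lit 5) (nat_lit 447) (nat_lit 408) (nat_lit 165)) (XT.lf (nat_lit 0) (nat_lit 41097883741) (nat_lit 380) (nat_lit 5473311814) (nat_lit 456) (nat_lit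 11797086966) (nat_lit 165) (nat_lit 5) (nat_lit 170) (nat_lit 5) (nat_lit 171) (nat_lit 5) (nat_lit 448) (nat_lit 408) (nat_lit 164)))) (XT.nd (nat_lit 156) (nat_lit 380) (nat_lit 0) (XT.nd (nat_lit 78) (nat_lit 76) (nat_lit 0) (XT.lf (nat_lit 0) (nat_lit 15596308739) (nat_lit 380) (nat_lit 41757837408) (nat_lit 456) (nat_lit 2062920820) (nat_lit 160) (nat_lit 5) (nat_lit 165) (nat_lit 5) (nat_lit 166) (nat_lit 5) (nat_lit 449) (nat_lit 408) (nat_lit 163)) (XT.lf (nat_lit 0) (nat_lit 8037141037) (nat_lit 456) (nat_lit 10822897549) (nat_lit 76) (nat_lit 41628102287) (nat_lit 159) (nat_lit 5) (nat_lit 165) (nat_lit 5) (nat_lit 160) (nat_lit 5) (nat_lit 450) (nat_lit 408) (nat_lit 162))) (XT.nd (nat_lit 78) (nat_lit 0) (nat_lit 0) (XT.lf (nat_lit 0) (nat_lit 18672475998) (nat_lit 456) (nat_lit 38028104951) (nat_lit 76) (nat_lit 4881941516) (nat_lit 154) (nat_lit 5) (nat_lit 160) (nat_lit 5) (nat_lit 155) (nat_lit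 5) (nat_lit 451) (nat_lit 408) (nat_lit 161)) (XT.lf (nat_lit 0) (nat_lit 29922968251) (nat_lit 456) (nat_lit 3710726975) (nat_lit 76) (nat_lit 29067157592) (nat_lit 154) (nat_lit 5) (nat_lit 160) (nat_lit 5) (nat_lit 155) (nat_lit 5) (nat_lit 452) (nat_lit 408) (nat_lit 160)))))) (XT.nd (nat_lit 546) (nat_lit 1596) (nat_lit 0) (XT.nd (nat_lit 234) (nat_lit 684) (nat_lit 0) (XT.nd (nat_lit 78) (nat_lit 380) (nat_lit 0) (XT.lf (nat_lit 0) (nat_lit 32264441736) (nat_lit 380) (nat_lit 9555700510) (nat_lit 456) (nat_lit 22023316050) (nat_lit 149) (nat_lit 5) (nat_lit 154) (nat_lit 5) (nat_lit 155) (nat_lit 5) (nat_lit 453) (nat_lit 408) (nat_lit 159)) (XT.nd (nat_lit 78) (nat_lit 76) (nat_lit 0) (XT.lf (nat_lit 0) (nat_lit 4311598229) (nat_lit 304) (nat_lit 49987495703) (nat_lit 380) (nat_lit 10714502349) (nat_lit 145) (nat_lit 5) (nat_lit 149) (nat_lit 5) (nat_lit 150) (nat_lit 5) (nat_lit 454) (nat_lit 408) (nat_lit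 158)) (XT.lf (nat_lit 0) (nat_lit 1331052379) (nat_lit 380) (nat_lit 24391088756) (nat_lit 76) (nat_lit 40483957428) (nat_lit 144) (nat_lit 5) (nat_lit 149) (nat_lit 5) (nat_lit 145) (nat_lit 5) (nat_lit 455) (nat_lit 408) (nat_lit 157)))) (XT.nd (nat_lit 156) (nat_lit 304) (nat_lit 0) (XT.nd (nat_lit 78) (nat_lit 0) (nat_lit 0) (XT.lf (nat_lit 0) (nat_lit 13158528097) (nat_lit 380) (nat_lit 489650266) (nat_lit 456) (nat_lit 53779248561) (nat_lit 139) (nat_lit 5) (nat_lit 144) (nat_lit 5) (nat_lit 145) (nat_lit 5) (nat_lit 456) (nat_lit 408) (nat_lit 156)) (XT.lf (nat_lit 0) (nat_lit 26827757555) (nat_lit 456) (nat_lit 16592254793) (nat_lit 76) (nat_lit 25250594797) (nat_lit 139) (nat_lit 5) (nat_lit 145) (nat_lit 5) (nat_lit 140) (nat_lit 5) (nat_lit 457) (nat_lit 408) (nat_lit 155))) (XT.nd (nat_lit 78) (nat_lit 0) (nat_lit 0) (XT.lf (nat_lit 0) (nat_lit 22650555701) (nat_lit 304) (nat_lit 17973853068) (nat_lit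 380) (nat_lit 29320023649) (nat_lit 135) (nat_lit 5) (nat_lit 139) (nat_lit 5) (nat_lit 140) (nat_lit 5) (nat_lit 458) (nat_lit 408) (nat_lit 154)) (XT.lf (nat_lit 0) (nat_lit 55082449963) (nat_lit 380) (nat_lit 7922785025) (nat_lit 76) (nat_lit 8243812931) (nat_lit 135) (nat_lit 5) (nat_lit 140) (nat_lit 5) (nat_lit 136) (nat_lit 5) (nat_lit 459) (nat_lit 408) (nat_lit 153))))) (XT.nd (nat_lit 312) (nat_lit 608) (nat_lit 0) (XT.nd (nat_lit 156) (nat_lit 304) (nat_lit 0) (XT.nd (nat_lit 78) (nat_lit 380) (nat_lit 0) (XT.lf (nat_lit 0) (nat_lit 33096052091) (nat_lit 304) (nat_lit 37373420292) (nat_lit 380) (nat_lit 2108472478) (nat_lit 131) (nat_lit 5) (nat_lit 135) (nat_lit 5) (nat_lit 136) (nat_lit 5) (nat_lit 460) (nat_lit 408) (nat_lit 152)) (XT.lf (nat_lit 0) (nat_lit 1471295327) (nat_lit 304) (nat_lit 10752776739) (nat_lit 380) (nat_lit 61716246594) (nat_lit 126) (nat_lit 5) (nat_lit 130) (nat_lit 5) (nat_lit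 131) (nat_lit 5) (nat_lit 461) (nat_lit 408) (nat_lit 151))) (XT.nd (nat_lit 78) (nat_lit 304) (nat_lit 0) (XT.lf (nat_lit 0) (nat_lit 27506215466) (nat_lit 380) (nat_lit 31055481322) (nat_lit 76) (nat_lit 16764380746) (nat_lit 126) (nat_lit 5) (nat_lit 131) (nat_lit 5) (nat_lit 127) (nat_lit 5) (nat_lit 462) (nat_lit 408) (nat_lit 150)) (XT.lf (nat_lit 0) (nat_lit 11721503779) (nat_lit 304) (nat_lit 31743636536) (nat_lit 380) (nat_lit 33281719500) (nat_lit 122) (nat_lit 5) (nat_lit 126) (nat_lit 5) (nat_lit 127) (nat_lit 5) (nat_lit 463) (nat_lit 408) (nat_lit 149)))) (XT.nd (nat_lit 156) (nat_lit 380) (nat_lit 0) (XT.nd (nat_lit 78) (nat_lit 228) (nat_lit 0) (XT.lf (nat_lit 0) (nat_lit 56417188610) (nat_lit 304) (nat_lit 3798435711) (nat_lit 380) (nat_lit 17985257654) (nat_lit 122) (nat_lit 5) (nat_lit 126) (nat_lit 5) (nat_lit 127) (nat_lit 5) (nat_lit 464) (nat_lit 408) (nat_lit 148)) (XT.lf (nat_lit 0) (nat_lit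 22961915419) (nat_lit 228) (nat_lit 54966815340) (nat_lit 304) (nat_lit 1755990950) (nat_lit 119) (nat_lit 5) (nat_lit 122) (nat_lit 5) (nat_lit 123) (nat_lit 5) (nat_lit 465) (nat_lit 408) (nat_lit 147))) (XT.nd (nat_lit 78) (nat_lit 304) (nat_lit 0) (XT.lf (nat_lit 0) (nat_lit 14927201441) (nat_lit 304) (nat_lit 11894838157) (nat_lit 76) (nat_lit 54378953766) (nat_lit 118) (nat_lit 5) (nat_lit 122) (nat_lit 5) (nat_lit 119) (nat_lit 5) (nat_lit 466) (nat_lit 408) (nat_lit 146)) (XT.lf (nat_lit 0) (nat_lit 32435035755) (nat_lit 380) (nat_lit 47835260887) (nat_lit 76) (nat_lit 2481151887) (nat_lit 114) (nat_lit 5) (nat_lit 119) (nat_lit 5) (nat_lit 115) (nat_lit 5) (nat_lit 467) (nat_lit 408) (nat_lit 145))))))) (XT.nd (nat_lit 49218) (nat_lit 0) (nat_lit 9044) (XT.nd (nat_lit 48672) (nat_lit 0) (nat_lit 11704) (XT.nd (nat_lit 234) (nat_lit 228) (nat_lit 0) (XT.nd (nat_lit 78) (nat_lit 532) (nat_lit 0) (XT.lf (nat_lit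 0) (nat_lit 50854218987) (nat_lit 380) (nat_lit 1237368489) (nat_lit 76) (nat_lit 32245246586) (nat_lit 114) (nat_lit 5) (nat_lit 119) (nat_lit 5) (nat_lit 115) (nat_lit 5) (nat_lit 468) (nat_lit 408) (nat_lit 144)) (XT.nd (nat_lit 78) (nat_lit 304) (nat_lit 0) (XT.lf (nat_lit 0) (nat_lit 47687879961) (nat_lit 228) (nat_lit 22595770155) (nat_lit 304) (nat_lit 15672401000) (nat_lit 111) (nat_lit 5) (nat_lit 114) (nat_lit 5) (nat_lit 115) (nat_lit 5) (nat_lit 469) (nat_lit 408) (nat_lit 143)) (XT.lf (nat_lit 0) (nat_lit 2810597735) (nat_lit 304) (nat_lit 77031949840) (nat_lit 76) (nat_lit 7774808019) (nat_lit 107) (nat_lit 5) (nat_lit 111) (nat_lit 5) (nat_lit 108) (nat_lit 5) (nat_lit 470) (nat_lit 408) (nat_lit 142)))) (XT.nd (nat_lit 48282) (nat_lit 0) (nat_lit 11628) (XT.nd (nat_lit 78) (nat_lit 228) (nat_lit 0) (XT.lf (nat_lit 0) (nat_lit 22146343603) (nat_lit 304) (nat_lit 28011728002) (nat_lit 76) (nat_lit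 39147374840) (nat_lit 107) (nat_lit 5) (nat_lit 111) (nat_lit 5) (nat_lit 108) (nat_lit 5) (nat_lit 471) (nat_lit 408) (nat_lit 141)) (XT.lf (nat_lit 0) (nat_lit 22925337064) (nat_lit 228) (nat_lit 19356495059) (nat_lit 304) (nat_lit 48755757905) (nat_lit 104) (nat_lit 5) (nat_lit 107) (nat_lit 5) (nat_lit 108) (nat_lit 5) (nat_lit 472) (nat_lit 408) (nat_lit 140))) (XT.nd (nat_lit 78) (nat_lit 0) (nat_lit 0) (XT.lf (nat_lit 0) (nat_lit 4214858053) (nat_lit 1292) (nat_lit 5720806130) (nat_lit 1292) (nat_lit 5720806130) (nat_lit 257) (nat_lit 3) (nat_lit 274) (nat_lit 3) (nat_lit 274) (nat_lit 5) (nat_lit 409) (nat_lit 409) (nat_lit 202)) (XT.lf (nat_lit 76) (nat_lit 3850606872) (nat_lit 0) (nat_lit 4808659016) (nat_lit 1292) (nat_lit 23120254113) (nat_lit 258) (nat_lit 5) (nat_lit 257) (nat_lit 3) (nat_lit 274) (nat_lit 5) (nat_lit 410) (nat_lit 409) (nat_lit 201))))) (XT.nd (nat_lit 234) (nat_lit 0) (nat_lit 76)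 (XT.nd (nat_lit 78) (nat_lit 0) (nat_lit 0) (XT.lf (nat_lit 0) (nat_lit 9112715091) (nat_lit 1216) (nat_lit 12525997423) (nat_lit 1292) (nat_lit 10614874698) (nat_lit 258) (nat_lit 5) (nat_lit 274) (nat_lit 5) (nat_lit 275) (nat_lit 5) (nat_lit 411) (nat_lit 409) (nat_lit 200)) (XT.nd (nat_lit 78) (nat_lit 0) (nat_lit 76) (XT.lf (nat_lit 76) (nat_lit 3355468954) (nat_lit 0) (nat_lit 6301658849) (nat_lit 1292) (nat_lit 23082428653) (nat_lit 259) (nat_lit 5) (nat_lit 258) (nat_lit 5) (nat_lit 275) (nat_lit 5) (nat_lit 412) (nat_lit 409) (nat_lit 199)) (XT.lf (nat_lit 0) (nat_lit 10434454371) (nat_lit 1216) (nat_lit 13360163276) (nat_lit 1292) (nat_lit 9438990482) (nat_lit 259) (nat_lit 5) (nat_lit 275) (nat_lit 5) (nat_lit 276) (nat_lit 5) (nat_lit 413) (nat_lit 409) (nat_lit 198)))) (XT.nd (nat_lit 156) (nat_lit 0) (nat_lit 76) (XT.nd (nat_lit 78) (nat_lit 0) (nat_lit 76) (XT.lf (nat_lit 76) (nat_lit 3141965869)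 (nat_lit 0) (nat_lit 8183365451) (nat_lit 1292) (nat_lit 22414443887) (nat_lit 260) (nat_lit 5) (nat_lit 259) (nat_lit 5) (nat_lit 276) (nat_lit 5) (nat_lit 414) (nat_lit 409) (nat_lit 197)) (XT.lf (nat_lit 0) (nat_lit 12452784374) (nat_lit 1216) (nat_lit 13922785702) (nat_lit 1292) (nat_lit 7879262476) (nat_lit 260) (nat_lit 5) (nat_lit 276) (nat_lit 5) (nat_lit 277) (nat_lit 5) (nat_lit 415) (nat_lit 409) (nat_lit 196))) (XT.nd (nat_lit 78) (nat_lit 0) (nat_lit 76) (XT.lf (nat_lit 76) (nat_lit 3233102472) (nat_lit 0) (nat_lit 10490826787) (nat_lit 1292) (nat_lit 21058117039) (nat_lit 261) (nat_lit 5) (nat_lit 260) (nat_lit 5) (nat_lit 277) (nat_lit 5) (nat_lit 416) (nat_lit 409) (nat_lit 195)) (XT.lf (nat_lit 0) (nat_lit 15229448432) (nat_lit 1216) (nat_lit 14191121697) (nat_lit 1292) (nat_lit 5898619836) (nat_lit 261) (nat_lit 5) (nat_lit 277) (nat_lit 5) (nat_lit 278) (nat_lit 5) (nat_lit 417) (nat_lit 409)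 (nat_lit 194)))))) (XT.nd (nat_lit 546) (nat_lit 2888) (nat_lit 0) (XT.nd (nat_lit 234) (nat_lit 0) (nat_lit 152) (XT.nd (nat_lit 78) (nat_lit 0) (nat_lit 76) (XT.lf (nat_lit 76) (nat_lit 3653388995) (nat_lit 0) (nat_lit 13263620380) (nat_lit 1292) (nat_lit 18951332967) (nat_lit 262) (nat_lit 5) (nat_lit 261) (nat_lit 5) (nat_lit 278) (nat_lit 5) (nat_lit 418) (nat_lit 409) (nat_lit 193)) (XT.nd (nat_lit 78) (nat_lit 0) (nat_lit 0) (XT.lf (nat_lit 0) (nat_lit 18830331695) (nat_lit 1216) (nat_lit 14140943125) (nat_lit 1292) (nat_lit 3457441100) (nat_lit 262) (nat_lit 5) (nat_lit 278) (nat_lit 5) (nat_lit 279) (nat_lit 5) (nat_lit 419) (nat_lit 409) (nat_lit 192)) (XT.lf (nat_lit 76) (nat_lit 4428911356) (nat_lit 0) (nat_lit 16544040105) (nat_lit 1292) (nat_lit 16027792957) (nat_lit 263) (nat_lit 5) (nat_lit 262) (nat_lit 5) (nat_lit 279) (nat_lit 5) (nat_lit 420) (nat_lit 409) (nat_lit 191)))) (XT.nd (nat_lit 156)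 (nat_lit 0) (nat_lit 0) (XT.nd (nat_lit 78) (nat_lit 0) (nat_lit 0) (XT.lf (nat_lit 0) (nat_lit 23325724172) (nat_lit 1216) (nat_lit 13746467821) (nat_lit 1292) (nat_lit 513366175) (nat_lit 263) (nat_lit 5) (nat_lit 279) (nat_lit 5) (nat_lit 280) (nat_lit 5) (nat_lit 421) (nat_lit 409) (nat_lit 190)) (XT.lf (nat_lit 76) (nat_lit 5587404252) (nat_lit 0) (nat_lit 20377294804) (nat_lit 1292) (nat_lit 12216749316) (nat_lit 264) (nat_lit 5) (nat_lit 263) (nat_lit 5) (nat_lit 280) (nat_lit 5) (nat_lit 422) (nat_lit 409) (nat_lit 189))) (XT.nd (nat_lit 78) (nat_lit 0) (nat_lit 76) (XT.lf (nat_lit 76) (nat_lit 25781614003) (nat_lit 0) (nat_lit 3038189647) (nat_lit 1292) (nat_lit 9971303408) (nat_lit 264) (nat_lit 5) (nat_lit 263) (nat_lit 5) (nat_lit 280) (nat_lit 5) (nat_lit 423) (nat_lit 409) (nat_lit 188)) (XT.lf (nat_lit 76) (nat_lit 7158326958) (nat_lit 0) (nat_lit 24811719632) (nat_lit 1292) (nat_lit 7442724933)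 (nat_lit 265) (nat_lit 5) (nat_lit 264) (nat_lit 5) (nat_lit 281) (nat_lit 5) (nat_lit 424) (nat_lit 409) (nat_lit 187))))) (XT.nd (nat_lit 312) (nat_lit 1216) (nat_lit 0) (XT.nd (nat_lit 156) (nat_lit 760) (nat_lit 0) (XT.nd (nat_lit 78) (nat_lit 1140) (nat_lit 0) (XT.lf (nat_lit 76) (nat_lit 28165715254) (nat_lit 0) (nat_lit 7208481875) (nat_lit 1292) (nat_lit 4674107342) (nat_lit 265) (nat_lit 5) (nat_lit 264) (nat_lit 5) (nat_lit 281) (nat_lit 5) (nat_lit 425) (nat_lit 409) (nat_lit 186)) (XT.lf (nat_lit 0) (nat_lit 9172941754) (nat_lit 1216) (nat_lit 29899001110) (nat_lit 1292) (nat_lit 1625216965) (nat_lit 249) (nat_lit 5) (nat_lit 265) (nat_lit 5) (nat_lit 266) (nat_lit 5) (nat_lit 426) (nat_lit 409) (nat_lit 185))) (XT.nd (nat_lit 78) (nat_lit 684) (nat_lit 0) (XT.lf (nat_lit 0) (nat_lit 1676440353) (nat_lit 1292) (nat_lit 10346784165) (nat_lit 76) (nat_lit 29336093923) (nat_lit 248) (nat_lit 5) (nat_lit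 265) (nat_lit 5) (nat_lit 249) (nat_lit 5) (nat_lit 427) (nat_lit 409) (nat_lit 184)) (XT.lf (nat_lit 0) (nat_lit 5217772354) (nat_lit 760) (nat_lit 30423955291) (nat_lit 76) (nat_lit 6393933217) (nat_lit 239) (nat_lit 5) (nat_lit 249) (nat_lit 5) (nat_lit 240) (nat_lit 5) (nat_lit 428) (nat_lit 409) (nat_lit 183)))) (XT.nd (nat_lit 156) (nat_lit 608) (nat_lit 0) (XT.nd (nat_lit 78) (nat_lit 608) (nat_lit 0) (XT.lf (nat_lit 0) (nat_lit 9088303276) (nat_lit 760) (nat_lit 8409678099) (nat_lit 76) (nat_lit 25227623895) (nat_lit 239) (nat_lit 5) (nat_lit 249) (nat_lit 5) (nat_lit 240) (nat_lit 5) (nat_lit 429) (nat_lit 409) (nat_lit 182)) (XT.lf (nat_lit 0) (nat_lit 13226061453) (nat_lit 684) (nat_lit 28897472788) (nat_lit 76) (nat_lit 1308180895) (nat_lit 231) (nat_lit 5) (nat_lit 240) (nat_lit 5) (nat_lit 232) (nat_lit 5) (nat_lit 430) (nat_lit 409) (nat_lit 181))) (XT.nd (nat_lit 78) (nat_lit 608) (nat_lit 0) (XT.lf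 (nat_lit 0) (nat_lit 17745441081) (nat_lit 684) (nat_lit 5993159174) (nat_lit 76) (nat_lit 20412683836) (nat_lit 231) (nat_lit 5) (nat_lit 240) (nat_lit 5) (nat_lit 232) (nat_lit 5) (nat_lit 431) (nat_lit 409) (nat_lit 180)) (XT.lf (nat_lit 0) (nat_lit 17947057786) (nat_lit 608) (nat_lit 4624386004) (nat_lit 684) (nat_lit 22315865514) (nat_lit 223) (nat_lit 5) (nat_lit 231) (nat_lit 5) (nat_lit 232) (nat_lit 5) (nat_lit 432) (nat_lit 409) (nat_lit 179))))))))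
noncomputable def xc232 : XT := (XT.nd (nat_lit 2184) (nat_lit 2128) (nat_lit 0) (XT.nd (nat_lit 1092) (nat_lit 2660) (nat_lit 0) (XT.nd (nat_lit 546) (nat_lit 1900) (nat_lit 0) (XT.nd (nat_lit 234) (nat_lit 1064) (nat_lit 0) (XT.nd (nat_lit 78) (nat_lit 1064) (nat_lit 0) (XT.lf (nat_lit 0) (nat_lit 27746695292) (nat_lit 684) (nat_lit 3062128742) (nat_lit 76) (nat_lit 14830457605) (nat_lit 223) (nat_lit 5) (nat_lit 232) (nat_lit 5) (nat_lit 224) (nat_lit 5) (nat_lit 433) (nat_lit 409) (nat_lit 178)) (XT.nd (nat_lit 78) (nat_lit 532) (nat_lit 0) (XT.lf (nat_lit 0) (nat_lit 21912722846) (nat_lit 532) (nat_lit 11419501268) (nat_lit 608) (nat_lit 13073938853) (nat_lit 216) (nat_lit 5) (nat_lit 223) (nat_lit 5) (nat_lit 224) (nat_lit 5) (nat_lit 434) (nat_lit 409) (nat_lit 177)) (XT.lf (nat_lit 0) (nat_lit 428875574) (nat_lit 532) (nat_lit 38772618054) (nat_lit 608) (nat_lit 7991072264) (nat_lit 209) (nat_lit 5) (nat_lit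 216) (nat_lit 5) (nat_lit 217) (nat_lit 5) (nat_lit 435) (nat_lit 409) (nat_lit 176)))) (XT.nd (nat_lit 156) (nat_lit 532) (nat_lit 0) (XT.nd (nat_lit 78) (nat_lit 532) (nat_lit 0) (XT.lf (nat_lit 0) (nat_lit 26484199470) (nat_lit 532) (nat_lit 19120581978) (nat_lit 608) (nat_lit 2387041641) (nat_lit 209) (nat_lit 5) (nat_lit 216) (nat_lit 5) (nat_lit 217) (nat_lit 5) (nat_lit 436) (nat_lit 409) (nat_lit 175)) (XT.lf (nat_lit 0) (nat_lit 3373104772) (nat_lit 532) (nat_lit 44263170762) (nat_lit 76) (nat_lit 1176185128) (nat_lit 202) (nat_lit 5) (nat_lit 209) (nat_lit 5) (nat_lit 203) (nat_lit 5) (nat_lit 437) (nat_lit 409) (nat_lit 174))) (XT.nd (nat_lit 78) (nat_lit 532) (nat_lit 0) (XT.lf (nat_lit 0) (nat_lit 9665424887) (nat_lit 532) (nat_lit 18038950342) (nat_lit 76) (nat_lit 21940413075) (nat_lit 202) (nat_lit 5) (nat_lit 209) (nat_lit 5) (nat_lit 203) (nat_lit 5) (nat_lit 438) (nat_lit 409) (nat_lit 173))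 (XT.lf (nat_lit 0) (nat_lit 9149123770) (nat_lit 532) (nat_lit 7084074330) (nat_lit 608) (nat_lit 34266287516) (nat_lit 195) (nat_lit 5) (nat_lit 202) (nat_lit 5) (nat_lit 203) (nat_lit 5) (nat_lit 439) (nat_lit 409) (nat_lit 172))))) (XT.nd (nat_lit 234) (nat_lit 1444) (nat_lit 0) (XT.nd (nat_lit 78) (nat_lit 456) (nat_lit 0) (XT.lf (nat_lit 0) (nat_lit 23316789514) (nat_lit 608) (nat_lit 13991034273) (nat_lit 76) (nat_lit 14062436849) (nat_lit 195) (nat_lit 5) (nat_lit 203) (nat_lit 5) (nat_lit 196) (nat_lit 5) (nat_lit 440) (nat_lit 409) (nat_lit 171)) (XT.nd (nat_lit 78) (nat_lit 0) (nat_lit 0) (XT.lf (nat_lit 0) (nat_lit 14398514655) (nat_lit 456) (nat_lit 16421715345) (nat_lit 532) (nat_lit 21440708994) (nat_lit 189) (nat_lit 5) (nat_lit 195) (nat_lit 5) (nat_lit 196) (nat_lit 5) (nat_lit 441) (nat_lit 409) (nat_lit 170)) (XT.lf (nat_lit 0) (nat_lit 38739206874) (nat_lit 532) (nat_lit 9299289537) (nat_lit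 76) (nat_lit 5134128614) (nat_lit 189) (nat_lit 5) (nat_lit 196) (nat_lit 5) (nat_lit 190) (nat_lit 5) (nat_lit 442) (nat_lit 409) (nat_lit 169)))) (XT.nd (nat_lit 156) (nat_lit 912) (nat_lit 0) (XT.nd (nat_lit 78) (nat_lit 76) (nat_lit 0) (XT.lf (nat_lit 0) (nat_lit 20353961716) (nat_lit 456) (nat_lit 26898886581) (nat_lit 532) (nat_lit 6848100793) (nat_lit 183) (nat_lit 5) (nat_lit 189) (nat_lit 5) (nat_lit 190) (nat_lit 5) (nat_lit 443) (nat_lit 409) (nat_lit 168)) (XT.lf (nat_lit 0) (nat_lit 1039642475) (nat_lit 532) (nat_lit 3978447762) (nat_lit 76) (nat_lit 50035943931) (nat_lit 182) (nat_lit 5) (nat_lit 189) (nat_lit 5) (nat_lit 183) (nat_lit 5) (nat_lit 444) (nat_lit 409) (nat_lit 167))) (XT.nd (nat_lit 78) (nat_lit 456) (nat_lit 0) (XT.lf (nat_lit 0) (nat_lit 9457848338) (nat_lit 532) (nat_lit 29053859697) (nat_lit 76) (nat_lit 17509025844) (nat_lit 176) (nat_lit 5) (nat_lit 183) (nat_lit 5) (nat_lit 177)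 (nat_lit 5) (nat_lit 445) (nat_lit 409) (nat_lit 166)) (XT.lf (nat_lit 0) (nat_lit 1892373262) (nat_lit 456) (nat_lit 16343583011) (nat_lit 532) (nat_lit 38777257908) (nat_lit 170) (nat_lit 5) (nat_lit 176) (nat_lit 5) (nat_lit 177) (nat_lit 5) (nat_lit 446) (nat_lit 409) (nat_lit 165)))))) (XT.nd (nat_lit 546) (nat_lit 1444) (nat_lit 0) (XT.nd (nat_lit 234) (nat_lit 836) (nat_lit 0) (XT.nd (nat_lit 78) (nat_lit 380) (nat_lit 0) (XT.lf (nat_lit 0) (nat_lit 27635006384) (nat_lit 532) (nat_lit 23730754367) (nat_lit 76) (nat_lit 6658980438) (nat_lit 170) (nat_lit 5) (nat_lit 177) (nat_lit 5) (nat_lit 171) (nat_lit 5) (nat_lit 447) (nat_lit 409) (nat_lit 164)) (XT.nd (nat_lit 78) (nat_lit 0) (nat_lit 0) (XT.lf (nat_lit 0) (nat_lit 8605818274) (nat_lit 380) (nat_lit 28953708304) (nat_lit 456) (nat_lit 21499782731) (nat_lit 165) (nat_lit 5) (nat_lit 170) (nat_lit 5) (nat_lit 171) (nat_lit 5) (nat_lit 448) (nat_lit 409)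 (nat_lit 163)) (XT.lf (nat_lit 0) (nat_lit 42397628962) (nat_lit 380) (nat_lit 5622761779) (nat_lit 456) (nat_lit 12097365732) (nat_lit 165) (nat_lit 5) (nat_lit 170) (nat_lit 5) (nat_lit 171) (nat_lit 5) (nat_lit 449) (nat_lit 409) (nat_lit 162)))) (XT.nd (nat_lit 156) (nat_lit 380) (nat_lit 0) (XT.nd (nat_lit 78) (nat_lit 76) (nat_lit 0) (XT.lf (nat_lit 0) (nat_lit 16131770419) (nat_lit 380) (nat_lit 42994330340) (nat_lit 456) (nat_lit 2071925939) (nat_lit 160) (nat_lit 5) (nat_lit 165) (nat_lit 5) (nat_lit 166) (nat_lit 5) (nat_lit 450) (nat_lit 409) (nat_lit 161)) (XT.lf (nat_lit 0) (nat_lit 8328595635) (nat_lit 456) (nat_lit 11080966653) (nat_lit 76) (nat_lit 42891700939) (nat_lit 159) (nat_lit 5) (nat_lit 165) (nat_lit 5) (nat_lit 160) (nat_lit 5) (nat_lit 451) (nat_lit 409) (nat_lit 160))) (XT.nd (nat_lit 78) (nat_lit 0) (nat_lit 0) (XT.lf (nat_lit 0) (nat_lit 19282316703) (nat_lit 456) (nat_lit 39101645014)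 (nat_lit 76) (nat_lit 5044535107) (nat_lit 154) (nat_lit 5) (nat_lit 160) (nat_lit 5) (nat_lit 155) (nat_lit 5) (nat_lit 452) (nat_lit 409) (nat_lit 159)) (XT.lf (nat_lit 0) (nat_lit 30868877130) (nat_lit 456) (nat_lit 3756705983) (nat_lit 76) (nat_lit 29954837703) (nat_lit 154) (nat_lit 5) (nat_lit 160) (nat_lit 5) (nat_lit 155) (nat_lit 5) (nat_lit 453) (nat_lit 409) (nat_lit 158))))) (XT.nd (nat_lit 234) (nat_lit 684) (nat_lit 0) (XT.nd (nat_lit 78) (nat_lit 380) (nat_lit 0) (XT.lf (nat_lit 0) (nat_lit 33297077174) (nat_lit 380) (nat_lit 9825106666) (nat_lit 456) (nat_lit 22635144413) (nat_lit 149) (nat_lit 5) (nat_lit 154) (nat_lit 5) (nat_lit 155) (nat_lit 5) (nat_lit 454) (nat_lit 409) (nat_lit 157)) (XT.nd (nat_lit 78) (nat_lit 76) (nat_lit 0) (XT.lf (nat_lit 0) (nat_lit 4506269428) (nat_lit 304) (nat_lit 51468642033) (nat_lit 380) (nat_lit 10987677006) (nat_lit 145) (nat_lit 5) (nat_lit 149) (nat_lit 5)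 (nat_lit 150) (nat_lit 5) (nat_lit 455) (nat_lit 409) (nat_lit 156)) (XT.lf (nat_lit 0) (nat_lit 1416924415) (nat_lit 380) (nat_lit 25058476714) (nat_lit 76) (nat_lit 41715492411) (nat_lit 144) (nat_lit 5) (nat_lit 149) (nat_lit 5) (nat_lit 145) (nat_lit 5) (nat_lit 456) (nat_lit 409) (nat_lit 155)))) (XT.nd (nat_lit 156) (nat_lit 304) (nat_lit 0) (XT.nd (nat_lit 78) (nat_lit 0) (nat_lit 0) (XT.lf (nat_lit 0) (nat_lit 13616997814) (nat_lit 380) (nat_lit 485840749) (nat_lit 456) (nat_lit 55346045241) (nat_lit 139) (nat_lit 5) (nat_lit 144) (nat_lit 5) (nat_lit 145) (nat_lit 5) (nat_lit 457) (nat_lit 409) (nat_lit 154)) (XT.lf (nat_lit 0) (nat_lit 27676660838) (nat_lit 456) (nat_lit 17027010808) (nat_lit 76) (nat_lit 26025722390) (nat_lit 139) (nat_lit 5) (nat_lit 145) (nat_lit 5) (nat_lit 140) (nat_lit 5) (nat_lit 458) (nat_lit 409) (nat_lit 153))) (XT.nd (nat_lit 78) (nat_lit 0) (nat_lit 0) (XT.lf (nat_lit 0) (nat_lit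 23392466240) (nat_lit 304) (nat_lit 18494061509) (nat_lit 380) (nat_lit 30154927104) (nat_lit 135) (nat_lit 5) (nat_lit 139) (nat_lit 5) (nat_lit 140) (nat_lit 5) (nat_lit 459) (nat_lit 409) (nat_lit 152)) (XT.lf (nat_lit 0) (nat_lit 56777223874) (nat_lit 380) (nat_lit 8098797025) (nat_lit 76) (nat_lit 8509220769) (nat_lit 135) (nat_lit 5) (nat_lit 140) (nat_lit 5) (nat_lit 136) (nat_lit 5) (nat_lit 460) (nat_lit 409) (nat_lit 151))))))) (XT.nd (nat_lit 49374) (nat_lit 0) (nat_lit 10792) (XT.nd (nat_lit 546) (nat_lit 836) (nat_lit 0) (XT.nd (nat_lit 234) (nat_lit 608) (nat_lit 0) (XT.nd (nat_lit 78) (nat_lit 380) (nat_lit 0) (XT.lf (nat_lit 0) (nat_lit 34150000582) (nat_lit 304) (nat_lit 38475211346) (nat_lit 380) (nat_lit 2128813193) (nat_lit 131) (nat_lit 5) (nat_lit 135) (nat_lit 5) (nat_lit 136) (nat_lit 5) (nat_lit 461) (nat_lit 409) (nat_lit 150)) (XT.nd (nat_lit 78) (nat_lit 0) (nat_lit 0) (XT.lf (nat_lit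 0) (nat_lit 1576739705) (nat_lit 304) (nat_lit 11055494376) (nat_lit 380) (nat_lit 63525043002) (nat_lit 126) (nat_lit 5) (nat_lit 130) (nat_lit 5) (nat_lit 131) (nat_lit 5) (nat_lit 462) (nat_lit 409) (nat_lit 149)) (XT.lf (nat_lit 0) (nat_lit 28371820196) (nat_lit 380) (nat_lit 31926596545) (nat_lit 76) (nat_lit 17286222862) (nat_lit 126) (nat_lit 5) (nat_lit 131) (nat_lit 5) (nat_lit 127) (nat_lit 5) (nat_lit 463) (nat_lit 409) (nat_lit 148)))) (XT.nd (nat_lit 156) (nat_lit 304) (nat_lit 0) (XT.nd (nat_lit 78) (nat_lit 0) (nat_lit 0) (XT.lf (nat_lit 0) (nat_lit 12133104490) (nat_lit 304) (nat_lit 32675807399) (nat_lit 380) (nat_lit 34239151714) (nat_lit 122) (nat_lit 5) (nat_lit 126) (nat_lit 5) (nat_lit 127) (nat_lit 5) (nat_lit 464) (nat_lit 409) (nat_lit 147)) (XT.lf (nat_lit 0) (nat_lit 58167913586) (nat_lit 304) (nat_lit 3892837100) (nat_lit 380) (nat_lit 18484990751) (nat_lit 122) (nat_lit 5) (nat_lit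 126) (nat_lit 5) (nat_lit 127) (nat_lit 5) (nat_lit 465) (nat_lit 409) (nat_lit 146))) (XT.nd (nat_lit 78) (nat_lit 76) (nat_lit 0) (XT.lf (nat_lit 0) (nat_lit 23709380974) (nat_lit 228) (nat_lit 56595489238) (nat_lit 304) (nat_lit 1769237767) (nat_lit 119) (nat_lit 5) (nat_lit 122) (nat_lit 5) (nat_lit 123) (nat_lit 5) (nat_lit 466) (nat_lit 409) (nat_lit 145)) (XT.lf (nat_lit 0) (nat_lit 15412554798) (nat_lit 304) (nat_lit 12194028524) (nat_lit 76) (nat_lit 56029307073) (nat_lit 118) (nat_lit 5) (nat_lit 122) (nat_lit 5) (nat_lit 119) (nat_lit 5) (nat_lit 467) (nat_lit 409) (nat_lit 144))))) (XT.nd (nat_lit 234) (nat_lit 304) (nat_lit 0) (XT.nd (nat_lit 78) (nat_lit 228) (nat_lit 0) (XT.lf (nat_lit 0) (nat_lit 33445272784) (nat_lit 380) (nat_lit 49212306121) (nat_lit 76) (nat_lit 2575291044) (nat_lit 114) (nat_lit 5) (nat_lit 119) (nat_lit 5) (nat_lit 115) (nat_lit 5) (nat_lit 468) (nat_lit 409) (nat_lit 143))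 (XT.nd (nat_lit 78) (nat_lit 228) (nat_lit 0) (XT.lf (nat_lit 0) (nat_lit 52415948427) (nat_lit 380) (nat_lit 1218166638) (nat_lit 76) (nat_lit 33231734664) (nat_lit 114) (nat_lit 5) (nat_lit 119) (nat_lit 5) (nat_lit 115) (nat_lit 5) (nat_lit 469) (nat_lit 409) (nat_lit 142)) (XT.lf (nat_lit 0) (nat_lit 49174287079) (nat_lit 228) (nat_lit 23253459973) (nat_lit 304) (nat_lit 16105911889) (nat_lit 111) (nat_lit 5) (nat_lit 114) (nat_lit 5) (nat_lit 115) (nat_lit 5) (nat_lit 470) (nat_lit 409) (nat_lit 141)))) (XT.nd (nat_lit 48438) (nat_lit 0) (nat_lit 11400) (XT.nd (nat_lit 48360) (nat_lit 0) (nat_lit 11400) (XT.lf (nat_lit 0) (nat_lit 2930549241) (nat_lit 304) (nat_lit 79286098402) (nat_lit 76) (nat_lit 8028153874) (nat_lit 107) (nat_lit 5) (nat_lit 111) (nat_lit 5) (nat_lit 108) (nat_lit 5) (nat_lit 471) (nat_lit 409) (nat_lit 140)) (XT.lf (nat_lit 0) (nat_lit 4406758152) (nat_lit 1292) (nat_lit 5858710616) (nat_lit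 1292) (nat_lit 5858710616) (nat_lit 257) (nat_lit 3) (nat_lit 274) (nat_lit 3) (nat_lit 274) (nat_lit 5) (nat_lit 410) (nat_lit 410) (nat_lit 200))) (XT.nd (nat_lit 78) (nat_lit 0) (nat_lit 76) (XT.lf (nat_lit 76) (nat_lit 4032903302) (nat_lit 0) (nat_lit 5013878315) (nat_lit 1292) (nat_lit 23682250284) (nat_lit 258) (nat_lit 5) (nat_lit 257) (nat_lit 3) (nat_lit 274) (nat_lit 5) (nat_lit 411) (nat_lit 410) (nat_lit 199)) (XT.lf (nat_lit 0) (nat_lit 9509544866) (nat_lit 1216) (nat_lit 12832614331) (nat_lit 1292) (nat_lit 10875291824) (nat_lit 258) (nat_lit 5) (nat_lit 274) (nat_lit 5) (nat_lit 275) (nat_lit 5) (nat_lit 412) (nat_lit 410) (nat_lit 198)))))) (XT.nd (nat_lit 546) (nat_lit 684) (nat_lit 0) (XT.nd (nat_lit 234) (nat_lit 0) (nat_lit 152) (XT.nd (nat_lit 78) (nat_lit 0) (nat_lit 76) (XT.lf (nat_lit 76) (nat_lit 3524617968) (nat_lit 0) (nat_lit 6542734730) (nat_lit 1292) (nat_lit 23650735940) (nat_lit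 259) (nat_lit 5) (nat_lit 258) (nat_lit 5) (nat_lit 275) (nat_lit 5) (nat_lit 413) (nat_lit 410) (nat_lit 197)) (XT.nd (nat_lit 78) (nat_lit 0) (nat_lit 0) (XT.lf (nat_lit 0) (nat_lit 10864003491) (nat_lit 1216) (nat_lit 13690444325) (nat_lit 1292) (nat_lit 9672635053) (nat_lit 259) (nat_lit 5) (nat_lit 275) (nat_lit 5) (nat_lit 276) (nat_lit 5) (nat_lit 414) (nat_lit 410) (nat_lit 196)) (XT.lf (nat_lit 76) (nat_lit 3306057284) (nat_lit 0) (nat_lit 8472827081) (nat_lit 1292) (nat_lit 22969633373) (nat_lit 260) (nat_lit 5) (nat_lit 259) (nat_lit 5) (nat_lit 276) (nat_lit 5) (nat_lit 415) (nat_lit 410) (nat_lit 195)))) (XT.nd (nat_lit 156) (nat_lit 0) (nat_lit 76) (XT.nd (nat_lit 78) (nat_lit 0) (nat_lit 0) (XT.lf (nat_lit 0) (nat_lit 12936436380) (nat_lit 1216) (nat_lit 14268910301) (nat_lit 1292) (nat_lit 8073792937) (nat_lit 260) (nat_lit 5) (nat_lit 276) (nat_lit 5) (nat_lit 277) (nat_lit 5) (nat_lit 416) (nat_lit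 410) (nat_lit 194)) (XT.lf (nat_lit 76) (nat_lit 3400952959) (nat_lit 0) (nat_lit 10842237899) (nat_lit 1292) (nat_lit 21579055706) (nat_lit 261) (nat_lit 5) (nat_lit 260) (nat_lit 5) (nat_lit 277) (nat_lit 5) (nat_lit 417) (nat_lit 410) (nat_lit 193))) (XT.nd (nat_lit 78) (nat_lit 0) (nat_lit 0) (XT.lf (nat_lit 0) (nat_lit 15790400885) (nat_lit 1216) (nat_lit 14544553224) (nat_lit 1292) (nat_lit 6040655688) (nat_lit 261) (nat_lit 5) (nat_lit 277) (nat_lit 5) (nat_lit 278) (nat_lit 5) (nat_lit 418) (nat_lit 410) (nat_lit 192)) (XT.lf (nat_lit 76) (nat_lit 3834583945) (nat_lit 0) (nat_lit 13691661774) (nat_lit 1292) (nat_lit 19415062298) (nat_lit 262) (nat_lit 5) (nat_lit 261) (nat_lit 5) (nat_lit 278) (nat_lit 5) (nat_lit 419) (nat_lit 410) (nat_lit 191))))) (XT.nd (nat_lit 312) (nat_lit 988) (nat_lit 0) (XT.nd (nat_lit 156) (nat_lit 0) (nat_lit 76) (XT.nd (nat_lit 78) (nat_lit 0) (nat_lit 0) (XT.lf (nat_lit 0)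 (nat_lit 19493723595) (nat_lit 1216) (nat_lit 14492387410) (nat_lit 1292) (nat_lit 3532480077) (nat_lit 262) (nat_lit 5) (nat_lit 278) (nat_lit 5) (nat_lit 279) (nat_lit 5) (nat_lit 420) (nat_lit 410) (nat_lit 190)) (XT.lf (nat_lit 76) (nat_lit 4633849138) (nat_lit 0) (nat_lit 17064597196) (nat_lit 1292) (nat_lit 16409400298) (nat_lit 263) (nat_lit 5) (nat_lit 262) (nat_lit 5) (nat_lit 279) (nat_lit 5) (nat_lit 421) (nat_lit 410) (nat_lit 189))) (XT.nd (nat_lit 78) (nat_lit 0) (nat_lit 0) (XT.lf (nat_lit 0) (nat_lit 24118771002) (nat_lit 1216) (nat_lit 14085829302) (nat_lit 1292) (nat_lit 505696327) (nat_lit 263) (nat_lit 5) (nat_lit 279) (nat_lit 5) (nat_lit 280) (nat_lit 5) (nat_lit 422) (nat_lit 410) (nat_lit 188)) (XT.lf (nat_lit 76) (nat_lit 5827342927) (nat_lit 0) (nat_lit 21007550605) (nat_lit 1292) (nat_lit 12489231531) (nat_lit 264) (nat_lit 5) (nat_lit 263) (nat_lit 5) (nat_lit 280) (nat_lit 5) (nat_lit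 423) (nat_lit 410) (nat_lit 187)))) (XT.nd (nat_lit 156) (nat_lit 1064) (nat_lit 0) (XT.nd (nat_lit 78) (nat_lit 0) (nat_lit 76) (XT.lf (nat_lit 76) (nat_lit 26625272664) (nat_lit 0) (nat_lit 3147720732) (nat_lit 1292) (nat_lit 10179160700) (nat_lit 264) (nat_lit 5) (nat_lit 263) (nat_lit 5) (nat_lit 280) (nat_lit 5) (nat_lit 424) (nat_lit 410) (nat_lit 186)) (XT.lf (nat_lit 76) (nat_lit 7445433510) (nat_lit 0) (nat_lit 25570253612) (nat_lit 1292) (nat_lit 7576843893) (nat_lit 265) (nat_lit 5) (nat_lit 264) (nat_lit 5) (nat_lit 281) (nat_lit 5) (nat_lit 425) (nat_lit 410) (nat_lit 185))) (XT.nd (nat_lit 78) (nat_lit 1140) (nat_lit 0) (XT.lf (nat_lit 76) (nat_lit 29080935977) (nat_lit 0) (nat_lit 7438505643) (nat_lit 1292) (nat_lit 4727764748) (nat_lit 265) (nat_lit 5) (nat_lit 264) (nat_lit 5) (nat_lit 281) (nat_lit 5) (nat_lit 426) (nat_lit 410) (nat_lit 184)) (XT.lf (nat_lit 0) (nat_lit 9520343879) (nat_lit 1216)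 (nat_lit 30805894364) (nat_lit 1292) (nat_lit 1589346364) (nat_lit 249) (nat_lit 5) (nat_lit 265) (nat_lit 5) (nat_lit 266) (nat_lit 5) (nat_lit 427) (nat_lit 410) (nat_lit 183))))))))
noncomputable def xc233 : XT := (XT.nd (nat_lit 2262) (nat_lit 2584) (nat_lit 0) (XT.nd (nat_lit 1092) (nat_lit 3800) (nat_lit 0) (XT.nd (nat_lit 546) (nat_lit 2128) (nat_lit 0) (XT.nd (nat_lit 234) (nat_lit 1216) (nat_lit 0) (XT.nd (nat_lit 78) (nat_lit 684) (nat_lit 0) (XT.lf (nat_lit 0) (nat_lit 1807292524) (nat_lit 1292) (nat_lit 10585449436) (nat_lit 76) (nat_lit 30204914849) (nat_lit 248) (nat_lit 5) (nat_lit 265) (nat_lit 5) (nat_lit 249) (nat_lit 5) (nat_lit 428) (nat_lit 410) (nat_lit 182)) (XT.nd (nat_lit 78) (nat_lit 0) (nat_lit 0) (XT.lf (nat_lit 0) (nat_lit 5453125380) (nat_lit 760) (nat_lit 31263172885) (nat_lit 76) (nat_lit 6578044123) (nat_lit 239) (nat_lit 5) (nat_lit 249) (nat_lit 5) (nat_lit 240) (nat_lit 5) (nat_lit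 429) (nat_lit 410) (nat_lit 181)) (XT.lf (nat_lit 0) (nat_lit 9437476505) (nat_lit 760) (nat_lit 8590608185) (nat_lit 76) (nat_lit 25976969999) (nat_lit 239) (nat_lit 5) (nat_lit 249) (nat_lit 5) (nat_lit 240) (nat_lit 5) (nat_lit 430) (nat_lit 410) (nat_lit 180)))) (XT.nd (nat_lit 156) (nat_lit 608) (nat_lit 0) (XT.nd (nat_lit 78) (nat_lit 0) (nat_lit 0) (XT.lf (nat_lit 0) (nat_lit 13697776335) (nat_lit 684) (nat_lit 29691423278) (nat_lit 76) (nat_lit 1343196642) (nat_lit 231) (nat_lit 5) (nat_lit 240) (nat_lit 5) (nat_lit 232) (nat_lit 5) (nat_lit 431) (nat_lit 410) (nat_lit 179)) (XT.lf (nat_lit 0) (nat_lit 18350554836) (nat_lit 684) (nat_lit 6102105703) (nat_lit 76) (nat_lit 21020957865) (nat_lit 231) (nat_lit 5) (nat_lit 240) (nat_lit 5) (nat_lit 232) (nat_lit 5) (nat_lit 432) (nat_lit 410) (nat_lit 178))) (XT.nd (nat_lit 78) (nat_lit 0) (nat_lit 0) (XT.lf (nat_lit 0) (nat_lit 18555623176) (nat_lit 608) (nat_lit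 4764269864) (nat_lit 684) (nat_lit 22911875304) (nat_lit 223) (nat_lit 5) (nat_lit 231) (nat_lit 5) (nat_lit 232) (nat_lit 5) (nat_lit 433) (nat_lit 410) (nat_lit 177)) (XT.lf (nat_lit 0) (nat_lit 28648314461) (nat_lit 684) (nat_lit 3083774185) (nat_lit 76) (nat_lit 15274274445) (nat_lit 223) (nat_lit 5) (nat_lit 232) (nat_lit 5) (nat_lit 224) (nat_lit 5) (nat_lit 434) (nat_lit 410) (nat_lit 176))))) (XT.nd (nat_lit 234) (nat_lit 1064) (nat_lit 0) (XT.nd (nat_lit 78) (nat_lit 532) (nat_lit 0) (XT.lf (nat_lit 0) (nat_lit 22639634534) (nat_lit 532) (nat_lit 11760426910) (nat_lit 608) (nat_lit 13396230441) (nat_lit 216) (nat_lit 5) (nat_lit 223) (nat_lit 5) (nat_lit 224) (nat_lit 5) (nat_lit 435) (nat_lit 410) (nat_lit 175)) (XT.nd (nat_lit 78) (nat_lit 0) (nat_lit 0) (XT.lf (nat_lit 0) (nat_lit 512610197) (nat_lit 532) (nat_lit 39931518750) (nat_lit 608) (nat_lit 8162196932) (nat_lit 209) (nat_lit 5) (nat_lit 216)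 (nat_lit 5) (nat_lit 217) (nat_lit 5) (nat_lit 436) (nat_lit 410) (nat_lit 174)) (XT.lf (nat_lit 0) (nat_lit 27347529683) (nat_lit 532) (nat_lit 19690046189) (nat_lit 608) (nat_lit 2392043667) (nat_lit 209) (nat_lit 5) (nat_lit 216) (nat_lit 5) (nat_lit 217) (nat_lit 5) (nat_lit 437) (nat_lit 410) (nat_lit 173)))) (XT.nd (nat_lit 156) (nat_lit 532) (nat_lit 0) (XT.nd (nat_lit 78) (nat_lit 0) (nat_lit 0) (XT.lf (nat_lit 0) (nat_lit 3538424109) (nat_lit 532) (nat_lit 45519742819) (nat_lit 76) (nat_lit 1216726129) (nat_lit 202) (nat_lit 5) (nat_lit 209) (nat_lit 5) (nat_lit 203) (nat_lit 5) (nat_lit 438) (nat_lit 410) (nat_lit 172)) (XT.lf (nat_lit 0) (nat_lit 10017646074) (nat_lit 532) (nat_lit 18510873157) (nat_lit 76) (nat_lit 22603727843) (nat_lit 202) (nat_lit 5) (nat_lit 209) (nat_lit 5) (nat_lit 203) (nat_lit 5) (nat_lit 439) (nat_lit 410) (nat_lit 171))) (XT.nd (nat_lit 78) (nat_lit 0) (nat_lit 0) (XT.lf (nat_lit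 0) (nat_lit 9492164299) (nat_lit 532) (nat_lit 7289133939) (nat_lit 608) (nat_lit 35231322195) (nat_lit 195) (nat_lit 5) (nat_lit 202) (nat_lit 5) (nat_lit 203) (nat_lit 5) (nat_lit 440) (nat_lit 410) (nat_lit 170)) (XT.lf (nat_lit 0) (nat_lit 24075687305) (nat_lit 608) (nat_lit 14342469348) (nat_lit 76) (nat_lit 14491413837) (nat_lit 195) (nat_lit 5) (nat_lit 203) (nat_lit 5) (nat_lit 196) (nat_lit 5) (nat_lit 441) (nat_lit 410) (nat_lit 169)))))) (XT.nd (nat_lit 546) (nat_lit 1900) (nat_lit 0) (XT.nd (nat_lit 234) (nat_lit 988) (nat_lit 0) (XT.nd (nat_lit 78) (nat_lit 456) (nat_lit 0) (XT.lf (nat_lit 0) (nat_lit 14898096480) (nat_lit 456) (nat_lit 16905054667) (nat_lit 532) (nat_lit 22023850918) (nat_lit 189) (nat_lit 5) (nat_lit 195) (nat_lit 5) (nat_lit 196) (nat_lit 5) (nat_lit 442) (nat_lit 410) (nat_lit 168)) (XT.nd (nat_lit 78) (nat_lit 456) (nat_lit 0) (XT.lf (nat_lit 0) (nat_lit 39958085761) (nat_lit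 532) (nat_lit 9510984757) (nat_lit 76) (nat_lit 5297016963) (nat_lit 189) (nat_lit 5) (nat_lit 196) (nat_lit 5) (nat_lit 190) (nat_lit 5) (nat_lit 443) (nat_lit 410) (nat_lit 167)) (XT.lf (nat_lit 0) (nat_lit 21031204392) (nat_lit 456) (nat_lit 27694920929) (nat_lit 532) (nat_lit 6996166722) (nat_lit 183) (nat_lit 5) (nat_lit 189) (nat_lit 5) (nat_lit 190) (nat_lit 5) (nat_lit 444) (nat_lit 410) (nat_lit 166)))) (XT.nd (nat_lit 156) (nat_lit 456) (nat_lit 0) (XT.nd (nat_lit 78) (nat_lit 456) (nat_lit 0) (XT.lf (nat_lit 0) (nat_lit 1125450643) (nat_lit 532) (nat_lit 4032016922) (nat_lit 76) (nat_lit 51546535136) (nat_lit 182) (nat_lit 5) (nat_lit 189) (nat_lit 5) (nat_lit 183) (nat_lit 5) (nat_lit 445) (nat_lit 410) (nat_lit 165)) (XT.lf (nat_lit 0) (nat_lit 9795348401) (nat_lit 532) (nat_lit 29858823417) (nat_lit 76) (nat_lit 18045557621) (nat_lit 176) (nat_lit 5) (nat_lit 183) (nat_lit 5) (nat_lit 177) (nat_lit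 5) (nat_lit 446) (nat_lit 410) (nat_lit 164))) (XT.nd (nat_lit 78) (nat_lit 0) (nat_lit 0) (XT.lf (nat_lit 0) (nat_lit 2015143080) (nat_lit 456) (nat_lit 16820724954) (nat_lit 532) (nat_lit 39886144455) (nat_lit 170) (nat_lit 5) (nat_lit 176) (nat_lit 5) (nat_lit 177) (nat_lit 5) (nat_lit 447) (nat_lit 410) (nat_lit 163)) (XT.lf (nat_lit 0) (nat_lit 28515473691) (nat_lit 532) (nat_lit 24377171967) (nat_lit 76) (nat_lit 6871282511) (nat_lit 170) (nat_lit 5) (nat_lit 177) (nat_lit 5) (nat_lit 171) (nat_lit 5) (nat_lit 448) (nat_lit 410) (nat_lit 162))))) (XT.nd (nat_lit 312) (nat_lit 1064) (nat_lit 0) (XT.nd (nat_lit 156) (nat_lit 456) (nat_lit 0) (XT.nd (nat_lit 78) (nat_lit 0) (nat_lit 0) (XT.lf (nat_lit 0) (nat_lit 8928855647) (nat_lit 380) (nat_lit 29807999759) (nat_lit 456) (nat_lit 22092704521) (nat_lit 165) (nat_lit 5) (nat_lit 170) (nat_lit 5) (nat_lit 171) (nat_lit 5) (nat_lit 449) (nat_lit 410) (nat_lit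 161)) (XT.lf (nat_lit 0) (nat_lit 43732531447) (nat_lit 380) (nat_lit 5777541920) (nat_lit 456) (nat_lit 12409731662) (nat_lit 165) (nat_lit 5) (nat_lit 170) (nat_lit 5) (nat_lit 171) (nat_lit 5) (nat_lit 450) (nat_lit 410) (nat_lit 160))) (XT.nd (nat_lit 78) (nat_lit 76) (nat_lit 0) (XT.lf (nat_lit 0) (nat_lit 16679417016) (nat_lit 380) (nat_lit 44268850429) (nat_lit 456) (nat_lit 2084236883) (nat_lit 160) (nat_lit 5) (nat_lit 165) (nat_lit 5) (nat_lit 166) (nat_lit 5) (nat_lit 451) (nat_lit 410) (nat_lit 159)) (XT.lf (nat_lit 0) (nat_lit 8625904128) (nat_lit 456) (nat_lit 11350601966) (nat_lit 76) (nat_lit 44192360519) (nat_lit 159) (nat_lit 5) (nat_lit 165) (nat_lit 5) (nat_lit 160) (nat_lit 5) (nat_lit 452) (nat_lit 410) (nat_lit 158)))) (XT.nd (nat_lit 156) (nat_lit 684) (nat_lit 0) (XT.nd (nat_lit 78) (nat_lit 0) (nat_lit 0) (XT.lf (nat_lit 0) (nat_lit 19907601574) (nat_lit 456) (nat_lit 40211254752) (nat_lit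 76) (nat_lit 5211080271) (nat_lit 154) (nat_lit 5) (nat_lit 160) (nat_lit 5) (nat_lit 155) (nat_lit 5) (nat_lit 453) (nat_lit 410) (nat_lit 157)) (XT.lf (nat_lit 0) (nat_lit 31840395259) (nat_lit 456) (nat_lit 3807815305) (nat_lit 76) (nat_lit 30868248961) (nat_lit 154) (nat_lit 5) (nat_lit 160) (nat_lit 5) (nat_lit 155) (nat_lit 5) (nat_lit 454) (nat_lit 410) (nat_lit 156))) (XT.nd (nat_lit 78) (nat_lit 304) (nat_lit 0) (XT.lf (nat_lit 0) (nat_lit 34356977505) (nat_lit 380) (nat_lit 10103586081) (nat_lit 456) (nat_lit 23268133029) (nat_lit 149) (nat_lit 5) (nat_lit 154) (nat_lit 5) (nat_lit 155) (nat_lit 5) (nat_lit 455) (nat_lit 410) (nat_lit 155)) (XT.lf (nat_lit 0) (nat_lit 4703030941) (nat_lit 304) (nat_lit 52995283496) (nat_lit 380) (nat_lit 11271817249) (nat_lit 145) (nat_lit 5) (nat_lit 149) (nat_lit 5) (nat_lit 150) (nat_lit 5) (nat_lit 456) (nat_lit 410) (nat_lit 154))))))) (XT.nd (nat_lit 1092) (nat_lit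 228) (nat_lit 0) (XT.nd (nat_lit 546) (nat_lit 912) (nat_lit 0) (XT.nd (nat_lit 234) (nat_lit 988) (nat_lit 0) (XT.nd (nat_lit 78) (nat_lit 380) (nat_lit 0) (XT.lf (nat_lit 0) (nat_lit 1502735442) (nat_lit 380) (nat_lit 25749579961) (nat_lit 76) (nat_lit 42982996641) (nat_lit 144) (nat_lit 5) (nat_lit 149) (nat_lit 5) (nat_lit 145) (nat_lit 5) (nat_lit 457) (nat_lit 410) (nat_lit 153)) (XT.nd (nat_lit 78) (nat_lit 0) (nat_lit 0) (XT.lf (nat_lit 0) (nat_lit 14085564186) (nat_lit 380) (nat_lit 482978867) (nat_lit 456) (nat_lit 56962519749) (nat_lit 139) (nat_lit 5) (nat_lit 144) (nat_lit 5) (nat_lit 145) (nat_lit 5) (nat_lit 458) (nat_lit 410) (nat_lit 152)) (XT.lf (nat_lit 0) (nat_lit 28548501389) (nat_lit 456) (nat_lit 17478426629) (nat_lit 76) (nat_lit 26823092940) (nat_lit 139) (nat_lit 5) (nat_lit 145) (nat_lit 5) (nat_lit 140) (nat_lit 5) (nat_lit 459) (nat_lit 410) (nat_lit 151)))) (XT.nd (nat_lit 156) (nat_lit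 684) (nat_lit 0) (XT.nd (nat_lit 78) (nat_lit 0) (nat_lit 0) (XT.lf (nat_lit 0) (nat_lit 24153052431) (nat_lit 304) (nat_lit 19030967291) (nat_lit 380) (nat_lit 31017443467) (nat_lit 135) (nat_lit 5) (nat_lit 139) (nat_lit 5) (nat_lit 140) (nat_lit 5) (nat_lit 460) (nat_lit 410) (nat_lit 150)) (XT.lf (nat_lit 0) (nat_lit 58520412786) (nat_lit 380) (nat_lit 8283629583) (nat_lit 76) (nat_lit 8781552204) (nat_lit 135) (nat_lit 5) (nat_lit 140) (nat_lit 5) (nat_lit 136) (nat_lit 5) (nat_lit 461) (nat_lit 410) (nat_lit 149))) (XT.nd (nat_lit 78) (nat_lit 380) (nat_lit 0) (XT.lf (nat_lit 0) (nat_lit 35232062037) (nat_lit 304) (nat_lit 39611170435) (nat_lit 380) (nat_lit 2152227537) (nat_lit 131) (nat_lit 5) (nat_lit 135) (nat_lit 5) (nat_lit 136) (nat_lit 5) (nat_lit 462) (nat_lit 410) (nat_lit 148)) (XT.lf (nat_lit 0) (nat_lit 1681828227) (nat_lit 304) (nat_lit 11368433913) (nat_lit 380) (nat_lit 65390553940) (nat_lit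 126) (nat_lit 5) (nat_lit 130) (nat_lit 5) (nat_lit 131) (nat_lit 5) (nat_lit 463) (nat_lit 410) (nat_lit 147))))) (XT.nd (nat_lit 234) (nat_lit 608) (nat_lit 0) (XT.nd (nat_lit 78) (nat_lit 304) (nat_lit 0) (XT.lf (nat_lit 0) (nat_lit 29261072894) (nat_lit 380) (nat_lit 32827320997) (nat_lit 76) (nat_lit 17822634690) (nat_lit 126) (nat_lit 5) (nat_lit 131) (nat_lit 5) (nat_lit 127) (nat_lit 5) (nat_lit 464) (nat_lit 410) (nat_lit 146)) (XT.nd (nat_lit 78) (nat_lit 0) (nat_lit 0) (XT.lf (nat_lit 0) (nat_lit 12553611525) (nat_lit 304) (nat_lit 33637099406) (nat_lit 380) (nat_lit 35227661575) (nat_lit 122) (nat_lit 5) (nat_lit 126) (nat_lit 5) (nat_lit 127) (nat_lit 5) (nat_lit 465) (nat_lit 410) (nat_lit 145)) (XT.lf (nat_lit 0) (nat_lit 59967818859) (nat_lit 304) (nat_lit 3991192877) (nat_lit 380) (nat_lit 19002001939) (nat_lit 122) (nat_lit 5) (nat_lit 126) (nat_lit 5) (nat_lit 127) (nat_lit 5) (nat_lit 466) (nat_lit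 410) (nat_lit 144)))) (XT.nd (nat_lit 156) (nat_lit 304) (nat_lit 0) (XT.nd (nat_lit 78) (nat_lit 76) (nat_lit 0) (XT.lf (nat_lit 0) (nat_lit 24475906152) (nat_lit 228) (nat_lit 58274190410) (nat_lit 304) (nat_lit 1785145598) (nat_lit 119) (nat_lit 5) (nat_lit 122) (nat_lit 5) (nat_lit 123) (nat_lit 5) (nat_lit 467) (nat_lit 410) (nat_lit 143)) (XT.lf (nat_lit 0) (nat_lit 15910313961) (nat_lit 304) (nat_lit 12505504223) (nat_lit 76) (nat_lit 57728081180) (nat_lit 118) (nat_lit 5) (nat_lit 122) (nat_lit 5) (nat_lit 119) (nat_lit 5) (nat_lit 468) (nat_lit 410) (nat_lit 142))) (XT.nd (nat_lit 78) (nat_lit 0) (nat_lit 0) (XT.lf (nat_lit 0) (nat_lit 34483682298) (nat_lit 380) (nat_lit 50633992873) (nat_lit 76) (nat_lit 2671123251) (nat_lit 114) (nat_lit 5) (nat_lit 119) (nat_lit 5) (nat_lit 115) (nat_lit 5) (nat_lit 469) (nat_lit 410) (nat_lit 141)) (XT.lf (nat_lit 0) (nat_lit 54022457298) (nat_lit 380) (nat_lit 1201621897)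 (nat_lit 76) (nat_lit 34246719204) (nat_lit 114) (nat_lit 5) (nat_lit 119) (nat_lit 5) (nat_lit 115) (nat_lit 5) (nat_lit 470) (nat_lit 410) (nat_lit 140)))))) (XT.nd (nat_lit 48906) (nat_lit 0) (nat_lit 11324) (XT.nd (nat_lit 48594) (nat_lit 0) (nat_lit 11172) (XT.nd (nat_lit 48438) (nat_lit 0) (nat_lit 11096) (XT.lf (nat_lit 0) (nat_lit 50702084944) (nat_lit 228) (nat_lit 23932039088) (nat_lit 304) (nat_lit 16554532603) (nat_lit 111) (nat_lit 5) (nat_lit 114) (nat_lit 5) (nat_lit 115) (nat_lit 5) (nat_lit 471) (nat_lit 410) (nat_lit 139)) (XT.nd (nat_lit 78) (nat_lit 0) (nat_lit 0) (XT.lf (nat_lit 0) (nat_lit 4600657906) (nat_lit 1292) (nat_lit 6002687886) (nat_lit 1292) (nat_lit 6002687886) (nat_lit 257) (nat_lit 3) (nat_lit 274) (nat_lit 3) (nat_lit 274) (nat_lit 5) (nat_lit 411) (nat_lit 411) (nat_lit 198)) (XT.lf (nat_lit 76) (nat_lit 4216835283) (nat_lit 0) (nat_lit 5221754866) (nat_lit 1292) (nat_lit 24268661376)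 (nat_lit 258) (nat_lit 5) (nat_lit 257) (nat_lit 3) (nat_lit 274) (nat_lit 5) (nat_lit 412) (nat_lit 411) (nat_lit 197)))) (XT.nd (nat_lit 156) (nat_lit 0) (nat_lit 76) (XT.nd (nat_lit 78) (nat_lit 0) (nat_lit 0) (XT.lf (nat_lit 0) (nat_lit 9911193096) (nat_lit 1216) (nat_lit 13152399987) (nat_lit 1292) (nat_lit 11146852572) (nat_lit 258) (nat_lit 5) (nat_lit 274) (nat_lit 5) (nat_lit 275) (nat_lit 5) (nat_lit 413) (nat_lit 411) (nat_lit 196)) (XT.lf (nat_lit 76) (nat_lit 3694910136) (nat_lit 0) (nat_lit 6788056374) (nat_lit 1292) (nat_lit 24243220057) (nat_lit 259) (nat_lit 5) (nat_lit 258) (nat_lit 5) (nat_lit 275) (nat_lit 5) (nat_lit 414) (nat_lit 411) (nat_lit 195))) (XT.nd (nat_lit 78) (nat_lit 0) (nat_lit 0) (XT.lf (nat_lit 0) (nat_lit 11299750618) (nat_lit 1216) (nat_lit 14034682163) (nat_lit 1292) (nat_lit 9916131907) (nat_lit 259) (nat_lit 5) (nat_lit 275) (nat_lit 5) (nat_lit 276) (nat_lit 5) (nat_lit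 415) (nat_lit 411) (nat_lit 194)) (XT.lf (nat_lit 76) (nat_lit 3471062774) (nat_lit 0) (nat_lit 8768449038) (nat_lit 1292) (nat_lit 23548208819) (nat_lit 260) (nat_lit 5) (nat_lit 259) (nat_lit 5) (nat_lit 276) (nat_lit 5) (nat_lit 416) (nat_lit 411) (nat_lit 193))))) (XT.nd (nat_lit 312) (nat_lit 0) (nat_lit 152) (XT.nd (nat_lit 156) (nat_lit 0) (nat_lit 76) (XT.nd (nat_lit 78) (nat_lit 0) (nat_lit 0) (XT.lf (nat_lit 0) (nat_lit 13428279565) (nat_lit 1216) (nat_lit 14629526417) (nat_lit 1292) (nat_lit 8276561525) (nat_lit 260) (nat_lit 5) (nat_lit 276) (nat_lit 5) (nat_lit 277) (nat_lit 5) (nat_lit 417) (nat_lit 411) (nat_lit 192)) (XT.lf (nat_lit 76) (nat_lit 3569771456) (nat_lit 0) (nat_lit 11202085400) (nat_lit 1292) (nat_lit 22121983184) (nat_lit 261) (nat_lit 5) (nat_lit 260) (nat_lit 5) (nat_lit 277) (nat_lit 5) (nat_lit 418) (nat_lit 411) (nat_lit 191))) (XT.nd (nat_lit 78) (nat_lit 0) (nat_lit 0) (XT.lf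 (nat_lit 0) (nat_lit 16362207925) (nat_lit 1216) (nat_lit 14912738135) (nat_lit 1292) (nat_lit 6188957323) (nat_lit 261) (nat_lit 5) (nat_lit 277) (nat_lit 5) (nat_lit 278) (nat_lit 5) (nat_lit 419) (nat_lit 411) (nat_lit 190)) (XT.lf (nat_lit 76) (nat_lit 4017104996) (nat_lit 0) (nat_lit 14130814666) (nat_lit 1292) (nat_lit 19898720070) (nat_lit 262) (nat_lit 5) (nat_lit 261) (nat_lit 5) (nat_lit 278) (nat_lit 5) (nat_lit 420) (nat_lit 411) (nat_lit 189)))) (XT.nd (nat_lit 156) (nat_lit 0) (nat_lit 76) (XT.nd (nat_lit 78) (nat_lit 0) (nat_lit 0) (XT.lf (nat_lit 0) (nat_lit 20171363986) (nat_lit 1216) (nat_lit 14858553123) (nat_lit 1292) (nat_lit 3611416817) (nat_lit 262) (nat_lit 5) (nat_lit 278) (nat_lit 5) (nat_lit 279) (nat_lit 5) (nat_lit 421) (nat_lit 411) (nat_lit 188)) (XT.lf (nat_lit 76) (nat_lit 4840797914) (nat_lit 0) (nat_lit 17599379760) (nat_lit 1292) (nat_lit 16808151863) (nat_lit 263) (nat_lit 5)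 (nat_lit 262) (nat_lit 5) (nat_lit 279) (nat_lit 5) (nat_lit 422) (nat_lit 411) (nat_lit 187))) (XT.nd (nat_lit 78) (nat_lit 0) (nat_lit 0) (XT.lf (nat_lit 0) (nat_lit 24930254865) (nat_lit 1216) (nat_lit 14439563995) (nat_lit 1292) (nat_lit 499120744) (nat_lit 263) (nat_lit 5) (nat_lit 279) (nat_lit 5) (nat_lit 280) (nat_lit 5) (nat_lit 423) (nat_lit 411) (nat_lit 186)) (XT.lf (nat_lit 76) (nat_lit 6070328498) (nat_lit 0) (nat_lit 21655627021) (nat_lit 1292) (nat_lit 12775285360) (nat_lit 264) (nat_lit 5) (nat_lit 263) (nat_lit 5) (nat_lit 280) (nat_lit 5) (nat_lit 424) (nat_lit 411) (nat_lit 185))))))))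
noncomputable def xc234 : XT := (XT.nd (nat_lit 2262) (nat_lit 3420) (nat_lit 0) (XT.nd (nat_lit 1092) (nat_lit 3800) (nat_lit 0) (XT.nd (nat_lit 546) (nat_lit 2280) (nat_lit 0) (XT.nd (nat_lit 234) (nat_lit 1824) (nat_lit 0) (XT.nd (nat_lit 78) (nat_lit 0) (nat_lit 76) (XT.lf (nat_lit 76) (nat_lit 27490210730) (nat_lit 0) (nat_lit 3259482352) (nat_lit 1292) (nat_lit 10398493660) (nat_lit 264) (nat_lit 5) (nat_lit 263) (nat_lit 5) (nat_lit 280) (nat_lit 5) (nat_lit 425) (nat_lit 411) (nat_lit 184)) (XT.nd (nat_lit 78) (nat_lit 0) (nat_lit 0) (XT.lf (nat_lit 76) (nat_lit 7736999686) (nat_lit 0) (nat_lit 26350729483) (nat_lit 1292) (nat_lit 7720104730) (nat_lit 265) (nat_lit 5) (nat_lit 264) (nat_lit 5) (nat_lit 281) (nat_lit 5) (nat_lit 426) (nat_lit 411) (nat_lit 183)) (XT.lf (nat_lit 76) (nat_lit 30019580726) (nat_lit 0) (nat_lit 7674639708) (nat_lit 1292) (nat_lit 4788001108) (nat_lit 265) (nat_lit 5) (nat_lit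 264) (nat_lit 5) (nat_lit 281) (nat_lit 5) (nat_lit 427) (nat_lit 411) (nat_lit 182)))) (XT.nd (nat_lit 156) (nat_lit 684) (nat_lit 0) (XT.nd (nat_lit 78) (nat_lit 76) (nat_lit 0) (XT.lf (nat_lit 0) (nat_lit 9874022697) (nat_lit 1216) (nat_lit 31739424781) (nat_lit 1292) (nat_lit 1557257588) (nat_lit 249) (nat_lit 5) (nat_lit 265) (nat_lit 5) (nat_lit 266) (nat_lit 5) (nat_lit 428) (nat_lit 411) (nat_lit 181)) (XT.lf (nat_lit 0) (nat_lit 1937445847) (nat_lit 1292) (nat_lit 10835392734) (nat_lit 76) (nat_lit 31100446881) (nat_lit 248) (nat_lit 5) (nat_lit 265) (nat_lit 5) (nat_lit 249) (nat_lit 5) (nat_lit 429) (nat_lit 411) (nat_lit 180))) (XT.nd (nat_lit 78) (nat_lit 0) (nat_lit 0) (XT.lf (nat_lit 0) (nat_lit 5691014414) (nat_lit 760) (nat_lit 32131786268) (nat_lit 76) (nat_lit 6768120774) (nat_lit 239) (nat_lit 5) (nat_lit 249) (nat_lit 5) (nat_lit 240) (nat_lit 5) (nat_lit 430) (nat_lit 411) (nat_lit 179)) (XT.lf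 (nat_lit 0) (nat_lit 9792732133) (nat_lit 760) (nat_lit 8781062544) (nat_lit 76) (nat_lit 26749226019) (nat_lit 239) (nat_lit 5) (nat_lit 249) (nat_lit 5) (nat_lit 240) (nat_lit 5) (nat_lit 431) (nat_lit 411) (nat_lit 178))))) (XT.nd (nat_lit 234) (nat_lit 1064) (nat_lit 0) (XT.nd (nat_lit 78) (nat_lit 608) (nat_lit 0) (XT.lf (nat_lit 0) (nat_lit 14179341201) (nat_lit 684) (nat_lit 30513381271) (nat_lit 76) (nat_lit 1379505662) (nat_lit 231) (nat_lit 5) (nat_lit 240) (nat_lit 5) (nat_lit 232) (nat_lit 5) (nat_lit 432) (nat_lit 411) (nat_lit 177)) (XT.nd (nat_lit 78) (nat_lit 608) (nat_lit 0) (XT.lf (nat_lit 0) (nat_lit 18969645827) (nat_lit 684) (nat_lit 6218387607) (nat_lit 76) (nat_lit 21647715845) (nat_lit 231) (nat_lit 5) (nat_lit 240) (nat_lit 5) (nat_lit 232) (nat_lit 5) (nat_lit 433) (nat_lit 411) (nat_lit 176)) (XT.lf (nat_lit 0) (nat_lit 19178418420) (nat_lit 608) (nat_lit 4908284094) (nat_lit 684) (nat_lit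 23529982647) (nat_lit 223) (nat_lit 5) (nat_lit 231) (nat_lit 5) (nat_lit 232) (nat_lit 5) (nat_lit 434) (nat_lit 411) (nat_lit 175)))) (XT.nd (nat_lit 156) (nat_lit 532) (nat_lit 0) (XT.nd (nat_lit 78) (nat_lit 532) (nat_lit 0) (XT.lf (nat_lit 0) (nat_lit 29573008791) (nat_lit 684) (nat_lit 3110099816) (nat_lit 76) (nat_lit 15731468756) (nat_lit 223) (nat_lit 5) (nat_lit 232) (nat_lit 5) (nat_lit 224) (nat_lit 5) (nat_lit 435) (nat_lit 411) (nat_lit 174)) (XT.lf (nat_lit 0) (nat_lit 23384362267) (nat_lit 532) (nat_lit 12111675577) (nat_lit 608) (nat_lit 13732204847) (nat_lit 216) (nat_lit 5) (nat_lit 223) (nat_lit 5) (nat_lit 224) (nat_lit 5) (nat_lit 436) (nat_lit 411) (nat_lit 173))) (XT.nd (nat_lit 78) (nat_lit 0) (nat_lit 0) (XT.lf (nat_lit 0) (nat_lit 594788726) (nat_lit 532) (nat_lit 41125432032) (nat_lit 608) (nat_lit 8342393691) (nat_lit 209) (nat_lit 5) (nat_lit 216) (nat_lit 5) (nat_lit 217) (nat_lit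 5) (nat_lit 437) (nat_lit 411) (nat_lit 172)) (XT.lf (nat_lit 0) (nat_lit 28232810159) (nat_lit 532) (nat_lit 20276832740) (nat_lit 608) (nat_lit 2401019395) (nat_lit 209) (nat_lit 5) (nat_lit 216) (nat_lit 5) (nat_lit 217) (nat_lit 5) (nat_lit 438) (nat_lit 411) (nat_lit 171)))))) (XT.nd (nat_lit 546) (nat_lit 1824) (nat_lit 0) (XT.nd (nat_lit 234) (nat_lit 912) (nat_lit 0) (XT.nd (nat_lit 78) (nat_lit 532) (nat_lit 0) (XT.lf (nat_lit 0) (nat_lit 3705021920) (nat_lit 532) (nat_lit 46818106273) (nat_lit 76) (nat_lit 1258181676) (nat_lit 202) (nat_lit 5) (nat_lit 209) (nat_lit 5) (nat_lit 203) (nat_lit 5) (nat_lit 439) (nat_lit 411) (nat_lit 170)) (XT.nd (nat_lit 78) (nat_lit 532) (nat_lit 0) (XT.lf (nat_lit 0) (nat_lit 10376860007) (nat_lit 532) (nat_lit 19000928643) (nat_lit 76) (nat_lit 23286649157) (nat_lit 202) (nat_lit 5) (nat_lit 209) (nat_lit 5) (nat_lit 203) (nat_lit 5) (nat_lit 440) (nat_lit 411) (nat_lit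 169)) (XT.lf (nat_lit 0) (nat_lit 9841560028) (nat_lit 532) (nat_lit 7500773721) (nat_lit 608) (nat_lit 36228921729) (nat_lit 195) (nat_lit 5) (nat_lit 202) (nat_lit 5) (nat_lit 203) (nat_lit 5) (nat_lit 441) (nat_lit 411) (nat_lit 168)))) (XT.nd (nat_lit 156) (nat_lit 456) (nat_lit 0) (XT.nd (nat_lit 78) (nat_lit 456) (nat_lit 0) (XT.lf (nat_lit 0) (nat_lit 24853942566) (nat_lit 608) (nat_lit 14708367942) (nat_lit 76) (nat_lit 14932852342) (nat_lit 195) (nat_lit 5) (nat_lit 203) (nat_lit 5) (nat_lit 196) (nat_lit 5) (nat_lit 442) (nat_lit 411) (nat_lit 167)) (XT.lf (nat_lit 0) (nat_lit 15408783728) (nat_lit 456) (nat_lit 17403428723) (nat_lit 532) (nat_lit 22627935899) (nat_lit 189) (nat_lit 5) (nat_lit 195) (nat_lit 5) (nat_lit 196) (nat_lit 5) (nat_lit 443) (nat_lit 411) (nat_lit 166))) (XT.nd (nat_lit 78) (nat_lit 456) (nat_lit 0) (XT.lf (nat_lit 0) (nat_lit 41210276048) (nat_lit 532) (nat_lit 9732893179) (nat_lit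 76) (nat_lit 5464283105) (nat_lit 189) (nat_lit 5) (nat_lit 196) (nat_lit 5) (nat_lit 190) (nat_lit 5) (nat_lit 444) (nat_lit 411) (nat_lit 165)) (XT.lf (nat_lit 0) (nat_lit 21724939869) (nat_lit 456) (nat_lit 28515463862) (nat_lit 532) (nat_lit 7151968309) (nat_lit 183) (nat_lit 5) (nat_lit 189) (nat_lit 5) (nat_lit 190) (nat_lit 5) (nat_lit 445) (nat_lit 411) (nat_lit 164))))) (XT.nd (nat_lit 312) (nat_lit 836) (nat_lit 0) (XT.nd (nat_lit 156) (nat_lit 456) (nat_lit 0) (XT.nd (nat_lit 78) (nat_lit 456) (nat_lit 0) (XT.lf (nat_lit 0) (nat_lit 1210697708) (nat_lit 532) (nat_lit 4090969444) (nat_lit 76) (nat_lit 53101897999) (nat_lit 182) (nat_lit 5) (nat_lit 189) (nat_lit 5) (nat_lit 183) (nat_lit 5) (nat_lit 446) (nat_lit 411) (nat_lit 163)) (XT.lf (nat_lit 0) (nat_lit 10139887158) (nat_lit 532) (nat_lit 30691762149) (nat_lit 76) (nat_lit 18597538923) (nat_lit 176) (nat_lit 5) (nat_lit 183) (nat_lit 5) (nat_lit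 177) (nat_lit 5) (nat_lit 447) (nat_lit 411) (nat_lit 162))) (XT.nd (nat_lit 78) (nat_lit 0) (nat_lit 0) (XT.lf (nat_lit 0) (nat_lit 2137807401) (nat_lit 456) (nat_lit 17312936912) (nat_lit 532) (nat_lit 41031422172) (nat_lit 170) (nat_lit 5) (nat_lit 176) (nat_lit 5) (nat_lit 177) (nat_lit 5) (nat_lit 448) (nat_lit 411) (nat_lit 161)) (XT.lf (nat_lit 0) (nat_lit 29419403463) (nat_lit 532) (nat_lit 25046742352) (nat_lit 76) (nat_lit 7089234221) (nat_lit 170) (nat_lit 5) (nat_lit 177) (nat_lit 5) (nat_lit 171) (nat_lit 5) (nat_lit 449) (nat_lit 411) (nat_lit 160)))) (XT.nd (nat_lit 156) (nat_lit 456) (nat_lit 0) (XT.nd (nat_lit 78) (nat_lit 0) (nat_lit 0) (XT.lf (nat_lit 0) (nat_lit 9257860749) (nat_lit 380) (nat_lit 30688741972) (nat_lit 456) (nat_lit 22706403092) (nat_lit 165) (nat_lit 5) (nat_lit 170) (nat_lit 5) (nat_lit 171) (nat_lit 5) (nat_lit 450) (nat_lit 411) (nat_lit 159)) (XT.lf (nat_lit 0) (nat_lit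 45103866064) (nat_lit 380) (nat_lit 5937763537) (nat_lit 456) (nat_lit 12734370637) (nat_lit 165) (nat_lit 5) (nat_lit 170) (nat_lit 5) (nat_lit 171) (nat_lit 5) (nat_lit 451) (nat_lit 411) (nat_lit 158))) (XT.nd (nat_lit 78) (nat_lit 76) (nat_lit 0) (XT.lf (nat_lit 0) (nat_lit 17239836744) (nat_lit 380) (nat_lit 45582484967) (nat_lit 456) (nat_lit 2099778567) (nat_lit 160) (nat_lit 5) (nat_lit 165) (nat_lit 5) (nat_lit 166) (nat_lit 5) (nat_lit 452) (nat_lit 411) (nat_lit 157)) (XT.lf (nat_lit 0) (nat_lit 8929408016) (nat_lit 456) (nat_lit 11631930952) (nat_lit 76) (nat_lit 45531241479) (nat_lit 159) (nat_lit 5) (nat_lit 165) (nat_lit 5) (nat_lit 160) (nat_lit 5) (nat_lit 453) (nat_lit 411) (nat_lit 156))))))) (XT.nd (nat_lit 1092) (nat_lit 608) (nat_lit 0) (XT.nd (nat_lit 546) (nat_lit 1292) (nat_lit 0) (XT.nd (nat_lit 234) (nat_lit 760) (nat_lit 0) (XT.nd (nat_lit 78) (nat_lit 380) (nat_lit 0) (XT.lf (nat_lit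 0) (nat_lit 20548957597) (nat_lit 456) (nat_lit 41357794474) (nat_lit 76) (nat_lit 5381748725) (nat_lit 154) (nat_lit 5) (nat_lit 160) (nat_lit 5) (nat_lit 155) (nat_lit 5) (nat_lit 454) (nat_lit 411) (nat_lit 155)) (XT.nd (nat_lit 78) (nat_lit 380) (nat_lit 0) (XT.lf (nat_lit 0) (nat_lit 32838449812) (nat_lit 456) (nat_lit 3863993531) (nat_lit 76) (nat_lit 31808214921) (nat_lit 154) (nat_lit 5) (nat_lit 160) (nat_lit 5) (nat_lit 155) (nat_lit 5) (nat_lit 455) (nat_lit 411) (nat_lit 154)) (XT.lf (nat_lit 0) (nat_lit 35445173884) (nat_lit 380) (nat_lit 10391354059) (nat_lit 456) (nat_lit 23922755664) (nat_lit 149) (nat_lit 5) (nat_lit 154) (nat_lit 5) (nat_lit 155) (nat_lit 5) (nat_lit 456) (nat_lit 411) (nat_lit 153)))) (XT.nd (nat_lit 156) (nat_lit 380) (nat_lit 0) (XT.nd (nat_lit 78) (nat_lit 76) (nat_lit 0) (XT.lf (nat_lit 0) (nat_lit 4902160732) (nat_lit 304) (nat_lit 54568724056) (nat_lit 380) (nat_lit 11567093014)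 (nat_lit 145) (nat_lit 5) (nat_lit 149) (nat_lit 5) (nat_lit 150) (nat_lit 5) (nat_lit 457) (nat_lit 411) (nat_lit 152)) (XT.lf (nat_lit 0) (nat_lit 1588635012) (nat_lit 380) (nat_lit 26464897923) (nat_lit 76) (nat_lit 44287605267) (nat_lit 144) (nat_lit 5) (nat_lit 149) (nat_lit 5) (nat_lit 145) (nat_lit 5) (nat_lit 458) (nat_lit 411) (nat_lit 151))) (XT.nd (nat_lit 78) (nat_lit 0) (nat_lit 0) (XT.lf (nat_lit 0) (nat_lit 14564740063) (nat_lit 380) (nat_lit 481032089) (nat_lit 456) (nat_lit 58630008925) (nat_lit 139) (nat_lit 5) (nat_lit 144) (nat_lit 5) (nat_lit 145) (nat_lit 5) (nat_lit 459) (nat_lit 411) (nat_lit 150)) (XT.lf (nat_lit 0) (nat_lit 29444112550) (nat_lit 456) (nat_lit 17946794412) (nat_lit 76) (nat_lit 27643431763) (nat_lit 139) (nat_lit 5) (nat_lit 145) (nat_lit 5) (nat_lit 140) (nat_lit 5) (nat_lit 460) (nat_lit 411) (nat_lit 149))))) (XT.nd (nat_lit 234) (nat_lit 684) (nat_lit 0) (XT.nd (nat_lit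 78) (nat_lit 304) (nat_lit 0) (XT.lf (nat_lit 0) (nat_lit 24933080147) (nat_lit 304) (nat_lit 19585008702) (nat_lit 380) (nat_lit 31908253839) (nat_lit 135) (nat_lit 5) (nat_lit 139) (nat_lit 5) (nat_lit 140) (nat_lit 5) (nat_lit 461) (nat_lit 411) (nat_lit 148)) (XT.nd (nat_lit 78) (nat_lit 304) (nat_lit 0) (XT.lf (nat_lit 0) (nat_lit 60313608538) (nat_lit 380) (nat_lit 8477344096) (nat_lit 76) (nat_lit 9061074566) (nat_lit 135) (nat_lit 5) (nat_lit 140) (nat_lit 5) (nat_lit 136) (nat_lit 5) (nat_lit 462) (nat_lit 411) (nat_lit 147)) (XT.lf (nat_lit 0) (nat_lit 36343281073) (nat_lit 304) (nat_lit 40782258633) (nat_lit 380) (nat_lit 2178666310) (nat_lit 131) (nat_lit 5) (nat_lit 135) (nat_lit 5) (nat_lit 136) (nat_lit 5) (nat_lit 463) (nat_lit 411) (nat_lit 146)))) (XT.nd (nat_lit 156) (nat_lit 304) (nat_lit 0) (XT.nd (nat_lit 78) (nat_lit 0) (nat_lit 0) (XT.lf (nat_lit 0) (nat_lit 1786752233) (nat_lit 304) (nat_lit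 11691836544) (nat_lit 380) (nat_lit 67314340167) (nat_lit 126) (nat_lit 5) (nat_lit 130) (nat_lit 5) (nat_lit 131) (nat_lit 5) (nat_lit 464) (nat_lit 411) (nat_lit 145)) (XT.lf (nat_lit 0) (nat_lit 30174816187) (nat_lit 380) (nat_lit 33758343431) (nat_lit 76) (nat_lit 18374115637) (nat_lit 126) (nat_lit 5) (nat_lit 131) (nat_lit 5) (nat_lit 127) (nat_lit 5) (nat_lit 465) (nat_lit 411) (nat_lit 144))) (XT.nd (nat_lit 78) (nat_lit 0) (nat_lit 0) (XT.lf (nat_lit 0) (nat_lit 12983489643) (nat_lit 304) (nat_lit 34628319829) (nat_lit 380) (nat_lit 36248046242) (nat_lit 122) (nat_lit 5) (nat_lit 126) (nat_lit 5) (nat_lit 127) (nat_lit 5) (nat_lit 466) (nat_lit 411) (nat_lit 143)) (XT.lf (nat_lit 0) (nat_lit 61818571650) (nat_lit 304) (nat_lit 4093557248) (nat_lit 380) (nat_lit 19536678327) (nat_lit 122) (nat_lit 5) (nat_lit 126) (nat_lit 5) (nat_lit 127) (nat_lit 5) (nat_lit 467) (nat_lit 411) (nat_lit 142)))))) (XT.nd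 (nat_lit 48984) (nat_lit 0) (nat_lit 10944) (XT.nd (nat_lit 234) (nat_lit 0) (nat_lit 0) (XT.nd (nat_lit 78) (nat_lit 380) (nat_lit 0) (XT.lf (nat_lit 0) (nat_lit 25262255868) (nat_lit 228) (nat_lit 60004352681) (nat_lit 304) (nat_lit 1803664334) (nat_lit 119) (nat_lit 5) (nat_lit 122) (nat_lit 5) (nat_lit 123) (nat_lit 5) (nat_lit 468) (nat_lit 411) (nat_lit 141)) (XT.nd (nat_lit 78) (nat_lit 304) (nat_lit 0) (XT.lf (nat_lit 0) (nat_lit 16420974798) (nat_lit 304) (nat_lit 12829443826) (nat_lit 76) (nat_lit 59476791269) (nat_lit 118) (nat_lit 5) (nat_lit 122) (nat_lit 5) (nat_lit 119) (nat_lit 5) (nat_lit 469) (nat_lit 411) (nat_lit 140)) (XT.lf (nat_lit 0) (nat_lit 35551232008) (nat_lit 380) (nat_lit 52101469222) (nat_lit 76) (nat_lit 2768764231) (nat_lit 114) (nat_lit 5) (nat_lit 119) (nat_lit 5) (nat_lit 115) (nat_lit 5) (nat_lit 470) (nat_lit 411) (nat_lit 139)))) (XT.nd (nat_lit 48594) (nat_lit 0) (nat_lit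 10868) (XT.nd (nat_lit 48516) (nat_lit 0) (nat_lit 10868) (XT.lf (nat_lit 0) (nat_lit 55675207950) (nat_lit 380) (nat_lit 1187628383) (nat_lit 76) (nat_lit 35291118142) (nat_lit 114) (nat_lit 5) (nat_lit 119) (nat_lit 5) (nat_lit 115) (nat_lit 5) (nat_lit 471) (nat_lit 411) (nat_lit 138)) (XT.lf (nat_lit 0) (nat_lit 4796832992) (nat_lit 1292) (nat_lit 6152809008) (nat_lit 1292) (nat_lit 6152809008) (nat_lit 257) (nat_lit 3) (nat_lit 274) (nat_lit 3) (nat_lit 274) (nat_lit 5) (nat_lit 412) (nat_lit 412) (nat_lit 196))) (XT.nd (nat_lit 78) (nat_lit 0) (nat_lit 76) (XT.lf (nat_lit 76) (nat_lit 4402671929) (nat_lit 0) (nat_lit 5432569263) (nat_lit 1292) (nat_lit 24879786146) (nat_lit 258) (nat_lit 5) (nat_lit 257) (nat_lit 3) (nat_lit 274) (nat_lit 5) (nat_lit 413) (nat_lit 412) (nat_lit 195)) (XT.lf (nat_lit 0) (nat_lit 10318211125) (nat_lit 1216) (nat_lit 13485521545) (nat_lit 1292) (nat_lit 11429700032) (nat_lit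 258) (nat_lit 5) (nat_lit 274) (nat_lit 5) (nat_lit 275) (nat_lit 5) (nat_lit 414) (nat_lit 412) (nat_lit 194))))) (XT.nd (nat_lit 312) (nat_lit 0) (nat_lit 152) (XT.nd (nat_lit 156) (nat_lit 0) (nat_lit 76) (XT.nd (nat_lit 78) (nat_lit 0) (nat_lit 76) (XT.lf (nat_lit 76) (nat_lit 3866605427) (nat_lit 0) (nat_lit 7037922594) (nat_lit 1292) (nat_lit 24860197156) (nat_lit 259) (nat_lit 5) (nat_lit 258) (nat_lit 5) (nat_lit 275) (nat_lit 5) (nat_lit 415) (nat_lit 412) (nat_lit 193)) (XT.lf (nat_lit 0) (nat_lit 11742265639) (nat_lit 1216) (nat_lit 14393063101) (nat_lit 1292) (nat_lit 10169613416) (nat_lit 259) (nat_lit 5) (nat_lit 275) (nat_lit 5) (nat_lit 276) (nat_lit 5) (nat_lit 416) (nat_lit 412) (nat_lit 192))) (XT.nd (nat_lit 78) (nat_lit 0) (nat_lit 76) (XT.lf (nat_lit 76) (nat_lit 3637239875) (nat_lit 0) (nat_lit 9070560992) (nat_lit 1292) (nat_lit 24150485459) (nat_lit 260) (nat_lit 5) (nat_lit 259) (nat_lit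 5) (nat_lit 276) (nat_lit 5) (nat_lit 417) (nat_lit 412) (nat_lit 191)) (XT.lf (nat_lit 0) (nat_lit 13928922366) (nat_lit 1216) (nat_lit 15004832990) (nat_lit 1292) (nat_lit 8487677486) (nat_lit 260) (nat_lit 5) (nat_lit 276) (nat_lit 5) (nat_lit 277) (nat_lit 5) (nat_lit 418) (nat_lit 412) (nat_lit 190)))) (XT.nd (nat_lit 156) (nat_lit 0) (nat_lit 76) (XT.nd (nat_lit 78) (nat_lit 0) (nat_lit 76) (XT.lf (nat_lit 76) (nat_lit 3739820493) (nat_lit 0) (nat_lit 11570743272) (nat_lit 1292) (nat_lit 22687194010) (nat_lit 261) (nat_lit 5) (nat_lit 260) (nat_lit 5) (nat_lit 277) (nat_lit 5) (nat_lit 419) (nat_lit 412) (nat_lit 189)) (XT.lf (nat_lit 0) (nat_lit 16945538121) (nat_lit 1216) (nat_lit 15295880778) (nat_lit 1292) (nat_lit 6343597636) (nat_lit 261) (nat_lit 5) (nat_lit 277) (nat_lit 5) (nat_lit 278) (nat_lit 5) (nat_lit 420) (nat_lit 412) (nat_lit 188))) (XT.nd (nat_lit 78) (nat_lit 0) (nat_lit 76) (XT.lf (nat_lit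 76) (nat_lit 4201227847) (nat_lit 0) (nat_lit 14581511693) (nat_lit 1292) (nat_lit 20402558760) (nat_lit 262) (nat_lit 5) (nat_lit 261) (nat_lit 5) (nat_lit 278) (nat_lit 5) (nat_lit 421) (nat_lit 412) (nat_lit 187)) (XT.lf (nat_lit 0) (nat_lit 20864004842) (nat_lit 1216) (nat_lit 15239642067) (nat_lit 1292) (nat_lit 3694273731) (nat_lit 262) (nat_lit 5) (nat_lit 278) (nat_lit 5) (nat_lit 279) (nat_lit 5) (nat_lit 422) (nat_lit 412) (nat_lit 186))))))))
noncomputable def xc235 : XT := (XT.nd (nat_lit 2262) (nat_lit 3572) (nat_lit 0) (XT.nd (nat_lit 1092) (nat_lit 4408) (nat_lit 0) (XT.nd (nat_lit 546) (nat_lit 1976) (nat_lit 0) (XT.nd (nat_lit 234) (nat_lit 988) (nat_lit 0) (XT.nd (nat_lit 78) (nat_lit 0) (nat_lit 76) (XT.lf (nat_lit 76) (nat_lit 5050055504) (nat_lit 0) (nat_lit 18148894425) (nat_lit 1292) (nat_lit 17224235006) (nat_lit 263) (nat_lit 5) (nat_lit 262) (nat_lit 5) (nat_lit 279) (nat_lit 5) (nat_lit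 423) (nat_lit 412) (nat_lit 185)) (XT.nd (nat_lit 78) (nat_lit 0) (nat_lit 0) (XT.lf (nat_lit 0) (nat_lit 25761036233) (nat_lit 1216) (nat_lit 14807862437) (nat_lit 1292) (nat_lit 493596230) (nat_lit 263) (nat_lit 5) (nat_lit 279) (nat_lit 5) (nat_lit 280) (nat_lit 5) (nat_lit 424) (nat_lit 412) (nat_lit 184)) (XT.lf (nat_lit 76) (nat_lit 6316690669) (nat_lit 0) (nat_lit 22322121073) (nat_lit 1292) (nat_lit 13075008134) (nat_lit 264) (nat_lit 5) (nat_lit 263) (nat_lit 5) (nat_lit 280) (nat_lit 5) (nat_lit 425) (nat_lit 412) (nat_lit 183)))) (XT.nd (nat_lit 156) (nat_lit 1064) (nat_lit 0) (XT.nd (nat_lit 78) (nat_lit 0) (nat_lit 76) (XT.lf (nat_lit 76) (nat_lit 28377297941) (nat_lit 0) (nat_lit 3373602008) (nat_lit 1292) (nat_lit 10629345764) (nat_lit 264) (nat_lit 5) (nat_lit 263) (nat_lit 5) (nat_lit 280) (nat_lit 5) (nat_lit 426) (nat_lit 412) (nat_lit 182)) (XT.lf (nat_lit 76) (nat_lit 8033397705) (nat_lit 0)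 (nat_lit 27153852238) (nat_lit 1292) (nat_lit 7872487889) (nat_lit 265) (nat_lit 5) (nat_lit 264) (nat_lit 5) (nat_lit 281) (nat_lit 5) (nat_lit 427) (nat_lit 412) (nat_lit 181))) (XT.nd (nat_lit 78) (nat_lit 1140) (nat_lit 0) (XT.lf (nat_lit 76) (nat_lit 30982583711) (nat_lit 0) (nat_lit 7917112754) (nat_lit 1292) (nat_lit 4854728537) (nat_lit 265) (nat_lit 5) (nat_lit 264) (nat_lit 5) (nat_lit 281) (nat_lit 5) (nat_lit 428) (nat_lit 412) (nat_lit 180)) (XT.lf (nat_lit 0) (nat_lit 10234404469) (nat_lit 1216) (nat_lit 32700424178) (nat_lit 1292) (nat_lit 1528785225) (nat_lit 249) (nat_lit 5) (nat_lit 265) (nat_lit 5) (nat_lit 266) (nat_lit 5) (nat_lit 429) (nat_lit 412) (nat_lit 179))))) (XT.nd (nat_lit 234) (nat_lit 1216) (nat_lit 0) (XT.nd (nat_lit 78) (nat_lit 684) (nat_lit 0) (XT.lf (nat_lit 0) (nat_lit 2067144816) (nat_lit 1292) (nat_lit 11096716007) (nat_lit 76) (nat_lit 32023454242) (nat_lit 248) (nat_lit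 5) (nat_lit 265) (nat_lit 5) (nat_lit 249) (nat_lit 5) (nat_lit 430) (nat_lit 412) (nat_lit 178)) (XT.nd (nat_lit 78) (nat_lit 0) (nat_lit 0) (XT.lf (nat_lit 0) (nat_lit 5931775267) (nat_lit 760) (nat_lit 33030435112) (nat_lit 76) (nat_lit 6964316747) (nat_lit 239) (nat_lit 5) (nat_lit 249) (nat_lit 5) (nat_lit 240) (nat_lit 5) (nat_lit 431) (nat_lit 412) (nat_lit 177)) (XT.lf (nat_lit 0) (nat_lit 10154504797) (nat_lit 760) (nat_lit 8981091756) (nat_lit 76) (nat_lit 27545054596) (nat_lit 239) (nat_lit 5) (nat_lit 249) (nat_lit 5) (nat_lit 240) (nat_lit 5) (nat_lit 432) (nat_lit 412) (nat_lit 176)))) (XT.nd (nat_lit 156) (nat_lit 608) (nat_lit 0) (XT.nd (nat_lit 78) (nat_lit 0) (nat_lit 0) (XT.lf (nat_lit 0) (nat_lit 14671298471) (nat_lit 684) (nat_lit 31363946528) (nat_lit 76) (nat_lit 1417132815) (nat_lit 231) (nat_lit 5) (nat_lit 240) (nat_lit 5) (nat_lit 232) (nat_lit 5) (nat_lit 433) (nat_lit 412) (nat_lit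 175)) (XT.lf (nat_lit 0) (nat_lit 19603373099) (nat_lit 684) (nat_lit 6341991486) (nat_lit 76) (nat_lit 22293498760) (nat_lit 231) (nat_lit 5) (nat_lit 240) (nat_lit 5) (nat_lit 232) (nat_lit 5) (nat_lit 434) (nat_lit 412) (nat_lit 174))) (XT.nd (nat_lit 78) (nat_lit 0) (nat_lit 0) (XT.lf (nat_lit 0) (nat_lit 19816101587) (nat_lit 608) (nat_lit 5056556403) (nat_lit 684) (nat_lit 24170608381) (nat_lit 223) (nat_lit 5) (nat_lit 231) (nat_lit 5) (nat_lit 232) (nat_lit 5) (nat_lit 435) (nat_lit 412) (nat_lit 173)) (XT.lf (nat_lit 0) (nat_lit 30521698626) (nat_lit 684) (nat_lit 3141014655) (nat_lit 76) (nat_lit 16202438247) (nat_lit 223) (nat_lit 5) (nat_lit 232) (nat_lit 5) (nat_lit 224) (nat_lit 5) (nat_lit 436) (nat_lit 412) (nat_lit 172)))))) (XT.nd (nat_lit 546) (nat_lit 2280) (nat_lit 0) (XT.nd (nat_lit 234) (nat_lit 1064) (nat_lit 0) (XT.nd (nat_lit 78) (nat_lit 532) (nat_lit 0) (XT.lf (nat_lit 0) (nat_lit 24147669643)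 (nat_lit 532) (nat_lit 12473551493) (nat_lit 608) (nat_lit 14082042133) (nat_lit 216) (nat_lit 5) (nat_lit 223) (nat_lit 5) (nat_lit 224) (nat_lit 5) (nat_lit 437) (nat_lit 412) (nat_lit 171)) (XT.nd (nat_lit 78) (nat_lit 0) (nat_lit 0) (XT.lf (nat_lit 0) (nat_lit 675598004) (nat_lit 532) (nat_lit 42355394183) (nat_lit 608) (nat_lit 8531708626) (nat_lit 209) (nat_lit 5) (nat_lit 216) (nat_lit 5) (nat_lit 217) (nat_lit 5) (nat_lit 438) (nat_lit 412) (nat_lit 170)) (XT.lf (nat_lit 0) (nat_lit 29140926130) (nat_lit 532) (nat_lit 20881447615) (nat_lit 608) (nat_lit 2413868545) (nat_lit 209) (nat_lit 5) (nat_lit 216) (nat_lit 5) (nat_lit 217) (nat_lit 5) (nat_lit 439) (nat_lit 412) (nat_lit 169)))) (XT.nd (nat_lit 156) (nat_lit 532) (nat_lit 0) (XT.nd (nat_lit 78) (nat_lit 0) (nat_lit 0) (XT.lf (nat_lit 0) (nat_lit 3873147870) (nat_lit 532) (nat_lit 48159279842) (nat_lit 76) (nat_lit 1300596523) (nat_lit 202) (nat_lit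 5) (nat_lit 209) (nat_lit 5) (nat_lit 203) (nat_lit 5) (nat_lit 440) (nat_lit 412) (nat_lit 168)) (XT.lf (nat_lit 0) (nat_lit 10743481626) (nat_lit 532) (nat_lit 19509432599) (nat_lit 76) (nat_lit 23989782027) (nat_lit 202) (nat_lit 5) (nat_lit 209) (nat_lit 5) (nat_lit 203) (nat_lit 5) (nat_lit 441) (nat_lit 412) (nat_lit 167))) (XT.nd (nat_lit 78) (nat_lit 0) (nat_lit 0) (XT.lf (nat_lit 0) (nat_lit 10197727556) (nat_lit 532) (nat_lit 7719166490) (nat_lit 608) (nat_lit 37259855615) (nat_lit 195) (nat_lit 5) (nat_lit 202) (nat_lit 5) (nat_lit 203) (nat_lit 5) (nat_lit 442) (nat_lit 412) (nat_lit 166)) (XT.lf (nat_lit 0) (nat_lit 25652331737) (nat_lit 608) (nat_lit 15088938910) (nat_lit 76) (nat_lit 15387149620) (nat_lit 195) (nat_lit 5) (nat_lit 203) (nat_lit 5) (nat_lit 196) (nat_lit 5) (nat_lit 443) (nat_lit 412) (nat_lit 165))))) (XT.nd (nat_lit 312) (nat_lit 1292) (nat_lit 0) (XT.nd (nat_lit 156) (nat_lit 532)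 (nat_lit 0) (XT.nd (nat_lit 78) (nat_lit 0) (nat_lit 0) (XT.lf (nat_lit 0) (nat_lit 15931132408) (nat_lit 456) (nat_lit 17917257871) (nat_lit 532) (nat_lit 23253394256) (nat_lit 189) (nat_lit 5) (nat_lit 195) (nat_lit 5) (nat_lit 196) (nat_lit 5) (nat_lit 444) (nat_lit 412) (nat_lit 164)) (XT.lf (nat_lit 0) (nat_lit 42496963927) (nat_lit 532) (nat_lit 9965099485) (nat_lit 76) (nat_lit 5636087583) (nat_lit 189) (nat_lit 5) (nat_lit 196) (nat_lit 5) (nat_lit 190) (nat_lit 5) (nat_lit 445) (nat_lit 412) (nat_lit 163))) (XT.nd (nat_lit 78) (nat_lit 76) (nat_lit 0) (XT.lf (nat_lit 0) (nat_lit 22435882470) (nat_lit 456) (nat_lit 29361214616) (nat_lit 532) (nat_lit 7315548553) (nat_lit 183) (nat_lit 5) (nat_lit 189) (nat_lit 5) (nat_lit 190) (nat_lit 5) (nat_lit 446) (nat_lit 412) (nat_lit 162)) (XT.lf (nat_lit 0) (nat_lit 1295546819) (nat_lit 532) (nat_lit 4155250053) (nat_lit 76) (nat_lit 54703407016) (nat_lit 182)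 (nat_lit 5) (nat_lit 189) (nat_lit 5) (nat_lit 183) (nat_lit 5) (nat_lit 447) (nat_lit 412) (nat_lit 161)))) (XT.nd (nat_lit 156) (nat_lit 380) (nat_lit 0) (XT.nd (nat_lit 78) (nat_lit 456) (nat_lit 0) (XT.lf (nat_lit 0) (nat_lit 10491852935) (nat_lit 532) (nat_lit 31553295511) (nat_lit 76) (nat_lit 19165470345) (nat_lit 176) (nat_lit 5) (nat_lit 183) (nat_lit 5) (nat_lit 177) (nat_lit 5) (nat_lit 448) (nat_lit 412) (nat_lit 160)) (XT.lf (nat_lit 0) (nat_lit 2260580542) (nat_lit 456) (nat_lit 17820627601) (nat_lit 532) (nat_lit 42214003430) (nat_lit 170) (nat_lit 5) (nat_lit 176) (nat_lit 5) (nat_lit 177) (nat_lit 5) (nat_lit 449) (nat_lit 412) (nat_lit 159))) (XT.nd (nat_lit 78) (nat_lit 380) (nat_lit 0) (XT.lf (nat_lit 0) (nat_lit 30347669008) (nat_lit 532) (nat_lit 25739944251) (nat_lit 76) (nat_lit 7313046353) (nat_lit 170) (nat_lit 5) (nat_lit 177) (nat_lit 5) (nat_lit 171) (nat_lit 5) (nat_lit 450) (nat_lit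 412) (nat_lit 158)) (XT.lf (nat_lit 0) (nat_lit 9593226352) (nat_lit 380) (nat_lit 31596681279) (nat_lit 456) (nat_lit 23341330161) (nat_lit 165) (nat_lit 5) (nat_lit 170) (nat_lit 5) (nat_lit 171) (nat_lit 5) (nat_lit 451) (nat_lit 412) (nat_lit 157))))))) (XT.nd (nat_lit 1092) (nat_lit 608) (nat_lit 0) (XT.nd (nat_lit 546) (nat_lit 1444) (nat_lit 0) (XT.nd (nat_lit 234) (nat_lit 1064) (nat_lit 0) (XT.nd (nat_lit 78) (nat_lit 456) (nat_lit 0) (XT.lf (nat_lit 0) (nat_lit 46512933288) (nat_lit 380) (nat_lit 6103544062) (nat_lit 456) (nat_lit 13071484257) (nat_lit 165) (nat_lit 5) (nat_lit 170) (nat_lit 5) (nat_lit 171) (nat_lit 5) (nat_lit 452) (nat_lit 412) (nat_lit 156)) (XT.nd (nat_lit 78) (nat_lit 76) (nat_lit 0) (XT.lf (nat_lit 0) (nat_lit 17813622683) (nat_lit 380) (nat_lit 46936356938) (nat_lit 456) (nat_lit 2118483658) (nat_lit 160) (nat_lit 5) (nat_lit 165) (nat_lit 5) (nat_lit 166) (nat_lit 5) (nat_lit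 453) (nat_lit 412) (nat_lit 155)) (XT.lf (nat_lit 0) (nat_lit 9239449522) (nat_lit 456) (nat_lit 11925097503) (nat_lit 76) (nat_lit 46909536291) (nat_lit 159) (nat_lit 5) (nat_lit 165) (nat_lit 5) (nat_lit 160) (nat_lit 5) (nat_lit 454) (nat_lit 412) (nat_lit 154)))) (XT.nd (nat_lit 156) (nat_lit 684) (nat_lit 0) (XT.nd (nat_lit 78) (nat_lit 0) (nat_lit 0) (XT.lf (nat_lit 0) (nat_lit 21207021175) (nat_lit 456) (nat_lit 42542163034) (nat_lit 76) (nat_lit 5556714284) (nat_lit 154) (nat_lit 5) (nat_lit 160) (nat_lit 5) (nat_lit 155) (nat_lit 5) (nat_lit 455) (nat_lit 412) (nat_lit 153)) (XT.lf (nat_lit 0) (nat_lit 33863986655) (nat_lit 456) (nat_lit 3925189770) (nat_lit 76) (nat_lit 32775580881) (nat_lit 154) (nat_lit 5) (nat_lit 160) (nat_lit 5) (nat_lit 155) (nat_lit 5) (nat_lit 456) (nat_lit 412) (nat_lit 152))) (XT.nd (nat_lit 78) (nat_lit 304) (nat_lit 0) (XT.lf (nat_lit 0) (nat_lit 36562716163) (nat_lit 380)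 (nat_lit 10688635633) (nat_lit 456) (nat_lit 24599509542) (nat_lit 149) (nat_lit 5) (nat_lit 154) (nat_lit 5) (nat_lit 155) (nat_lit 5) (nat_lit 457) (nat_lit 412) (nat_lit 151)) (XT.lf (nat_lit 0) (nat_lit 5103932750) (nat_lit 304) (nat_lit 56190310290) (nat_lit 380) (nat_lit 11873688469) (nat_lit 145) (nat_lit 5) (nat_lit 149) (nat_lit 5) (nat_lit 150) (nat_lit 5) (nat_lit 458) (nat_lit 412) (nat_lit 150))))) (XT.nd (nat_lit 234) (nat_lit 988) (nat_lit 0) (XT.nd (nat_lit 78) (nat_lit 380) (nat_lit 0) (XT.lf (nat_lit 0) (nat_lit 1674768479) (nat_lit 380) (nat_lit 27204957183) (nat_lit 76) (nat_lit 45630484275) (nat_lit 144) (nat_lit 5) (nat_lit 149) (nat_lit 5) (nat_lit 145) (nat_lit 5) (nat_lit 459) (nat_lit 412) (nat_lit 149)) (XT.nd (nat_lit 78) (nat_lit 0) (nat_lit 0) (XT.lf (nat_lit 0) (nat_lit 15055041632) (nat_lit 380) (nat_lit 479970410) (nat_lit 456) (nat_lit 60349898526) (nat_lit 139) (nat_lit 5) (nat_lit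 144) (nat_lit 5) (nat_lit 145) (nat_lit 5) (nat_lit 460) (nat_lit 412) (nat_lit 148)) (XT.lf (nat_lit 0) (nat_lit 30364344324) (nat_lit 456) (nat_lit 18432426998) (nat_lit 76) (nat_lit 28487482604) (nat_lit 139) (nat_lit 5) (nat_lit 145) (nat_lit 5) (nat_lit 140) (nat_lit 5) (nat_lit 461) (nat_lit 412) (nat_lit 147)))) (XT.nd (nat_lit 156) (nat_lit 684) (nat_lit 0) (XT.nd (nat_lit 78) (nat_lit 0) (nat_lit 0) (XT.lf (nat_lit 0) (nat_lit 25733326433) (nat_lit 304) (nat_lit 20156640773) (nat_lit 380) (nat_lit 32828068206) (nat_lit 135) (nat_lit 5) (nat_lit 139) (nat_lit 5) (nat_lit 140) (nat_lit 5) (nat_lit 462) (nat_lit 412) (nat_lit 146)) (XT.lf (nat_lit 0) (nat_lit 62158442723) (nat_lit 380) (nat_lit 8680015465) (nat_lit 76) (nat_lit 9348059782) (nat_lit 135) (nat_lit 5) (nat_lit 140) (nat_lit 5) (nat_lit 136) (nat_lit 5) (nat_lit 463) (nat_lit 412) (nat_lit 145))) (XT.nd (nat_lit 78) (nat_lit 380) (nat_lit 0)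 (XT.lf (nat_lit 0) (nat_lit 37484722096) (nat_lit 304) (nat_lit 41989469521) (nat_lit 380) (nat_lit 2208086953) (nat_lit 131) (nat_lit 5) (nat_lit 135) (nat_lit 5) (nat_lit 136) (nat_lit 5) (nat_lit 464) (nat_lit 412) (nat_lit 144)) (XT.lf (nat_lit 0) (nat_lit 1891697207) (nat_lit 304) (nat_lit 12025954459) (nat_lit 380) (nat_lit 69298017340) (nat_lit 126) (nat_lit 5) (nat_lit 130) (nat_lit 5) (nat_lit 131) (nat_lit 5) (nat_lit 465) (nat_lit 412) (nat_lit 143)))))) (XT.nd (nat_lit 49140) (nat_lit 0) (nat_lit 10640) (XT.nd (nat_lit 234) (nat_lit 304) (nat_lit 0) (XT.nd (nat_lit 78) (nat_lit 304) (nat_lit 0) (XT.lf (nat_lit 0) (nat_lit 31113910334) (nat_lit 380) (nat_lit 34720384718) (nat_lit 76) (nat_lit 18941176514) (nat_lit 126) (nat_lit 5) (nat_lit 131) (nat_lit 5) (nat_lit 127) (nat_lit 5) (nat_lit 466) (nat_lit 412) (nat_lit 142)) (XT.nd (nat_lit 78) (nat_lit 0) (nat_lit 0) (XT.lf (nat_lit 0) (nat_lit 13423206201)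 (nat_lit 304) (nat_lit 35650303972) (nat_lit 380) (nat_lit 37301134552) (nat_lit 122) (nat_lit 5) (nat_lit 126) (nat_lit 5) (nat_lit 127) (nat_lit 5) (nat_lit 467) (nat_lit 412) (nat_lit 141)) (XT.lf (nat_lit 0) (nat_lit 63721878187) (nat_lit 304) (nat_lit 4199989739) (nat_lit 380) (nat_lit 20089426175) (nat_lit 122) (nat_lit 5) (nat_lit 126) (nat_lit 5) (nat_lit 127) (nat_lit 5) (nat_lit 468) (nat_lit 412) (nat_lit 140)))) (XT.nd (nat_lit 48750) (nat_lit 0) (nat_lit 10564) (XT.nd (nat_lit 78) (nat_lit 76) (nat_lit 0) (XT.lf (nat_lit 0) (nat_lit 26069206900) (nat_lit 228) (nat_lit 61787456736) (nat_lit 304) (nat_lit 1824749821) (nat_lit 119) (nat_lit 5) (nat_lit 122) (nat_lit 5) (nat_lit 123) (nat_lit 5) (nat_lit 469) (nat_lit 412) (nat_lit 139)) (XT.lf (nat_lit 0) (nat_lit 16945040952) (nat_lit 304) (nat_lit 13166042172) (nat_lit 76) (nat_lit 61276994389) (nat_lit 118) (nat_lit 5) (nat_lit 122) (nat_lit 5) (nat_lit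 119) (nat_lit 5) (nat_lit 470) (nat_lit 412) (nat_lit 138))) (XT.nd (nat_lit 78) (nat_lit 0) (nat_lit 0) (XT.lf (nat_lit 0) (nat_lit 4995554976) (nat_lit 1292) (nat_lit 6309153562) (nat_lit 1292) (nat_lit 6309153562) (nat_lit 257) (nat_lit 3) (nat_lit 274) (nat_lit 3) (nat_lit 274) (nat_lit 5) (nat_lit 413) (nat_lit 413) (nat_lit 194)) (XT.lf (nat_lit 76) (nat_lit 4590677799) (nat_lit 0) (nat_lit 5646598987) (nat_lit 1292) (nat_lit 25515957211) (nat_lit 258) (nat_lit 5) (nat_lit 257) (nat_lit 3) (nat_lit 274) (nat_lit 5) (nat_lit 414) (nat_lit 413) (nat_lit 193))))) (XT.nd (nat_lit 312) (nat_lit 0) (nat_lit 152) (XT.nd (nat_lit 156) (nat_lit 0) (nat_lit 76) (XT.nd (nat_lit 78) (nat_lit 0) (nat_lit 0) (XT.lf (nat_lit 0) (nat_lit 10731143486) (nat_lit 1216) (nat_lit 13832164256) (nat_lit 1292) (nat_lit 11723992563) (nat_lit 258) (nat_lit 5) (nat_lit 274) (nat_lit 5) (nat_lit 275) (nat_lit 5) (nat_lit 415) (nat_lit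 413) (nat_lit 192)) (XT.lf (nat_lit 76) (nat_lit 4039958653) (nat_lit 0) (nat_lit 7292631324) (nat_lit 1292) (nat_lit 25502016359) (nat_lit 259) (nat_lit 5) (nat_lit 258) (nat_lit 5) (nat_lit 275) (nat_lit 5) (nat_lit 416) (nat_lit 413) (nat_lit 191))) (XT.nd (nat_lit 78) (nat_lit 0) (nat_lit 0) (XT.lf (nat_lit 0) (nat_lit 12192113495) (nat_lit 1216) (nat_lit 14765792380) (nat_lit 1292) (nat_lit 10433225290) (nat_lit 259) (nat_lit 5) (nat_lit 275) (nat_lit 5) (nat_lit 276) (nat_lit 5) (nat_lit 417) (nat_lit 413) (nat_lit 190)) (XT.lf (nat_lit 76) (nat_lit 3804840639) (nat_lit 0) (nat_lit 9379494188) (nat_lit 1292) (nat_lit 24776810161) (nat_lit 260) (nat_lit 5) (nat_lit 259) (nat_lit 5) (nat_lit 276) (nat_lit 5) (nat_lit 418) (nat_lit 413) (nat_lit 189)))) (XT.nd (nat_lit 156) (nat_lit 0) (nat_lit 76) (XT.nd (nat_lit 78) (nat_lit 0) (nat_lit 0) (XT.lf (nat_lit 0) (nat_lit 14438970651) (nat_lit 1216) (nat_lit 15395048467)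 (nat_lit 1292) (nat_lit 8707261261) (nat_lit 260) (nat_lit 5) (nat_lit 276) (nat_lit 5) (nat_lit 277) (nat_lit 5) (nat_lit 419) (nat_lit 413) (nat_lit 188)) (XT.lf (nat_lit 76) (nat_lit 3911357076) (nat_lit 0) (nat_lit 11948589775) (nat_lit 1292) (nat_lit 23275012517) (nat_lit 261) (nat_lit 5) (nat_lit 260) (nat_lit 5) (nat_lit 277) (nat_lit 5) (nat_lit 420) (nat_lit 413) (nat_lit 187))) (XT.nd (nat_lit 78) (nat_lit 0) (nat_lit 0) (XT.lf (nat_lit 0) (nat_lit 17541060414) (nat_lit 1216) (nat_lit 15694205311) (nat_lit 1292) (nat_lit 6504658317) (nat_lit 261) (nat_lit 5) (nat_lit 277) (nat_lit 5) (nat_lit 278) (nat_lit 5) (nat_lit 421) (nat_lit 413) (nat_lit 186)) (XT.lf (nat_lit 76) (nat_lit 4387222927) (nat_lit 0) (nat_lit 15044192775) (nat_lit 1292) (nat_lit 20926858247) (nat_lit 262) (nat_lit 5) (nat_lit 261) (nat_lit 5) (nat_lit 278) (nat_lit 5) (nat_lit 422) (nat_lit 413) (nat_lit 185))))))))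
noncomputable def xc236 : XT := (XT.nd (nat_lit 2184) (nat_lit 3876) (nat_lit 0) (XT.nd (nat_lit 1092) (nat_lit 4028) (nat_lit 0) (XT.nd (nat_lit 546) (nat_lit 2964) (nat_lit 0) (XT.nd (nat_lit 234) (nat_lit 0) (nat_lit 76) (XT.nd (nat_lit 78) (nat_lit 0) (nat_lit 0) (XT.lf (nat_lit 0) (nat_lit 21572402069) (nat_lit 1216) (nat_lit 15635875867) (nat_lit 1292) (nat_lit 3781079330) (nat_lit 262) (nat_lit 5) (nat_lit 278) (nat_lit 5) (nat_lit 279) (nat_lit 5) (nat_lit 423) (nat_lit 413) (nat_lit 184)) (XT.nd (nat_lit 78) (nat_lit 0) (nat_lit 76) (XT.lf (nat_lit 76) (nat_lit 5261915029) (nat_lit 0) (nat_lit 18713658433) (nat_lit 1292) (nat_lit 17657861468) (nat_lit 263) (nat_lit 5) (nat_lit 262) (nat_lit 5) (nat_lit 279) (nat_lit 5) (nat_lit 424) (nat_lit 413) (nat_lit 183)) (XT.lf (nat_lit 0) (nat_lit 26611983752) (nat_lit 1216) (nat_lit 15190934696) (nat_lit 1292) (nat_lit 489082657) (nat_lit 263) (nat_lit 5) (nat_lit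 279) (nat_lit 5) (nat_lit 280) (nat_lit 5) (nat_lit 425) (nat_lit 413) (nat_lit 182)))) (XT.nd (nat_lit 156) (nat_lit 0) (nat_lit 76) (XT.nd (nat_lit 78) (nat_lit 0) (nat_lit 0) (XT.lf (nat_lit 76) (nat_lit 6566755360) (nat_lit 0) (nat_lit 23007644109) (nat_lit 1292) (nat_lit 13388517887) (nat_lit 264) (nat_lit 5) (nat_lit 263) (nat_lit 5) (nat_lit 280) (nat_lit 5) (nat_lit 426) (nat_lit 413) (nat_lit 181)) (XT.lf (nat_lit 76) (nat_lit 29287416851) (nat_lit 0) (nat_lit 3490207547) (nat_lit 1292) (nat_lit 10871779058) (nat_lit 264) (nat_lit 5) (nat_lit 263) (nat_lit 5) (nat_lit 280) (nat_lit 5) (nat_lit 427) (nat_lit 413) (nat_lit 180))) (XT.nd (nat_lit 78) (nat_lit 0) (nat_lit 0) (XT.lf (nat_lit 76) (nat_lit 8334997270) (nat_lit 0) (nat_lit 27980345334) (nat_lit 1292) (nat_lit 8033990094) (nat_lit 265) (nat_lit 5) (nat_lit 264) (nat_lit 5) (nat_lit 281) (nat_lit 5) (nat_lit 428) (nat_lit 413) (nat_lit 179)) (XT.lf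 (nat_lit 76) (nat_lit 31970893876) (nat_lit 0) (nat_lit 8166157718) (nat_lit 1292) (nat_lit 4927872886) (nat_lit 265) (nat_lit 5) (nat_lit 264) (nat_lit 5) (nat_lit 281) (nat_lit 5) (nat_lit 429) (nat_lit 413) (nat_lit 178))))) (XT.nd (nat_lit 234) (nat_lit 1216) (nat_lit 0) (XT.nd (nat_lit 78) (nat_lit 760) (nat_lit 0) (XT.lf (nat_lit 0) (nat_lit 10601914585) (nat_lit 1216) (nat_lit 33689747444) (nat_lit 1292) (nat_lit 1503774910) (nat_lit 249) (nat_lit 5) (nat_lit 265) (nat_lit 5) (nat_lit 266) (nat_lit 5) (nat_lit 430) (nat_lit 413) (nat_lit 177)) (XT.nd (nat_lit 78) (nat_lit 684) (nat_lit 0) (XT.lf (nat_lit 0) (nat_lit 2196626022) (nat_lit 1292) (nat_lit 11369537829) (nat_lit 76) (nat_lit 32974726212) (nat_lit 248) (nat_lit 5) (nat_lit 265) (nat_lit 5) (nat_lit 249) (nat_lit 5) (nat_lit 431) (nat_lit 413) (nat_lit 176)) (XT.lf (nat_lit 0) (nat_lit 6175738913) (nat_lit 760) (nat_lit 33959792181) (nat_lit 76)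 (nat_lit 7166791683) (nat_lit 239) (nat_lit 5) (nat_lit 249) (nat_lit 5) (nat_lit 240) (nat_lit 5) (nat_lit 432) (nat_lit 413) (nat_lit 175)))) (XT.nd (nat_lit 156) (nat_lit 608) (nat_lit 0) (XT.nd (nat_lit 78) (nat_lit 608) (nat_lit 0) (XT.lf (nat_lit 0) (nat_lit 10523227696) (nat_lit 760) (nat_lit 9190761417) (nat_lit 76) (nat_lit 28365139664) (nat_lit 239) (nat_lit 5) (nat_lit 249) (nat_lit 5) (nat_lit 240) (nat_lit 5) (nat_lit 433) (nat_lit 413) (nat_lit 174)) (XT.lf (nat_lit 0) (nat_lit 15174192666) (nat_lit 684) (nat_lit 32243750604) (nat_lit 76) (nat_lit 1456104509) (nat_lit 231) (nat_lit 5) (nat_lit 240) (nat_lit 5) (nat_lit 232) (nat_lit 5) (nat_lit 434) (nat_lit 413) (nat_lit 173))) (XT.nd (nat_lit 78) (nat_lit 608) (nat_lit 0) (XT.lf (nat_lit 0) (nat_lit 20252401710) (nat_lit 684) (nat_lit 6472916940) (nat_lit 76) (nat_lit 22958864606) (nat_lit 231) (nat_lit 5) (nat_lit 240) (nat_lit 5) (nat_lit 232)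 (nat_lit 5) (nat_lit 435) (nat_lit 413) (nat_lit 172)) (XT.lf (nat_lit 0) (nat_lit 20469337217) (nat_lit 608) (nat_lit 5209218111) (nat_lit 684) (nat_lit 24834199867) (nat_lit 223) (nat_lit 5) (nat_lit 231) (nat_lit 5) (nat_lit 232) (nat_lit 5) (nat_lit 436) (nat_lit 413) (nat_lit 171)))))) (XT.nd (nat_lit 546) (nat_lit 1900) (nat_lit 0) (XT.nd (nat_lit 234) (nat_lit 1064) (nat_lit 0) (XT.nd (nat_lit 78) (nat_lit 1064) (nat_lit 0) (XT.lf (nat_lit 0) (nat_lit 31495318830) (nat_lit 684) (nat_lit 3176438274) (nat_lit 76) (nat_lit 16687592768) (nat_lit 223) (nat_lit 5) (nat_lit 232) (nat_lit 5) (nat_lit 224) (nat_lit 5) (nat_lit 437) (nat_lit 413) (nat_lit 170)) (XT.nd (nat_lit 78) (nat_lit 532) (nat_lit 0) (XT.lf (nat_lit 0) (nat_lit 24930330015) (nat_lit 532) (nat_lit 12846368320) (nat_lit 608) (nat_lit 14445940989) (nat_lit 216) (nat_lit 5) (nat_lit 223) (nat_lit 5) (nat_lit 224) (nat_lit 5) (nat_lit 438) (nat_lit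 413) (nat_lit 169)) (XT.lf (nat_lit 0) (nat_lit 755217077) (nat_lit 532) (nat_lit 43622473380) (nat_lit 608) (nat_lit 8730202184) (nat_lit 209) (nat_lit 5) (nat_lit 216) (nat_lit 5) (nat_lit 217) (nat_lit 5) (nat_lit 439) (nat_lit 413) (nat_lit 168)))) (XT.nd (nat_lit 156) (nat_lit 532) (nat_lit 0) (XT.nd (nat_lit 78) (nat_lit 532) (nat_lit 0) (XT.lf (nat_lit 0) (nat_lit 30072776373) (nat_lit 532) (nat_lit 21504412763) (nat_lit 608) (nat_lit 2430500426) (nat_lit 209) (nat_lit 5) (nat_lit 216) (nat_lit 5) (nat_lit 217) (nat_lit 5) (nat_lit 440) (nat_lit 413) (nat_lit 167)) (XT.lf (nat_lit 0) (nat_lit 4043046984) (nat_lit 532) (nat_lit 49544326292) (nat_lit 76) (nat_lit 1344015774) (nat_lit 202) (nat_lit 5) (nat_lit 209) (nat_lit 5) (nat_lit 203) (nat_lit 5) (nat_lit 441) (nat_lit 413) (nat_lit 166))) (XT.nd (nat_lit 78) (nat_lit 532) (nat_lit 0) (XT.lf (nat_lit 0) (nat_lit 11117926538) (nat_lit 532) (nat_lit 20036723398)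 (nat_lit 76) (nat_lit 24713748647) (nat_lit 202) (nat_lit 5) (nat_lit 209) (nat_lit 5) (nat_lit 203) (nat_lit 5) (nat_lit 442) (nat_lit 413) (nat_lit 165)) (XT.lf (nat_lit 0) (nat_lit 10561083011) (nat_lit 532) (nat_lit 7944491656) (nat_lit 608) (nat_lit 38324928344) (nat_lit 195) (nat_lit 5) (nat_lit 202) (nat_lit 5) (nat_lit 203) (nat_lit 5) (nat_lit 443) (nat_lit 413) (nat_lit 164))))) (XT.nd (nat_lit 234) (nat_lit 1444) (nat_lit 0) (XT.nd (nat_lit 78) (nat_lit 456) (nat_lit 0) (XT.lf (nat_lit 0) (nat_lit 26471643318) (nat_lit 608) (nat_lit 15484410291) (nat_lit 76) (nat_lit 15854713498) (nat_lit 195) (nat_lit 5) (nat_lit 203) (nat_lit 5) (nat_lit 196) (nat_lit 5) (nat_lit 444) (nat_lit 413) (nat_lit 163)) (XT.nd (nat_lit 78) (nat_lit 0) (nat_lit 0) (XT.lf (nat_lit 0) (nat_lit 16465702413) (nat_lit 456) (nat_lit 18446976837) (nat_lit 532) (nat_lit 23900680577) (nat_lit 189) (nat_lit 5) (nat_lit 195) (nat_lit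 5) (nat_lit 196) (nat_lit 5) (nat_lit 445) (nat_lit 413) (nat_lit 162)) (XT.lf (nat_lit 0) (nat_lit 43819360447) (nat_lit 532) (nat_lit 10207703626) (nat_lit 76) (nat_lit 5812594082) (nat_lit 189) (nat_lit 5) (nat_lit 196) (nat_lit 5) (nat_lit 190) (nat_lit 5) (nat_lit 446) (nat_lit 413) (nat_lit 161)))) (XT.nd (nat_lit 156) (nat_lit 912) (nat_lit 0) (XT.nd (nat_lit 78) (nat_lit 76) (nat_lit 0) (XT.lf (nat_lit 0) (nat_lit 23164755349) (nat_lit 456) (nat_lit 30232895467) (nat_lit 532) (nat_lit 7486962597) (nat_lit 183) (nat_lit 5) (nat_lit 189) (nat_lit 5) (nat_lit 190) (nat_lit 5) (nat_lit 447) (nat_lit 413) (nat_lit 160)) (XT.lf (nat_lit 0) (nat_lit 1380155687) (nat_lit 532) (nat_lit 4224814262) (nat_lit 76) (nat_lit 56352476120) (nat_lit 182) (nat_lit 5) (nat_lit 189) (nat_lit 5) (nat_lit 183) (nat_lit 5) (nat_lit 448) (nat_lit 413) (nat_lit 159))) (XT.nd (nat_lit 78) (nat_lit 456) (nat_lit 0) (XT.lf (nat_lit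 0) (nat_lit 10851635541) (nat_lit 532) (nat_lit 32444074316) (nat_lit 76) (nat_lit 19749865366) (nat_lit 176) (nat_lit 5) (nat_lit 183) (nat_lit 5) (nat_lit 177) (nat_lit 5) (nat_lit 449) (nat_lit 413) (nat_lit 158)) (XT.lf (nat_lit 0) (nat_lit 2383670764) (nat_lit 456) (nat_lit 18344220491) (nat_lit 532) (nat_lit 43434838268) (nat_lit 170) (nat_lit 5) (nat_lit 176) (nat_lit 5) (nat_lit 177) (nat_lit 5) (nat_lit 450) (nat_lit 413) (nat_lit 157))))))) (XT.nd (nat_lit 1092) (nat_lit 1216) (nat_lit 0) (XT.nd (nat_lit 546) (nat_lit 1444) (nat_lit 0) (XT.nd (nat_lit 234) (nat_lit 836) (nat_lit 0) (XT.nd (nat_lit 78) (nat_lit 380) (nat_lit 0) (XT.lf (nat_lit 0) (nat_lit 31301160102) (nat_lit 532) (nat_lit 26457283147) (nat_lit 76) (nat_lit 7542933650) (nat_lit 170) (nat_lit 5) (nat_lit 177) (nat_lit 5) (nat_lit 171) (nat_lit 5) (nat_lit 451) (nat_lit 413) (nat_lit 156)) (XT.nd (nat_lit 78) (nat_lit 0) (nat_lit 0) (XT.lf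 (nat_lit 0) (nat_lit 9935344737) (nat_lit 380) (nat_lit 32532589114) (nat_lit 456) (nat_lit 23997960843) (nat_lit 165) (nat_lit 5) (nat_lit 170) (nat_lit 5) (nat_lit 171) (nat_lit 5) (nat_lit 452) (nat_lit 413) (nat_lit 155)) (XT.lf (nat_lit 0) (nat_lit 47961060699) (nat_lit 380) (nat_lit 6275007080) (nat_lit 456) (nat_lit 13421289734) (nat_lit 165) (nat_lit 5) (nat_lit 170) (nat_lit 5) (nat_lit 171) (nat_lit 5) (nat_lit 453) (nat_lit 413) (nat_lit 154)))) (XT.nd (nat_lit 156) (nat_lit 380) (nat_lit 0) (XT.nd (nat_lit 78) (nat_lit 76) (nat_lit 0) (XT.lf (nat_lit 0) (nat_lit 18401373654) (nat_lit 380) (nat_lit 48331625911) (nat_lit 456) (nat_lit 2140292228) (nat_lit 160) (nat_lit 5) (nat_lit 165) (nat_lit 5) (nat_lit 166) (nat_lit 5) (nat_lit 454) (nat_lit 413) (nat_lit 153)) (XT.lf (nat_lit 0) (nat_lit 9556372158) (nat_lit 456) (nat_lit 12230261704) (nat_lit 76) (nat_lit 48328470573) (nat_lit 159) (nat_lit 5) (nat_lit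 165) (nat_lit 5) (nat_lit 160) (nat_lit 5) (nat_lit 455) (nat_lit 413) (nat_lit 152))) (XT.nd (nat_lit 78) (nat_lit 0) (nat_lit 0) (XT.lf (nat_lit 0) (nat_lit 21882438945) (nat_lit 456) (nat_lit 43765298248) (nat_lit 76) (nat_lit 5736153103) (nat_lit 154) (nat_lit 5) (nat_lit 160) (nat_lit 5) (nat_lit 155) (nat_lit 5) (nat_lit 456) (nat_lit 413) (nat_lit 151)) (XT.lf (nat_lit 0) (nat_lit 34917971435) (nat_lit 456) (nat_lit 3991363252) (nat_lit 76) (nat_lit 33771214706) (nat_lit 154) (nat_lit 5) (nat_lit 160) (nat_lit 5) (nat_lit 155) (nat_lit 5) (nat_lit 457) (nat_lit 413) (nat_lit 150))))) (XT.nd (nat_lit 234) (nat_lit 684) (nat_lit 0) (XT.nd (nat_lit 78) (nat_lit 380) (nat_lit 0) (XT.lf (nat_lit 0) (nat_lit 37710674151) (nat_lit 380) (nat_lit 10995665663) (nat_lit 456) (nat_lit 25298915517) (nat_lit 149) (nat_lit 5) (nat_lit 154) (nat_lit 5) (nat_lit 155) (nat_lit 5) (nat_lit 458) (nat_lit 413) (nat_lit 149))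 (XT.nd (nat_lit 78) (nat_lit 76) (nat_lit 0) (XT.lf (nat_lit 0) (nat_lit 5308617510) (nat_lit 304) (nat_lit 57861432468) (nat_lit 380) (nat_lit 12191801907) (nat_lit 145) (nat_lit 5) (nat_lit 149) (nat_lit 5) (nat_lit 150) (nat_lit 5) (nat_lit 459) (nat_lit 413) (nat_lit 148)) (XT.lf (nat_lit 0) (nat_lit 1761277360) (nat_lit 380) (nat_lit 27970311595) (nat_lit 76) (nat_lit 47012831596) (nat_lit 144) (nat_lit 5) (nat_lit 149) (nat_lit 5) (nat_lit 145) (nat_lit 5) (nat_lit 460) (nat_lit 413) (nat_lit 147)))) (XT.nd (nat_lit 156) (nat_lit 304) (nat_lit 0) (XT.nd (nat_lit 78) (nat_lit 0) (nat_lit 0) (XT.lf (nat_lit 0) (nat_lit 15556989201) (nat_lit 380) (nat_lit 479766221) (nat_lit 456) (nat_lit 62123624186) (nat_lit 139) (nat_lit 5) (nat_lit 144) (nat_lit 5) (nat_lit 145) (nat_lit 5) (nat_lit 461) (nat_lit 413) (nat_lit 146)) (XT.lf (nat_lit 0) (nat_lit 31310064358) (nat_lit 456) (nat_lit 18935657846) (nat_lit 76)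 (nat_lit 29356008381) (nat_lit 139) (nat_lit 5) (nat_lit 145) (nat_lit 5) (nat_lit 140) (nat_lit 5) (nat_lit 462) (nat_lit 413) (nat_lit 145))) (XT.nd (nat_lit 78) (nat_lit 0) (nat_lit 0) (XT.lf (nat_lit 0) (nat_lit 26554580522) (nat_lit 304) (nat_lit 20746335576) (nat_lit 380) (nat_lit 33777625826) (nat_lit 135) (nat_lit 5) (nat_lit 139) (nat_lit 5) (nat_lit 140) (nat_lit 5) (nat_lit 463) (nat_lit 413) (nat_lit 144)) (XT.lf (nat_lit 0) (nat_lit 64056588341) (nat_lit 380) (nat_lit 8891731837) (nat_lit 76) (nat_lit 9642784712) (nat_lit 135) (nat_lit 5) (nat_lit 140) (nat_lit 5) (nat_lit 136) (nat_lit 5) (nat_lit 464) (nat_lit 413) (nat_lit 143)))))) (XT.nd (nat_lit 49218) (nat_lit 0) (nat_lit 10488) (XT.nd (nat_lit 234) (nat_lit 532) (nat_lit 0) (XT.nd (nat_lit 78) (nat_lit 380) (nat_lit 0) (XT.lf (nat_lit 0) (nat_lit 38657470556) (nat_lit 304) (nat_lit 43233829946) (nat_lit 380) (nat_lit 2240453280) (nat_lit 131)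 (nat_lit 5) (nat_lit 135) (nat_lit 5) (nat_lit 136) (nat_lit 5) (nat_lit 465) (nat_lit 413) (nat_lit 142)) (XT.nd (nat_lit 78) (nat_lit 0) (nat_lit 0) (XT.lf (nat_lit 0) (nat_lit 1996843265) (nat_lit 304) (nat_lit 12371050953) (nat_lit 380) (nat_lit 71343257199) (nat_lit 126) (nat_lit 5) (nat_lit 130) (nat_lit 5) (nat_lit 131) (nat_lit 5) (nat_lit 466) (nat_lit 413) (nat_lit 141)) (XT.lf (nat_lit 0) (nat_lit 32079234197) (nat_lit 380) (nat_lit 35714198148) (nat_lit 76) (nat_lit 19524340086) (nat_lit 126) (nat_lit 5) (nat_lit 131) (nat_lit 5) (nat_lit 127) (nat_lit 5) (nat_lit 467) (nat_lit 413) (nat_lit 140)))) (XT.nd (nat_lit 156) (nat_lit 228) (nat_lit 0) (XT.nd (nat_lit 78) (nat_lit 0) (nat_lit 0) (XT.lf (nat_lit 0) (nat_lit 13873231889) (nat_lit 304) (nat_lit 36703915784) (nat_lit 380) (nat_lit 38387787518) (nat_lit 122) (nat_lit 5) (nat_lit 126) (nat_lit 5) (nat_lit 127) (nat_lit 5) (nat_lit 468) (nat_lit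 413) (nat_lit 139)) (XT.lf (nat_lit 0) (nat_lit 65679485505) (nat_lit 304) (nat_lit 4310555153) (nat_lit 380) (nat_lit 20660671028) (nat_lit 122) (nat_lit 5) (nat_lit 126) (nat_lit 5) (nat_lit 127) (nat_lit 5) (nat_lit 469) (nat_lit 413) (nat_lit 138))) (XT.nd (nat_lit 48750) (nat_lit 0) (nat_lit 10488) (XT.lf (nat_lit 0) (nat_lit 26897548877) (nat_lit 228) (nat_lit 63625031304) (nat_lit 304) (nat_lit 1848363611) (nat_lit 119) (nat_lit 5) (nat_lit 122) (nat_lit 5) (nat_lit 123) (nat_lit 5) (nat_lit 470) (nat_lit 413) (nat_lit 137)) (XT.lf (nat_lit 0) (nat_lit 5197091899) (nat_lit 1292) (nat_lit 6471809529) (nat_lit 1292) (nat_lit 6471809529) (nat_lit 257) (nat_lit 3) (nat_lit 274) (nat_lit 3) (nat_lit 274) (nat_lit 5) (nat_lit 414) (nat_lit 414) (nat_lit 192))))) (XT.nd (nat_lit 312) (nat_lit 0) (nat_lit 152) (XT.nd (nat_lit 156) (nat_lit 0) (nat_lit 76) (XT.nd (nat_lit 78) (nat_lit 0) (nat_lit 76) (XT.lf (nat_lit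 76) (nat_lit 4781113480) (nat_lit 0) (nat_lit 5864118971) (nat_lit 1292) (nat_lit 26177540632) (nat_lit 258) (nat_lit 5) (nat_lit 257) (nat_lit 3) (nat_lit 274) (nat_lit 5) (nat_lit 415) (nat_lit 414) (nat_lit 191)) (XT.lf (nat_lit 0) (nat_lit 11150529037) (nat_lit 1216) (nat_lit 14192531261) (nat_lit 1292) (nat_lit 12029903621) (nat_lit 258) (nat_lit 5) (nat_lit 274) (nat_lit 5) (nat_lit 275) (nat_lit 5) (nat_lit 416) (nat_lit 414) (nat_lit 190))) (XT.nd (nat_lit 78) (nat_lit 0) (nat_lit 76) (XT.lf (nat_lit 76) (nat_lit 4215220061) (nat_lit 0) (nat_lit 7552480159) (nat_lit 1292) (nat_lit 26169059400) (nat_lit 259) (nat_lit 5) (nat_lit 258) (nat_lit 5) (nat_lit 275) (nat_lit 5) (nat_lit 417) (nat_lit 414) (nat_lit 189)) (XT.lf (nat_lit 0) (nat_lit 12649855303) (nat_lit 1216) (nat_lit 15153093974) (nat_lit 1292) (nat_lit 10707126443) (nat_lit 259) (nat_lit 5) (nat_lit 275) (nat_lit 5) (nat_lit 276) (nat_lit 5) (nat_lit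 418) (nat_lit 414) (nat_lit 188)))) (XT.nd (nat_lit 156) (nat_lit 0) (nat_lit 76) (XT.nd (nat_lit 78) (nat_lit 0) (nat_lit 76) (XT.lf (nat_lit 76) (nat_lit 3974112230) (nat_lit 0) (nat_lit 9695581969) (nat_lit 1292) (nat_lit 25427561103) (nat_lit 260) (nat_lit 5) (nat_lit 259) (nat_lit 5) (nat_lit 276) (nat_lit 5) (nat_lit 419) (nat_lit 414) (nat_lit 187)) (XT.lf (nat_lit 0) (nat_lit 14959028841) (nat_lit 1216) (nat_lit 15800410609) (nat_lit 1292) (nat_lit 8935444364) (nat_lit 260) (nat_lit 5) (nat_lit 276) (nat_lit 5) (nat_lit 277) (nat_lit 5) (nat_lit 420) (nat_lit 414) (nat_lit 186))) (XT.nd (nat_lit 78) (nat_lit 0) (nat_lit 76) (XT.lf (nat_lit 76) (nat_lit 4084633284) (nat_lit 0) (nat_lit 12336007979) (nat_lit 1292) (nat_lit 23885792525) (nat_lit 261) (nat_lit 5) (nat_lit 260) (nat_lit 5) (nat_lit 277) (nat_lit 5) (nat_lit 421) (nat_lit 414) (nat_lit 185)) (XT.lf (nat_lit 0) (nat_lit 18149445256) (nat_lit 1216)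 (nat_lit 16107955506) (nat_lit 1292) (nat_lit 6672229730) (nat_lit 261) (nat_lit 5) (nat_lit 277) (nat_lit 5) (nat_lit 278) (nat_lit 5) (nat_lit 422) (nat_lit 414) (nat_lit 184))))))))
noncomputable def xc237 : XT := (XT.nd (nat_lit 2262) (nat_lit 3648) (nat_lit 0) (XT.nd (nat_lit 1092) (nat_lit 4636) (nat_lit 0) (XT.nd (nat_lit 546) (nat_lit 2280) (nat_lit 0) (XT.nd (nat_lit 234) (nat_lit 0) (nat_lit 152) (XT.nd (nat_lit 78) (nat_lit 0) (nat_lit 76) (XT.lf (nat_lit 76) (nat_lit 4575356011) (nat_lit 0) (nat_lit 15519305656) (nat_lit 1292) (nat_lit 21471925494) (nat_lit 262) (nat_lit 5) (nat_lit 261) (nat_lit 5) (nat_lit 278) (nat_lit 5) (nat_lit 423) (nat_lit 414) (nat_lit 183)) (XT.nd (nat_lit 78) (nat_lit 0) (nat_lit 0) (XT.lf (nat_lit 0) (nat_lit 22297316691) (nat_lit 1216) (nat_lit 16047495774) (nat_lit 1292) (nat_lit 3871868093) (nat_lit 262) (nat_lit 5) (nat_lit 278) (nat_lit 5) (nat_lit 279) (nat_lit 5)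 (nat_lit 424) (nat_lit 414) (nat_lit 182)) (XT.lf (nat_lit 76) (nat_lit 5476665551) (nat_lit 0) (nat_lit 19294200219) (nat_lit 1292) (nat_lit 18109267038) (nat_lit 263) (nat_lit 5) (nat_lit 262) (nat_lit 5) (nat_lit 279) (nat_lit 5) (nat_lit 425) (nat_lit 414) (nat_lit 181)))) (XT.nd (nat_lit 156) (nat_lit 0) (nat_lit 0) (XT.nd (nat_lit 78) (nat_lit 0) (nat_lit 0) (XT.lf (nat_lit 0) (nat_lit 27483975494) (nat_lit 1216) (nat_lit 15589010165) (nat_lit 1292) (nat_lit 485542808) (nat_lit 263) (nat_lit 5) (nat_lit 279) (nat_lit 5) (nat_lit 280) (nat_lit 5) (nat_lit 426) (nat_lit 414) (nat_lit 180)) (XT.lf (nat_lit 76) (nat_lit 6820845371) (nat_lit 0) (nat_lit 23712822441) (nat_lit 1292) (nat_lit 13715952958) (nat_lit 264) (nat_lit 5) (nat_lit 263) (nat_lit 5) (nat_lit 280) (nat_lit 5) (nat_lit 427) (nat_lit 414) (nat_lit 179))) (XT.nd (nat_lit 78) (nat_lit 0) (nat_lit 76) (XT.lf (nat_lit 76) (nat_lit 30221463969) (nat_lit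 0) (nat_lit 3609427374) (nat_lit 1292) (nat_lit 11125873726) (nat_lit 264) (nat_lit 5) (nat_lit 263) (nat_lit 5) (nat_lit 280) (nat_lit 5) (nat_lit 428) (nat_lit 414) (nat_lit 178)) (XT.lf (nat_lit 76) (nat_lit 8642166270) (nat_lit 0) (nat_lit 28830951404) (nat_lit 1292) (nat_lit 8204623869) (nat_lit 265) (nat_lit 5) (nat_lit 264) (nat_lit 5) (nat_lit 281) (nat_lit 5) (nat_lit 429) (nat_lit 414) (nat_lit 177))))) (XT.nd (nat_lit 234) (nat_lit 1292) (nat_lit 0) (XT.nd (nat_lit 78) (nat_lit 1216) (nat_lit 0) (XT.lf (nat_lit 76) (nat_lit 32985476111) (nat_lit 0) (nat_lit 8422012071) (nat_lit 1292) (nat_lit 5007373220) (nat_lit 265) (nat_lit 5) (nat_lit 264) (nat_lit 5) (nat_lit 281) (nat_lit 5) (nat_lit 430) (nat_lit 414) (nat_lit 176)) (XT.nd (nat_lit 78) (nat_lit 76) (nat_lit 0) (XT.lf (nat_lit 0) (nat_lit 10976978321) (nat_lit 1216) (nat_lit 34708273349) (nat_lit 1292) (nat_lit 1482082735) (nat_lit 249) (nat_lit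 5) (nat_lit 265) (nat_lit 5) (nat_lit 266) (nat_lit 5) (nat_lit 431) (nat_lit 414) (nat_lit 175)) (XT.lf (nat_lit 0) (nat_lit 2326118790) (nat_lit 1292) (nat_lit 11653993123) (nat_lit 76) (nat_lit 33955077757) (nat_lit 248) (nat_lit 5) (nat_lit 265) (nat_lit 5) (nat_lit 249) (nat_lit 5) (nat_lit 432) (nat_lit 414) (nat_lit 174)))) (XT.nd (nat_lit 156) (nat_lit 608) (nat_lit 0) (XT.nd (nat_lit 78) (nat_lit 0) (nat_lit 0) (XT.lf (nat_lit 0) (nat_lit 6423232202) (nat_lit 760) (nat_lit 34920563527) (nat_lit 76) (nat_lit 7375711385) (nat_lit 239) (nat_lit 5) (nat_lit 249) (nat_lit 5) (nat_lit 240) (nat_lit 5) (nat_lit 433) (nat_lit 414) (nat_lit 173)) (XT.lf (nat_lit 0) (nat_lit 10899333382) (nat_lit 760) (nat_lit 9410151813) (nat_lit 76) (nat_lit 29210187010) (nat_lit 239) (nat_lit 5) (nat_lit 249) (nat_lit 5) (nat_lit 240) (nat_lit 5) (nat_lit 434) (nat_lit 414) (nat_lit 172))) (XT.nd (nat_lit 78) (nat_lit 0) (nat_lit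 0) (XT.lf (nat_lit 0) (nat_lit 15688571278) (nat_lit 684) (nat_lit 33153457014) (nat_lit 76) (nat_lit 1496448696) (nat_lit 231) (nat_lit 5) (nat_lit 240) (nat_lit 5) (nat_lit 232) (nat_lit 5) (nat_lit 435) (nat_lit 414) (nat_lit 171)) (XT.lf (nat_lit 0) (nat_lit 20917403696) (nat_lit 684) (nat_lit 6611176188) (nat_lit 76) (nat_lit 23644388846) (nat_lit 231) (nat_lit 5) (nat_lit 240) (nat_lit 5) (nat_lit 232) (nat_lit 5) (nat_lit 436) (nat_lit 414) (nat_lit 170)))))) (XT.nd (nat_lit 546) (nat_lit 2432) (nat_lit 0) (XT.nd (nat_lit 234) (nat_lit 1064) (nat_lit 0) (XT.nd (nat_lit 78) (nat_lit 532) (nat_lit 0) (XT.lf (nat_lit 0) (nat_lit 21138797277) (nat_lit 608) (nat_lit 5366404275) (nat_lit 684) (nat_lit 25521230986) (nat_lit 223) (nat_lit 5) (nat_lit 231) (nat_lit 5) (nat_lit 232) (nat_lit 5) (nat_lit 437) (nat_lit 414) (nat_lit 169)) (XT.nd (nat_lit 78) (nat_lit 532) (nat_lit 0) (XT.lf (nat_lit 0) (nat_lit 32494819968)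 (nat_lit 684) (nat_lit 3216300353) (nat_lit 76) (nat_lit 17187354658) (nat_lit 223) (nat_lit 5) (nat_lit 232) (nat_lit 5) (nat_lit 224) (nat_lit 5) (nat_lit 438) (nat_lit 414) (nat_lit 168)) (XT.lf (nat_lit 0) (nat_lit 25733127543) (nat_lit 532) (nat_lit 13230449427) (nat_lit 608) (nat_lit 14824118532) (nat_lit 216) (nat_lit 5) (nat_lit 223) (nat_lit 5) (nat_lit 224) (nat_lit 5) (nat_lit 439) (nat_lit 414) (nat_lit 167)))) (XT.nd (nat_lit 156) (nat_lit 532) (nat_lit 0) (XT.nd (nat_lit 78) (nat_lit 0) (nat_lit 0) (XT.lf (nat_lit 0) (nat_lit 833817724) (nat_lit 532) (nat_lit 44927770610) (nat_lit 608) (nat_lit 8937948855) (nat_lit 209) (nat_lit 5) (nat_lit 216) (nat_lit 5) (nat_lit 217) (nat_lit 5) (nat_lit 440) (nat_lit 414) (nat_lit 166)) (XT.lf (nat_lit 0) (nat_lit 31029274359) (nat_lit 532) (nat_lit 22146266533) (nat_lit 608) (nat_lit 2450833502) (nat_lit 209) (nat_lit 5) (nat_lit 216) (nat_lit 5) (nat_lit 217)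 (nat_lit 5) (nat_lit 441) (nat_lit 414) (nat_lit 165))) (XT.nd (nat_lit 78) (nat_lit 0) (nat_lit 0) (XT.lf (nat_lit 0) (nat_lit 4214960203) (nat_lit 532) (nat_lit 50974352994) (nat_lit 76) (nat_lit 1388484946) (nat_lit 202) (nat_lit 5) (nat_lit 209) (nat_lit 5) (nat_lit 203) (nat_lit 5) (nat_lit 442) (nat_lit 414) (nat_lit 164)) (XT.lf (nat_lit 0) (nat_lit 11500611722) (nat_lit 532) (nat_lit 20583161909) (nat_lit 76) (nat_lit 25459188970) (nat_lit 202) (nat_lit 5) (nat_lit 209) (nat_lit 5) (nat_lit 203) (nat_lit 5) (nat_lit 443) (nat_lit 414) (nat_lit 163))))) (XT.nd (nat_lit 312) (nat_lit 1444) (nat_lit 0) (XT.nd (nat_lit 156) (nat_lit 456) (nat_lit 0) (XT.nd (nat_lit 78) (nat_lit 0) (nat_lit 0) (XT.lf (nat_lit 0) (nat_lit 10932042779) (nat_lit 532) (nat_lit 8176935344) (nat_lit 608) (nat_lit 39424979768) (nat_lit 195) (nat_lit 5) (nat_lit 202) (nat_lit 5) (nat_lit 203) (nat_lit 5) (nat_lit 444) (nat_lit 414)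 (nat_lit 162)) (XT.lf (nat_lit 0) (nat_lit 27312678873) (nat_lit 608) (nat_lit 15895029143) (nat_lit 76) (nat_lit 16335962774) (nat_lit 195) (nat_lit 5) (nat_lit 203) (nat_lit 5) (nat_lit 196) (nat_lit 5) (nat_lit 445) (nat_lit 414) (nat_lit 161))) (XT.nd (nat_lit 78) (nat_lit 0) (nat_lit 0) (XT.lf (nat_lit 0) (nat_lit 17013058379) (nat_lit 456) (nat_lit 18993035054) (nat_lit 532) (nat_lit 24570273803) (nat_lit 189) (nat_lit 5) (nat_lit 195) (nat_lit 5) (nat_lit 196) (nat_lit 5) (nat_lit 446) (nat_lit 414) (nat_lit 160)) (XT.lf (nat_lit 0) (nat_lit 45178702880) (nat_lit 532) (nat_lit 10460820545) (nat_lit 76) (nat_lit 5993969615) (nat_lit 189) (nat_lit 5) (nat_lit 196) (nat_lit 5) (nat_lit 190) (nat_lit 5) (nat_lit 447) (nat_lit 414) (nat_lit 159)))) (XT.nd (nat_lit 156) (nat_lit 912) (nat_lit 0) (XT.nd (nat_lit 78) (nat_lit 76) (nat_lit 0) (XT.lf (nat_lit 0) (nat_lit 23912291472) (nat_lit 456) (nat_lit 31131252312)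 (nat_lit 532) (nat_lit 7666277466) (nat_lit 183) (nat_lit 5) (nat_lit 189) (nat_lit 5) (nat_lit 190) (nat_lit 5) (nat_lit 448) (nat_lit 414) (nat_lit 158)) (XT.lf (nat_lit 0) (nat_lit 1464677017) (nat_lit 532) (nat_lit 4299627978) (nat_lit 76) (nat_lit 58050559965) (nat_lit 182) (nat_lit 5) (nat_lit 189) (nat_lit 5) (nat_lit 183) (nat_lit 5) (nat_lit 449) (nat_lit 414) (nat_lit 157))) (XT.nd (nat_lit 78) (nat_lit 456) (nat_lit 0) (XT.lf (nat_lit 0) (nat_lit 11219626889) (nat_lit 532) (nat_lit 33364780784) (nat_lit 76) (nat_lit 20351250866) (nat_lit 176) (nat_lit 5) (nat_lit 183) (nat_lit 5) (nat_lit 177) (nat_lit 5) (nat_lit 450) (nat_lit 414) (nat_lit 156)) (XT.lf (nat_lit 0) (nat_lit 2507280807) (nat_lit 456) (nat_lit 18884154101) (nat_lit 532) (nat_lit 44694914932) (nat_lit 170) (nat_lit 5) (nat_lit 176) (nat_lit 5) (nat_lit 177) (nat_lit 5) (nat_lit 451) (nat_lit 414) (nat_lit 155))))))) (XT.nd (nat_lit 1092)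 (nat_lit 988) (nat_lit 0) (XT.nd (nat_lit 546) (nat_lit 1444) (nat_lit 0) (XT.nd (nat_lit 234) (nat_lit 836) (nat_lit 0) (XT.nd (nat_lit 78) (nat_lit 380) (nat_lit 0) (XT.lf (nat_lit 0) (nat_lit 32280784050) (nat_lit 532) (nat_lit 27199291365) (nat_lit 76) (nat_lit 7779115057) (nat_lit 170) (nat_lit 5) (nat_lit 177) (nat_lit 5) (nat_lit 171) (nat_lit 5) (nat_lit 452) (nat_lit 414) (nat_lit 154)) (XT.nd (nat_lit 78) (nat_lit 0) (nat_lit 0) (XT.lf (nat_lit 0) (nat_lit 10284608392) (nat_lit 380) (nat_lit 33497262610) (nat_lit 456) (nat_lit 24676793793) (nat_lit 165) (nat_lit 5) (nat_lit 170) (nat_lit 5) (nat_lit 171) (nat_lit 5) (nat_lit 453) (nat_lit 414) (nat_lit 153)) (XT.lf (nat_lit 0) (nat_lit 49449604474) (nat_lit 380) (nat_lit 6452282363) (nat_lit 456) (nat_lit 13784019809) (nat_lit 165) (nat_lit 5) (nat_lit 170) (nat_lit 5) (nat_lit 171) (nat_lit 5) (nat_lit 454) (nat_lit 414) (nat_lit 152)))) (XT.nd (nat_lit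 156) (nat_lit 380) (nat_lit 0) (XT.nd (nat_lit 78) (nat_lit 76) (nat_lit 0) (XT.lf (nat_lit 0) (nat_lit 19003695088) (nat_lit 380) (nat_lit 49769488974) (nat_lit 456) (nat_lit 2165151444) (nat_lit 160) (nat_lit 5) (nat_lit 165) (nat_lit 5) (nat_lit 166) (nat_lit 5) (nat_lit 455) (nat_lit 414) (nat_lit 151)) (XT.lf (nat_lit 0) (nat_lit 9880521284) (nat_lit 456) (nat_lit 12547599639) (nat_lit 76) (nat_lit 49789304230) (nat_lit 159) (nat_lit 5) (nat_lit 165) (nat_lit 5) (nat_lit 160) (nat_lit 5) (nat_lit 456) (nat_lit 414) (nat_lit 150))) (XT.nd (nat_lit 78) (nat_lit 0) (nat_lit 0) (XT.lf (nat_lit 0) (nat_lit 22575868599) (nat_lit 456) (nat_lit 45028177379) (nat_lit 76) (nat_lit 5920243909) (nat_lit 154) (nat_lit 5) (nat_lit 160) (nat_lit 5) (nat_lit 155) (nat_lit 5) (nat_lit 457) (nat_lit 414) (nat_lit 149)) (XT.lf (nat_lit 0) (nat_lit 36001390660) (nat_lit 456) (nat_lit 4062482969) (nat_lit 76) (nat_lit 34796007664)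 (nat_lit 154) (nat_lit 5) (nat_lit 160) (nat_lit 5) (nat_lit 155) (nat_lit 5) (nat_lit 458) (nat_lit 414) (nat_lit 148))))) (XT.nd (nat_lit 234) (nat_lit 684) (nat_lit 0) (XT.nd (nat_lit 78) (nat_lit 380) (nat_lit 0) (XT.lf (nat_lit 0) (nat_lit 38890138878) (nat_lit 380) (nat_lit 11312688957) (nat_lit 456) (nat_lit 26021518280) (nat_lit 149) (nat_lit 5) (nat_lit 154) (nat_lit 5) (nat_lit 155) (nat_lit 5) (nat_lit 459) (nat_lit 414) (nat_lit 147)) (XT.nd (nat_lit 78) (nat_lit 76) (nat_lit 0) (XT.lf (nat_lit 0) (nat_lit 5516482670) (nat_lit 304) (nat_lit 59583525672) (nat_lit 380) (nat_lit 12521645685) (nat_lit 145) (nat_lit 5) (nat_lit 149) (nat_lit 5) (nat_lit 150) (nat_lit 5) (nat_lit 460) (nat_lit 414) (nat_lit 146)) (XT.lf (nat_lit 0) (nat_lit 1848299701) (nat_lit 380) (nat_lit 28761542440) (nat_lit 76) (nat_lit 48435878239) (nat_lit 144) (nat_lit 5) (nat_lit 149) (nat_lit 5) (nat_lit 145) (nat_lit 5) (nat_lit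 461) (nat_lit 414) (nat_lit 145)))) (XT.nd (nat_lit 156) (nat_lit 304) (nat_lit 0) (XT.nd (nat_lit 78) (nat_lit 0) (nat_lit 0) (XT.lf (nat_lit 0) (nat_lit 16071107983) (nat_lit 380) (nat_lit 480394196) (nat_lit 456) (nat_lit 63952672439) (nat_lit 139) (nat_lit 5) (nat_lit 144) (nat_lit 5) (nat_lit 145) (nat_lit 5) (nat_lit 462) (nat_lit 414) (nat_lit 144)) (XT.lf (nat_lit 0) (nat_lit 32282158922) (nat_lit 456) (nat_lit 19456841012) (nat_lit 76) (nat_lit 30249791940) (nat_lit 139) (nat_lit 5) (nat_lit 145) (nat_lit 5) (nat_lit 140) (nat_lit 5) (nat_lit 463) (nat_lit 414) (nat_lit 143))) (XT.nd (nat_lit 78) (nat_lit 0) (nat_lit 0) (XT.lf (nat_lit 0) (nat_lit 27397644834) (nat_lit 304) (nat_lit 21354582538) (nat_lit 380) (nat_lit 34757695646) (nat_lit 135) (nat_lit 5) (nat_lit 139) (nat_lit 5) (nat_lit 140) (nat_lit 5) (nat_lit 464) (nat_lit 414) (nat_lit 142)) (XT.lf (nat_lit 0) (nat_lit 66009761470) (nat_lit 380)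 (nat_lit 9112594366) (nat_lit 76) (nat_lit 9945531479) (nat_lit 135) (nat_lit 5) (nat_lit 140) (nat_lit 5) (nat_lit 136) (nat_lit 5) (nat_lit 465) (nat_lit 414) (nat_lit 141)))))) (XT.nd (nat_lit 49374) (nat_lit 0) (nat_lit 10336) (XT.nd (nat_lit 234) (nat_lit 304) (nat_lit 0) (XT.nd (nat_lit 78) (nat_lit 380) (nat_lit 0) (XT.lf (nat_lit 0) (nat_lit 39862634203) (nat_lit 304) (nat_lit 44516400825) (nat_lit 380) (nat_lit 2275735234) (nat_lit 131) (nat_lit 5) (nat_lit 135) (nat_lit 5) (nat_lit 136) (nat_lit 5) (nat_lit 466) (nat_lit 414) (nat_lit 140)) (XT.nd (nat_lit 78) (nat_lit 0) (nat_lit 0) (XT.lf (nat_lit 0) (nat_lit 2102365626) (nat_lit 304) (nat_lit 12727400561) (nat_lit 380) (nat_lit 73451788809) (nat_lit 126) (nat_lit 5) (nat_lit 130) (nat_lit 5) (nat_lit 131) (nat_lit 5) (nat_lit 467) (nat_lit 414) (nat_lit 139)) (XT.lf (nat_lit 0) (nat_lit 33071686208) (nat_lit 380) (nat_lit 36740569789) (nat_lit 76)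 (nat_lit 20124141620) (nat_lit 126) (nat_lit 5) (nat_lit 131) (nat_lit 5) (nat_lit 127) (nat_lit 5) (nat_lit 468) (nat_lit 414) (nat_lit 138)))) (XT.nd (nat_lit 48984) (nat_lit 0) (nat_lit 10260) (XT.nd (nat_lit 48906) (nat_lit 0) (nat_lit 10260) (XT.lf (nat_lit 0) (nat_lit 14334041441) (nat_lit 304) (nat_lit 37790048521) (nat_lit 380) (nat_lit 39508898880) (nat_lit 122) (nat_lit 5) (nat_lit 126) (nat_lit 5) (nat_lit 127) (nat_lit 5) (nat_lit 469) (nat_lit 414) (nat_lit 137)) (XT.lf (nat_lit 0) (nat_lit 5401708845) (nat_lit 1292) (nat_lit 6640873193) (nat_lit 1292) (nat_lit 6640873193) (nat_lit 257) (nat_lit 3) (nat_lit 274) (nat_lit 3) (nat_lit 274) (nat_lit 5) (nat_lit 415) (nat_lit 415) (nat_lit 190))) (XT.nd (nat_lit 78) (nat_lit 0) (nat_lit 76) (XT.lf (nat_lit 76) (nat_lit 4974236155) (nat_lit 0) (nat_lit 6085402154) (nat_lit 1292) (nat_lit 26864935570) (nat_lit 258) (nat_lit 5) (nat_lit 257) (nat_lit 3) (nat_lit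 274) (nat_lit 5) (nat_lit 416) (nat_lit 415) (nat_lit 189)) (XT.lf (nat_lit 0) (nat_lit 11576902054) (nat_lit 1216) (nat_lit 14566843421) (nat_lit 1292) (nat_lit 12347621619) (nat_lit 258) (nat_lit 5) (nat_lit 274) (nat_lit 5) (nat_lit 275) (nat_lit 5) (nat_lit 417) (nat_lit 415) (nat_lit 188))))) (XT.nd (nat_lit 312) (nat_lit 0) (nat_lit 152) (XT.nd (nat_lit 156) (nat_lit 0) (nat_lit 76) (XT.nd (nat_lit 78) (nat_lit 0) (nat_lit 76) (XT.lf (nat_lit 76) (nat_lit 4392635894) (nat_lit 0) (nat_lit 7817766879) (nat_lit 1292) (nat_lit 26861740335) (nat_lit 259) (nat_lit 5) (nat_lit 258) (nat_lit 5) (nat_lit 275) (nat_lit 5) (nat_lit 418) (nat_lit 415) (nat_lit 187)) (XT.lf (nat_lit 0) (nat_lit 13116049428) (nat_lit 1216) (nat_lit 15555210426) (nat_lit 1292) (nat_lit 10991488879) (nat_lit 259) (nat_lit 5) (nat_lit 275) (nat_lit 5) (nat_lit 276) (nat_lit 5) (nat_lit 419) (nat_lit 415) (nat_lit 186))) (XT.nd (nat_lit 78)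 (nat_lit 0) (nat_lit 76) (XT.lf (nat_lit 76) (nat_lit 4145297490) (nat_lit 0) (nat_lit 10019160293) (nat_lit 1292) (nat_lit 26103147516) (nat_lit 260) (nat_lit 5) (nat_lit 259) (nat_lit 5) (nat_lit 276) (nat_lit 5) (nat_lit 420) (nat_lit 415) (nat_lit 185)) (XT.lf (nat_lit 0) (nat_lit 15489700988) (nat_lit 1216) (nat_lit 16221176332) (nat_lit 1292) (nat_lit 9172369290) (nat_lit 260) (nat_lit 5) (nat_lit 276) (nat_lit 5) (nat_lit 277) (nat_lit 5) (nat_lit 421) (nat_lit 415) (nat_lit 184)))) (XT.nd (nat_lit 156) (nat_lit 0) (nat_lit 76) (XT.nd (nat_lit 78) (nat_lit 0) (nat_lit 76) (XT.lf (nat_lit 76) (nat_lit 4259896853) (nat_lit 0) (nat_lit 12733386278) (nat_lit 1292) (nat_lit 24519917090) (nat_lit 261) (nat_lit 5) (nat_lit 260) (nat_lit 5) (nat_lit 277) (nat_lit 5) (nat_lit 422) (nat_lit 415) (nat_lit 183)) (XT.lf (nat_lit 0) (nat_lit 18771365724) (nat_lit 1216) (nat_lit 16537394601) (nat_lit 1292) (nat_lit 6846410821)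 (nat_lit 261) (nat_lit 5) (nat_lit 277) (nat_lit 5) (nat_lit 278) (nat_lit 5) (nat_lit 423) (nat_lit 415) (nat_lit 182))) (XT.nd (nat_lit 78) (nat_lit 0) (nat_lit 76) (XT.lf (nat_lit 76) (nat_lit 4765888814) (nat_lit 0) (nat_lit 16007306446) (nat_lit 1292) (nat_lit 22038094286) (nat_lit 262) (nat_lit 5) (nat_lit 261) (nat_lit 5) (nat_lit 278) (nat_lit 5) (nat_lit 424) (nat_lit 415) (nat_lit 181)) (XT.lf (nat_lit 0) (nat_lit 23039516011) (nat_lit 1216) (nat_lit 16474762509) (nat_lit 1292) (nat_lit 3966680355) (nat_lit 262) (nat_lit 5) (nat_lit 278) (nat_lit 5) (nat_lit 279) (nat_lit 5) (nat_lit 425) (nat_lit 415) (nat_lit 180))))))))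
noncomputable def xc238 : XT := (XT.nd (nat_lit 2262) (nat_lit 2964) (nat_lit 0) (XT.nd (nat_lit 1092) (nat_lit 4408) (nat_lit 0) (XT.nd (nat_lit 546) (nat_lit 1976) (nat_lit 0) (XT.nd (nat_lit 234) (nat_lit 988) (nat_lit 0) (XT.nd (nat_lit 78) (nat_lit 0) (nat_lit 76) (XT.lf (nat_lit 76) (nat_lit 5694592694) (nat_lit 0) (nat_lit 19891060003) (nat_lit 1292) (nat_lit 18578711253) (nat_lit 263) (nat_lit 5) (nat_lit 262) (nat_lit 5) (nat_lit 279) (nat_lit 5) (nat_lit 426) (nat_lit 415) (nat_lit 179)) (XT.nd (nat_lit 78) (nat_lit 0) (nat_lit 0) (XT.lf (nat_lit 0) (nat_lit 28377900197) (nat_lit 1216) (nat_lit 16002337391) (nat_lit 1292) (nat_lit 482942225) (nat_lit 263) (nat_lit 5) (nat_lit 279) (nat_lit 5) (nat_lit 280) (nat_lit 5) (nat_lit 427) (nat_lit 415) (nat_lit 178)) (XT.lf (nat_lit 76) (nat_lit 7079281036) (nat_lit 0) (nat_lit 24438297988) (nat_lit 1292) (nat_lit 14057471640) (nat_lit 264) (nat_lit 5) (nat_lit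 263) (nat_lit 5) (nat_lit 280) (nat_lit 5) (nat_lit 428) (nat_lit 415) (nat_lit 177)))) (XT.nd (nat_lit 156) (nat_lit 1064) (nat_lit 0) (XT.nd (nat_lit 78) (nat_lit 0) (nat_lit 76) (XT.lf (nat_lit 76) (nat_lit 31180350901) (nat_lit 0) (nat_lit 3731390656) (nat_lit 1292) (nat_lit 11391727698) (nat_lit 264) (nat_lit 5) (nat_lit 263) (nat_lit 5) (nat_lit 280) (nat_lit 5) (nat_lit 429) (nat_lit 415) (nat_lit 176)) (XT.lf (nat_lit 76) (nat_lit 8955271470) (nat_lit 0) (nat_lit 29706432976) (nat_lit 1292) (nat_lit 8384417096) (nat_lit 265) (nat_lit 5) (nat_lit 264) (nat_lit 5) (nat_lit 281) (nat_lit 5) (nat_lit 430) (nat_lit 415) (nat_lit 175))) (XT.nd (nat_lit 78) (nat_lit 1140) (nat_lit 0) (XT.lf (nat_lit 76) (nat_lit 34027312445) (nat_lit 0) (nat_lit 8684918094) (nat_lit 1292) (nat_lit 5093181321) (nat_lit 265) (nat_lit 5) (nat_lit 264) (nat_lit 5) (nat_lit 281) (nat_lit 5) (nat_lit 431) (nat_lit 415) (nat_lit 174))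 (XT.lf (nat_lit 0) (nat_lit 11360021574) (nat_lit 1216) (nat_lit 35756905357) (nat_lit 1292) (nat_lit 1463574700) (nat_lit 249) (nat_lit 5) (nat_lit 265) (nat_lit 5) (nat_lit 266) (nat_lit 5) (nat_lit 432) (nat_lit 415) (nat_lit 173))))) (XT.nd (nat_lit 234) (nat_lit 1216) (nat_lit 0) (XT.nd (nat_lit 78) (nat_lit 684) (nat_lit 0) (XT.lf (nat_lit 0) (nat_lit 2455845786) (nat_lit 1292) (nat_lit 11950232919) (nat_lit 76) (nat_lit 34965350185) (nat_lit 248) (nat_lit 5) (nat_lit 265) (nat_lit 5) (nat_lit 249) (nat_lit 5) (nat_lit 433) (nat_lit 415) (nat_lit 172)) (XT.nd (nat_lit 78) (nat_lit 0) (nat_lit 0) (XT.lf (nat_lit 0) (nat_lit 6674578542) (nat_lit 760) (nat_lit 35913488737) (nat_lit 76) (nat_lit 7591247927) (nat_lit 239) (nat_lit 5) (nat_lit 249) (nat_lit 5) (nat_lit 240) (nat_lit 5) (nat_lit 434) (nat_lit 415) (nat_lit 171)) (XT.lf (nat_lit 0) (nat_lit 11283254524) (nat_lit 760) (nat_lit 9639357634) (nat_lit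 76) (nat_lit 30080924854) (nat_lit 239) (nat_lit 5) (nat_lit 249) (nat_lit 5) (nat_lit 240) (nat_lit 5) (nat_lit 435) (nat_lit 415) (nat_lit 170)))) (XT.nd (nat_lit 156) (nat_lit 608) (nat_lit 0) (XT.nd (nat_lit 78) (nat_lit 0) (nat_lit 0) (XT.lf (nat_lit 0) (nat_lit 16214985635) (nat_lit 684) (nat_lit 34093761443) (nat_lit 76) (nat_lit 1538194877) (nat_lit 231) (nat_lit 5) (nat_lit 240) (nat_lit 5) (nat_lit 232) (nat_lit 5) (nat_lit 436) (nat_lit 415) (nat_lit 169)) (XT.lf (nat_lit 0) (nat_lit 21599059028) (nat_lit 684) (nat_lit 6756793724) (nat_lit 76) (nat_lit 24350664901) (nat_lit 231) (nat_lit 5) (nat_lit 240) (nat_lit 5) (nat_lit 232) (nat_lit 5) (nat_lit 437) (nat_lit 415) (nat_lit 168))) (XT.nd (nat_lit 78) (nat_lit 0) (nat_lit 0) (XT.lf (nat_lit 0) (nat_lit 21825162104) (nat_lit 608) (nat_lit 5528253807) (nat_lit 684) (nat_lit 26232202181) (nat_lit 223) (nat_lit 5) (nat_lit 231) (nat_lit 5) (nat_lit 232)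 (nat_lit 5) (nat_lit 438) (nat_lit 415) (nat_lit 167)) (XT.lf (nat_lit 0) (nat_lit 33521169490) (nat_lit 684) (nat_lit 3260540265) (nat_lit 76) (nat_lit 17702159110) (nat_lit 223) (nat_lit 5) (nat_lit 232) (nat_lit 5) (nat_lit 224) (nat_lit 5) (nat_lit 439) (nat_lit 415) (nat_lit 166)))))) (XT.nd (nat_lit 546) (nat_lit 2280) (nat_lit 0) (XT.nd (nat_lit 234) (nat_lit 1064) (nat_lit 0) (XT.nd (nat_lit 78) (nat_lit 532) (nat_lit 0) (XT.lf (nat_lit 0) (nat_lit 26556858221) (nat_lit 532) (nat_lit 13626128164) (nat_lit 608) (nat_lit 15216810146) (nat_lit 216) (nat_lit 5) (nat_lit 223) (nat_lit 5) (nat_lit 224) (nat_lit 5) (nat_lit 440) (nat_lit 415) (nat_lit 165)) (XT.nd (nat_lit 78) (nat_lit 0) (nat_lit 0) (XT.lf (nat_lit 0) (nat_lit 911564969) (nat_lit 532) (nat_lit 46272420609) (nat_lit 608) (nat_lit 9155036898) (nat_lit 209) (nat_lit 5) (nat_lit 216) (nat_lit 5) (nat_lit 217) (nat_lit 5) (nat_lit 441) (nat_lit 415)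 (nat_lit 164)) (XT.lf (nat_lit 0) (nat_lit 32011349398) (nat_lit 532) (nat_lit 22807564122) (nat_lit 608) (nat_lit 2474794990) (nat_lit 209) (nat_lit 5) (nat_lit 216) (nat_lit 5) (nat_lit 217) (nat_lit 5) (nat_lit 442) (nat_lit 415) (nat_lit 163)))) (XT.nd (nat_lit 156) (nat_lit 532) (nat_lit 0) (XT.nd (nat_lit 78) (nat_lit 0) (nat_lit 0) (XT.lf (nat_lit 0) (nat_lit 4389124920) (nat_lit 532) (nat_lit 52450512525) (nat_lit 76) (nat_lit 1434050040) (nat_lit 202) (nat_lit 5) (nat_lit 209) (nat_lit 5) (nat_lit 203) (nat_lit 5) (nat_lit 443) (nat_lit 415) (nat_lit 162)) (XT.lf (nat_lit 0) (nat_lit 11891956201) (nat_lit 532) (nat_lit 21149131466) (nat_lit 76) (nat_lit 26226761286) (nat_lit 202) (nat_lit 5) (nat_lit 209) (nat_lit 5) (nat_lit 203) (nat_lit 5) (nat_lit 444) (nat_lit 415) (nat_lit 161))) (XT.nd (nat_lit 78) (nat_lit 0) (nat_lit 0) (XT.lf (nat_lit 0) (nat_lit 11311024212) (nat_lit 532) (nat_lit 8416690513)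 (nat_lit 608) (nat_lit 40560885513) (nat_lit 195) (nat_lit 5) (nat_lit 202) (nat_lit 5) (nat_lit 203) (nat_lit 5) (nat_lit 445) (nat_lit 415) (nat_lit 160)) (XT.lf (nat_lit 0) (nat_lit 28176254032) (nat_lit 608) (nat_lit 16321061414) (nat_lit 76) (nat_lit 16831327613) (nat_lit 195) (nat_lit 5) (nat_lit 203) (nat_lit 5) (nat_lit 196) (nat_lit 5) (nat_lit 446) (nat_lit 415) (nat_lit 159))))) (XT.nd (nat_lit 312) (nat_lit 1292) (nat_lit 0) (XT.nd (nat_lit 156) (nat_lit 532) (nat_lit 0) (XT.nd (nat_lit 78) (nat_lit 0) (nat_lit 0) (XT.lf (nat_lit 0) (nat_lit 17573770512) (nat_lit 456) (nat_lit 19555897000) (nat_lit 532) (nat_lit 25262677342) (nat_lit 189) (nat_lit 5) (nat_lit 195) (nat_lit 5) (nat_lit 196) (nat_lit 5) (nat_lit 447) (nat_lit 415) (nat_lit 158)) (XT.lf (nat_lit 0) (nat_lit 46576256086) (nat_lit 532) (nat_lit 10724579943) (nat_lit 76) (nat_lit 6180384717) (nat_lit 189) (nat_lit 5) (nat_lit 196) (nat_lit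 5) (nat_lit 190) (nat_lit 5) (nat_lit 448) (nat_lit 415) (nat_lit 157))) (XT.nd (nat_lit 78) (nat_lit 76) (nat_lit 0) (XT.lf (nat_lit 0) (nat_lit 24679234599) (nat_lit 456) (nat_lit 32057055261) (nat_lit 532) (nat_lit 7853571843) (nat_lit 183) (nat_lit 5) (nat_lit 189) (nat_lit 5) (nat_lit 190) (nat_lit 5) (nat_lit 449) (nat_lit 415) (nat_lit 156)) (XT.lf (nat_lit 0) (nat_lit 1549258914) (nat_lit 532) (nat_lit 4379667140) (nat_lit 76) (nat_lit 59799155246) (nat_lit 182) (nat_lit 5) (nat_lit 189) (nat_lit 5) (nat_lit 183) (nat_lit 5) (nat_lit 450) (nat_lit 415) (nat_lit 155)))) (XT.nd (nat_lit 156) (nat_lit 380) (nat_lit 0) (XT.nd (nat_lit 78) (nat_lit 456) (nat_lit 0) (XT.lf (nat_lit 0) (nat_lit 11596221618) (nat_lit 532) (nat_lit 34316128807) (nat_lit 76) (nat_lit 20970167634) (nat_lit 176) (nat_lit 5) (nat_lit 183) (nat_lit 5) (nat_lit 177) (nat_lit 5) (nat_lit 451) (nat_lit 415) (nat_lit 154)) (XT.lf (nat_lit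 0) (nat_lit 2631608403) (nat_lit 456) (nat_lit 19440882321) (nat_lit 532) (nat_lit 45995260463) (nat_lit 170) (nat_lit 5) (nat_lit 176) (nat_lit 5) (nat_lit 177) (nat_lit 5) (nat_lit 452) (nat_lit 415) (nat_lit 153))) (XT.nd (nat_lit 78) (nat_lit 380) (nat_lit 0) (XT.lf (nat_lit 0) (nat_lit 33287466734) (nat_lit 532) (nat_lit 27966528211) (nat_lit 76) (nat_lit 8021813984) (nat_lit 170) (nat_lit 5) (nat_lit 177) (nat_lit 5) (nat_lit 171) (nat_lit 5) (nat_lit 453) (nat_lit 415) (nat_lit 152)) (XT.lf (nat_lit 0) (nat_lit 10641410676) (nat_lit 380) (nat_lit 34491525216) (nat_lit 456) (nat_lit 25378351378) (nat_lit 165) (nat_lit 5) (nat_lit 170) (nat_lit 5) (nat_lit 171) (nat_lit 5) (nat_lit 454) (nat_lit 415) (nat_lit 151))))))) (XT.nd (nat_lit 1092) (nat_lit 0) (nat_lit 0) (XT.nd (nat_lit 546) (nat_lit 1444) (nat_lit 0) (XT.nd (nat_lit 234) (nat_lit 1064) (nat_lit 0) (XT.nd (nat_lit 78) (nat_lit 456) (nat_lit 0) (XT.lf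 (nat_lit 0) (nat_lit 50979950893) (nat_lit 380) (nat_lit 6635505909) (nat_lit 456) (nat_lit 14159922705) (nat_lit 165) (nat_lit 5) (nat_lit 170) (nat_lit 5) (nat_lit 171) (nat_lit 5) (nat_lit 455) (nat_lit 415) (nat_lit 150)) (XT.nd (nat_lit 78) (nat_lit 76) (nat_lit 0) (XT.lf (nat_lit 0) (nat_lit 19621199875) (nat_lit 380) (nat_lit 51251181698) (nat_lit 456) (nat_lit 2193015261) (nat_lit 160) (nat_lit 5) (nat_lit 165) (nat_lit 5) (nat_lit 166) (nat_lit 5) (nat_lit 456) (nat_lit 415) (nat_lit 149)) (XT.lf (nat_lit 0) (nat_lit 10212244643) (nat_lit 456) (nat_lit 12877303228) (nat_lit 76) (nat_lit 51293332626) (nat_lit 159) (nat_lit 5) (nat_lit 165) (nat_lit 5) (nat_lit 160) (nat_lit 5) (nat_lit 457) (nat_lit 415) (nat_lit 148)))) (XT.nd (nat_lit 156) (nat_lit 684) (nat_lit 0) (XT.nd (nat_lit 78) (nat_lit 0) (nat_lit 0) (XT.lf (nat_lit 0) (nat_lit 23287979688) (nat_lit 456) (nat_lit 46331817670) (nat_lit 76) (nat_lit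 6109168233) (nat_lit 154) (nat_lit 5) (nat_lit 160) (nat_lit 5) (nat_lit 155) (nat_lit 5) (nat_lit 458) (nat_lit 415) (nat_lit 147)) (XT.lf (nat_lit 0) (nat_lit 37115252799) (nat_lit 456) (nat_lit 4138527331) (nat_lit 76) (nat_lit 35850875279) (nat_lit 154) (nat_lit 5) (nat_lit 160) (nat_lit 5) (nat_lit 155) (nat_lit 5) (nat_lit 459) (nat_lit 415) (nat_lit 146))) (XT.nd (nat_lit 78) (nat_lit 304) (nat_lit 0) (XT.lf (nat_lit 0) (nat_lit 40102223856) (nat_lit 380) (nat_lit 11639960400) (nat_lit 456) (nat_lit 26767886610) (nat_lit 149) (nat_lit 5) (nat_lit 154) (nat_lit 5) (nat_lit 155) (nat_lit 5) (nat_lit 460) (nat_lit 415) (nat_lit 145)) (XT.lf (nat_lit 0) (nat_lit 5727793565) (nat_lit 304) (nat_lit 61358070964) (nat_lit 380) (nat_lit 12863446173) (nat_lit 145) (nat_lit 5) (nat_lit 149) (nat_lit 5) (nat_lit 150) (nat_lit 5) (nat_lit 461) (nat_lit 415) (nat_lit 144))))) (XT.nd (nat_lit 234) (nat_lit 988) (nat_lit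 0) (XT.nd (nat_lit 78) (nat_lit 380) (nat_lit 0) (XT.lf (nat_lit 0) (nat_lit 1935970409) (nat_lit 380) (nat_lit 29579258631) (nat_lit 76) (nat_lit 49900889449) (nat_lit 144) (nat_lit 5) (nat_lit 149) (nat_lit 5) (nat_lit 145) (nat_lit 5) (nat_lit 462) (nat_lit 415) (nat_lit 143)) (XT.nd (nat_lit 78) (nat_lit 0) (nat_lit 0) (XT.lf (nat_lit 0) (nat_lit 16597928852) (nat_lit 380) (nat_lit 481831178) (nat_lit 456) (nat_lit 65838581793) (nat_lit 139) (nat_lit 5) (nat_lit 144) (nat_lit 5) (nat_lit 145) (nat_lit 5) (nat_lit 463) (nat_lit 415) (nat_lit 142)) (XT.lf (nat_lit 0) (nat_lit 33281533891) (nat_lit 456) (nat_lit 19996351154) (nat_lit 76) (nat_lit 31169636822) (nat_lit 139) (nat_lit 5) (nat_lit 145) (nat_lit 5) (nat_lit 140) (nat_lit 5) (nat_lit 464) (nat_lit 415) (nat_lit 141)))) (XT.nd (nat_lit 156) (nat_lit 684) (nat_lit 0) (XT.nd (nat_lit 78) (nat_lit 0) (nat_lit 0) (XT.lf (nat_lit 0) (nat_lit 28263335983)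 (nat_lit 304) (nat_lit 21981888780) (nat_lit 380) (nat_lit 35769076760) (nat_lit 135) (nat_lit 5) (nat_lit 139) (nat_lit 5) (nat_lit 140) (nat_lit 5) (nat_lit 465) (nat_lit 415) (nat_lit 140)) (XT.lf (nat_lit 0) (nat_lit 68019722973) (nat_lit 380) (nat_lit 9342717012) (nat_lit 76) (nat_lit 10256587805) (nat_lit 135) (nat_lit 5) (nat_lit 140) (nat_lit 5) (nat_lit 136) (nat_lit 5) (nat_lit 466) (nat_lit 415) (nat_lit 139))) (XT.nd (nat_lit 78) (nat_lit 380) (nat_lit 0) (XT.lf (nat_lit 0) (nat_lit 41101344344) (nat_lit 304) (nat_lit 45838277976) (nat_lit 380) (nat_lit 2313908654) (nat_lit 131) (nat_lit 5) (nat_lit 135) (nat_lit 5) (nat_lit 136) (nat_lit 5) (nat_lit 467) (nat_lit 415) (nat_lit 138)) (XT.lf (nat_lit 0) (nat_lit 2208435052) (nat_lit 304) (nat_lit 13095289200) (nat_lit 380) (nat_lit 75625399872) (nat_lit 126) (nat_lit 5) (nat_lit 130) (nat_lit 5) (nat_lit 131) (nat_lit 5) (nat_lit 468) (nat_lit 415) (nat_lit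 137)))))) (XT.nd (nat_lit 49452) (nat_lit 0) (nat_lit 10184) (XT.nd (nat_lit 49140) (nat_lit 0) (nat_lit 10032) (XT.nd (nat_lit 48984) (nat_lit 0) (nat_lit 9956) (XT.lf (nat_lit 0) (nat_lit 34092185353) (nat_lit 380) (nat_lit 37800318879) (nat_lit 76) (nat_lit 20741129449) (nat_lit 126) (nat_lit 5) (nat_lit 131) (nat_lit 5) (nat_lit 127) (nat_lit 5) (nat_lit 469) (nat_lit 415) (nat_lit 136)) (XT.nd (nat_lit 78) (nat_lit 0) (nat_lit 0) (XT.lf (nat_lit 0) (nat_lit 5609668480) (nat_lit 1292) (nat_lit 6816449071) (nat_lit 1292) (nat_lit 6816449071) (nat_lit 257) (nat_lit 3) (nat_lit 274) (nat_lit 3) (nat_lit 274) (nat_lit 5) (nat_lit 416) (nat_lit 416) (nat_lit 188)) (XT.lf (nat_lit 76) (nat_lit 5170300143) (nat_lit 0) (nat_lit 6310720005) (nat_lit 1292) (nat_lit 27578574012) (nat_lit 258) (nat_lit 5) (nat_lit 257) (nat_lit 3) (nat_lit 274) (nat_lit 5) (nat_lit 417) (nat_lit 416) (nat_lit 187)))) (XT.nd (nat_lit 156)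 (nat_lit 0) (nat_lit 76) (XT.nd (nat_lit 78) (nat_lit 0) (nat_lit 0) (XT.lf (nat_lit 0) (nat_lit 12010793285) (nat_lit 1216) (nat_lit 14955339178) (nat_lit 1292) (nat_lit 12677349814) (nat_lit 258) (nat_lit 5) (nat_lit 274) (nat_lit 5) (nat_lit 275) (nat_lit 5) (nat_lit 418) (nat_lit 416) (nat_lit 186)) (XT.lf (nat_lit 76) (nat_lit 4572448933) (nat_lit 0) (nat_lit 8088789956) (nat_lit 1292) (nat_lit 27580505311) (nat_lit 259) (nat_lit 5) (nat_lit 258) (nat_lit 5) (nat_lit 275) (nat_lit 5) (nat_lit 419) (nat_lit 416) (nat_lit 185))) (XT.nd (nat_lit 78) (nat_lit 0) (nat_lit 0) (XT.lf (nat_lit 0) (nat_lit 13591252530) (nat_lit 1216) (nat_lit 15972402730) (nat_lit 1292) (nat_lit 11286497606) (nat_lit 259) (nat_lit 5) (nat_lit 275) (nat_lit 5) (nat_lit 276) (nat_lit 5) (nat_lit 420) (nat_lit 416) (nat_lit 184)) (XT.lf (nat_lit 76) (nat_lit 4318635483) (nat_lit 0) (nat_lit 10350568229) (nat_lit 1292) (nat_lit 26804009477)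 (nat_lit 260) (nat_lit 5) (nat_lit 259) (nat_lit 5) (nat_lit 276) (nat_lit 5) (nat_lit 421) (nat_lit 416) (nat_lit 183))))) (XT.nd (nat_lit 312) (nat_lit 0) (nat_lit 152) (XT.nd (nat_lit 156) (nat_lit 0) (nat_lit 76) (XT.nd (nat_lit 78) (nat_lit 0) (nat_lit 0) (XT.lf (nat_lit 0) (nat_lit 16031591831) (nat_lit 1216) (nat_lit 16657621599) (nat_lit 1292) (nat_lit 9418189435) (nat_lit 260) (nat_lit 5) (nat_lit 276) (nat_lit 5) (nat_lit 277) (nat_lit 5) (nat_lit 422) (nat_lit 416) (nat_lit 182)) (XT.lf (nat_lit 76) (nat_lit 4437391722) (nat_lit 0) (nat_lit 13141118904) (nat_lit 1292) (nat_lit 25177798314) (nat_lit 261) (nat_lit 5) (nat_lit 260) (nat_lit 5) (nat_lit 277) (nat_lit 5) (nat_lit 423) (nat_lit 416) (nat_lit 181))) (XT.nd (nat_lit 78) (nat_lit 0) (nat_lit 0) (XT.lf (nat_lit 0) (nat_lit 19407498598) (nat_lit 1216) (nat_lit 16982805184) (nat_lit 1292) (nat_lit 7027309035) (nat_lit 261) (nat_lit 5) (nat_lit 277)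 (nat_lit 5) (nat_lit 278) (nat_lit 5) (nat_lit 424) (nat_lit 416) (nat_lit 180)) (XT.lf (nat_lit 76) (nat_lit 4959079565) (nat_lit 0) (nat_lit 16508660167) (nat_lit 1292) (nat_lit 22625725028) (nat_lit 262) (nat_lit 5) (nat_lit 261) (nat_lit 5) (nat_lit 278) (nat_lit 5) (nat_lit 425) (nat_lit 416) (nat_lit 179)))) (XT.nd (nat_lit 156) (nat_lit 0) (nat_lit 76) (XT.nd (nat_lit 78) (nat_lit 0) (nat_lit 0) (XT.lf (nat_lit 0) (nat_lit 23799774750) (nat_lit 1216) (nat_lit 16917956145) (nat_lit 1292) (nat_lit 4065562206) (nat_lit 262) (nat_lit 5) (nat_lit 278) (nat_lit 5) (nat_lit 279) (nat_lit 5) (nat_lit 426) (nat_lit 416) (nat_lit 178)) (XT.lf (nat_lit 76) (nat_lit 5915979231) (nat_lit 0) (nat_lit 20504790367) (nat_lit 1292) (nat_lit 19066477157) (nat_lit 263) (nat_lit 5) (nat_lit 262) (nat_lit 5) (nat_lit 279) (nat_lit 5) (nat_lit 427) (nat_lit 416) (nat_lit 177))) (XT.nd (nat_lit 78) (nat_lit 0) (nat_lit 0) (XT.lf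 (nat_lit 0) (nat_lit 29294658485) (nat_lit 1216) (nat_lit 16431183949) (nat_lit 1292) (nat_lit 481249074) (nat_lit 263) (nat_lit 5) (nat_lit 279) (nat_lit 5) (nat_lit 280) (nat_lit 5) (nat_lit 428) (nat_lit 416) (nat_lit 176)) (XT.lf (nat_lit 76) (nat_lit 7342380839) (nat_lit 0) (nat_lit 25184728929) (nat_lit 1292) (nat_lit 14413251867) (nat_lit 264) (nat_lit 5) (nat_lit 263) (nat_lit 5) (nat_lit 280) (nat_lit 5) (nat_lit 429) (nat_lit 416) (nat_lit 175))))))))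
noncomputable def xc239 : XT := (XT.nd (nat_lit 2262) (nat_lit 2508) (nat_lit 0) (XT.nd (nat_lit 1092) (nat_lit 3800) (nat_lit 0) (XT.nd (nat_lit 546) (nat_lit 2280) (nat_lit 0) (XT.nd (nat_lit 234) (nat_lit 1824) (nat_lit 0) (XT.nd (nat_lit 78) (nat_lit 0) (nat_lit 76) (XT.lf (nat_lit 76) (nat_lit 32165005479) (nat_lit 0) (nat_lit 3856227522) (nat_lit 1292) (nat_lit 11669456304) (nat_lit 264) (nat_lit 5) (nat_lit 263) (nat_lit 5) (nat_lit 280) (nat_lit 5) (nat_lit 430) (nat_lit 416) (nat_lit 174)) (XT.nd (nat_lit 78) (nat_lit 0) (nat_lit 0) (XT.lf (nat_lit 76) (nat_lit 9274679178) (nat_lit 0) (nat_lit 30607573209) (nat_lit 1292) (nat_lit 8573412623) (nat_lit 265) (nat_lit 5) (nat_lit 264) (nat_lit 5) (nat_lit 281) (nat_lit 5) (nat_lit 431) (nat_lit 416) (nat_lit 173)) (XT.lf (nat_lit 76) (nat_lit 35097403240) (nat_lit 0) (nat_lit 8955123155) (nat_lit 1292) (nat_lit 5185261240) (nat_lit 265) (nat_lit 5) (nat_lit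 264) (nat_lit 5) (nat_lit 281) (nat_lit 5) (nat_lit 432) (nat_lit 416) (nat_lit 172)))) (XT.nd (nat_lit 156) (nat_lit 684) (nat_lit 0) (XT.nd (nat_lit 78) (nat_lit 76) (nat_lit 0) (XT.lf (nat_lit 0) (nat_lit 11751471579) (nat_lit 1216) (nat_lit 36836572465) (nat_lit 1292) (nat_lit 1448126189) (nat_lit 249) (nat_lit 5) (nat_lit 265) (nat_lit 5) (nat_lit 266) (nat_lit 5) (nat_lit 433) (nat_lit 416) (nat_lit 171)) (XT.lf (nat_lit 0) (nat_lit 2586023594) (nat_lit 1292) (nat_lit 12258424138) (nat_lit 76) (nat_lit 36006411826) (nat_lit 248) (nat_lit 5) (nat_lit 265) (nat_lit 5) (nat_lit 249) (nat_lit 5) (nat_lit 434) (nat_lit 416) (nat_lit 170))) (XT.nd (nat_lit 78) (nat_lit 0) (nat_lit 0) (XT.lf (nat_lit 0) (nat_lit 6930098559) (nat_lit 760) (nat_lit 36939341231) (nat_lit 76) (nat_lit 7813579766) (nat_lit 239) (nat_lit 5) (nat_lit 249) (nat_lit 5) (nat_lit 240) (nat_lit 5) (nat_lit 435) (nat_lit 416) (nat_lit 169))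 (XT.lf (nat_lit 0) (nat_lit 11675424646) (nat_lit 760) (nat_lit 9878487715) (nat_lit 76) (nat_lit 30978104446) (nat_lit 239) (nat_lit 5) (nat_lit 249) (nat_lit 5) (nat_lit 240) (nat_lit 5) (nat_lit 436) (nat_lit 416) (nat_lit 168))))) (XT.nd (nat_lit 234) (nat_lit 1064) (nat_lit 0) (XT.nd (nat_lit 78) (nat_lit 608) (nat_lit 0) (XT.lf (nat_lit 0) (nat_lit 16753991730) (nat_lit 684) (nat_lit 35065392006) (nat_lit 76) (nat_lit 1581374111) (nat_lit 231) (nat_lit 5) (nat_lit 240) (nat_lit 5) (nat_lit 232) (nat_lit 5) (nat_lit 437) (nat_lit 416) (nat_lit 167)) (XT.nd (nat_lit 78) (nat_lit 608) (nat_lit 0) (XT.lf (nat_lit 0) (nat_lit 22298056552) (nat_lit 684) (nat_lit 6909806002) (nat_lit 76) (nat_lit 25078304641) (nat_lit 231) (nat_lit 5) (nat_lit 240) (nat_lit 5) (nat_lit 232) (nat_lit 5) (nat_lit 438) (nat_lit 416) (nat_lit 166)) (XT.lf (nat_lit 0) (nat_lit 22529121330) (nat_lit 608) (nat_lit 5694909608) (nat_lit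 684) (nat_lit 26967640549) (nat_lit 223) (nat_lit 5) (nat_lit 231) (nat_lit 5) (nat_lit 232) (nat_lit 5) (nat_lit 439) (nat_lit 416) (nat_lit 165)))) (XT.nd (nat_lit 156) (nat_lit 532) (nat_lit 0) (XT.nd (nat_lit 78) (nat_lit 532) (nat_lit 0) (XT.lf (nat_lit 0) (nat_lit 34575352905) (nat_lit 684) (nat_lit 3309106687) (nat_lit 76) (nat_lit 18232454548) (nat_lit 223) (nat_lit 5) (nat_lit 232) (nat_lit 5) (nat_lit 224) (nat_lit 5) (nat_lit 440) (nat_lit 416) (nat_lit 164)) (XT.lf (nat_lit 0) (nat_lit 27402330913) (nat_lit 532) (nat_lit 14033748142) (nat_lit 608) (nat_lit 15624269355) (nat_lit 216) (nat_lit 5) (nat_lit 223) (nat_lit 5) (nat_lit 224) (nat_lit 5) (nat_lit 441) (nat_lit 416) (nat_lit 163))) (XT.nd (nat_lit 78) (nat_lit 0) (nat_lit 0) (XT.lf (nat_lit 0) (nat_lit 988617557) (nat_lit 532) (nat_lit 47657592832) (nat_lit 608) (nat_lit 9381568085) (nat_lit 209) (nat_lit 5) (nat_lit 216) (nat_lit 5) (nat_lit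 217) (nat_lit 5) (nat_lit 442) (nat_lit 416) (nat_lit 162)) (XT.lf (nat_lit 0) (nat_lit 33019947782) (nat_lit 532) (nat_lit 23488878041) (nat_lit 608) (nat_lit 2502320470) (nat_lit 209) (nat_lit 5) (nat_lit 216) (nat_lit 5) (nat_lit 217) (nat_lit 5) (nat_lit 443) (nat_lit 416) (nat_lit 161)))))) (XT.nd (nat_lit 546) (nat_lit 1824) (nat_lit 0) (XT.nd (nat_lit 234) (nat_lit 912) (nat_lit 0) (XT.nd (nat_lit 78) (nat_lit 532) (nat_lit 0) (XT.lf (nat_lit 0) (nat_lit 4565775490) (nat_lit 532) (nat_lit 53974003337) (nat_lit 76) (nat_lit 1480757607) (nat_lit 202) (nat_lit 5) (nat_lit 209) (nat_lit 5) (nat_lit 203) (nat_lit 5) (nat_lit 444) (nat_lit 416) (nat_lit 160)) (XT.nd (nat_lit 78) (nat_lit 532) (nat_lit 0) (XT.lf (nat_lit 0) (nat_lit 12292381704) (nat_lit 532) (nat_lit 21735037873) (nat_lit 76) (nat_lit 27017142828) (nat_lit 202) (nat_lit 5) (nat_lit 209) (nat_lit 5) (nat_lit 203) (nat_lit 5) (nat_lit 445) (nat_lit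 416) (nat_lit 159)) (XT.lf (nat_lit 0) (nat_lit 11698446323) (nat_lit 532) (nat_lit 8663957096) (nat_lit 608) (nat_lit 41733557447) (nat_lit 195) (nat_lit 5) (nat_lit 202) (nat_lit 5) (nat_lit 203) (nat_lit 5) (nat_lit 446) (nat_lit 416) (nat_lit 158)))) (XT.nd (nat_lit 156) (nat_lit 456) (nat_lit 0) (XT.nd (nat_lit 78) (nat_lit 456) (nat_lit 0) (XT.lf (nat_lit 0) (nat_lit 29063199485) (nat_lit 608) (nat_lit 16762791849) (nat_lit 76) (nat_lit 17341249961) (nat_lit 195) (nat_lit 5) (nat_lit 203) (nat_lit 5) (nat_lit 196) (nat_lit 5) (nat_lit 447) (nat_lit 416) (nat_lit 157)) (XT.lf (nat_lit 0) (nat_lit 18148415414) (nat_lit 456) (nat_lit 20136042564) (nat_lit 532) (nat_lit 25978419217) (nat_lit 189) (nat_lit 5) (nat_lit 195) (nat_lit 5) (nat_lit 196) (nat_lit 5) (nat_lit 448) (nat_lit 416) (nat_lit 156))) (XT.nd (nat_lit 78) (nat_lit 456) (nat_lit 0) (XT.lf (nat_lit 0) (nat_lit 48013313888) (nat_lit 532) (nat_lit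 10999126071) (nat_lit 76) (nat_lit 6372013633) (nat_lit 189) (nat_lit 5) (nat_lit 196) (nat_lit 5) (nat_lit 190) (nat_lit 5) (nat_lit 449) (nat_lit 416) (nat_lit 155)) (XT.lf (nat_lit 0) (nat_lit 25466340247) (nat_lit 456) (nat_lit 33011099259) (nat_lit 532) (nat_lit 8048935859) (nat_lit 183) (nat_lit 5) (nat_lit 189) (nat_lit 5) (nat_lit 190) (nat_lit 5) (nat_lit 450) (nat_lit 416) (nat_lit 154))))) (XT.nd (nat_lit 312) (nat_lit 836) (nat_lit 0) (XT.nd (nat_lit 156) (nat_lit 456) (nat_lit 0) (XT.nd (nat_lit 78) (nat_lit 456) (nat_lit 0) (XT.lf (nat_lit 0) (nat_lit 1634045275) (nat_lit 532) (nat_lit 4464917389) (nat_lit 76) (nat_lit 61599802051) (nat_lit 182) (nat_lit 5) (nat_lit 189) (nat_lit 5) (nat_lit 183) (nat_lit 5) (nat_lit 451) (nat_lit 416) (nat_lit 153)) (XT.lf (nat_lit 0) (nat_lit 11981817684) (nat_lit 532) (nat_lit 35298864249) (nat_lit 76) (nat_lit 21607170903) (nat_lit 176) (nat_lit 5) (nat_lit 183)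 (nat_lit 5) (nat_lit 177) (nat_lit 5) (nat_lit 452) (nat_lit 416) (nat_lit 152))) (XT.nd (nat_lit 78) (nat_lit 0) (nat_lit 0) (XT.lf (nat_lit 0) (nat_lit 2756846759) (nat_lit 456) (nat_lit 20014874741) (nat_lit 532) (nat_lit 47336941335) (nat_lit 170) (nat_lit 5) (nat_lit 176) (nat_lit 5) (nat_lit 177) (nat_lit 5) (nat_lit 453) (nat_lit 416) (nat_lit 151)) (XT.lf (nat_lit 0) (nat_lit 34322153666) (nat_lit 532) (nat_lit 28759580146) (nat_lit 76) (nat_lit 8271258560) (nat_lit 170) (nat_lit 5) (nat_lit 177) (nat_lit 5) (nat_lit 171) (nat_lit 5) (nat_lit 454) (nat_lit 416) (nat_lit 150)))) (XT.nd (nat_lit 156) (nat_lit 456) (nat_lit 0) (XT.nd (nat_lit 78) (nat_lit 0) (nat_lit 0) (XT.lf (nat_lit 0) (nat_lit 11006146477) (nat_lit 380) (nat_lit 35516227357) (nat_lit 456) (nat_lit 26103179882) (nat_lit 165) (nat_lit 5) (nat_lit 170) (nat_lit 5) (nat_lit 171) (nat_lit 5) (nat_lit 455) (nat_lit 416) (nat_lit 149)) (XT.lf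 (nat_lit 0) (nat_lit 52553517847) (nat_lit 380) (nat_lit 6824820003) (nat_lit 456) (nat_lit 14549262098) (nat_lit 165) (nat_lit 5) (nat_lit 170) (nat_lit 5) (nat_lit 171) (nat_lit 5) (nat_lit 456) (nat_lit 416) (nat_lit 148))) (XT.nd (nat_lit 78) (nat_lit 76) (nat_lit 0) (XT.lf (nat_lit 0) (nat_lit 20254509200) (nat_lit 380) (nat_lit 52777979149) (nat_lit 456) (nat_lit 2223844153) (nat_lit 160) (nat_lit 5) (nat_lit 165) (nat_lit 5) (nat_lit 166) (nat_lit 5) (nat_lit 457) (nat_lit 416) (nat_lit 147)) (XT.lf (nat_lit 0) (nat_lit 10551892896) (nat_lit 456) (nat_lit 13219580096) (nat_lit 76) (nat_lit 52841887783) (nat_lit 159) (nat_lit 5) (nat_lit 165) (nat_lit 5) (nat_lit 160) (nat_lit 5) (nat_lit 458) (nat_lit 416) (nat_lit 146))))))) (XT.nd (nat_lit 50076) (nat_lit 0) (nat_lit 9348) (XT.nd (nat_lit 546) (nat_lit 988) (nat_lit 0) (XT.nd (nat_lit 234) (nat_lit 760) (nat_lit 0) (XT.nd (nat_lit 78) (nat_lit 380) (nat_lit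 0) (XT.lf (nat_lit 0) (nat_lit 24019454437) (nat_lit 456) (nat_lit 47677276932) (nat_lit 76) (nat_lit 6303110644) (nat_lit 154) (nat_lit 5) (nat_lit 160) (nat_lit 5) (nat_lit 155) (nat_lit 5) (nat_lit 459) (nat_lit 416) (nat_lit 145)) (XT.nd (nat_lit 78) (nat_lit 380) (nat_lit 0) (XT.lf (nat_lit 0) (nat_lit 38260589372) (nat_lit 456) (nat_lit 4219483862) (nat_lit 76) (nat_lit 36936758202) (nat_lit 154) (nat_lit 5) (nat_lit 160) (nat_lit 5) (nat_lit 155) (nat_lit 5) (nat_lit 460) (nat_lit 416) (nat_lit 144)) (XT.lf (nat_lit 0) (nat_lit 41348066338) (nat_lit 380) (nat_lit 11977745107) (nat_lit 456) (nat_lit 27538613642) (nat_lit 149) (nat_lit 5) (nat_lit 154) (nat_lit 5) (nat_lit 155) (nat_lit 5) (nat_lit 461) (nat_lit 416) (nat_lit 143)))) (XT.nd (nat_lit 156) (nat_lit 380) (nat_lit 0) (XT.nd (nat_lit 78) (nat_lit 76) (nat_lit 0) (XT.lf (nat_lit 0) (nat_lit 5942813737) (nat_lit 304) (nat_lit 63186596601) (nat_lit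 380) (nat_lit 13217443740) (nat_lit 145) (nat_lit 5) (nat_lit 149) (nat_lit 5) (nat_lit 150) (nat_lit 5) (nat_lit 462) (nat_lit 416) (nat_lit 142)) (XT.lf (nat_lit 0) (nat_lit 2024421581) (nat_lit 380) (nat_lit 30424096961) (nat_lit 76) (nat_lit 51409165885) (nat_lit 144) (nat_lit 5) (nat_lit 149) (nat_lit 5) (nat_lit 145) (nat_lit 5) (nat_lit 463) (nat_lit 416) (nat_lit 141))) (XT.nd (nat_lit 78) (nat_lit 0) (nat_lit 0) (XT.lf (nat_lit 0) (nat_lit 17137989094) (nat_lit 380) (nat_lit 484056079) (nat_lit 456) (nat_lit 67782943866) (nat_lit 139) (nat_lit 5) (nat_lit 144) (nat_lit 5) (nat_lit 145) (nat_lit 5) (nat_lit 464) (nat_lit 416) (nat_lit 140)) (XT.lf (nat_lit 0) (nat_lit 34309115738) (nat_lit 456) (nat_lit 20554583579) (nat_lit 76) (nat_lit 32116368046) (nat_lit 139) (nat_lit 5) (nat_lit 145) (nat_lit 5) (nat_lit 140) (nat_lit 5) (nat_lit 465) (nat_lit 416) (nat_lit 139))))) (XT.nd (nat_lit 234) (nat_lit 380)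 (nat_lit 0) (XT.nd (nat_lit 78) (nat_lit 304) (nat_lit 0) (XT.lf (nat_lit 0) (nat_lit 29152485759) (nat_lit 304) (nat_lit 22628779478) (nat_lit 380) (nat_lit 36812598911) (nat_lit 135) (nat_lit 5) (nat_lit 139) (nat_lit 5) (nat_lit 140) (nat_lit 5) (nat_lit 466) (nat_lit 416) (nat_lit 138)) (XT.nd (nat_lit 78) (nat_lit 304) (nat_lit 0) (XT.lf (nat_lit 0) (nat_lit 70088280217) (nat_lit 380) (nat_lit 9582226361) (nat_lit 76) (nat_lit 10576247341) (nat_lit 135) (nat_lit 5) (nat_lit 140) (nat_lit 5) (nat_lit 136) (nat_lit 5) (nat_lit 467) (nat_lit 416) (nat_lit 137)) (XT.lf (nat_lit 0) (nat_lit 42374757108) (nat_lit 304) (nat_lit 47200592991) (nat_lit 380) (nat_lit 2354955061) (nat_lit 131) (nat_lit 5) (nat_lit 135) (nat_lit 5) (nat_lit 136) (nat_lit 5) (nat_lit 468) (nat_lit 416) (nat_lit 136)))) (XT.nd (nat_lit 49140) (nat_lit 0) (nat_lit 9956) (XT.nd (nat_lit 49062) (nat_lit 0) (nat_lit 9956) (XT.lf (nat_lit 0)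 (nat_lit 2315218273) (nat_lit 304) (nat_lit 13475014331) (nat_lit 380) (nat_lit 77865938095) (nat_lit 126) (nat_lit 5) (nat_lit 130) (nat_lit 5) (nat_lit 131) (nat_lit 5) (nat_lit 469) (nat_lit 416) (nat_lit 135)) (XT.lf (nat_lit 0) (nat_lit 5821231576) (nat_lit 1292) (nat_lit 6998649851) (nat_lit 1292) (nat_lit 6998649851) (nat_lit 257) (nat_lit 3) (nat_lit 274) (nat_lit 3) (nat_lit 274) (nat_lit 5) (nat_lit 417) (nat_lit 417) (nat_lit 186))) (XT.nd (nat_lit 78) (nat_lit 0) (nat_lit 76) (XT.lf (nat_lit 76) (nat_lit 5369557420) (nat_lit 0) (nat_lit 6540343035) (nat_lit 1292) (nat_lit 28318920558) (nat_lit 258) (nat_lit 5) (nat_lit 257) (nat_lit 3) (nat_lit 274) (nat_lit 5) (nat_lit 418) (nat_lit 417) (nat_lit 185)) (XT.lf (nat_lit 0) (nat_lit 12452730968) (nat_lit 1216) (nat_lit 15358274453) (nat_lit 1292) (nat_lit 13019306227) (nat_lit 258) (nat_lit 5) (nat_lit 274) (nat_lit 5) (nat_lit 275) (nat_lit 5) (nat_lit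 419) (nat_lit 417) (nat_lit 184)))))) (XT.nd (nat_lit 546) (nat_lit 684) (nat_lit 0) (XT.nd (nat_lit 234) (nat_lit 0) (nat_lit 152) (XT.nd (nat_lit 78) (nat_lit 0) (nat_lit 76) (XT.lf (nat_lit 76) (nat_lit 4754899018) (nat_lit 0) (nat_lit 8365849045) (nat_lit 1292) (nat_lit 28325832399) (nat_lit 259) (nat_lit 5) (nat_lit 258) (nat_lit 5) (nat_lit 275) (nat_lit 5) (nat_lit 420) (nat_lit 417) (nat_lit 183)) (XT.nd (nat_lit 78) (nat_lit 0) (nat_lit 0) (XT.lf (nat_lit 0) (nat_lit 14076020570) (nat_lit 1216) (nat_lit 16404950239) (nat_lit 1292) (nat_lit 11592350580) (nat_lit 259) (nat_lit 5) (nat_lit 275) (nat_lit 5) (nat_lit 276) (nat_lit 5) (nat_lit 421) (nat_lit 417) (nat_lit 182)) (XT.lf (nat_lit 76) (nat_lit 4494362016) (nat_lit 0) (nat_lit 10690148455) (nat_lit 1292) (nat_lit 27530617778) (nat_lit 260) (nat_lit 5) (nat_lit 259) (nat_lit 5) (nat_lit 276) (nat_lit 5) (nat_lit 422) (nat_lit 417) (nat_lit 181))))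 (XT.nd (nat_lit 156) (nat_lit 0) (nat_lit 76) (XT.nd (nat_lit 78) (nat_lit 0) (nat_lit 0) (XT.lf (nat_lit 0) (nat_lit 16585307815) (nat_lit 1216) (nat_lit 17110041336) (nat_lit 1292) (nat_lit 9673069048) (nat_lit 260) (nat_lit 5) (nat_lit 276) (nat_lit 5) (nat_lit 277) (nat_lit 5) (nat_lit 423) (nat_lit 417) (nat_lit 180)) (XT.lf (nat_lit 76) (nat_lit 4617358571) (nat_lit 0) (nat_lit 13559606443) (nat_lit 1292) (nat_lit 25859877208) (nat_lit 261) (nat_lit 5) (nat_lit 260) (nat_lit 5) (nat_lit 277) (nat_lit 5) (nat_lit 424) (nat_lit 417) (nat_lit 179))) (XT.nd (nat_lit 78) (nat_lit 0) (nat_lit 0) (XT.lf (nat_lit 0) (nat_lit 20058525425) (nat_lit 1216) (nat_lit 17444489118) (nat_lit 1292) (nat_lit 7215040259) (nat_lit 261) (nat_lit 5) (nat_lit 277) (nat_lit 5) (nat_lit 278) (nat_lit 5) (nat_lit 425) (nat_lit 417) (nat_lit 178)) (XT.lf (nat_lit 76) (nat_lit 5155183544) (nat_lit 0) (nat_lit 17023841292) (nat_lit 1292)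 (nat_lit 23235204586) (nat_lit 262) (nat_lit 5) (nat_lit 261) (nat_lit 5) (nat_lit 278) (nat_lit 5) (nat_lit 426) (nat_lit 417) (nat_lit 177))))) (XT.nd (nat_lit 312) (nat_lit 988) (nat_lit 0) (XT.nd (nat_lit 156) (nat_lit 0) (nat_lit 76) (XT.nd (nat_lit 78) (nat_lit 0) (nat_lit 0) (XT.lf (nat_lit 0) (nat_lit 24578876162) (nat_lit 1216) (nat_lit 17377376025) (nat_lit 1292) (nat_lit 4168565399) (nat_lit 262) (nat_lit 5) (nat_lit 278) (nat_lit 5) (nat_lit 279) (nat_lit 5) (nat_lit 427) (nat_lit 417) (nat_lit 176)) (XT.lf (nat_lit 76) (nat_lit 6141105660) (nat_lit 0) (nat_lit 21135956855) (nat_lit 1292) (nat_lit 19572871100) (nat_lit 263) (nat_lit 5) (nat_lit 262) (nat_lit 5) (nat_lit 279) (nat_lit 5) (nat_lit 428) (nat_lit 417) (nat_lit 175))) (XT.nd (nat_lit 78) (nat_lit 0) (nat_lit 0) (XT.lf (nat_lit 0) (nat_lit 30235164072) (nat_lit 1216) (nat_lit 16875836346) (nat_lit 1292) (nat_lit 480434008) (nat_lit 263) (nat_lit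 5) (nat_lit 279) (nat_lit 5) (nat_lit 280) (nat_lit 5) (nat_lit 429) (nat_lit 417) (nat_lit 174)) (XT.lf (nat_lit 76) (nat_lit 7610462022) (nat_lit 0) (nat_lit 25952790356) (nat_lit 1292) (nat_lit 14783490952) (nat_lit 264) (nat_lit 5) (nat_lit 263) (nat_lit 5) (nat_lit 280) (nat_lit 5) (nat_lit 430) (nat_lit 417) (nat_lit 173)))) (XT.nd (nat_lit 156) (nat_lit 1064) (nat_lit 0) (XT.nd (nat_lit 78) (nat_lit 0) (nat_lit 76) (XT.lf (nat_lit 76) (nat_lit 33176372883) (nat_lit 0) (nat_lit 3984069260) (nat_lit 1292) (nat_lit 11959191963) (nat_lit 264) (nat_lit 5) (nat_lit 263) (nat_lit 5) (nat_lit 280) (nat_lit 5) (nat_lit 431) (nat_lit 417) (nat_lit 172)) (XT.lf (nat_lit 76) (nat_lit 9600755885) (nat_lit 0) (nat_lit 31535176636) (nat_lit 1292) (nat_lit 8771667895) (nat_lit 265) (nat_lit 5) (nat_lit 264) (nat_lit 5) (nat_lit 281) (nat_lit 5) (nat_lit 432) (nat_lit 417) (nat_lit 171))) (XT.nd (nat_lit 78) (nat_lit 1140)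 (nat_lit 0) (XT.lf (nat_lit 76) (nat_lit 36196768377) (nat_lit 0) (nat_lit 9232879986) (nat_lit 1292) (nat_lit 5283588877) (nat_lit 265) (nat_lit 5) (nat_lit 264) (nat_lit 5) (nat_lit 281) (nat_lit 5) (nat_lit 433) (nat_lit 417) (nat_lit 170)) (XT.lf (nat_lit 0) (nat_lit 12151757604) (nat_lit 1216) (nat_lit 37948230057) (nat_lit 1292) (nat_lit 1435621486) (nat_lit 249) (nat_lit 5) (nat_lit 265) (nat_lit 5) (nat_lit 266) (nat_lit 5) (nat_lit 434) (nat_lit 417) (nat_lit 169))))))))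
noncomputable def xc240 : XT := (XT.nd (nat_lit 2184) (nat_lit 1064) (nat_lit 0) (XT.nd (nat_lit 1092) (nat_lit 3496) (nat_lit 0) (XT.nd (nat_lit 546) (nat_lit 2128) (nat_lit 0) (XT.nd (nat_lit 234) (nat_lit 1216) (nat_lit 0) (XT.nd (nat_lit 78) (nat_lit 684) (nat_lit 0) (XT.lf (nat_lit 0) (nat_lit 2716863266) (nat_lit 1292) (nat_lit 12578749426) (nat_lit 76) (nat_lit 37079158743) (nat_lit 248) (nat_lit 5) (nat_lit 265) (nat_lit 5) (nat_lit 249) (nat_lit 5) (nat_lit 435) (nat_lit 417) (nat_lit 168)) (XT.nd (nat_lit 78) (nat_lit 0) (nat_lit 0) (XT.lf (nat_lit 0) (nat_lit 7190110725) (nat_lit 760) (nat_lit 37998928606) (nat_lit 76) (nat_lit 8042891864) (nat_lit 239) (nat_lit 5) (nat_lit 249) (nat_lit 5) (nat_lit 240) (nat_lit 5) (nat_lit 436) (nat_lit 417) (nat_lit 167)) (XT.lf (nat_lit 0) (nat_lit 12076278851) (nat_lit 760) (nat_lit 10127664809) (nat_lit 76) (nat_lit 31902500691) (nat_lit 239) (nat_lit 5) (nat_lit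 249) (nat_lit 5) (nat_lit 240) (nat_lit 5) (nat_lit 437) (nat_lit 417) (nat_lit 166)))) (XT.nd (nat_lit 156) (nat_lit 608) (nat_lit 0) (XT.nd (nat_lit 78) (nat_lit 0) (nat_lit 0) (XT.lf (nat_lit 0) (nat_lit 17306151048) (nat_lit 684) (nat_lit 36069109558) (nat_lit 76) (nat_lit 1626019017) (nat_lit 231) (nat_lit 5) (nat_lit 240) (nat_lit 5) (nat_lit 232) (nat_lit 5) (nat_lit 438) (nat_lit 417) (nat_lit 165)) (XT.lf (nat_lit 0) (nat_lit 23015094915) (nat_lit 684) (nat_lit 7070261144) (nat_lit 76) (nat_lit 25827938909) (nat_lit 231) (nat_lit 5) (nat_lit 240) (nat_lit 5) (nat_lit 232) (nat_lit 5) (nat_lit 439) (nat_lit 417) (nat_lit 164))) (XT.nd (nat_lit 78) (nat_lit 0) (nat_lit 0) (XT.lf (nat_lit 0) (nat_lit 23251374801) (nat_lit 608) (nat_lit 5866518689) (nat_lit 684) (nat_lit 27728099969) (nat_lit 223) (nat_lit 5) (nat_lit 231) (nat_lit 5) (nat_lit 232) (nat_lit 5) (nat_lit 440) (nat_lit 417) (nat_lit 163)) (XT.lf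 (nat_lit 0) (nat_lit 35658374949) (nat_lit 684) (nat_lit 3361957240) (nat_lit 76) (nat_lit 18778703012) (nat_lit 223) (nat_lit 5) (nat_lit 232) (nat_lit 5) (nat_lit 224) (nat_lit 5) (nat_lit 441) (nat_lit 417) (nat_lit 162))))) (XT.nd (nat_lit 234) (nat_lit 1064) (nat_lit 0) (XT.nd (nat_lit 78) (nat_lit 532) (nat_lit 0) (XT.lf (nat_lit 0) (nat_lit 28270368364) (nat_lit 532) (nat_lit 14453663530) (nat_lit 608) (nat_lit 16046767730) (nat_lit 216) (nat_lit 5) (nat_lit 223) (nat_lit 5) (nat_lit 224) (nat_lit 5) (nat_lit 442) (nat_lit 417) (nat_lit 161)) (XT.nd (nat_lit 78) (nat_lit 0) (nat_lit 0) (XT.lf (nat_lit 0) (nat_lit 1065128416) (nat_lit 532) (nat_lit 49084492457) (nat_lit 608) (nat_lit 9617657487) (nat_lit 209) (nat_lit 5) (nat_lit 216) (nat_lit 5) (nat_lit 217) (nat_lit 5) (nat_lit 443) (nat_lit 417) (nat_lit 160)) (XT.lf (nat_lit 0) (nat_lit 34056033916) (nat_lit 532) (nat_lit 24190798595) (nat_lit 608) (nat_lit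 2533353541) (nat_lit 209) (nat_lit 5) (nat_lit 216) (nat_lit 5) (nat_lit 217) (nat_lit 5) (nat_lit 444) (nat_lit 417) (nat_lit 159)))) (XT.nd (nat_lit 156) (nat_lit 532) (nat_lit 0) (XT.nd (nat_lit 78) (nat_lit 0) (nat_lit 0) (XT.lf (nat_lit 0) (nat_lit 4745143723) (nat_lit 532) (nat_lit 55546070489) (nat_lit 76) (nat_lit 1528654805) (nat_lit 202) (nat_lit 5) (nat_lit 209) (nat_lit 5) (nat_lit 203) (nat_lit 5) (nat_lit 445) (nat_lit 417) (nat_lit 158)) (XT.lf (nat_lit 0) (nat_lit 12702313319) (nat_lit 532) (nat_lit 22341309447) (nat_lit 76) (nat_lit 27831030385) (nat_lit 202) (nat_lit 5) (nat_lit 209) (nat_lit 5) (nat_lit 203) (nat_lit 5) (nat_lit 446) (nat_lit 417) (nat_lit 157))) (XT.nd (nat_lit 78) (nat_lit 0) (nat_lit 0) (XT.lf (nat_lit 0) (nat_lit 12094730456) (nat_lit 532) (nat_lit 8918942137) (nat_lit 608) (nat_lit 42943944196) (nat_lit 195) (nat_lit 5) (nat_lit 202) (nat_lit 5) (nat_lit 203) (nat_lit 5)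 (nat_lit 447) (nat_lit 417) (nat_lit 156)) (XT.lf (nat_lit 0) (nat_lit 29974361970) (nat_lit 608) (nat_lit 17220523933) (nat_lit 76) (nat_lit 17866183963) (nat_lit 195) (nat_lit 5) (nat_lit 203) (nat_lit 5) (nat_lit 196) (nat_lit 5) (nat_lit 448) (nat_lit 417) (nat_lit 155)))))) (XT.nd (nat_lit 546) (nat_lit 1596) (nat_lit 0) (XT.nd (nat_lit 234) (nat_lit 988) (nat_lit 0) (XT.nd (nat_lit 78) (nat_lit 456) (nat_lit 0) (XT.lf (nat_lit 0) (nat_lit 18737576884) (nat_lit 456) (nat_lit 20733967420) (nat_lit 532) (nat_lit 26718052268) (nat_lit 189) (nat_lit 5) (nat_lit 195) (nat_lit 5) (nat_lit 196) (nat_lit 5) (nat_lit 449) (nat_lit 417) (nat_lit 154)) (XT.nd (nat_lit 78) (nat_lit 456) (nat_lit 0) (XT.lf (nat_lit 0) (nat_lit 49491200456) (nat_lit 532) (nat_lit 11284617555) (nat_lit 76) (nat_lit 6569034515) (nat_lit 189) (nat_lit 5) (nat_lit 196) (nat_lit 5) (nat_lit 190) (nat_lit 5) (nat_lit 450) (nat_lit 417) (nat_lit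 153)) (XT.lf (nat_lit 0) (nat_lit 26274376652) (nat_lit 456) (nat_lit 33994204732) (nat_lit 532) (nat_lit 8252470916) (nat_lit 183) (nat_lit 5) (nat_lit 189) (nat_lit 5) (nat_lit 190) (nat_lit 5) (nat_lit 451) (nat_lit 417) (nat_lit 152)))) (XT.nd (nat_lit 156) (nat_lit 456) (nat_lit 0) (XT.nd (nat_lit 78) (nat_lit 456) (nat_lit 0) (XT.lf (nat_lit 0) (nat_lit 1719176157) (nat_lit 532) (nat_lit 4555373757) (nat_lit 76) (nat_lit 63454085252) (nat_lit 182) (nat_lit 5) (nat_lit 189) (nat_lit 5) (nat_lit 183) (nat_lit 5) (nat_lit 452) (nat_lit 417) (nat_lit 151)) (XT.lf (nat_lit 0) (nat_lit 12376816958) (nat_lit 532) (nat_lit 36313765305) (nat_lit 76) (nat_lit 22262830878) (nat_lit 176) (nat_lit 5) (nat_lit 183) (nat_lit 5) (nat_lit 177) (nat_lit 5) (nat_lit 453) (nat_lit 417) (nat_lit 150))) (XT.nd (nat_lit 78) (nat_lit 0) (nat_lit 0) (XT.lf (nat_lit 0) (nat_lit 2883185024) (nat_lit 456) (nat_lit 20606617005) (nat_lit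 532) (nat_lit 48721064146) (nat_lit 170) (nat_lit 5) (nat_lit 176) (nat_lit 5) (nat_lit 177) (nat_lit 5) (nat_lit 454) (nat_lit 417) (nat_lit 149)) (XT.lf (nat_lit 0) (nat_lit 35385811046) (nat_lit 532) (nat_lit 29579061009) (nat_lit 76) (nat_lit 8527681881) (nat_lit 170) (nat_lit 5) (nat_lit 177) (nat_lit 5) (nat_lit 171) (nat_lit 5) (nat_lit 455) (nat_lit 417) (nat_lit 148))))) (XT.nd (nat_lit 234) (nat_lit 836) (nat_lit 0) (XT.nd (nat_lit 78) (nat_lit 380) (nat_lit 0) (XT.lf (nat_lit 0) (nat_lit 11379212840) (nat_lit 380) (nat_lit 36572247106) (nat_lit 456) (nat_lit 26851849755) (nat_lit 165) (nat_lit 5) (nat_lit 170) (nat_lit 5) (nat_lit 171) (nat_lit 5) (nat_lit 456) (nat_lit 417) (nat_lit 147)) (XT.nd (nat_lit 78) (nat_lit 380) (nat_lit 0) (XT.lf (nat_lit 0) (nat_lit 54171756361) (nat_lit 380) (nat_lit 7020373272) (nat_lit 456) (nat_lit 14952317123) (nat_lit 165) (nat_lit 5) (nat_lit 170) (nat_lit 5) (nat_lit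 171) (nat_lit 5) (nat_lit 457) (nat_lit 417) (nat_lit 146)) (XT.lf (nat_lit 0) (nat_lit 20904253373) (nat_lit 380) (nat_lit 54351196927) (nat_lit 456) (nat_lit 2257604848) (nat_lit 160) (nat_lit 5) (nat_lit 165) (nat_lit 5) (nat_lit 166) (nat_lit 5) (nat_lit 458) (nat_lit 417) (nat_lit 145)))) (XT.nd (nat_lit 156) (nat_lit 380) (nat_lit 0) (XT.nd (nat_lit 78) (nat_lit 380) (nat_lit 0) (XT.lf (nat_lit 0) (nat_lit 10899820135) (nat_lit 456) (nat_lit 13574653475) (nat_lit 76) (nat_lit 54436339608) (nat_lit 159) (nat_lit 5) (nat_lit 165) (nat_lit 5) (nat_lit 160) (nat_lit 5) (nat_lit 459) (nat_lit 417) (nat_lit 144)) (XT.lf (nat_lit 0) (nat_lit 24770988545) (nat_lit 456) (nat_lit 49065654182) (nat_lit 76) (nat_lit 6502258977) (nat_lit 154) (nat_lit 5) (nat_lit 160) (nat_lit 5) (nat_lit 155) (nat_lit 5) (nat_lit 460) (nat_lit 417) (nat_lit 143))) (XT.nd (nat_lit 78) (nat_lit 380) (nat_lit 0) (XT.lf (nat_lit 0) (nat_lit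 39438456057) (nat_lit 456) (nat_lit 4305348904) (nat_lit 76) (nat_lit 38054623097) (nat_lit 154) (nat_lit 5) (nat_lit 160) (nat_lit 5) (nat_lit 155) (nat_lit 5) (nat_lit 461) (nat_lit 417) (nat_lit 142)) (XT.lf (nat_lit 0) (nat_lit 42628828592) (nat_lit 380) (nat_lit 12326318570) (nat_lit 456) (nat_lit 28334317186) (nat_lit 149) (nat_lit 5) (nat_lit 154) (nat_lit 5) (nat_lit 155) (nat_lit 5) (nat_lit 462) (nat_lit 417) (nat_lit 141))))))) (XT.nd (nat_lit 50232) (nat_lit 0) (nat_lit 7296) (XT.nd (nat_lit 49686) (nat_lit 0) (nat_lit 9272) (XT.nd (nat_lit 234) (nat_lit 304) (nat_lit 0) (XT.nd (nat_lit 78) (nat_lit 456) (nat_lit 0) (XT.lf (nat_lit 0) (nat_lit 6161805440) (nat_lit 304) (nat_lit 65070679282) (nat_lit 380) (nat_lit 13583892759) (nat_lit 145) (nat_lit 5) (nat_lit 149) (nat_lit 5) (nat_lit 150) (nat_lit 5) (nat_lit 463) (nat_lit 417) (nat_lit 140)) (XT.nd (nat_lit 78) (nat_lit 380) (nat_lit 0) (XT.lf (nat_lit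 0) (nat_lit 2113782807) (nat_lit 380) (nat_lit 31296722377) (nat_lit 76) (nat_lit 52962044832) (nat_lit 144) (nat_lit 5) (nat_lit 149) (nat_lit 5) (nat_lit 145) (nat_lit 5) (nat_lit 464) (nat_lit 417) (nat_lit 139)) (XT.lf (nat_lit 0) (nat_lit 17691833147) (nat_lit 380) (nat_lit 487049780) (nat_lit 456) (nat_lit 69787404582) (nat_lit 139) (nat_lit 5) (nat_lit 144) (nat_lit 5) (nat_lit 145) (nat_lit 5) (nat_lit 465) (nat_lit 417) (nat_lit 138)))) (XT.nd (nat_lit 156) (nat_lit 0) (nat_lit 0) (XT.nd (nat_lit 78) (nat_lit 304) (nat_lit 0) (XT.lf (nat_lit 0) (nat_lit 35365852524) (nat_lit 456) (nat_lit 21131954323) (nat_lit 76) (nat_lit 33090832901) (nat_lit 139) (nat_lit 5) (nat_lit 145) (nat_lit 5) (nat_lit 140) (nat_lit 5) (nat_lit 466) (nat_lit 417) (nat_lit 137)) (XT.lf (nat_lit 0) (nat_lit 30065942127) (nat_lit 304) (nat_lit 23295798234) (nat_lit 380) (nat_lit 37889123027) (nat_lit 135) (nat_lit 5) (nat_lit 139)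 (nat_lit 5) (nat_lit 140) (nat_lit 5) (nat_lit 467) (nat_lit 417) (nat_lit 136))) (XT.nd (nat_lit 49218) (nat_lit 0) (nat_lit 9272) (XT.lf (nat_lit 0) (nat_lit 72217288842) (nat_lit 380) (nat_lit 9831261480) (nat_lit 76) (nat_lit 10904810001) (nat_lit 135) (nat_lit 5) (nat_lit 140) (nat_lit 5) (nat_lit 136) (nat_lit 5) (nat_lit 468) (nat_lit 417) (nat_lit 135)) (XT.lf (nat_lit 0) (nat_lit 6036657514) (nat_lit 1292) (nat_lit 7187596345) (nat_lit 1292) (nat_lit 7187596345) (nat_lit 257) (nat_lit 3) (nat_lit 274) (nat_lit 3) (nat_lit 274) (nat_lit 5) (nat_lit 418) (nat_lit 418) (nat_lit 184))))) (XT.nd (nat_lit 234) (nat_lit 0) (nat_lit 152) (XT.nd (nat_lit 78) (nat_lit 0) (nat_lit 76) (XT.lf (nat_lit 76) (nat_lit 5572258125) (nat_lit 0) (nat_lit 6774541288) (nat_lit 1292) (nat_lit 29086472269) (nat_lit 258) (nat_lit 5) (nat_lit 257) (nat_lit 3) (nat_lit 274) (nat_lit 5) (nat_lit 419) (nat_lit 418) (nat_lit 183))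 (XT.nd (nat_lit 78) (nat_lit 0) (nat_lit 0) (XT.lf (nat_lit 0) (nat_lit 12903241811) (nat_lit 1216) (nat_lit 15775922583) (nat_lit 1292) (nat_lit 13373723588) (nat_lit 258) (nat_lit 5) (nat_lit 274) (nat_lit 5) (nat_lit 275) (nat_lit 5) (nat_lit 420) (nat_lit 418) (nat_lit 182)) (XT.lf (nat_lit 76) (nat_lit 4940223542) (nat_lit 0) (nat_lit 8649245471) (nat_lit 1292) (nat_lit 29098231491) (nat_lit 259) (nat_lit 5) (nat_lit 258) (nat_lit 5) (nat_lit 275) (nat_lit 5) (nat_lit 421) (nat_lit 418) (nat_lit 181)))) (XT.nd (nat_lit 156) (nat_lit 0) (nat_lit 76) (XT.nd (nat_lit 78) (nat_lit 0) (nat_lit 0) (XT.lf (nat_lit 0) (nat_lit 14570909787) (nat_lit 1216) (nat_lit 16853150615) (nat_lit 1292) (nat_lit 11909258665) (nat_lit 259) (nat_lit 5) (nat_lit 275) (nat_lit 5) (nat_lit 276) (nat_lit 5) (nat_lit 422) (nat_lit 418) (nat_lit 180)) (XT.lf (nat_lit 76) (nat_lit 4672710144) (nat_lit 0) (nat_lit 11038247743) (nat_lit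 1292) (nat_lit 28283473832) (nat_lit 260) (nat_lit 5) (nat_lit 259) (nat_lit 5) (nat_lit 276) (nat_lit 5) (nat_lit 423) (nat_lit 418) (nat_lit 179))) (XT.nd (nat_lit 78) (nat_lit 0) (nat_lit 0) (XT.lf (nat_lit 0) (nat_lit 17151458083) (nat_lit 1216) (nat_lit 17578749391) (nat_lit 1292) (nat_lit 9937183195) (nat_lit 260) (nat_lit 5) (nat_lit 276) (nat_lit 5) (nat_lit 277) (nat_lit 5) (nat_lit 424) (nat_lit 418) (nat_lit 178)) (XT.lf (nat_lit 76) (nat_lit 4800035325) (nat_lit 0) (nat_lit 13989256331) (nat_lit 1292) (nat_lit 26566623608) (nat_lit 261) (nat_lit 5) (nat_lit 260) (nat_lit 5) (nat_lit 277) (nat_lit 5) (nat_lit 425) (nat_lit 418) (nat_lit 177)))))) (XT.nd (nat_lit 546) (nat_lit 2280) (nat_lit 0) (XT.nd (nat_lit 234) (nat_lit 0) (nat_lit 76) (XT.nd (nat_lit 78) (nat_lit 0) (nat_lit 0) (XT.lf (nat_lit 0) (nat_lit 20725133548) (nat_lit 1216) (nat_lit 17922767499) (nat_lit 1292) (nat_lit 7409728767) (nat_lit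 261) (nat_lit 5) (nat_lit 277) (nat_lit 5) (nat_lit 278) (nat_lit 5) (nat_lit 426) (nat_lit 418) (nat_lit 176)) (XT.nd (nat_lit 78) (nat_lit 0) (nat_lit 76) (XT.lf (nat_lit 76) (nat_lit 5354453615) (nat_lit 0) (nat_lit 17553334285) (nat_lit 1292) (nat_lit 23866946187) (nat_lit 262) (nat_lit 5) (nat_lit 261) (nat_lit 5) (nat_lit 278) (nat_lit 5) (nat_lit 427) (nat_lit 418) (nat_lit 175)) (XT.lf (nat_lit 0) (nat_lit 25377613142) (nat_lit 1216) (nat_lit 17853340717) (nat_lit 1292) (nat_lit 4275747281) (nat_lit 262) (nat_lit 5) (nat_lit 278) (nat_lit 5) (nat_lit 279) (nat_lit 5) (nat_lit 428) (nat_lit 418) (nat_lit 174)))) (XT.nd (nat_lit 156) (nat_lit 0) (nat_lit 76) (XT.nd (nat_lit 78) (nat_lit 0) (nat_lit 76) (XT.lf (nat_lit 76) (nat_lit 6370250745) (nat_lit 0) (nat_lit 21785138564) (nat_lit 1292) (nat_lit 20098222591) (nat_lit 263) (nat_lit 5) (nat_lit 262) (nat_lit 5) (nat_lit 279) (nat_lit 5) (nat_lit 429) (nat_lit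 418) (nat_lit 173)) (XT.lf (nat_lit 0) (nat_lit 31200344956) (nat_lit 1216) (nat_lit 17336599964) (nat_lit 1292) (nat_lit 480470047) (nat_lit 263) (nat_lit 5) (nat_lit 279) (nat_lit 5) (nat_lit 280) (nat_lit 5) (nat_lit 430) (nat_lit 418) (nat_lit 172))) (XT.nd (nat_lit 78) (nat_lit 0) (nat_lit 0) (XT.lf (nat_lit 76) (nat_lit 7883841164) (nat_lit 0) (nat_lit 26743174952) (nat_lit 1292) (nat_lit 15168405361) (nat_lit 264) (nat_lit 5) (nat_lit 263) (nat_lit 5) (nat_lit 280) (nat_lit 5) (nat_lit 431) (nat_lit 418) (nat_lit 171)) (XT.lf (nat_lit 76) (nat_lit 34215416771) (nat_lit 0) (nat_lit 4115048508) (nat_lit 1292) (nat_lit 12261083915) (nat_lit 264) (nat_lit 5) (nat_lit 263) (nat_lit 5) (nat_lit 280) (nat_lit 5) (nat_lit 432) (nat_lit 418) (nat_lit 170))))) (XT.nd (nat_lit 312) (nat_lit 1292) (nat_lit 0) (XT.nd (nat_lit 156) (nat_lit 1216) (nat_lit 0) (XT.nd (nat_lit 78) (nat_lit 0) (nat_lit 0) (XT.lf (nat_lit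 76) (nat_lit 9933868892) (nat_lit 0) (nat_lit 32490069932) (nat_lit 1292) (nat_lit 8979254630) (nat_lit 265) (nat_lit 5) (nat_lit 264) (nat_lit 5) (nat_lit 281) (nat_lit 5) (nat_lit 433) (nat_lit 418) (nat_lit 169)) (XT.lf (nat_lit 76) (nat_lit 37326448449) (nat_lit 0) (nat_lit 9518446965) (nat_lit 1292) (nat_lit 5388151590) (nat_lit 265) (nat_lit 5) (nat_lit 264) (nat_lit 5) (nat_lit 281) (nat_lit 5) (nat_lit 434) (nat_lit 418) (nat_lit 168))) (XT.nd (nat_lit 78) (nat_lit 76) (nat_lit 0) (XT.lf (nat_lit 0) (nat_lit 12561311630) (nat_lit 1216) (nat_lit 39092860781) (nat_lit 1292) (nat_lit 1425953314) (nat_lit 249) (nat_lit 5) (nat_lit 265) (nat_lit 5) (nat_lit 266) (nat_lit 5) (nat_lit 435) (nat_lit 418) (nat_lit 167)) (XT.lf (nat_lit 0) (nat_lit 2848570845) (nat_lit 1292) (nat_lit 12911407000) (nat_lit 76) (nat_lit 38184515467) (nat_lit 248) (nat_lit 5) (nat_lit 265) (nat_lit 5) (nat_lit 249) (nat_lit 5) (nat_lit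 436) (nat_lit 418) (nat_lit 166)))) (XT.nd (nat_lit 156) (nat_lit 608) (nat_lit 0) (XT.nd (nat_lit 78) (nat_lit 0) (nat_lit 0) (XT.lf (nat_lit 0) (nat_lit 7454931975) (nat_lit 760) (nat_lit 39093093030) (nat_lit 76) (nat_lit 8279375816) (nat_lit 239) (nat_lit 5) (nat_lit 249) (nat_lit 5) (nat_lit 240) (nat_lit 5) (nat_lit 437) (nat_lit 418) (nat_lit 165)) (XT.lf (nat_lit 0) (nat_lit 12486254525) (nat_lit 760) (nat_lit 10387025401) (nat_lit 76) (nat_lit 32854912795) (nat_lit 239) (nat_lit 5) (nat_lit 249) (nat_lit 5) (nat_lit 240) (nat_lit 5) (nat_lit 438) (nat_lit 418) (nat_lit 164))) (XT.nd (nat_lit 78) (nat_lit 0) (nat_lit 0) (XT.lf (nat_lit 0) (nat_lit 17872031372) (nat_lit 684) (nat_lit 37105708051) (nat_lit 76) (nat_lit 1672163790) (nat_lit 231) (nat_lit 5) (nat_lit 240) (nat_lit 5) (nat_lit 232) (nat_lit 5) (nat_lit 439) (nat_lit 418) (nat_lit 163)) (XT.lf (nat_lit 0) (nat_lit 23750883483) (nat_lit 684) (nat_lit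 7238218694) (nat_lit 76) (nat_lit 26600218050) (nat_lit 231) (nat_lit 5) (nat_lit 240) (nat_lit 5) (nat_lit 232) (nat_lit 5) (nat_lit 440) (nat_lit 418) (nat_lit 162))))))))
noncomputable def xc241 : XT := (XT.nd (nat_lit 51480) (nat_lit 0) (nat_lit 5092) (XT.nd (nat_lit 1092) (nat_lit 3116) (nat_lit 0) (XT.nd (nat_lit 546) (nat_lit 1976) (nat_lit 0) (XT.nd (nat_lit 234) (nat_lit 1064) (nat_lit 0) (XT.nd (nat_lit 78) (nat_lit 532) (nat_lit 0) (XT.lf (nat_lit 0) (nat_lit 23992633484) (nat_lit 608) (nat_lit 6043232312) (nat_lit 684) (nat_lit 28514161277) (nat_lit 223) (nat_lit 5) (nat_lit 231) (nat_lit 5) (nat_lit 232) (nat_lit 5) (nat_lit 441) (nat_lit 418) (nat_lit 161)) (XT.nd (nat_lit 78) (nat_lit 532) (nat_lit 0) (XT.lf (nat_lit 0) (nat_lit 36771260760) (nat_lit 684) (nat_lit 3419058160) (nat_lit 76) (nat_lit 19341380558) (nat_lit 223) (nat_lit 5) (nat_lit 232) (nat_lit 5) (nat_lit 224) (nat_lit 5) (nat_lit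 442) (nat_lit 418) (nat_lit 160)) (XT.lf (nat_lit 0) (nat_lit 29161808215) (nat_lit 532) (nat_lit 14886239355) (nat_lit 608) (nat_lit 16484594830) (nat_lit 216) (nat_lit 5) (nat_lit 223) (nat_lit 5) (nat_lit 224) (nat_lit 5) (nat_lit 443) (nat_lit 418) (nat_lit 159)))) (XT.nd (nat_lit 156) (nat_lit 532) (nat_lit 0) (XT.nd (nat_lit 78) (nat_lit 0) (nat_lit 0) (XT.lf (nat_lit 0) (nat_lit 1141245085) (nat_lit 532) (nat_lit 50554361419) (nat_lit 608) (nat_lit 9863433286) (nat_lit 209) (nat_lit 5) (nat_lit 216) (nat_lit 5) (nat_lit 217) (nat_lit 5) (nat_lit 444) (nat_lit 418) (nat_lit 158)) (XT.lf (nat_lit 0) (nat_lit 35120591455) (nat_lit 532) (nat_lit 24913934386) (nat_lit 608) (nat_lit 2567845481) (nat_lit 209) (nat_lit 5) (nat_lit 216) (nat_lit 5) (nat_lit 217) (nat_lit 5) (nat_lit 445) (nat_lit 418) (nat_lit 157))) (XT.nd (nat_lit 78) (nat_lit 0) (nat_lit 0) (XT.lf (nat_lit 0) (nat_lit 4927459358) (nat_lit 532)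 (nat_lit 57168006427) (nat_lit 76) (nat_lit 1577789470) (nat_lit 202) (nat_lit 5) (nat_lit 209) (nat_lit 5) (nat_lit 203) (nat_lit 5) (nat_lit 446) (nat_lit 418) (nat_lit 156)) (XT.lf (nat_lit 0) (nat_lit 13122180120) (nat_lit 532) (nat_lit 22968397103) (nat_lit 76) (nat_lit 28669140928) (nat_lit 202) (nat_lit 5) (nat_lit 209) (nat_lit 5) (nat_lit 203) (nat_lit 5) (nat_lit 447) (nat_lit 418) (nat_lit 155))))) (XT.nd (nat_lit 234) (nat_lit 988) (nat_lit 0) (XT.nd (nat_lit 78) (nat_lit 456) (nat_lit 0) (XT.lf (nat_lit 0) (nat_lit 12500300942) (nat_lit 532) (nat_lit 9181859942) (nat_lit 608) (nat_lit 44193031704) (nat_lit 195) (nat_lit 5) (nat_lit 202) (nat_lit 5) (nat_lit 203) (nat_lit 5) (nat_lit 448) (nat_lit 418) (nat_lit 154)) (XT.nd (nat_lit 78) (nat_lit 456) (nat_lit 0) (XT.lf (nat_lit 0) (nat_lit 30910605273) (nat_lit 608) (nat_lit 17694579871) (nat_lit 76) (nat_lit 18406596387) (nat_lit 195) (nat_lit 5) (nat_lit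 203) (nat_lit 5) (nat_lit 196) (nat_lit 5) (nat_lit 449) (nat_lit 418) (nat_lit 153)) (XT.lf (nat_lit 0) (nat_lit 19341846718) (nat_lit 456) (nat_lit 21350183426) (nat_lit 532) (nat_lit 27482154374) (nat_lit 189) (nat_lit 5) (nat_lit 195) (nat_lit 5) (nat_lit 196) (nat_lit 5) (nat_lit 450) (nat_lit 418) (nat_lit 152)))) (XT.nd (nat_lit 156) (nat_lit 532) (nat_lit 0) (XT.nd (nat_lit 78) (nat_lit 456) (nat_lit 0) (XT.lf (nat_lit 0) (nat_lit 51011271706) (nat_lit 532) (nat_lit 11581227250) (nat_lit 76) (nat_lit 6771629608) (nat_lit 189) (nat_lit 5) (nat_lit 196) (nat_lit 5) (nat_lit 190) (nat_lit 5) (nat_lit 451) (nat_lit 418) (nat_lit 151)) (XT.lf (nat_lit 0) (nat_lit 27104125717) (nat_lit 456) (nat_lit 35007218257) (nat_lit 532) (nat_lit 8464289535) (nat_lit 183) (nat_lit 5) (nat_lit 189) (nat_lit 5) (nat_lit 190) (nat_lit 5) (nat_lit 452) (nat_lit 418) (nat_lit 150))) (XT.nd (nat_lit 78) (nat_lit 456) (nat_lit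 0) (XT.lf (nat_lit 0) (nat_lit 1804788130) (nat_lit 532) (nat_lit 4651040386) (nat_lit 76) (nat_lit 65363635927) (nat_lit 182) (nat_lit 5) (nat_lit 189) (nat_lit 5) (nat_lit 183) (nat_lit 5) (nat_lit 453) (nat_lit 418) (nat_lit 149)) (XT.lf (nat_lit 0) (nat_lit 12781625796) (nat_lit 532) (nat_lit 37361642897) (nat_lit 76) (nat_lit 22937733288) (nat_lit 176) (nat_lit 5) (nat_lit 183) (nat_lit 5) (nat_lit 177) (nat_lit 5) (nat_lit 454) (nat_lit 418) (nat_lit 148)))))) (XT.nd (nat_lit 546) (nat_lit 1444) (nat_lit 0) (XT.nd (nat_lit 234) (nat_lit 836) (nat_lit 0) (XT.nd (nat_lit 78) (nat_lit 380) (nat_lit 0) (XT.lf (nat_lit 0) (nat_lit 3010808733) (nat_lit 456) (nat_lit 21216611182) (nat_lit 532) (nat_lit 50148776353) (nat_lit 170) (nat_lit 5) (nat_lit 176) (nat_lit 5) (nat_lit 177) (nat_lit 5) (nat_lit 455) (nat_lit 418) (nat_lit 147)) (XT.nd (nat_lit 78) (nat_lit 380) (nat_lit 0) (XT.lf (nat_lit 0) (nat_lit 36479426823)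 (nat_lit 532) (nat_lit 30425612269) (nat_lit 76) (nat_lit 8791322277) (nat_lit 170) (nat_lit 5) (nat_lit 177) (nat_lit 5) (nat_lit 171) (nat_lit 5) (nat_lit 456) (nat_lit 418) (nat_lit 146)) (XT.lf (nat_lit 0) (nat_lit 11761009593) (nat_lit 380) (nat_lit 37660490897) (nat_lit 456) (nat_lit 27624955891) (nat_lit 165) (nat_lit 5) (nat_lit 170) (nat_lit 5) (nat_lit 171) (nat_lit 5) (nat_lit 457) (nat_lit 418) (nat_lit 145)))) (XT.nd (nat_lit 156) (nat_lit 456) (nat_lit 0) (XT.nd (nat_lit 78) (nat_lit 380) (nat_lit 0) (XT.lf (nat_lit 0) (nat_lit 55836152128) (nat_lit 380) (nat_lit 7222320759) (nat_lit 456) (nat_lit 15369382406) (nat_lit 165) (nat_lit 5) (nat_lit 170) (nat_lit 5) (nat_lit 171) (nat_lit 5) (nat_lit 458) (nat_lit 418) (nat_lit 144)) (XT.lf (nat_lit 0) (nat_lit 21571072648) (nat_lit 380) (nat_lit 55972192261) (nat_lit 456) (nat_lit 2294270094) (nat_lit 160) (nat_lit 5) (nat_lit 165) (nat_lit 5) (nat_lit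 166) (nat_lit 5) (nat_lit 459) (nat_lit 418) (nat_lit 143))) (XT.nd (nat_lit 78) (nat_lit 380) (nat_lit 0) (XT.lf (nat_lit 0) (nat_lit 11256384399) (nat_lit 456) (nat_lit 13942762129) (nat_lit 76) (nat_lit 56078097146) (nat_lit 159) (nat_lit 5) (nat_lit 165) (nat_lit 5) (nat_lit 160) (nat_lit 5) (nat_lit 460) (nat_lit 418) (nat_lit 142)) (XT.lf (nat_lit 0) (nat_lit 25543291992) (nat_lit 456) (nat_lit 50498090338) (nat_lit 76) (nat_lit 6706804561) (nat_lit 154) (nat_lit 5) (nat_lit 160) (nat_lit 5) (nat_lit 155) (nat_lit 5) (nat_lit 461) (nat_lit 418) (nat_lit 141))))) (XT.nd (nat_lit 312) (nat_lit 684) (nat_lit 0) (XT.nd (nat_lit 156) (nat_lit 380) (nat_lit 0) (XT.nd (nat_lit 78) (nat_lit 380) (nat_lit 0) (XT.lf (nat_lit 0) (nat_lit 40649933808) (nat_lit 456) (nat_lit 4396127362) (nat_lit 76) (nat_lit 39205463552) (nat_lit 154) (nat_lit 5) (nat_lit 160) (nat_lit 5) (nat_lit 155) (nat_lit 5) (nat_lit 462) (nat_lit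 418) (nat_lit 140)) (XT.lf (nat_lit 0) (nat_lit 43945699165) (nat_lit 380) (nat_lit 12685966842) (nat_lit 456) (nat_lit 29155640070) (nat_lit 149) (nat_lit 5) (nat_lit 154) (nat_lit 5) (nat_lit 155) (nat_lit 5) (nat_lit 463) (nat_lit 418) (nat_lit 139))) (XT.nd (nat_lit 78) (nat_lit 76) (nat_lit 0) (XT.lf (nat_lit 0) (nat_lit 6385030130) (nat_lit 304) (nat_lit 67011945465) (nat_lit 380) (nat_lit 13963061635) (nat_lit 145) (nat_lit 5) (nat_lit 149) (nat_lit 5) (nat_lit 150) (nat_lit 5) (nat_lit 464) (nat_lit 418) (nat_lit 138)) (XT.lf (nat_lit 0) (nat_lit 2204181472) (nat_lit 380) (nat_lit 32197828316) (nat_lit 76) (nat_lit 54560901436) (nat_lit 144) (nat_lit 5) (nat_lit 149) (nat_lit 5) (nat_lit 145) (nat_lit 5) (nat_lit 465) (nat_lit 418) (nat_lit 137)))) (XT.nd (nat_lit 156) (nat_lit 304) (nat_lit 0) (XT.nd (nat_lit 78) (nat_lit 0) (nat_lit 0) (XT.lf (nat_lit 0) (nat_lit 18260013328) (nat_lit 380) (nat_lit 490795046)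 (nat_lit 456) (nat_lit 71853665422) (nat_lit 139) (nat_lit 5) (nat_lit 144) (nat_lit 5) (nat_lit 145) (nat_lit 5) (nat_lit 466) (nat_lit 418) (nat_lit 136)) (XT.lf (nat_lit 0) (nat_lit 36452714907) (nat_lit 456) (nat_lit 21728900262) (nat_lit 76) (nat_lit 34093901760) (nat_lit 139) (nat_lit 5) (nat_lit 145) (nat_lit 5) (nat_lit 140) (nat_lit 5) (nat_lit 467) (nat_lit 418) (nat_lit 135))) (XT.nd (nat_lit 49296) (nat_lit 0) (nat_lit 9272) (XT.lf (nat_lit 0) (nat_lit 31004570212) (nat_lit 304) (nat_lit 23983507483) (nat_lit 380) (nat_lit 38999541791) (nat_lit 135) (nat_lit 5) (nat_lit 139) (nat_lit 5) (nat_lit 140) (nat_lit 5) (nat_lit 468) (nat_lit 418) (nat_lit 134)) (XT.lf (nat_lit 0) (nat_lit 6256204777) (nat_lit 1292) (nat_lit 7383417467) (nat_lit 1292) (nat_lit 7383417467) (nat_lit 257) (nat_lit 3) (nat_lit 274) (nat_lit 3) (nat_lit 274) (nat_lit 5) (nat_lit 419) (nat_lit 419) (nat_lit 182))))))) (XT.nd (nat_lit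 1092) (nat_lit 4180) (nat_lit 0) (XT.nd (nat_lit 546) (nat_lit 0) (nat_lit 304) (XT.nd (nat_lit 234) (nat_lit 0) (nat_lit 152) (XT.nd (nat_lit 78) (nat_lit 0) (nat_lit 76) (XT.lf (nat_lit 76) (nat_lit 5778651038) (nat_lit 0) (nat_lit 7013584825) (nat_lit 1292) (nat_lit 29881758579) (nat_lit 258) (nat_lit 5) (nat_lit 257) (nat_lit 3) (nat_lit 274) (nat_lit 5) (nat_lit 420) (nat_lit 419) (nat_lit 181)) (XT.nd (nat_lit 78) (nat_lit 0) (nat_lit 0) (XT.lf (nat_lit 0) (nat_lit 13362851944) (nat_lit 1216) (nat_lit 16208574279) (nat_lit 1292) (nat_lit 13740849306) (nat_lit 258) (nat_lit 5) (nat_lit 274) (nat_lit 5) (nat_lit 275) (nat_lit 5) (nat_lit 421) (nat_lit 419) (nat_lit 180)) (XT.lf (nat_lit 76) (nat_lit 5128657936) (nat_lit 0) (nat_lit 8939282694) (nat_lit 1292) (nat_lit 29898244248) (nat_lit 259) (nat_lit 5) (nat_lit 258) (nat_lit 5) (nat_lit 275) (nat_lit 5) (nat_lit 422) (nat_lit 419) (nat_lit 179)))) (XT.nd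 (nat_lit 156) (nat_lit 0) (nat_lit 76) (XT.nd (nat_lit 78) (nat_lit 0) (nat_lit 0) (XT.lf (nat_lit 0) (nat_lit 15076477650) (nat_lit 1216) (nat_lit 17317319805) (nat_lit 1292) (nat_lit 12237445623) (nat_lit 259) (nat_lit 5) (nat_lit 275) (nat_lit 5) (nat_lit 276) (nat_lit 5) (nat_lit 423) (nat_lit 419) (nat_lit 178)) (XT.lf (nat_lit 76) (nat_lit 4853910646) (nat_lit 0) (nat_lit 11395217433) (nat_lit 1292) (nat_lit 29063109654) (nat_lit 260) (nat_lit 5) (nat_lit 259) (nat_lit 5) (nat_lit 276) (nat_lit 5) (nat_lit 424) (nat_lit 419) (nat_lit 177))) (XT.nd (nat_lit 78) (nat_lit 0) (nat_lit 0) (XT.lf (nat_lit 0) (nat_lit 17730655454) (nat_lit 1216) (nat_lit 18064078519) (nat_lit 1292) (nat_lit 10210717746) (nat_lit 260) (nat_lit 5) (nat_lit 276) (nat_lit 5) (nat_lit 277) (nat_lit 5) (nat_lit 425) (nat_lit 419) (nat_lit 176)) (XT.lf (nat_lit 76) (nat_lit 4985657648) (nat_lit 0) (nat_lit 14430483361) (nat_lit 1292) (nat_lit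 27298536148) (nat_lit 261) (nat_lit 5) (nat_lit 260) (nat_lit 5) (nat_lit 277) (nat_lit 5) (nat_lit 426) (nat_lit 419) (nat_lit 175))))) (XT.nd (nat_lit 234) (nat_lit 0) (nat_lit 76) (XT.nd (nat_lit 78) (nat_lit 0) (nat_lit 0) (XT.lf (nat_lit 0) (nat_lit 21408017124) (nat_lit 1216) (nat_lit 18417980646) (nat_lit 1292) (nat_lit 7611507198) (nat_lit 261) (nat_lit 5) (nat_lit 277) (nat_lit 5) (nat_lit 278) (nat_lit 5) (nat_lit 427) (nat_lit 419) (nat_lit 174)) (XT.nd (nat_lit 78) (nat_lit 0) (nat_lit 76) (XT.lf (nat_lit 76) (nat_lit 5557140729) (nat_lit 0) (nat_lit 18097634147) (nat_lit 1292) (nat_lit 24521389358) (nat_lit 262) (nat_lit 5) (nat_lit 261) (nat_lit 5) (nat_lit 278) (nat_lit 5) (nat_lit 428) (nat_lit 419) (nat_lit 173)) (XT.lf (nat_lit 0) (nat_lit 26196789302) (nat_lit 1216) (nat_lit 18346188004) (nat_lit 1292) (nat_lit 4387170722) (nat_lit 262) (nat_lit 5) (nat_lit 278) (nat_lit 5) (nat_lit 279) (nat_lit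 5) (nat_lit 429) (nat_lit 419) (nat_lit 172)))) (XT.nd (nat_lit 156) (nat_lit 0) (nat_lit 76) (XT.nd (nat_lit 78) (nat_lit 0) (nat_lit 76) (XT.lf (nat_lit 76) (nat_lit 6603692056) (nat_lit 0) (nat_lit 22452928751) (nat_lit 1292) (nat_lit 20642884188) (nat_lit 263) (nat_lit 5) (nat_lit 262) (nat_lit 5) (nat_lit 279) (nat_lit 5) (nat_lit 430) (nat_lit 419) (nat_lit 171)) (XT.lf (nat_lit 0) (nat_lit 32191144598) (nat_lit 1216) (nat_lit 17813799035) (nat_lit 1292) (nat_lit 481332466) (nat_lit 263) (nat_lit 5) (nat_lit 279) (nat_lit 5) (nat_lit 280) (nat_lit 5) (nat_lit 431) (nat_lit 419) (nat_lit 170))) (XT.nd (nat_lit 78) (nat_lit 0) (nat_lit 0) (XT.lf (nat_lit 76) (nat_lit 8162834750) (nat_lit 0) (nat_lit 27556593667) (nat_lit 1292) (nat_lit 15568230525) (nat_lit 264) (nat_lit 5) (nat_lit 263) (nat_lit 5) (nat_lit 280) (nat_lit 5) (nat_lit 432) (nat_lit 419) (nat_lit 169)) (XT.lf (nat_lit 76) (nat_lit 35283120391)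 (nat_lit 0) (nat_lit 4249299446) (nat_lit 1292) (nat_lit 12575297990) (nat_lit 264) (nat_lit 5) (nat_lit 263) (nat_lit 5) (nat_lit 280) (nat_lit 5) (nat_lit 433) (nat_lit 419) (nat_lit 168)))))) (XT.nd (nat_lit 546) (nat_lit 2204) (nat_lit 0) (XT.nd (nat_lit 234) (nat_lit 1368) (nat_lit 0) (XT.nd (nat_lit 78) (nat_lit 1140) (nat_lit 0) (XT.lf (nat_lit 76) (nat_lit 10274386920) (nat_lit 0) (nat_lit 33473102690) (nat_lit 1292) (nat_lit 9196258528) (nat_lit 265) (nat_lit 5) (nat_lit 264) (nat_lit 5) (nat_lit 281) (nat_lit 5) (nat_lit 434) (nat_lit 419) (nat_lit 167)) (XT.nd (nat_lit 78) (nat_lit 1140) (nat_lit 0) (XT.lf (nat_lit 76) (nat_lit 38487505942) (nat_lit 0) (nat_lit 9812088393) (nat_lit 1292) (nat_lit 5498947845) (nat_lit 265) (nat_lit 5) (nat_lit 264) (nat_lit 5) (nat_lit 281) (nat_lit 5) (nat_lit 435) (nat_lit 419) (nat_lit 166)) (XT.lf (nat_lit 0) (nat_lit 12980569019) (nat_lit 1216) (nat_lit 40271475451)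 (nat_lit 1292) (nat_lit 1419022406) (nat_lit 249) (nat_lit 5) (nat_lit 265) (nat_lit 5) (nat_lit 266) (nat_lit 5) (nat_lit 436) (nat_lit 419) (nat_lit 165)))) (XT.nd (nat_lit 156) (nat_lit 608) (nat_lit 0) (XT.nd (nat_lit 78) (nat_lit 684) (nat_lit 0) (XT.lf (nat_lit 0) (nat_lit 2981347869) (nat_lit 1292) (nat_lit 13256610547) (nat_lit 76) (nat_lit 39323435756) (nat_lit 248) (nat_lit 5) (nat_lit 265) (nat_lit 5) (nat_lit 249) (nat_lit 5) (nat_lit 437) (nat_lit 419) (nat_lit 164)) (XT.lf (nat_lit 0) (nat_lit 7724878292) (nat_lit 760) (nat_lit 40222711692) (nat_lit 76) (nat_lit 8523229987) (nat_lit 239) (nat_lit 5) (nat_lit 249) (nat_lit 5) (nat_lit 240) (nat_lit 5) (nat_lit 438) (nat_lit 419) (nat_lit 163))) (XT.nd (nat_lit 78) (nat_lit 608) (nat_lit 0) (XT.lf (nat_lit 0) (nat_lit 12905792022) (nat_lit 760) (nat_lit 10656719532) (nat_lit 76) (nat_lit 33836164933) (nat_lit 239) (nat_lit 5) (nat_lit 249) (nat_lit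 5) (nat_lit 240) (nat_lit 5) (nat_lit 439) (nat_lit 419) (nat_lit 162)) (XT.lf (nat_lit 0) (nat_lit 18452207576) (nat_lit 684) (nat_lit 38176014938) (nat_lit 76) (nat_lit 1719844213) (nat_lit 231) (nat_lit 5) (nat_lit 240) (nat_lit 5) (nat_lit 232) (nat_lit 5) (nat_lit 440) (nat_lit 419) (nat_lit 161))))) (XT.nd (nat_lit 312) (nat_lit 1064) (nat_lit 0) (XT.nd (nat_lit 156) (nat_lit 532) (nat_lit 0) (XT.nd (nat_lit 78) (nat_lit 608) (nat_lit 0) (XT.lf (nat_lit 0) (nat_lit 24506143253) (nat_lit 684) (nat_lit 7413749377) (nat_lit 76) (nat_lit 27395812464) (nat_lit 231) (nat_lit 5) (nat_lit 240) (nat_lit 5) (nat_lit 232) (nat_lit 5) (nat_lit 441) (nat_lit 419) (nat_lit 160)) (XT.lf (nat_lit 0) (nat_lit 24753620367) (nat_lit 608) (nat_lit 6225206124) (nat_lit 684) (nat_lit 29326432480) (nat_lit 223) (nat_lit 5) (nat_lit 231) (nat_lit 5) (nat_lit 232) (nat_lit 5) (nat_lit 442) (nat_lit 419) (nat_lit 159))) (XT.nd (nat_lit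 78) (nat_lit 532) (nat_lit 0) (XT.lf (nat_lit 0) (nat_lit 37915057045) (nat_lit 684) (nat_lit 3480383984) (nat_lit 76) (nat_lit 19920977669) (nat_lit 223) (nat_lit 5) (nat_lit 232) (nat_lit 5) (nat_lit 224) (nat_lit 5) (nat_lit 443) (nat_lit 419) (nat_lit 158)) (XT.lf (nat_lit 0) (nat_lit 30077504010) (nat_lit 532) (nat_lit 15331851816) (nat_lit 608) (nat_lit 16938058180) (nat_lit 216) (nat_lit 5) (nat_lit 223) (nat_lit 5) (nat_lit 224) (nat_lit 5) (nat_lit 444) (nat_lit 419) (nat_lit 157)))) (XT.nd (nat_lit 156) (nat_lit 532) (nat_lit 0) (XT.nd (nat_lit 78) (nat_lit 0) (nat_lit 0) (XT.lf (nat_lit 0) (nat_lit 1217110128) (nat_lit 532) (nat_lit 52068479478) (nat_lit 608) (nat_lit 10119036609) (nat_lit 209) (nat_lit 5) (nat_lit 216) (nat_lit 5) (nat_lit 217) (nat_lit 5) (nat_lit 445) (nat_lit 419) (nat_lit 156)) (XT.lf (nat_lit 0) (nat_lit 36214624432) (nat_lit 532) (nat_lit 25658912822) (nat_lit 608) (nat_lit 2605754947)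 (nat_lit 209) (nat_lit 5) (nat_lit 216) (nat_lit 5) (nat_lit 217) (nat_lit 5) (nat_lit 446) (nat_lit 419) (nat_lit 155))) (XT.nd (nat_lit 78) (nat_lit 0) (nat_lit 0) (XT.lf (nat_lit 0) (nat_lit 5112950520) (nat_lit 532) (nat_lit 58841151836) (nat_lit 76) (nat_lit 1628210175) (nat_lit 202) (nat_lit 5) (nat_lit 209) (nat_lit 5) (nat_lit 203) (nat_lit 5) (nat_lit 447) (nat_lit 419) (nat_lit 154)) (XT.lf (nat_lit 0) (nat_lit 13552415796) (nat_lit 532) (nat_lit 23616774469) (nat_lit 76) (nat_lit 29532212264) (nat_lit 202) (nat_lit 5) (nat_lit 209) (nat_lit 5) (nat_lit 203) (nat_lit 5) (nat_lit 448) (nat_lit 419) (nat_lit 153))))))))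
noncomputable def xc242 : XT := (XT.nd (nat_lit 51636) (nat_lit 0) (nat_lit 2356) (XT.nd (nat_lit 1092) (nat_lit 1140) (nat_lit 0) (XT.nd (nat_lit 546) (nat_lit 1672) (nat_lit 0) (XT.nd (nat_lit 234) (nat_lit 988) (nat_lit 0) (XT.nd (nat_lit 78) (nat_lit 456) (nat_lit 0) (XT.lf (nat_lit 0) (nat_lit 12915585748) (nat_lit 532) (nat_lit 9452932237) (nat_lit 608) (nat_lit 45481843847) (nat_lit 195) (nat_lit 5) (nat_lit 202) (nat_lit 5) (nat_lit 203) (nat_lit 5) (nat_lit 449) (nat_lit 419) (nat_lit 152)) (XT.nd (nat_lit 78) (nat_lit 456) (nat_lit 0) (XT.lf (nat_lit 0) (nat_lit 31872811209) (nat_lit 608) (nat_lit 18185300592) (nat_lit 76) (nat_lit 18962967060) (nat_lit 195) (nat_lit 5) (nat_lit 203) (nat_lit 5) (nat_lit 196) (nat_lit 5) (nat_lit 450) (nat_lit 419) (nat_lit 151)) (XT.lf (nat_lit 0) (nat_lit 19961825494) (nat_lit 456) (nat_lit 21985219028) (nat_lit 532) (nat_lit 28271328721) (nat_lit 189) (nat_lit 5) (nat_lit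 195) (nat_lit 5) (nat_lit 196) (nat_lit 5) (nat_lit 451) (nat_lit 419) (nat_lit 150)))) (XT.nd (nat_lit 156) (nat_lit 532) (nat_lit 0) (XT.nd (nat_lit 78) (nat_lit 456) (nat_lit 0) (XT.lf (nat_lit 0) (nat_lit 52574916706) (nat_lit 532) (nat_lit 11889142122) (nat_lit 76) (nat_lit 6979985450) (nat_lit 189) (nat_lit 5) (nat_lit 196) (nat_lit 5) (nat_lit 190) (nat_lit 5) (nat_lit 452) (nat_lit 419) (nat_lit 149)) (XT.lf (nat_lit 0) (nat_lit 27956383964) (nat_lit 456) (nat_lit 36051013260) (nat_lit 532) (nat_lit 8684515225) (nat_lit 183) (nat_lit 5) (nat_lit 189) (nat_lit 5) (nat_lit 190) (nat_lit 5) (nat_lit 453) (nat_lit 419) (nat_lit 148))) (XT.nd (nat_lit 78) (nat_lit 456) (nat_lit 0) (XT.lf (nat_lit 0) (nat_lit 1891014618) (nat_lit 532) (nat_lit 4751930271) (nat_lit 76) (nat_lit 67330132824) (nat_lit 182) (nat_lit 5) (nat_lit 189) (nat_lit 5) (nat_lit 183) (nat_lit 5) (nat_lit 454) (nat_lit 419) (nat_lit 147))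 (XT.lf (nat_lit 0) (nat_lit 13196655614) (nat_lit 532) (nat_lit 38443341116) (nat_lit 76) (nat_lit 23632479938) (nat_lit 176) (nat_lit 5) (nat_lit 183) (nat_lit 5) (nat_lit 177) (nat_lit 5) (nat_lit 455) (nat_lit 419) (nat_lit 146))))) (XT.nd (nat_lit 234) (nat_lit 836) (nat_lit 0) (XT.nd (nat_lit 78) (nat_lit 380) (nat_lit 0) (XT.lf (nat_lit 0) (nat_lit 3139900229) (nat_lit 456) (nat_lit 21845376146) (nat_lit 532) (nat_lit 51621267056) (nat_lit 170) (nat_lit 5) (nat_lit 176) (nat_lit 5) (nat_lit 177) (nat_lit 5) (nat_lit 456) (nat_lit 419) (nat_lit 145)) (XT.nd (nat_lit 78) (nat_lit 380) (nat_lit 0) (XT.lf (nat_lit 0) (nat_lit 37604011764) (nat_lit 532) (nat_lit 31299903335) (nat_lit 76) (nat_lit 9062423562) (nat_lit 170) (nat_lit 5) (nat_lit 177) (nat_lit 5) (nat_lit 171) (nat_lit 5) (nat_lit 457) (nat_lit 419) (nat_lit 144)) (XT.lf (nat_lit 0) (nat_lit 12151939954) (nat_lit 380) (nat_lit 38781894253) (nat_lit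 456) (nat_lit 28423117936) (nat_lit 165) (nat_lit 5) (nat_lit 170) (nat_lit 5) (nat_lit 171) (nat_lit 5) (nat_lit 458) (nat_lit 419) (nat_lit 143)))) (XT.nd (nat_lit 156) (nat_lit 456) (nat_lit 0) (XT.nd (nat_lit 78) (nat_lit 380) (nat_lit 0) (XT.lf (nat_lit 0) (nat_lit 57548227054) (nat_lit 380) (nat_lit 7430824003) (nat_lit 456) (nat_lit 15800768120) (nat_lit 165) (nat_lit 5) (nat_lit 170) (nat_lit 5) (nat_lit 171) (nat_lit 5) (nat_lit 459) (nat_lit 419) (nat_lit 142)) (XT.lf (nat_lit 0) (nat_lit 22255618036) (nat_lit 380) (nat_lit 57642365122) (nat_lit 456) (nat_lit 2333818435) (nat_lit 160) (nat_lit 5) (nat_lit 165) (nat_lit 5) (nat_lit 166) (nat_lit 5) (nat_lit 460) (nat_lit 419) (nat_lit 141))) (XT.nd (nat_lit 78) (nat_lit 380) (nat_lit 0) (XT.lf (nat_lit 0) (nat_lit 11621948172) (nat_lit 456) (nat_lit 14324160320) (nat_lit 76) (nat_lit 57768609869) (nat_lit 159) (nat_lit 5) (nat_lit 165) (nat_lit 5) (nat_lit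 160) (nat_lit 5) (nat_lit 461) (nat_lit 419) (nat_lit 140)) (XT.lf (nat_lit 0) (nat_lit 26337089847) (nat_lit 456) (nat_lit 51975768962) (nat_lit 76) (nat_lit 6916942448) (nat_lit 154) (nat_lit 5) (nat_lit 160) (nat_lit 5) (nat_lit 155) (nat_lit 5) (nat_lit 462) (nat_lit 419) (nat_lit 139)))))) (XT.nd (nat_lit 49920) (nat_lit 0) (nat_lit 9044) (XT.nd (nat_lit 234) (nat_lit 456) (nat_lit 0) (XT.nd (nat_lit 78) (nat_lit 684) (nat_lit 0) (XT.lf (nat_lit 0) (nat_lit 41896129973) (nat_lit 456) (nat_lit 4491832458) (nat_lit 76) (nat_lit 40390301002) (nat_lit 154) (nat_lit 5) (nat_lit 160) (nat_lit 5) (nat_lit 155) (nat_lit 5) (nat_lit 463) (nat_lit 419) (nat_lit 138)) (XT.nd (nat_lit 78) (nat_lit 304) (nat_lit 0) (XT.lf (nat_lit 0) (nat_lit 45299894171) (nat_lit 380) (nat_lit 13056986714) (nat_lit 456) (nat_lit 30003250519) (nat_lit 149) (nat_lit 5) (nat_lit 154) (nat_lit 5) (nat_lit 155) (nat_lit 5) (nat_lit 464) (nat_lit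 419) (nat_lit 137)) (XT.lf (nat_lit 0) (nat_lit 6612748934) (nat_lit 304) (nat_lit 69012072709) (nat_lit 380) (nat_lit 14355232864) (nat_lit 145) (nat_lit 5) (nat_lit 149) (nat_lit 5) (nat_lit 150) (nat_lit 5) (nat_lit 465) (nat_lit 419) (nat_lit 136)))) (XT.nd (nat_lit 49530) (nat_lit 0) (nat_lit 8968) (XT.nd (nat_lit 78) (nat_lit 380) (nat_lit 0) (XT.lf (nat_lit 0) (nat_lit 2295743037) (nat_lit 380) (nat_lit 33128137062) (nat_lit 76) (nat_lit 56207149970) (nat_lit 144) (nat_lit 5) (nat_lit 149) (nat_lit 5) (nat_lit 145) (nat_lit 5) (nat_lit 466) (nat_lit 419) (nat_lit 135)) (XT.lf (nat_lit 0) (nat_lit 18843090555) (nat_lit 380) (nat_lit 495276436) (nat_lit 456) (nat_lit 73983484738) (nat_lit 139) (nat_lit 5) (nat_lit 144) (nat_lit 5) (nat_lit 145) (nat_lit 5) (nat_lit 467) (nat_lit 419) (nat_lit 134))) (XT.nd (nat_lit 78) (nat_lit 0) (nat_lit 0) (XT.lf (nat_lit 0) (nat_lit 6480131411) (nat_lit 1292) (nat_lit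 7586250212) (nat_lit 1292) (nat_lit 7586250212) (nat_lit 257) (nat_lit 3) (nat_lit 274) (nat_lit 3) (nat_lit 274) (nat_lit 5) (nat_lit 420) (nat_lit 420) (nat_lit 180)) (XT.lf (nat_lit 76) (nat_lit 5988984053) (nat_lit 0) (nat_lit 7257744183) (nat_lit 1292) (nat_lit 30705341267) (nat_lit 258) (nat_lit 5) (nat_lit 257) (nat_lit 3) (nat_lit 274) (nat_lit 5) (nat_lit 421) (nat_lit 420) (nat_lit 179))))) (XT.nd (nat_lit 312) (nat_lit 0) (nat_lit 152) (XT.nd (nat_lit 156) (nat_lit 0) (nat_lit 76) (XT.nd (nat_lit 78) (nat_lit 0) (nat_lit 0) (XT.lf (nat_lit 0) (nat_lit 13832087846) (nat_lit 1216) (nat_lit 16656537623) (nat_lit 1292) (nat_lit 14120945472) (nat_lit 258) (nat_lit 5) (nat_lit 274) (nat_lit 5) (nat_lit 275) (nat_lit 5) (nat_lit 422) (nat_lit 420) (nat_lit 178)) (XT.lf (nat_lit 76) (nat_lit 5320436128) (nat_lit 0) (nat_lit 9236266774) (nat_lit 1292) (nat_lit 30726444109) (nat_lit 259) (nat_lit 5) (nat_lit 258)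 (nat_lit 5) (nat_lit 275) (nat_lit 5) (nat_lit 423) (nat_lit 420) (nat_lit 177))) (XT.nd (nat_lit 78) (nat_lit 0) (nat_lit 0) (XT.lf (nat_lit 0) (nat_lit 15593283781) (nat_lit 1216) (nat_lit 17797792054) (nat_lit 1292) (nat_lit 12577148121) (nat_lit 259) (nat_lit 5) (nat_lit 275) (nat_lit 5) (nat_lit 276) (nat_lit 5) (nat_lit 424) (nat_lit 420) (nat_lit 176)) (XT.lf (nat_lit 76) (nat_lit 5038192494) (nat_lit 0) (nat_lit 11761413912) (nat_lit 1292) (nat_lit 29870087877) (nat_lit 260) (nat_lit 5) (nat_lit 259) (nat_lit 5) (nat_lit 276) (nat_lit 5) (nat_lit 425) (nat_lit 420) (nat_lit 175)))) (XT.nd (nat_lit 156) (nat_lit 0) (nat_lit 76) (XT.nd (nat_lit 78) (nat_lit 0) (nat_lit 0) (XT.lf (nat_lit 0) (nat_lit 18323517364) (nat_lit 1216) (nat_lit 18566380407) (nat_lit 1292) (nat_lit 10493869380) (nat_lit 260) (nat_lit 5) (nat_lit 276) (nat_lit 5) (nat_lit 277) (nat_lit 5) (nat_lit 426) (nat_lit 420) (nat_lit 174)) (XT.lf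 (nat_lit 76) (nat_lit 5174459409) (nat_lit 0) (nat_lit 14883710181) (nat_lit 1292) (nat_lit 28056142277) (nat_lit 261) (nat_lit 5) (nat_lit 260) (nat_lit 5) (nat_lit 277) (nat_lit 5) (nat_lit 427) (nat_lit 420) (nat_lit 173))) (XT.nd (nat_lit 78) (nat_lit 0) (nat_lit 0) (XT.lf (nat_lit 0) (nat_lit 22107878120) (nat_lit 1216) (nat_lit 18930488133) (nat_lit 1292) (nat_lit 7820516538) (nat_lit 261) (nat_lit 5) (nat_lit 277) (nat_lit 5) (nat_lit 278) (nat_lit 5) (nat_lit 428) (nat_lit 420) (nat_lit 172)) (XT.lf (nat_lit 76) (nat_lit 5763494414) (nat_lit 0) (nat_lit 18657246963) (nat_lit 1292) (nat_lit 25198999918) (nat_lit 262) (nat_lit 5) (nat_lit 261) (nat_lit 5) (nat_lit 278) (nat_lit 5) (nat_lit 429) (nat_lit 420) (nat_lit 171))))))) (XT.nd (nat_lit 1092) (nat_lit 4028) (nat_lit 0) (XT.nd (nat_lit 546) (nat_lit 2964) (nat_lit 0) (XT.nd (nat_lit 234) (nat_lit 0) (nat_lit 76) (XT.nd (nat_lit 78) (nat_lit 0) (nat_lit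 0) (XT.lf (nat_lit 0) (nat_lit 27037220049) (nat_lit 1216) (nat_lit 18856274903) (nat_lit 1292) (nat_lit 4502904066) (nat_lit 262) (nat_lit 5) (nat_lit 278) (nat_lit 5) (nat_lit 279) (nat_lit 5) (nat_lit 430) (nat_lit 420) (nat_lit 170)) (XT.nd (nat_lit 78) (nat_lit 0) (nat_lit 76) (XT.lf (nat_lit 76) (nat_lit 6841706473) (nat_lit 0) (nat_lit 23139935437) (nat_lit 1292) (nat_lit 21207231436) (nat_lit 263) (nat_lit 5) (nat_lit 262) (nat_lit 5) (nat_lit 279) (nat_lit 5) (nat_lit 431) (nat_lit 420) (nat_lit 169)) (XT.lf (nat_lit 0) (nat_lit 33208523100) (nat_lit 1216) (nat_lit 18307776651) (nat_lit 1292) (nat_lit 482998678) (nat_lit 263) (nat_lit 5) (nat_lit 279) (nat_lit 5) (nat_lit 280) (nat_lit 5) (nat_lit 432) (nat_lit 420) (nat_lit 168)))) (XT.nd (nat_lit 156) (nat_lit 0) (nat_lit 76) (XT.nd (nat_lit 78) (nat_lit 0) (nat_lit 0) (XT.lf (nat_lit 76) (nat_lit 8447759712) (nat_lit 0) (nat_lit 28393776411) (nat_lit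 1292) (nat_lit 15983220700) (nat_lit 264) (nat_lit 5) (nat_lit 263) (nat_lit 5) (nat_lit 280) (nat_lit 5) (nat_lit 433) (nat_lit 420) (nat_lit 167)) (XT.lf (nat_lit 76) (nat_lit 36380487711) (nat_lit 0) (nat_lit 4386957976) (nat_lit 1292) (nat_lit 12902016404) (nat_lit 264) (nat_lit 5) (nat_lit 263) (nat_lit 5) (nat_lit 280) (nat_lit 5) (nat_lit 434) (nat_lit 420) (nat_lit 166))) (XT.nd (nat_lit 78) (nat_lit 0) (nat_lit 0) (XT.lf (nat_lit 76) (nat_lit 10622680702) (nat_lit 0) (nat_lit 34485148216) (nat_lit 1292) (nat_lit 9422779009) (nat_lit 265) (nat_lit 5) (nat_lit 264) (nat_lit 5) (nat_lit 281) (nat_lit 5) (nat_lit 435) (nat_lit 420) (nat_lit 165)) (XT.lf (nat_lit 76) (nat_lit 39681026435) (nat_lit 0) (nat_lit 10114074779) (nat_lit 1292) (nat_lit 5615986888) (nat_lit 265) (nat_lit 5) (nat_lit 264) (nat_lit 5) (nat_lit 281) (nat_lit 5) (nat_lit 436) (nat_lit 420) (nat_lit 164))))) (XT.nd (nat_lit 234) (nat_lit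 1216) (nat_lit 0) (XT.nd (nat_lit 78) (nat_lit 760) (nat_lit 0) (XT.lf (nat_lit 0) (nat_lit 13409969160) (nat_lit 1216) (nat_lit 41485113961) (nat_lit 1292) (nat_lit 1414737099) (nat_lit 249) (nat_lit 5) (nat_lit 265) (nat_lit 5) (nat_lit 266) (nat_lit 5) (nat_lit 437) (nat_lit 420) (nat_lit 163)) (XT.nd (nat_lit 78) (nat_lit 684) (nat_lit 0) (XT.lf (nat_lit 0) (nat_lit 3115391849) (nat_lit 1292) (nat_lit 13614589131) (nat_lit 76) (nat_lit 40496903392) (nat_lit 248) (nat_lit 5) (nat_lit 265) (nat_lit 5) (nat_lit 249) (nat_lit 5) (nat_lit 438) (nat_lit 420) (nat_lit 162)) (XT.lf (nat_lit 0) (nat_lit 8000265283) (nat_lit 760) (nat_lit 41388697285) (nat_lit 76) (nat_lit 8774659657) (nat_lit 239) (nat_lit 5) (nat_lit 249) (nat_lit 5) (nat_lit 240) (nat_lit 5) (nat_lit 439) (nat_lit 420) (nat_lit 161)))) (XT.nd (nat_lit 156) (nat_lit 608) (nat_lit 0) (XT.nd (nat_lit 78) (nat_lit 608) (nat_lit 0) (XT.lf (nat_lit 0) (nat_lit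 13335335339) (nat_lit 760) (nat_lit 10936910674) (nat_lit 76) (nat_lit 34847106940) (nat_lit 239) (nat_lit 5) (nat_lit 249) (nat_lit 5) (nat_lit 240) (nat_lit 5) (nat_lit 440) (nat_lit 420) (nat_lit 160)) (XT.lf (nat_lit 0) (nat_lit 19047262410) (nat_lit 684) (nat_lit 39280891621) (nat_lit 76) (nat_lit 1769097667) (nat_lit 231) (nat_lit 5) (nat_lit 240) (nat_lit 5) (nat_lit 232) (nat_lit 5) (nat_lit 441) (nat_lit 420) (nat_lit 159))) (XT.nd (nat_lit 78) (nat_lit 608) (nat_lit 0) (XT.lf (nat_lit 0) (nat_lit 25281607751) (nat_lit 684) (nat_lit 7596934902) (nat_lit 76) (nat_lit 28215413177) (nat_lit 231) (nat_lit 5) (nat_lit 240) (nat_lit 5) (nat_lit 232) (nat_lit 5) (nat_lit 442) (nat_lit 420) (nat_lit 158)) (XT.lf (nat_lit 0) (nat_lit 25535071357) (nat_lit 608) (nat_lit 6412600298) (nat_lit 684) (nat_lit 30165549014) (nat_lit 223) (nat_lit 5) (nat_lit 231) (nat_lit 5) (nat_lit 232) (nat_lit 5) (nat_lit 443) (nat_lit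 420) (nat_lit 157)))))) (XT.nd (nat_lit 546) (nat_lit 1900) (nat_lit 0) (XT.nd (nat_lit 234) (nat_lit 1064) (nat_lit 0) (XT.nd (nat_lit 78) (nat_lit 1064) (nat_lit 0) (XT.lf (nat_lit 0) (nat_lit 39090833256) (nat_lit 684) (nat_lit 3545917267) (nat_lit 76) (nat_lit 20517999678) (nat_lit 223) (nat_lit 5) (nat_lit 232) (nat_lit 5) (nat_lit 224) (nat_lit 5) (nat_lit 444) (nat_lit 420) (nat_lit 156)) (XT.nd (nat_lit 78) (nat_lit 532) (nat_lit 0) (XT.lf (nat_lit 0) (nat_lit 31018326207) (nat_lit 532) (nat_lit 15790888603) (nat_lit 608) (nat_lit 17407483274) (nat_lit 216) (nat_lit 5) (nat_lit 223) (nat_lit 5) (nat_lit 224) (nat_lit 5) (nat_lit 445) (nat_lit 420) (nat_lit 155)) (XT.lf (nat_lit 0) (nat_lit 1292861522) (nat_lit 532) (nat_lit 53628165322) (nat_lit 608) (nat_lit 10384621398) (nat_lit 209) (nat_lit 5) (nat_lit 216) (nat_lit 5) (nat_lit 217) (nat_lit 5) (nat_lit 446) (nat_lit 420) (nat_lit 154)))) (XT.nd (nat_lit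 156) (nat_lit 532) (nat_lit 0) (XT.nd (nat_lit 78) (nat_lit 532) (nat_lit 0) (XT.lf (nat_lit 0) (nat_lit 37339158398) (nat_lit 532) (nat_lit 26426380654) (nat_lit 608) (nat_lit 2647047684) (nat_lit 209) (nat_lit 5) (nat_lit 216) (nat_lit 5) (nat_lit 217) (nat_lit 5) (nat_lit 447) (nat_lit 420) (nat_lit 153)) (XT.lf (nat_lit 0) (nat_lit 5301844154) (nat_lit 532) (nat_lit 60566896539) (nat_lit 76) (nat_lit 1679966294) (nat_lit 202) (nat_lit 5) (nat_lit 209) (nat_lit 5) (nat_lit 203) (nat_lit 5) (nat_lit 448) (nat_lit 420) (nat_lit 152))) (XT.nd (nat_lit 78) (nat_lit 532) (nat_lit 0) (XT.lf (nat_lit 0) (nat_lit 13993459259) (nat_lit 532) (nat_lit 24286938040) (nat_lit 76) (nat_lit 30421003694) (nat_lit 202) (nat_lit 5) (nat_lit 209) (nat_lit 5) (nat_lit 203) (nat_lit 5) (nat_lit 449) (nat_lit 420) (nat_lit 151)) (XT.lf (nat_lit 0) (nat_lit 13341017104) (nat_lit 532) (nat_lit 9732388331) (nat_lit 608) (nat_lit 46811443089)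 (nat_lit 195) (nat_lit 5) (nat_lit 202) (nat_lit 5) (nat_lit 203) (nat_lit 5) (nat_lit 450) (nat_lit 420) (nat_lit 150))))) (XT.nd (nat_lit 312) (nat_lit 988) (nat_lit 0) (XT.nd (nat_lit 156) (nat_lit 456) (nat_lit 0) (XT.nd (nat_lit 78) (nat_lit 456) (nat_lit 0) (XT.lf (nat_lit 0) (nat_lit 32861880621) (nat_lit 608) (nat_lit 18693045796) (nat_lit 76) (nat_lit 19535789320) (nat_lit 195) (nat_lit 5) (nat_lit 203) (nat_lit 5) (nat_lit 196) (nat_lit 5) (nat_lit 451) (nat_lit 420) (nat_lit 149)) (XT.lf (nat_lit 0) (nat_lit 20598123349) (nat_lit 456) (nat_lit 22639619694) (nat_lit 532) (nat_lit 29086204106) (nat_lit 189) (nat_lit 5) (nat_lit 195) (nat_lit 5) (nat_lit 196) (nat_lit 5) (nat_lit 452) (nat_lit 420) (nat_lit 148))) (XT.nd (nat_lit 78) (nat_lit 456) (nat_lit 0) (XT.lf (nat_lit 0) (nat_lit 54183559106) (nat_lit 532) (nat_lit 12208563161) (nat_lit 76) (nat_lit 7194293067) (nat_lit 189) (nat_lit 5) (nat_lit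 196) (nat_lit 5) (nat_lit 190) (nat_lit 5) (nat_lit 453) (nat_lit 420) (nat_lit 147)) (XT.lf (nat_lit 0) (nat_lit 28831963479) (nat_lit 456) (nat_lit 37126490736) (nat_lit 532) (nat_lit 8913282376) (nat_lit 183) (nat_lit 5) (nat_lit 189) (nat_lit 5) (nat_lit 190) (nat_lit 5) (nat_lit 454) (nat_lit 420) (nat_lit 146)))) (XT.nd (nat_lit 156) (nat_lit 456) (nat_lit 0) (XT.nd (nat_lit 78) (nat_lit 456) (nat_lit 0) (XT.lf (nat_lit 0) (nat_lit 1977986214) (nat_lit 532) (nat_lit 4858065022) (nat_lit 76) (nat_lit 69355303863) (nat_lit 182) (nat_lit 5) (nat_lit 189) (nat_lit 5) (nat_lit 183) (nat_lit 5) (nat_lit 455) (nat_lit 420) (nat_lit 145)) (XT.lf (nat_lit 0) (nat_lit 13622323446) (nat_lit 532) (nat_lit 39559737714) (nat_lit 76) (nat_lit 24347689280) (nat_lit 176) (nat_lit 5) (nat_lit 183) (nat_lit 5) (nat_lit 177) (nat_lit 5) (nat_lit 456) (nat_lit 420) (nat_lit 144))) (XT.nd (nat_lit 78) (nat_lit 0) (nat_lit 0) (XT.lf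 (nat_lit 0) (nat_lit 3270639071) (nat_lit 456) (nat_lit 22493447986) (nat_lit 532) (nat_lit 53139767837) (nat_lit 170) (nat_lit 5) (nat_lit 176) (nat_lit 5) (nat_lit 177) (nat_lit 5) (nat_lit 457) (nat_lit 420) (nat_lit 143)) (XT.lf (nat_lit 0) (nat_lit 38760600527) (nat_lit 532) (nat_lit 32202631888) (nat_lit 76) (nat_lit 9341235299) (nat_lit 170) (nat_lit 5) (nat_lit 177) (nat_lit 5) (nat_lit 171) (nat_lit 5) (nat_lit 458) (nat_lit 420) (nat_lit 142))))))))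
noncomputable def xc243 : XT := (XT.nd (nat_lit 51714) (nat_lit 0) (nat_lit 76) (XT.nd (nat_lit 50544) (nat_lit 0) (nat_lit 7220) (XT.nd (nat_lit 546) (nat_lit 380) (nat_lit 0) (XT.nd (nat_lit 234) (nat_lit 836) (nat_lit 0) (XT.nd (nat_lit 78) (nat_lit 380) (nat_lit 0) (XT.lf (nat_lit 0) (nat_lit 12552411126) (nat_lit 380) (nat_lit 39937422558) (nat_lit 456) (nat_lit 29246980641) (nat_lit 165) (nat_lit 5) (nat_lit 170) (nat_lit 5) (nat_lit 171) (nat_lit 5) (nat_lit 459) (nat_lit 420) (nat_lit 141)) (XT.nd (nat_lit 78) (nat_lit 380) (nat_lit 0) (XT.lf (nat_lit 0) (nat_lit 59309540831) (nat_lit 380) (nat_lit 7646051128) (nat_lit 456) (nat_lit 16246800063) (nat_lit 165) (nat_lit 5) (nat_lit 170) (nat_lit 5) (nat_lit 171) (nat_lit 5) (nat_lit 460) (nat_lit 420) (nat_lit 140)) (XT.lf (nat_lit 0) (nat_lit 22958552116) (nat_lit 380) (nat_lit 59363159399) (nat_lit 456) (nat_lit 2376234005) (nat_lit 160) (nat_lit 5) (nat_lit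 165) (nat_lit 5) (nat_lit 166) (nat_lit 5) (nat_lit 461) (nat_lit 420) (nat_lit 139)))) (XT.nd (nat_lit 156) (nat_lit 380) (nat_lit 0) (XT.nd (nat_lit 78) (nat_lit 380) (nat_lit 0) (XT.lf (nat_lit 0) (nat_lit 11996878877) (nat_lit 456) (nat_lit 14719117788) (nat_lit 76) (nat_lit 59509368993) (nat_lit 159) (nat_lit 5) (nat_lit 165) (nat_lit 5) (nat_lit 160) (nat_lit 5) (nat_lit 462) (nat_lit 420) (nat_lit 138)) (XT.lf (nat_lit 0) (nat_lit 27153123078) (nat_lit 456) (nat_lit 53499917055) (nat_lit 76) (nat_lit 7132871637) (nat_lit 154) (nat_lit 5) (nat_lit 160) (nat_lit 5) (nat_lit 155) (nat_lit 5) (nat_lit 463) (nat_lit 420) (nat_lit 137))) (XT.nd (nat_lit 78) (nat_lit 380) (nat_lit 0) (XT.lf (nat_lit 0) (nat_lit 43178179441) (nat_lit 456) (nat_lit 4592485514) (nat_lit 76) (nat_lit 41610185678) (nat_lit 154) (nat_lit 5) (nat_lit 160) (nat_lit 5) (nat_lit 155) (nat_lit 5) (nat_lit 464) (nat_lit 420) (nat_lit 136))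 (XT.lf (nat_lit 0) (nat_lit 46692658582) (nat_lit 380) (nat_lit 13439685915) (nat_lit 456) (nat_lit 30877842564) (nat_lit 149) (nat_lit 5) (nat_lit 154) (nat_lit 5) (nat_lit 155) (nat_lit 5) (nat_lit 465) (nat_lit 420) (nat_lit 135))))) (XT.nd (nat_lit 49686) (nat_lit 0) (nat_lit 8588) (XT.nd (nat_lit 78) (nat_lit 76) (nat_lit 0) (XT.lf (nat_lit 0) (nat_lit 6845223118) (nat_lit 304) (nat_lit 71072791078) (nat_lit 380) (nat_lit 14760703102) (nat_lit 145) (nat_lit 5) (nat_lit 149) (nat_lit 5) (nat_lit 150) (nat_lit 5) (nat_lit 466) (nat_lit 420) (nat_lit 134)) (XT.nd (nat_lit 49530) (nat_lit 0) (nat_lit 8588) (XT.lf (nat_lit 0) (nat_lit 2388591312) (nat_lit 380) (nat_lit 34088400155) (nat_lit 76) (nat_lit 57902245128) (nat_lit 144) (nat_lit 5) (nat_lit 149) (nat_lit 5) (nat_lit 145) (nat_lit 5) (nat_lit 467) (nat_lit 420) (nat_lit 133)) (XT.lf (nat_lit 0) (nat_lit 6708695491) (nat_lit 1292) (nat_lit 7796239661) (nat_lit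 1292) (nat_lit 7796239661) (nat_lit 257) (nat_lit 3) (nat_lit 274) (nat_lit 3) (nat_lit 274) (nat_lit 5) (nat_lit 421) (nat_lit 421) (nat_lit 178)))) (XT.nd (nat_lit 156) (nat_lit 0) (nat_lit 76) (XT.nd (nat_lit 78) (nat_lit 0) (nat_lit 76) (XT.lf (nat_lit 76) (nat_lit 6203504629) (nat_lit 0) (nat_lit 7507290829) (nat_lit 1292) (nat_lit 31557814475) (nat_lit 258) (nat_lit 5) (nat_lit 257) (nat_lit 3) (nat_lit 274) (nat_lit 5) (nat_lit 422) (nat_lit 421) (nat_lit 177)) (XT.lf (nat_lit 0) (nat_lit 14311477235) (nat_lit 1216) (nat_lit 17120138094) (nat_lit 1292) (nat_lit 14514288876) (nat_lit 258) (nat_lit 5) (nat_lit 274) (nat_lit 5) (nat_lit 275) (nat_lit 5) (nat_lit 423) (nat_lit 421) (nat_lit 176))) (XT.nd (nat_lit 78) (nat_lit 0) (nat_lit 76) (XT.lf (nat_lit 76) (nat_lit 5515790991) (nat_lit 0) (nat_lit 9540506816) (nat_lit 1292) (nat_lit 31583436351) (nat_lit 259) (nat_lit 5) (nat_lit 258) (nat_lit 5) (nat_lit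 275) (nat_lit 5) (nat_lit 424) (nat_lit 421) (nat_lit 175)) (XT.lf (nat_lit 0) (nat_lit 16121890854) (nat_lit 1216) (nat_lit 18294919947) (nat_lit 1292) (nat_lit 12928615764) (nat_lit 259) (nat_lit 5) (nat_lit 275) (nat_lit 5) (nat_lit 276) (nat_lit 5) (nat_lit 425) (nat_lit 421) (nat_lit 174)))))) (XT.nd (nat_lit 546) (nat_lit 1520) (nat_lit 0) (XT.nd (nat_lit 234) (nat_lit 0) (nat_lit 152) (XT.nd (nat_lit 78) (nat_lit 0) (nat_lit 76) (XT.lf (nat_lit 76) (nat_lit 5225783295) (nat_lit 0) (nat_lit 12137199071) (nat_lit 1292) (nat_lit 30705001837) (nat_lit 260) (nat_lit 5) (nat_lit 259) (nat_lit 5) (nat_lit 276) (nat_lit 5) (nat_lit 426) (nat_lit 421) (nat_lit 173)) (XT.nd (nat_lit 78) (nat_lit 0) (nat_lit 0) (XT.lf (nat_lit 0) (nat_lit 18930666796) (nat_lit 1216) (nat_lit 19086025729) (nat_lit 1292) (nat_lit 10786845610) (nat_lit 260) (nat_lit 5) (nat_lit 276) (nat_lit 5) (nat_lit 277) (nat_lit 5) (nat_lit 427)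 (nat_lit 421) (nat_lit 172)) (XT.lf (nat_lit 76) (nat_lit 5366673143) (nat_lit 0) (nat_lit 15349367796) (nat_lit 1292) (nat_lit 28839998328) (nat_lit 261) (nat_lit 5) (nat_lit 260) (nat_lit 5) (nat_lit 277) (nat_lit 5) (nat_lit 428) (nat_lit 421) (nat_lit 171)))) (XT.nd (nat_lit 156) (nat_lit 0) (nat_lit 76) (XT.nd (nat_lit 78) (nat_lit 0) (nat_lit 0) (XT.lf (nat_lit 0) (nat_lit 22825427295) (nat_lit 1216) (nat_lit 19460668840) (nat_lit 1292) (nat_lit 8036906116) (nat_lit 261) (nat_lit 5) (nat_lit 277) (nat_lit 5) (nat_lit 278) (nat_lit 5) (nat_lit 429) (nat_lit 421) (nat_lit 170)) (XT.lf (nat_lit 76) (nat_lit 5973763243) (nat_lit 0) (nat_lit 19232690446) (nat_lit 1292) (nat_lit 25900270020) (nat_lit 262) (nat_lit 5) (nat_lit 261) (nat_lit 5) (nat_lit 278) (nat_lit 5) (nat_lit 430) (nat_lit 421) (nat_lit 169))) (XT.nd (nat_lit 78) (nat_lit 0) (nat_lit 0) (XT.lf (nat_lit 0) (nat_lit 27899733641) (nat_lit 1216) (nat_lit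 19383977722) (nat_lit 1292) (nat_lit 4623021090) (nat_lit 262) (nat_lit 5) (nat_lit 278) (nat_lit 5) (nat_lit 279) (nat_lit 5) (nat_lit 431) (nat_lit 421) (nat_lit 168)) (XT.lf (nat_lit 76) (nat_lit 7084570690) (nat_lit 0) (nat_lit 23846782028) (nat_lit 1292) (nat_lit 21791662840) (nat_lit 263) (nat_lit 5) (nat_lit 262) (nat_lit 5) (nat_lit 279) (nat_lit 5) (nat_lit 432) (nat_lit 421) (nat_lit 167))))) (XT.nd (nat_lit 312) (nat_lit 1824) (nat_lit 0) (XT.nd (nat_lit 156) (nat_lit 0) (nat_lit 0) (XT.nd (nat_lit 78) (nat_lit 0) (nat_lit 0) (XT.lf (nat_lit 0) (nat_lit 34253458371) (nat_lit 1216) (nat_lit 18818894809) (nat_lit 1292) (nat_lit 485448144) (nat_lit 263) (nat_lit 5) (nat_lit 279) (nat_lit 5) (nat_lit 280) (nat_lit 5) (nat_lit 433) (nat_lit 421) (nat_lit 166)) (XT.lf (nat_lit 76) (nat_lit 8738933967) (nat_lit 0) (nat_lit 29255472759) (nat_lit 1292) (nat_lit 16413648850) (nat_lit 264) (nat_lit 5) (nat_lit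 263) (nat_lit 5) (nat_lit 280) (nat_lit 5) (nat_lit 434) (nat_lit 421) (nat_lit 165))) (XT.nd (nat_lit 78) (nat_lit 0) (nat_lit 76) (XT.lf (nat_lit 76) (nat_lit 37508544540) (nat_lit 0) (nat_lit 4528161916) (nat_lit 1292) (nat_lit 13241437604) (nat_lit 264) (nat_lit 5) (nat_lit 263) (nat_lit 5) (nat_lit 280) (nat_lit 5) (nat_lit 435) (nat_lit 421) (nat_lit 164)) (XT.lf (nat_lit 76) (nat_lit 10979123564) (nat_lit 0) (nat_lit 35527104346) (nat_lit 1292) (nat_lit 9658928989) (nat_lit 265) (nat_lit 5) (nat_lit 264) (nat_lit 5) (nat_lit 281) (nat_lit 5) (nat_lit 436) (nat_lit 421) (nat_lit 163)))) (XT.nd (nat_lit 156) (nat_lit 760) (nat_lit 0) (XT.nd (nat_lit 78) (nat_lit 1140) (nat_lit 0) (XT.lf (nat_lit 76) (nat_lit 40908119793) (nat_lit 0) (nat_lit 10424683122) (nat_lit 1292) (nat_lit 5739288445) (nat_lit 265) (nat_lit 5) (nat_lit 264) (nat_lit 5) (nat_lit 281) (nat_lit 5) (nat_lit 437) (nat_lit 421) (nat_lit 162))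 (XT.lf (nat_lit 0) (nat_lit 13849956114) (nat_lit 1216) (nat_lit 42734846234) (nat_lit 1292) (nat_lit 1413012958) (nat_lit 249) (nat_lit 5) (nat_lit 265) (nat_lit 5) (nat_lit 266) (nat_lit 5) (nat_lit 438) (nat_lit 421) (nat_lit 161))) (XT.nd (nat_lit 78) (nat_lit 684) (nat_lit 0) (XT.lf (nat_lit 0) (nat_lit 3250896722) (nat_lit 1292) (nat_lit 13985587148) (nat_lit 76) (nat_lit 41705932997) (nat_lit 248) (nat_lit 5) (nat_lit 265) (nat_lit 5) (nat_lit 249) (nat_lit 5) (nat_lit 439) (nat_lit 421) (nat_lit 160)) (XT.lf (nat_lit 0) (nat_lit 8281408733) (nat_lit 760) (nat_lit 42591998549) (nat_lit 76) (nat_lit 9033877174) (nat_lit 239) (nat_lit 5) (nat_lit 249) (nat_lit 5) (nat_lit 240) (nat_lit 5) (nat_lit 440) (nat_lit 421) (nat_lit 159))))))) (XT.nd (nat_lit 1092) (nat_lit 3344) (nat_lit 0) (XT.nd (nat_lit 546) (nat_lit 1520) (nat_lit 0) (XT.nd (nat_lit 234) (nat_lit 1672) (nat_lit 0) (XT.nd (nat_lit 78) (nat_lit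 608) (nat_lit 0) (XT.lf (nat_lit 0) (nat_lit 13775332769) (nat_lit 760) (nat_lit 11227775611) (nat_lit 76) (nat_lit 35888615029) (nat_lit 239) (nat_lit 5) (nat_lit 249) (nat_lit 5) (nat_lit 240) (nat_lit 5) (nat_lit 441) (nat_lit 421) (nat_lit 158)) (XT.nd (nat_lit 78) (nat_lit 0) (nat_lit 0) (XT.lf (nat_lit 0) (nat_lit 19657787273) (nat_lit 684) (nat_lit 40421233947) (nat_lit 76) (nat_lit 1819963159) (nat_lit 231) (nat_lit 5) (nat_lit 240) (nat_lit 5) (nat_lit 232) (nat_lit 5) (nat_lit 442) (nat_lit 421) (nat_lit 157)) (XT.lf (nat_lit 0) (nat_lit 26078023936) (nat_lit 684) (nat_lit 7787867780) (nat_lit 76) (nat_lit 29059732428) (nat_lit 231) (nat_lit 5) (nat_lit 240) (nat_lit 5) (nat_lit 232) (nat_lit 5) (nat_lit 443) (nat_lit 421) (nat_lit 156)))) (XT.nd (nat_lit 156) (nat_lit 1064) (nat_lit 0) (XT.nd (nat_lit 78) (nat_lit 0) (nat_lit 0) (XT.lf (nat_lit 0) (nat_lit 26337736164) (nat_lit 608) (nat_lit 6605579673)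 (nat_lit 684) (nat_lit 31032174039) (nat_lit 223) (nat_lit 5) (nat_lit 231) (nat_lit 5) (nat_lit 232) (nat_lit 5) (nat_lit 444) (nat_lit 421) (nat_lit 155)) (XT.lf (nat_lit 0) (nat_lit 40299682771) (nat_lit 684) (nat_lit 3615648319) (nat_lit 76) (nat_lit 21132967211) (nat_lit 223) (nat_lit 5) (nat_lit 232) (nat_lit 5) (nat_lit 224) (nat_lit 5) (nat_lit 445) (nat_lit 421) (nat_lit 154))) (XT.nd (nat_lit 78) (nat_lit 532) (nat_lit 0) (XT.lf (nat_lit 0) (nat_lit 31985163181) (nat_lit 532) (nat_lit 16263749235) (nat_lit 608) (nat_lit 17893213615) (nat_lit 216) (nat_lit 5) (nat_lit 223) (nat_lit 5) (nat_lit 224) (nat_lit 5) (nat_lit 446) (nat_lit 421) (nat_lit 153)) (XT.lf (nat_lit 0) (nat_lit 1368633032) (nat_lit 532) (nat_lit 55234777706) (nat_lit 608) (nat_lit 10660354300) (nat_lit 209) (nat_lit 5) (nat_lit 216) (nat_lit 5) (nat_lit 217) (nat_lit 5) (nat_lit 447) (nat_lit 421) (nat_lit 152))))) (XT.nd (nat_lit 234)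 (nat_lit 988) (nat_lit 0) (XT.nd (nat_lit 78) (nat_lit 532) (nat_lit 0) (XT.lf (nat_lit 0) (nat_lit 38495241562) (nat_lit 532) (nat_lit 27217004524) (nat_lit 608) (nat_lit 2691696260) (nat_lit 209) (nat_lit 5) (nat_lit 216) (nat_lit 5) (nat_lit 217) (nat_lit 5) (nat_lit 448) (nat_lit 421) (nat_lit 151)) (XT.nd (nat_lit 78) (nat_lit 0) (nat_lit 0) (XT.lf (nat_lit 0) (nat_lit 5494366458) (nat_lit 532) (nat_lit 62346680462) (nat_lit 76) (nat_lit 1733108062) (nat_lit 202) (nat_lit 5) (nat_lit 209) (nat_lit 5) (nat_lit 203) (nat_lit 5) (nat_lit 449) (nat_lit 421) (nat_lit 150)) (XT.lf (nat_lit 0) (nat_lit 14445755250) (nat_lit 532) (nat_lit 24979407373) (nat_lit 76) (nat_lit 31336296697) (nat_lit 202) (nat_lit 5) (nat_lit 209) (nat_lit 5) (nat_lit 203) (nat_lit 5) (nat_lit 450) (nat_lit 421) (nat_lit 149)))) (XT.nd (nat_lit 156) (nat_lit 456) (nat_lit 0) (XT.nd (nat_lit 78) (nat_lit 0) (nat_lit 0) (XT.lf (nat_lit 0)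 (nat_lit 13777032124) (nat_lit 532) (nat_lit 10020465295) (nat_lit 608) (nat_lit 48182931189) (nat_lit 195) (nat_lit 5) (nat_lit 202) (nat_lit 5) (nat_lit 203) (nat_lit 5) (nat_lit 451) (nat_lit 421) (nat_lit 148)) (XT.lf (nat_lit 0) (nat_lit 33878734379) (nat_lit 608) (nat_lit 19218194024) (nat_lit 76) (nat_lit 20125570462) (nat_lit 195) (nat_lit 5) (nat_lit 203) (nat_lit 5) (nat_lit 196) (nat_lit 5) (nat_lit 452) (nat_lit 421) (nat_lit 147))) (XT.nd (nat_lit 78) (nat_lit 0) (nat_lit 0) (XT.lf (nat_lit 0) (nat_lit 21251360752) (nat_lit 456) (nat_lit 23313948349) (nat_lit 532) (nat_lit 29927435269) (nat_lit 189) (nat_lit 5) (nat_lit 195) (nat_lit 5) (nat_lit 196) (nat_lit 5) (nat_lit 453) (nat_lit 421) (nat_lit 146)) (XT.lf (nat_lit 0) (nat_lit 55838658583) (nat_lit 532) (nat_lit 12539705320) (nat_lit 76) (nat_lit 7414748170) (nat_lit 189) (nat_lit 5) (nat_lit 196) (nat_lit 5) (nat_lit 190) (nat_lit 5) (nat_lit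 454) (nat_lit 421) (nat_lit 145)))))) (XT.nd (nat_lit 546) (nat_lit 1520) (nat_lit 0) (XT.nd (nat_lit 234) (nat_lit 836) (nat_lit 0) (XT.nd (nat_lit 78) (nat_lit 532) (nat_lit 0) (XT.lf (nat_lit 0) (nat_lit 29731692858) (nat_lit 456) (nat_lit 38234579999) (nat_lit 532) (nat_lit 9150736172) (nat_lit 183) (nat_lit 5) (nat_lit 189) (nat_lit 5) (nat_lit 190) (nat_lit 5) (nat_lit 455) (nat_lit 421) (nat_lit 144)) (XT.nd (nat_lit 78) (nat_lit 456) (nat_lit 0) (XT.lf (nat_lit 0) (nat_lit 2065830991) (nat_lit 532) (nat_lit 4969474654) (nat_lit 76) (nat_lit 71440927684) (nat_lit 182) (nat_lit 5) (nat_lit 189) (nat_lit 5) (nat_lit 183) (nat_lit 5) (nat_lit 456) (nat_lit 421) (nat_lit 143)) (XT.lf (nat_lit 0) (nat_lit 14059052498) (nat_lit 532) (nat_lit 40711744629) (nat_lit 76) (nat_lit 25083996990) (nat_lit 176) (nat_lit 5) (nat_lit 183) (nat_lit 5) (nat_lit 177) (nat_lit 5) (nat_lit 457) (nat_lit 421) (nat_lit 142))))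 (XT.nd (nat_lit 156) (nat_lit 380) (nat_lit 0) (XT.nd (nat_lit 78) (nat_lit 0) (nat_lit 0) (XT.lf (nat_lit 0) (nat_lit 3403202428) (nat_lit 456) (nat_lit 23161380425) (nat_lit 532) (nat_lit 54705553642) (nat_lit 170) (nat_lit 5) (nat_lit 176) (nat_lit 5) (nat_lit 177) (nat_lit 5) (nat_lit 458) (nat_lit 421) (nat_lit 141)) (XT.lf (nat_lit 0) (nat_lit 39950252749) (nat_lit 532) (nat_lit 33134524260) (nat_lit 76) (nat_lit 9628013059) (nat_lit 170) (nat_lit 5) (nat_lit 177) (nat_lit 5) (nat_lit 171) (nat_lit 5) (nat_lit 459) (nat_lit 421) (nat_lit 140))) (XT.nd (nat_lit 78) (nat_lit 0) (nat_lit 0) (XT.lf (nat_lit 0) (nat_lit 12962834882) (nat_lit 380) (nat_lit 41128071841) (nat_lit 456) (nat_lit 30097214234) (nat_lit 165) (nat_lit 5) (nat_lit 170) (nat_lit 5) (nat_lit 171) (nat_lit 5) (nat_lit 460) (nat_lit 421) (nat_lit 139)) (XT.lf (nat_lit 0) (nat_lit 61121692513) (nat_lit 380) (nat_lit 7868176940) (nat_lit 456)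 (nat_lit 16707819768) (nat_lit 165) (nat_lit 5) (nat_lit 170) (nat_lit 5) (nat_lit 171) (nat_lit 5) (nat_lit 461) (nat_lit 421) (nat_lit 138))))) (XT.nd (nat_lit 312) (nat_lit 684) (nat_lit 0) (XT.nd (nat_lit 156) (nat_lit 380) (nat_lit 0) (XT.nd (nat_lit 78) (nat_lit 76) (nat_lit 0) (XT.lf (nat_lit 0) (nat_lit 23680549831) (nat_lit 380) (nat_lit 61136064100) (nat_lit 456) (nat_lit 2421506336) (nat_lit 160) (nat_lit 5) (nat_lit 165) (nat_lit 5) (nat_lit 166) (nat_lit 5) (nat_lit 462) (nat_lit 421) (nat_lit 137)) (XT.lf (nat_lit 0) (nat_lit 12381549369) (nat_lit 456) (nat_lit 15127919767) (nat_lit 76) (nat_lit 61301908832) (nat_lit 159) (nat_lit 5) (nat_lit 165) (nat_lit 5) (nat_lit 160) (nat_lit 5) (nat_lit 463) (nat_lit 421) (nat_lit 136))) (XT.nd (nat_lit 78) (nat_lit 0) (nat_lit 0) (XT.lf (nat_lit 0) (nat_lit 27992149361) (nat_lit 456) (nat_lit 55071805908) (nat_lit 76) (nat_lit 7354795307) (nat_lit 154) (nat_lit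 5) (nat_lit 160) (nat_lit 5) (nat_lit 155) (nat_lit 5) (nat_lit 464) (nat_lit 421) (nat_lit 135)) (XT.lf (nat_lit 0) (nat_lit 44497245785) (nat_lit 456) (nat_lit 4698115751) (nat_lit 76) (nat_lit 42866197580) (nat_lit 154) (nat_lit 5) (nat_lit 160) (nat_lit 5) (nat_lit 155) (nat_lit 5) (nat_lit 465) (nat_lit 421) (nat_lit 134)))) (XT.nd (nat_lit 49686) (nat_lit 0) (nat_lit 8512) (XT.nd (nat_lit 78) (nat_lit 304) (nat_lit 0) (XT.lf (nat_lit 0) (nat_lit 48125267527) (nat_lit 380) (nat_lit 13834383326) (nat_lit 456) (nat_lit 31780136489) (nat_lit 149) (nat_lit 5) (nat_lit 154) (nat_lit 5) (nat_lit 155) (nat_lit 5) (nat_lit 466) (nat_lit 421) (nat_lit 133)) (XT.lf (nat_lit 0) (nat_lit 7082714523) (nat_lit 304) (nat_lit 73195884592) (nat_lit 380) (nat_lit 15179783270) (nat_lit 145) (nat_lit 5) (nat_lit 149) (nat_lit 5) (nat_lit 150) (nat_lit 5) (nat_lit 467) (nat_lit 421) (nat_lit 132))) (XT.nd (nat_lit 78) (nat_lit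 0) (nat_lit 0) (XT.lf (nat_lit 0) (nat_lit 6942155563) (nat_lit 1292) (nat_lit 8013538994) (nat_lit 1292) (nat_lit 8013538994) (nat_lit 257) (nat_lit 3) (nat_lit 274) (nat_lit 3) (nat_lit 274) (nat_lit 5) (nat_lit 422) (nat_lit 422) (nat_lit 176)) (XT.lf (nat_lit 76) (nat_lit 6422460229) (nat_lit 0) (nat_lit 7762497602) (nat_lit 1292) (nat_lit 32439804795) (nat_lit 258) (nat_lit 5) (nat_lit 257) (nat_lit 3) (nat_lit 274) (nat_lit 5) (nat_lit 423) (nat_lit 422) (nat_lit 175))))))))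
noncomputable def xc244 : XT := (XT.nd (nat_lit 2184) (nat_lit 3648) (nat_lit 0) (XT.nd (nat_lit 1092) (nat_lit 4256) (nat_lit 0) (XT.nd (nat_lit 546) (nat_lit 0) (nat_lit 228) (XT.nd (nat_lit 234) (nat_lit 0) (nat_lit 76) (XT.nd (nat_lit 78) (nat_lit 0) (nat_lit 0) (XT.lf (nat_lit 0) (nat_lit 14801549947) (nat_lit 1216) (nat_lit 17599718616) (nat_lit 1292) (nat_lit 14921171063) (nat_lit 258) (nat_lit 5) (nat_lit 274) (nat_lit 5) (nat_lit 275) (nat_lit 5) (nat_lit 424) (nat_lit 422) (nat_lit 174)) (XT.nd (nat_lit 78) (nat_lit 0) (nat_lit 76) (XT.lf (nat_lit 76) (nat_lit 5714954776) (nat_lit 0) (nat_lit 9852315421) (nat_lit 1292) (nat_lit 32469858207) (nat_lit 259) (nat_lit 5) (nat_lit 258) (nat_lit 5) (nat_lit 275) (nat_lit 5) (nat_lit 425) (nat_lit 422) (nat_lit 173)) (XT.lf (nat_lit 0) (nat_lit 16662865479) (nat_lit 1216) (nat_lit 18809074485) (nat_lit 1292) (nat_lit 13292111148) (nat_lit 259) (nat_lit 5) (nat_lit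 275) (nat_lit 5) (nat_lit 276) (nat_lit 5) (nat_lit 426) (nat_lit 422) (nat_lit 172)))) (XT.nd (nat_lit 156) (nat_lit 0) (nat_lit 76) (XT.nd (nat_lit 78) (nat_lit 0) (nat_lit 76) (XT.lf (nat_lit 76) (nat_lit 5416909726) (nat_lit 0) (nat_lit 12522940778) (nat_lit 1292) (nat_lit 31568475697) (nat_lit 260) (nat_lit 5) (nat_lit 259) (nat_lit 5) (nat_lit 276) (nat_lit 5) (nat_lit 427) (nat_lit 422) (nat_lit 171)) (XT.lf (nat_lit 0) (nat_lit 19552733196) (nat_lit 1216) (nat_lit 19623404228) (nat_lit 1292) (nat_lit 11089864824) (nat_lit 260) (nat_lit 5) (nat_lit 276) (nat_lit 5) (nat_lit 277) (nat_lit 5) (nat_lit 428) (nat_lit 422) (nat_lit 170))) (XT.nd (nat_lit 78) (nat_lit 0) (nat_lit 76) (XT.lf (nat_lit 76) (nat_lit 5562530490) (nat_lit 0) (nat_lit 15827896062) (nat_lit 1292) (nat_lit 29650689636) (nat_lit 261) (nat_lit 5) (nat_lit 260) (nat_lit 5) (nat_lit 277) (nat_lit 5) (nat_lit 429) (nat_lit 422) (nat_lit 169))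 (XT.lf (nat_lit 0) (nat_lit 23561385166) (nat_lit 1216) (nat_lit 20008921052) (nat_lit 1292) (nat_lit 8260833623) (nat_lit 261) (nat_lit 5) (nat_lit 277) (nat_lit 5) (nat_lit 278) (nat_lit 5) (nat_lit 430) (nat_lit 422) (nat_lit 168))))) (XT.nd (nat_lit 234) (nat_lit 0) (nat_lit 152) (XT.nd (nat_lit 78) (nat_lit 0) (nat_lit 76) (XT.lf (nat_lit 76) (nat_lit 6188195289) (nat_lit 0) (nat_lit 19824494492) (nat_lit 1292) (nat_lit 26625718222) (nat_lit 262) (nat_lit 5) (nat_lit 261) (nat_lit 5) (nat_lit 278) (nat_lit 5) (nat_lit 431) (nat_lit 422) (nat_lit 167)) (XT.nd (nat_lit 78) (nat_lit 0) (nat_lit 0) (XT.lf (nat_lit 0) (nat_lit 28785172244) (nat_lit 1216) (nat_lit 19929692144) (nat_lit 1292) (nat_lit 4747600970) (nat_lit 262) (nat_lit 5) (nat_lit 278) (nat_lit 5) (nat_lit 279) (nat_lit 5) (nat_lit 432) (nat_lit 422) (nat_lit 166)) (XT.lf (nat_lit 76) (nat_lit 7332561691) (nat_lit 0) (nat_lit 24574107940) (nat_lit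 1292) (nat_lit 22396599888) (nat_lit 263) (nat_lit 5) (nat_lit 262) (nat_lit 5) (nat_lit 279) (nat_lit 5) (nat_lit 433) (nat_lit 422) (nat_lit 165)))) (XT.nd (nat_lit 156) (nat_lit 0) (nat_lit 0) (XT.nd (nat_lit 78) (nat_lit 0) (nat_lit 0) (XT.lf (nat_lit 0) (nat_lit 35326947293) (nat_lit 1216) (nat_lit 19347534476) (nat_lit 1292) (nat_lit 488662267) (nat_lit 263) (nat_lit 5) (nat_lit 279) (nat_lit 5) (nat_lit 280) (nat_lit 5) (nat_lit 434) (nat_lit 422) (nat_lit 164)) (XT.lf (nat_lit 76) (nat_lit 9036676936) (nat_lit 0) (nat_lit 30142452670) (nat_lit 1292) (nat_lit 16859806575) (nat_lit 264) (nat_lit 5) (nat_lit 263) (nat_lit 5) (nat_lit 280) (nat_lit 5) (nat_lit 435) (nat_lit 422) (nat_lit 163))) (XT.nd (nat_lit 78) (nat_lit 0) (nat_lit 76) (XT.lf (nat_lit 76) (nat_lit 38668339663) (nat_lit 0) (nat_lit 4673051169) (nat_lit 1292) (nat_lit 13593776130) (nat_lit 264) (nat_lit 5) (nat_lit 263) (nat_lit 5) (nat_lit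 280) (nat_lit 5) (nat_lit 436) (nat_lit 422) (nat_lit 162)) (XT.lf (nat_lit 76) (nat_lit 11344091995) (nat_lit 0) (nat_lit 36599894272) (nat_lit 1292) (nat_lit 9904834675) (nat_lit 265) (nat_lit 5) (nat_lit 264) (nat_lit 5) (nat_lit 281) (nat_lit 5) (nat_lit 437) (nat_lit 422) (nat_lit 161)))))) (XT.nd (nat_lit 546) (nat_lit 2204) (nat_lit 0) (XT.nd (nat_lit 234) (nat_lit 1292) (nat_lit 0) (XT.nd (nat_lit 78) (nat_lit 1216) (nat_lit 0) (XT.lf (nat_lit 76) (nat_lit 42169921370) (nat_lit 0) (nat_lit 10744197204) (nat_lit 1292) (nat_lit 5868882454) (nat_lit 265) (nat_lit 5) (nat_lit 264) (nat_lit 5) (nat_lit 281) (nat_lit 5) (nat_lit 438) (nat_lit 422) (nat_lit 160)) (XT.nd (nat_lit 78) (nat_lit 76) (nat_lit 0) (XT.lf (nat_lit 0) (nat_lit 14300979238) (nat_lit 1216) (nat_lit 44021773188) (nat_lit 1292) (nat_lit 1413772417) (nat_lit 249) (nat_lit 5) (nat_lit 265) (nat_lit 5) (nat_lit 266) (nat_lit 5) (nat_lit 439)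 (nat_lit 422) (nat_lit 159)) (XT.lf (nat_lit 0) (nat_lit 3388053294) (nat_lit 1292) (nat_lit 14369864296) (nat_lit 76) (nat_lit 42951570882) (nat_lit 248) (nat_lit 5) (nat_lit 265) (nat_lit 5) (nat_lit 249) (nat_lit 5) (nat_lit 440) (nat_lit 422) (nat_lit 158)))) (XT.nd (nat_lit 156) (nat_lit 608) (nat_lit 0) (XT.nd (nat_lit 78) (nat_lit 0) (nat_lit 0) (XT.lf (nat_lit 0) (nat_lit 8568625141) (nat_lit 760) (nat_lit 43833600852) (nat_lit 76) (nat_lit 9301102112) (nat_lit 239) (nat_lit 5) (nat_lit 249) (nat_lit 5) (nat_lit 240) (nat_lit 5) (nat_lit 441) (nat_lit 422) (nat_lit 157)) (XT.lf (nat_lit 0) (nat_lit 14226237554) (nat_lit 760) (nat_lit 11529504362) (nat_lit 76) (nat_lit 36961592530) (nat_lit 239) (nat_lit 5) (nat_lit 249) (nat_lit 5) (nat_lit 240) (nat_lit 5) (nat_lit 442) (nat_lit 422) (nat_lit 156))) (XT.nd (nat_lit 78) (nat_lit 0) (nat_lit 0) (XT.lf (nat_lit 0) (nat_lit 20284382981) (nat_lit 684) (nat_lit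 41597972743) (nat_lit 76) (nat_lit 1872481331) (nat_lit 231) (nat_lit 5) (nat_lit 240) (nat_lit 5) (nat_lit 232) (nat_lit 5) (nat_lit 443) (nat_lit 422) (nat_lit 155)) (XT.lf (nat_lit 0) (nat_lit 26896153091) (nat_lit 684) (nat_lit 7986651171) (nat_lit 76) (nat_lit 29929504282) (nat_lit 231) (nat_lit 5) (nat_lit 240) (nat_lit 5) (nat_lit 232) (nat_lit 5) (nat_lit 444) (nat_lit 422) (nat_lit 154))))) (XT.nd (nat_lit 234) (nat_lit 1064) (nat_lit 0) (XT.nd (nat_lit 78) (nat_lit 532) (nat_lit 0) (XT.lf (nat_lit 0) (nat_lit 27162379199) (nat_lit 608) (nat_lit 6804313908) (nat_lit 684) (nat_lit 31926998770) (nat_lit 223) (nat_lit 5) (nat_lit 231) (nat_lit 5) (nat_lit 232) (nat_lit 5) (nat_lit 445) (nat_lit 422) (nat_lit 153)) (XT.nd (nat_lit 78) (nat_lit 532) (nat_lit 0) (XT.lf (nat_lit 0) (nat_lit 41542724076) (nat_lit 684) (nat_lit 3689574959) (nat_lit 76) (nat_lit 21766416631) (nat_lit 223) (nat_lit 5) (nat_lit 232)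 (nat_lit 5) (nat_lit 224) (nat_lit 5) (nat_lit 446) (nat_lit 422) (nat_lit 152)) (XT.lf (nat_lit 0) (nat_lit 32978922231) (nat_lit 532) (nat_lit 16750845399) (nat_lit 608) (nat_lit 18395610781) (nat_lit 216) (nat_lit 5) (nat_lit 223) (nat_lit 5) (nat_lit 224) (nat_lit 5) (nat_lit 447) (nat_lit 422) (nat_lit 151)))) (XT.nd (nat_lit 156) (nat_lit 532) (nat_lit 0) (XT.nd (nat_lit 78) (nat_lit 0) (nat_lit 0) (XT.lf (nat_lit 0) (nat_lit 1444554558) (nat_lit 532) (nat_lit 56889716621) (nat_lit 608) (nat_lit 10946414586) (nat_lit 209) (nat_lit 5) (nat_lit 216) (nat_lit 5) (nat_lit 217) (nat_lit 5) (nat_lit 448) (nat_lit 422) (nat_lit 150)) (XT.lf (nat_lit 0) (nat_lit 39683945930) (nat_lit 532) (nat_lit 28031471537) (nat_lit 608) (nat_lit 2739679824) (nat_lit 209) (nat_lit 5) (nat_lit 216) (nat_lit 5) (nat_lit 217) (nat_lit 5) (nat_lit 449) (nat_lit 422) (nat_lit 149))) (XT.nd (nat_lit 78) (nat_lit 0) (nat_lit 0) (XT.lf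 (nat_lit 0) (nat_lit 5690743290) (nat_lit 532) (nat_lit 64181994653) (nat_lit 76) (nat_lit 1787686636) (nat_lit 202) (nat_lit 5) (nat_lit 209) (nat_lit 5) (nat_lit 203) (nat_lit 5) (nat_lit 450) (nat_lit 422) (nat_lit 148)) (XT.lf (nat_lit 0) (nat_lit 14909754935) (nat_lit 532) (nat_lit 25694725300) (nat_lit 76) (nat_lit 32278895629) (nat_lit 202) (nat_lit 5) (nat_lit 209) (nat_lit 5) (nat_lit 203) (nat_lit 5) (nat_lit 451) (nat_lit 422) (nat_lit 147))))))) (XT.nd (nat_lit 1092) (nat_lit 0) (nat_lit 0) (XT.nd (nat_lit 546) (nat_lit 1672) (nat_lit 0) (XT.nd (nat_lit 234) (nat_lit 988) (nat_lit 0) (XT.nd (nat_lit 78) (nat_lit 456) (nat_lit 0) (XT.lf (nat_lit 0) (nat_lit 14224073417) (nat_lit 532) (nat_lit 10317408139) (nat_lit 608) (nat_lit 49597449955) (nat_lit 195) (nat_lit 5) (nat_lit 202) (nat_lit 5) (nat_lit 203) (nat_lit 5) (nat_lit 452) (nat_lit 422) (nat_lit 146)) (XT.nd (nat_lit 78) (nat_lit 456) (nat_lit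 0) (XT.lf (nat_lit 0) (nat_lit 34924314374) (nat_lit 608) (nat_lit 19761142761) (nat_lit 76) (nat_lit 20732832216) (nat_lit 195) (nat_lit 5) (nat_lit 203) (nat_lit 5) (nat_lit 196) (nat_lit 5) (nat_lit 453) (nat_lit 422) (nat_lit 145)) (XT.lf (nat_lit 0) (nat_lit 21922169276) (nat_lit 456) (nat_lit 24008785845) (nat_lit 532) (nat_lit 30795703269) (nat_lit 189) (nat_lit 5) (nat_lit 195) (nat_lit 5) (nat_lit 196) (nat_lit 5) (nat_lit 454) (nat_lit 422) (nat_lit 144)))) (XT.nd (nat_lit 156) (nat_lit 532) (nat_lit 0) (XT.nd (nat_lit 78) (nat_lit 456) (nat_lit 0) (XT.lf (nat_lit 0) (nat_lit 57541712302) (nat_lit 532) (nat_lit 12882797472) (nat_lit 76) (nat_lit 7641551357) (nat_lit 189) (nat_lit 5) (nat_lit 196) (nat_lit 5) (nat_lit 190) (nat_lit 5) (nat_lit 455) (nat_lit 422) (nat_lit 143)) (XT.lf (nat_lit 0) (nat_lit 30656418151) (nat_lit 456) (nat_lit 39376239456) (nat_lit 532) (nat_lit 9397032528) (nat_lit 183) (nat_lit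 5) (nat_lit 189) (nat_lit 5) (nat_lit 190) (nat_lit 5) (nat_lit 456) (nat_lit 422) (nat_lit 142))) (XT.nd (nat_lit 78) (nat_lit 456) (nat_lit 0) (XT.lf (nat_lit 0) (nat_lit 2154674798) (nat_lit 532) (nat_lit 5086197391) (nat_lit 76) (nat_lit 73588835225) (nat_lit 182) (nat_lit 5) (nat_lit 189) (nat_lit 5) (nat_lit 183) (nat_lit 5) (nat_lit 457) (nat_lit 422) (nat_lit 141)) (XT.lf (nat_lit 0) (nat_lit 14507272700) (nat_lit 532) (nat_lit 41900308565) (nat_lit 76) (nat_lit 25842056566) (nat_lit 176) (nat_lit 5) (nat_lit 183) (nat_lit 5) (nat_lit 177) (nat_lit 5) (nat_lit 458) (nat_lit 422) (nat_lit 140))))) (XT.nd (nat_lit 234) (nat_lit 836) (nat_lit 0) (XT.nd (nat_lit 78) (nat_lit 380) (nat_lit 0) (XT.lf (nat_lit 0) (nat_lit 3537765449) (nat_lit 456) (nat_lit 23849745261) (nat_lit 532) (nat_lit 56319943713) (nat_lit 170) (nat_lit 5) (nat_lit 176) (nat_lit 5) (nat_lit 177) (nat_lit 5) (nat_lit 459) (nat_lit 422) (nat_lit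 139)) (XT.nd (nat_lit 78) (nat_lit 380) (nat_lit 0) (XT.lf (nat_lit 0) (nat_lit 41174054145) (nat_lit 532) (nat_lit 34096335854) (nat_lit 76) (nat_lit 9923018689) (nat_lit 170) (nat_lit 5) (nat_lit 177) (nat_lit 5) (nat_lit 171) (nat_lit 5) (nat_lit 460) (nat_lit 422) (nat_lit 138)) (XT.lf (nat_lit 0) (nat_lit 13383628140) (nat_lit 380) (nat_lit 42354869606) (nat_lit 456) (nat_lit 30974514839) (nat_lit 165) (nat_lit 5) (nat_lit 170) (nat_lit 5) (nat_lit 171) (nat_lit 5) (nat_lit 461) (nat_lit 422) (nat_lit 137)))) (XT.nd (nat_lit 156) (nat_lit 456) (nat_lit 0) (XT.nd (nat_lit 78) (nat_lit 380) (nat_lit 0) (XT.lf (nat_lit 0) (nat_lit 62986322135) (nat_lit 380) (nat_lit 8097383034) (nat_lit 456) (nat_lit 17184184631) (nat_lit 165) (nat_lit 5) (nat_lit 170) (nat_lit 5) (nat_lit 171) (nat_lit 5) (nat_lit 462) (nat_lit 422) (nat_lit 136)) (XT.lf (nat_lit 0) (nat_lit 24422299300) (nat_lit 380) (nat_lit 62962614605) (nat_lit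 456) (nat_lit 2469630187) (nat_lit 160) (nat_lit 5) (nat_lit 165) (nat_lit 5) (nat_lit 166) (nat_lit 5) (nat_lit 463) (nat_lit 422) (nat_lit 135))) (XT.nd (nat_lit 78) (nat_lit 380) (nat_lit 0) (XT.lf (nat_lit 0) (nat_lit 12776338413) (nat_lit 456) (nat_lit 15550867027) (nat_lit 76) (nat_lit 63147808183) (nat_lit 159) (nat_lit 5) (nat_lit 165) (nat_lit 5) (nat_lit 160) (nat_lit 5) (nat_lit 464) (nat_lit 422) (nat_lit 134)) (XT.lf (nat_lit 0) (nat_lit 28854943901) (nat_lit 456) (nat_lit 56692752000) (nat_lit 76) (nat_lit 7582921041) (nat_lit 154) (nat_lit 5) (nat_lit 160) (nat_lit 5) (nat_lit 155) (nat_lit 5) (nat_lit 465) (nat_lit 422) (nat_lit 133)))))) (XT.nd (nat_lit 50232) (nat_lit 0) (nat_lit 8056) (XT.nd (nat_lit 49920) (nat_lit 0) (nat_lit 7904) (XT.nd (nat_lit 49764) (nat_lit 0) (nat_lit 7828) (XT.lf (nat_lit 0) (nat_lit 45854522440) (nat_lit 456) (nat_lit 4808760111) (nat_lit 76) (nat_lit 44159447463)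 (nat_lit 154) (nat_lit 5) (nat_lit 160) (nat_lit 5) (nat_lit 155) (nat_lit 5) (nat_lit 466) (nat_lit 422) (nat_lit 132)) (XT.nd (nat_lit 78) (nat_lit 0) (nat_lit 0) (XT.lf (nat_lit 0) (nat_lit 7180771070) (nat_lit 1292) (nat_lit 8238309518) (nat_lit 1292) (nat_lit 8238309518) (nat_lit 257) (nat_lit 3) (nat_lit 274) (nat_lit 3) (nat_lit 274) (nat_lit 5) (nat_lit 423) (nat_lit 423) (nat_lit 174)) (XT.lf (nat_lit 76) (nat_lit 6646098747) (nat_lit 0) (nat_lit 8023639142) (nat_lit 1292) (nat_lit 33351971403) (nat_lit 258) (nat_lit 5) (nat_lit 257) (nat_lit 3) (nat_lit 274) (nat_lit 5) (nat_lit 424) (nat_lit 423) (nat_lit 173)))) (XT.nd (nat_lit 156) (nat_lit 0) (nat_lit 76) (XT.nd (nat_lit 78) (nat_lit 0) (nat_lit 0) (XT.lf (nat_lit 0) (nat_lit 15302838782) (nat_lit 1216) (nat_lit 18095639650) (nat_lit 1292) (nat_lit 15341898400) (nat_lit 258) (nat_lit 5) (nat_lit 274) (nat_lit 5) (nat_lit 275) (nat_lit 5) (nat_lit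 425) (nat_lit 423) (nat_lit 172)) (XT.lf (nat_lit 76) (nat_lit 5918159527) (nat_lit 0) (nat_lit 10172009119) (nat_lit 1292) (nat_lit 33386379032) (nat_lit 259) (nat_lit 5) (nat_lit 258) (nat_lit 5) (nat_lit 275) (nat_lit 5) (nat_lit 426) (nat_lit 423) (nat_lit 171))) (XT.nd (nat_lit 78) (nat_lit 0) (nat_lit 0) (XT.lf (nat_lit 0) (nat_lit 17216779061) (nat_lit 1216) (nat_lit 19340645183) (nat_lit 1292) (nat_lit 13667909934) (nat_lit 259) (nat_lit 5) (nat_lit 275) (nat_lit 5) (nat_lit 276) (nat_lit 5) (nat_lit 427) (nat_lit 423) (nat_lit 170)) (XT.lf (nat_lit 76) (nat_lit 5611797952) (nat_lit 0) (nat_lit 12919013331) (nat_lit 1292) (nat_lit 32461164622) (nat_lit 260) (nat_lit 5) (nat_lit 259) (nat_lit 5) (nat_lit 276) (nat_lit 5) (nat_lit 428) (nat_lit 423) (nat_lit 169))))) (XT.nd (nat_lit 312) (nat_lit 0) (nat_lit 152) (XT.nd (nat_lit 156) (nat_lit 0) (nat_lit 76) (XT.nd (nat_lit 78) (nat_lit 0) (nat_lit 0) (XT.lf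 (nat_lit 0) (nat_lit 20190353363) (nat_lit 1216) (nat_lit 20178924837) (nat_lit 1292) (nat_lit 11403156344) (nat_lit 260) (nat_lit 5) (nat_lit 276) (nat_lit 5) (nat_lit 277) (nat_lit 5) (nat_lit 429) (nat_lit 423) (nat_lit 168)) (XT.lf (nat_lit 76) (nat_lit 5762262613) (nat_lit 0) (nat_lit 16319744192) (nat_lit 1292) (nat_lit 30488830703) (nat_lit 261) (nat_lit 5) (nat_lit 260) (nat_lit 5) (nat_lit 277) (nat_lit 5) (nat_lit 430) (nat_lit 423) (nat_lit 167))) (XT.nd (nat_lit 78) (nat_lit 0) (nat_lit 0) (XT.lf (nat_lit 0) (nat_lit 24316482967) (nat_lit 1216) (nat_lit 20575662570) (nat_lit 1292) (nat_lit 8492465140) (nat_lit 261) (nat_lit 5) (nat_lit 277) (nat_lit 5) (nat_lit 278) (nat_lit 5) (nat_lit 431) (nat_lit 423) (nat_lit 166)) (XT.lf (nat_lit 76) (nat_lit 6407038574) (nat_lit 0) (nat_lit 20433201739) (nat_lit 1292) (nat_lit 27375889619) (nat_lit 262) (nat_lit 5) (nat_lit 261) (nat_lit 5) (nat_lit 278) (nat_lit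 5) (nat_lit 432) (nat_lit 423) (nat_lit 165)))) (XT.nd (nat_lit 156) (nat_lit 0) (nat_lit 76) (XT.nd (nat_lit 78) (nat_lit 0) (nat_lit 0) (XT.lf (nat_lit 0) (nat_lit 29694392972) (nat_lit 1216) (nat_lit 20493833347) (nat_lit 1292) (nat_lit 4876728260) (nat_lit 262) (nat_lit 5) (nat_lit 278) (nat_lit 5) (nat_lit 279) (nat_lit 5) (nat_lit 433) (nat_lit 423) (nat_lit 164)) (XT.lf (nat_lit 76) (nat_lit 7585957225) (nat_lit 0) (nat_lit 25322569231) (nat_lit 1292) (nat_lit 23022487104) (nat_lit 263) (nat_lit 5) (nat_lit 262) (nat_lit 5) (nat_lit 279) (nat_lit 5) (nat_lit 434) (nat_lit 423) (nat_lit 163))) (XT.nd (nat_lit 78) (nat_lit 0) (nat_lit 0) (XT.lf (nat_lit 0) (nat_lit 36430006886) (nat_lit 1216) (nat_lit 19894095701) (nat_lit 1292) (nat_lit 492624311) (nat_lit 263) (nat_lit 5) (nat_lit 279) (nat_lit 5) (nat_lit 280) (nat_lit 5) (nat_lit 435) (nat_lit 423) (nat_lit 162)) (XT.lf (nat_lit 76) (nat_lit 9341310046)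 (nat_lit 0) (nat_lit 31055507217) (nat_lit 1292) (nat_lit 17322004072) (nat_lit 264) (nat_lit 5) (nat_lit 263) (nat_lit 5) (nat_lit 280) (nat_lit 5) (nat_lit 436) (nat_lit 423) (nat_lit 161))))))))
noncomputable def xc245 : XT := (XT.nd (nat_lit 2262) (nat_lit 380) (nat_lit 0) (XT.nd (nat_lit 1092) (nat_lit 3800) (nat_lit 0) (XT.nd (nat_lit 546) (nat_lit 2280) (nat_lit 0) (XT.nd (nat_lit 234) (nat_lit 1824) (nat_lit 0) (XT.nd (nat_lit 78) (nat_lit 0) (nat_lit 76) (XT.lf (nat_lit 76) (nat_lit 39860945971) (nat_lit 0) (nat_lit 4821767915) (nat_lit 1292) (nat_lit 13959262520) (nat_lit 264) (nat_lit 5) (nat_lit 263) (nat_lit 5) (nat_lit 280) (nat_lit 5) (nat_lit 437) (nat_lit 423) (nat_lit 160)) (XT.nd (nat_lit 78) (nat_lit 0) (nat_lit 0) (XT.lf (nat_lit 76) (nat_lit 11717966195) (nat_lit 0) (nat_lit 37704467400) (nat_lit 1292) (nat_lit 10160635400) (nat_lit 265) (nat_lit 5) (nat_lit 264) (nat_lit 5) (nat_lit 281)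 (nat_lit 5) (nat_lit 438) (nat_lit 423) (nat_lit 159)) (XT.lf (nat_lit 76) (nat_lit 43467593225) (nat_lit 0) (nat_lit 11072907878) (nat_lit 1292) (nat_lit 6004808816) (nat_lit 265) (nat_lit 5) (nat_lit 264) (nat_lit 5) (nat_lit 281) (nat_lit 5) (nat_lit 439) (nat_lit 423) (nat_lit 158)))) (XT.nd (nat_lit 156) (nat_lit 684) (nat_lit 0) (XT.nd (nat_lit 78) (nat_lit 76) (nat_lit 0) (XT.lf (nat_lit 0) (nat_lit 14763493807) (nat_lit 1216) (nat_lit 45347027729) (nat_lit 1292) (nat_lit 1416944445) (nat_lit 249) (nat_lit 5) (nat_lit 265) (nat_lit 5) (nat_lit 266) (nat_lit 5) (nat_lit 440) (nat_lit 423) (nat_lit 157)) (XT.lf (nat_lit 0) (nat_lit 3527049658) (nat_lit 1292) (nat_lit 14767695574) (nat_lit 76) (nat_lit 44234895929) (nat_lit 248) (nat_lit 5) (nat_lit 265) (nat_lit 5) (nat_lit 249) (nat_lit 5) (nat_lit 441) (nat_lit 423) (nat_lit 156))) (XT.nd (nat_lit 78) (nat_lit 0) (nat_lit 0) (XT.lf (nat_lit 0) (nat_lit 8862232246)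 (nat_lit 760) (nat_lit 45114526821) (nat_lit 76) (nat_lit 9576561438) (nat_lit 239) (nat_lit 5) (nat_lit 249) (nat_lit 5) (nat_lit 240) (nat_lit 5) (nat_lit 442) (nat_lit 423) (nat_lit 155)) (XT.lf (nat_lit 0) (nat_lit 14688508517) (nat_lit 760) (nat_lit 11842300117) (nat_lit 76) (nat_lit 38066970658) (nat_lit 239) (nat_lit 5) (nat_lit 249) (nat_lit 5) (nat_lit 240) (nat_lit 5) (nat_lit 443) (nat_lit 423) (nat_lit 154))))) (XT.nd (nat_lit 234) (nat_lit 1064) (nat_lit 0) (XT.nd (nat_lit 78) (nat_lit 608) (nat_lit 0) (XT.lf (nat_lit 0) (nat_lit 20927660526) (nat_lit 684) (nat_lit 42812074408) (nat_lit 76) (nat_lit 1926694491) (nat_lit 231) (nat_lit 5) (nat_lit 240) (nat_lit 5) (nat_lit 232) (nat_lit 5) (nat_lit 444) (nat_lit 423) (nat_lit 153)) (XT.nd (nat_lit 78) (nat_lit 608) (nat_lit 0) (XT.lf (nat_lit 0) (nat_lit 27736771718) (nat_lit 684) (nat_lit 8193398748) (nat_lit 76) (nat_lit 30825485254) (nat_lit 231)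 (nat_lit 5) (nat_lit 240) (nat_lit 5) (nat_lit 232) (nat_lit 5) (nat_lit 445) (nat_lit 423) (nat_lit 152)) (XT.lf (nat_lit 0) (nat_lit 28009780455) (nat_lit 608) (nat_lit 7008977632) (nat_lit 684) (nat_lit 32850742855) (nat_lit 223) (nat_lit 5) (nat_lit 231) (nat_lit 5) (nat_lit 232) (nat_lit 5) (nat_lit 446) (nat_lit 423) (nat_lit 151)))) (XT.nd (nat_lit 156) (nat_lit 532) (nat_lit 0) (XT.nd (nat_lit 78) (nat_lit 532) (nat_lit 0) (XT.lf (nat_lit 0) (nat_lit 42821101964) (nat_lit 684) (nat_lit 3767702297) (nat_lit 76) (nat_lit 22418900509) (nat_lit 223) (nat_lit 5) (nat_lit 232) (nat_lit 5) (nat_lit 224) (nat_lit 5) (nat_lit 447) (nat_lit 423) (nat_lit 150)) (XT.lf (nat_lit 0) (nat_lit 34000530594) (nat_lit 532) (nat_lit 17252601308) (nat_lit 608) (nat_lit 18915054518) (nat_lit 216) (nat_lit 5) (nat_lit 223) (nat_lit 5) (nat_lit 224) (nat_lit 5) (nat_lit 448) (nat_lit 423) (nat_lit 149))) (XT.nd (nat_lit 78) (nat_lit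 0) (nat_lit 0) (XT.lf (nat_lit 0) (nat_lit 1520752478) (nat_lit 532) (nat_lit 58594424505) (nat_lit 608) (nat_lit 11242994087) (nat_lit 209) (nat_lit 5) (nat_lit 216) (nat_lit 5) (nat_lit 217) (nat_lit 5) (nat_lit 449) (nat_lit 423) (nat_lit 148)) (XT.lf (nat_lit 0) (nat_lit 40906368467) (nat_lit 532) (nat_lit 28870489843) (nat_lit 608) (nat_lit 2790983873) (nat_lit 209) (nat_lit 5) (nat_lit 216) (nat_lit 5) (nat_lit 217) (nat_lit 5) (nat_lit 450) (nat_lit 423) (nat_lit 147)))))) (XT.nd (nat_lit 546) (nat_lit 1824) (nat_lit 0) (XT.nd (nat_lit 234) (nat_lit 912) (nat_lit 0) (XT.nd (nat_lit 78) (nat_lit 532) (nat_lit 0) (XT.lf (nat_lit 0) (nat_lit 5891200567) (nat_lit 532) (nat_lit 66074382363) (nat_lit 76) (nat_lit 1843754158) (nat_lit 202) (nat_lit 5) (nat_lit 209) (nat_lit 5) (nat_lit 203) (nat_lit 5) (nat_lit 451) (nat_lit 423) (nat_lit 146)) (XT.nd (nat_lit 78) (nat_lit 532) (nat_lit 0) (XT.lf (nat_lit 0) (nat_lit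 15385916494) (nat_lit 532) (nat_lit 26433458196) (nat_lit 76) (nat_lit 33249628443) (nat_lit 202) (nat_lit 5) (nat_lit 209) (nat_lit 5) (nat_lit 203) (nat_lit 5) (nat_lit 452) (nat_lit 423) (nat_lit 145)) (XT.lf (nat_lit 0) (nat_lit 14682589690) (nat_lit 532) (nat_lit 10623470005) (nat_lit 608) (nat_lit 51056182040) (nat_lit 195) (nat_lit 5) (nat_lit 202) (nat_lit 5) (nat_lit 203) (nat_lit 5) (nat_lit 453) (nat_lit 423) (nat_lit 144)))) (XT.nd (nat_lit 156) (nat_lit 456) (nat_lit 0) (XT.nd (nat_lit 78) (nat_lit 456) (nat_lit 0) (XT.lf (nat_lit 0) (nat_lit 35999584540) (nat_lit 608) (nat_lit 20322308570) (nat_lit 76) (nat_lit 21358111215) (nat_lit 195) (nat_lit 5) (nat_lit 203) (nat_lit 5) (nat_lit 196) (nat_lit 5) (nat_lit 454) (nat_lit 423) (nat_lit 143)) (XT.lf (nat_lit 0) (nat_lit 22611192352) (nat_lit 456) (nat_lit 24724731431) (nat_lit 532) (nat_lit 31691715892) (nat_lit 189) (nat_lit 5) (nat_lit 195) (nat_lit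 5) (nat_lit 196) (nat_lit 5) (nat_lit 455) (nat_lit 423) (nat_lit 142))) (XT.nd (nat_lit 78) (nat_lit 456) (nat_lit 0) (XT.lf (nat_lit 0) (nat_lit 59294256405) (nat_lit 532) (nat_lit 13238082407) (nat_lit 76) (nat_lit 7874908315) (nat_lit 189) (nat_lit 5) (nat_lit 196) (nat_lit 5) (nat_lit 190) (nat_lit 5) (nat_lit 456) (nat_lit 423) (nat_lit 141)) (XT.lf (nat_lit 0) (nat_lit 31607003812) (nat_lit 456) (nat_lit 40552457413) (nat_lit 532) (nat_lit 9652338048) (nat_lit 183) (nat_lit 5) (nat_lit 189) (nat_lit 5) (nat_lit 190) (nat_lit 5) (nat_lit 457) (nat_lit 423) (nat_lit 140))))) (XT.nd (nat_lit 312) (nat_lit 836) (nat_lit 0) (XT.nd (nat_lit 156) (nat_lit 456) (nat_lit 0) (XT.nd (nat_lit 78) (nat_lit 456) (nat_lit 0) (XT.lf (nat_lit 0) (nat_lit 2244641535) (nat_lit 532) (nat_lit 5208279492) (nat_lit 76) (nat_lit 75800911357) (nat_lit 182) (nat_lit 5) (nat_lit 189) (nat_lit 5) (nat_lit 183) (nat_lit 5) (nat_lit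 458) (nat_lit 423) (nat_lit 139)) (XT.lf (nat_lit 0) (nat_lit 14967421248) (nat_lit 532) (nat_lit 43126411608) (nat_lit 76) (nat_lit 26622539930) (nat_lit 176) (nat_lit 5) (nat_lit 183) (nat_lit 5) (nat_lit 177) (nat_lit 5) (nat_lit 459) (nat_lit 423) (nat_lit 138))) (XT.nd (nat_lit 78) (nat_lit 0) (nat_lit 0) (XT.lf (nat_lit 0) (nat_lit 3674501624) (nat_lit 456) (nat_lit 24559132824) (nat_lit 532) (nat_lit 57984302569) (nat_lit 170) (nat_lit 5) (nat_lit 176) (nat_lit 5) (nat_lit 177) (nat_lit 5) (nat_lit 460) (nat_lit 423) (nat_lit 137)) (XT.lf (nat_lit 0) (nat_lit 42433117614) (nat_lit 532) (nat_lit 35088851592) (nat_lit 76) (nat_lit 10226520579) (nat_lit 170) (nat_lit 5) (nat_lit 177) (nat_lit 5) (nat_lit 171) (nat_lit 5) (nat_lit 461) (nat_lit 423) (nat_lit 136)))) (XT.nd (nat_lit 156) (nat_lit 456) (nat_lit 0) (XT.nd (nat_lit 78) (nat_lit 0) (nat_lit 0) (XT.lf (nat_lit 0) (nat_lit 13815213534) (nat_lit 380)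 (nat_lit 43618875681) (nat_lit 456) (nat_lit 31879604915) (nat_lit 165) (nat_lit 5) (nat_lit 170) (nat_lit 5) (nat_lit 171) (nat_lit 5) (nat_lit 462) (nat_lit 423) (nat_lit 135)) (XT.lf (nat_lit 0) (nat_lit 64905112333) (nat_lit 380) (nat_lit 8333857910) (nat_lit 456) (nat_lit 17676268063) (nat_lit 165) (nat_lit 5) (nat_lit 170) (nat_lit 5) (nat_lit 171) (nat_lit 5) (nat_lit 463) (nat_lit 423) (nat_lit 134))) (XT.nd (nat_lit 78) (nat_lit 76) (nat_lit 0) (XT.lf (nat_lit 0) (nat_lit 25184502612) (nat_lit 380) (nat_lit 64844393960) (nat_lit 456) (nat_lit 2520605378) (nat_lit 160) (nat_lit 5) (nat_lit 165) (nat_lit 5) (nat_lit 166) (nat_lit 5) (nat_lit 464) (nat_lit 423) (nat_lit 133)) (XT.lf (nat_lit 0) (nat_lit 13181631169) (nat_lit 456) (nat_lit 15988275937) (nat_lit 76) (nat_lit 65048691750) (nat_lit 159) (nat_lit 5) (nat_lit 165) (nat_lit 5) (nat_lit 160) (nat_lit 5) (nat_lit 465) (nat_lit 423) (nat_lit 132)))))))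 (XT.nd (nat_lit 50856) (nat_lit 0) (nat_lit 4180) (XT.nd (nat_lit 50310) (nat_lit 0) (nat_lit 8056) (XT.nd (nat_lit 49998) (nat_lit 0) (nat_lit 7904) (XT.nd (nat_lit 49842) (nat_lit 0) (nat_lit 7828) (XT.lf (nat_lit 0) (nat_lit 29742300258) (nat_lit 456) (nat_lit 58364117945) (nat_lit 76) (nat_lit 7817461056) (nat_lit 154) (nat_lit 5) (nat_lit 160) (nat_lit 5) (nat_lit 155) (nat_lit 5) (nat_lit 466) (nat_lit 423) (nat_lit 131)) (XT.nd (nat_lit 78) (nat_lit 0) (nat_lit 0) (XT.lf (nat_lit 0) (nat_lit 7424802780) (nat_lit 1292) (nat_lit 8470720708) (nat_lit 1292) (nat_lit 8470720708) (nat_lit 257) (nat_lit 3) (nat_lit 274) (nat_lit 3) (nat_lit 274) (nat_lit 5) (nat_lit 424) (nat_lit 424) (nat_lit 172)) (XT.lf (nat_lit 76) (nat_lit 6874668919) (nat_lit 0) (nat_lit 8290992309) (nat_lit 1292) (nat_lit 34295006238) (nat_lit 258) (nat_lit 5) (nat_lit 257) (nat_lit 3) (nat_lit 274) (nat_lit 5) (nat_lit 425) (nat_lit 424)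 (nat_lit 171)))) (XT.nd (nat_lit 156) (nat_lit 0) (nat_lit 76) (XT.nd (nat_lit 78) (nat_lit 0) (nat_lit 0) (XT.lf (nat_lit 0) (nat_lit 15815880338) (nat_lit 1216) (nat_lit 18608279294) (nat_lit 1292) (nat_lit 15776792175) (nat_lit 258) (nat_lit 5) (nat_lit 274) (nat_lit 5) (nat_lit 275) (nat_lit 5) (nat_lit 426) (nat_lit 424) (nat_lit 170)) (XT.lf (nat_lit 76) (nat_lit 6125637491) (nat_lit 0) (nat_lit 10499908798) (nat_lit 1292) (nat_lit 34333700518) (nat_lit 259) (nat_lit 5) (nat_lit 258) (nat_lit 5) (nat_lit 275) (nat_lit 5) (nat_lit 427) (nat_lit 424) (nat_lit 169))) (XT.nd (nat_lit 78) (nat_lit 0) (nat_lit 0) (XT.lf (nat_lit 0) (nat_lit 17784208644) (nat_lit 1216) (nat_lit 19890040203) (nat_lit 1292) (nat_lit 14056300943) (nat_lit 259) (nat_lit 5) (nat_lit 275) (nat_lit 5) (nat_lit 276) (nat_lit 5) (nat_lit 428) (nat_lit 424) (nat_lit 168)) (XT.lf (nat_lit 76) (nat_lit 5810674026) (nat_lit 0) (nat_lit 13325797916)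 (nat_lit 1292) (nat_lit 33383755008) (nat_lit 260) (nat_lit 5) (nat_lit 259) (nat_lit 5) (nat_lit 276) (nat_lit 5) (nat_lit 429) (nat_lit 424) (nat_lit 167))))) (XT.nd (nat_lit 234) (nat_lit 0) (nat_lit 76) (XT.nd (nat_lit 78) (nat_lit 0) (nat_lit 0) (XT.lf (nat_lit 0) (nat_lit 20844172335) (nat_lit 1216) (nat_lit 20753015819) (nat_lit 1292) (nat_lit 11726960503) (nat_lit 260) (nat_lit 5) (nat_lit 276) (nat_lit 5) (nat_lit 277) (nat_lit 5) (nat_lit 430) (nat_lit 424) (nat_lit 166)) (XT.nd (nat_lit 78) (nat_lit 0) (nat_lit 76) (XT.lf (nat_lit 76) (nat_lit 5966100619) (nat_lit 0) (nat_lit 16825371250) (nat_lit 1292) (nat_lit 31355065403) (nat_lit 261) (nat_lit 5) (nat_lit 260) (nat_lit 5) (nat_lit 277) (nat_lit 5) (nat_lit 431) (nat_lit 424) (nat_lit 165)) (XT.lf (nat_lit 0) (nat_lit 25091463597) (nat_lit 1216) (nat_lit 21161330869) (nat_lit 1292) (nat_lit 8731975174) (nat_lit 261) (nat_lit 5) (nat_lit 277) (nat_lit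 5) (nat_lit 278) (nat_lit 5) (nat_lit 432) (nat_lit 424) (nat_lit 164)))) (XT.nd (nat_lit 156) (nat_lit 0) (nat_lit 76) (XT.nd (nat_lit 78) (nat_lit 0) (nat_lit 76) (XT.lf (nat_lit 76) (nat_lit 6630541490) (nat_lit 0) (nat_lit 21059368130) (nat_lit 1292) (nat_lit 28151356006) (nat_lit 262) (nat_lit 5) (nat_lit 261) (nat_lit 5) (nat_lit 278) (nat_lit 5) (nat_lit 433) (nat_lit 424) (nat_lit 163)) (XT.lf (nat_lit 0) (nat_lit 30628268932) (nat_lit 1216) (nat_lit 21076836149) (nat_lit 1292) (nat_lit 5010492887) (nat_lit 262) (nat_lit 5) (nat_lit 278) (nat_lit 5) (nat_lit 279) (nat_lit 5) (nat_lit 434) (nat_lit 424) (nat_lit 162))) (XT.nd (nat_lit 78) (nat_lit 0) (nat_lit 76) (XT.lf (nat_lit 76) (nat_lit 7845036256) (nat_lit 0) (nat_lit 26092839252) (nat_lit 1292) (nat_lit 23669792143) (nat_lit 263) (nat_lit 5) (nat_lit 262) (nat_lit 5) (nat_lit 279) (nat_lit 5) (nat_lit 435) (nat_lit 424) (nat_lit 161)) (XT.lf (nat_lit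 0) (nat_lit 37563675473) (nat_lit 1216) (nat_lit 20458997740) (nat_lit 1292) (nat_lit 497319316) (nat_lit 263) (nat_lit 5) (nat_lit 279) (nat_lit 5) (nat_lit 280) (nat_lit 5) (nat_lit 436) (nat_lit 424) (nat_lit 160)))))) (XT.nd (nat_lit 546) (nat_lit 2280) (nat_lit 0) (XT.nd (nat_lit 234) (nat_lit 1824) (nat_lit 0) (XT.nd (nat_lit 78) (nat_lit 0) (nat_lit 0) (XT.lf (nat_lit 76) (nat_lit 9653157230) (nat_lit 0) (nat_lit 31995449338) (nat_lit 1292) (nat_lit 17800570122) (nat_lit 264) (nat_lit 5) (nat_lit 263) (nat_lit 5) (nat_lit 280) (nat_lit 5) (nat_lit 437) (nat_lit 424) (nat_lit 159)) (XT.nd (nat_lit 78) (nat_lit 0) (nat_lit 76) (XT.lf (nat_lit 76) (nat_lit 41087461614) (nat_lit 0) (nat_lit 4974456781) (nat_lit 1292) (nat_lit 14338143239) (nat_lit 264) (nat_lit 5) (nat_lit 263) (nat_lit 5) (nat_lit 280) (nat_lit 5) (nat_lit 438) (nat_lit 424) (nat_lit 158)) (XT.lf (nat_lit 76) (nat_lit 12101130631) (nat_lit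 0) (nat_lit 38841800215) (nat_lit 1292) (nat_lit 10426483480) (nat_lit 265) (nat_lit 5) (nat_lit 264) (nat_lit 5) (nat_lit 281) (nat_lit 5) (nat_lit 439) (nat_lit 424) (nat_lit 157)))) (XT.nd (nat_lit 156) (nat_lit 760) (nat_lit 0) (XT.nd (nat_lit 78) (nat_lit 1140) (nat_lit 0) (XT.lf (nat_lit 76) (nat_lit 44802325343) (nat_lit 0) (nat_lit 11411113360) (nat_lit 1292) (nat_lit 6147117176) (nat_lit 265) (nat_lit 5) (nat_lit 264) (nat_lit 5) (nat_lit 281) (nat_lit 5) (nat_lit 440) (nat_lit 424) (nat_lit 156)) (XT.lf (nat_lit 0) (nat_lit 15237961626) (nat_lit 1216) (nat_lit 46711775769) (nat_lit 1292) (nat_lit 1422464236) (nat_lit 249) (nat_lit 5) (nat_lit 265) (nat_lit 5) (nat_lit 266) (nat_lit 5) (nat_lit 441) (nat_lit 424) (nat_lit 155))) (XT.nd (nat_lit 78) (nat_lit 684) (nat_lit 0) (XT.lf (nat_lit 0) (nat_lit 3668071597) (nat_lit 1292) (nat_lit 15179371319) (nat_lit 76) (nat_lit 45557020496) (nat_lit 248) (nat_lit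 5) (nat_lit 265) (nat_lit 5) (nat_lit 249) (nat_lit 5) (nat_lit 442) (nat_lit 424) (nat_lit 154)) (XT.lf (nat_lit 0) (nat_lit 9162549540) (nat_lit 760) (nat_lit 46435837019) (nat_lit 76) (nat_lit 9860489691) (nat_lit 239) (nat_lit 5) (nat_lit 249) (nat_lit 5) (nat_lit 240) (nat_lit 5) (nat_lit 443) (nat_lit 424) (nat_lit 153))))) (XT.nd (nat_lit 312) (nat_lit 1064) (nat_lit 0) (XT.nd (nat_lit 156) (nat_lit 608) (nat_lit 0) (XT.nd (nat_lit 78) (nat_lit 608) (nat_lit 0) (XT.lf (nat_lit 0) (nat_lit 15162610691) (nat_lit 760) (nat_lit 12166379211) (nat_lit 76) (nat_lit 39205709302) (nat_lit 239) (nat_lit 5) (nat_lit 249) (nat_lit 5) (nat_lit 240) (nat_lit 5) (nat_lit 444) (nat_lit 424) (nat_lit 152)) (XT.lf (nat_lit 0) (nat_lit 21588241831) (nat_lit 684) (nat_lit 44064541535) (nat_lit 76) (nat_lit 1982646630) (nat_lit 231) (nat_lit 5) (nat_lit 240) (nat_lit 5) (nat_lit 232) (nat_lit 5) (nat_lit 445) (nat_lit 424) (nat_lit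 151))) (XT.nd (nat_lit 78) (nat_lit 608) (nat_lit 0) (XT.lf (nat_lit 0) (nat_lit 28600672432) (nat_lit 684) (nat_lit 8408234589) (nat_lit 76) (nat_lit 31748454963) (nat_lit 231) (nat_lit 5) (nat_lit 240) (nat_lit 5) (nat_lit 232) (nat_lit 5) (nat_lit 446) (nat_lit 424) (nat_lit 150)) (XT.lf (nat_lit 0) (nat_lit 28880736401) (nat_lit 608) (nat_lit 7219750595) (nat_lit 684) (nat_lit 33804154783) (nat_lit 223) (nat_lit 5) (nat_lit 231) (nat_lit 5) (nat_lit 232) (nat_lit 5) (nat_lit 447) (nat_lit 424) (nat_lit 149)))) (XT.nd (nat_lit 156) (nat_lit 532) (nat_lit 0) (XT.nd (nat_lit 78) (nat_lit 532) (nat_lit 0) (XT.lf (nat_lit 0) (nat_lit 44135988737) (nat_lit 684) (nat_lit 3850042527) (nat_lit 76) (nat_lit 23090988100) (nat_lit 223) (nat_lit 5) (nat_lit 232) (nat_lit 5) (nat_lit 224) (nat_lit 5) (nat_lit 448) (nat_lit 424) (nat_lit 148)) (XT.lf (nat_lit 0) (nat_lit 35050936460) (nat_lit 532) (nat_lit 17769454064) (nat_lit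 608) (nat_lit 19451942872) (nat_lit 216) (nat_lit 5) (nat_lit 223) (nat_lit 5) (nat_lit 224) (nat_lit 5) (nat_lit 449) (nat_lit 424) (nat_lit 147))) (XT.nd (nat_lit 78) (nat_lit 0) (nat_lit 0) (XT.lf (nat_lit 0) (nat_lit 1597349963) (nat_lit 532) (nat_lit 60350387493) (nat_lit 608) (nat_lit 11550297166) (nat_lit 209) (nat_lit 5) (nat_lit 216) (nat_lit 5) (nat_lit 217) (nat_lit 5) (nat_lit 450) (nat_lit 424) (nat_lit 146)) (XT.lf (nat_lit 0) (nat_lit 42163632250) (nat_lit 532) (nat_lit 29734789250) (nat_lit 608) (nat_lit 2845600046) (nat_lit 209) (nat_lit 5) (nat_lit 216) (nat_lit 5) (nat_lit 217) (nat_lit 5) (nat_lit 451) (nat_lit 424) (nat_lit 145))))))))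
noncomputable def xc246 : XT := (XT.nd (nat_lit 52182) (nat_lit 0) (nat_lit 380) (XT.nd (nat_lit 51012) (nat_lit 0) (nat_lit 7372) (XT.nd (nat_lit 546) (nat_lit 1748) (nat_lit 0) (XT.nd (nat_lit 234) (nat_lit 912) (nat_lit 0) (XT.nd (nat_lit 78) (nat_lit 532) (nat_lit 0) (XT.lf (nat_lit 0) (nat_lit 6095964652) (nat_lit 532) (nat_lit 68025440180) (nat_lit 76) (nat_lit 1901363817) (nat_lit 202) (nat_lit 5) (nat_lit 209) (nat_lit 5) (nat_lit 203) (nat_lit 5) (nat_lit 452) (nat_lit 424) (nat_lit 144)) (XT.nd (nat_lit 78) (nat_lit 532) (nat_lit 0) (XT.lf (nat_lit 0) (nat_lit 15874705705) (nat_lit 532) (nat_lit 27196196258) (nat_lit 76) (nat_lit 34249347426) (nat_lit 202) (nat_lit 5) (nat_lit 209) (nat_lit 5) (nat_lit 203) (nat_lit 5) (nat_lit 453) (nat_lit 424) (nat_lit 143)) (XT.lf (nat_lit 0) (nat_lit 15153036342) (nat_lit 532) (nat_lit 10938912366) (nat_lit 608) (nat_lit 52560351795) (nat_lit 195) (nat_lit 5) (nat_lit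 202) (nat_lit 5) (nat_lit 203) (nat_lit 5) (nat_lit 454) (nat_lit 424) (nat_lit 142)))) (XT.nd (nat_lit 156) (nat_lit 456) (nat_lit 0) (XT.nd (nat_lit 78) (nat_lit 456) (nat_lit 0) (XT.lf (nat_lit 0) (nat_lit 37105531859) (nat_lit 608) (nat_lit 20902127253) (nat_lit 76) (nat_lit 22001959493) (nat_lit 195) (nat_lit 5) (nat_lit 203) (nat_lit 5) (nat_lit 196) (nat_lit 5) (nat_lit 455) (nat_lit 424) (nat_lit 141)) (XT.lf (nat_lit 0) (nat_lit 23319086044) (nat_lit 456) (nat_lit 25462403254) (nat_lit 532) (nat_lit 32616208083) (nat_lit 189) (nat_lit 5) (nat_lit 195) (nat_lit 5) (nat_lit 196) (nat_lit 5) (nat_lit 456) (nat_lit 424) (nat_lit 140))) (XT.nd (nat_lit 78) (nat_lit 456) (nat_lit 0) (XT.lf (nat_lit 0) (nat_lit 61097867521) (nat_lit 532) (nat_lit 13605816840) (nat_lit 76) (nat_lit 8115030028) (nat_lit 189) (nat_lit 5) (nat_lit 196) (nat_lit 5) (nat_lit 190) (nat_lit 5) (nat_lit 457) (nat_lit 424) (nat_lit 139))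 (XT.lf (nat_lit 0) (nat_lit 32584333651) (nat_lit 456) (nat_lit 41764252903) (nat_lit 532) (nat_lit 9916829995) (nat_lit 183) (nat_lit 5) (nat_lit 189) (nat_lit 5) (nat_lit 190) (nat_lit 5) (nat_lit 458) (nat_lit 424) (nat_lit 138))))) (XT.nd (nat_lit 234) (nat_lit 760) (nat_lit 0) (XT.nd (nat_lit 78) (nat_lit 912) (nat_lit 0) (XT.lf (nat_lit 0) (nat_lit 2335853430) (nat_lit 532) (nat_lit 5335775101) (nat_lit 76) (nat_lit 78079096560) (nat_lit 182) (nat_lit 5) (nat_lit 189) (nat_lit 5) (nat_lit 183) (nat_lit 5) (nat_lit 459) (nat_lit 424) (nat_lit 137)) (XT.nd (nat_lit 78) (nat_lit 456) (nat_lit 0) (XT.lf (nat_lit 0) (nat_lit 15439943149) (nat_lit 532) (nat_lit 44391071885) (nat_lit 76) (nat_lit 27426138050) (nat_lit 176) (nat_lit 5) (nat_lit 183) (nat_lit 5) (nat_lit 177) (nat_lit 5) (nat_lit 460) (nat_lit 424) (nat_lit 136)) (XT.lf (nat_lit 0) (nat_lit 3813583136) (nat_lit 456) (nat_lit 25290152455) (nat_lit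 532) (nat_lit 59700041038) (nat_lit 170) (nat_lit 5) (nat_lit 176) (nat_lit 5) (nat_lit 177) (nat_lit 5) (nat_lit 461) (nat_lit 424) (nat_lit 135)))) (XT.nd (nat_lit 156) (nat_lit 380) (nat_lit 0) (XT.nd (nat_lit 78) (nat_lit 380) (nat_lit 0) (XT.lf (nat_lit 0) (nat_lit 43728584368) (nat_lit 532) (nat_lit 36112886413) (nat_lit 76) (nat_lit 10538793930) (nat_lit 170) (nat_lit 5) (nat_lit 177) (nat_lit 5) (nat_lit 171) (nat_lit 5) (nat_lit 462) (nat_lit 424) (nat_lit 134)) (XT.lf (nat_lit 0) (nat_lit 14258019973) (nat_lit 380) (nat_lit 44921183102) (nat_lit 456) (nat_lit 32813233736) (nat_lit 165) (nat_lit 5) (nat_lit 170) (nat_lit 5) (nat_lit 171) (nat_lit 5) (nat_lit 463) (nat_lit 424) (nat_lit 133))) (XT.nd (nat_lit 78) (nat_lit 380) (nat_lit 0) (XT.lf (nat_lit 0) (nat_lit 66879790007) (nat_lit 380) (nat_lit 8577797095) (nat_lit 456) (nat_lit 18184459672) (nat_lit 165) (nat_lit 5) (nat_lit 170) (nat_lit 5) (nat_lit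 171) (nat_lit 5) (nat_lit 464) (nat_lit 424) (nat_lit 132)) (XT.lf (nat_lit 0) (nat_lit 25967876631) (nat_lit 380) (nat_lit 66783034211) (nat_lit 456) (nat_lit 2574436647) (nat_lit 160) (nat_lit 5) (nat_lit 165) (nat_lit 5) (nat_lit 166) (nat_lit 5) (nat_lit 465) (nat_lit 424) (nat_lit 131)))))) (XT.nd (nat_lit 546) (nat_lit 0) (nat_lit 228) (XT.nd (nat_lit 234) (nat_lit 0) (nat_lit 76) (XT.nd (nat_lit 78) (nat_lit 0) (nat_lit 0) (XT.lf (nat_lit 0) (nat_lit 7674513192) (nat_lit 1292) (nat_lit 8710950260) (nat_lit 1292) (nat_lit 8710950260) (nat_lit 257) (nat_lit 3) (nat_lit 274) (nat_lit 3) (nat_lit 274) (nat_lit 5) (nat_lit 425) (nat_lit 425) (nat_lit 170)) (XT.nd (nat_lit 78) (nat_lit 0) (nat_lit 76) (XT.lf (nat_lit 76) (nat_lit 7108420731) (nat_lit 0) (nat_lit 8564836597) (nat_lit 1292) (nat_lit 35269634250) (nat_lit 258) (nat_lit 5) (nat_lit 257) (nat_lit 3) (nat_lit 274) (nat_lit 5) (nat_lit 426) (nat_lit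 425) (nat_lit 169)) (XT.lf (nat_lit 0) (nat_lit 16341215822) (nat_lit 1216) (nat_lit 19138033427) (nat_lit 1292) (nat_lit 16226188714) (nat_lit 258) (nat_lit 5) (nat_lit 274) (nat_lit 5) (nat_lit 275) (nat_lit 5) (nat_lit 427) (nat_lit 425) (nat_lit 168)))) (XT.nd (nat_lit 156) (nat_lit 0) (nat_lit 76) (XT.nd (nat_lit 78) (nat_lit 0) (nat_lit 76) (XT.lf (nat_lit 76) (nat_lit 6337621506) (nat_lit 0) (nat_lit 10836340132) (nat_lit 1292) (nat_lit 35312556962) (nat_lit 259) (nat_lit 5) (nat_lit 258) (nat_lit 5) (nat_lit 275) (nat_lit 5) (nat_lit 428) (nat_lit 425) (nat_lit 167)) (XT.lf (nat_lit 0) (nat_lit 18365737742) (nat_lit 1216) (nat_lit 20457686517) (nat_lit 1292) (nat_lit 14457586268) (nat_lit 259) (nat_lit 5) (nat_lit 275) (nat_lit 5) (nat_lit 276) (nat_lit 5) (nat_lit 429) (nat_lit 425) (nat_lit 166))) (XT.nd (nat_lit 78) (nat_lit 0) (nat_lit 76) (XT.lf (nat_lit 76) (nat_lit 6013764287) (nat_lit 0) (nat_lit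 13743683066) (nat_lit 1292) (nat_lit 34336964752) (nat_lit 260) (nat_lit 5) (nat_lit 259) (nat_lit 5) (nat_lit 276) (nat_lit 5) (nat_lit 430) (nat_lit 425) (nat_lit 165)) (XT.lf (nat_lit 0) (nat_lit 21514844259) (nat_lit 1216) (nat_lit 21346124945) (nat_lit 1292) (nat_lit 12061528738) (nat_lit 260) (nat_lit 5) (nat_lit 276) (nat_lit 5) (nat_lit 277) (nat_lit 5) (nat_lit 431) (nat_lit 425) (nat_lit 164))))) (XT.nd (nat_lit 312) (nat_lit 0) (nat_lit 152) (XT.nd (nat_lit 156) (nat_lit 0) (nat_lit 76) (XT.nd (nat_lit 78) (nat_lit 0) (nat_lit 76) (XT.lf (nat_lit 76) (nat_lit 6174275954) (nat_lit 0) (nat_lit 17345246661) (nat_lit 1292) (nat_lit 32250067236) (nat_lit 261) (nat_lit 5) (nat_lit 260) (nat_lit 5) (nat_lit 277) (nat_lit 5) (nat_lit 432) (nat_lit 425) (nat_lit 163)) (XT.lf (nat_lit 0) (nat_lit 25887082555) (nat_lit 1216) (nat_lit 21766383278) (nat_lit 1292) (nat_lit 8979546721) (nat_lit 261) (nat_lit 5) (nat_lit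 277) (nat_lit 5) (nat_lit 278) (nat_lit 5) (nat_lit 433) (nat_lit 425) (nat_lit 162))) (XT.nd (nat_lit 78) (nat_lit 0) (nat_lit 76) (XT.lf (nat_lit 76) (nat_lit 6858953217) (nat_lit 0) (nat_lit 21703563482) (nat_lit 1292) (nat_lit 28952716082) (nat_lit 262) (nat_lit 5) (nat_lit 261) (nat_lit 5) (nat_lit 278) (nat_lit 5) (nat_lit 434) (nat_lit 425) (nat_lit 161)) (XT.lf (nat_lit 0) (nat_lit 31587690259) (nat_lit 1216) (nat_lit 21679155185) (nat_lit 1292) (nat_lit 5148990139) (nat_lit 262) (nat_lit 5) (nat_lit 278) (nat_lit 5) (nat_lit 279) (nat_lit 5) (nat_lit 435) (nat_lit 425) (nat_lit 160)))) (XT.nd (nat_lit 156) (nat_lit 0) (nat_lit 76) (XT.nd (nat_lit 78) (nat_lit 0) (nat_lit 76) (XT.lf (nat_lit 76) (nat_lit 8110079411) (nat_lit 0) (nat_lit 26885609294) (nat_lit 1292) (nat_lit 24339005925) (nat_lit 263) (nat_lit 5) (nat_lit 262) (nat_lit 5) (nat_lit 279) (nat_lit 5) (nat_lit 436) (nat_lit 425) (nat_lit 159))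 (XT.lf (nat_lit 0) (nat_lit 38729013845) (nat_lit 1216) (nat_lit 21042679227) (nat_lit 1292) (nat_lit 502734017) (nat_lit 263) (nat_lit 5) (nat_lit 279) (nat_lit 5) (nat_lit 280) (nat_lit 5) (nat_lit 437) (nat_lit 425) (nat_lit 158))) (XT.nd (nat_lit 78) (nat_lit 0) (nat_lit 0) (XT.lf (nat_lit 76) (nat_lit 9972545407) (nat_lit 0) (nat_lit 32963114593) (nat_lit 1292) (nat_lit 18295852121) (nat_lit 264) (nat_lit 5) (nat_lit 263) (nat_lit 5) (nat_lit 280) (nat_lit 5) (nat_lit 438) (nat_lit 425) (nat_lit 157)) (XT.lf (nat_lit 76) (nat_lit 42349011153) (nat_lit 0) (nat_lit 5131265024) (nat_lit 1292) (nat_lit 14730680639) (nat_lit 264) (nat_lit 5) (nat_lit 263) (nat_lit 5) (nat_lit 280) (nat_lit 5) (nat_lit 439) (nat_lit 425) (nat_lit 156))))))) (XT.nd (nat_lit 1092) (nat_lit 2812) (nat_lit 0) (XT.nd (nat_lit 546) (nat_lit 2204) (nat_lit 0) (XT.nd (nat_lit 234) (nat_lit 1368) (nat_lit 0) (XT.nd (nat_lit 78) (nat_lit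 1140) (nat_lit 0) (XT.lf (nat_lit 76) (nat_lit 12493974570) (nat_lit 0) (nat_lit 40012897179) (nat_lit 1292) (nat_lit 10702544096) (nat_lit 265) (nat_lit 5) (nat_lit 264) (nat_lit 5) (nat_lit 281) (nat_lit 5) (nat_lit 440) (nat_lit 425) (nat_lit 155)) (XT.nd (nat_lit 78) (nat_lit 1140) (nat_lit 0) (XT.lf (nat_lit 76) (nat_lit 46175336870) (nat_lit 0) (nat_lit 11759119534) (nat_lit 1292) (nat_lit 6295866722) (nat_lit 265) (nat_lit 5) (nat_lit 264) (nat_lit 5) (nat_lit 281) (nat_lit 5) (nat_lit 441) (nat_lit 425) (nat_lit 154)) (XT.lf (nat_lit 0) (nat_lit 15724851635) (nat_lit 1216) (nat_lit 48117217278) (nat_lit 1292) (nat_lit 1430272915) (nat_lit 249) (nat_lit 5) (nat_lit 265) (nat_lit 5) (nat_lit 266) (nat_lit 5) (nat_lit 442) (nat_lit 425) (nat_lit 153)))) (XT.nd (nat_lit 156) (nat_lit 608) (nat_lit 0) (XT.nd (nat_lit 78) (nat_lit 684) (nat_lit 0) (XT.lf (nat_lit 0) (nat_lit 3811302970) (nat_lit 1292) (nat_lit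 15605197247) (nat_lit 76) (nat_lit 46919091360) (nat_lit 248) (nat_lit 5) (nat_lit 265) (nat_lit 5) (nat_lit 249) (nat_lit 5) (nat_lit 443) (nat_lit 425) (nat_lit 152)) (XT.lf (nat_lit 0) (nat_lit 9469898763) (nat_lit 760) (nat_lit 47798630664) (nat_lit 76) (nat_lit 10153129162) (nat_lit 239) (nat_lit 5) (nat_lit 249) (nat_lit 5) (nat_lit 240) (nat_lit 5) (nat_lit 444) (nat_lit 425) (nat_lit 151))) (XT.nd (nat_lit 78) (nat_lit 608) (nat_lit 0) (XT.lf (nat_lit 0) (nat_lit 15649015941) (nat_lit 760) (nat_lit 12501971107) (nat_lit 76) (nat_lit 40378797844) (nat_lit 239) (nat_lit 5) (nat_lit 249) (nat_lit 5) (nat_lit 240) (nat_lit 5) (nat_lit 445) (nat_lit 425) (nat_lit 150)) (XT.lf (nat_lit 0) (nat_lit 22266760505) (nat_lit 684) (nat_lit 45356413586) (nat_lit 76) (nat_lit 2040383457) (nat_lit 231) (nat_lit 5) (nat_lit 240) (nat_lit 5) (nat_lit 232) (nat_lit 5) (nat_lit 446) (nat_lit 425) (nat_lit 149))))) (XT.nd (nat_lit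 234) (nat_lit 1596) (nat_lit 0) (XT.nd (nat_lit 78) (nat_lit 608) (nat_lit 0) (XT.lf (nat_lit 0) (nat_lit 29488664857) (nat_lit 684) (nat_lit 8631293087) (nat_lit 76) (nat_lit 32699216794) (nat_lit 231) (nat_lit 5) (nat_lit 240) (nat_lit 5) (nat_lit 232) (nat_lit 5) (nat_lit 447) (nat_lit 425) (nat_lit 148)) (XT.nd (nat_lit 78) (nat_lit 0) (nat_lit 0) (XT.lf (nat_lit 0) (nat_lit 29776060870) (nat_lit 608) (nat_lit 7436817837) (nat_lit 684) (nat_lit 34788012335) (nat_lit 223) (nat_lit 5) (nat_lit 231) (nat_lit 5) (nat_lit 232) (nat_lit 5) (nat_lit 448) (nat_lit 425) (nat_lit 147)) (XT.lf (nat_lit 0) (nat_lit 45488585426) (nat_lit 684) (nat_lit 3936614744) (nat_lit 76) (nat_lit 23783265839) (nat_lit 223) (nat_lit 5) (nat_lit 232) (nat_lit 5) (nat_lit 224) (nat_lit 5) (nat_lit 449) (nat_lit 425) (nat_lit 146)))) (XT.nd (nat_lit 156) (nat_lit 532) (nat_lit 0) (XT.nd (nat_lit 78) (nat_lit 532) (nat_lit 0) (XT.lf (nat_lit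 0) (nat_lit 36131109994) (nat_lit 532) (nat_lit 18301854037) (nat_lit 608) (nat_lit 20006692334) (nat_lit 216) (nat_lit 5) (nat_lit 223) (nat_lit 5) (nat_lit 224) (nat_lit 5) (nat_lit 450) (nat_lit 425) (nat_lit 145)) (XT.lf (nat_lit 0) (nat_lit 1674467287) (nat_lit 532) (nat_lit 62159136702) (nat_lit 608) (nat_lit 11868540700) (nat_lit 209) (nat_lit 5) (nat_lit 216) (nat_lit 5) (nat_lit 217) (nat_lit 5) (nat_lit 451) (nat_lit 425) (nat_lit 144))) (XT.nd (nat_lit 78) (nat_lit 532) (nat_lit 0) (XT.lf (nat_lit 0) (nat_lit 43456887649) (nat_lit 532) (nat_lit 30625121845) (nat_lit 608) (nat_lit 2903525929) (nat_lit 209) (nat_lit 5) (nat_lit 216) (nat_lit 5) (nat_lit 217) (nat_lit 5) (nat_lit 452) (nat_lit 425) (nat_lit 143)) (XT.lf (nat_lit 0) (nat_lit 6305262734) (nat_lit 532) (nat_lit 70036819227) (nat_lit 76) (nat_lit 1960569906) (nat_lit 202) (nat_lit 5) (nat_lit 209) (nat_lit 5) (nat_lit 203) (nat_lit 5) (nat_lit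 453) (nat_lit 425) (nat_lit 142)))))) (XT.nd (nat_lit 546) (nat_lit 1292) (nat_lit 0) (XT.nd (nat_lit 234) (nat_lit 988) (nat_lit 0) (XT.nd (nat_lit 78) (nat_lit 532) (nat_lit 0) (XT.lf (nat_lit 0) (nat_lit 16376596530) (nat_lit 532) (nat_lit 27983553837) (nat_lit 76) (nat_lit 35278929960) (nat_lit 202) (nat_lit 5) (nat_lit 209) (nat_lit 5) (nat_lit 203) (nat_lit 5) (nat_lit 454) (nat_lit 425) (nat_lit 141)) (XT.nd (nat_lit 78) (nat_lit 0) (nat_lit 0) (XT.lf (nat_lit 0) (nat_lit 15635876053) (nat_lit 532) (nat_lit 11264005236) (nat_lit 608) (nat_lit 54111226157) (nat_lit 195) (nat_lit 5) (nat_lit 202) (nat_lit 5) (nat_lit 203) (nat_lit 5) (nat_lit 455) (nat_lit 425) (nat_lit 140)) (XT.lf (nat_lit 0) (nat_lit 38243167400) (nat_lit 608) (nat_lit 21501054042) (nat_lit 76) (nat_lit 22664944983) (nat_lit 195) (nat_lit 5) (nat_lit 203) (nat_lit 5) (nat_lit 196) (nat_lit 5) (nat_lit 456) (nat_lit 425) (nat_lit 139))))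 (XT.nd (nat_lit 156) (nat_lit 532) (nat_lit 0) (XT.nd (nat_lit 78) (nat_lit 0) (nat_lit 0) (XT.lf (nat_lit 0) (nat_lit 24046519801) (nat_lit 456) (nat_lit 26222438874) (nat_lit 532) (nat_lit 33569942430) (nat_lit 189) (nat_lit 5) (nat_lit 195) (nat_lit 5) (nat_lit 196) (nat_lit 5) (nat_lit 457) (nat_lit 425) (nat_lit 138)) (XT.lf (nat_lit 0) (nat_lit 62954164300) (nat_lit 532) (nat_lit 13986271448) (nat_lit 76) (nat_lit 8362132981) (nat_lit 189) (nat_lit 5) (nat_lit 196) (nat_lit 5) (nat_lit 190) (nat_lit 5) (nat_lit 458) (nat_lit 425) (nat_lit 137))) (XT.nd (nat_lit 78) (nat_lit 76) (nat_lit 0) (XT.lf (nat_lit 0) (nat_lit 33589311794) (nat_lit 456) (nat_lit 43012676548) (nat_lit 532) (nat_lit 10190696292) (nat_lit 183) (nat_lit 5) (nat_lit 189) (nat_lit 5) (nat_lit 190) (nat_lit 5) (nat_lit 459) (nat_lit 425) (nat_lit 136)) (XT.lf (nat_lit 0) (nat_lit 2428431294) (nat_lit 532) (nat_lit 5468746105) (nat_lit 76)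 (nat_lit 80425388641) (nat_lit 182) (nat_lit 5) (nat_lit 189) (nat_lit 5) (nat_lit 183) (nat_lit 5) (nat_lit 460) (nat_lit 425) (nat_lit 135))))) (XT.nd (nat_lit 312) (nat_lit 0) (nat_lit 0) (XT.nd (nat_lit 156) (nat_lit 380) (nat_lit 0) (XT.nd (nat_lit 78) (nat_lit 456) (nat_lit 0) (XT.lf (nat_lit 0) (nat_lit 15925291752) (nat_lit 532) (nat_lit 45695344271) (nat_lit 76) (nat_lit 28253561575) (nat_lit 176) (nat_lit 5) (nat_lit 183) (nat_lit 5) (nat_lit 177) (nat_lit 5) (nat_lit 461) (nat_lit 425) (nat_lit 134)) (XT.lf (nat_lit 0) (nat_lit 3955181187) (nat_lit 456) (nat_lit 26043432997) (nat_lit 532) (nat_lit 61468617340) (nat_lit 170) (nat_lit 5) (nat_lit 176) (nat_lit 5) (nat_lit 177) (nat_lit 5) (nat_lit 462) (nat_lit 425) (nat_lit 133))) (XT.nd (nat_lit 78) (nat_lit 380) (nat_lit 0) (XT.lf (nat_lit 0) (nat_lit 45061625070) (nat_lit 532) (nat_lit 37169285800) (nat_lit 76) (nat_lit 10860121038) (nat_lit 170) (nat_lit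 5) (nat_lit 177) (nat_lit 5) (nat_lit 171) (nat_lit 5) (nat_lit 463) (nat_lit 425) (nat_lit 132)) (XT.lf (nat_lit 0) (nat_lit 14712483197) (nat_lit 380) (nat_lit 46262919030) (nat_lit 456) (nat_lit 33776177900) (nat_lit 165) (nat_lit 5) (nat_lit 170) (nat_lit 5) (nat_lit 171) (nat_lit 5) (nat_lit 464) (nat_lit 425) (nat_lit 131)))) (XT.nd (nat_lit 50154) (nat_lit 0) (nat_lit 6992) (XT.nd (nat_lit 50076) (nat_lit 0) (nat_lit 6992) (XT.lf (nat_lit 0) (nat_lit 68912128003) (nat_lit 380) (nat_lit 8829403274) (nat_lit 456) (nat_lit 18709165455) (nat_lit 165) (nat_lit 5) (nat_lit 170) (nat_lit 5) (nat_lit 171) (nat_lit 5) (nat_lit 465) (nat_lit 425) (nat_lit 130)) (XT.lf (nat_lit 0) (nat_lit 7930166939) (nat_lit 1292) (nat_lit 8959184161) (nat_lit 1292) (nat_lit 8959184161) (nat_lit 257) (nat_lit 3) (nat_lit 274) (nat_lit 3) (nat_lit 274) (nat_lit 5) (nat_lit 426) (nat_lit 426) (nat_lit 168))) (XT.nd (nat_lit 78) (nat_lit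 0) (nat_lit 76) (XT.lf (nat_lit 76) (nat_lit 7347605811) (nat_lit 0) (nat_lit 8845454537) (nat_lit 1292) (nat_lit 36276613676) (nat_lit 258) (nat_lit 5) (nat_lit 257) (nat_lit 3) (nat_lit 274) (nat_lit 5) (nat_lit 427) (nat_lit 426) (nat_lit 167)) (XT.lf (nat_lit 0) (nat_lit 16879391853) (nat_lit 1216) (nat_lit 19685315870) (nat_lit 1292) (nat_lit 16690439521) (nat_lit 258) (nat_lit 5) (nat_lit 274) (nat_lit 5) (nat_lit 275) (nat_lit 5) (nat_lit 428) (nat_lit 426) (nat_lit 166))))))))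
noncomputable def xc247 : XT := (XT.nd (nat_lit 2262) (nat_lit 1900) (nat_lit 0) (XT.nd (nat_lit 1092) (nat_lit 4788) (nat_lit 0) (XT.nd (nat_lit 546) (nat_lit 0) (nat_lit 304) (XT.nd (nat_lit 234) (nat_lit 0) (nat_lit 152) (XT.nd (nat_lit 78) (nat_lit 0) (nat_lit 76) (XT.lf (nat_lit 76) (nat_lit 6554345392) (nat_lit 0) (nat_lit 11181634003) (nat_lit 1292) (nat_lit 36323715580) (nat_lit 259) (nat_lit 5) (nat_lit 258) (nat_lit 5) (nat_lit 275) (nat_lit 5) (nat_lit 429) (nat_lit 426) (nat_lit 165)) (XT.nd (nat_lit 78) (nat_lit 0) (nat_lit 0) (XT.lf (nat_lit 0) (nat_lit 18961957154) (nat_lit 1216) (nat_lit 21044030090) (nat_lit 1292) (nat_lit 14872081409) (nat_lit 259) (nat_lit 5) (nat_lit 275) (nat_lit 5) (nat_lit 276) (nat_lit 5) (nat_lit 430) (nat_lit 426) (nat_lit 164)) (XT.lf (nat_lit 76) (nat_lit 6221295738) (nat_lit 0) (nat_lit 14173065113) (nat_lit 1292) (nat_lit 35321543574) (nat_lit 260) (nat_lit 5) (nat_lit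 259) (nat_lit 5) (nat_lit 276) (nat_lit 5) (nat_lit 431) (nat_lit 426) (nat_lit 163)))) (XT.nd (nat_lit 156) (nat_lit 0) (nat_lit 76) (XT.nd (nat_lit 78) (nat_lit 0) (nat_lit 0) (XT.lf (nat_lit 0) (nat_lit 22203033252) (nat_lit 1216) (nat_lit 21958719695) (nat_lit 1292) (nat_lit 12407123700) (nat_lit 260) (nat_lit 5) (nat_lit 276) (nat_lit 5) (nat_lit 277) (nat_lit 5) (nat_lit 432) (nat_lit 426) (nat_lit 162)) (XT.lf (nat_lit 76) (nat_lit 6387020790) (nat_lit 0) (nat_lit 17879850713) (nat_lit 1292) (nat_lit 33174539628) (nat_lit 261) (nat_lit 5) (nat_lit 260) (nat_lit 5) (nat_lit 277) (nat_lit 5) (nat_lit 433) (nat_lit 426) (nat_lit 161))) (XT.nd (nat_lit 78) (nat_lit 0) (nat_lit 0) (XT.lf (nat_lit 0) (nat_lit 26704108878) (nat_lit 1216) (nat_lit 22391297184) (nat_lit 1292) (nat_lit 9235371328) (nat_lit 261) (nat_lit 5) (nat_lit 277) (nat_lit 5) (nat_lit 278) (nat_lit 5) (nat_lit 434) (nat_lit 426) (nat_lit 160))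 (XT.lf (nat_lit 76) (nat_lit 7092524136) (nat_lit 0) (nat_lit 22366372062) (nat_lit 1292) (nat_lit 29780595705) (nat_lit 262) (nat_lit 5) (nat_lit 261) (nat_lit 5) (nat_lit 278) (nat_lit 5) (nat_lit 435) (nat_lit 426) (nat_lit 159))))) (XT.nd (nat_lit 234) (nat_lit 0) (nat_lit 76) (XT.nd (nat_lit 78) (nat_lit 0) (nat_lit 0) (XT.lf (nat_lit 0) (nat_lit 32573565155) (nat_lit 1216) (nat_lit 22301265115) (nat_lit 1292) (nat_lit 5292320685) (nat_lit 262) (nat_lit 5) (nat_lit 278) (nat_lit 5) (nat_lit 279) (nat_lit 5) (nat_lit 436) (nat_lit 426) (nat_lit 158)) (XT.nd (nat_lit 78) (nat_lit 0) (nat_lit 76) (XT.lf (nat_lit 76) (nat_lit 8381369415) (nat_lit 0) (nat_lit 27701589266) (nat_lit 1292) (nat_lit 25030642798) (nat_lit 263) (nat_lit 5) (nat_lit 262) (nat_lit 5) (nat_lit 279) (nat_lit 5) (nat_lit 437) (nat_lit 426) (nat_lit 157)) (XT.lf (nat_lit 0) (nat_lit 39927106438) (nat_lit 1216) (nat_lit 21645598359) (nat_lit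 1292) (nat_lit 508856779) (nat_lit 263) (nat_lit 5) (nat_lit 279) (nat_lit 5) (nat_lit 280) (nat_lit 5) (nat_lit 438) (nat_lit 426) (nat_lit 156)))) (XT.nd (nat_lit 156) (nat_lit 0) (nat_lit 76) (XT.nd (nat_lit 78) (nat_lit 0) (nat_lit 0) (XT.lf (nat_lit 76) (nat_lit 10299804963) (nat_lit 0) (nat_lit 33959361953) (nat_lit 1292) (nat_lit 18808216134) (nat_lit 264) (nat_lit 5) (nat_lit 263) (nat_lit 5) (nat_lit 280) (nat_lit 5) (nat_lit 439) (nat_lit 426) (nat_lit 155)) (XT.lf (nat_lit 76) (nat_lit 43646746724) (nat_lit 0) (nat_lit 5292342705) (nat_lit 1292) (nat_lit 15137152950) (nat_lit 264) (nat_lit 5) (nat_lit 263) (nat_lit 5) (nat_lit 280) (nat_lit 5) (nat_lit 440) (nat_lit 426) (nat_lit 154))) (XT.nd (nat_lit 78) (nat_lit 0) (nat_lit 0) (XT.lf (nat_lit 76) (nat_lit 12896892611) (nat_lit 0) (nat_lit 41218791642) (nat_lit 1292) (nat_lit 10988995206) (nat_lit 265) (nat_lit 5) (nat_lit 264) (nat_lit 5) (nat_lit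 281) (nat_lit 5) (nat_lit 441) (nat_lit 426) (nat_lit 153)) (XT.lf (nat_lit 76) (nat_lit 47587877368) (nat_lit 0) (nat_lit 12117240254) (nat_lit 1292) (nat_lit 6451126012) (nat_lit 265) (nat_lit 5) (nat_lit 264) (nat_lit 5) (nat_lit 281) (nat_lit 5) (nat_lit 442) (nat_lit 426) (nat_lit 152)))))) (XT.nd (nat_lit 546) (nat_lit 2128) (nat_lit 0) (XT.nd (nat_lit 234) (nat_lit 1216) (nat_lit 0) (XT.nd (nat_lit 78) (nat_lit 760) (nat_lit 0) (XT.lf (nat_lit 0) (nat_lit 16224640505) (nat_lit 1216) (nat_lit 49564587350) (nat_lit 1292) (nat_lit 1440317261) (nat_lit 249) (nat_lit 5) (nat_lit 265) (nat_lit 5) (nat_lit 266) (nat_lit 5) (nat_lit 443) (nat_lit 426) (nat_lit 151)) (XT.nd (nat_lit 78) (nat_lit 684) (nat_lit 0) (XT.lf (nat_lit 0) (nat_lit 3956926088) (nat_lit 1292) (nat_lit 16045494544) (nat_lit 76) (nat_lit 48322290691) (nat_lit 248) (nat_lit 5) (nat_lit 265) (nat_lit 5) (nat_lit 249) (nat_lit 5) (nat_lit 444)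 (nat_lit 426) (nat_lit 150)) (XT.lf (nat_lit 0) (nat_lit 9784604394) (nat_lit 760) (nat_lit 49204046399) (nat_lit 76) (nat_lit 10454730088) (nat_lit 239) (nat_lit 5) (nat_lit 249) (nat_lit 5) (nat_lit 240) (nat_lit 5) (nat_lit 445) (nat_lit 426) (nat_lit 149)))) (XT.nd (nat_lit 156) (nat_lit 608) (nat_lit 0) (XT.nd (nat_lit 78) (nat_lit 608) (nat_lit 0) (XT.lf (nat_lit 0) (nat_lit 16148203573) (nat_lit 760) (nat_lit 12849318409) (nat_lit 76) (nat_lit 41587256004) (nat_lit 239) (nat_lit 5) (nat_lit 249) (nat_lit 5) (nat_lit 240) (nat_lit 5) (nat_lit 446) (nat_lit 426) (nat_lit 148)) (XT.lf (nat_lit 0) (nat_lit 22963862595) (nat_lit 684) (nat_lit 46688767606) (nat_lit 76) (nat_lit 2099952419) (nat_lit 231) (nat_lit 5) (nat_lit 240) (nat_lit 5) (nat_lit 232) (nat_lit 5) (nat_lit 447) (nat_lit 426) (nat_lit 147))) (XT.nd (nat_lit 78) (nat_lit 608) (nat_lit 0) (XT.lf (nat_lit 0) (nat_lit 30401576525) (nat_lit 684) (nat_lit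 8862718882) (nat_lit 76) (nat_lit 33678598597) (nat_lit 231) (nat_lit 5) (nat_lit 240) (nat_lit 5) (nat_lit 232) (nat_lit 5) (nat_lit 448) (nat_lit 426) (nat_lit 146)) (XT.lf (nat_lit 0) (nat_lit 30696585959) (nat_lit 608) (nat_lit 7660369845) (nat_lit 684) (nat_lit 35803123068) (nat_lit 223) (nat_lit 5) (nat_lit 231) (nat_lit 5) (nat_lit 232) (nat_lit 5) (nat_lit 449) (nat_lit 426) (nat_lit 145))))) (XT.nd (nat_lit 312) (nat_lit 1064) (nat_lit 0) (XT.nd (nat_lit 156) (nat_lit 532) (nat_lit 0) (XT.nd (nat_lit 78) (nat_lit 532) (nat_lit 0) (XT.lf (nat_lit 0) (nat_lit 46880123022) (nat_lit 684) (nat_lit 4027444773) (nat_lit 76) (nat_lit 24496337852) (nat_lit 223) (nat_lit 5) (nat_lit 232) (nat_lit 5) (nat_lit 224) (nat_lit 5) (nat_lit 450) (nat_lit 426) (nat_lit 144)) (XT.lf (nat_lit 0) (nat_lit 37242044370) (nat_lit 532) (nat_lit 18850265253) (nat_lit 608) (nat_lit 20579738024) (nat_lit 216) (nat_lit 5) (nat_lit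 223) (nat_lit 5) (nat_lit 224) (nat_lit 5) (nat_lit 451) (nat_lit 426) (nat_lit 143))) (XT.nd (nat_lit 78) (nat_lit 0) (nat_lit 0) (XT.lf (nat_lit 0) (nat_lit 1752222113) (nat_lit 532) (nat_lit 64022249557) (nat_lit 608) (nat_lit 12197954088) (nat_lit 209) (nat_lit 5) (nat_lit 216) (nat_lit 5) (nat_lit 217) (nat_lit 5) (nat_lit 452) (nat_lit 426) (nat_lit 142)) (XT.lf (nat_lit 0) (nat_lit 44787313509) (nat_lit 532) (nat_lit 31542262640) (nat_lit 608) (nat_lit 2964764879) (nat_lit 209) (nat_lit 5) (nat_lit 216) (nat_lit 5) (nat_lit 217) (nat_lit 5) (nat_lit 453) (nat_lit 426) (nat_lit 141)))) (XT.nd (nat_lit 156) (nat_lit 532) (nat_lit 0) (XT.nd (nat_lit 78) (nat_lit 0) (nat_lit 0) (XT.lf (nat_lit 0) (nat_lit 6519323192) (nat_lit 532) (nat_lit 72110226416) (nat_lit 76) (nat_lit 2021427888) (nat_lit 202) (nat_lit 5) (nat_lit 209) (nat_lit 5) (nat_lit 203) (nat_lit 5) (nat_lit 454) (nat_lit 426) (nat_lit 140)) (XT.lf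 (nat_lit 0) (nat_lit 16892071684) (nat_lit 532) (nat_lit 28796169784) (nat_lit 76) (nat_lit 36339279300) (nat_lit 202) (nat_lit 5) (nat_lit 209) (nat_lit 5) (nat_lit 203) (nat_lit 5) (nat_lit 455) (nat_lit 426) (nat_lit 139))) (XT.nd (nat_lit 78) (nat_lit 0) (nat_lit 0) (XT.lf (nat_lit 0) (nat_lit 16131579368) (nat_lit 532) (nat_lit 11599027381) (nat_lit 608) (nat_lit 55710115593) (nat_lit 195) (nat_lit 5) (nat_lit 202) (nat_lit 5) (nat_lit 203) (nat_lit 5) (nat_lit 456) (nat_lit 426) (nat_lit 138)) (XT.lf (nat_lit 0) (nat_lit 39413527353) (nat_lit 608) (nat_lit 22119563816) (nat_lit 76) (nat_lit 23347652033) (nat_lit 195) (nat_lit 5) (nat_lit 203) (nat_lit 5) (nat_lit 196) (nat_lit 5) (nat_lit 457) (nat_lit 426) (nat_lit 137))))))) (XT.nd (nat_lit 51246) (nat_lit 0) (nat_lit 4636) (XT.nd (nat_lit 50700) (nat_lit 0) (nat_lit 6612) (XT.nd (nat_lit 234) (nat_lit 988) (nat_lit 0) (XT.nd (nat_lit 78) (nat_lit 456)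 (nat_lit 0) (XT.lf (nat_lit 0) (nat_lit 24794177225) (nat_lit 456) (nat_lit 27005495792) (nat_lit 532) (nat_lit 34553709668) (nat_lit 189) (nat_lit 5) (nat_lit 195) (nat_lit 5) (nat_lit 196) (nat_lit 5) (nat_lit 458) (nat_lit 426) (nat_lit 136)) (XT.nd (nat_lit 78) (nat_lit 456) (nat_lit 0) (XT.lf (nat_lit 0) (nat_lit 64864808980) (nat_lit 532) (nat_lit 14379730930) (nat_lit 76) (nat_lit 8616439381) (nat_lit 189) (nat_lit 5) (nat_lit 196) (nat_lit 5) (nat_lit 190) (nat_lit 5) (nat_lit 459) (nat_lit 426) (nat_lit 135)) (XT.lf (nat_lit 0) (nat_lit 34622863647) (nat_lit 456) (nat_lit 44298811447) (nat_lit 532) (nat_lit 10474135530) (nat_lit 183) (nat_lit 5) (nat_lit 189) (nat_lit 5) (nat_lit 190) (nat_lit 5) (nat_lit 460) (nat_lit 426) (nat_lit 134)))) (XT.nd (nat_lit 156) (nat_lit 456) (nat_lit 0) (XT.nd (nat_lit 78) (nat_lit 456) (nat_lit 0) (XT.lf (nat_lit 0) (nat_lit 2522494772) (nat_lit 532) (nat_lit 5607262019)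 (nat_lit 76) (nat_lit 82841844506) (nat_lit 182) (nat_lit 5) (nat_lit 189) (nat_lit 5) (nat_lit 183) (nat_lit 5) (nat_lit 461) (nat_lit 426) (nat_lit 133)) (XT.lf (nat_lit 0) (nat_lit 16423929295) (nat_lit 532) (nat_lit 47040321131) (nat_lit 76) (nat_lit 29105541486) (nat_lit 176) (nat_lit 5) (nat_lit 183) (nat_lit 5) (nat_lit 177) (nat_lit 5) (nat_lit 462) (nat_lit 426) (nat_lit 132))) (XT.nd (nat_lit 78) (nat_lit 0) (nat_lit 0) (XT.lf (nat_lit 0) (nat_lit 4099466331) (nat_lit 456) (nat_lit 26819623318) (nat_lit 532) (nat_lit 63291538213) (nat_lit 170) (nat_lit 5) (nat_lit 176) (nat_lit 5) (nat_lit 177) (nat_lit 5) (nat_lit 463) (nat_lit 426) (nat_lit 131)) (XT.lf (nat_lit 0) (nat_lit 46433440992) (nat_lit 532) (nat_lit 38258926345) (nat_lit 76) (nat_lit 11190791565) (nat_lit 170) (nat_lit 5) (nat_lit 177) (nat_lit 5) (nat_lit 171) (nat_lit 5) (nat_lit 464) (nat_lit 426) (nat_lit 130))))) (XT.nd (nat_lit 234)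 (nat_lit 0) (nat_lit 76) (XT.nd (nat_lit 78) (nat_lit 0) (nat_lit 0) (XT.lf (nat_lit 0) (nat_lit 8192031181) (nat_lit 1292) (nat_lit 9215616762) (nat_lit 1292) (nat_lit 9215616762) (nat_lit 257) (nat_lit 3) (nat_lit 274) (nat_lit 3) (nat_lit 274) (nat_lit 5) (nat_lit 427) (nat_lit 427) (nat_lit 166)) (XT.nd (nat_lit 78) (nat_lit 0) (nat_lit 76) (XT.lf (nat_lit 76) (nat_lit 7592477813) (nat_lit 0) (nat_lit 9133132098) (nat_lit 1292) (nat_lit 37316736386) (nat_lit 258) (nat_lit 5) (nat_lit 257) (nat_lit 3) (nat_lit 274) (nat_lit 5) (nat_lit 428) (nat_lit 427) (nat_lit 165)) (XT.lf (nat_lit 0) (nat_lit 17430961237) (nat_lit 1216) (nat_lit 20250558577) (nat_lit 1292) (nat_lit 17169911445) (nat_lit 258) (nat_lit 5) (nat_lit 274) (nat_lit 5) (nat_lit 275) (nat_lit 5) (nat_lit 429) (nat_lit 427) (nat_lit 164)))) (XT.nd (nat_lit 156) (nat_lit 0) (nat_lit 76) (XT.nd (nat_lit 78) (nat_lit 0) (nat_lit 76) (XT.lf (nat_lit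 76) (nat_lit 6776044318) (nat_lit 0) (nat_lit 11536126917) (nat_lit 1292) (nat_lit 37367976873) (nat_lit 259) (nat_lit 5) (nat_lit 258) (nat_lit 5) (nat_lit 275) (nat_lit 5) (nat_lit 430) (nat_lit 427) (nat_lit 163)) (XT.lf (nat_lit 0) (nat_lit 19573465768) (nat_lit 1216) (nat_lit 21649536097) (nat_lit 1292) (nat_lit 15300115425) (nat_lit 259) (nat_lit 5) (nat_lit 275) (nat_lit 5) (nat_lit 276) (nat_lit 5) (nat_lit 431) (nat_lit 427) (nat_lit 162))) (XT.nd (nat_lit 78) (nat_lit 0) (nat_lit 76) (XT.lf (nat_lit 76) (nat_lit 6433496419) (nat_lit 0) (nat_lit 14614348644) (nat_lit 1292) (nat_lit 36338273375) (nat_lit 260) (nat_lit 5) (nat_lit 259) (nat_lit 5) (nat_lit 276) (nat_lit 5) (nat_lit 432) (nat_lit 427) (nat_lit 161)) (XT.lf (nat_lit 0) (nat_lit 22909414253) (nat_lit 1216) (nat_lit 22591287489) (nat_lit 1292) (nat_lit 12764019379) (nat_lit 260) (nat_lit 5) (nat_lit 276) (nat_lit 5) (nat_lit 277) (nat_lit 5)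 (nat_lit 433) (nat_lit 427) (nat_lit 160)))))) (XT.nd (nat_lit 546) (nat_lit 2204) (nat_lit 0) (XT.nd (nat_lit 234) (nat_lit 0) (nat_lit 152) (XT.nd (nat_lit 78) (nat_lit 0) (nat_lit 76) (XT.lf (nat_lit 76) (nat_lit 6604568409) (nat_lit 0) (nat_lit 18429675071) (nat_lit 1292) (nat_lit 34129216269) (nat_lit 261) (nat_lit 5) (nat_lit 260) (nat_lit 5) (nat_lit 277) (nat_lit 5) (nat_lit 434) (nat_lit 427) (nat_lit 159)) (XT.nd (nat_lit 78) (nat_lit 0) (nat_lit 0) (XT.lf (nat_lit 0) (nat_lit 27543326072) (nat_lit 1216) (nat_lit 23036570275) (nat_lit 1292) (nat_lit 9499649176) (nat_lit 261) (nat_lit 5) (nat_lit 277) (nat_lit 5) (nat_lit 278) (nat_lit 5) (nat_lit 435) (nat_lit 427) (nat_lit 158)) (XT.lf (nat_lit 76) (nat_lit 7331506215) (nat_lit 0) (nat_lit 23048393175) (nat_lit 1292) (nat_lit 30635648169) (nat_lit 262) (nat_lit 5) (nat_lit 261) (nat_lit 5) (nat_lit 278) (nat_lit 5) (nat_lit 436) (nat_lit 427) (nat_lit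 157)))) (XT.nd (nat_lit 156) (nat_lit 0) (nat_lit 76) (XT.nd (nat_lit 78) (nat_lit 0) (nat_lit 0) (XT.lf (nat_lit 0) (nat_lit 33586820925) (nat_lit 1216) (nat_lit 22943660853) (nat_lit 1292) (nat_lit 5440590579) (nat_lit 262) (nat_lit 5) (nat_lit 278) (nat_lit 5) (nat_lit 279) (nat_lit 5) (nat_lit 437) (nat_lit 427) (nat_lit 156)) (XT.lf (nat_lit 76) (nat_lit 8659191514) (nat_lit 0) (nat_lit 28541508367) (nat_lit 1292) (nat_lit 25745240747) (nat_lit 263) (nat_lit 5) (nat_lit 262) (nat_lit 5) (nat_lit 279) (nat_lit 5) (nat_lit 438) (nat_lit 427) (nat_lit 155))) (XT.nd (nat_lit 78) (nat_lit 0) (nat_lit 0) (XT.lf (nat_lit 0) (nat_lit 41159062507) (nat_lit 1216) (nat_lit 22268233116) (nat_lit 1292) (nat_lit 515677521) (nat_lit 263) (nat_lit 5) (nat_lit 279) (nat_lit 5) (nat_lit 280) (nat_lit 5) (nat_lit 439) (nat_lit 427) (nat_lit 154)) (XT.lf (nat_lit 76) (nat_lit 10635270216) (nat_lit 0) (nat_lit 34985074588) (nat_lit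 1292) (nat_lit 19338046980) (nat_lit 264) (nat_lit 5) (nat_lit 263) (nat_lit 5) (nat_lit 280) (nat_lit 5) (nat_lit 440) (nat_lit 427) (nat_lit 153))))) (XT.nd (nat_lit 312) (nat_lit 1368) (nat_lit 0) (XT.nd (nat_lit 156) (nat_lit 1064) (nat_lit 0) (XT.nd (nat_lit 78) (nat_lit 0) (nat_lit 76) (XT.lf (nat_lit 76) (nat_lit 44981849226) (nat_lit 0) (nat_lit 5457842866) (nat_lit 1292) (nat_lit 15557854298) (nat_lit 264) (nat_lit 5) (nat_lit 263) (nat_lit 5) (nat_lit 280) (nat_lit 5) (nat_lit 441) (nat_lit 427) (nat_lit 152)) (XT.lf (nat_lit 76) (nat_lit 13310285206) (nat_lit 0) (nat_lit 42460546783) (nat_lit 1292) (nat_lit 11286027479) (nat_lit 265) (nat_lit 5) (nat_lit 264) (nat_lit 5) (nat_lit 281) (nat_lit 5) (nat_lit 442) (nat_lit 427) (nat_lit 151))) (XT.nd (nat_lit 78) (nat_lit 1140) (nat_lit 0) (XT.lf (nat_lit 76) (nat_lit 49041228074) (nat_lit 0) (nat_lit 12485797648) (nat_lit 1292) (nat_lit 6612972818) (nat_lit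 265) (nat_lit 5) (nat_lit 264) (nat_lit 5) (nat_lit 281) (nat_lit 5) (nat_lit 443) (nat_lit 427) (nat_lit 150)) (XT.lf (nat_lit 0) (nat_lit 16737813240) (nat_lit 1216) (nat_lit 51055157315) (nat_lit 1292) (nat_lit 1452549457) (nat_lit 249) (nat_lit 5) (nat_lit 265) (nat_lit 5) (nat_lit 266) (nat_lit 5) (nat_lit 444) (nat_lit 427) (nat_lit 149)))) (XT.nd (nat_lit 156) (nat_lit 608) (nat_lit 0) (XT.nd (nat_lit 78) (nat_lit 684) (nat_lit 0) (XT.lf (nat_lit 0) (nat_lit 4105122067) (nat_lit 1292) (nat_lit 16500599958) (nat_lit 76) (nat_lit 49767837054) (nat_lit 248) (nat_lit 5) (nat_lit 265) (nat_lit 5) (nat_lit 249) (nat_lit 5) (nat_lit 445) (nat_lit 427) (nat_lit 148)) (XT.lf (nat_lit 0) (nat_lit 10106994132) (nat_lit 760) (nat_lit 50653263101) (nat_lit 76) (nat_lit 10765550849) (nat_lit 239) (nat_lit 5) (nat_lit 249) (nat_lit 5) (nat_lit 240) (nat_lit 5) (nat_lit 446) (nat_lit 427) (nat_lit 147))) (XT.nd (nat_lit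 78) (nat_lit 608) (nat_lit 0) (XT.lf (nat_lit 0) (nat_lit 16660660948) (nat_lit 760) (nat_lit 13208676903) (nat_lit 76) (nat_lit 42832134712) (nat_lit 239) (nat_lit 5) (nat_lit 249) (nat_lit 5) (nat_lit 240) (nat_lit 5) (nat_lit 447) (nat_lit 427) (nat_lit 146)) (XT.lf (nat_lit 0) (nat_lit 23680207329) (nat_lit 684) (nat_lit 48062718985) (nat_lit 76) (nat_lit 2161402739) (nat_lit 231) (nat_lit 5) (nat_lit 240) (nat_lit 5) (nat_lit 232) (nat_lit 5) (nat_lit 448) (nat_lit 427) (nat_lit 145))))))))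
noncomputable def xc248 : XT := (XT.nd (nat_lit 52416) (nat_lit 0) (nat_lit 456) (XT.nd (nat_lit 1092) (nat_lit 912) (nat_lit 0) (XT.nd (nat_lit 546) (nat_lit 1520) (nat_lit 0) (XT.nd (nat_lit 234) (nat_lit 1596) (nat_lit 0) (XT.nd (nat_lit 78) (nat_lit 608) (nat_lit 0) (XT.lf (nat_lit 0) (nat_lit 31340253779) (nat_lit 684) (nat_lit 9102666809) (nat_lit 76) (nat_lit 34687453397) (nat_lit 231) (nat_lit 5) (nat_lit 240) (nat_lit 5) (nat_lit 232) (nat_lit 5) (nat_lit 449) (nat_lit 427) (nat_lit 144)) (XT.nd (nat_lit 78) (nat_lit 0) (nat_lit 0) (XT.lf (nat_lit 0) (nat_lit 31643162926) (nat_lit 608) (nat_lit 7890602727) (nat_lit 684) (nat_lit 36850324841) (nat_lit 223) (nat_lit 5) (nat_lit 231) (nat_lit 5) (nat_lit 232) (nat_lit 5) (nat_lit 450) (nat_lit 427) (nat_lit 143)) (XT.lf (nat_lit 0) (nat_lit 48311863722) (nat_lit 684) (nat_lit 4122565022) (nat_lit 76) (nat_lit 25230826478) (nat_lit 223) (nat_lit 5) (nat_lit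 232) (nat_lit 5) (nat_lit 224) (nat_lit 5) (nat_lit 451) (nat_lit 427) (nat_lit 142)))) (XT.nd (nat_lit 156) (nat_lit 532) (nat_lit 0) (XT.nd (nat_lit 78) (nat_lit 532) (nat_lit 0) (XT.lf (nat_lit 0) (nat_lit 38384756804) (nat_lit 532) (nat_lit 19415165797) (nat_lit 608) (nat_lit 21171533897) (nat_lit 216) (nat_lit 5) (nat_lit 223) (nat_lit 5) (nat_lit 224) (nat_lit 5) (nat_lit 452) (nat_lit 427) (nat_lit 141)) (XT.lf (nat_lit 0) (nat_lit 1830729776) (nat_lit 532) (nat_lit 65941351160) (nat_lit 608) (nat_lit 12538779285) (nat_lit 209) (nat_lit 5) (nat_lit 216) (nat_lit 5) (nat_lit 217) (nat_lit 5) (nat_lit 453) (nat_lit 427) (nat_lit 140))) (XT.nd (nat_lit 78) (nat_lit 532) (nat_lit 0) (XT.lf (nat_lit 0) (nat_lit 46156118351) (nat_lit 532) (nat_lit 32487010243) (nat_lit 608) (nat_lit 3029325859) (nat_lit 209) (nat_lit 5) (nat_lit 216) (nat_lit 5) (nat_lit 217) (nat_lit 5) (nat_lit 454) (nat_lit 427) (nat_lit 139))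 (XT.lf (nat_lit 0) (nat_lit 6738375954) (nat_lit 532) (nat_lit 74247425764) (nat_lit 76) (nat_lit 2083994454) (nat_lit 202) (nat_lit 5) (nat_lit 209) (nat_lit 5) (nat_lit 203) (nat_lit 5) (nat_lit 455) (nat_lit 427) (nat_lit 138))))) (XT.nd (nat_lit 234) (nat_lit 988) (nat_lit 0) (XT.nd (nat_lit 78) (nat_lit 532) (nat_lit 0) (XT.lf (nat_lit 0) (nat_lit 17421623219) (nat_lit 532) (nat_lit 29634707844) (nat_lit 76) (nat_lit 37431325378) (nat_lit 202) (nat_lit 5) (nat_lit 209) (nat_lit 5) (nat_lit 203) (nat_lit 5) (nat_lit 456) (nat_lit 427) (nat_lit 137)) (XT.nd (nat_lit 78) (nat_lit 0) (nat_lit 0) (XT.lf (nat_lit 0) (nat_lit 16640625282) (nat_lit 532) (nat_lit 11944266548) (nat_lit 608) (nat_lit 57358375090) (nat_lit 195) (nat_lit 5) (nat_lit 202) (nat_lit 5) (nat_lit 203) (nat_lit 5) (nat_lit 457) (nat_lit 427) (nat_lit 136)) (XT.lf (nat_lit 0) (nat_lit 40617674083) (nat_lit 608) (nat_lit 22758151345) (nat_lit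 76) (nat_lit 24050681934) (nat_lit 195) (nat_lit 5) (nat_lit 203) (nat_lit 5) (nat_lit 196) (nat_lit 5) (nat_lit 458) (nat_lit 427) (nat_lit 135)))) (XT.nd (nat_lit 156) (nat_lit 532) (nat_lit 0) (XT.nd (nat_lit 78) (nat_lit 0) (nat_lit 0) (XT.lf (nat_lit 0) (nat_lit 25562756835) (nat_lit 456) (nat_lit 27812252005) (nat_lit 532) (nat_lit 35568329220) (nat_lit 189) (nat_lit 5) (nat_lit 195) (nat_lit 5) (nat_lit 196) (nat_lit 5) (nat_lit 459) (nat_lit 427) (nat_lit 134)) (XT.lf (nat_lit 0) (nat_lit 66831508976) (nat_lit 532) (nat_lit 14786494088) (nat_lit 76) (nat_lit 8878177364) (nat_lit 189) (nat_lit 5) (nat_lit 196) (nat_lit 5) (nat_lit 190) (nat_lit 5) (nat_lit 460) (nat_lit 427) (nat_lit 133))) (XT.nd (nat_lit 78) (nat_lit 76) (nat_lit 0) (XT.lf (nat_lit 0) (nat_lit 35685936868) (nat_lit 456) (nat_lit 45623774096) (nat_lit 532) (nat_lit 10767357003) (nat_lit 183) (nat_lit 5) (nat_lit 189) (nat_lit 5) (nat_lit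 190) (nat_lit 5) (nat_lit 461) (nat_lit 427) (nat_lit 132)) (XT.lf (nat_lit 0) (nat_lit 2618162583) (nat_lit 532) (nat_lit 5751399882) (nat_lit 76) (nat_lit 85330581986) (nat_lit 182) (nat_lit 5) (nat_lit 189) (nat_lit 5) (nat_lit 183) (nat_lit 5) (nat_lit 462) (nat_lit 427) (nat_lit 131)))))) (XT.nd (nat_lit 50778) (nat_lit 0) (nat_lit 6764) (XT.nd (nat_lit 50466) (nat_lit 0) (nat_lit 6612) (XT.nd (nat_lit 78) (nat_lit 456) (nat_lit 0) (XT.lf (nat_lit 0) (nat_lit 16936327436) (nat_lit 532) (nat_lit 48427133114) (nat_lit 76) (nat_lit 29982829763) (nat_lit 176) (nat_lit 5) (nat_lit 183) (nat_lit 5) (nat_lit 177) (nat_lit 5) (nat_lit 463) (nat_lit 427) (nat_lit 130)) (XT.nd (nat_lit 50310) (nat_lit 0) (nat_lit 6612) (XT.lf (nat_lit 0) (nat_lit 4246608780) (nat_lit 456) (nat_lit 27619392836) (nat_lit 532) (nat_lit 65170360100) (nat_lit 170) (nat_lit 5) (nat_lit 176) (nat_lit 5) (nat_lit 177) (nat_lit 5) (nat_lit 464)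 (nat_lit 427) (nat_lit 129)) (XT.lf (nat_lit 0) (nat_lit 8460375992) (nat_lit 1292) (nat_lit 9480450876) (nat_lit 1292) (nat_lit 9480450876) (nat_lit 257) (nat_lit 3) (nat_lit 274) (nat_lit 3) (nat_lit 274) (nat_lit 5) (nat_lit 428) (nat_lit 428) (nat_lit 164)))) (XT.nd (nat_lit 156) (nat_lit 0) (nat_lit 76) (XT.nd (nat_lit 78) (nat_lit 0) (nat_lit 76) (XT.lf (nat_lit 76) (nat_lit 7843292801) (nat_lit 0) (nat_lit 9428159075) (nat_lit 1292) (nat_lit 38390828259) (nat_lit 258) (nat_lit 5) (nat_lit 257) (nat_lit 3) (nat_lit 274) (nat_lit 5) (nat_lit 429) (nat_lit 428) (nat_lit 163)) (XT.lf (nat_lit 0) (nat_lit 17996483748) (nat_lit 1216) (nat_lit 20834211852) (nat_lit 1292) (nat_lit 17664986862) (nat_lit 258) (nat_lit 5) (nat_lit 274) (nat_lit 5) (nat_lit 275) (nat_lit 5) (nat_lit 430) (nat_lit 428) (nat_lit 162))) (XT.nd (nat_lit 78) (nat_lit 0) (nat_lit 76) (XT.lf (nat_lit 76) (nat_lit 7002955175) (nat_lit 0) (nat_lit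 11900161421) (nat_lit 1292) (nat_lit 38446175031) (nat_lit 259) (nat_lit 5) (nat_lit 258) (nat_lit 5) (nat_lit 275) (nat_lit 5) (nat_lit 431) (nat_lit 428) (nat_lit 161)) (XT.lf (nat_lit 0) (nat_lit 20200871363) (nat_lit 1216) (nat_lit 22274689166) (nat_lit 1292) (nat_lit 15742031108) (nat_lit 259) (nat_lit 5) (nat_lit 275) (nat_lit 5) (nat_lit 276) (nat_lit 5) (nat_lit 432) (nat_lit 428) (nat_lit 160))))) (XT.nd (nat_lit 234) (nat_lit 0) (nat_lit 152) (XT.nd (nat_lit 78) (nat_lit 0) (nat_lit 76) (XT.lf (nat_lit 76) (nat_lit 6650595767) (nat_lit 0) (nat_lit 15067946959) (nat_lit 1292) (nat_lit 37387968653) (nat_lit 260) (nat_lit 5) (nat_lit 259) (nat_lit 5) (nat_lit 276) (nat_lit 5) (nat_lit 433) (nat_lit 428) (nat_lit 159)) (XT.nd (nat_lit 78) (nat_lit 0) (nat_lit 0) (XT.lf (nat_lit 0) (nat_lit 23634673874) (nat_lit 1216) (nat_lit 23244335948) (nat_lit 1292) (nat_lit 13132501246) (nat_lit 260) (nat_lit 5) (nat_lit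 276) (nat_lit 5) (nat_lit 277) (nat_lit 5) (nat_lit 434) (nat_lit 428) (nat_lit 158)) (XT.lf (nat_lit 76) (nat_lit 6827153566) (nat_lit 0) (nat_lit 18995223289) (nat_lit 1292) (nat_lit 35114861493) (nat_lit 261) (nat_lit 5) (nat_lit 260) (nat_lit 5) (nat_lit 277) (nat_lit 5) (nat_lit 435) (nat_lit 428) (nat_lit 157)))) (XT.nd (nat_lit 156) (nat_lit 0) (nat_lit 76) (XT.nd (nat_lit 78) (nat_lit 0) (nat_lit 0) (XT.lf (nat_lit 0) (nat_lit 28405533033) (nat_lit 1216) (nat_lit 23702720807) (nat_lit 1292) (nat_lit 9772589172) (nat_lit 261) (nat_lit 5) (nat_lit 277) (nat_lit 5) (nat_lit 278) (nat_lit 5) (nat_lit 436) (nat_lit 428) (nat_lit 156)) (XT.lf (nat_lit 76) (nat_lit 7576153404) (nat_lit 0) (nat_lit 23750241758) (nat_lit 1292) (nat_lit 31518554539) (nat_lit 262) (nat_lit 5) (nat_lit 261) (nat_lit 5) (nat_lit 278) (nat_lit 5) (nat_lit 437) (nat_lit 428) (nat_lit 155))) (XT.nd (nat_lit 78) (nat_lit 0) (nat_lit 0)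 (XT.lf (nat_lit 0) (nat_lit 34628405018) (nat_lit 1216) (nat_lit 23606857835) (nat_lit 1292) (nat_lit 5593911298) (nat_lit 262) (nat_lit 5) (nat_lit 278) (nat_lit 5) (nat_lit 279) (nat_lit 5) (nat_lit 438) (nat_lit 428) (nat_lit 154)) (XT.lf (nat_lit 76) (nat_lit 8943833899) (nat_lit 0) (nat_lit 29406115785) (nat_lit 1292) (nat_lit 26483361628) (nat_lit 263) (nat_lit 5) (nat_lit 262) (nat_lit 5) (nat_lit 279) (nat_lit 5) (nat_lit 439) (nat_lit 428) (nat_lit 153))))))) (XT.nd (nat_lit 1092) (nat_lit 3040) (nat_lit 0) (XT.nd (nat_lit 546) (nat_lit 2432) (nat_lit 0) (XT.nd (nat_lit 234) (nat_lit 1140) (nat_lit 0) (XT.nd (nat_lit 78) (nat_lit 0) (nat_lit 0) (XT.lf (nat_lit 0) (nat_lit 42426017318) (nat_lit 1216) (nat_lit 22911081510) (nat_lit 1292) (nat_lit 523187662) (nat_lit 263) (nat_lit 5) (nat_lit 279) (nat_lit 5) (nat_lit 280) (nat_lit 5) (nat_lit 440) (nat_lit 428) (nat_lit 152)) (XT.nd (nat_lit 78) (nat_lit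 0) (nat_lit 0) (XT.lf (nat_lit 76) (nat_lit 10979279876) (nat_lit 0) (nat_lit 36041160690) (nat_lit 1292) (nat_lit 19885748350) (nat_lit 264) (nat_lit 5) (nat_lit 263) (nat_lit 5) (nat_lit 280) (nat_lit 5) (nat_lit 441) (nat_lit 428) (nat_lit 151)) (XT.lf (nat_lit 76) (nat_lit 46355529513) (nat_lit 0) (nat_lit 5627921710) (nat_lit 1292) (nat_lit 15993094742) (nat_lit 264) (nat_lit 5) (nat_lit 263) (nat_lit 5) (nat_lit 280) (nat_lit 5) (nat_lit 442) (nat_lit 428) (nat_lit 150)))) (XT.nd (nat_lit 156) (nat_lit 1216) (nat_lit 0) (XT.nd (nat_lit 78) (nat_lit 0) (nat_lit 0) (XT.lf (nat_lit 76) (nat_lit 13734559185) (nat_lit 0) (nat_lit 43739256571) (nat_lit 1292) (nat_lit 11593844250) (nat_lit 265) (nat_lit 5) (nat_lit 264) (nat_lit 5) (nat_lit 281) (nat_lit 5) (nat_lit 443) (nat_lit 428) (nat_lit 149)) (XT.lf (nat_lit 76) (nat_lit 50536703191) (nat_lit 0) (nat_lit 12865122436) (nat_lit 1292) (nat_lit 6781493990) (nat_lit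 265) (nat_lit 5) (nat_lit 264) (nat_lit 5) (nat_lit 281) (nat_lit 5) (nat_lit 444) (nat_lit 428) (nat_lit 148))) (XT.nd (nat_lit 78) (nat_lit 76) (nat_lit 0) (XT.lf (nat_lit 0) (nat_lit 17264863765) (nat_lit 1216) (nat_lit 52590235867) (nat_lit 1292) (nat_lit 1466926844) (nat_lit 249) (nat_lit 5) (nat_lit 265) (nat_lit 5) (nat_lit 266) (nat_lit 5) (nat_lit 445) (nat_lit 428) (nat_lit 147)) (XT.lf (nat_lit 0) (nat_lit 4256071183) (nat_lit 1292) (nat_lit 16970865933) (nat_lit 76) (nat_lit 51256986448) (nat_lit 248) (nat_lit 5) (nat_lit 265) (nat_lit 5) (nat_lit 249) (nat_lit 5) (nat_lit 446) (nat_lit 428) (nat_lit 146))))) (XT.nd (nat_lit 234) (nat_lit 1140) (nat_lit 0) (XT.nd (nat_lit 78) (nat_lit 608) (nat_lit 0) (XT.lf (nat_lit 0) (nat_lit 10437399362) (nat_lit 760) (nat_lit 52147500743) (nat_lit 76) (nat_lit 11085858179) (nat_lit 239) (nat_lit 5) (nat_lit 249) (nat_lit 5) (nat_lit 240) (nat_lit 5) (nat_lit 447)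 (nat_lit 428) (nat_lit 145)) (XT.nd (nat_lit 78) (nat_lit 608) (nat_lit 0) (XT.lf (nat_lit 0) (nat_lit 17186884083) (nat_lit 760) (nat_lit 13580315608) (nat_lit 76) (nat_lit 44114517009) (nat_lit 239) (nat_lit 5) (nat_lit 249) (nat_lit 5) (nat_lit 240) (nat_lit 5) (nat_lit 448) (nat_lit 428) (nat_lit 144)) (XT.lf (nat_lit 0) (nat_lit 24416467877) (nat_lit 684) (nat_lit 49479422264) (nat_lit 76) (nat_lit 2224785444) (nat_lit 231) (nat_lit 5) (nat_lit 240) (nat_lit 5) (nat_lit 232) (nat_lit 5) (nat_lit 449) (nat_lit 428) (nat_lit 143)))) (XT.nd (nat_lit 156) (nat_lit 532) (nat_lit 0) (XT.nd (nat_lit 78) (nat_lit 608) (nat_lit 0) (XT.lf (nat_lit 0) (nat_lit 32305562681) (nat_lit 684) (nat_lit 9351301871) (nat_lit 76) (nat_lit 35726660128) (nat_lit 231) (nat_lit 5) (nat_lit 240) (nat_lit 5) (nat_lit 232) (nat_lit 5) (nat_lit 450) (nat_lit 428) (nat_lit 142)) (XT.lf (nat_lit 0) (nat_lit 32616663100) (nat_lit 608) (nat_lit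 8127718383) (nat_lit 684) (nat_lit 37930486374) (nat_lit 223) (nat_lit 5) (nat_lit 231) (nat_lit 5) (nat_lit 232) (nat_lit 5) (nat_lit 451) (nat_lit 428) (nat_lit 141))) (XT.nd (nat_lit 78) (nat_lit 532) (nat_lit 0) (XT.lf (nat_lit 0) (nat_lit 49785102195) (nat_lit 684) (nat_lit 4222014341) (nat_lit 76) (nat_lit 25987372810) (nat_lit 223) (nat_lit 5) (nat_lit 232) (nat_lit 5) (nat_lit 224) (nat_lit 5) (nat_lit 452) (nat_lit 428) (nat_lit 140)) (XT.lf (nat_lit 0) (nat_lit 39560289614) (nat_lit 532) (nat_lit 19997048226) (nat_lit 608) (nat_lit 21782552977) (nat_lit 216) (nat_lit 5) (nat_lit 223) (nat_lit 5) (nat_lit 224) (nat_lit 5) (nat_lit 453) (nat_lit 428) (nat_lit 139)))))) (XT.nd (nat_lit 546) (nat_lit 988) (nat_lit 0) (XT.nd (nat_lit 234) (nat_lit 988) (nat_lit 0) (XT.nd (nat_lit 78) (nat_lit 532) (nat_lit 0) (XT.lf (nat_lit 0) (nat_lit 1910103550) (nat_lit 532) (nat_lit 67918115699) (nat_lit 608) (nat_lit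 12891270851) (nat_lit 209) (nat_lit 5) (nat_lit 216) (nat_lit 5) (nat_lit 217) (nat_lit 5) (nat_lit 454) (nat_lit 428) (nat_lit 138)) (XT.nd (nat_lit 78) (nat_lit 532) (nat_lit 0) (XT.lf (nat_lit 0) (nat_lit 47564541592) (nat_lit 532) (nat_lit 33460187545) (nat_lit 608) (nat_lit 3097223293) (nat_lit 209) (nat_lit 5) (nat_lit 216) (nat_lit 5) (nat_lit 217) (nat_lit 5) (nat_lit 455) (nat_lit 428) (nat_lit 137)) (XT.lf (nat_lit 0) (nat_lit 6962652849) (nat_lit 532) (nat_lit 76450239767) (nat_lit 76) (nat_lit 2148327588) (nat_lit 202) (nat_lit 5) (nat_lit 209) (nat_lit 5) (nat_lit 203) (nat_lit 5) (nat_lit 456) (nat_lit 428) (nat_lit 136)))) (XT.nd (nat_lit 156) (nat_lit 456) (nat_lit 0) (XT.nd (nat_lit 78) (nat_lit 532) (nat_lit 0) (XT.lf (nat_lit 0) (nat_lit 17965753096) (nat_lit 532) (nat_lit 30499857069) (nat_lit 76) (nat_lit 38556025625) (nat_lit 202) (nat_lit 5) (nat_lit 209) (nat_lit 5) (nat_lit 203) (nat_lit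 5) (nat_lit 457) (nat_lit 428) (nat_lit 135)) (XT.lf (nat_lit 0) (nat_lit 17163501815) (nat_lit 532) (nat_lit 12300019698) (nat_lit 608) (nat_lit 59057405190) (nat_lit 195) (nat_lit 5) (nat_lit 202) (nat_lit 5) (nat_lit 203) (nat_lit 5) (nat_lit 458) (nat_lit 428) (nat_lit 134))) (XT.nd (nat_lit 78) (nat_lit 456) (nat_lit 0) (XT.lf (nat_lit 0) (nat_lit 41856697198) (nat_lit 608) (nat_lit 23417331566) (nat_lit 76) (nat_lit 24774653462) (nat_lit 195) (nat_lit 5) (nat_lit 203) (nat_lit 5) (nat_lit 196) (nat_lit 5) (nat_lit 459) (nat_lit 428) (nat_lit 133)) (XT.lf (nat_lit 0) (nat_lit 26352972836) (nat_lit 456) (nat_lit 28643406575) (nat_lit 532) (nat_lit 36614649774) (nat_lit 189) (nat_lit 5) (nat_lit 195) (nat_lit 5) (nat_lit 196) (nat_lit 5) (nat_lit 460) (nat_lit 428) (nat_lit 132))))) (XT.nd (nat_lit 50622) (nat_lit 0) (nat_lit 6156) (XT.nd (nat_lit 156) (nat_lit 532) (nat_lit 0) (XT.nd (nat_lit 78) (nat_lit 456)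 (nat_lit 0) (XT.lf (nat_lit 0) (nat_lit 68856018509) (nat_lit 532) (nat_lit 15206873933) (nat_lit 76) (nat_lit 9147581221) (nat_lit 189) (nat_lit 5) (nat_lit 196) (nat_lit 5) (nat_lit 190) (nat_lit 5) (nat_lit 461) (nat_lit 428) (nat_lit 131)) (XT.lf (nat_lit 0) (nat_lit 36779502354) (nat_lit 456) (nat_lit 46988715339) (nat_lit 532) (nat_lit 11070580755) (nat_lit 183) (nat_lit 5) (nat_lit 189) (nat_lit 5) (nat_lit 190) (nat_lit 5) (nat_lit 462) (nat_lit 428) (nat_lit 130))) (XT.nd (nat_lit 78) (nat_lit 456) (nat_lit 0) (XT.lf (nat_lit 0) (nat_lit 2715552750) (nat_lit 532) (nat_lit 5901244171) (nat_lit 76) (nat_lit 87893781700) (nat_lit 182) (nat_lit 5) (nat_lit 189) (nat_lit 5) (nat_lit 183) (nat_lit 5) (nat_lit 463) (nat_lit 428) (nat_lit 129)) (XT.lf (nat_lit 0) (nat_lit 17462967794) (nat_lit 532) (nat_lit 49856949982) (nat_lit 76) (nat_lit 30886200066) (nat_lit 176) (nat_lit 5) (nat_lit 183) (nat_lit 5) (nat_lit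 177) (nat_lit 5) (nat_lit 464) (nat_lit 428) (nat_lit 128)))) (XT.nd (nat_lit 156) (nat_lit 0) (nat_lit 76) (XT.nd (nat_lit 78) (nat_lit 0) (nat_lit 0) (XT.lf (nat_lit 0) (nat_lit 8735474741) (nat_lit 1292) (nat_lit 9753897875) (nat_lit 1292) (nat_lit 9753897875) (nat_lit 257) (nat_lit 3) (nat_lit 274) (nat_lit 3) (nat_lit 274) (nat_lit 5) (nat_lit 429) (nat_lit 429) (nat_lit 162)) (XT.lf (nat_lit 76) (nat_lit 8100309610) (nat_lit 0) (nat_lit 9730829480) (nat_lit 1292) (nat_lit 39499749620) (nat_lit 258) (nat_lit 5) (nat_lit 257) (nat_lit 3) (nat_lit 274) (nat_lit 5) (nat_lit 430) (nat_lit 429) (nat_lit 161))) (XT.nd (nat_lit 78) (nat_lit 0) (nat_lit 0) (XT.lf (nat_lit 0) (nat_lit 18576526884) (nat_lit 1216) (nat_lit 21436744587) (nat_lit 1292) (nat_lit 18176063882) (nat_lit 258) (nat_lit 5) (nat_lit 274) (nat_lit 5) (nat_lit 275) (nat_lit 5) (nat_lit 431) (nat_lit 429) (nat_lit 160)) (XT.lf (nat_lit 76) (nat_lit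 7235316925) (nat_lit 0) (nat_lit 12274086517) (nat_lit 1292) (nat_lit 39559178390) (nat_lit 259) (nat_lit 5) (nat_lit 258) (nat_lit 5) (nat_lit 275) (nat_lit 5) (nat_lit 432) (nat_lit 429) (nat_lit 159))))))))
noncomputable def xc249 : XT := (XT.nd (nat_lit 2262) (nat_lit 456) (nat_lit 0) (XT.nd (nat_lit 1092) (nat_lit 4560) (nat_lit 0) (XT.nd (nat_lit 546) (nat_lit 760) (nat_lit 0) (XT.nd (nat_lit 234) (nat_lit 0) (nat_lit 76) (XT.nd (nat_lit 78) (nat_lit 0) (nat_lit 0) (XT.lf (nat_lit 0) (nat_lit 20844791388) (nat_lit 1216) (nat_lit 22919993640) (nat_lit 1292) (nat_lit 16198185169) (nat_lit 259) (nat_lit 5) (nat_lit 275) (nat_lit 5) (nat_lit 276) (nat_lit 5) (nat_lit 433) (nat_lit 429) (nat_lit 158)) (XT.nd (nat_lit 78) (nat_lit 0) (nat_lit 76) (XT.lf (nat_lit 76) (nat_lit 6872824975) (nat_lit 0) (nat_lit 15534282526) (nat_lit 1292) (nat_lit 38471476953) (nat_lit 260) (nat_lit 5) (nat_lit 259) (nat_lit 5) (nat_lit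 276) (nat_lit 5) (nat_lit 434) (nat_lit 429) (nat_lit 157)) (XT.lf (nat_lit 0) (nat_lit 24379511236) (nat_lit 1216) (nat_lit 23918393178) (nat_lit 1292) (nat_lit 13512866410) (nat_lit 260) (nat_lit 5) (nat_lit 276) (nat_lit 5) (nat_lit 277) (nat_lit 5) (nat_lit 435) (nat_lit 429) (nat_lit 156)))) (XT.nd (nat_lit 156) (nat_lit 0) (nat_lit 76) (XT.nd (nat_lit 78) (nat_lit 0) (nat_lit 76) (XT.lf (nat_lit 76) (nat_lit 7055012857) (nat_lit 0) (nat_lit 19577011334) (nat_lit 1292) (nat_lit 36132270704) (nat_lit 261) (nat_lit 5) (nat_lit 260) (nat_lit 5) (nat_lit 277) (nat_lit 5) (nat_lit 436) (nat_lit 429) (nat_lit 155)) (XT.lf (nat_lit 0) (nat_lit 29291544985) (nat_lit 1216) (nat_lit 24390287889) (nat_lit 1292) (nat_lit 10054409057) (nat_lit 261) (nat_lit 5) (nat_lit 277) (nat_lit 5) (nat_lit 278) (nat_lit 5) (nat_lit 437) (nat_lit 429) (nat_lit 154))) (XT.nd (nat_lit 78) (nat_lit 0) (nat_lit 76) (XT.lf (nat_lit 76)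 (nat_lit 7826722013) (nat_lit 0) (nat_lit 24472548980) (nat_lit 1292) (nat_lit 32430024008) (nat_lit 262) (nat_lit 5) (nat_lit 261) (nat_lit 5) (nat_lit 278) (nat_lit 5) (nat_lit 438) (nat_lit 429) (nat_lit 153)) (XT.lf (nat_lit 0) (nat_lit 35699286074) (nat_lit 1216) (nat_lit 24291392307) (nat_lit 1292) (nat_lit 5752399767) (nat_lit 262) (nat_lit 5) (nat_lit 278) (nat_lit 5) (nat_lit 279) (nat_lit 5) (nat_lit 439) (nat_lit 429) (nat_lit 152))))) (XT.nd (nat_lit 234) (nat_lit 988) (nat_lit 0) (XT.nd (nat_lit 78) (nat_lit 0) (nat_lit 76) (XT.lf (nat_lit 76) (nat_lit 9235588108) (nat_lit 0) (nat_lit 30296181403) (nat_lit 1292) (nat_lit 27245591441) (nat_lit 263) (nat_lit 5) (nat_lit 262) (nat_lit 5) (nat_lit 279) (nat_lit 5) (nat_lit 440) (nat_lit 429) (nat_lit 151)) (XT.nd (nat_lit 78) (nat_lit 0) (nat_lit 0) (XT.lf (nat_lit 0) (nat_lit 43729133341) (nat_lit 1216) (nat_lit 23574661859) (nat_lit 1292) (nat_lit 531380053)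 (nat_lit 263) (nat_lit 5) (nat_lit 279) (nat_lit 5) (nat_lit 280) (nat_lit 5) (nat_lit 441) (nat_lit 429) (nat_lit 150)) (XT.lf (nat_lit 76) (nat_lit 11332177505) (nat_lit 0) (nat_lit 37128554304) (nat_lit 1292) (nat_lit 20451742951) (nat_lit 264) (nat_lit 5) (nat_lit 263) (nat_lit 5) (nat_lit 280) (nat_lit 5) (nat_lit 442) (nat_lit 429) (nat_lit 149)))) (XT.nd (nat_lit 156) (nat_lit 1064) (nat_lit 0) (XT.nd (nat_lit 78) (nat_lit 0) (nat_lit 76) (XT.lf (nat_lit 76) (nat_lit 47769029605) (nat_lit 0) (nat_lit 5802738772) (nat_lit 1292) (nat_lit 16443200353) (nat_lit 264) (nat_lit 5) (nat_lit 263) (nat_lit 5) (nat_lit 280) (nat_lit 5) (nat_lit 443) (nat_lit 429) (nat_lit 148)) (XT.lf (nat_lit 76) (nat_lit 14170128265) (nat_lit 0) (nat_lit 45056046752) (nat_lit 1292) (nat_lit 11912661507) (nat_lit 265) (nat_lit 5) (nat_lit 264) (nat_lit 5) (nat_lit 281) (nat_lit 5) (nat_lit 444) (nat_lit 429) (nat_lit 147))) (XT.nd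 (nat_lit 78) (nat_lit 1140) (nat_lit 0) (XT.lf (nat_lit 76) (nat_lit 52075651185) (nat_lit 0) (nat_lit 13255554249) (nat_lit 1292) (nat_lit 6956785343) (nat_lit 265) (nat_lit 5) (nat_lit 264) (nat_lit 5) (nat_lit 281) (nat_lit 5) (nat_lit 445) (nat_lit 429) (nat_lit 146)) (XT.lf (nat_lit 0) (nat_lit 17806295519) (nat_lit 1216) (nat_lit 54171170234) (nat_lit 1292) (nat_lit 1483411700) (nat_lit 249) (nat_lit 5) (nat_lit 265) (nat_lit 5) (nat_lit 266) (nat_lit 5) (nat_lit 446) (nat_lit 429) (nat_lit 145)))))) (XT.nd (nat_lit 546) (nat_lit 2584) (nat_lit 0) (XT.nd (nat_lit 234) (nat_lit 1216) (nat_lit 0) (XT.nd (nat_lit 78) (nat_lit 684) (nat_lit 0) (XT.lf (nat_lit 0) (nat_lit 4409953199) (nat_lit 1292) (nat_lit 17456660755) (nat_lit 76) (nat_lit 52791033379) (nat_lit 248) (nat_lit 5) (nat_lit 265) (nat_lit 5) (nat_lit 249) (nat_lit 5) (nat_lit 447) (nat_lit 429) (nat_lit 144)) (XT.nd (nat_lit 78) (nat_lit 0) (nat_lit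 0) (XT.lf (nat_lit 0) (nat_lit 10776155621) (nat_lit 760) (nat_lit 53688021297) (nat_lit 76) (nat_lit 11415927377) (nat_lit 239) (nat_lit 5) (nat_lit 249) (nat_lit 5) (nat_lit 240) (nat_lit 5) (nat_lit 448) (nat_lit 429) (nat_lit 143)) (XT.lf (nat_lit 0) (nat_lit 17727378254) (nat_lit 760) (nat_lit 13964516854) (nat_lit 76) (nat_lit 45435518978) (nat_lit 239) (nat_lit 5) (nat_lit 249) (nat_lit 5) (nat_lit 240) (nat_lit 5) (nat_lit 449) (nat_lit 429) (nat_lit 142)))) (XT.nd (nat_lit 156) (nat_lit 608) (nat_lit 0) (XT.nd (nat_lit 78) (nat_lit 0) (nat_lit 0) (XT.lf (nat_lit 0) (nat_lit 25173332097) (nat_lit 684) (nat_lit 50940071979) (nat_lit 76) (nat_lit 2290153405) (nat_lit 231) (nat_lit 5) (nat_lit 240) (nat_lit 5) (nat_lit 232) (nat_lit 5) (nat_lit 450) (nat_lit 429) (nat_lit 141)) (XT.lf (nat_lit 0) (nat_lit 33298389935) (nat_lit 684) (nat_lit 9608799225) (nat_lit 76) (nat_lit 36797124395) (nat_lit 231) (nat_lit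 5) (nat_lit 240) (nat_lit 5) (nat_lit 232) (nat_lit 5) (nat_lit 451) (nat_lit 429) (nat_lit 140))) (XT.nd (nat_lit 78) (nat_lit 0) (nat_lit 0) (XT.lf (nat_lit 0) (nat_lit 33617978796) (nat_lit 608) (nat_lit 8371924686) (nat_lit 684) (nat_lit 39044507844) (nat_lit 223) (nat_lit 5) (nat_lit 231) (nat_lit 5) (nat_lit 232) (nat_lit 5) (nat_lit 452) (nat_lit 429) (nat_lit 139)) (XT.lf (nat_lit 0) (nat_lit 51301166865) (nat_lit 684) (nat_lit 4325837905) (nat_lit 76) (nat_lit 26766637257) (nat_lit 223) (nat_lit 5) (nat_lit 232) (nat_lit 5) (nat_lit 224) (nat_lit 5) (nat_lit 453) (nat_lit 429) (nat_lit 138))))) (XT.nd (nat_lit 312) (nat_lit 988) (nat_lit 0) (XT.nd (nat_lit 156) (nat_lit 532) (nat_lit 0) (XT.nd (nat_lit 78) (nat_lit 532) (nat_lit 0) (XT.lf (nat_lit 0) (nat_lit 40769711278) (nat_lit 532) (nat_lit 20596419994) (nat_lit 608) (nat_lit 22413287614) (nat_lit 216) (nat_lit 5) (nat_lit 223) (nat_lit 5) (nat_lit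 224) (nat_lit 5) (nat_lit 454) (nat_lit 429) (nat_lit 137)) (XT.lf (nat_lit 0) (nat_lit 1990454900) (nat_lit 532) (nat_lit 69954267903) (nat_lit 608) (nat_lit 13255696024) (nat_lit 209) (nat_lit 5) (nat_lit 216) (nat_lit 5) (nat_lit 217) (nat_lit 5) (nat_lit 455) (nat_lit 429) (nat_lit 136))) (XT.nd (nat_lit 78) (nat_lit 532) (nat_lit 0) (XT.lf (nat_lit 0) (nat_lit 49013854774) (nat_lit 532) (nat_lit 34462642427) (nat_lit 608) (nat_lit 3168476930) (nat_lit 209) (nat_lit 5) (nat_lit 216) (nat_lit 5) (nat_lit 217) (nat_lit 5) (nat_lit 456) (nat_lit 429) (nat_lit 135)) (XT.lf (nat_lit 0) (nat_lit 7192387950) (nat_lit 532) (nat_lit 78720550833) (nat_lit 76) (nat_lit 2214486624) (nat_lit 202) (nat_lit 5) (nat_lit 209) (nat_lit 5) (nat_lit 203) (nat_lit 5) (nat_lit 457) (nat_lit 429) (nat_lit 134)))) (XT.nd (nat_lit 156) (nat_lit 456) (nat_lit 0) (XT.nd (nat_lit 78) (nat_lit 532) (nat_lit 0) (XT.lf (nat_lit 0) (nat_lit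 18524973762) (nat_lit 532) (nat_lit 31392332271) (nat_lit 76) (nat_lit 39714365820) (nat_lit 202) (nat_lit 5) (nat_lit 209) (nat_lit 5) (nat_lit 203) (nat_lit 5) (nat_lit 458) (nat_lit 429) (nat_lit 133)) (XT.lf (nat_lit 0) (nat_lit 17700706591) (nat_lit 532) (nat_lit 12666593249) (nat_lit 608) (nat_lit 60808653076) (nat_lit 195) (nat_lit 5) (nat_lit 202) (nat_lit 5) (nat_lit 203) (nat_lit 5) (nat_lit 459) (nat_lit 429) (nat_lit 132))) (XT.nd (nat_lit 78) (nat_lit 456) (nat_lit 0) (XT.lf (nat_lit 0) (nat_lit 43131714631) (nat_lit 608) (nat_lit 24097639883) (nat_lit 76) (nat_lit 25520203434) (nat_lit 195) (nat_lit 5) (nat_lit 203) (nat_lit 5) (nat_lit 196) (nat_lit 5) (nat_lit 460) (nat_lit 429) (nat_lit 131)) (XT.lf (nat_lit 0) (nat_lit 27165555890) (nat_lit 456) (nat_lit 29499680222) (nat_lit 532) (nat_lit 37693549892) (nat_lit 189) (nat_lit 5) (nat_lit 195) (nat_lit 5) (nat_lit 196) (nat_lit 5) (nat_lit 461)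 (nat_lit 429) (nat_lit 130))))))) (XT.nd (nat_lit 51558) (nat_lit 0) (nat_lit 1976) (XT.nd (nat_lit 51012) (nat_lit 0) (nat_lit 5776) (XT.nd (nat_lit 50700) (nat_lit 0) (nat_lit 5624) (XT.nd (nat_lit 78) (nat_lit 456) (nat_lit 0) (XT.lf (nat_lit 0) (nat_lit 70940140259) (nat_lit 532) (nat_lit 15641197808) (nat_lit 76) (nat_lit 9424891622) (nat_lit 189) (nat_lit 5) (nat_lit 196) (nat_lit 5) (nat_lit 190) (nat_lit 5) (nat_lit 462) (nat_lit 429) (nat_lit 129)) (XT.nd (nat_lit 50544) (nat_lit 0) (nat_lit 5624) (XT.lf (nat_lit 0) (nat_lit 37904555234) (nat_lit 456) (nat_lit 48394821345) (nat_lit 532) (nat_lit 11384037646) (nat_lit 183) (nat_lit 5) (nat_lit 189) (nat_lit 5) (nat_lit 190) (nat_lit 5) (nat_lit 463) (nat_lit 429) (nat_lit 128)) (XT.lf (nat_lit 0) (nat_lit 9017604464) (nat_lit 1292) (nat_lit 10036177807) (nat_lit 1292) (nat_lit 10036177807) (nat_lit 257) (nat_lit 3) (nat_lit 274) (nat_lit 3) (nat_lit 274)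 (nat_lit 5) (nat_lit 430) (nat_lit 430) (nat_lit 160)))) (XT.nd (nat_lit 156) (nat_lit 0) (nat_lit 76) (XT.nd (nat_lit 78) (nat_lit 0) (nat_lit 76) (XT.lf (nat_lit 76) (nat_lit 8363790220) (nat_lit 0) (nat_lit 10041441925) (nat_lit 1292) (nat_lit 40644395718) (nat_lit 258) (nat_lit 5) (nat_lit 257) (nat_lit 3) (nat_lit 274) (nat_lit 5) (nat_lit 431) (nat_lit 430) (nat_lit 159)) (XT.lf (nat_lit 0) (nat_lit 19171666618) (nat_lit 1216) (nat_lit 22058644529) (nat_lit 1292) (nat_lit 18703556576) (nat_lit 258) (nat_lit 5) (nat_lit 274) (nat_lit 5) (nat_lit 275) (nat_lit 5) (nat_lit 432) (nat_lit 430) (nat_lit 158))) (XT.nd (nat_lit 78) (nat_lit 0) (nat_lit 76) (XT.lf (nat_lit 76) (nat_lit 7473370961) (nat_lit 0) (nat_lit 12658258074) (nat_lit 1292) (nat_lit 40707889936) (nat_lit 259) (nat_lit 5) (nat_lit 258) (nat_lit 5) (nat_lit 275) (nat_lit 5) (nat_lit 433) (nat_lit 430) (nat_lit 157)) (XT.lf (nat_lit 0) (nat_lit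 21505853750) (nat_lit 1216) (nat_lit 23585973881) (nat_lit 1292) (nat_lit 16668948453) (nat_lit 259) (nat_lit 5) (nat_lit 275) (nat_lit 5) (nat_lit 276) (nat_lit 5) (nat_lit 434) (nat_lit 430) (nat_lit 156))))) (XT.nd (nat_lit 234) (nat_lit 0) (nat_lit 152) (XT.nd (nat_lit 78) (nat_lit 0) (nat_lit 76) (XT.lf (nat_lit 76) (nat_lit 7100417336) (nat_lit 0) (nat_lit 16013787445) (nat_lit 1292) (nat_lit 39589679363) (nat_lit 260) (nat_lit 5) (nat_lit 259) (nat_lit 5) (nat_lit 276) (nat_lit 5) (nat_lit 435) (nat_lit 430) (nat_lit 155)) (XT.nd (nat_lit 78) (nat_lit 0) (nat_lit 0) (XT.lf (nat_lit 0) (nat_lit 25144638817) (nat_lit 1216) (nat_lit 24614008081) (nat_lit 1292) (nat_lit 13905423792) (nat_lit 260) (nat_lit 5) (nat_lit 276) (nat_lit 5) (nat_lit 277) (nat_lit 5) (nat_lit 436) (nat_lit 430) (nat_lit 154)) (XT.lf (nat_lit 76) (nat_lit 7288385067) (nat_lit 0) (nat_lit 20175568113) (nat_lit 1292) (nat_lit 37182270842)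 (nat_lit 261) (nat_lit 5) (nat_lit 260) (nat_lit 5) (nat_lit 277) (nat_lit 5) (nat_lit 437) (nat_lit 430) (nat_lit 153)))) (XT.nd (nat_lit 156) (nat_lit 0) (nat_lit 76) (XT.nd (nat_lit 78) (nat_lit 0) (nat_lit 0) (XT.lf (nat_lit 0) (nat_lit 30202194398) (nat_lit 1216) (nat_lit 25099831815) (nat_lit 1292) (nat_lit 10345335523) (nat_lit 261) (nat_lit 5) (nat_lit 277) (nat_lit 5) (nat_lit 278) (nat_lit 5) (nat_lit 438) (nat_lit 430) (nat_lit 152)) (XT.lf (nat_lit 76) (nat_lit 8083471083) (nat_lit 0) (nat_lit 25215962860) (nat_lit 1292) (nat_lit 33370794304) (nat_lit 262) (nat_lit 5) (nat_lit 261) (nat_lit 5) (nat_lit 278) (nat_lit 5) (nat_lit 439) (nat_lit 430) (nat_lit 151))) (XT.nd (nat_lit 78) (nat_lit 0) (nat_lit 0) (XT.lf (nat_lit 0) (nat_lit 36800454972) (nat_lit 1216) (nat_lit 24997821640) (nat_lit 1292) (nat_lit 5916178405) (nat_lit 262) (nat_lit 5) (nat_lit 278) (nat_lit 5) (nat_lit 279) (nat_lit 5) (nat_lit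 440) (nat_lit 430) (nat_lit 150)) (XT.lf (nat_lit 76) (nat_lit 9534749437) (nat_lit 0) (nat_lit 31212496522) (nat_lit 1292) (nat_lit 28032540637) (nat_lit 263) (nat_lit 5) (nat_lit 262) (nat_lit 5) (nat_lit 279) (nat_lit 5) (nat_lit 441) (nat_lit 430) (nat_lit 149)))))) (XT.nd (nat_lit 546) (nat_lit 2964) (nat_lit 0) (XT.nd (nat_lit 234) (nat_lit 1140) (nat_lit 0) (XT.nd (nat_lit 78) (nat_lit 0) (nat_lit 0) (XT.lf (nat_lit 0) (nat_lit 45069601463) (nat_lit 1216) (nat_lit 24259513086) (nat_lit 1292) (nat_lit 540248933) (nat_lit 263) (nat_lit 5) (nat_lit 279) (nat_lit 5) (nat_lit 280) (nat_lit 5) (nat_lit 442) (nat_lit 430) (nat_lit 148)) (XT.nd (nat_lit 78) (nat_lit 0) (nat_lit 0) (XT.lf (nat_lit 76) (nat_lit 11694311963) (nat_lit 0) (nat_lit 38248216187) (nat_lit 1292) (nat_lit 21036472685) (nat_lit 264) (nat_lit 5) (nat_lit 263) (nat_lit 5) (nat_lit 280) (nat_lit 5) (nat_lit 443) (nat_lit 430) (nat_lit 147)) (XT.lf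 (nat_lit 76) (nat_lit 49223623922) (nat_lit 0) (nat_lit 5982457104) (nat_lit 1292) (nat_lit 16908513300) (nat_lit 264) (nat_lit 5) (nat_lit 263) (nat_lit 5) (nat_lit 280) (nat_lit 5) (nat_lit 444) (nat_lit 430) (nat_lit 146)))) (XT.nd (nat_lit 156) (nat_lit 1216) (nat_lit 0) (XT.nd (nat_lit 78) (nat_lit 0) (nat_lit 0) (XT.lf (nat_lit 76) (nat_lit 14617413568) (nat_lit 0) (nat_lit 46412075864) (nat_lit 1292) (nat_lit 12242707889) (nat_lit 265) (nat_lit 5) (nat_lit 264) (nat_lit 5) (nat_lit 281) (nat_lit 5) (nat_lit 445) (nat_lit 430) (nat_lit 145)) (XT.lf (nat_lit 76) (nat_lit 53659456113) (nat_lit 0) (nat_lit 13657441953) (nat_lit 1292) (nat_lit 7138951561) (nat_lit 265) (nat_lit 5) (nat_lit 264) (nat_lit 5) (nat_lit 281) (nat_lit 5) (nat_lit 446) (nat_lit 430) (nat_lit 144))) (XT.nd (nat_lit 78) (nat_lit 76) (nat_lit 0) (XT.lf (nat_lit 0) (nat_lit 18362622041) (nat_lit 1216) (nat_lit 55799347372) (nat_lit 1292)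 (nat_lit 1501971032) (nat_lit 249) (nat_lit 5) (nat_lit 265) (nat_lit 5) (nat_lit 266) (nat_lit 5) (nat_lit 447) (nat_lit 430) (nat_lit 143)) (XT.lf (nat_lit 0) (nat_lit 4566947696) (nat_lit 1292) (nat_lit 17958368725) (nat_lit 76) (nat_lit 54371311971) (nat_lit 248) (nat_lit 5) (nat_lit 265) (nat_lit 5) (nat_lit 249) (nat_lit 5) (nat_lit 448) (nat_lit 430) (nat_lit 142))))) (XT.nd (nat_lit 312) (nat_lit 1672) (nat_lit 0) (XT.nd (nat_lit 156) (nat_lit 608) (nat_lit 0) (XT.nd (nat_lit 78) (nat_lit 0) (nat_lit 0) (XT.lf (nat_lit 0) (nat_lit 11123603055) (nat_lit 760) (nat_lit 55276129681) (nat_lit 76) (nat_lit 11756042537) (nat_lit 239) (nat_lit 5) (nat_lit 249) (nat_lit 5) (nat_lit 240) (nat_lit 5) (nat_lit 449) (nat_lit 430) (nat_lit 141)) (XT.lf (nat_lit 0) (nat_lit 18282658598) (nat_lit 760) (nat_lit 14361576385) (nat_lit 76) (nat_lit 46796290702) (nat_lit 239) (nat_lit 5) (nat_lit 249) (nat_lit 5) (nat_lit 240)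 (nat_lit 5) (nat_lit 450) (nat_lit 430) (nat_lit 140))) (XT.nd (nat_lit 78) (nat_lit 0) (nat_lit 0) (XT.lf (nat_lit 0) (nat_lit 25951503296) (nat_lit 684) (nat_lit 52445903553) (nat_lit 76) (nat_lit 2357561370) (nat_lit 231) (nat_lit 5) (nat_lit 240) (nat_lit 5) (nat_lit 232) (nat_lit 5) (nat_lit 451) (nat_lit 430) (nat_lit 139)) (XT.lf (nat_lit 0) (nat_lit 34319643803) (nat_lit 684) (nat_lit 9875344187) (nat_lit 76) (nat_lit 37899779256) (nat_lit 231) (nat_lit 5) (nat_lit 240) (nat_lit 5) (nat_lit 232) (nat_lit 5) (nat_lit 452) (nat_lit 430) (nat_lit 138)))) (XT.nd (nat_lit 156) (nat_lit 1064) (nat_lit 0) (XT.nd (nat_lit 78) (nat_lit 0) (nat_lit 0) (XT.lf (nat_lit 0) (nat_lit 34648024243) (nat_lit 608) (nat_lit 8623435666) (nat_lit 684) (nat_lit 40193321520) (nat_lit 223) (nat_lit 5) (nat_lit 231) (nat_lit 5) (nat_lit 232) (nat_lit 5) (nat_lit 453) (nat_lit 430) (nat_lit 137)) (XT.lf (nat_lit 0) (nat_lit 52861421218)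 (nat_lit 684) (nat_lit 4434087106) (nat_lit 76) (nat_lit 27569300117) (nat_lit 223) (nat_lit 5) (nat_lit 232) (nat_lit 5) (nat_lit 224) (nat_lit 5) (nat_lit 454) (nat_lit 430) (nat_lit 136))) (XT.nd (nat_lit 78) (nat_lit 532) (nat_lit 0) (XT.lf (nat_lit 0) (nat_lit 42014117514) (nat_lit 532) (nat_lit 21213803894) (nat_lit 608) (nat_lit 23064249772) (nat_lit 216) (nat_lit 5) (nat_lit 223) (nat_lit 5) (nat_lit 224) (nat_lit 5) (nat_lit 455) (nat_lit 430) (nat_lit 135)) (XT.lf (nat_lit 0) (nat_lit 2071893726) (nat_lit 532) (nat_lit 72051584537) (nat_lit 608) (nat_lit 13632334806) (nat_lit 209) (nat_lit 5) (nat_lit 216) (nat_lit 5) (nat_lit 217) (nat_lit 5) (nat_lit 456) (nat_lit 430) (nat_lit 134))))))))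
noncomputable def xc250 : XT := (XT.nd (nat_lit 52806) (nat_lit 0) (nat_lit 456) (XT.nd (nat_lit 51636) (nat_lit 0) (nat_lit 3192) (XT.nd (nat_lit 51090) (nat_lit 0) (nat_lit 5168) (XT.nd (nat_lit 234) (nat_lit 988) (nat_lit 0) (XT.nd (nat_lit 78) (nat_lit 532) (nat_lit 0) (XT.lf (nat_lit 0) (nat_lit 50505362825) (nat_lit 532) (nat_lit 35495248493) (nat_lit 608) (nat_lit 3243111725) (nat_lit 209) (nat_lit 5) (nat_lit 216) (nat_lit 5) (nat_lit 217) (nat_lit 5) (nat_lit 457) (nat_lit 430) (nat_lit 133)) (XT.nd (nat_lit 78) (nat_lit 0) (nat_lit 0) (XT.lf (nat_lit 0) (nat_lit 7427817912) (nat_lit 532) (nat_lit 81060302785) (nat_lit 76) (nat_lit 2282532316) (nat_lit 202) (nat_lit 5) (nat_lit 209) (nat_lit 5) (nat_lit 203) (nat_lit 5) (nat_lit 458) (nat_lit 430) (nat_lit 132)) (XT.lf (nat_lit 0) (nat_lit 19099808726) (nat_lit 532) (nat_lit 32312874497) (nat_lit 76) (nat_lit 40907360963) (nat_lit 202) (nat_lit 5) (nat_lit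 209) (nat_lit 5) (nat_lit 203) (nat_lit 5) (nat_lit 459) (nat_lit 430) (nat_lit 131)))) (XT.nd (nat_lit 156) (nat_lit 456) (nat_lit 0) (XT.nd (nat_lit 78) (nat_lit 0) (nat_lit 0) (XT.lf (nat_lit 0) (nat_lit 18252747415) (nat_lit 532) (nat_lit 13044303329) (nat_lit 608) (nat_lit 62613613705) (nat_lit 195) (nat_lit 5) (nat_lit 202) (nat_lit 5) (nat_lit 203) (nat_lit 5) (nat_lit 460) (nat_lit 430) (nat_lit 130)) (XT.lf (nat_lit 0) (nat_lit 44443873739) (nat_lit 608) (nat_lit 24799632488) (nat_lit 76) (nat_lit 26287987281) (nat_lit 195) (nat_lit 5) (nat_lit 203) (nat_lit 5) (nat_lit 196) (nat_lit 5) (nat_lit 461) (nat_lit 430) (nat_lit 129))) (XT.nd (nat_lit 78) (nat_lit 0) (nat_lit 0) (XT.lf (nat_lit 0) (nat_lit 28001253898) (nat_lit 456) (nat_lit 30381815929) (nat_lit 532) (nat_lit 38805938655) (nat_lit 189) (nat_lit 5) (nat_lit 195) (nat_lit 5) (nat_lit 196) (nat_lit 5) (nat_lit 462) (nat_lit 430) (nat_lit 128))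 (XT.lf (nat_lit 0) (nat_lit 73085727061) (nat_lit 532) (nat_lit 16089807535) (nat_lit 76) (nat_lit 9710355841) (nat_lit 189) (nat_lit 5) (nat_lit 196) (nat_lit 5) (nat_lit 190) (nat_lit 5) (nat_lit 463) (nat_lit 430) (nat_lit 127))))) (XT.nd (nat_lit 234) (nat_lit 0) (nat_lit 76) (XT.nd (nat_lit 78) (nat_lit 0) (nat_lit 0) (XT.lf (nat_lit 0) (nat_lit 9307046238) (nat_lit 1292) (nat_lit 10327519524) (nat_lit 1292) (nat_lit 10327519524) (nat_lit 257) (nat_lit 3) (nat_lit 274) (nat_lit 3) (nat_lit 274) (nat_lit 5) (nat_lit 431) (nat_lit 431) (nat_lit 158)) (XT.nd (nat_lit 78) (nat_lit 0) (nat_lit 76) (XT.lf (nat_lit 76) (nat_lit 8634000110) (nat_lit 0) (nat_lit 10360300000) (nat_lit 1292) (nat_lit 41825697246) (nat_lit 258) (nat_lit 5) (nat_lit 257) (nat_lit 3) (nat_lit 274) (nat_lit 5) (nat_lit 432) (nat_lit 431) (nat_lit 157)) (XT.lf (nat_lit 0) (nat_lit 19782488149) (nat_lit 1216) (nat_lit 22700418574) (nat_lit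 1292) (nat_lit 19247895226) (nat_lit 258) (nat_lit 5) (nat_lit 274) (nat_lit 5) (nat_lit 275) (nat_lit 5) (nat_lit 433) (nat_lit 431) (nat_lit 156)))) (XT.nd (nat_lit 156) (nat_lit 0) (nat_lit 76) (XT.nd (nat_lit 78) (nat_lit 0) (nat_lit 76) (XT.lf (nat_lit 76) (nat_lit 7717361447) (nat_lit 0) (nat_lit 13053039242) (nat_lit 1292) (nat_lit 41893247847) (nat_lit 259) (nat_lit 5) (nat_lit 258) (nat_lit 5) (nat_lit 275) (nat_lit 5) (nat_lit 434) (nat_lit 431) (nat_lit 155)) (XT.lf (nat_lit 0) (nat_lit 22184697587) (nat_lit 1216) (nat_lit 24273174581) (nat_lit 1292) (nat_lit 17154706159) (nat_lit 259) (nat_lit 5) (nat_lit 275) (nat_lit 5) (nat_lit 276) (nat_lit 5) (nat_lit 435) (nat_lit 431) (nat_lit 154))) (XT.nd (nat_lit 78) (nat_lit 0) (nat_lit 76) (XT.lf (nat_lit 76) (nat_lit 7333608584) (nat_lit 0) (nat_lit 16506903908) (nat_lit 1292) (nat_lit 40743491058) (nat_lit 260) (nat_lit 5) (nat_lit 259) (nat_lit 5) (nat_lit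 276) (nat_lit 5) (nat_lit 436) (nat_lit 431) (nat_lit 153)) (XT.lf (nat_lit 0) (nat_lit 25930783283) (nat_lit 1216) (nat_lit 25331750699) (nat_lit 1292) (nat_lit 14310494309) (nat_lit 260) (nat_lit 5) (nat_lit 276) (nat_lit 5) (nat_lit 277) (nat_lit 5) (nat_lit 437) (nat_lit 431) (nat_lit 152)))))) (XT.nd (nat_lit 546) (nat_lit 2204) (nat_lit 0) (XT.nd (nat_lit 234) (nat_lit 0) (nat_lit 152) (XT.nd (nat_lit 78) (nat_lit 0) (nat_lit 76) (XT.lf (nat_lit 76) (nat_lit 7527511522) (nat_lit 0) (nat_lit 20791436004) (nat_lit 1292) (nat_lit 38265720885) (nat_lit 261) (nat_lit 5) (nat_lit 260) (nat_lit 5) (nat_lit 277) (nat_lit 5) (nat_lit 438) (nat_lit 431) (nat_lit 151)) (XT.nd (nat_lit 78) (nat_lit 0) (nat_lit 0) (XT.lf (nat_lit 0) (nat_lit 31138331928) (nat_lit 1216) (nat_lit 25831934404) (nat_lit 1292) (nat_lit 10645604340) (nat_lit 261) (nat_lit 5) (nat_lit 277) (nat_lit 5) (nat_lit 278) (nat_lit 5) (nat_lit 439)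 (nat_lit 431) (nat_lit 150)) (XT.lf (nat_lit 76) (nat_lit 8346662754) (nat_lit 0) (nat_lit 25981148891) (nat_lit 1292) (nat_lit 34341632127) (nat_lit 262) (nat_lit 5) (nat_lit 261) (nat_lit 5) (nat_lit 278) (nat_lit 5) (nat_lit 440) (nat_lit 431) (nat_lit 149)))) (XT.nd (nat_lit 156) (nat_lit 0) (nat_lit 76) (XT.nd (nat_lit 78) (nat_lit 0) (nat_lit 0) (XT.lf (nat_lit 0) (nat_lit 37932925889) (nat_lit 1216) (nat_lit 25726724679) (nat_lit 1292) (nat_lit 6085375177) (nat_lit 262) (nat_lit 5) (nat_lit 278) (nat_lit 5) (nat_lit 279) (nat_lit 5) (nat_lit 441) (nat_lit 431) (nat_lit 148)) (XT.lf (nat_lit 76) (nat_lit 9841617339) (nat_lit 0) (nat_lit 32155874601) (nat_lit 1292) (nat_lit 28844844459) (nat_lit 263) (nat_lit 5) (nat_lit 262) (nat_lit 5) (nat_lit 279) (nat_lit 5) (nat_lit 442) (nat_lit 431) (nat_lit 147))) (XT.nd (nat_lit 78) (nat_lit 0) (nat_lit 0) (XT.lf (nat_lit 0) (nat_lit 46448642209) (nat_lit 1216) (nat_lit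 24966195049) (nat_lit 1292) (nat_lit 549789871) (nat_lit 263) (nat_lit 5) (nat_lit 279) (nat_lit 5) (nat_lit 280) (nat_lit 5) (nat_lit 443) (nat_lit 431) (nat_lit 146)) (XT.lf (nat_lit 76) (nat_lit 12066037855) (nat_lit 0) (nat_lit 39401134681) (nat_lit 1292) (nat_lit 21640398842) (nat_lit 264) (nat_lit 5) (nat_lit 263) (nat_lit 5) (nat_lit 280) (nat_lit 5) (nat_lit 444) (nat_lit 431) (nat_lit 145))))) (XT.nd (nat_lit 312) (nat_lit 1368) (nat_lit 0) (XT.nd (nat_lit 156) (nat_lit 1064) (nat_lit 0) (XT.nd (nat_lit 78) (nat_lit 0) (nat_lit 76) (XT.lf (nat_lit 76) (nat_lit 50720620537) (nat_lit 0) (nat_lit 6167243447) (nat_lit 1292) (nat_lit 17389391978) (nat_lit 264) (nat_lit 5) (nat_lit 263) (nat_lit 5) (nat_lit 280) (nat_lit 5) (nat_lit 445) (nat_lit 431) (nat_lit 144)) (XT.lf (nat_lit 76) (nat_lit 15076844123) (nat_lit 0) (nat_lit 47808536272) (nat_lit 1292) (nat_lit 12584224716) (nat_lit 265) (nat_lit 5) (nat_lit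 264) (nat_lit 5) (nat_lit 281) (nat_lit 5) (nat_lit 446) (nat_lit 431) (nat_lit 143))) (XT.nd (nat_lit 78) (nat_lit 1140) (nat_lit 0) (XT.lf (nat_lit 76) (nat_lit 55289538970) (nat_lit 0) (nat_lit 14071143981) (nat_lit 1292) (nat_lit 7328106117) (nat_lit 265) (nat_lit 5) (nat_lit 264) (nat_lit 5) (nat_lit 281) (nat_lit 5) (nat_lit 447) (nat_lit 431) (nat_lit 142)) (XT.lf (nat_lit 0) (nat_lit 18934367567) (nat_lit 1216) (nat_lit 57476195199) (nat_lit 1292) (nat_lit 1522576379) (nat_lit 249) (nat_lit 5) (nat_lit 265) (nat_lit 5) (nat_lit 266) (nat_lit 5) (nat_lit 448) (nat_lit 431) (nat_lit 141)))) (XT.nd (nat_lit 156) (nat_lit 608) (nat_lit 0) (XT.nd (nat_lit 78) (nat_lit 684) (nat_lit 0) (XT.lf (nat_lit 0) (nat_lit 4727234381) (nat_lit 1292) (nat_lit 18476390357) (nat_lit 76) (nat_lit 55999197102) (nat_lit 248) (nat_lit 5) (nat_lit 265) (nat_lit 5) (nat_lit 249) (nat_lit 5) (nat_lit 449) (nat_lit 431) (nat_lit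 140)) (XT.lf (nat_lit 0) (nat_lit 11480086871) (nat_lit 760) (nat_lit 56913174761) (nat_lit 76) (nat_lit 12106496778) (nat_lit 239) (nat_lit 5) (nat_lit 249) (nat_lit 5) (nat_lit 240) (nat_lit 5) (nat_lit 450) (nat_lit 431) (nat_lit 139))) (XT.nd (nat_lit 78) (nat_lit 608) (nat_lit 0) (XT.lf (nat_lit 0) (nat_lit 18853250709) (nat_lit 760) (nat_lit 14771803472) (nat_lit 76) (nat_lit 48198017253) (nat_lit 239) (nat_lit 5) (nat_lit 249) (nat_lit 5) (nat_lit 240) (nat_lit 5) (nat_lit 451) (nat_lit 431) (nat_lit 138)) (XT.lf (nat_lit 0) (nat_lit 26751700988) (nat_lit 684) (nat_lit 53998194238) (nat_lit 76) (nat_lit 2427066005) (nat_lit 231) (nat_lit 5) (nat_lit 240) (nat_lit 5) (nat_lit 232) (nat_lit 5) (nat_lit 452) (nat_lit 431) (nat_lit 137))))))) (XT.nd (nat_lit 51792) (nat_lit 0) (nat_lit 4028) (XT.nd (nat_lit 546) (nat_lit 532) (nat_lit 0) (XT.nd (nat_lit 234) (nat_lit 1596) (nat_lit 0) (XT.nd (nat_lit 78) (nat_lit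 608) (nat_lit 0) (XT.lf (nat_lit 0) (nat_lit 35370255052) (nat_lit 684) (nat_lit 10151132258) (nat_lit 76) (nat_lit 39035586026) (nat_lit 231) (nat_lit 5) (nat_lit 240) (nat_lit 5) (nat_lit 232) (nat_lit 5) (nat_lit 453) (nat_lit 431) (nat_lit 136)) (XT.nd (nat_lit 78) (nat_lit 0) (nat_lit 0) (XT.lf (nat_lit 0) (nat_lit 35707736516) (nat_lit 608) (nat_lit 8882471698) (nat_lit 684) (nat_lit 41377892437) (nat_lit 223) (nat_lit 5) (nat_lit 231) (nat_lit 5) (nat_lit 232) (nat_lit 5) (nat_lit 454) (nat_lit 431) (nat_lit 135)) (XT.lf (nat_lit 0) (nat_lit 54467265124) (nat_lit 684) (nat_lit 4546819459) (nat_lit 76) (nat_lit 28396062164) (nat_lit 223) (nat_lit 5) (nat_lit 232) (nat_lit 5) (nat_lit 224) (nat_lit 5) (nat_lit 455) (nat_lit 431) (nat_lit 134)))) (XT.nd (nat_lit 156) (nat_lit 532) (nat_lit 0) (XT.nd (nat_lit 78) (nat_lit 532) (nat_lit 0) (XT.lf (nat_lit 0) (nat_lit 43294632375) (nat_lit 532) (nat_lit 21849738513)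 (nat_lit 608) (nat_lit 23735971335) (nat_lit 216) (nat_lit 5) (nat_lit 223) (nat_lit 5) (nat_lit 224) (nat_lit 5) (nat_lit 456) (nat_lit 431) (nat_lit 133)) (XT.lf (nat_lit 0) (nat_lit 2154528603) (nat_lit 532) (nat_lit 74211895950) (nat_lit 608) (nat_lit 14021480080) (nat_lit 209) (nat_lit 5) (nat_lit 216) (nat_lit 5) (nat_lit 217) (nat_lit 5) (nat_lit 457) (nat_lit 431) (nat_lit 132))) (XT.nd (nat_lit 78) (nat_lit 532) (nat_lit 0) (XT.lf (nat_lit 0) (nat_lit 52040405326) (nat_lit 532) (nat_lit 36558905828) (nat_lit 608) (nat_lit 3321157728) (nat_lit 209) (nat_lit 5) (nat_lit 216) (nat_lit 5) (nat_lit 217) (nat_lit 5) (nat_lit 458) (nat_lit 431) (nat_lit 131)) (XT.lf (nat_lit 0) (nat_lit 7669182304) (nat_lit 532) (nat_lit 83471502411) (nat_lit 76) (nat_lit 2352526896) (nat_lit 202) (nat_lit 5) (nat_lit 209) (nat_lit 5) (nat_lit 203) (nat_lit 5) (nat_lit 459) (nat_lit 431) (nat_lit 130))))) (XT.nd (nat_lit 50934)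 (nat_lit 0) (nat_lit 4712) (XT.nd (nat_lit 78) (nat_lit 532) (nat_lit 0) (XT.lf (nat_lit 0) (nat_lit 19690793138) (nat_lit 532) (nat_lit 33262251550) (nat_lit 76) (nat_lit 42136056170) (nat_lit 202) (nat_lit 5) (nat_lit 209) (nat_lit 5) (nat_lit 203) (nat_lit 5) (nat_lit 460) (nat_lit 431) (nat_lit 129)) (XT.nd (nat_lit 78) (nat_lit 0) (nat_lit 0) (XT.lf (nat_lit 0) (nat_lit 18820142852) (nat_lit 532) (nat_lit 13433476036) (nat_lit 608) (nat_lit 64473830993) (nat_lit 195) (nat_lit 5) (nat_lit 202) (nat_lit 5) (nat_lit 203) (nat_lit 5) (nat_lit 461) (nat_lit 431) (nat_lit 128)) (XT.lf (nat_lit 0) (nat_lit 45794352426) (nat_lit 608) (nat_lit 25523886717) (nat_lit 76) (nat_lit 27078679632) (nat_lit 195) (nat_lit 5) (nat_lit 203) (nat_lit 5) (nat_lit 196) (nat_lit 5) (nat_lit 462) (nat_lit 431) (nat_lit 127)))) (XT.nd (nat_lit 156) (nat_lit 0) (nat_lit 76) (XT.nd (nat_lit 78) (nat_lit 0) (nat_lit 0) (XT.lf (nat_lit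 0) (nat_lit 9604085545) (nat_lit 1292) (nat_lit 10628160815) (nat_lit 1292) (nat_lit 10628160815) (nat_lit 257) (nat_lit 3) (nat_lit 274) (nat_lit 3) (nat_lit 274) (nat_lit 5) (nat_lit 432) (nat_lit 432) (nat_lit 156)) (XT.lf (nat_lit 76) (nat_lit 8911208618) (nat_lit 0) (nat_lit 10687712656) (nat_lit 1292) (nat_lit 43044620918) (nat_lit 258) (nat_lit 5) (nat_lit 257) (nat_lit 3) (nat_lit 274) (nat_lit 5) (nat_lit 433) (nat_lit 432) (nat_lit 155))) (XT.nd (nat_lit 78) (nat_lit 0) (nat_lit 0) (XT.lf (nat_lit 0) (nat_lit 20409586633) (nat_lit 1216) (nat_lit 23362593078) (nat_lit 1292) (nat_lit 19809526589) (nat_lit 258) (nat_lit 5) (nat_lit 274) (nat_lit 5) (nat_lit 275) (nat_lit 5) (nat_lit 434) (nat_lit 432) (nat_lit 154)) (XT.lf (nat_lit 76) (nat_lit 7967535657) (nat_lit 0) (nat_lit 13458800864) (nat_lit 1292) (nat_lit 43116226084) (nat_lit 259) (nat_lit 5) (nat_lit 258) (nat_lit 5) (nat_lit 275) (nat_lit 5) (nat_lit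 435) (nat_lit 432) (nat_lit 153)))))) (XT.nd (nat_lit 546) (nat_lit 836) (nat_lit 0) (XT.nd (nat_lit 234) (nat_lit 0) (nat_lit 76) (XT.nd (nat_lit 78) (nat_lit 0) (nat_lit 0) (XT.lf (nat_lit 0) (nat_lit 22881974046) (nat_lit 1216) (nat_lit 24982161112) (nat_lit 1292) (nat_lit 17655858092) (nat_lit 259) (nat_lit 5) (nat_lit 275) (nat_lit 5) (nat_lit 276) (nat_lit 5) (nat_lit 436) (nat_lit 432) (nat_lit 152)) (XT.nd (nat_lit 78) (nat_lit 0) (nat_lit 76) (XT.lf (nat_lit 76) (nat_lit 7572637227) (nat_lit 0) (nat_lit 17014084671) (nat_lit 1292) (nat_lit 41933861878) (nat_lit 260) (nat_lit 5) (nat_lit 259) (nat_lit 5) (nat_lit 276) (nat_lit 5) (nat_lit 437) (nat_lit 432) (nat_lit 151)) (XT.lf (nat_lit 0) (nat_lit 26738686328) (nat_lit 1216) (nat_lit 26072212575) (nat_lit 1292) (nat_lit 14728411084) (nat_lit 260) (nat_lit 5) (nat_lit 276) (nat_lit 5) (nat_lit 277) (nat_lit 5) (nat_lit 438) (nat_lit 432) (nat_lit 150))))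 (XT.nd (nat_lit 156) (nat_lit 0) (nat_lit 76) (XT.nd (nat_lit 78) (nat_lit 0) (nat_lit 76) (XT.lf (nat_lit 76) (nat_lit 7772636428) (nat_lit 0) (nat_lit 21425171399) (nat_lit 1292) (nat_lit 39383512399) (nat_lit 261) (nat_lit 5) (nat_lit 260) (nat_lit 5) (nat_lit 277) (nat_lit 5) (nat_lit 439) (nat_lit 432) (nat_lit 149)) (XT.lf (nat_lit 0) (nat_lit 32100827344) (nat_lit 1216) (nat_lit 26587199378) (nat_lit 1292) (nat_lit 10955460500) (nat_lit 261) (nat_lit 5) (nat_lit 277) (nat_lit 5) (nat_lit 278) (nat_lit 5) (nat_lit 440) (nat_lit 432) (nat_lit 148))) (XT.nd (nat_lit 78) (nat_lit 0) (nat_lit 76) (XT.lf (nat_lit 76) (nat_lit 8616562626) (nat_lit 0) (nat_lit 26768790678) (nat_lit 1292) (nat_lit 35343333625) (nat_lit 262) (nat_lit 5) (nat_lit 261) (nat_lit 5) (nat_lit 278) (nat_lit 5) (nat_lit 441) (nat_lit 432) (nat_lit 147)) (XT.lf (nat_lit 0) (nat_lit 39097737370) (nat_lit 1216) (nat_lit 26478702109) (nat_lit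 1292) (nat_lit 6260123650) (nat_lit 262) (nat_lit 5) (nat_lit 278) (nat_lit 5) (nat_lit 279) (nat_lit 5) (nat_lit 442) (nat_lit 432) (nat_lit 146))))) (XT.nd (nat_lit 312) (nat_lit 1064) (nat_lit 0) (XT.nd (nat_lit 156) (nat_lit 0) (nat_lit 76) (XT.nd (nat_lit 78) (nat_lit 0) (nat_lit 76) (XT.lf (nat_lit 76) (nat_lit 10156495814) (nat_lit 0) (nat_lit 33127152011) (nat_lit 1292) (nat_lit 29683163309) (nat_lit 263) (nat_lit 5) (nat_lit 262) (nat_lit 5) (nat_lit 279) (nat_lit 5) (nat_lit 443) (nat_lit 432) (nat_lit 145)) (XT.lf (nat_lit 0) (nat_lit 47867506982) (nat_lit 1216) (nat_lit 25695288893) (nat_lit 1292) (nat_lit 559999723) (nat_lit 263) (nat_lit 5) (nat_lit 279) (nat_lit 5) (nat_lit 280) (nat_lit 5) (nat_lit 444) (nat_lit 432) (nat_lit 144))) (XT.nd (nat_lit 78) (nat_lit 0) (nat_lit 0) (XT.lf (nat_lit 76) (nat_lit 12447715978) (nat_lit 0) (nat_lit 40588326614) (nat_lit 1292) (nat_lit 22264002341) (nat_lit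 264) (nat_lit 5) (nat_lit 263) (nat_lit 5) (nat_lit 280) (nat_lit 5) (nat_lit 445) (nat_lit 432) (nat_lit 143)) (XT.lf (nat_lit 76) (nat_lit 52261362441) (nat_lit 0) (nat_lit 6357268413) (nat_lit 1292) (nat_lit 17886211148) (nat_lit 264) (nat_lit 5) (nat_lit 263) (nat_lit 5) (nat_lit 280) (nat_lit 5) (nat_lit 446) (nat_lit 432) (nat_lit 142)))) (XT.nd (nat_lit 156) (nat_lit 1216) (nat_lit 0) (XT.nd (nat_lit 78) (nat_lit 0) (nat_lit 0) (XT.lf (nat_lit 76) (nat_lit 15548857382) (nat_lit 0) (nat_lit 49246655243) (nat_lit 1292) (nat_lit 12937466030) (nat_lit 265) (nat_lit 5) (nat_lit 264) (nat_lit 5) (nat_lit 281) (nat_lit 5) (nat_lit 447) (nat_lit 432) (nat_lit 141)) (XT.lf (nat_lit 76) (nat_lit 56967359057) (nat_lit 0) (nat_lit 14497028672) (nat_lit 1292) (nat_lit 7524371215) (nat_lit 265) (nat_lit 5) (nat_lit 264) (nat_lit 5) (nat_lit 281) (nat_lit 5) (nat_lit 448) (nat_lit 432) (nat_lit 140))) (XT.nd (nat_lit 78)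 (nat_lit 76) (nat_lit 0) (XT.lf (nat_lit 0) (nat_lit 19522067615) (nat_lit 1216) (nat_lit 59203183861) (nat_lit 1292) (nat_lit 1545203634) (nat_lit 249) (nat_lit 5) (nat_lit 265) (nat_lit 5) (nat_lit 266) (nat_lit 5) (nat_lit 449) (nat_lit 432) (nat_lit 139)) (XT.lf (nat_lit 0) (nat_lit 4890993400) (nat_lit 1292) (nat_lit 19011142591) (nat_lit 76) (nat_lit 57676105594) (nat_lit 248) (nat_lit 5) (nat_lit 265) (nat_lit 5) (nat_lit 249) (nat_lit 5) (nat_lit 450) (nat_lit 432) (nat_lit 138))))))))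
noncomputable def xc251 : XT := (XT.nd (nat_lit 53040) (nat_lit 0) (nat_lit 532) (XT.nd (nat_lit 51870) (nat_lit 0) (nat_lit 4788) (XT.nd (nat_lit 546) (nat_lit 1596) (nat_lit 0) (XT.nd (nat_lit 234) (nat_lit 1140) (nat_lit 0) (XT.nd (nat_lit 78) (nat_lit 608) (nat_lit 0) (XT.lf (nat_lit 0) (nat_lit 11845957782) (nat_lit 760) (nat_lit 58600550388) (nat_lit 76) (nat_lit 12467592487) (nat_lit 239) (nat_lit 5) (nat_lit 249) (nat_lit 5) (nat_lit 240) (nat_lit 5) (nat_lit 451) (nat_lit 432) (nat_lit 137)) (XT.nd (nat_lit 78) (nat_lit 608) (nat_lit 0) (XT.lf (nat_lit 0) (nat_lit 19439691245) (nat_lit 760) (nat_lit 15195521056) (nat_lit 76) (nat_lit 49641919718) (nat_lit 239) (nat_lit 5) (nat_lit 249) (nat_lit 5) (nat_lit 240) (nat_lit 5) (nat_lit 452) (nat_lit 432) (nat_lit 136)) (XT.lf (nat_lit 0) (nat_lit 27574661663) (nat_lit 684) (nat_lit 55598264090) (nat_lit 76) (nat_lit 2498725940) (nat_lit 231) (nat_lit 5) (nat_lit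 240) (nat_lit 5) (nat_lit 232) (nat_lit 5) (nat_lit 453) (nat_lit 432) (nat_lit 135)))) (XT.nd (nat_lit 156) (nat_lit 532) (nat_lit 0) (XT.nd (nat_lit 78) (nat_lit 608) (nat_lit 0) (XT.lf (nat_lit 0) (nat_lit 36451177893) (nat_lit 684) (nat_lit 10436369163) (nat_lit 76) (nat_lit 40205535116) (nat_lit 231) (nat_lit 5) (nat_lit 240) (nat_lit 5) (nat_lit 232) (nat_lit 5) (nat_lit 454) (nat_lit 432) (nat_lit 134)) (XT.lf (nat_lit 0) (nat_lit 36798076488) (nat_lit 608) (nat_lit 9149259697) (nat_lit 684) (nat_lit 42599219097) (nat_lit 223) (nat_lit 5) (nat_lit 231) (nat_lit 5) (nat_lit 232) (nat_lit 5) (nat_lit 455) (nat_lit 432) (nat_lit 133))) (XT.nd (nat_lit 78) (nat_lit 532) (nat_lit 0) (XT.lf (nat_lit 0) (nat_lit 56120136192) (nat_lit 684) (nat_lit 4664098527) (nat_lit 76) (nat_lit 29247645268) (nat_lit 223) (nat_lit 5) (nat_lit 232) (nat_lit 5) (nat_lit 224) (nat_lit 5) (nat_lit 456) (nat_lit 432) (nat_lit 132))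 (XT.lf (nat_lit 0) (nat_lit 44612409358) (nat_lit 532) (nat_lit 22504778696) (nat_lit 608) (nat_lit 24429004448) (nat_lit 216) (nat_lit 5) (nat_lit 223) (nat_lit 5) (nat_lit 224) (nat_lit 5) (nat_lit 457) (nat_lit 432) (nat_lit 131))))) (XT.nd (nat_lit 234) (nat_lit 532) (nat_lit 0) (XT.nd (nat_lit 78) (nat_lit 532) (nat_lit 0) (XT.lf (nat_lit 0) (nat_lit 2238467002) (nat_lit 532) (nat_lit 76437087664) (nat_lit 608) (nat_lit 14423437736) (nat_lit 209) (nat_lit 5) (nat_lit 216) (nat_lit 5) (nat_lit 217) (nat_lit 5) (nat_lit 458) (nat_lit 432) (nat_lit 130)) (XT.nd (nat_lit 78) (nat_lit 532) (nat_lit 0) (XT.lf (nat_lit 0) (nat_lit 53620357817) (nat_lit 532) (nat_lit 37654541775) (nat_lit 608) (nat_lit 3402649987) (nat_lit 209) (nat_lit 5) (nat_lit 216) (nat_lit 5) (nat_lit 217) (nat_lit 5) (nat_lit 459) (nat_lit 432) (nat_lit 129)) (XT.lf (nat_lit 0) (nat_lit 7916723939) (nat_lit 532) (nat_lit 85956221092) (nat_lit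 76) (nat_lit 2424534138) (nat_lit 202) (nat_lit 5) (nat_lit 209) (nat_lit 5) (nat_lit 203) (nat_lit 5) (nat_lit 460) (nat_lit 432) (nat_lit 128)))) (XT.nd (nat_lit 50934) (nat_lit 0) (nat_lit 4712) (XT.nd (nat_lit 78) (nat_lit 532) (nat_lit 0) (XT.lf (nat_lit 0) (nat_lit 20298474375) (nat_lit 532) (nat_lit 34241258523) (nat_lit 76) (nat_lit 43401527598) (nat_lit 202) (nat_lit 5) (nat_lit 209) (nat_lit 5) (nat_lit 203) (nat_lit 5) (nat_lit 461) (nat_lit 432) (nat_lit 127)) (XT.lf (nat_lit 0) (nat_lit 19403422803) (nat_lit 532) (nat_lit 13834447709) (nat_lit 608) (nat_lit 66390899044) (nat_lit 195) (nat_lit 5) (nat_lit 202) (nat_lit 5) (nat_lit 203) (nat_lit 5) (nat_lit 462) (nat_lit 432) (nat_lit 126))) (XT.nd (nat_lit 78) (nat_lit 0) (nat_lit 0) (XT.lf (nat_lit 0) (nat_lit 9909012636) (nat_lit 1292) (nat_lit 10938348562) (nat_lit 1292) (nat_lit 10938348562) (nat_lit 257) (nat_lit 3) (nat_lit 274) (nat_lit 3) (nat_lit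 274) (nat_lit 5) (nat_lit 433) (nat_lit 433) (nat_lit 154)) (XT.lf (nat_lit 76) (nat_lit 9195689286) (nat_lit 0) (nat_lit 11023994573) (nat_lit 1292) (nat_lit 44302170078) (nat_lit 258) (nat_lit 5) (nat_lit 257) (nat_lit 3) (nat_lit 274) (nat_lit 5) (nat_lit 434) (nat_lit 433) (nat_lit 153)))))) (XT.nd (nat_lit 546) (nat_lit 0) (nat_lit 228) (XT.nd (nat_lit 234) (nat_lit 0) (nat_lit 76) (XT.nd (nat_lit 78) (nat_lit 0) (nat_lit 0) (XT.lf (nat_lit 0) (nat_lit 21053567926) (nat_lit 1216) (nat_lit 24045714199) (nat_lit 1292) (nat_lit 20388914193) (nat_lit 258) (nat_lit 5) (nat_lit 274) (nat_lit 5) (nat_lit 275) (nat_lit 5) (nat_lit 435) (nat_lit 433) (nat_lit 152)) (XT.nd (nat_lit 78) (nat_lit 0) (nat_lit 76) (XT.lf (nat_lit 76) (nat_lit 8224144314) (nat_lit 0) (nat_lit 13875921894) (nat_lit 1292) (nat_lit 44377835029) (nat_lit 259) (nat_lit 5) (nat_lit 258) (nat_lit 5) (nat_lit 275) (nat_lit 5) (nat_lit 436) (nat_lit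 433) (nat_lit 151)) (XT.lf (nat_lit 0) (nat_lit 23598347049) (nat_lit 1216) (nat_lit 25713519897) (nat_lit 1292) (nat_lit 18172818922) (nat_lit 259) (nat_lit 5) (nat_lit 275) (nat_lit 5) (nat_lit 276) (nat_lit 5) (nat_lit 437) (nat_lit 433) (nat_lit 150)))) (XT.nd (nat_lit 156) (nat_lit 0) (nat_lit 76) (XT.nd (nat_lit 78) (nat_lit 0) (nat_lit 76) (XT.lf (nat_lit 76) (nat_lit 7817744882) (nat_lit 0) (nat_lit 17535793520) (nat_lit 1292) (nat_lit 43161776961) (nat_lit 260) (nat_lit 5) (nat_lit 259) (nat_lit 5) (nat_lit 276) (nat_lit 5) (nat_lit 438) (nat_lit 433) (nat_lit 149)) (XT.lf (nat_lit 0) (nat_lit 27569105516) (nat_lit 1216) (nat_lit 26836007150) (nat_lit 1292) (nat_lit 15159519657) (nat_lit 260) (nat_lit 5) (nat_lit 276) (nat_lit 5) (nat_lit 277) (nat_lit 5) (nat_lit 439) (nat_lit 433) (nat_lit 148))) (XT.nd (nat_lit 78) (nat_lit 0) (nat_lit 76) (XT.lf (nat_lit 76) (nat_lit 8024007207) (nat_lit 0) (nat_lit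 22077345256) (nat_lit 1292) (nat_lit 40536570120) (nat_lit 261) (nat_lit 5) (nat_lit 260) (nat_lit 5) (nat_lit 277) (nat_lit 5) (nat_lit 440) (nat_lit 433) (nat_lit 147)) (XT.lf (nat_lit 0) (nat_lit 33090570479) (nat_lit 1216) (nat_lit 27366252763) (nat_lit 1292) (nat_lit 11275158371) (nat_lit 261) (nat_lit 5) (nat_lit 277) (nat_lit 5) (nat_lit 278) (nat_lit 5) (nat_lit 441) (nat_lit 433) (nat_lit 146))))) (XT.nd (nat_lit 312) (nat_lit 0) (nat_lit 152) (XT.nd (nat_lit 156) (nat_lit 0) (nat_lit 76) (XT.nd (nat_lit 78) (nat_lit 0) (nat_lit 76) (XT.lf (nat_lit 76) (nat_lit 8893440115) (nat_lit 0) (nat_lit 27579590585) (nat_lit 1292) (nat_lit 36376724910) (nat_lit 262) (nat_lit 5) (nat_lit 261) (nat_lit 5) (nat_lit 278) (nat_lit 5) (nat_lit 442) (nat_lit 433) (nat_lit 145)) (XT.lf (nat_lit 0) (nat_lit 40295953404) (nat_lit 1216) (nat_lit 27254376858) (nat_lit 1292) (nat_lit 6440563063) (nat_lit 262) (nat_lit 5) (nat_lit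 278) (nat_lit 5) (nat_lit 279) (nat_lit 5) (nat_lit 443) (nat_lit 433) (nat_lit 144))) (XT.nd (nat_lit 78) (nat_lit 0) (nat_lit 76) (XT.lf (nat_lit 76) (nat_lit 10479693803) (nat_lit 0) (nat_lit 34127188809) (nat_lit 1292) (nat_lit 30548183154) (nat_lit 263) (nat_lit 5) (nat_lit 262) (nat_lit 5) (nat_lit 279) (nat_lit 5) (nat_lit 444) (nat_lit 433) (nat_lit 143)) (XT.lf (nat_lit 0) (nat_lit 49327479318) (nat_lit 1216) (nat_lit 26447397436) (nat_lit 1292) (nat_lit 570876589) (nat_lit 263) (nat_lit 5) (nat_lit 279) (nat_lit 5) (nat_lit 280) (nat_lit 5) (nat_lit 445) (nat_lit 433) (nat_lit 142)))) (XT.nd (nat_lit 156) (nat_lit 0) (nat_lit 76) (XT.nd (nat_lit 78) (nat_lit 0) (nat_lit 0) (XT.lf (nat_lit 76) (nat_lit 12839713757) (nat_lit 0) (nat_lit 41810838221) (nat_lit 1292) (nat_lit 22907783975) (nat_lit 264) (nat_lit 5) (nat_lit 263) (nat_lit 5) (nat_lit 280) (nat_lit 5) (nat_lit 446) (nat_lit 433) (nat_lit 141))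 (XT.lf (nat_lit 76) (nat_lit 53847228848) (nat_lit 0) (nat_lit 6552706668) (nat_lit 1292) (nat_lit 18399362107) (nat_lit 264) (nat_lit 5) (nat_lit 263) (nat_lit 5) (nat_lit 280) (nat_lit 5) (nat_lit 447) (nat_lit 433) (nat_lit 140))) (XT.nd (nat_lit 78) (nat_lit 0) (nat_lit 0) (XT.lf (nat_lit 76) (nat_lit 16033899723) (nat_lit 0) (nat_lit 50727696038) (nat_lit 1292) (nat_lit 13302698666) (nat_lit 265) (nat_lit 5) (nat_lit 264) (nat_lit 5) (nat_lit 281) (nat_lit 5) (nat_lit 448) (nat_lit 433) (nat_lit 139)) (XT.lf (nat_lit 76) (nat_lit 58694415381) (nat_lit 0) (nat_lit 14935474618) (nat_lit 1292) (nat_lit 7727877745) (nat_lit 265) (nat_lit 5) (nat_lit 264) (nat_lit 5) (nat_lit 281) (nat_lit 5) (nat_lit 449) (nat_lit 433) (nat_lit 138))))))) (XT.nd (nat_lit 52026) (nat_lit 0) (nat_lit 4256) (XT.nd (nat_lit 546) (nat_lit 1596) (nat_lit 0) (XT.nd (nat_lit 234) (nat_lit 1216) (nat_lit 0) (XT.nd (nat_lit 78) (nat_lit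 760) (nat_lit 0) (XT.lf (nat_lit 0) (nat_lit 20126269583) (nat_lit 1216) (nat_lit 60981827030) (nat_lit 1292) (nat_lit 1569832873) (nat_lit 249) (nat_lit 5) (nat_lit 265) (nat_lit 5) (nat_lit 266) (nat_lit 5) (nat_lit 450) (nat_lit 433) (nat_lit 137)) (XT.nd (nat_lit 78) (nat_lit 684) (nat_lit 0) (XT.lf (nat_lit 0) (nat_lit 5058405630) (nat_lit 1292) (nat_lit 19563059039) (nat_lit 76) (nat_lit 59403497422) (nat_lit 248) (nat_lit 5) (nat_lit 265) (nat_lit 5) (nat_lit 249) (nat_lit 5) (nat_lit 451) (nat_lit 433) (nat_lit 136)) (XT.lf (nat_lit 0) (nat_lit 12221572451) (nat_lit 760) (nat_lit 60339696491) (nat_lit 76) (nat_lit 12839641570) (nat_lit 239) (nat_lit 5) (nat_lit 249) (nat_lit 5) (nat_lit 240) (nat_lit 5) (nat_lit 452) (nat_lit 433) (nat_lit 135)))) (XT.nd (nat_lit 156) (nat_lit 608) (nat_lit 0) (XT.nd (nat_lit 78) (nat_lit 608) (nat_lit 0) (XT.lf (nat_lit 0) (nat_lit 20042528522) (nat_lit 760) (nat_lit 15633065903)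 (nat_lit 76) (nat_lit 51129256250) (nat_lit 239) (nat_lit 5) (nat_lit 249) (nat_lit 5) (nat_lit 240) (nat_lit 5) (nat_lit 453) (nat_lit 433) (nat_lit 134)) (XT.lf (nat_lit 0) (nat_lit 28421139561) (nat_lit 684) (nat_lit 57247477000) (nat_lit 76) (nat_lit 2572601805) (nat_lit 231) (nat_lit 5) (nat_lit 240) (nat_lit 5) (nat_lit 232) (nat_lit 5) (nat_lit 454) (nat_lit 433) (nat_lit 133))) (XT.nd (nat_lit 78) (nat_lit 608) (nat_lit 0) (XT.lf (nat_lit 0) (nat_lit 37563390947) (nat_lit 684) (nat_lit 10731270905) (nat_lit 76) (nat_lit 41410646885) (nat_lit 231) (nat_lit 5) (nat_lit 240) (nat_lit 5) (nat_lit 232) (nat_lit 5) (nat_lit 455) (nat_lit 433) (nat_lit 132)) (XT.lf (nat_lit 0) (nat_lit 37920029789) (nat_lit 608) (nat_lit 9424033320) (nat_lit 684) (nat_lit 43858334219) (nat_lit 223) (nat_lit 5) (nat_lit 231) (nat_lit 5) (nat_lit 232) (nat_lit 5) (nat_lit 456) (nat_lit 433) (nat_lit 131))))) (XT.nd (nat_lit 234)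 (nat_lit 532) (nat_lit 0) (XT.nd (nat_lit 78) (nat_lit 1064) (nat_lit 0) (XT.lf (nat_lit 0) (nat_lit 57821511146) (nat_lit 684) (nat_lit 4785993849) (nat_lit 76) (nat_lit 30124793015) (nat_lit 223) (nat_lit 5) (nat_lit 232) (nat_lit 5) (nat_lit 224) (nat_lit 5) (nat_lit 457) (nat_lit 433) (nat_lit 130)) (XT.nd (nat_lit 78) (nat_lit 532) (nat_lit 0) (XT.lf (nat_lit 0) (nat_lit 45968632530) (nat_lit 532) (nat_lit 23179496030) (nat_lit 608) (nat_lit 25143921875) (nat_lit 216) (nat_lit 5) (nat_lit 223) (nat_lit 5) (nat_lit 224) (nat_lit 5) (nat_lit 458) (nat_lit 433) (nat_lit 129)) (XT.lf (nat_lit 0) (nat_lit 2323815508) (nat_lit 532) (nat_lit 78729102015) (nat_lit 608) (nat_lit 14838526816) (nat_lit 209) (nat_lit 5) (nat_lit 216) (nat_lit 5) (nat_lit 217) (nat_lit 5) (nat_lit 459) (nat_lit 433) (nat_lit 128)))) (XT.nd (nat_lit 51090) (nat_lit 0) (nat_lit 4180) (XT.nd (nat_lit 78) (nat_lit 532) (nat_lit 0) (XT.lf (nat_lit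 0) (nat_lit 55246633110) (nat_lit 532) (nat_lit 38783111738) (nat_lit 608) (nat_lit 3487628465) (nat_lit 209) (nat_lit 5) (nat_lit 216) (nat_lit 5) (nat_lit 217) (nat_lit 5) (nat_lit 460) (nat_lit 433) (nat_lit 127)) (XT.lf (nat_lit 0) (nat_lit 8170689194) (nat_lit 532) (nat_lit 88516596489) (nat_lit 76) (nat_lit 2498619428) (nat_lit 202) (nat_lit 5) (nat_lit 209) (nat_lit 5) (nat_lit 203) (nat_lit 5) (nat_lit 461) (nat_lit 433) (nat_lit 126))) (XT.nd (nat_lit 78) (nat_lit 0) (nat_lit 0) (XT.lf (nat_lit 0) (nat_lit 10222122891) (nat_lit 1292) (nat_lit 11258338892) (nat_lit 1292) (nat_lit 11258338892) (nat_lit 257) (nat_lit 3) (nat_lit 274) (nat_lit 3) (nat_lit 274) (nat_lit 5) (nat_lit 434) (nat_lit 434) (nat_lit 152)) (XT.lf (nat_lit 76) (nat_lit 9487720215) (nat_lit 0) (nat_lit 11369466543) (nat_lit 1292) (nat_lit 45599385367) (nat_lit 258) (nat_lit 5) (nat_lit 257) (nat_lit 3) (nat_lit 274) (nat_lit 5) (nat_lit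 435) (nat_lit 434) (nat_lit 151)))))) (XT.nd (nat_lit 546) (nat_lit 0) (nat_lit 228) (XT.nd (nat_lit 234) (nat_lit 0) (nat_lit 76) (XT.nd (nat_lit 78) (nat_lit 0) (nat_lit 0) (XT.lf (nat_lit 0) (nat_lit 21715049309) (nat_lit 1216) (nat_lit 24750348258) (nat_lit 1292) (nat_lit 20986538643) (nat_lit 258) (nat_lit 5) (nat_lit 274) (nat_lit 5) (nat_lit 275) (nat_lit 5) (nat_lit 436) (nat_lit 434) (nat_lit 150)) (XT.nd (nat_lit 78) (nat_lit 0) (nat_lit 76) (XT.lf (nat_lit 76) (nat_lit 8487441918) (nat_lit 0) (nat_lit 14304789809) (nat_lit 1292) (nat_lit 45679122160) (nat_lit 259) (nat_lit 5) (nat_lit 258) (nat_lit 5) (nat_lit 275) (nat_lit 5) (nat_lit 437) (nat_lit 434) (nat_lit 149)) (XT.lf (nat_lit 0) (nat_lit 24334494069) (nat_lit 1216) (nat_lit 26467858807) (nat_lit 1292) (nat_lit 18706018464) (nat_lit 259) (nat_lit 5) (nat_lit 275) (nat_lit 5) (nat_lit 276) (nat_lit 5) (nat_lit 438) (nat_lit 434) (nat_lit 148))))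 (XT.nd (nat_lit 156) (nat_lit 0) (nat_lit 76) (XT.nd (nat_lit 78) (nat_lit 0) (nat_lit 76) (XT.lf (nat_lit 76) (nat_lit 8069176595) (nat_lit 0) (nat_lit 18072505754) (nat_lit 1292) (nat_lit 44428257403) (nat_lit 260) (nat_lit 5) (nat_lit 259) (nat_lit 5) (nat_lit 276) (nat_lit 5) (nat_lit 439) (nat_lit 434) (nat_lit 147)) (XT.lf (nat_lit 0) (nat_lit 28422815120) (nat_lit 1216) (nat_lit 27623770179) (nat_lit 1292) (nat_lit 15604178223) (nat_lit 260) (nat_lit 5) (nat_lit 276) (nat_lit 5) (nat_lit 277) (nat_lit 5) (nat_lit 440) (nat_lit 434) (nat_lit 146))) (XT.nd (nat_lit 78) (nat_lit 0) (nat_lit 76) (XT.lf (nat_lit 76) (nat_lit 8281874832) (nat_lit 0) (nat_lit 22748543657) (nat_lit 1292) (nat_lit 41725852584) (nat_lit 261) (nat_lit 5) (nat_lit 260) (nat_lit 5) (nat_lit 277) (nat_lit 5) (nat_lit 441) (nat_lit 434) (nat_lit 145)) (XT.lf (nat_lit 0) (nat_lit 34108472166) (nat_lit 1216) (nat_lit 28169743319) (nat_lit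 1292) (nat_lit 11604961860) (nat_lit 261) (nat_lit 5) (nat_lit 277) (nat_lit 5) (nat_lit 278) (nat_lit 5) (nat_lit 442) (nat_lit 434) (nat_lit 144))))) (XT.nd (nat_lit 312) (nat_lit 0) (nat_lit 152) (XT.nd (nat_lit 156) (nat_lit 0) (nat_lit 76) (XT.nd (nat_lit 78) (nat_lit 0) (nat_lit 76) (XT.lf (nat_lit 76) (nat_lit 9177568806) (nat_lit 0) (nat_lit 28414270399) (nat_lit 1292) (nat_lit 37442662604) (nat_lit 262) (nat_lit 5) (nat_lit 261) (nat_lit 5) (nat_lit 278) (nat_lit 5) (nat_lit 443) (nat_lit 434) (nat_lit 143)) (XT.lf (nat_lit 0) (nat_lit 41528664520) (nat_lit 1216) (nat_lit 28054394521) (nat_lit 1292) (nat_lit 6626838399) (nat_lit 262) (nat_lit 5) (nat_lit 278) (nat_lit 5) (nat_lit 279) (nat_lit 5) (nat_lit 444) (nat_lit 434) (nat_lit 142))) (XT.nd (nat_lit 78) (nat_lit 0) (nat_lit 76) (XT.lf (nat_lit 76) (nat_lit 10811525577) (nat_lit 0) (nat_lit 35156869529) (nat_lit 1292) (nat_lit 31440615967) (nat_lit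 263) (nat_lit 5) (nat_lit 262) (nat_lit 5) (nat_lit 279) (nat_lit 5) (nat_lit 445) (nat_lit 434) (nat_lit 141)) (XT.lf (nat_lit 0) (nat_lit 50829876161) (nat_lit 1216) (nat_lit 27223145569) (nat_lit 1292) (nat_lit 582419773) (nat_lit 263) (nat_lit 5) (nat_lit 279) (nat_lit 5) (nat_lit 280) (nat_lit 5) (nat_lit 446) (nat_lit 434) (nat_lit 140)))) (XT.nd (nat_lit 156) (nat_lit 0) (nat_lit 76) (XT.nd (nat_lit 78) (nat_lit 0) (nat_lit 0) (XT.lf (nat_lit 76) (nat_lit 13242405688) (nat_lit 0) (nat_lit 43069746089) (nat_lit 1292) (nat_lit 23572264703) (nat_lit 264) (nat_lit 5) (nat_lit 263) (nat_lit 5) (nat_lit 280) (nat_lit 5) (nat_lit 447) (nat_lit 434) (nat_lit 139)) (XT.lf (nat_lit 76) (nat_lit 55479636508) (nat_lit 0) (nat_lit 6753737111) (nat_lit 1292) (nat_lit 18929252882) (nat_lit 264) (nat_lit 5) (nat_lit 263) (nat_lit 5) (nat_lit 280) (nat_lit 5) (nat_lit 448) (nat_lit 434) (nat_lit 138))) (XT.nd (nat_lit 78)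 (nat_lit 0) (nat_lit 0) (XT.lf (nat_lit 76) (nat_lit 16532426960) (nat_lit 0) (nat_lit 52252959041) (nat_lit 1292) (nat_lit 13680202338) (nat_lit 265) (nat_lit 5) (nat_lit 264) (nat_lit 5) (nat_lit 281) (nat_lit 5) (nat_lit 449) (nat_lit 434) (nat_lit 137)) (XT.lf (nat_lit 76) (nat_lit 60472248081) (nat_lit 0) (nat_lit 15386871013) (nat_lit 1292) (nat_lit 7938765255) (nat_lit 265) (nat_lit 5) (nat_lit 264) (nat_lit 5) (nat_lit 281) (nat_lit 5) (nat_lit 450) (nat_lit 434) (nat_lit 136))))))))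
noncomputable def xc252 : XT := (XT.nd (nat_lit 53196) (nat_lit 0) (nat_lit 532) (XT.nd (nat_lit 52104) (nat_lit 0) (nat_lit 3724) (XT.nd (nat_lit 546) (nat_lit 1064) (nat_lit 0) (XT.nd (nat_lit 234) (nat_lit 1216) (nat_lit 0) (XT.nd (nat_lit 78) (nat_lit 760) (nat_lit 0) (XT.lf (nat_lit 0) (nat_lit 20747533341) (nat_lit 1216) (nat_lit 62813683248) (nat_lit 1292) (nat_lit 1596448200) (nat_lit 249) (nat_lit 5) (nat_lit 265) (nat_lit 5) (nat_lit 266) (nat_lit 5) (nat_lit 451) (nat_lit 434) (nat_lit 135)) (XT.nd (nat_lit 78) (nat_lit 684) (nat_lit 0) (XT.lf (nat_lit 0) (nat_lit 5229652971) (nat_lit 1292) (nat_lit 20132590239) (nat_lit 76) (nat_lit 61182876981) (nat_lit 248) (nat_lit 5) (nat_lit 265) (nat_lit 5) (nat_lit 249) (nat_lit 5) (nat_lit 452) (nat_lit 434) (nat_lit 134)) (XT.lf (nat_lit 0) (nat_lit 12607293935) (nat_lit 760) (nat_lit 62132100216) (nat_lit 76) (nat_lit 13222965710) (nat_lit 239) (nat_lit 5)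 (nat_lit 249) (nat_lit 5) (nat_lit 240) (nat_lit 5) (nat_lit 453) (nat_lit 434) (nat_lit 133)))) (XT.nd (nat_lit 156) (nat_lit 608) (nat_lit 0) (XT.nd (nat_lit 78) (nat_lit 608) (nat_lit 0) (XT.lf (nat_lit 0) (nat_lit 20662323125) (nat_lit 760) (nat_lit 16084788783) (nat_lit 76) (nat_lit 52661323154) (nat_lit 239) (nat_lit 5) (nat_lit 249) (nat_lit 5) (nat_lit 240) (nat_lit 5) (nat_lit 454) (nat_lit 434) (nat_lit 132)) (XT.lf (nat_lit 0) (nat_lit 29291907453) (nat_lit 684) (nat_lit 58947241763) (nat_lit 76) (nat_lit 2648756281) (nat_lit 231) (nat_lit 5) (nat_lit 240) (nat_lit 5) (nat_lit 232) (nat_lit 5) (nat_lit 455) (nat_lit 434) (nat_lit 131))) (XT.nd (nat_lit 78) (nat_lit 608) (nat_lit 0) (XT.lf (nat_lit 0) (nat_lit 38707898214) (nat_lit 684) (nat_lit 11036063842) (nat_lit 76) (nat_lit 42651972527) (nat_lit 231) (nat_lit 5) (nat_lit 240) (nat_lit 5) (nat_lit 232) (nat_lit 5) (nat_lit 456) (nat_lit 434) (nat_lit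 130)) (XT.lf (nat_lit 0) (nat_lit 39074607783) (nat_lit 608) (nat_lit 9707033170) (nat_lit 684) (nat_lit 45156305519) (nat_lit 223) (nat_lit 5) (nat_lit 231) (nat_lit 5) (nat_lit 232) (nat_lit 5) (nat_lit 457) (nat_lit 434) (nat_lit 129))))) (XT.nd (nat_lit 234) (nat_lit 0) (nat_lit 0) (XT.nd (nat_lit 78) (nat_lit 1064) (nat_lit 0) (XT.lf (nat_lit 0) (nat_lit 59572907229) (nat_lit 684) (nat_lit 4912580892) (nat_lit 76) (nat_lit 31028271359) (nat_lit 223) (nat_lit 5) (nat_lit 232) (nat_lit 5) (nat_lit 224) (nat_lit 5) (nat_lit 458) (nat_lit 434) (nat_lit 128)) (XT.nd (nat_lit 78) (nat_lit 532) (nat_lit 0) (XT.lf (nat_lit 0) (nat_lit 47364517683) (nat_lit 532) (nat_lit 23874479339) (nat_lit 608) (nat_lit 25881317383) (nat_lit 216) (nat_lit 5) (nat_lit 223) (nat_lit 5) (nat_lit 224) (nat_lit 5) (nat_lit 459) (nat_lit 434) (nat_lit 127)) (XT.lf (nat_lit 0) (nat_lit 2410680030) (nat_lit 532) (nat_lit 81089939841) (nat_lit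 608) (nat_lit 15267079688) (nat_lit 209) (nat_lit 5) (nat_lit 216) (nat_lit 5) (nat_lit 217) (nat_lit 5) (nat_lit 460) (nat_lit 434) (nat_lit 126)))) (XT.nd (nat_lit 51168) (nat_lit 0) (nat_lit 3648) (XT.nd (nat_lit 51090) (nat_lit 0) (nat_lit 3648) (XT.lf (nat_lit 0) (nat_lit 56920682645) (nat_lit 532) (nat_lit 39945600009) (nat_lit 608) (nat_lit 3576137967) (nat_lit 209) (nat_lit 5) (nat_lit 216) (nat_lit 5) (nat_lit 217) (nat_lit 5) (nat_lit 461) (nat_lit 434) (nat_lit 125)) (XT.lf (nat_lit 0) (nat_lit 10543717180) (nat_lit 1292) (nat_lit 11588397357) (nat_lit 1292) (nat_lit 11588397357) (nat_lit 257) (nat_lit 3) (nat_lit 274) (nat_lit 3) (nat_lit 274) (nat_lit 5) (nat_lit 435) (nat_lit 435) (nat_lit 150))) (XT.nd (nat_lit 78) (nat_lit 0) (nat_lit 76) (XT.lf (nat_lit 76) (nat_lit 9787584407) (nat_lit 0) (nat_lit 11724455839) (nat_lit 1292) (nat_lit 46937345423) (nat_lit 258) (nat_lit 5) (nat_lit 257) (nat_lit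 3) (nat_lit 274) (nat_lit 5) (nat_lit 436) (nat_lit 435) (nat_lit 149)) (XT.lf (nat_lit 0) (nat_lit 22394660225) (nat_lit 1216) (nat_lit 25477082133) (nat_lit 1292) (nat_lit 21602897950) (nat_lit 258) (nat_lit 5) (nat_lit 274) (nat_lit 5) (nat_lit 275) (nat_lit 5) (nat_lit 437) (nat_lit 435) (nat_lit 148)))))) (XT.nd (nat_lit 546) (nat_lit 0) (nat_lit 304) (XT.nd (nat_lit 234) (nat_lit 0) (nat_lit 152) (XT.nd (nat_lit 78) (nat_lit 0) (nat_lit 76) (XT.lf (nat_lit 76) (nat_lit 8757687076) (nat_lit 0) (nat_lit 14745801028) (nat_lit 1292) (nat_lit 47021172779) (nat_lit 259) (nat_lit 5) (nat_lit 258) (nat_lit 5) (nat_lit 275) (nat_lit 5) (nat_lit 438) (nat_lit 435) (nat_lit 147)) (XT.nd (nat_lit 78) (nat_lit 0) (nat_lit 0) (XT.lf (nat_lit 0) (nat_lit 25091106899) (nat_lit 1216) (nat_lit 27245807582) (nat_lit 1292) (nat_lit 19255901982) (nat_lit 259) (nat_lit 5) (nat_lit 275) (nat_lit 5) (nat_lit 276) (nat_lit 5) (nat_lit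 439) (nat_lit 435) (nat_lit 146)) (XT.lf (nat_lit 76) (nat_lit 8327181167) (nat_lit 0) (nat_lit 18624708666) (nat_lit 1292) (nat_lit 45734360978) (nat_lit 260) (nat_lit 5) (nat_lit 259) (nat_lit 5) (nat_lit 276) (nat_lit 5) (nat_lit 440) (nat_lit 435) (nat_lit 145)))) (XT.nd (nat_lit 156) (nat_lit 0) (nat_lit 76) (XT.nd (nat_lit 78) (nat_lit 0) (nat_lit 0) (XT.lf (nat_lit 0) (nat_lit 29300606972) (nat_lit 1216) (nat_lit 28436160177) (nat_lit 1292) (nat_lit 16062757878) (nat_lit 260) (nat_lit 5) (nat_lit 276) (nat_lit 5) (nat_lit 277) (nat_lit 5) (nat_lit 441) (nat_lit 435) (nat_lit 144)) (XT.lf (nat_lit 76) (nat_lit 8546494155) (nat_lit 0) (nat_lit 23439368373) (nat_lit 1292) (nat_lit 42952352792) (nat_lit 261) (nat_lit 5) (nat_lit 260) (nat_lit 5) (nat_lit 277) (nat_lit 5) (nat_lit 442) (nat_lit 435) (nat_lit 143))) (XT.nd (nat_lit 78) (nat_lit 0) (nat_lit 0) (XT.lf (nat_lit 0) (nat_lit 35155465207) (nat_lit 1216)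 (nat_lit 28998342992) (nat_lit 1292) (nat_lit 11945144590) (nat_lit 261) (nat_lit 5) (nat_lit 277) (nat_lit 5) (nat_lit 278) (nat_lit 5) (nat_lit 443) (nat_lit 435) (nat_lit 142)) (XT.lf (nat_lit 76) (nat_lit 9469226804) (nat_lit 0) (nat_lit 29273572013) (nat_lit 1292) (nat_lit 38542034429) (nat_lit 262) (nat_lit 5) (nat_lit 261) (nat_lit 5) (nat_lit 278) (nat_lit 5) (nat_lit 444) (nat_lit 435) (nat_lit 141))))) (XT.nd (nat_lit 234) (nat_lit 0) (nat_lit 76) (XT.nd (nat_lit 78) (nat_lit 0) (nat_lit 0) (XT.lf (nat_lit 0) (nat_lit 42796988886) (nat_lit 1216) (nat_lit 28879423809) (nat_lit 1292) (nat_lit 6819100469) (nat_lit 262) (nat_lit 5) (nat_lit 278) (nat_lit 5) (nat_lit 279) (nat_lit 5) (nat_lit 445) (nat_lit 435) (nat_lit 140)) (XT.nd (nat_lit 78) (nat_lit 0) (nat_lit 76) (XT.lf (nat_lit 76) (nat_lit 11152311122) (nat_lit 0) (nat_lit 36217103993) (nat_lit 1292) (nat_lit 32361200191) (nat_lit 263) (nat_lit 5)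 (nat_lit 262) (nat_lit 5) (nat_lit 279) (nat_lit 5) (nat_lit 446) (nat_lit 435) (nat_lit 139)) (XT.lf (nat_lit 0) (nat_lit 52376049158) (nat_lit 1216) (nat_lit 28023180693) (nat_lit 1292) (nat_lit 594629746) (nat_lit 263) (nat_lit 5) (nat_lit 279) (nat_lit 5) (nat_lit 280) (nat_lit 5) (nat_lit 447) (nat_lit 435) (nat_lit 138)))) (XT.nd (nat_lit 156) (nat_lit 0) (nat_lit 76) (XT.nd (nat_lit 78) (nat_lit 0) (nat_lit 0) (XT.lf (nat_lit 76) (nat_lit 13656173775) (nat_lit 0) (nat_lit 44366158125) (nat_lit 1292) (nat_lit 24257985956) (nat_lit 264) (nat_lit 5) (nat_lit 263) (nat_lit 5) (nat_lit 280) (nat_lit 5) (nat_lit 448) (nat_lit 435) (nat_lit 137)) (XT.lf (nat_lit 76) (nat_lit 57160041056) (nat_lit 0) (nat_lit 6960543064) (nat_lit 1292) (nat_lit 19476308441) (nat_lit 264) (nat_lit 5) (nat_lit 263) (nat_lit 5) (nat_lit 280) (nat_lit 5) (nat_lit 449) (nat_lit 435) (nat_lit 136))) (XT.nd (nat_lit 78) (nat_lit 0) (nat_lit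 0) (XT.lf (nat_lit 76) (nat_lit 17044904854) (nat_lit 0) (nat_lit 53823782916) (nat_lit 1292) (nat_lit 14070269745) (nat_lit 265) (nat_lit 5) (nat_lit 264) (nat_lit 5) (nat_lit 281) (nat_lit 5) (nat_lit 450) (nat_lit 435) (nat_lit 135)) (XT.lf (nat_lit 76) (nat_lit 62302439878) (nat_lit 0) (nat_lit 15851618021) (nat_lit 1292) (nat_lit 8157181937) (nat_lit 265) (nat_lit 5) (nat_lit 264) (nat_lit 5) (nat_lit 281) (nat_lit 5) (nat_lit 451) (nat_lit 435) (nat_lit 134))))))) (XT.nd (nat_lit 52260) (nat_lit 0) (nat_lit 1748) (XT.nd (nat_lit 546) (nat_lit 532) (nat_lit 0) (XT.nd (nat_lit 234) (nat_lit 1216) (nat_lit 0) (XT.nd (nat_lit 78) (nat_lit 760) (nat_lit 0) (XT.lf (nat_lit 0) (nat_lit 21386431837) (nat_lit 1216) (nat_lit 64700357302) (nat_lit 1292) (nat_lit 1625037603) (nat_lit 249) (nat_lit 5) (nat_lit 265) (nat_lit 5) (nat_lit 266) (nat_lit 5) (nat_lit 452) (nat_lit 435) (nat_lit 133)) (XT.nd (nat_lit 78) (nat_lit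 684) (nat_lit 0) (XT.lf (nat_lit 0) (nat_lit 5404918630) (nat_lit 1292) (nat_lit 20720203942) (nat_lit 76) (nat_lit 63015794373) (nat_lit 248) (nat_lit 5) (nat_lit 265) (nat_lit 5) (nat_lit 249) (nat_lit 5) (nat_lit 453) (nat_lit 435) (nat_lit 132)) (XT.lf (nat_lit 0) (nat_lit 13003492120) (nat_lit 760) (nat_lit 63979297110) (nat_lit 76) (nat_lit 13617896640) (nat_lit 239) (nat_lit 5) (nat_lit 249) (nat_lit 5) (nat_lit 240) (nat_lit 5) (nat_lit 454) (nat_lit 435) (nat_lit 131)))) (XT.nd (nat_lit 156) (nat_lit 608) (nat_lit 0) (XT.nd (nat_lit 78) (nat_lit 608) (nat_lit 0) (XT.lf (nat_lit 0) (nat_lit 21299648515) (nat_lit 760) (nat_lit 16551054667) (nat_lit 76) (nat_lit 54239456012) (nat_lit 239) (nat_lit 5) (nat_lit 249) (nat_lit 5) (nat_lit 240) (nat_lit 5) (nat_lit 455) (nat_lit 435) (nat_lit 130)) (XT.lf (nat_lit 0) (nat_lit 30187757433) (nat_lit 684) (nat_lit 60699013200) (nat_lit 76) (nat_lit 2727254150) (nat_lit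 231) (nat_lit 5) (nat_lit 240) (nat_lit 5) (nat_lit 232) (nat_lit 5) (nat_lit 456) (nat_lit 435) (nat_lit 129))) (XT.nd (nat_lit 78) (nat_lit 608) (nat_lit 0) (XT.lf (nat_lit 0) (nat_lit 39885730070) (nat_lit 684) (nat_lit 11350984770) (nat_lit 76) (nat_lit 43930594984) (nat_lit 231) (nat_lit 5) (nat_lit 240) (nat_lit 5) (nat_lit 232) (nat_lit 5) (nat_lit 457) (nat_lit 435) (nat_lit 128)) (XT.lf (nat_lit 0) (nat_lit 40262848562) (nat_lit 608) (nat_lit 9998507009) (nat_lit 684) (nat_lit 46494236530) (nat_lit 223) (nat_lit 5) (nat_lit 231) (nat_lit 5) (nat_lit 232) (nat_lit 5) (nat_lit 458) (nat_lit 435) (nat_lit 127))))) (XT.nd (nat_lit 51402) (nat_lit 0) (nat_lit 3116) (XT.nd (nat_lit 78) (nat_lit 532) (nat_lit 0) (XT.lf (nat_lit 0) (nat_lit 61375883632) (nat_lit 684) (nat_lit 5043941000) (nat_lit 76) (nat_lit 31958869292) (nat_lit 223) (nat_lit 5) (nat_lit 232) (nat_lit 5) (nat_lit 224) (nat_lit 5) (nat_lit 459)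 (nat_lit 435) (nat_lit 126)) (XT.nd (nat_lit 51246) (nat_lit 0) (nat_lit 3116) (XT.lf (nat_lit 0) (nat_lit 48801313500) (nat_lit 532) (nat_lit 24590335199) (nat_lit 608) (nat_lit 26641806157) (nat_lit 216) (nat_lit 5) (nat_lit 223) (nat_lit 5) (nat_lit 224) (nat_lit 5) (nat_lit 460) (nat_lit 435) (nat_lit 125)) (XT.lf (nat_lit 0) (nat_lit 10874102220) (nat_lit 1292) (nat_lit 11928799111) (nat_lit 1292) (nat_lit 11928799111) (nat_lit 257) (nat_lit 3) (nat_lit 274) (nat_lit 3) (nat_lit 274) (nat_lit 5) (nat_lit 436) (nat_lit 436) (nat_lit 148)))) (XT.nd (nat_lit 156) (nat_lit 0) (nat_lit 76) (XT.nd (nat_lit 78) (nat_lit 0) (nat_lit 76) (XT.lf (nat_lit 76) (nat_lit 10095570112) (nat_lit 0) (nat_lit 12089296593) (nat_lit 1292) (nat_lit 48317167639) (nat_lit 258) (nat_lit 5) (nat_lit 257) (nat_lit 3) (nat_lit 274) (nat_lit 5) (nat_lit 437) (nat_lit 436) (nat_lit 147)) (XT.lf (nat_lit 0) (nat_lit 23093043002) (nat_lit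 1216) (nat_lit 26226523663) (nat_lit 1292) (nat_lit 22238507886) (nat_lit 258) (nat_lit 5) (nat_lit 274) (nat_lit 5) (nat_lit 275) (nat_lit 5) (nat_lit 438) (nat_lit 436) (nat_lit 146))) (XT.nd (nat_lit 78) (nat_lit 0) (nat_lit 76) (XT.lf (nat_lit 76) (nat_lit 9035142828) (nat_lit 0) (nat_lit 15199361339) (nat_lit 1292) (nat_lit 48405110774) (nat_lit 259) (nat_lit 5) (nat_lit 258) (nat_lit 5) (nat_lit 275) (nat_lit 5) (nat_lit 439) (nat_lit 436) (nat_lit 145)) (XT.lf (nat_lit 0) (nat_lit 25868892428) (nat_lit 1216) (nat_lit 28048018279) (nat_lit 1292) (nat_lit 19822930502) (nat_lit 259) (nat_lit 5) (nat_lit 275) (nat_lit 5) (nat_lit 276) (nat_lit 5) (nat_lit 440) (nat_lit 436) (nat_lit 144)))))) (XT.nd (nat_lit 546) (nat_lit 1520) (nat_lit 0) (XT.nd (nat_lit 234) (nat_lit 0) (nat_lit 152) (XT.nd (nat_lit 78) (nat_lit 0) (nat_lit 76) (XT.lf (nat_lit 76) (nat_lit 8592011470) (nat_lit 0) (nat_lit 19192902032) (nat_lit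 1292) (nat_lit 47081182883) (nat_lit 260) (nat_lit 5) (nat_lit 259) (nat_lit 5) (nat_lit 276) (nat_lit 5) (nat_lit 441) (nat_lit 436) (nat_lit 143)) (XT.nd (nat_lit 78) (nat_lit 0) (nat_lit 0) (XT.lf (nat_lit 0) (nat_lit 30203291312) (nat_lit 1216) (nat_lit 29273858887) (nat_lit 1292) (nat_lit 16535642885) (nat_lit 260) (nat_lit 5) (nat_lit 276) (nat_lit 5) (nat_lit 277) (nat_lit 5) (nat_lit 442) (nat_lit 436) (nat_lit 142)) (XT.lf (nat_lit 76) (nat_lit 8818124230) (nat_lit 0) (nat_lit 24150437450) (nat_lit 1292) (nat_lit 44217098916) (nat_lit 261) (nat_lit 5) (nat_lit 260) (nat_lit 5) (nat_lit 277) (nat_lit 5) (nat_lit 443) (nat_lit 436) (nat_lit 141)))) (XT.nd (nat_lit 156) (nat_lit 0) (nat_lit 76) (XT.nd (nat_lit 78) (nat_lit 0) (nat_lit 0) (XT.lf (nat_lit 0) (nat_lit 36232505330) (nat_lit 1216) (nat_lit 29852747400) (nat_lit 1292) (nat_lit 12295990091) (nat_lit 261) (nat_lit 5) (nat_lit 277) (nat_lit 5) (nat_lit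 278) (nat_lit 5) (nat_lit 444) (nat_lit 436) (nat_lit 140)) (XT.lf (nat_lit 76) (nat_lit 9768697080) (nat_lit 0) (nat_lit 30158258107) (nat_lit 1292) (nat_lit 39675759828) (nat_lit 262) (nat_lit 5) (nat_lit 261) (nat_lit 5) (nat_lit 278) (nat_lit 5) (nat_lit 445) (nat_lit 436) (nat_lit 139))) (XT.nd (nat_lit 78) (nat_lit 0) (nat_lit 0) (XT.lf (nat_lit 0) (nat_lit 44102073432) (nat_lit 1216) (nat_lit 29730157030) (nat_lit 1292) (nat_lit 7017506001) (nat_lit 262) (nat_lit 5) (nat_lit 278) (nat_lit 5) (nat_lit 279) (nat_lit 5) (nat_lit 446) (nat_lit 436) (nat_lit 138)) (XT.lf (nat_lit 76) (nat_lit 11502376523) (nat_lit 0) (nat_lit 37308828139) (nat_lit 1292) (nat_lit 33310701241) (nat_lit 263) (nat_lit 5) (nat_lit 262) (nat_lit 5) (nat_lit 279) (nat_lit 5) (nat_lit 447) (nat_lit 436) (nat_lit 137))))) (XT.nd (nat_lit 312) (nat_lit 1824) (nat_lit 0) (XT.nd (nat_lit 156) (nat_lit 0) (nat_lit 0) (XT.nd (nat_lit 78) (nat_lit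 0) (nat_lit 0) (XT.lf (nat_lit 0) (nat_lit 53967385974) (nat_lit 1216) (nat_lit 28848173180) (nat_lit 1292) (nat_lit 607508113) (nat_lit 263) (nat_lit 5) (nat_lit 279) (nat_lit 5) (nat_lit 280) (nat_lit 5) (nat_lit 448) (nat_lit 436) (nat_lit 136)) (XT.lf (nat_lit 76) (nat_lit 14081407972) (nat_lit 0) (nat_lit 45701214557) (nat_lit 1292) (nat_lit 24965509974) (nat_lit 264) (nat_lit 5) (nat_lit 263) (nat_lit 5) (nat_lit 280) (nat_lit 5) (nat_lit 449) (nat_lit 436) (nat_lit 135))) (XT.nd (nat_lit 78) (nat_lit 0) (nat_lit 76) (XT.lf (nat_lit 76) (nat_lit 58889938388) (nat_lit 0) (nat_lit 7173312451) (nat_lit 1292) (nat_lit 20040970937) (nat_lit 264) (nat_lit 5) (nat_lit 263) (nat_lit 5) (nat_lit 280) (nat_lit 5) (nat_lit 450) (nat_lit 436) (nat_lit 134)) (XT.lf (nat_lit 76) (nat_lit 17571809626) (nat_lit 0) (nat_lit 55441545799) (nat_lit 1292) (nat_lit 14473206696) (nat_lit 265) (nat_lit 5) (nat_lit 264) (nat_lit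 5) (nat_lit 281) (nat_lit 5) (nat_lit 451) (nat_lit 436) (nat_lit 133)))) (XT.nd (nat_lit 156) (nat_lit 760) (nat_lit 0) (XT.nd (nat_lit 78) (nat_lit 1140) (nat_lit 0) (XT.lf (nat_lit 76) (nat_lit 64186617565) (nat_lit 0) (nat_lit 16330127139) (nat_lit 1292) (nat_lit 8383284637) (nat_lit 265) (nat_lit 5) (nat_lit 264) (nat_lit 5) (nat_lit 281) (nat_lit 5) (nat_lit 452) (nat_lit 436) (nat_lit 132)) (XT.lf (nat_lit 0) (nat_lit 22043551699) (nat_lit 1216) (nat_lit 66643501641) (nat_lit 1292) (nat_lit 1655592819) (nat_lit 249) (nat_lit 5) (nat_lit 265) (nat_lit 5) (nat_lit 266) (nat_lit 5) (nat_lit 453) (nat_lit 436) (nat_lit 131))) (XT.nd (nat_lit 78) (nat_lit 684) (nat_lit 0) (XT.lf (nat_lit 0) (nat_lit 5584387396) (nat_lit 1292) (nat_lit 21326385418) (nat_lit 76) (nat_lit 64903846753) (nat_lit 248) (nat_lit 5) (nat_lit 265) (nat_lit 5) (nat_lit 249) (nat_lit 5) (nat_lit 454) (nat_lit 436) (nat_lit 130)) (XT.lf (nat_lit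 0) (nat_lit 13410544161) (nat_lit 760) (nat_lit 65882872353) (nat_lit 76) (nat_lit 14024776416) (nat_lit 239) (nat_lit 5) (nat_lit 249) (nat_lit 5) (nat_lit 240) (nat_lit 5) (nat_lit 455) (nat_lit 436) (nat_lit 129))))))))
noncomputable def xc253 : XT := (XT.nd (nat_lit 104988) (nat_lit 0) (nat_lit 1216) (XT.nd (nat_lit 52416) (nat_lit 0) (nat_lit 608) (XT.nd (nat_lit 51870) (nat_lit 0) (nat_lit 2660) (XT.nd (nat_lit 234) (nat_lit 608) (nat_lit 0) (XT.nd (nat_lit 78) (nat_lit 608) (nat_lit 0) (XT.lf (nat_lit 0) (nat_lit 21955091638) (nat_lit 760) (nat_lit 17032242938) (nat_lit 76) (nat_lit 55865030835) (nat_lit 239) (nat_lit 5) (nat_lit 249) (nat_lit 5) (nat_lit 240) (nat_lit 5) (nat_lit 456) (nat_lit 436) (nat_lit 128)) (XT.nd (nat_lit 78) (nat_lit 0) (nat_lit 0) (XT.lf (nat_lit 0) (nat_lit 31109501719) (nat_lit 684) (nat_lit 62504293318) (nat_lit 76) (nat_lit 2808162339) (nat_lit 231) (nat_lit 5) (nat_lit 240)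 (nat_lit 5) (nat_lit 232) (nat_lit 5) (nat_lit 457) (nat_lit 436) (nat_lit 127)) (XT.lf (nat_lit 0) (nat_lit 41097944266) (nat_lit 684) (nat_lit 11676281033) (nat_lit 76) (nat_lit 45247629886) (nat_lit 231) (nat_lit 5) (nat_lit 240) (nat_lit 5) (nat_lit 232) (nat_lit 5) (nat_lit 458) (nat_lit 436) (nat_lit 126)))) (XT.nd (nat_lit 51480) (nat_lit 0) (nat_lit 2584) (XT.nd (nat_lit 51402) (nat_lit 0) (nat_lit 2584) (XT.lf (nat_lit 0) (nat_lit 41485817953) (nat_lit 608) (nat_lit 10298709974) (nat_lit 684) (nat_lit 47873267458) (nat_lit 223) (nat_lit 5) (nat_lit 231) (nat_lit 5) (nat_lit 232) (nat_lit 5) (nat_lit 459) (nat_lit 436) (nat_lit 125)) (XT.lf (nat_lit 0) (nat_lit 11213590934) (nat_lit 1292) (nat_lit 12279829107) (nat_lit 1292) (nat_lit 12279829107) (nat_lit 257) (nat_lit 3) (nat_lit 274) (nat_lit 3) (nat_lit 274) (nat_lit 5) (nat_lit 437) (nat_lit 437) (nat_lit 146))) (XT.nd (nat_lit 78) (nat_lit 0) (nat_lit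 76) (XT.lf (nat_lit 76) (nat_lit 10411971171) (nat_lit 0) (nat_lit 12464330170) (nat_lit 1292) (nat_lit 49740008951) (nat_lit 258) (nat_lit 5) (nat_lit 257) (nat_lit 3) (nat_lit 274) (nat_lit 5) (nat_lit 438) (nat_lit 437) (nat_lit 145)) (XT.lf (nat_lit 0) (nat_lit 23810853586) (nat_lit 1216) (nat_lit 26999302092) (nat_lit 1292) (nat_lit 22893902351) (nat_lit 258) (nat_lit 5) (nat_lit 274) (nat_lit 5) (nat_lit 275) (nat_lit 5) (nat_lit 439) (nat_lit 437) (nat_lit 144))))) (XT.nd (nat_lit 234) (nat_lit 0) (nat_lit 152) (XT.nd (nat_lit 78) (nat_lit 0) (nat_lit 76) (XT.lf (nat_lit 76) (nat_lit 9320076970) (nat_lit 0) (nat_lit 15665886322) (nat_lit 1292) (nat_lit 49832099438) (nat_lit 259) (nat_lit 5) (nat_lit 258) (nat_lit 5) (nat_lit 275) (nat_lit 5) (nat_lit 440) (nat_lit 437) (nat_lit 143)) (XT.nd (nat_lit 78) (nat_lit 0) (nat_lit 0) (XT.lf (nat_lit 0) (nat_lit 26668573416) (nat_lit 1216) (nat_lit 28875165746)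 (nat_lit 1292) (nat_lit 20407581147) (nat_lit 259) (nat_lit 5) (nat_lit 275) (nat_lit 5) (nat_lit 276) (nat_lit 5) (nat_lit 441) (nat_lit 437) (nat_lit 142)) (XT.lf (nat_lit 76) (nat_lit 8863924767) (nat_lit 0) (nat_lit 19777598609) (nat_lit 1292) (nat_lit 48469856540) (nat_lit 260) (nat_lit 5) (nat_lit 259) (nat_lit 5) (nat_lit 276) (nat_lit 5) (nat_lit 442) (nat_lit 437) (nat_lit 141)))) (XT.nd (nat_lit 156) (nat_lit 0) (nat_lit 76) (XT.nd (nat_lit 78) (nat_lit 0) (nat_lit 0) (XT.lf (nat_lit 0) (nat_lit 31131697649) (nat_lit 1216) (nat_lit 30137571784) (nat_lit 1292) (nat_lit 17023230949) (nat_lit 260) (nat_lit 5) (nat_lit 276) (nat_lit 5) (nat_lit 277) (nat_lit 5) (nat_lit 443) (nat_lit 437) (nat_lit 140)) (XT.lf (nat_lit 76) (nat_lit 9097028642) (nat_lit 0) (nat_lit 24882385795) (nat_lit 1292) (nat_lit 45521155045) (nat_lit 261) (nat_lit 5) (nat_lit 260) (nat_lit 5) (nat_lit 277) (nat_lit 5) (nat_lit 444) (nat_lit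 437) (nat_lit 139))) (XT.nd (nat_lit 78) (nat_lit 0) (nat_lit 0) (XT.lf (nat_lit 0) (nat_lit 37340572174) (nat_lit 1216) (nat_lit 30733676337) (nat_lit 1292) (nat_lit 12657791995) (nat_lit 261) (nat_lit 5) (nat_lit 277) (nat_lit 5) (nat_lit 278) (nat_lit 5) (nat_lit 445) (nat_lit 437) (nat_lit 138)) (XT.lf (nat_lit 76) (nat_lit 10076267815) (nat_lit 0) (nat_lit 31069112867) (nat_lit 1292) (nat_lit 40844790628) (nat_lit 262) (nat_lit 5) (nat_lit 261) (nat_lit 5) (nat_lit 278) (nat_lit 5) (nat_lit 446) (nat_lit 437) (nat_lit 137)))))) (XT.nd (nat_lit 546) (nat_lit 2356) (nat_lit 0) (XT.nd (nat_lit 234) (nat_lit 0) (nat_lit 76) (XT.nd (nat_lit 78) (nat_lit 0) (nat_lit 0) (XT.lf (nat_lit 0) (nat_lit 45445094990) (nat_lit 1216) (nat_lit 30607310592) (nat_lit 1292) (nat_lit 7222217738) (nat_lit 262) (nat_lit 5) (nat_lit 278) (nat_lit 5) (nat_lit 279) (nat_lit 5) (nat_lit 447) (nat_lit 437) (nat_lit 136)) (XT.nd (nat_lit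 78) (nat_lit 0) (nat_lit 76) (XT.lf (nat_lit 76) (nat_lit 11862054348) (nat_lit 0) (nat_lit 38433004875) (nat_lit 1292) (nat_lit 34289912035) (nat_lit 263) (nat_lit 5) (nat_lit 262) (nat_lit 5) (nat_lit 279) (nat_lit 5) (nat_lit 448) (nat_lit 437) (nat_lit 135)) (XT.lf (nat_lit 0) (nat_lit 55605311636) (nat_lit 1216) (nat_lit 29698816854) (nat_lit 1292) (nat_lit 621057587) (nat_lit 263) (nat_lit 5) (nat_lit 279) (nat_lit 5) (nat_lit 280) (nat_lit 5) (nat_lit 449) (nat_lit 437) (nat_lit 134)))) (XT.nd (nat_lit 156) (nat_lit 0) (nat_lit 76) (XT.nd (nat_lit 78) (nat_lit 0) (nat_lit 0) (XT.lf (nat_lit 76) (nat_lit 14518506619) (nat_lit 0) (nat_lit 47076088951) (nat_lit 1292) (nat_lit 25695420169) (nat_lit 264) (nat_lit 5) (nat_lit 263) (nat_lit 5) (nat_lit 280) (nat_lit 5) (nat_lit 450) (nat_lit 437) (nat_lit 133)) (XT.lf (nat_lit 76) (nat_lit 60670866063) (nat_lit 0) (nat_lit 7392237996) (nat_lit 1292) (nat_lit 20623699963)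 (nat_lit 264) (nat_lit 5) (nat_lit 263) (nat_lit 5) (nat_lit 280) (nat_lit 5) (nat_lit 451) (nat_lit 437) (nat_lit 132))) (XT.nd (nat_lit 78) (nat_lit 0) (nat_lit 0) (XT.lf (nat_lit 76) (nat_lit 18113628469) (nat_lit 0) (nat_lit 57107666520) (nat_lit 1292) (nat_lit 14889332258) (nat_lit 265) (nat_lit 5) (nat_lit 264) (nat_lit 5) (nat_lit 281) (nat_lit 5) (nat_lit 452) (nat_lit 437) (nat_lit 131)) (XT.lf (nat_lit 76) (nat_lit 66126453524) (nat_lit 0) (nat_lit 16822821582) (nat_lit 1292) (nat_lit 8617238867) (nat_lit 265) (nat_lit 5) (nat_lit 264) (nat_lit 5) (nat_lit 281) (nat_lit 5) (nat_lit 453) (nat_lit 437) (nat_lit 130))))) (XT.nd (nat_lit 312) (nat_lit 608) (nat_lit 0) (XT.nd (nat_lit 156) (nat_lit 684) (nat_lit 0) (XT.nd (nat_lit 78) (nat_lit 76) (nat_lit 0) (XT.lf (nat_lit 0) (nat_lit 22719493849) (nat_lit 1216) (nat_lit 68644817831) (nat_lit 1292) (nat_lit 1688109212) (nat_lit 249) (nat_lit 5) (nat_lit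 265) (nat_lit 5) (nat_lit 266) (nat_lit 5) (nat_lit 454) (nat_lit 437) (nat_lit 129)) (XT.lf (nat_lit 0) (nat_lit 5768245918) (nat_lit 1292) (nat_lit 21951637775) (nat_lit 76) (nat_lit 66848679706) (nat_lit 248) (nat_lit 5) (nat_lit 265) (nat_lit 5) (nat_lit 249) (nat_lit 5) (nat_lit 455) (nat_lit 437) (nat_lit 128))) (XT.nd (nat_lit 78) (nat_lit 0) (nat_lit 0) (XT.lf (nat_lit 0) (nat_lit 13828834921) (nat_lit 760) (nat_lit 67844462049) (nat_lit 76) (nat_lit 14443957711) (nat_lit 239) (nat_lit 5) (nat_lit 249) (nat_lit 5) (nat_lit 240) (nat_lit 5) (nat_lit 456) (nat_lit 437) (nat_lit 127)) (XT.lf (nat_lit 0) (nat_lit 22629253547) (nat_lit 760) (nat_lit 17528747629) (nat_lit 76) (nat_lit 57539465257) (nat_lit 239) (nat_lit 5) (nat_lit 249) (nat_lit 5) (nat_lit 240) (nat_lit 5) (nat_lit 457) (nat_lit 437) (nat_lit 126)))) (XT.nd (nat_lit 51558) (nat_lit 0) (nat_lit 1976) (XT.nd (nat_lit 78) (nat_lit 0) (nat_lit 0)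 (XT.lf (nat_lit 0) (nat_lit 32057973463) (nat_lit 684) (nat_lit 64364632525) (nat_lit 76) (nat_lit 2891549979) (nat_lit 231) (nat_lit 5) (nat_lit 240) (nat_lit 5) (nat_lit 232) (nat_lit 5) (nat_lit 458) (nat_lit 437) (nat_lit 125)) (XT.lf (nat_lit 0) (nat_lit 42345626956) (nat_lit 684) (nat_lit 12012210637) (nat_lit 76) (nat_lit 46604226521) (nat_lit 231) (nat_lit 5) (nat_lit 240) (nat_lit 5) (nat_lit 232) (nat_lit 5) (nat_lit 459) (nat_lit 437) (nat_lit 124))) (XT.nd (nat_lit 78) (nat_lit 0) (nat_lit 0) (XT.lf (nat_lit 0) (nat_lit 11562502806) (nat_lit 1292) (nat_lit 12641782301) (nat_lit 1292) (nat_lit 12641782301) (nat_lit 257) (nat_lit 3) (nat_lit 274) (nat_lit 3) (nat_lit 274) (nat_lit 5) (nat_lit 438) (nat_lit 438) (nat_lit 144)) (XT.lf (nat_lit 76) (nat_lit 10737087357) (nat_lit 0) (nat_lit 12849905545) (nat_lit 1292) (nat_lit 51207066682) (nat_lit 258) (nat_lit 5) (nat_lit 257) (nat_lit 3) (nat_lit 274)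 (nat_lit 5) (nat_lit 439) (nat_lit 438) (nat_lit 143))))))) (XT.nd (nat_lit 1092) (nat_lit 1444) (nat_lit 0) (XT.nd (nat_lit 546) (nat_lit 0) (nat_lit 228) (XT.nd (nat_lit 234) (nat_lit 0) (nat_lit 76) (XT.nd (nat_lit 78) (nat_lit 0) (nat_lit 0) (XT.lf (nat_lit 0) (nat_lit 24548762279) (nat_lit 1216) (nat_lit 27796068523) (nat_lit 1292) (nat_lit 23569633767) (nat_lit 258) (nat_lit 5) (nat_lit 274) (nat_lit 5) (nat_lit 275) (nat_lit 5) (nat_lit 440) (nat_lit 438) (nat_lit 142)) (XT.nd (nat_lit 78) (nat_lit 0) (nat_lit 76) (XT.lf (nat_lit 76) (nat_lit 9612762375) (nat_lit 0) (nat_lit 16145801777) (nat_lit 1292) (nat_lit 51303342316) (nat_lit 259) (nat_lit 5) (nat_lit 258) (nat_lit 5) (nat_lit 275) (nat_lit 5) (nat_lit 441) (nat_lit 438) (nat_lit 141)) (XT.lf (nat_lit 0) (nat_lit 27490889282) (nat_lit 1216) (nat_lit 29727948118) (nat_lit 1292) (nat_lit 21010347492) (nat_lit 259) (nat_lit 5) (nat_lit 275) (nat_lit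 5) (nat_lit 276) (nat_lit 5) (nat_lit 442) (nat_lit 438) (nat_lit 140)))) (XT.nd (nat_lit 156) (nat_lit 0) (nat_lit 76) (XT.nd (nat_lit 78) (nat_lit 0) (nat_lit 76) (XT.lf (nat_lit 76) (nat_lit 9143183027) (nat_lit 0) (nat_lit 20379324641) (nat_lit 1292) (nat_lit 49901554434) (nat_lit 260) (nat_lit 5) (nat_lit 259) (nat_lit 5) (nat_lit 276) (nat_lit 5) (nat_lit 443) (nat_lit 438) (nat_lit 139)) (XT.lf (nat_lit 0) (nat_lit 32086675630) (nat_lit 1216) (nat_lit 31028028591) (nat_lit 1292) (nat_lit 17525933511) (nat_lit 260) (nat_lit 5) (nat_lit 276) (nat_lit 5) (nat_lit 277) (nat_lit 5) (nat_lit 444) (nat_lit 438) (nat_lit 138))) (XT.nd (nat_lit 78) (nat_lit 0) (nat_lit 76) (XT.lf (nat_lit 76) (nat_lit 9383475824) (nat_lit 0) (nat_lit 25635865777) (nat_lit 1292) (nat_lit 46865621972) (nat_lit 261) (nat_lit 5) (nat_lit 260) (nat_lit 5) (nat_lit 277) (nat_lit 5) (nat_lit 445) (nat_lit 438) (nat_lit 137)) (XT.lf (nat_lit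 0) (nat_lit 38480670274) (nat_lit 1216) (nat_lit 31641874312) (nat_lit 1292) (nat_lit 13030854250) (nat_lit 261) (nat_lit 5) (nat_lit 277) (nat_lit 5) (nat_lit 278) (nat_lit 5) (nat_lit 446) (nat_lit 438) (nat_lit 136))))) (XT.nd (nat_lit 234) (nat_lit 0) (nat_lit 152) (XT.nd (nat_lit 78) (nat_lit 0) (nat_lit 76) (XT.lf (nat_lit 76) (nat_lit 10392232750) (nat_lit 0) (nat_lit 32006942702) (nat_lit 1292) (nat_lit 42050111729) (nat_lit 262) (nat_lit 5) (nat_lit 261) (nat_lit 5) (nat_lit 278) (nat_lit 5) (nat_lit 447) (nat_lit 438) (nat_lit 135)) (XT.nd (nat_lit 78) (nat_lit 0) (nat_lit 0) (XT.lf (nat_lit 0) (nat_lit 46827261446) (nat_lit 1216) (nat_lit 31511625537) (nat_lit 1292) (nat_lit 7433404542) (nat_lit 262) (nat_lit 5) (nat_lit 278) (nat_lit 5) (nat_lit 279) (nat_lit 5) (nat_lit 448) (nat_lit 438) (nat_lit 134)) (XT.lf (nat_lit 76) (nat_lit 12231684034) (nat_lit 0) (nat_lit 39590624950) (nat_lit 1292) (nat_lit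 35299653564) (nat_lit 263) (nat_lit 5) (nat_lit 262) (nat_lit 5) (nat_lit 279) (nat_lit 5) (nat_lit 449) (nat_lit 438) (nat_lit 133)))) (XT.nd (nat_lit 156) (nat_lit 0) (nat_lit 0) (XT.nd (nat_lit 78) (nat_lit 0) (nat_lit 0) (XT.lf (nat_lit 0) (nat_lit 57291289896) (nat_lit 1216) (nat_lit 30575829507) (nat_lit 1292) (nat_lit 635281953) (nat_lit 263) (nat_lit 5) (nat_lit 279) (nat_lit 5) (nat_lit 280) (nat_lit 5) (nat_lit 450) (nat_lit 438) (nat_lit 132)) (XT.lf (nat_lit 76) (nat_lit 14967876888) (nat_lit 0) (nat_lit 48491989261) (nat_lit 1292) (nat_lit 26448321510) (nat_lit 264) (nat_lit 5) (nat_lit 263) (nat_lit 5) (nat_lit 280) (nat_lit 5) (nat_lit 451) (nat_lit 438) (nat_lit 131))) (XT.nd (nat_lit 78) (nat_lit 0) (nat_lit 76) (XT.lf (nat_lit 76) (nat_lit 62504404734) (nat_lit 0) (nat_lit 7617517410) (nat_lit 1292) (nat_lit 21224972842) (nat_lit 264) (nat_lit 5) (nat_lit 263) (nat_lit 5) (nat_lit 280) (nat_lit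 5) (nat_lit 452) (nat_lit 438) (nat_lit 130)) (XT.lf (nat_lit 76) (nat_lit 18670860072) (nat_lit 0) (nat_lit 58823605864) (nat_lit 1292) (nat_lit 15318978916) (nat_lit 265) (nat_lit 5) (nat_lit 264) (nat_lit 5) (nat_lit 281) (nat_lit 5) (nat_lit 453) (nat_lit 438) (nat_lit 129)))))) (XT.nd (nat_lit 52104) (nat_lit 0) (nat_lit 1444) (XT.nd (nat_lit 234) (nat_lit 684) (nat_lit 0) (XT.nd (nat_lit 78) (nat_lit 1216) (nat_lit 0) (XT.lf (nat_lit 76) (nat_lit 68123667275) (nat_lit 0) (nat_lit 17330136665) (nat_lit 1292) (nat_lit 8859218838) (nat_lit 265) (nat_lit 5) (nat_lit 264) (nat_lit 5) (nat_lit 281) (nat_lit 5) (nat_lit 454) (nat_lit 438) (nat_lit 128)) (XT.nd (nat_lit 78) (nat_lit 76) (nat_lit 0) (XT.lf (nat_lit 0) (nat_lit 23414874121) (nat_lit 1216) (nat_lit 70706058059) (nat_lit 1292) (nat_lit 1722585656) (nat_lit 249) (nat_lit 5) (nat_lit 265) (nat_lit 5) (nat_lit 266) (nat_lit 5) (nat_lit 455) (nat_lit 438)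 (nat_lit 127)) (XT.lf (nat_lit 0) (nat_lit 5956682964) (nat_lit 1292) (nat_lit 22596482313) (nat_lit 76) (nat_lit 68851988669) (nat_lit 248) (nat_lit 5) (nat_lit 265) (nat_lit 5) (nat_lit 249) (nat_lit 5) (nat_lit 456) (nat_lit 438) (nat_lit 126)))) (XT.nd (nat_lit 51714) (nat_lit 0) (nat_lit 1368) (XT.nd (nat_lit 78) (nat_lit 0) (nat_lit 0) (XT.lf (nat_lit 0) (nat_lit 14258757405) (nat_lit 760) (nat_lit 69865754555) (nat_lit 76) (nat_lit 14875804110) (nat_lit 239) (nat_lit 5) (nat_lit 249) (nat_lit 5) (nat_lit 240) (nat_lit 5) (nat_lit 457) (nat_lit 438) (nat_lit 125)) (XT.lf (nat_lit 0) (nat_lit 23322750024) (nat_lit 760) (nat_lit 18040977674) (nat_lit 76) (nat_lit 59264219766) (nat_lit 239) (nat_lit 5) (nat_lit 249) (nat_lit 5) (nat_lit 240) (nat_lit 5) (nat_lit 458) (nat_lit 438) (nat_lit 124))) (XT.nd (nat_lit 78) (nat_lit 0) (nat_lit 0) (XT.lf (nat_lit 0) (nat_lit 11921164246) (nat_lit 1292) (nat_lit 13014963870)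 (nat_lit 1292) (nat_lit 13014963870) (nat_lit 257) (nat_lit 3) (nat_lit 274) (nat_lit 3) (nat_lit 274) (nat_lit 5) (nat_lit 439) (nat_lit 439) (nat_lit 142)) (XT.lf (nat_lit 76) (nat_lit 11071224721) (nat_lit 0) (nat_lit 13246379683) (nat_lit 1292) (nat_lit 52719579430) (nat_lit 258) (nat_lit 5) (nat_lit 257) (nat_lit 3) (nat_lit 274) (nat_lit 5) (nat_lit 440) (nat_lit 439) (nat_lit 141))))) (XT.nd (nat_lit 312) (nat_lit 0) (nat_lit 152) (XT.nd (nat_lit 156) (nat_lit 0) (nat_lit 76) (XT.nd (nat_lit 78) (nat_lit 0) (nat_lit 0) (XT.lf (nat_lit 0) (nat_lit 25307454466) (nat_lit 1216) (nat_lit 28617496407) (nat_lit 1292) (nat_lit 24266273487) (nat_lit 258) (nat_lit 5) (nat_lit 274) (nat_lit 5) (nat_lit 275) (nat_lit 5) (nat_lit 441) (nat_lit 439) (nat_lit 140)) (XT.lf (nat_lit 76) (nat_lit 9913477319) (nat_lit 0) (nat_lit 16639544164) (nat_lit 1292) (nat_lit 52820084111) (nat_lit 259) (nat_lit 5) (nat_lit 258) (nat_lit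 5) (nat_lit 275) (nat_lit 5) (nat_lit 442) (nat_lit 439) (nat_lit 139))) (XT.nd (nat_lit 78) (nat_lit 0) (nat_lit 0) (XT.lf (nat_lit 0) (nat_lit 28336596885) (nat_lit 1216) (nat_lit 30607087344) (nat_lit 1292) (nat_lit 21631739932) (nat_lit 259) (nat_lit 5) (nat_lit 275) (nat_lit 5) (nat_lit 276) (nat_lit 5) (nat_lit 443) (nat_lit 439) (nat_lit 138)) (XT.lf (nat_lit 76) (nat_lit 9430053233) (nat_lit 0) (nat_lit 20998620371) (nat_lit 1292) (nat_lit 51377488990) (nat_lit 260) (nat_lit 5) (nat_lit 259) (nat_lit 5) (nat_lit 276) (nat_lit 5) (nat_lit 444) (nat_lit 439) (nat_lit 137)))) (XT.nd (nat_lit 156) (nat_lit 0) (nat_lit 76) (XT.nd (nat_lit 78) (nat_lit 0) (nat_lit 0) (XT.lf (nat_lit 0) (nat_lit 33069095911) (nat_lit 1216) (nat_lit 31945983837) (nat_lit 1292) (nat_lit 18044176060) (nat_lit 260) (nat_lit 5) (nat_lit 276) (nat_lit 5) (nat_lit 277) (nat_lit 5) (nat_lit 445) (nat_lit 439) (nat_lit 136)) (XT.lf (nat_lit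 76) (nat_lit 9677739382) (nat_lit 0) (nat_lit 26411547848) (nat_lit 1292) (nat_lit 48251638021) (nat_lit 261) (nat_lit 5) (nat_lit 260) (nat_lit 5) (nat_lit 277) (nat_lit 5) (nat_lit 446) (nat_lit 439) (nat_lit 135))) (XT.nd (nat_lit 78) (nat_lit 0) (nat_lit 0) (XT.lf (nat_lit 0) (nat_lit 39653830070) (nat_lit 1216) (nat_lit 32578111110) (nat_lit 1292) (nat_lit 13415491345) (nat_lit 261) (nat_lit 5) (nat_lit 277) (nat_lit 5) (nat_lit 278) (nat_lit 5) (nat_lit 447) (nat_lit 439) (nat_lit 134)) (XT.lf (nat_lit 76) (nat_lit 10716891522) (nat_lit 0) (nat_lit 32972576988) (nat_lit 1292) (nat_lit 43292741843) (nat_lit 262) (nat_lit 5) (nat_lit 261) (nat_lit 5) (nat_lit 278) (nat_lit 5) (nat_lit 448) (nat_lit 439) (nat_lit 133))))))))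
noncomputable def xc254 : XT := (XT.nd (nat_lit 105690) (nat_lit 0) (nat_lit 1368) (XT.nd (nat_lit 52728) (nat_lit 0) (nat_lit 760) (XT.nd (nat_lit 546) (nat_lit 1748) (nat_lit 0) (XT.nd (nat_lit 234) (nat_lit 0) (nat_lit 76) (XT.nd (nat_lit 78) (nat_lit 0) (nat_lit 0) (XT.lf (nat_lit 0) (nat_lit 48249812918) (nat_lit 1216) (nat_lit 32443868099) (nat_lit 1292) (nat_lit 7651241509) (nat_lit 262) (nat_lit 5) (nat_lit 278) (nat_lit 5) (nat_lit 279) (nat_lit 5) (nat_lit 449) (nat_lit 439) (nat_lit 132)) (XT.nd (nat_lit 78) (nat_lit 0) (nat_lit 76) (XT.lf (nat_lit 76) (nat_lit 12611612267) (nat_lit 0) (nat_lit 40782707851) (nat_lit 1292) (nat_lit 36340775481) (nat_lit 263) (nat_lit 5) (nat_lit 262) (nat_lit 5) (nat_lit 279) (nat_lit 5) (nat_lit 450) (nat_lit 439) (nat_lit 131)) (XT.lf (nat_lit 0) (nat_lit 59026824626) (nat_lit 1216) (nat_lit 31479953432) (nat_lit 1292) (nat_lit 650186050) (nat_lit 263) (nat_lit 5) (nat_lit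 279) (nat_lit 5) (nat_lit 280) (nat_lit 5) (nat_lit 451) (nat_lit 439) (nat_lit 130)))) (XT.nd (nat_lit 156) (nat_lit 0) (nat_lit 76) (XT.nd (nat_lit 78) (nat_lit 0) (nat_lit 0) (XT.lf (nat_lit 76) (nat_lit 15429935224) (nat_lit 0) (nat_lit 49950158914) (nat_lit 1292) (nat_lit 27224840942) (nat_lit 264) (nat_lit 5) (nat_lit 263) (nat_lit 5) (nat_lit 280) (nat_lit 5) (nat_lit 452) (nat_lit 439) (nat_lit 129)) (XT.lf (nat_lit 76) (nat_lit 64392179623) (nat_lit 0) (nat_lit 7849353587) (nat_lit 1292) (nat_lit 21845284927) (nat_lit 264) (nat_lit 5) (nat_lit 263) (nat_lit 5) (nat_lit 280) (nat_lit 5) (nat_lit 453) (nat_lit 439) (nat_lit 128))) (XT.nd (nat_lit 78) (nat_lit 0) (nat_lit 0) (XT.lf (nat_lit 76) (nat_lit 19244015141) (nat_lit 0) (nat_lit 60590867861) (nat_lit 1292) (nat_lit 15762492754) (nat_lit 265) (nat_lit 5) (nat_lit 264) (nat_lit 5) (nat_lit 281) (nat_lit 5) (nat_lit 454) (nat_lit 439) (nat_lit 127))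 (XT.lf (nat_lit 76) (nat_lit 70180027067) (nat_lit 0) (nat_lit 17852520203) (nat_lit 1292) (nat_lit 9109407511) (nat_lit 265) (nat_lit 5) (nat_lit 264) (nat_lit 5) (nat_lit 281) (nat_lit 5) (nat_lit 455) (nat_lit 439) (nat_lit 126))))) (XT.nd (nat_lit 51870) (nat_lit 0) (nat_lit 1368) (XT.nd (nat_lit 78) (nat_lit 760) (nat_lit 0) (XT.lf (nat_lit 0) (nat_lit 24130323885) (nat_lit 1216) (nat_lit 72829026673) (nat_lit 1292) (nat_lit 1759024437) (nat_lit 249) (nat_lit 5) (nat_lit 265) (nat_lit 5) (nat_lit 266) (nat_lit 5) (nat_lit 456) (nat_lit 439) (nat_lit 125)) (XT.nd (nat_lit 78) (nat_lit 684) (nat_lit 0) (XT.lf (nat_lit 0) (nat_lit 6149889692) (nat_lit 1292) (nat_lit 23261458887) (nat_lit 76) (nat_lit 70915520402) (nat_lit 248) (nat_lit 5) (nat_lit 265) (nat_lit 5) (nat_lit 249) (nat_lit 5) (nat_lit 457) (nat_lit 439) (nat_lit 124)) (XT.lf (nat_lit 0) (nat_lit 14700713206) (nat_lit 760) (nat_lit 71948491867) (nat_lit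 76) (nat_lit 15320690418) (nat_lit 239) (nat_lit 5) (nat_lit 249) (nat_lit 5) (nat_lit 240) (nat_lit 5) (nat_lit 458) (nat_lit 439) (nat_lit 123)))) (XT.nd (nat_lit 156) (nat_lit 0) (nat_lit 76) (XT.nd (nat_lit 78) (nat_lit 0) (nat_lit 0) (XT.lf (nat_lit 0) (nat_lit 12289908944) (nat_lit 1292) (nat_lit 13399689438) (nat_lit 1292) (nat_lit 13399689438) (nat_lit 257) (nat_lit 3) (nat_lit 274) (nat_lit 3) (nat_lit 274) (nat_lit 5) (nat_lit 440) (nat_lit 440) (nat_lit 140)) (XT.lf (nat_lit 76) (nat_lit 11414695937) (nat_lit 0) (nat_lit 13654117923) (nat_lit 1292) (nat_lit 54278827995) (nat_lit 258) (nat_lit 5) (nat_lit 257) (nat_lit 3) (nat_lit 274) (nat_lit 5) (nat_lit 441) (nat_lit 440) (nat_lit 139))) (XT.nd (nat_lit 78) (nat_lit 0) (nat_lit 0) (XT.lf (nat_lit 0) (nat_lit 26087631365) (nat_lit 1216) (nat_lit 29464282047) (nat_lit 1292) (nat_lit 24984412230) (nat_lit 258) (nat_lit 5) (nat_lit 274) (nat_lit 5) (nat_lit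 275) (nat_lit 5) (nat_lit 442) (nat_lit 440) (nat_lit 138)) (XT.lf (nat_lit 76) (nat_lit 10222505800) (nat_lit 0) (nat_lit 17147561042) (nat_lit 1292) (nat_lit 54383611628) (nat_lit 259) (nat_lit 5) (nat_lit 258) (nat_lit 5) (nat_lit 275) (nat_lit 5) (nat_lit 443) (nat_lit 440) (nat_lit 137)))))) (XT.nd (nat_lit 546) (nat_lit 760) (nat_lit 0) (XT.nd (nat_lit 234) (nat_lit 0) (nat_lit 76) (XT.nd (nat_lit 78) (nat_lit 0) (nat_lit 0) (XT.lf (nat_lit 0) (nat_lit 29206471326) (nat_lit 1216) (nat_lit 31513329733) (nat_lit 1292) (nat_lit 22272286074) (nat_lit 259) (nat_lit 5) (nat_lit 275) (nat_lit 5) (nat_lit 276) (nat_lit 5) (nat_lit 444) (nat_lit 440) (nat_lit 136)) (XT.nd (nat_lit 78) (nat_lit 0) (nat_lit 76) (XT.lf (nat_lit 76) (nat_lit 9724807706) (nat_lit 0) (nat_lit 21636040561) (nat_lit 1292) (nat_lit 52898913502) (nat_lit 260) (nat_lit 5) (nat_lit 259) (nat_lit 5) (nat_lit 276) (nat_lit 5) (nat_lit 445) (nat_lit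 440) (nat_lit 135)) (XT.lf (nat_lit 0) (nat_lit 34079851050) (nat_lit 1216) (nat_lit 32892217427) (nat_lit 1292) (nat_lit 18578398451) (nat_lit 260) (nat_lit 5) (nat_lit 276) (nat_lit 5) (nat_lit 277) (nat_lit 5) (nat_lit 446) (nat_lit 440) (nat_lit 134)))) (XT.nd (nat_lit 156) (nat_lit 0) (nat_lit 76) (XT.nd (nat_lit 78) (nat_lit 0) (nat_lit 76) (XT.lf (nat_lit 76) (nat_lit 9980098411) (nat_lit 0) (nat_lit 27210121164) (nat_lit 1292) (nat_lit 49680379913) (nat_lit 261) (nat_lit 5) (nat_lit 260) (nat_lit 5) (nat_lit 277) (nat_lit 5) (nat_lit 447) (nat_lit 440) (nat_lit 133)) (XT.lf (nat_lit 0) (nat_lit 40861108925) (nat_lit 1216) (nat_lit 33543182380) (nat_lit 1292) (nat_lit 13812028540) (nat_lit 261) (nat_lit 5) (nat_lit 277) (nat_lit 5) (nat_lit 278) (nat_lit 5) (nat_lit 448) (nat_lit 440) (nat_lit 132))) (XT.nd (nat_lit 78) (nat_lit 0) (nat_lit 76) (XT.lf (nat_lit 76) (nat_lit 11050550016) (nat_lit 0) (nat_lit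 33966868829) (nat_lit 1292) (nat_lit 44573734261) (nat_lit 262) (nat_lit 5) (nat_lit 261) (nat_lit 5) (nat_lit 278) (nat_lit 5) (nat_lit 449) (nat_lit 440) (nat_lit 131)) (XT.lf (nat_lit 0) (nat_lit 49714022951) (nat_lit 1216) (nat_lit 33404830287) (nat_lit 1292) (nat_lit 7875910087) (nat_lit 262) (nat_lit 5) (nat_lit 278) (nat_lit 5) (nat_lit 279) (nat_lit 5) (nat_lit 450) (nat_lit 440) (nat_lit 130))))) (XT.nd (nat_lit 312) (nat_lit 988) (nat_lit 0) (XT.nd (nat_lit 156) (nat_lit 0) (nat_lit 76) (XT.nd (nat_lit 78) (nat_lit 0) (nat_lit 76) (XT.lf (nat_lit 76) (nat_lit 13002193374) (nat_lit 0) (nat_lit 42010302719) (nat_lit 1292) (nat_lit 37414156734) (nat_lit 263) (nat_lit 5) (nat_lit 262) (nat_lit 5) (nat_lit 279) (nat_lit 5) (nat_lit 451) (nat_lit 440) (nat_lit 129)) (XT.lf (nat_lit 0) (nat_lit 60813461236) (nat_lit 1216) (nat_lit 32411955994) (nat_lit 1292) (nat_lit 665775748) (nat_lit 263) (nat_lit 5) (nat_lit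 279) (nat_lit 5) (nat_lit 280) (nat_lit 5) (nat_lit 452) (nat_lit 440) (nat_lit 128))) (XT.nd (nat_lit 78) (nat_lit 0) (nat_lit 0) (XT.lf (nat_lit 76) (nat_lit 15905107792) (nat_lit 0) (nat_lit 51451877910) (nat_lit 1292) (nat_lit 28025627820) (nat_lit 264) (nat_lit 5) (nat_lit 263) (nat_lit 5) (nat_lit 280) (nat_lit 5) (nat_lit 453) (nat_lit 440) (nat_lit 127)) (XT.lf (nat_lit 76) (nat_lit 66335862013) (nat_lit 0) (nat_lit 8087954805) (nat_lit 1292) (nat_lit 22485149931) (nat_lit 264) (nat_lit 5) (nat_lit 263) (nat_lit 5) (nat_lit 280) (nat_lit 5) (nat_lit 454) (nat_lit 440) (nat_lit 126)))) (XT.nd (nat_lit 156) (nat_lit 1140) (nat_lit 0) (XT.nd (nat_lit 78) (nat_lit 0) (nat_lit 0) (XT.lf (nat_lit 76) (nat_lit 19833616929) (nat_lit 0) (nat_lit 62411001118) (nat_lit 1292) (nat_lit 16220233661) (nat_lit 265) (nat_lit 5) (nat_lit 264) (nat_lit 5) (nat_lit 281) (nat_lit 5) (nat_lit 455) (nat_lit 440) (nat_lit 125))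 (XT.lf (nat_lit 76) (nat_lit 72297351503) (nat_lit 0) (nat_lit 18390432917) (nat_lit 1292) (nat_lit 9367996654) (nat_lit 265) (nat_lit 5) (nat_lit 264) (nat_lit 5) (nat_lit 281) (nat_lit 5) (nat_lit 456) (nat_lit 440) (nat_lit 124))) (XT.nd (nat_lit 51870) (nat_lit 0) (nat_lit 608) (XT.lf (nat_lit 0) (nat_lit 24866490685) (nat_lit 1216) (nat_lit 75015581772) (nat_lit 1292) (nat_lit 1797431149) (nat_lit 249) (nat_lit 5) (nat_lit 265) (nat_lit 5) (nat_lit 266) (nat_lit 5) (nat_lit 457) (nat_lit 440) (nat_lit 123)) (XT.lf (nat_lit 0) (nat_lit 12669078236) (nat_lit 1292) (nat_lit 13796285316) (nat_lit 1292) (nat_lit 13796285316) (nat_lit 257) (nat_lit 3) (nat_lit 274) (nat_lit 3) (nat_lit 274) (nat_lit 5) (nat_lit 441) (nat_lit 441) (nat_lit 138))))))) (XT.nd (nat_lit 1092) (nat_lit 0) (nat_lit 0) (XT.nd (nat_lit 546) (nat_lit 0) (nat_lit 304) (XT.nd (nat_lit 234) (nat_lit 0) (nat_lit 152) (XT.nd (nat_lit 78) (nat_lit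 0) (nat_lit 76) (XT.lf (nat_lit 76) (nat_lit 11767820645) (nat_lit 0) (nat_lit 14073494358) (nat_lit 1292) (nat_lit 55886136356) (nat_lit 258) (nat_lit 5) (nat_lit 257) (nat_lit 3) (nat_lit 274) (nat_lit 5) (nat_lit 442) (nat_lit 441) (nat_lit 137)) (XT.nd (nat_lit 78) (nat_lit 0) (nat_lit 0) (XT.lf (nat_lit 0) (nat_lit 26890010768) (nat_lit 1216) (nat_lit 30337145137) (nat_lit 1292) (nat_lit 25724660536) (nat_lit 258) (nat_lit 5) (nat_lit 274) (nat_lit 5) (nat_lit 275) (nat_lit 5) (nat_lit 443) (nat_lit 441) (nat_lit 136)) (XT.lf (nat_lit 76) (nat_lit 10540137861) (nat_lit 0) (nat_lit 17670311517) (nat_lit 1292) (nat_lit 55995254762) (nat_lit 259) (nat_lit 5) (nat_lit 258) (nat_lit 5) (nat_lit 275) (nat_lit 5) (nat_lit 444) (nat_lit 441) (nat_lit 135)))) (XT.nd (nat_lit 156) (nat_lit 0) (nat_lit 76) (XT.nd (nat_lit 78) (nat_lit 0) (nat_lit 0) (XT.lf (nat_lit 0) (nat_lit 30101306745) (nat_lit 1216) (nat_lit 32447446534)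 (nat_lit 1292) (nat_lit 22932531143) (nat_lit 259) (nat_lit 5) (nat_lit 275) (nat_lit 5) (nat_lit 276) (nat_lit 5) (nat_lit 445) (nat_lit 441) (nat_lit 134)) (XT.lf (nat_lit 76) (nat_lit 10027724409) (nat_lit 0) (nat_lit 22292155033) (nat_lit 1292) (nat_lit 54467123100) (nat_lit 260) (nat_lit 5) (nat_lit 259) (nat_lit 5) (nat_lit 276) (nat_lit 5) (nat_lit 446) (nat_lit 441) (nat_lit 133))) (XT.nd (nat_lit 78) (nat_lit 0) (nat_lit 0) (XT.lf (nat_lit 0) (nat_lit 35119856406) (nat_lit 1216) (nat_lit 33867535250) (nat_lit 1292) (nat_lit 19129055249) (nat_lit 260) (nat_lit 5) (nat_lit 276) (nat_lit 5) (nat_lit 277) (nat_lit 5) (nat_lit 447) (nat_lit 441) (nat_lit 132)) (XT.lf (nat_lit 76) (nat_lit 10290837821) (nat_lit 0) (nat_lit 28032294231) (nat_lit 1292) (nat_lit 51153063675) (nat_lit 261) (nat_lit 5) (nat_lit 260) (nat_lit 5) (nat_lit 277) (nat_lit 5) (nat_lit 448) (nat_lit 441) (nat_lit 131))))) (XT.nd (nat_lit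 234) (nat_lit 0) (nat_lit 76) (XT.nd (nat_lit 78) (nat_lit 0) (nat_lit 0) (XT.lf (nat_lit 0) (nat_lit 42103592162) (nat_lit 1216) (nat_lit 34537910255) (nat_lit 1292) (nat_lit 14220802117) (nat_lit 261) (nat_lit 5) (nat_lit 277) (nat_lit 5) (nat_lit 278) (nat_lit 5) (nat_lit 449) (nat_lit 441) (nat_lit 130)) (XT.nd (nat_lit 78) (nat_lit 0) (nat_lit 76) (XT.lf (nat_lit 76) (nat_lit 11393520705) (nat_lit 0) (nat_lit 34990695829) (nat_lit 1292) (nat_lit 45894177661) (nat_lit 262) (nat_lit 5) (nat_lit 261) (nat_lit 5) (nat_lit 278) (nat_lit 5) (nat_lit 450) (nat_lit 441) (nat_lit 129)) (XT.lf (nat_lit 0) (nat_lit 51221199739) (nat_lit 1216) (nat_lit 34395330503) (nat_lit 1292) (nat_lit 8107598203) (nat_lit 262) (nat_lit 5) (nat_lit 278) (nat_lit 5) (nat_lit 279) (nat_lit 5) (nat_lit 451) (nat_lit 441) (nat_lit 128)))) (XT.nd (nat_lit 156) (nat_lit 0) (nat_lit 76) (XT.nd (nat_lit 78) (nat_lit 0) (nat_lit 76) (XT.lf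 (nat_lit 76) (nat_lit 13403789704) (nat_lit 0) (nat_lit 43274489293) (nat_lit 1292) (nat_lit 38520706224) (nat_lit 263) (nat_lit 5) (nat_lit 262) (nat_lit 5) (nat_lit 279) (nat_lit 5) (nat_lit 452) (nat_lit 441) (nat_lit 127)) (XT.lf (nat_lit 0) (nat_lit 62652788131) (nat_lit 1216) (nat_lit 33372630216) (nat_lit 1292) (nat_lit 682057924) (nat_lit 263) (nat_lit 5) (nat_lit 279) (nat_lit 5) (nat_lit 280) (nat_lit 5) (nat_lit 453) (nat_lit 441) (nat_lit 126))) (XT.nd (nat_lit 78) (nat_lit 0) (nat_lit 0) (XT.lf (nat_lit 76) (nat_lit 16393830929) (nat_lit 0) (nat_lit 52998463965) (nat_lit 1292) (nat_lit 28851354379) (nat_lit 264) (nat_lit 5) (nat_lit 263) (nat_lit 5) (nat_lit 280) (nat_lit 5) (nat_lit 454) (nat_lit 441) (nat_lit 125)) (XT.lf (nat_lit 76) (nat_lit 68337170790) (nat_lit 0) (nat_lit 8333534923) (nat_lit 1292) (nat_lit 23145100278) (nat_lit 264) (nat_lit 5) (nat_lit 263) (nat_lit 5) (nat_lit 280) (nat_lit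 5) (nat_lit 455) (nat_lit 441) (nat_lit 124)))))) (XT.nd (nat_lit 52416) (nat_lit 0) (nat_lit 152) (XT.nd (nat_lit 52104) (nat_lit 0) (nat_lit 0) (XT.nd (nat_lit 78) (nat_lit 532) (nat_lit 0) (XT.lf (nat_lit 76) (nat_lit 20440201772) (nat_lit 0) (nat_lit 64285600188) (nat_lit 1292) (nat_lit 16692575542) (nat_lit 265) (nat_lit 5) (nat_lit 264) (nat_lit 5) (nat_lit 281) (nat_lit 5) (nat_lit 456) (nat_lit 441) (nat_lit 123)) (XT.nd (nat_lit 51948) (nat_lit 532) (nat_lit 0) (XT.lf (nat_lit 76) (nat_lit 74477511209) (nat_lit 0) (nat_lit 18944348852) (nat_lit 1292) (nat_lit 9635186913) (nat_lit 265) (nat_lit 5) (nat_lit 264) (nat_lit 5) (nat_lit 281) (nat_lit 5) (nat_lit 457) (nat_lit 441) (nat_lit 122)) (XT.lf (nat_lit 0) (nat_lit 13059021470) (nat_lit 1292) (nat_lit 14205088755) (nat_lit 1292) (nat_lit 14205088755) (nat_lit 257) (nat_lit 3) (nat_lit 274) (nat_lit 3) (nat_lit 274) (nat_lit 5) (nat_lit 442) (nat_lit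 442) (nat_lit 136)))) (XT.nd (nat_lit 156) (nat_lit 0) (nat_lit 76) (XT.nd (nat_lit 78) (nat_lit 0) (nat_lit 76) (XT.lf (nat_lit 76) (nat_lit 12130925798) (nat_lit 0) (nat_lit 14504892231) (nat_lit 1292) (nat_lit 57542872696) (nat_lit 258) (nat_lit 5) (nat_lit 257) (nat_lit 3) (nat_lit 274) (nat_lit 5) (nat_lit 443) (nat_lit 442) (nat_lit 135)) (XT.lf (nat_lit 0) (nat_lit 27715327796) (nat_lit 1216) (nat_lit 31236829318) (nat_lit 1292) (nat_lit 26487649233) (nat_lit 258) (nat_lit 5) (nat_lit 274) (nat_lit 5) (nat_lit 275) (nat_lit 5) (nat_lit 444) (nat_lit 442) (nat_lit 134))) (XT.nd (nat_lit 78) (nat_lit 0) (nat_lit 76) (XT.lf (nat_lit 76) (nat_lit 10866669914) (nat_lit 0) (nat_lit 18208266695) (nat_lit 1292) (nat_lit 57656387535) (nat_lit 259) (nat_lit 5) (nat_lit 258) (nat_lit 5) (nat_lit 275) (nat_lit 5) (nat_lit 445) (nat_lit 442) (nat_lit 133)) (XT.lf (nat_lit 0) (nat_lit 31021917142) (nat_lit 1216) (nat_lit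 33410234535) (nat_lit 1292) (nat_lit 23613038406) (nat_lit 259) (nat_lit 5) (nat_lit 275) (nat_lit 5) (nat_lit 276) (nat_lit 5) (nat_lit 446) (nat_lit 442) (nat_lit 132))))) (XT.nd (nat_lit 312) (nat_lit 0) (nat_lit 152) (XT.nd (nat_lit 156) (nat_lit 0) (nat_lit 76) (XT.nd (nat_lit 78) (nat_lit 0) (nat_lit 76) (XT.lf (nat_lit 76) (nat_lit 10339087268) (nat_lit 0) (nat_lit 22967549201) (nat_lit 1292) (nat_lit 56083455760) (nat_lit 260) (nat_lit 5) (nat_lit 259) (nat_lit 5) (nat_lit 276) (nat_lit 5) (nat_lit 447) (nat_lit 442) (nat_lit 131)) (XT.lf (nat_lit 0) (nat_lit 36190051046) (nat_lit 1216) (nat_lit 34872769810) (nat_lit 1292) (nat_lit 19696616080) (nat_lit 260) (nat_lit 5) (nat_lit 276) (nat_lit 5) (nat_lit 277) (nat_lit 5) (nat_lit 448) (nat_lit 442) (nat_lit 130))) (XT.nd (nat_lit 78) (nat_lit 0) (nat_lit 76) (XT.lf (nat_lit 76) (nat_lit 10610248654) (nat_lit 0) (nat_lit 28878795561) (nat_lit 1292) (nat_lit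 52670945588) (nat_lit 261) (nat_lit 5) (nat_lit 260) (nat_lit 5) (nat_lit 277) (nat_lit 5) (nat_lit 449) (nat_lit 442) (nat_lit 129)) (XT.lf (nat_lit 0) (nat_lit 43382394121) (nat_lit 1216) (nat_lit 35563143994) (nat_lit 1292) (nat_lit 14642159633) (nat_lit 261) (nat_lit 5) (nat_lit 277) (nat_lit 5) (nat_lit 278) (nat_lit 5) (nat_lit 450) (nat_lit 442) (nat_lit 128)))) (XT.nd (nat_lit 156) (nat_lit 0) (nat_lit 76) (XT.nd (nat_lit 78) (nat_lit 0) (nat_lit 76) (XT.lf (nat_lit 76) (nat_lit 11746122998) (nat_lit 0) (nat_lit 36044960898) (nat_lit 1292) (nat_lit 47255196952) (nat_lit 262) (nat_lit 5) (nat_lit 261) (nat_lit 5) (nat_lit 278) (nat_lit 5) (nat_lit 451) (nat_lit 442) (nat_lit 127)) (XT.lf (nat_lit 0) (nat_lit 52772687365) (nat_lit 1216) (nat_lit 35416214178) (nat_lit 1292) (nat_lit 8346500401) (nat_lit 262) (nat_lit 5) (nat_lit 278) (nat_lit 5) (nat_lit 279) (nat_lit 5) (nat_lit 452) (nat_lit 442) (nat_lit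 126))) (XT.nd (nat_lit 78) (nat_lit 0) (nat_lit 76) (XT.lf (nat_lit 76) (nat_lit 13816772025) (nat_lit 0) (nat_lit 44576378881) (nat_lit 1292) (nat_lit 39661363502) (nat_lit 263) (nat_lit 5) (nat_lit 262) (nat_lit 5) (nat_lit 279) (nat_lit 5) (nat_lit 453) (nat_lit 442) (nat_lit 125)) (XT.lf (nat_lit 0) (nat_lit 64546438188) (nat_lit 1216) (nat_lit 34362795401) (nat_lit 1292) (nat_lit 699040450) (nat_lit 263) (nat_lit 5) (nat_lit 279) (nat_lit 5) (nat_lit 280) (nat_lit 5) (nat_lit 454) (nat_lit 442) (nat_lit 124))))))))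
noncomputable def xc255 : XT := (XT.nd (nat_lit 158730) (nat_lit 0) (nat_lit 0) (XT.nd (nat_lit 53118) (nat_lit 0) (nat_lit 0) (XT.nd (nat_lit 52572) (nat_lit 0) (nat_lit 152) (XT.nd (nat_lit 52260) (nat_lit 0) (nat_lit 0) (XT.nd (nat_lit 78) (nat_lit 456) (nat_lit 0) (XT.lf (nat_lit 76) (nat_lit 16896551602) (nat_lit 0) (nat_lit 54591273684) (nat_lit 1292) (nat_lit 29702716224) (nat_lit 264) (nat_lit 5) (nat_lit 263) (nat_lit 5) (nat_lit 280) (nat_lit 5) (nat_lit 455) (nat_lit 442) (nat_lit 123)) (XT.nd (nat_lit 52104) (nat_lit 456) (nat_lit 0) (XT.lf (nat_lit 76) (nat_lit 70397874014) (nat_lit 0) (nat_lit 8586313592) (nat_lit 1292) (nat_lit 23825687474) (nat_lit 264) (nat_lit 5) (nat_lit 263) (nat_lit 5) (nat_lit 280) (nat_lit 5) (nat_lit 456) (nat_lit 442) (nat_lit 122)) (XT.lf (nat_lit 0) (nat_lit 13460096372) (nat_lit 1292) (nat_lit 14626448203) (nat_lit 1292) (nat_lit 14626448203) (nat_lit 257) (nat_lit 3)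 (nat_lit 274) (nat_lit 3) (nat_lit 274) (nat_lit 5) (nat_lit 443) (nat_lit 443) (nat_lit 134)))) (XT.nd (nat_lit 156) (nat_lit 0) (nat_lit 76) (XT.nd (nat_lit 78) (nat_lit 0) (nat_lit 76) (XT.lf (nat_lit 76) (nat_lit 12504346016) (nat_lit 0) (nat_lit 14948704321) (nat_lit 1292) (nat_lit 59250450468) (nat_lit 258) (nat_lit 5) (nat_lit 257) (nat_lit 3) (nat_lit 274) (nat_lit 5) (nat_lit 444) (nat_lit 443) (nat_lit 133)) (XT.lf (nat_lit 0) (nat_lit 28564335660) (nat_lit 1216) (nat_lit 32164102759) (nat_lit 1292) (nat_lit 27274029942) (nat_lit 258) (nat_lit 5) (nat_lit 274) (nat_lit 5) (nat_lit 275) (nat_lit 5) (nat_lit 445) (nat_lit 443) (nat_lit 132))) (XT.nd (nat_lit 78) (nat_lit 0) (nat_lit 76) (XT.lf (nat_lit 76) (nat_lit 11202405063) (nat_lit 0) (nat_lit 18761910145) (nat_lit 1292) (nat_lit 59368429175) (nat_lit 259) (nat_lit 5) (nat_lit 258) (nat_lit 5) (nat_lit 275) (nat_lit 5) (nat_lit 446) (nat_lit 443) (nat_lit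 131)) (XT.lf (nat_lit 0) (nat_lit 31969137192) (nat_lit 1216) (nat_lit 34402516692) (nat_lit 1292) (nat_lit 24314389619) (nat_lit 259) (nat_lit 5) (nat_lit 275) (nat_lit 5) (nat_lit 276) (nat_lit 5) (nat_lit 447) (nat_lit 443) (nat_lit 130))))) (XT.nd (nat_lit 234) (nat_lit 0) (nat_lit 152) (XT.nd (nat_lit 78) (nat_lit 0) (nat_lit 76) (XT.lf (nat_lit 76) (nat_lit 10659186483) (nat_lit 0) (nat_lit 23662824632) (nat_lit 1292) (nat_lit 57749293364) (nat_lit 260) (nat_lit 5) (nat_lit 259) (nat_lit 5) (nat_lit 276) (nat_lit 5) (nat_lit 448) (nat_lit 443) (nat_lit 129)) (XT.nd (nat_lit 78) (nat_lit 0) (nat_lit 0) (XT.lf (nat_lit 0) (nat_lit 37291398678) (nat_lit 1216) (nat_lit 35908780883) (nat_lit 1292) (nat_lit 20281566003) (nat_lit 260) (nat_lit 5) (nat_lit 276) (nat_lit 5) (nat_lit 277) (nat_lit 5) (nat_lit 449) (nat_lit 443) (nat_lit 128)) (XT.lf (nat_lit 76) (nat_lit 10938628409) (nat_lit 0) (nat_lit 29750374342)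 (nat_lit 1292) (nat_lit 54235323181) (nat_lit 261) (nat_lit 5) (nat_lit 260) (nat_lit 5) (nat_lit 277) (nat_lit 5) (nat_lit 450) (nat_lit 443) (nat_lit 127)))) (XT.nd (nat_lit 156) (nat_lit 0) (nat_lit 76) (XT.nd (nat_lit 78) (nat_lit 0) (nat_lit 0) (XT.lf (nat_lit 0) (nat_lit 44698659227) (nat_lit 1216) (nat_lit 36619760654) (nat_lit 1292) (nat_lit 15076460196) (nat_lit 261) (nat_lit 5) (nat_lit 277) (nat_lit 5) (nat_lit 278) (nat_lit 5) (nat_lit 451) (nat_lit 443) (nat_lit 126)) (XT.lf (nat_lit 76) (nat_lit 12108683586) (nat_lit 0) (nat_lit 37130593063) (nat_lit 1292) (nat_lit 48657954152) (nat_lit 262) (nat_lit 5) (nat_lit 261) (nat_lit 5) (nat_lit 278) (nat_lit 5) (nat_lit 452) (nat_lit 443) (nat_lit 125))) (XT.nd (nat_lit 78) (nat_lit 0) (nat_lit 0) (XT.lf (nat_lit 0) (nat_lit 54369867076) (nat_lit 1216) (nat_lit 36468354444) (nat_lit 1292) (nat_lit 8592817981) (nat_lit 262) (nat_lit 5) (nat_lit 278) (nat_lit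 5) (nat_lit 279) (nat_lit 5) (nat_lit 453) (nat_lit 443) (nat_lit 124)) (XT.lf (nat_lit 76) (nat_lit 14241519912) (nat_lit 0) (nat_lit 45917115349) (nat_lit 1292) (nat_lit 40837099487) (nat_lit 263) (nat_lit 5) (nat_lit 262) (nat_lit 5) (nat_lit 279) (nat_lit 5) (nat_lit 454) (nat_lit 443) (nat_lit 123)))))) (XT.nd (nat_lit 52728) (nat_lit 0) (nat_lit 0) (XT.nd (nat_lit 52416) (nat_lit 0) (nat_lit 76) (XT.nd (nat_lit 52260) (nat_lit 456) (nat_lit 0) (XT.lf (nat_lit 0) (nat_lit 66496090277) (nat_lit 1216) (nat_lit 35383297774) (nat_lit 1292) (nat_lit 716732172) (nat_lit 263) (nat_lit 5) (nat_lit 279) (nat_lit 5) (nat_lit 280) (nat_lit 5) (nat_lit 455) (nat_lit 443) (nat_lit 122)) (XT.nd (nat_lit 78) (nat_lit 0) (nat_lit 0) (XT.lf (nat_lit 0) (nat_lit 13872669419) (nat_lit 1292) (nat_lit 15060723585) (nat_lit 1292) (nat_lit 15060723585) (nat_lit 257) (nat_lit 3) (nat_lit 274) (nat_lit 3) (nat_lit 274) (nat_lit 5)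 (nat_lit 444) (nat_lit 444) (nat_lit 132)) (XT.lf (nat_lit 76) (nat_lit 12888423935) (nat_lit 0) (nat_lit 15405333349) (nat_lit 1292) (nat_lit 61010329512) (nat_lit 258) (nat_lit 5) (nat_lit 257) (nat_lit 3) (nat_lit 274) (nat_lit 5) (nat_lit 445) (nat_lit 444) (nat_lit 131)))) (XT.nd (nat_lit 156) (nat_lit 0) (nat_lit 76) (XT.nd (nat_lit 78) (nat_lit 0) (nat_lit 0) (XT.lf (nat_lit 0) (nat_lit 29437806431) (nat_lit 1216) (nat_lit 33119758767) (nat_lit 1292) (nat_lit 28084475585) (nat_lit 258) (nat_lit 5) (nat_lit 274) (nat_lit 5) (nat_lit 275) (nat_lit 5) (nat_lit 446) (nat_lit 444) (nat_lit 130)) (XT.lf (nat_lit 76) (nat_lit 11547653436) (nat_lit 0) (nat_lit 19331738369) (nat_lit 1292) (nat_lit 61132845246) (nat_lit 259) (nat_lit 5) (nat_lit 258) (nat_lit 5) (nat_lit 275) (nat_lit 5) (nat_lit 447) (nat_lit 444) (nat_lit 129))) (XT.nd (nat_lit 78) (nat_lit 0) (nat_lit 0) (XT.lf (nat_lit 0) (nat_lit 32943823086)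 (nat_lit 1216) (nat_lit 35425142782) (nat_lit 1292) (nat_lit 25037185489) (nat_lit 259) (nat_lit 5) (nat_lit 275) (nat_lit 5) (nat_lit 276) (nat_lit 5) (nat_lit 448) (nat_lit 444) (nat_lit 128)) (XT.lf (nat_lit 76) (nat_lit 10988318847) (nat_lit 0) (nat_lit 24378599611) (nat_lit 1292) (nat_lit 59466062797) (nat_lit 260) (nat_lit 5) (nat_lit 259) (nat_lit 5) (nat_lit 276) (nat_lit 5) (nat_lit 449) (nat_lit 444) (nat_lit 127))))) (XT.nd (nat_lit 312) (nat_lit 228) (nat_lit 0) (XT.nd (nat_lit 156) (nat_lit 0) (nat_lit 76) (XT.nd (nat_lit 78) (nat_lit 0) (nat_lit 0) (XT.lf (nat_lit 0) (nat_lit 38424888589) (nat_lit 1216) (nat_lit 36976456204) (nat_lit 1292) (nat_lit 20884405895) (nat_lit 260) (nat_lit 5) (nat_lit 276) (nat_lit 5) (nat_lit 277) (nat_lit 5) (nat_lit 450) (nat_lit 444) (nat_lit 126)) (XT.lf (nat_lit 76) (nat_lit 11276281366) (nat_lit 0) (nat_lit 30647801129) (nat_lit 1292) (nat_lit 55847536261) (nat_lit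 261) (nat_lit 5) (nat_lit 260) (nat_lit 5) (nat_lit 277) (nat_lit 5) (nat_lit 451) (nat_lit 444) (nat_lit 125))) (XT.nd (nat_lit 78) (nat_lit 0) (nat_lit 0) (XT.lf (nat_lit 0) (nat_lit 46053563091) (nat_lit 1216) (nat_lit 37708665794) (nat_lit 1292) (nat_lit 15524074743) (nat_lit 261) (nat_lit 5) (nat_lit 277) (nat_lit 5) (nat_lit 278) (nat_lit 5) (nat_lit 452) (nat_lit 444) (nat_lit 124)) (XT.lf (nat_lit 76) (nat_lit 12481536796) (nat_lit 0) (nat_lit 38248548313) (nat_lit 1292) (nat_lit 50103649315) (nat_lit 262) (nat_lit 5) (nat_lit 261) (nat_lit 5) (nat_lit 278) (nat_lit 5) (nat_lit 453) (nat_lit 444) (nat_lit 123)))) (XT.nd (nat_lit 52416) (nat_lit 380) (nat_lit 0) (XT.nd (nat_lit 78) (nat_lit 0) (nat_lit 0) (XT.lf (nat_lit 0) (nat_lit 56014158574) (nat_lit 1216) (nat_lit 37552652830) (nat_lit 1292) (nat_lit 8846759149) (nat_lit 262) (nat_lit 5) (nat_lit 278) (nat_lit 5) (nat_lit 279) (nat_lit 5) (nat_lit 454)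 (nat_lit 444) (nat_lit 122)) (XT.lf (nat_lit 76) (nat_lit 14678422146) (nat_lit 0) (nat_lit 47297876149) (nat_lit 1292) (nat_lit 42048917233) (nat_lit 263) (nat_lit 5) (nat_lit 262) (nat_lit 5) (nat_lit 279) (nat_lit 5) (nat_lit 455) (nat_lit 444) (nat_lit 121))) (XT.nd (nat_lit 78) (nat_lit 0) (nat_lit 0) (XT.lf (nat_lit 0) (nat_lit 14297116214) (nat_lit 1292) (nat_lit 15508286584) (nat_lit 1292) (nat_lit 15508286584) (nat_lit 257) (nat_lit 3) (nat_lit 274) (nat_lit 3) (nat_lit 274) (nat_lit 5) (nat_lit 445) (nat_lit 445) (nat_lit 130)) (XT.lf (nat_lit 76) (nat_lit 13283510566) (nat_lit 0) (nat_lit 15875192377) (nat_lit 1292) (nat_lit 62824017218) (nat_lit 258) (nat_lit 5) (nat_lit 257) (nat_lit 3) (nat_lit 274) (nat_lit 5) (nat_lit 446) (nat_lit 445) (nat_lit 129))))))) (XT.nd (nat_lit 53508) (nat_lit 0) (nat_lit 0) (XT.nd (nat_lit 546) (nat_lit 76) (nat_lit 0) (XT.nd (nat_lit 234) (nat_lit 0) (nat_lit 76) (XT.nd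 (nat_lit 78) (nat_lit 0) (nat_lit 0) (XT.lf (nat_lit 0) (nat_lit 30336531821) (nat_lit 1216) (nat_lit 34104616424) (nat_lit 1292) (nat_lit 28919680928) (nat_lit 258) (nat_lit 5) (nat_lit 274) (nat_lit 5) (nat_lit 275) (nat_lit 5) (nat_lit 447) (nat_lit 445) (nat_lit 128)) (XT.nd (nat_lit 78) (nat_lit 0) (nat_lit 76) (XT.lf (nat_lit 76) (nat_lit 11902732506) (nat_lit 0) (nat_lit 19918261281) (nat_lit 1292) (nat_lit 62951148819) (nat_lit 259) (nat_lit 5) (nat_lit 258) (nat_lit 5) (nat_lit 275) (nat_lit 5) (nat_lit 448) (nat_lit 445) (nat_lit 127)) (XT.lf (nat_lit 0) (nat_lit 33946853377) (nat_lit 1216) (nat_lit 36478990089) (nat_lit 1292) (nat_lit 25782046159) (nat_lit 259) (nat_lit 5) (nat_lit 275) (nat_lit 5) (nat_lit 276) (nat_lit 5) (nat_lit 449) (nat_lit 445) (nat_lit 126)))) (XT.nd (nat_lit 156) (nat_lit 0) (nat_lit 76) (XT.nd (nat_lit 78) (nat_lit 0) (nat_lit 76) (XT.lf (nat_lit 76) (nat_lit 11326788065) (nat_lit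 0) (nat_lit 25115509716) (nat_lit 1292) (nat_lit 61235237095) (nat_lit 260) (nat_lit 5) (nat_lit 259) (nat_lit 5) (nat_lit 276) (nat_lit 5) (nat_lit 450) (nat_lit 445) (nat_lit 125)) (XT.lf (nat_lit 0) (nat_lit 39591536604) (nat_lit 1216) (nat_lit 38076712181) (nat_lit 1292) (nat_lit 21505652855) (nat_lit 260) (nat_lit 5) (nat_lit 276) (nat_lit 5) (nat_lit 277) (nat_lit 5) (nat_lit 451) (nat_lit 445) (nat_lit 124))) (XT.nd (nat_lit 78) (nat_lit 0) (nat_lit 76) (XT.lf (nat_lit 76) (nat_lit 11623518911) (nat_lit 0) (nat_lit 31571868547) (nat_lit 1292) (nat_lit 57508967989) (nat_lit 261) (nat_lit 5) (nat_lit 260) (nat_lit 5) (nat_lit 277) (nat_lit 5) (nat_lit 452) (nat_lit 445) (nat_lit 123)) (XT.lf (nat_lit 0) (nat_lit 47448313624) (nat_lit 1216) (nat_lit 38830794201) (nat_lit 1292) (nat_lit 15985386335) (nat_lit 261) (nat_lit 5) (nat_lit 277) (nat_lit 5) (nat_lit 278) (nat_lit 5) (nat_lit 453) (nat_lit 445) (nat_lit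 122))))) (XT.nd (nat_lit 52650) (nat_lit 0) (nat_lit 76) (XT.nd (nat_lit 52494) (nat_lit 304) (nat_lit 0) (XT.lf (nat_lit 76) (nat_lit 12865024942) (nat_lit 0) (nat_lit 39399810453) (nat_lit 1292) (nat_lit 51593521485) (nat_lit 262) (nat_lit 5) (nat_lit 261) (nat_lit 5) (nat_lit 278) (nat_lit 5) (nat_lit 454) (nat_lit 445) (nat_lit 121)) (XT.nd (nat_lit 78) (nat_lit 0) (nat_lit 0) (XT.lf (nat_lit 0) (nat_lit 14733821869) (nat_lit 1292) (nat_lit 15969520940) (nat_lit 1292) (nat_lit 15969520940) (nat_lit 257) (nat_lit 3) (nat_lit 274) (nat_lit 3) (nat_lit 274) (nat_lit 5) (nat_lit 446) (nat_lit 446) (nat_lit 128)) (XT.lf (nat_lit 76) (nat_lit 13689965656) (nat_lit 0) (nat_lit 16358705220) (nat_lit 1292) (nat_lit 64693069737) (nat_lit 258) (nat_lit 5) (nat_lit 257) (nat_lit 3) (nat_lit 274) (nat_lit 5) (nat_lit 447) (nat_lit 446) (nat_lit 127)))) (XT.nd (nat_lit 156) (nat_lit 0) (nat_lit 76) (XT.nd (nat_lit 78) (nat_lit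 0) (nat_lit 0) (XT.lf (nat_lit 0) (nat_lit 31261323975) (nat_lit 1216) (nat_lit 35119521242) (nat_lit 1292) (nat_lit 29780363142) (nat_lit 258) (nat_lit 5) (nat_lit 274) (nat_lit 5) (nat_lit 275) (nat_lit 5) (nat_lit 448) (nat_lit 446) (nat_lit 126)) (XT.lf (nat_lit 76) (nat_lit 12267967435) (nat_lit 0) (nat_lit 20522002692) (nat_lit 1292) (nat_lit 64824901699) (nat_lit 259) (nat_lit 5) (nat_lit 258) (nat_lit 5) (nat_lit 275) (nat_lit 5) (nat_lit 449) (nat_lit 446) (nat_lit 125))) (XT.nd (nat_lit 78) (nat_lit 0) (nat_lit 0) (XT.lf (nat_lit 0) (nat_lit 34979129842) (nat_lit 1216) (nat_lit 37564964113) (nat_lit 1292) (nat_lit 26549611706) (nat_lit 259) (nat_lit 5) (nat_lit 275) (nat_lit 5) (nat_lit 276) (nat_lit 5) (nat_lit 450) (nat_lit 446) (nat_lit 124)) (XT.lf (nat_lit 76) (nat_lit 11674905075) (nat_lit 0) (nat_lit 25874208409) (nat_lit 1292) (nat_lit 63058336638) (nat_lit 260) (nat_lit 5) (nat_lit 259) (nat_lit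 5) (nat_lit 276) (nat_lit 5) (nat_lit 451) (nat_lit 446) (nat_lit 123)))))) (XT.nd (nat_lit 53118) (nat_lit 0) (nat_lit 0) (XT.nd (nat_lit 52806) (nat_lit 0) (nat_lit 0) (XT.nd (nat_lit 78) (nat_lit 228) (nat_lit 0) (XT.lf (nat_lit 0) (nat_lit 40792386065) (nat_lit 1216) (nat_lit 39210494639) (nat_lit 1292) (nat_lit 22145840616) (nat_lit 260) (nat_lit 5) (nat_lit 276) (nat_lit 5) (nat_lit 277) (nat_lit 5) (nat_lit 452) (nat_lit 446) (nat_lit 122)) (XT.nd (nat_lit 52650) (nat_lit 228) (nat_lit 0) (XT.lf (nat_lit 76) (nat_lit 11980659867) (nat_lit 0) (nat_lit 32523392012) (nat_lit 1292) (nat_lit 59221046003) (nat_lit 261) (nat_lit 5) (nat_lit 260) (nat_lit 5) (nat_lit 277) (nat_lit 5) (nat_lit 453) (nat_lit 446) (nat_lit 121)) (XT.lf (nat_lit 0) (nat_lit 15183181393) (nat_lit 1292) (nat_lit 16444822760) (nat_lit 1292) (nat_lit 16444822760) (nat_lit 257) (nat_lit 3) (nat_lit 274) (nat_lit 3) (nat_lit 274) (nat_lit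 5) (nat_lit 447) (nat_lit 447) (nat_lit 126)))) (XT.nd (nat_lit 156) (nat_lit 0) (nat_lit 76) (XT.nd (nat_lit 78) (nat_lit 0) (nat_lit 76) (XT.lf (nat_lit 76) (nat_lit 14108158048) (nat_lit 0) (nat_lit 16856306862) (nat_lit 1292) (nat_lit 66619093239) (nat_lit 258) (nat_lit 5) (nat_lit 257) (nat_lit 3) (nat_lit 274) (nat_lit 5) (nat_lit 448) (nat_lit 447) (nat_lit 125)) (XT.lf (nat_lit 0) (nat_lit 32213016271) (nat_lit 1216) (nat_lit 36165345851) (nat_lit 1292) (nat_lit 30667262382) (nat_lit 258) (nat_lit 5) (nat_lit 274) (nat_lit 5) (nat_lit 275) (nat_lit 5) (nat_lit 449) (nat_lit 447) (nat_lit 124))) (XT.nd (nat_lit 78) (nat_lit 0) (nat_lit 76) (XT.lf (nat_lit 76) (nat_lit 12643691398) (nat_lit 0) (nat_lit 21143500809) (nat_lit 1292) (nat_lit 66755715688) (nat_lit 259) (nat_lit 5) (nat_lit 258) (nat_lit 5) (nat_lit 275) (nat_lit 5) (nat_lit 450) (nat_lit 447) (nat_lit 123)) (XT.lf (nat_lit 0) (nat_lit 36041578355)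 (nat_lit 1216) (nat_lit 38683999303) (nat_lit 1292) (nat_lit 27340542664) (nat_lit 259) (nat_lit 5) (nat_lit 275) (nat_lit 5) (nat_lit 276) (nat_lit 5) (nat_lit 451) (nat_lit 447) (nat_lit 122))))) (XT.nd (nat_lit 53040) (nat_lit 0) (nat_lit 0) (XT.nd (nat_lit 52884) (nat_lit 0) (nat_lit 0) (XT.nd (nat_lit 52806) (nat_lit 152) (nat_lit 0) (XT.lf (nat_lit 76) (nat_lit 12032988375) (nat_lit 0) (nat_lit 26655367645) (nat_lit 1292) (nat_lit 64936930388) (nat_lit 260) (nat_lit 5) (nat_lit 259) (nat_lit 5) (nat_lit 276) (nat_lit 5) (nat_lit 452) (nat_lit 447) (nat_lit 121)) (XT.lf (nat_lit 0) (nat_lit 15645600076) (nat_lit 1292) (nat_lit 16934600842) (nat_lit 1292) (nat_lit 16934600842) (nat_lit 257) (nat_lit 3) (nat_lit 274) (nat_lit 3) (nat_lit 274) (nat_lit 5) (nat_lit 448) (nat_lit 448) (nat_lit 124))) (XT.nd (nat_lit 78) (nat_lit 0) (nat_lit 76) (XT.lf (nat_lit 76) (nat_lit 14538466059) (nat_lit 0) (nat_lit 17368443883)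 (nat_lit 1292) (nat_lit 68603745223) (nat_lit 258) (nat_lit 5) (nat_lit 257) (nat_lit 3) (nat_lit 274) (nat_lit 5) (nat_lit 449) (nat_lit 448) (nat_lit 123)) (XT.lf (nat_lit 0) (nat_lit 33192464141) (nat_lit 1216) (nat_lit 37242990712) (nat_lit 1292) (nat_lit 31581142395) (nat_lit 258) (nat_lit 5) (nat_lit 274) (nat_lit 5) (nat_lit 275) (nat_lit 5) (nat_lit 450) (nat_lit 448) (nat_lit 122)))) (XT.nd (nat_lit 53040) (nat_lit 76) (nat_lit 0) (XT.nd (nat_lit 78) (nat_lit 0) (nat_lit 76) (XT.lf (nat_lit 76) (nat_lit 13030245933) (nat_lit 0) (nat_lit 21783308742) (nat_lit 1292) (nat_lit 68745253911) (nat_lit 259) (nat_lit 5) (nat_lit 258) (nat_lit 5) (nat_lit 275) (nat_lit 5) (nat_lit 451) (nat_lit 448) (nat_lit 121)) (XT.lf (nat_lit 0) (nat_lit 37135149788) (nat_lit 1216) (nat_lit 39837059830) (nat_lit 1292) (nat_lit 28155520568) (nat_lit 259) (nat_lit 5) (nat_lit 275) (nat_lit 5) (nat_lit 276) (nat_lit 5) (nat_lit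 452) (nat_lit 448) (nat_lit 120))) (XT.nd (nat_lit 78) (nat_lit 0) (nat_lit 76) (XT.lf (nat_lit 76) (nat_lit 14981277850) (nat_lit 0) (nat_lit 17895574882) (nat_lit 1292) (nat_lit 70648735878) (nat_lit 258) (nat_lit 5) (nat_lit 257) (nat_lit 3) (nat_lit 274) (nat_lit 5) (nat_lit 450) (nat_lit 449) (nat_lit 121)) (XT.lf (nat_lit 0) (nat_lit 34200545900) (nat_lit 1216) (nat_lit 38353384860) (nat_lit 1292) (nat_lit 32522791147) (nat_lit 258) (nat_lit 5) (nat_lit 274) (nat_lit 5) (nat_lit 275) (nat_lit 5) (nat_lit 451) (nat_lit 449) (nat_lit 120))))))))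

set_option maxRecDepth 10000000 in
noncomputable def Tp : PT := (PT.nd (nat_lit 9362106) (PT.nd (nat_lit 8406528) (PT.nd (nat_lit 7397988) (PT.nd (nat_lit 6389214) (PT.nd (nat_lit 5433948) (PT.nd (nat_lit 4743882) pc0 pc1) (PT.nd (nat_lit 530712) pc2 pc3)) (PT.nd (nat_lit 584064) (PT.nd (nat_lit 318552) pc4 pc5) (PT.nd (nat_lit 212550) pc6 pc7))) (PT.nd (nat_lit 584142) (PT.nd (nat_lit 318552) (PT.nd (nat_lit 159432) pc8 pc9) (PT.nd (nat_lit 158886) pc10 pc11)) (PT.nd (nat_lit 212550) (PT.nd (nat_lit 106392) pc12 pc13) (PT.nd (nat_lit 106080) pc14 pc15)))) (PT.nd (nat_lit 582894) (PT.nd (nat_lit 318084) (PT.nd (nat_lit 159354) (PT.nd (nat_lit 105378) pc16 pc17) (PT.nd (nat_lit 104988) pc18 pc19)) (PT.nd (nat_lit 107250) (PT.nd (nat_lit 53664) pc20 pc21) (PT.nd (nat_lit 104208) pc22 pc23))) (PT.nd (nat_lit 212004) (PT.nd (nat_lit 106158) (PT.nd (nat_lit 53118) pc24 pc25) (PT.nd (nat_lit 52962) pc26 pc27)) (PT.nd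 (nat_lit 55536) (PT.nd (nat_lit 52806) pc28 pc29) (PT.nd (nat_lit 52650) pc30 pc31))))) (PT.nd (nat_lit 581334) (PT.nd (nat_lit 317382) (PT.nd (nat_lit 159276) (PT.nd (nat_lit 104442) (PT.nd (nat_lit 52260) pc32 pc33) (PT.nd (nat_lit 2730) pc34 pc35)) (PT.nd (nat_lit 54678) (PT.nd (nat_lit 51948) pc36 pc37) (PT.nd (nat_lit 51792) pc38 pc39))) (PT.nd (nat_lit 108186) (PT.nd (nat_lit 54132) (PT.nd (nat_lit 2652) pc40 pc41) (PT.nd (nat_lit 51324) pc42 pc43)) (PT.nd (nat_lit 53898) (PT.nd (nat_lit 51168) pc44 pc45) (PT.nd (nat_lit 51012) pc46 pc47)))) (PT.nd (nat_lit 430014) (PT.nd (nat_lit 163020) (PT.nd (nat_lit 56706) (PT.nd (nat_lit 3900) pc48 pc49) (PT.nd (nat_lit 52962) pc50 pc51)) (PT.nd (nat_lit 107328) (PT.nd (nat_lit 53586) pc52 pc53) (PT.nd (nat_lit 100854) pc54 pc55))) (PT.nd (nat_lit 478296) (PT.nd (nat_lit 212550) (PT.nd (nat_lit 106002) pc56 pc57) (PT.nd (nat_lit 106626) pc58 pc59)) (PT.nd (nat_lit 362856)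 (PT.nd (nat_lit 159666) pc60 pc61) (PT.nd (nat_lit 169182) pc62 pc63))))))

set_option maxRecDepth 10000000 in
noncomputable def Tx : XT := (XT.nd (nat_lit 14061606) (nat_lit 0) (nat_lit 304) XT.nil (XT.nd (nat_lit 9823632) (nat_lit 0) (nat_lit 0) (XT.nd (nat_lit 4610892) (nat_lit 0) (nat_lit 1596) (XT.nd (nat_lit 3182634) (nat_lit 0) (nat_lit 684) (XT.nd (nat_lit 2228070) (nat_lit 0) (nat_lit 304) (XT.nd (nat_lit 1540032) (nat_lit 0) (nat_lit 152) (XT.nd (nat_lit 1112124) (nat_lit 0) (nat_lit 0) (XT.nd (nat_lit 743028) (nat_lit 0) (nat_lit 0) (XT.nd (nat_lit 530010) (nat_lit 0) (nat_lit 0) (XT.nd (nat_lit 370812) (nat_lit 0) (nat_lit 0) xc0 xc1) (XT.nd (nat_lit 106782) (nat_lit 0) (nat_lit 0) xc2 xc3)) (XT.nd (nat_lit 210522) (nat_lit 0) (nat_lit 0) (XT.nd (nat_lit 105534) (nat_lit 0) (nat_lit 0) xc4 xc5) (XT.nd (nat_lit 54522) (nat_lit 0) (nat_lit 0) xc6 xc7))) (XT.nd (nat_lit 215202) (nat_lit 0) (nat_lit 152)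 (XT.nd (nat_lit 107874) (nat_lit 0) (nat_lit 0) (XT.nd (nat_lit 53976) (nat_lit 0) (nat_lit 0) xc8 xc9) (XT.nd (nat_lit 53742) (nat_lit 0) (nat_lit 76) xc10 xc11)) (XT.nd (nat_lit 106626) (nat_lit 0) (nat_lit 0) (XT.nd (nat_lit 53352) (nat_lit 0) (nat_lit 0) xc12 xc13) (XT.nd (nat_lit 53118) (nat_lit 0) (nat_lit 0) xc14 xc15)))) (XT.nd (nat_lit 370734) (nat_lit 0) (nat_lit 76) (XT.nd (nat_lit 210132) (nat_lit 0) (nat_lit 0) (XT.nd (nat_lit 105378) (nat_lit 0) (nat_lit 0) (XT.nd (nat_lit 52728) (nat_lit 0) (nat_lit 0) xc16 xc17) (XT.nd (nat_lit 52416) (nat_lit 0) (nat_lit 0) xc18 xc19)) (XT.nd (nat_lit 104130) (nat_lit 0) (nat_lit 76) (XT.nd (nat_lit 52104) (nat_lit 0) (nat_lit 0) xc20 xc21) (XT.nd (nat_lit 4524) (nat_lit 0) (nat_lit 0) xc22 xc23))) (XT.nd (nat_lit 159354) (nat_lit 0) (nat_lit 0) (XT.nd (nat_lit 103350) (nat_lit 0) (nat_lit 0) (XT.nd (nat_lit 51714) (nat_lit 0) (nat_lit 0) xc24 xc25) (XT.nd (nat_lit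 51480) (nat_lit 0) (nat_lit 456) xc26 xc27)) (XT.nd (nat_lit 102414) (nat_lit 0) (nat_lit 0) (XT.nd (nat_lit 51246) (nat_lit 0) (nat_lit 0) xc28 xc29) (XT.nd (nat_lit 4524) (nat_lit 228) (nat_lit 0) xc30 xc31))))) (XT.nd (nat_lit 528294) (nat_lit 0) (nat_lit 152) (XT.nd (nat_lit 266058) (nat_lit 0) (nat_lit 76) (XT.nd (nat_lit 156468) (nat_lit 0) (nat_lit 76) (XT.nd (nat_lit 55302) (nat_lit 0) (nat_lit 76) (XT.nd (nat_lit 50778) (nat_lit 0) (nat_lit 152) xc32 xc33) (XT.nd (nat_lit 50622) (nat_lit 0) (nat_lit 0) xc34 xc35)) (XT.nd (nat_lit 54834) (nat_lit 0) (nat_lit 0) (XT.nd (nat_lit 4446) (nat_lit 380) (nat_lit 0) xc36 xc37) (XT.nd (nat_lit 50232) (nat_lit 0) (nat_lit 988) xc38 xc39))) (XT.nd (nat_lit 154206) (nat_lit 0) (nat_lit 76) (XT.nd (nat_lit 54522) (nat_lit 0) (nat_lit 0) (XT.nd (nat_lit 49998) (nat_lit 0) (nat_lit 304) xc40 xc41) (XT.nd (nat_lit 49920) (nat_lit 0) (nat_lit 76) xc42 xc43)) (XT.nd (nat_lit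 54054) (nat_lit 0) (nat_lit 0) (XT.nd (nat_lit 4446) (nat_lit 1368) (nat_lit 0) xc44 xc45) (XT.nd (nat_lit 4524) (nat_lit 836) (nat_lit 0) xc46 xc47)))) (XT.nd (nat_lit 214266) (nat_lit 0) (nat_lit 152) (XT.nd (nat_lit 107406) (nat_lit 0) (nat_lit 0) (XT.nd (nat_lit 53742) (nat_lit 0) (nat_lit 0) (XT.nd (nat_lit 4446) (nat_lit 456) (nat_lit 0) xc48 xc49) (XT.nd (nat_lit 4524) (nat_lit 228) (nat_lit 0) xc50 xc51)) (XT.nd (nat_lit 53430) (nat_lit 0) (nat_lit 152) (XT.nd (nat_lit 4446) (nat_lit 152) (nat_lit 0) xc52 xc53) (XT.nd (nat_lit 48906) (nat_lit 0) (nat_lit 1976) xc54 xc55))) (XT.nd (nat_lit 106314) (nat_lit 0) (nat_lit 0) (XT.nd (nat_lit 53196) (nat_lit 0) (nat_lit 0) (XT.nd (nat_lit 48672) (nat_lit 0) (nat_lit 1976) xc56 xc57) (XT.nd (nat_lit 48594) (nat_lit 0) (nat_lit 1976) xc58 xc59)) (XT.nd (nat_lit 52884) (nat_lit 0) (nat_lit 76) (XT.nd (nat_lit 48360) (nat_lit 0) (nat_lit 2280) xc60 xc61) (XT.nd (nat_lit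 48282) (nat_lit 0) (nat_lit 2736) xc62 xc63)))))) (XT.nd (nat_lit 740688) (nat_lit 0) (nat_lit 456) (XT.nd (nat_lit 373932) (nat_lit 0) (nat_lit 152) (XT.nd (nat_lit 209430) (nat_lit 0) (nat_lit 76) (XT.nd (nat_lit 104988) (nat_lit 0) (nat_lit 0) (XT.nd (nat_lit 52572) (nat_lit 0) (nat_lit 0) (XT.nd (nat_lit 48048) (nat_lit 0) (nat_lit 3344) xc64 xc65) (XT.nd (nat_lit 4446) (nat_lit 228) (nat_lit 0) xc66 xc67)) (XT.nd (nat_lit 52260) (nat_lit 0) (nat_lit 0) (XT.nd (nat_lit 4446) (nat_lit 456) (nat_lit 0) xc68 xc69) (XT.nd (nat_lit 4524) (nat_lit 912) (nat_lit 0) xc70 xc71))) (XT.nd (nat_lit 103818) (nat_lit 0) (nat_lit 76) (XT.nd (nat_lit 51948) (nat_lit 0) (nat_lit 76) (XT.nd (nat_lit 4446) (nat_lit 1520) (nat_lit 0) xc72 xc73) (XT.nd (nat_lit 4524) (nat_lit 2356) (nat_lit 0) xc74 xc75)) (XT.nd (nat_lit 8970) (nat_lit 304) (nat_lit 0) (XT.nd (nat_lit 4446) (nat_lit 3724) (nat_lit 0) xc76 xc77) (XT.nd (nat_lit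 47190) (nat_lit 0) (nat_lit 1140) xc78 xc79)))) (XT.nd (nat_lit 205296) (nat_lit 0) (nat_lit 152) (XT.nd (nat_lit 102882) (nat_lit 0) (nat_lit 76) (XT.nd (nat_lit 51480) (nat_lit 0) (nat_lit 76) (XT.nd (nat_lit 46956) (nat_lit 0) (nat_lit 2356) xc80 xc81) (XT.nd (nat_lit 46878) (nat_lit 0) (nat_lit 4636) xc82 xc83)) (XT.nd (nat_lit 51246) (nat_lit 0) (nat_lit 0) (XT.nd (nat_lit 4446) (nat_lit 532) (nat_lit 0) xc84 xc85) (XT.nd (nat_lit 4524) (nat_lit 1596) (nat_lit 0) xc86 xc87))) (XT.nd (nat_lit 59982) (nat_lit 0) (nat_lit 76) (XT.nd (nat_lit 8970) (nat_lit 152) (nat_lit 0) (XT.nd (nat_lit 4446) (nat_lit 3724) (nat_lit 0) xc88 xc89) (XT.nd (nat_lit 46488) (nat_lit 0) (nat_lit 1368) xc90 xc91)) (XT.nd (nat_lit 50778) (nat_lit 0) (nat_lit 0) (XT.nd (nat_lit 46254) (nat_lit 0) (nat_lit 3800) xc92 xc93) (XT.nd (nat_lit 4524) (nat_lit 76) (nat_lit 0) xc94 xc95))))) (XT.nd (nat_lit 321126) (nat_lit 0) (nat_lit 228)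 (XT.nd (nat_lit 160212) (nat_lit 0) (nat_lit 0) (XT.nd (nat_lit 59436) (nat_lit 0) (nat_lit 0) (XT.nd (nat_lit 50466) (nat_lit 0) (nat_lit 456) (XT.nd (nat_lit 4446) (nat_lit 1672) (nat_lit 0) xc96 xc97) (XT.nd (nat_lit 4446) (nat_lit 4332) (nat_lit 0) xc98 xc99)) (XT.nd (nat_lit 50310) (nat_lit 0) (nat_lit 0) (XT.nd (nat_lit 45786) (nat_lit 0) (nat_lit 2584) xc100 xc101) (XT.nd (nat_lit 45942) (nat_lit 0) (nat_lit 6764) xc102 xc103))) (XT.nd (nat_lit 101166) (nat_lit 0) (nat_lit 152) (XT.nd (nat_lit 50466) (nat_lit 0) (nat_lit 152) (XT.nd (nat_lit 4446) (nat_lit 1140) (nat_lit 0) xc104 xc105) (XT.nd (nat_lit 4524) (nat_lit 3572) (nat_lit 0) xc106 xc107)) (XT.nd (nat_lit 8970) (nat_lit 1520) (nat_lit 0) (XT.nd (nat_lit 4446) (nat_lit 6840) (nat_lit 0) xc108 xc109) (XT.nd (nat_lit 46254) (nat_lit 0) (nat_lit 4104) xc110 xc111)))) (XT.nd (nat_lit 161694) (nat_lit 0) (nat_lit 76) (XT.nd (nat_lit 101712) (nat_lit 0)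 (nat_lit 0) (XT.nd (nat_lit 50778) (nat_lit 0) (nat_lit 0) (XT.nd (nat_lit 4446) (nat_lit 152) (nat_lit 0) xc112 xc113) (XT.nd (nat_lit 4524) (nat_lit 1672) (nat_lit 0) xc114 xc115)) (XT.nd (nat_lit 8970) (nat_lit 228) (nat_lit 0) (XT.nd (nat_lit 4446) (nat_lit 4180) (nat_lit 0) xc116 xc117) (XT.nd (nat_lit 46488) (nat_lit 0) (nat_lit 1672) xc118 xc119))) (XT.nd (nat_lit 102180) (nat_lit 0) (nat_lit 76) (XT.nd (nat_lit 51012) (nat_lit 0) (nat_lit 0) (XT.nd (nat_lit 46488) (nat_lit 0) (nat_lit 3952) xc120 xc121) (XT.nd (nat_lit 46644) (nat_lit 0) (nat_lit 7904) xc122 xc123)) (XT.nd (nat_lit 51168) (nat_lit 0) (nat_lit 76) (XT.nd (nat_lit 4446) (nat_lit 1292) (nat_lit 0) xc124 xc125) (XT.nd (nat_lit 4524) (nat_lit 3268) (nat_lit 0) xc126 xc127))))))) (XT.nd (nat_lit 1599546) (nat_lit 0) (nat_lit 2052) (XT.nd (nat_lit 745758) (nat_lit 0) (nat_lit 760) (XT.nd (nat_lit 327756) (nat_lit 0) (nat_lit 304) (XT.nd (nat_lit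 163488) (nat_lit 0) (nat_lit 228) (XT.nd (nat_lit 60372) (nat_lit 0) (nat_lit 76) (XT.nd (nat_lit 8970) (nat_lit 684) (nat_lit 0) (XT.nd (nat_lit 4446) (nat_lit 5548) (nat_lit 0) xc128 xc129) (XT.nd (nat_lit 46878) (nat_lit 0) (nat_lit 2204) xc130 xc131)) (XT.nd (nat_lit 51480) (nat_lit 0) (nat_lit 76) (XT.nd (nat_lit 46956) (nat_lit 0) (nat_lit 4256) xc132 xc133) (XT.nd (nat_lit 47112) (nat_lit 0) (nat_lit 7220) xc134 xc135))) (XT.nd (nat_lit 103428) (nat_lit 0) (nat_lit 0) (XT.nd (nat_lit 51636) (nat_lit 0) (nat_lit 0) (XT.nd (nat_lit 4446) (nat_lit 912) (nat_lit 0) xc136 xc137) (XT.nd (nat_lit 4524) (nat_lit 2280) (nat_lit 0) xc138 xc139)) (XT.nd (nat_lit 51792) (nat_lit 0) (nat_lit 684) (XT.nd (nat_lit 4446) (nat_lit 4104) (nat_lit 0) xc140 xc141) (XT.nd (nat_lit 4524) (nat_lit 5852) (nat_lit 0) xc142 xc143)))) (XT.nd (nat_lit 208260) (nat_lit 0) (nat_lit 228) (XT.nd (nat_lit 103896) (nat_lit 0) (nat_lit 152)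 (XT.nd (nat_lit 51870) (nat_lit 0) (nat_lit 76) (XT.nd (nat_lit 47346) (nat_lit 0) (nat_lit 1824) xc144 xc145) (XT.nd (nat_lit 47502) (nat_lit 0) (nat_lit 3040) xc146 xc147)) (XT.nd (nat_lit 52104) (nat_lit 0) (nat_lit 0) (XT.nd (nat_lit 47580) (nat_lit 0) (nat_lit 4560) xc148 xc149) (XT.nd (nat_lit 47736) (nat_lit 0) (nat_lit 6308) xc150 xc151))) (XT.nd (nat_lit 104676) (nat_lit 0) (nat_lit 76) (XT.nd (nat_lit 52260) (nat_lit 0) (nat_lit 0) (XT.nd (nat_lit 4446) (nat_lit 456) (nat_lit 0) xc152 xc153) (XT.nd (nat_lit 4524) (nat_lit 1216) (nat_lit 0) xc154 xc155)) (XT.nd (nat_lit 52416) (nat_lit 0) (nat_lit 76) (XT.nd (nat_lit 4446) (nat_lit 1900) (nat_lit 0) xc156 xc157) (XT.nd (nat_lit 4524) (nat_lit 2736) (nat_lit 0) xc158 xc159))))) (XT.nd (nat_lit 423852) (nat_lit 0) (nat_lit 532) (XT.nd (nat_lit 211146) (nat_lit 0) (nat_lit 228) (XT.nd (nat_lit 105378) (nat_lit 0) (nat_lit 152) (XT.nd (nat_lit 52650) (nat_lit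 0) (nat_lit 0) (XT.nd (nat_lit 4446) (nat_lit 3572) (nat_lit 0) xc160 xc161) (XT.nd (nat_lit 4446) (nat_lit 4484) (nat_lit 0) xc162 xc163)) (XT.nd (nat_lit 52806) (nat_lit 0) (nat_lit 0) (XT.nd (nat_lit 4446) (nat_lit 5092) (nat_lit 0) xc164 xc165) (XT.nd (nat_lit 4524) (nat_lit 5624) (nat_lit 0) xc166 xc167))) (XT.nd (nat_lit 62010) (nat_lit 0) (nat_lit 0) (XT.nd (nat_lit 8970) (nat_lit 0) (nat_lit 0) (XT.nd (nat_lit 4446) (nat_lit 6156) (nat_lit 0) xc168 xc169) (XT.nd (nat_lit 48516) (nat_lit 0) (nat_lit 228) xc170 xc171)) (XT.nd (nat_lit 53118) (nat_lit 0) (nat_lit 228) (XT.nd (nat_lit 48594) (nat_lit 0) (nat_lit 304) xc172 xc173) (XT.nd (nat_lit 48750) (nat_lit 0) (nat_lit 0) xc174 xc175)))) (XT.nd (nat_lit 214188) (nat_lit 0) (nat_lit 304) (XT.nd (nat_lit 106860) (nat_lit 0) (nat_lit 228) (XT.nd (nat_lit 53352) (nat_lit 0) (nat_lit 0) (XT.nd (nat_lit 4446) (nat_lit 6080) (nat_lit 0) xc176 xc177) (XT.nd (nat_lit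 4524) (nat_lit 5472) (nat_lit 0) xc178 xc179)) (XT.nd (nat_lit 53586) (nat_lit 0) (nat_lit 76) (XT.nd (nat_lit 4446) (nat_lit 5016) (nat_lit 0) xc180 xc181) (XT.nd (nat_lit 4524) (nat_lit 3876) (nat_lit 0) xc182 xc183))) (XT.nd (nat_lit 107640) (nat_lit 0) (nat_lit 304) (XT.nd (nat_lit 53742) (nat_lit 0) (nat_lit 152) (XT.nd (nat_lit 4446) (nat_lit 3192) (nat_lit 0) xc184 xc185) (XT.nd (nat_lit 4524) (nat_lit 2052) (nat_lit 0) xc186 xc187)) (XT.nd (nat_lit 53976) (nat_lit 0) (nat_lit 0) (XT.nd (nat_lit 4446) (nat_lit 1140) (nat_lit 0) xc188 xc189) (XT.nd (nat_lit 4524) (nat_lit 228) (nat_lit 0) xc190 xc191)))))) (XT.nd (nat_lit 1116180) (nat_lit 0) (nat_lit 2964) (XT.nd (nat_lit 528372) (nat_lit 0) (nat_lit 988) (XT.nd (nat_lit 262782) (nat_lit 0) (nat_lit 456) (XT.nd (nat_lit 108342) (nat_lit 0) (nat_lit 152) (XT.nd (nat_lit 54132) (nat_lit 0) (nat_lit 76) (XT.nd (nat_lit 49608) (nat_lit 0) (nat_lit 3648) xc192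 xc193) (XT.nd (nat_lit 49686) (nat_lit 0) (nat_lit 1824) xc194 xc195)) (XT.nd (nat_lit 54288) (nat_lit 0) (nat_lit 152) (XT.nd (nat_lit 49764) (nat_lit 0) (nat_lit 456) xc196 xc197) (XT.nd (nat_lit 49998) (nat_lit 0) (nat_lit 0) xc198 xc199))) (XT.nd (nat_lit 109434) (nat_lit 0) (nat_lit 152) (XT.nd (nat_lit 54678) (nat_lit 0) (nat_lit 0) (XT.nd (nat_lit 4446) (nat_lit 2508) (nat_lit 0) xc200 xc201) (XT.nd (nat_lit 4524) (nat_lit 380) (nat_lit 0) xc202 xc203)) (XT.nd (nat_lit 54834) (nat_lit 0) (nat_lit 228) (XT.nd (nat_lit 50310) (nat_lit 0) (nat_lit 2128) xc204 xc205) (XT.nd (nat_lit 50622) (nat_lit 0) (nat_lit 0) xc206 xc207)))) (XT.nd (nat_lit 268710) (nat_lit 0) (nat_lit 1140) (XT.nd (nat_lit 110682) (nat_lit 0) (nat_lit 228) (XT.nd (nat_lit 55302) (nat_lit 0) (nat_lit 228) (XT.nd (nat_lit 4446) (nat_lit 2736) (nat_lit 0) xc208 xc209) (XT.nd (nat_lit 50856) (nat_lit 0) (nat_lit 2736) xc210 xc211)) (XT.nd (nat_lit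 102180) (nat_lit 0) (nat_lit 684) (XT.nd (nat_lit 51012) (nat_lit 0) (nat_lit 152) xc212 xc213) (XT.nd (nat_lit 4524) (nat_lit 1520) (nat_lit 0) xc214 xc215))) (XT.nd (nat_lit 159120) (nat_lit 0) (nat_lit 380) (XT.nd (nat_lit 102960) (nat_lit 0) (nat_lit 152) (XT.nd (nat_lit 51402) (nat_lit 0) (nat_lit 0) xc216 xc217) (XT.nd (nat_lit 4524) (nat_lit 2736) (nat_lit 0) xc218 xc219)) (XT.nd (nat_lit 103506) (nat_lit 0) (nat_lit 228) (XT.nd (nat_lit 51636) (nat_lit 0) (nat_lit 228) xc220 xc221) (XT.nd (nat_lit 4524) (nat_lit 1976) (nat_lit 0) xc222 xc223))))) (XT.nd (nat_lit 795912) (nat_lit 0) (nat_lit 3344) (XT.nd (nat_lit 370812) (nat_lit 0) (nat_lit 1216) (XT.nd (nat_lit 160836) (nat_lit 0) (nat_lit 456) (XT.nd (nat_lit 104130) (nat_lit 0) (nat_lit 228) (XT.nd (nat_lit 51948) (nat_lit 0) (nat_lit 228) xc224 xc225) (XT.nd (nat_lit 52182) (nat_lit 0) (nat_lit 1520) xc226 xc227)) (XT.nd (nat_lit 104754) (nat_lit 0)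 (nat_lit 532) (XT.nd (nat_lit 52260) (nat_lit 0) (nat_lit 304) xc228 xc229) (XT.nd (nat_lit 52572) (nat_lit 0) (nat_lit 0) xc230 xc231))) (XT.nd (nat_lit 211692) (nat_lit 0) (nat_lit 912) (XT.nd (nat_lit 105612) (nat_lit 0) (nat_lit 532) (XT.nd (nat_lit 52728) (nat_lit 0) (nat_lit 304) xc232 xc233) (XT.nd (nat_lit 52962) (nat_lit 0) (nat_lit 304) xc234 xc235)) (XT.nd (nat_lit 106470) (nat_lit 0) (nat_lit 532) (XT.nd (nat_lit 53118) (nat_lit 0) (nat_lit 228) xc236 xc237) (XT.nd (nat_lit 53430) (nat_lit 0) (nat_lit 0) xc238 xc239)))) (XT.nd (nat_lit 532272) (nat_lit 0) (nat_lit 2660) (XT.nd (nat_lit 264732) (nat_lit 0) (nat_lit 1444) (XT.nd (nat_lit 107328) (nat_lit 0) (nat_lit 304) (XT.nd (nat_lit 53586) (nat_lit 0) (nat_lit 0) xc240 xc241) (XT.nd (nat_lit 53898) (nat_lit 0) (nat_lit 380) xc242 xc243)) (XT.nd (nat_lit 108420) (nat_lit 0) (nat_lit 456) (XT.nd (nat_lit 54132) (nat_lit 0) (nat_lit 0) xc244 xc245) (XT.nd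 (nat_lit 104442) (nat_lit 0) (nat_lit 760) xc246 xc247))) (XT.nd (nat_lit 371982) (nat_lit 0) (nat_lit 2964) (XT.nd (nat_lit 159978) (nat_lit 0) (nat_lit 1444) (XT.nd (nat_lit 104988) (nat_lit 0) (nat_lit 988) xc248 xc249) (XT.nd (nat_lit 105768) (nat_lit 0) (nat_lit 456) xc250 xc251)) (XT.nd (nat_lit 265434) (nat_lit 0) (nat_lit 2280) (XT.nd (nat_lit 106626) (nat_lit 0) (nat_lit 1064) xc252 xc253) (XT.nd (nat_lit 159822) (nat_lit 0) (nat_lit 1368) xc254 xc255)))))))) XT.nil))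

set_option maxRecDepth 10000000 in
noncomputable def Te : XT := XT.nil

set_option maxRecDepth 10000000 in
noncomputable def Tz : ZL := (ZL.cons (nat_lit 76) (nat_lit 6) (nat_lit 311577645506037209726) (ZL.cons (nat_lit 152) (nat_lit 3) (nat_lit 153533490144197272849) (ZL.cons (nat_lit 228) (nat_lit 3) (nat_lit 149158896632666437606) (ZL.cons (nat_lit 304) (nat_lit 6) (nat_lit 294075506486442591498) (ZL.cons (nat_lit 380) (nat_lit 6) (nat_lit 289960847313694508926) (ZL.cons (nat_lit 456) (nat_lit 3) (nat_lit 144917641339234222528) (ZL.cons (nat_lit 532) (nat_lit 6) (nat_lit 285722748365763983874) (ZL.cons (nat_lit 608) (nat_lit 6) (nat_lit 281734310071745291430) (ZL.cons (nat_lit 684) (nat_lit 3) (nat_lit 140806201329452226363) (ZL.cons (nat_lit 760) (nat_lit 6) (nat_lit 277626218628906038216) (ZL.cons (nat_lit 836) (nat_lit 6) (nat_lit 273760713202344469890) (ZL.cons (nat_lit 912) (nat_lit 3) (nat_lit 136821178245424254989)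 (ZL.cons (nat_lit 988) (nat_lit 6) (nat_lit 269779242612986054510) (ZL.cons (nat_lit 1064) (nat_lit 6) (nat_lit 266033501458920539568) (ZL.cons (nat_lit 1140) (nat_lit 3) (nat_lit 132959296015141842644) (ZL.cons (nat_lit 1216) (nat_lit 6) (nat_lit 262175388070233059178) (ZL.cons (nat_lit 1292) (nat_lit 6) (nat_lit 258546359972092384374) (ZL.cons (nat_lit 1368) (nat_lit 3) (nat_lit 129217398710008884283) (ZL.cons (nat_lit 1444) (nat_lit 6) (nat_lit 254808461031007489326) (ZL.cons (nat_lit 1520) (nat_lit 6) (nat_lit 251293210259755513442) (ZL.cons (nat_lit 1596) (nat_lit 3) (nat_lit 125592448551200758757) (ZL.cons (nat_lit 1672) (nat_lit 6) (nat_lit 247672501965365978284) (ZL.cons (nat_lit 1748) (nat_lit 6) (nat_lit 244268206536771423106) (ZL.cons (nat_lit 1824) (nat_lit 3) (nat_lit 122081524065786684403) (ZL.cons (nat_lit 1900) (nat_lit 6) (nat_lit 240761782245319031272) (ZL.cons (nat_lit 1976) (nat_lit 6) (nat_lit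 237465732326702355096) (ZL.cons (nat_lit 2052) (nat_lit 3) (nat_lit 118681818393837558956) (ZL.cons (nat_lit 2128) (nat_lit 6) (nat_lit 234070800910527178634) (ZL.cons (nat_lit 2204) (nat_lit 6) (nat_lit 230880397378642754076) (ZL.cons (nat_lit 2280) (nat_lit 3) (nat_lit 115390637748046019182) (ZL.cons (nat_lit 2356) (nat_lit 6) (nat_lit 227594281740801796782) (ZL.cons (nat_lit 2432) (nat_lit 6) (nat_lit 224507034892831443002) (ZL.cons (nat_lit 2508) (nat_lit 3) (nat_lit 112205400027701781833) (ZL.cons (nat_lit 2584) (nat_lit 6) (nat_lit 221327170639421978604) (ZL.cons (nat_lit 2660) (nat_lit 6) (nat_lit 218340699059386766422) (ZL.cons (nat_lit 2736) (nat_lit 3) (nat_lit 109123633589194412662) (ZL.cons (nat_lit 2812) (nat_lit 6) (nat_lit 215264633331950497876) (ZL.cons (nat_lit 2888) (nat_lit 6) (nat_lit 212376662915192632678) (ZL.cons (nat_lit 2964) (nat_lit 3) (nat_lit 106142976175558480853) (ZL.cons (nat_lit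 3040) (nat_lit 6) (nat_lit 209580832458819033532) (ZL.cons (nat_lit 3116) (nat_lit 6) (nat_lit 209402053385932031522) (ZL.cons (nat_lit 3192) (nat_lit 6) (nat_lit 206610416524678555442) (ZL.cons (nat_lit 3268) (nat_lit 3) (nat_lit 103261174007933612202) (ZL.cons (nat_lit 3344) (nat_lit 6) (nat_lit 203908602473011748880) (ZL.cons (nat_lit 3420) (nat_lit 6) (nat_lit 203735030557587475082) (ZL.cons (nat_lit 3496) (nat_lit 6) (nat_lit 201037665490983607078) (ZL.cons (nat_lit 3572) (nat_lit 3) (nat_lit 100476081042185332159) (ZL.cons (nat_lit 3648) (nat_lit 6) (nat_lit 198427895895123636428) (ZL.cons (nat_lit 3724) (nat_lit 6) (nat_lit 198259379472381623032) (ZL.cons (nat_lit 3800) (nat_lit 6) (nat_lit 195654329804774923902) (ZL.cons (nat_lit 3876) (nat_lit 3) (nat_lit 97785658394322926633) (ZL.cons (nat_lit 3952) (nat_lit 6) (nat_lit 193134736824559454276) (ZL.cons (nat_lit 4028) (nat_lit 6) (nat_lit 192971128647140023798)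 (ZL.cons (nat_lit 4104) (nat_lit 6) (nat_lit 190456543038808449926) (ZL.cons (nat_lit 4180) (nat_lit 3) (nat_lit 95187973938759045042) (ZL.cons (nat_lit 4256) (nat_lit 6) (nat_lit 188025362752925405034) (ZL.cons (nat_lit 4332) (nat_lit 6) (nat_lit 187866519862226928838) (ZL.cons (nat_lit 4408) (nat_lit 6) (nat_lit 185440651897175508952) (ZL.cons (nat_lit 4484) (nat_lit 3) (nat_lit 92681202083883696299) (ZL.cons (nat_lit 4560) (nat_lit 6) (nat_lit 183096224291908931122) (ZL.cons (nat_lit 4636) (nat_lit 6) (nat_lit 182942007893172546468) (ZL.cons (nat_lit 4712) (nat_lit 6) (nat_lit 180831188517451719702) (ZL.cons (nat_lit 4788) (nat_lit 6) (nat_lit 180603216129076239606) (ZL.cons (nat_lit 4864) (nat_lit 3) (nat_lit 90263623729873985653) (ZL.cons (nat_lit 4940) (nat_lit 6) (nat_lit 178343985271024407282) (ZL.cons (nat_lit 5016) (nat_lit 6) (nat_lit 178194260612057043540) (ZL.cons (nat_lit 5092) (nat_lit 6) (nat_lit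 176162341233801276052) (ZL.cons (nat_lit 5168) (nat_lit 6) (nat_lit 175941008817902751688) (ZL.cons (nat_lit 5244) (nat_lit 3) (nat_lit 87933626414131828123) (ZL.cons (nat_lit 5320) (nat_lit 6) (nat_lit 173765523216494087140) (ZL.cons (nat_lit 5396) (nat_lit 6) (nat_lit 173620159469923831076) (ZL.cons (nat_lit 5472) (nat_lit 6) (nat_lit 171665902898082246210) (ZL.cons (nat_lit 5548) (nat_lit 6) (nat_lit 171451017057404067214) (ZL.cons (nat_lit 5624) (nat_lit 3) (nat_lit 85689704650236453296) (ZL.cons (nat_lit 5700) (nat_lit 6) (nat_lit 169357930223547793990) (ZL.cons (nat_lit 5776) (nat_lit 6) (nat_lit 169216800372508710436) (ZL.cons (nat_lit 5852) (nat_lit 6) (nat_lit 167339070057529311744) (ZL.cons (nat_lit 5928) (nat_lit 6) (nat_lit 167130443027744671946) (ZL.cons (nat_lit 6004) (nat_lit 3) (nat_lit 83530460466818374507) (ZL.cons (nat_lit 6080) (nat_lit 6) (nat_lit 165118514235491191480) (ZL.cons (nat_lit 6156)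 (nat_lit 6) (nat_lit 164981494962637712304) (ZL.cons (nat_lit 6232) (nat_lit 6) (nat_lit 163179255999716202892) (ZL.cons (nat_lit 6308) (nat_lit 6) (nat_lit 162976705485362183670) (ZL.cons (nat_lit 6384) (nat_lit 3) (nat_lit 81454604153308313713) (ZL.cons (nat_lit 6460) (nat_lit 6) (nat_lit 161310973822932135802) (ZL.cons (nat_lit 6536) (nat_lit 6) (nat_lit 161044800744014485468) (ZL.cons (nat_lit 6612) (nat_lit 6) (nat_lit 160911772323768389178) (ZL.cons (nat_lit 6688) (nat_lit 6) (nat_lit 159184092666490527478) (ZL.cons (nat_lit 6764) (nat_lit 6) (nat_lit 158987441681680800076) (ZL.cons (nat_lit 6840) (nat_lit 3) (nat_lit 79460955220090130015) (ZL.cons (nat_lit 6916) (nat_lit 6) (nat_lit 157392955391363347014) (ZL.cons (nat_lit 6992) (nat_lit 6) (nat_lit 157134534926394754456) (ZL.cons (nat_lit 7068) (nat_lit 6) (nat_lit 157005381120330583298) (ZL.cons (nat_lit 7144) (nat_lit 6) (nat_lit 155351433013172623734)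 (ZL.cons (nat_lit 7220) (nat_lit 6) (nat_lit 155160509726949587420) (ZL.cons (nat_lit 7296) (nat_lit 3) (nat_lit 77548443581192978154) (ZL.cons (nat_lit 7372) (nat_lit 6) (nat_lit 153636577891798971098) (ZL.cons (nat_lit 7448) (nat_lit 6) (nat_lit 153385684236489657934) (ZL.cons (nat_lit 7524) (nat_lit 6) (nat_lit 153260292191767161666) (ZL.cons (nat_lit 7600) (nat_lit 6) (nat_lit 151988471145177450636) (ZL.cons (nat_lit 7676) (nat_lit 6) (nat_lit 151679353830561072568) (ZL.cons (nat_lit 7752) (nat_lit 6) (nat_lit 151493991416752299450) (ZL.cons (nat_lit 7828) (nat_lit 3) (nat_lit 75716110968296717147) (ZL.cons (nat_lit 7904) (nat_lit 6) (nat_lit 150040027540847971398) (ZL.cons (nat_lit 7980) (nat_lit 6) (nat_lit 149796441467732133376) (ZL.cons (nat_lit 8056) (nat_lit 6) (nat_lit 149674701618486991370) (ZL.cons (nat_lit 8132) (nat_lit 6) (nat_lit 148466272946320508022) (ZL.cons (nat_lit 8208) (nat_lit 6) (nat_lit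 148166159048634704074) (ZL.cons (nat_lit 8284) (nat_lit 6) (nat_lit 147986195540082497164) (ZL.cons (nat_lit 8360) (nat_lit 3) (nat_lit 73963112585498110157) (ZL.cons (nat_lit 8436) (nat_lit 6) (nat_lit 146601719640841382722) (ZL.cons (nat_lit 8512) (nat_lit 6) (nat_lit 146365228307719209886) (ZL.cons (nat_lit 8588) (nat_lit 6) (nat_lit 146247034279325868132) (ZL.cons (nat_lit 8664) (nat_lit 6) (nat_lit 145101756258461864478) (ZL.cons (nat_lit 8740) (nat_lit 6) (nat_lit 144810383542262054820) (ZL.cons (nat_lit 8816) (nat_lit 6) (nat_lit 144635661689298747140) (ZL.cons (nat_lit 8892) (nat_lit 3) (nat_lit 72288719014995841118) (ZL.cons (nat_lit 8968) (nat_lit 6) (nat_lit 143664958253880477918) (ZL.cons (nat_lit 9044) (nat_lit 6) (nat_lit 143320302641488787850) (ZL.cons (nat_lit 9120) (nat_lit 6) (nat_lit 143090699405447843348) (ZL.cons (nat_lit 9196) (nat_lit 6) (nat_lit 142975947921570812518) (ZL.cons (nat_lit 9272)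 (nat_lit 6) (nat_lit 141893683592961840102) (ZL.cons (nat_lit 9348) (nat_lit 6) (nat_lit 141610797460729015190) (ZL.cons (nat_lit 9424) (nat_lit 6) (nat_lit 141441164593774347538) (ZL.cons (nat_lit 9500) (nat_lit 3) (nat_lit 70692318384602190806) (ZL.cons (nat_lit 9576) (nat_lit 6) (nat_lit 140529279836347547252) (ZL.cons (nat_lit 9652) (nat_lit 6) (nat_lit 140194662736938139420) (ZL.cons (nat_lit 9728) (nat_lit 6) (nat_lit 139971746973791591358) (ZL.cons (nat_lit 9804) (nat_lit 6) (nat_lit 139860337766143988610) (ZL.cons (nat_lit 9880) (nat_lit 6) (nat_lit 139225899174188673508) (ZL.cons (nat_lit 9956) (nat_lit 6) (nat_lit 138841057834802000704) (ZL.cons (nat_lit 10032) (nat_lit 6) (nat_lit 138566411104478869722) (ZL.cons (nat_lit 10108) (nat_lit 6) (nat_lit 138401719000639386564) (ZL.cons (nat_lit 10184) (nat_lit 3) (nat_lit 69173418808780874871) (ZL.cons (nat_lit 10260) (nat_lit 6) (nat_lit 137548799992755625720)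 (ZL.cons (nat_lit 10336) (nat_lit 6) (nat_lit 137223929022455229766) (ZL.cons (nat_lit 10412) (nat_lit 6) (nat_lit 137007505951439163688) (ZL.cons (nat_lit 10488) (nat_lit 6) (nat_lit 136899341672169646456) (ZL.cons (nat_lit 10564) (nat_lit 6) (nat_lit 136316760053461304044) (ZL.cons (nat_lit 10640) (nat_lit 6) (nat_lit 135943127685124728506) (ZL.cons (nat_lit 10716) (nat_lit 6) (nat_lit 135676480374131397456) (ZL.cons (nat_lit 10792) (nat_lit 6) (nat_lit 135516585127685297304) (ZL.cons (nat_lit 10868) (nat_lit 3) (nat_lit 67731651115746708447) (ZL.cons (nat_lit 10944) (nat_lit 6) (nat_lit 135143861477166254230) (ZL.cons (nat_lit 11020) (nat_lit 6) (nat_lit 134722887945687756764) (ZL.cons (nat_lit 11096) (nat_lit 6) (nat_lit 134407479236658246130) (ZL.cons (nat_lit 11172) (nat_lit 6) (nat_lit 134197359750234881006) (ZL.cons (nat_lit 11248) (nat_lit 6) (nat_lit 134092345886866417676) (ZL.cons (nat_lit 11324) (nat_lit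 6) (nat_lit 133562143575245777382) (ZL.cons (nat_lit 11400) (nat_lit 6) (nat_lit 133199393703074344820) (ZL.cons (nat_lit 11476) (nat_lit 6) (nat_lit 132940512818614800112) (ZL.cons (nat_lit 11552) (nat_lit 6) (nat_lit 132785274715269071810) (ZL.cons (nat_lit 11628) (nat_lit 3) (nat_lit 66366771874046244445) (ZL.cons (nat_lit 11704) (nat_lit 6) (nat_lit 132459880331145006108) (ZL.cons (nat_lit 11780) (nat_lit 6) (nat_lit 132051168164661027984) (ZL.cons (nat_lit 11856) (nat_lit 6) (nat_lit 131744946117059561348) (ZL.cons (nat_lit 11932) (nat_lit 6) (nat_lit 131540946615677653462) (ZL.cons (nat_lit 12008) (nat_lit 6) (nat_lit 131438991408523805570) (ZL.cons (nat_lit 12084) (nat_lit 6) (nat_lit 131415135070744966534) (ZL.cons (nat_lit 12160) (nat_lit 6) (nat_lit 130961799317549779132) (ZL.cons (nat_lit 12236) (nat_lit 6) (nat_lit 130609614975635766934) (ZL.cons (nat_lit 12312) (nat_lit 6) (nat_lit 130358274311111937120)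 (ZL.cons (nat_lit 12388) (nat_lit 6) (nat_lit 130207557705921909644) (ZL.cons (nat_lit 12464) (nat_lit 3) (nat_lit 65078666732972322336) (ZL.cons (nat_lit 12540) (nat_lit 6) (nat_lit 129930335286048947652) (ZL.cons (nat_lit 12616) (nat_lit 6) (nat_lit 129533527357423726176) (ZL.cons (nat_lit 12692) (nat_lit 6) (nat_lit 129236224398587350800) (ZL.cons (nat_lit 12768) (nat_lit 6) (nat_lit 129038166630255401396) (ZL.cons (nat_lit 12844) (nat_lit 6) (nat_lit 128939180992241956840) (ZL.cons (nat_lit 12920) (nat_lit 6) (nat_lit 128955874790907707582) (ZL.cons (nat_lit 12996) (nat_lit 6) (nat_lit 128515742991689079034) (ZL.cons (nat_lit 13072) (nat_lit 6) (nat_lit 128173816446141494380) (ZL.cons (nat_lit 13148) (nat_lit 6) (nat_lit 127929796383496999414) (ZL.cons (nat_lit 13224) (nat_lit 6) (nat_lit 127783469582341632930) (ZL.cons (nat_lit 13300) (nat_lit 3) (nat_lit 63867354092152726673) (ZL.cons (nat_lit 13376) (nat_lit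 6) (nat_lit 128037566361790498612) (ZL.cons (nat_lit 13452) (nat_lit 6) (nat_lit 127555372552287008832) (ZL.cons (nat_lit 13528) (nat_lit 6) (nat_lit 127170122136146017106) (ZL.cons (nat_lit 13604) (nat_lit 6) (nat_lit 126881478486790312862) (ZL.cons (nat_lit 13680) (nat_lit 6) (nat_lit 126689189391322400816) (ZL.cons (nat_lit 13756) (nat_lit 6) (nat_lit 126593086830144299304) (ZL.cons (nat_lit 13832) (nat_lit 6) (nat_lit 127174607593273820266) (ZL.cons (nat_lit 13908) (nat_lit 6) (nat_lit 126651576880581144824) (ZL.cons (nat_lit 13984) (nat_lit 6) (nat_lit 126224264454155291866) (ZL.cons (nat_lit 14060) (nat_lit 6) (nat_lit 125892296934206180550) (ZL.cons (nat_lit 14136) (nat_lit 6) (nat_lit 125655384252027059226) (ZL.cons (nat_lit 14212) (nat_lit 6) (nat_lit 125513319396536412152) (ZL.cons (nat_lit 14288) (nat_lit 3) (nat_lit 62732989116697245112) (ZL.cons (nat_lit 14364) (nat_lit 6) (nat_lit 125803566252198151792)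 (ZL.cons (nat_lit 14440) (nat_lit 6) (nat_lit 125335416922583113172) (ZL.cons (nat_lit 14516) (nat_lit 6) (nat_lit 124961387392349140624) (ZL.cons (nat_lit 14592) (nat_lit 6) (nat_lit 124681150839576612228) (ZL.cons (nat_lit 14668) (nat_lit 6) (nat_lit 124494462397374755876) (ZL.cons (nat_lit 14744) (nat_lit 6) (nat_lit 124401158939920288386) (ZL.cons (nat_lit 14820) (nat_lit 6) (nat_lit 125010599686977306732) (ZL.cons (nat_lit 14896) (nat_lit 6) (nat_lit 124502802878537816010) (ZL.cons (nat_lit 14972) (nat_lit 6) (nat_lit 124087936445114657800) (ZL.cons (nat_lit 15048) (nat_lit 6) (nat_lit 123765637882057268172) (ZL.cons (nat_lit 15124) (nat_lit 6) (nat_lit 123535625569262004748) (ZL.cons (nat_lit 15200) (nat_lit 6) (nat_lit 123397698525096327980) (ZL.cons (nat_lit 15276) (nat_lit 3) (nat_lit 61675868115391891209) (ZL.cons (nat_lit 15352) (nat_lit 6) (nat_lit 124271984301512105990) (ZL.cons (nat_lit 15428) (nat_lit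 6) (nat_lit 123725694795184797698) (ZL.cons (nat_lit 15504) (nat_lit 6) (nat_lit 123271180882937187386) (ZL.cons (nat_lit 15580) (nat_lit 6) (nat_lit 122908045416690612096) (ZL.cons (nat_lit 15656) (nat_lit 6) (nat_lit 122635971093610487440) (ZL.cons (nat_lit 15732) (nat_lit 6) (nat_lit 122454720178851403600) (ZL.cons (nat_lit 15808) (nat_lit 6) (nat_lit 122364134297827648760) (ZL.cons (nat_lit 15884) (nat_lit 6) (nat_lit 123003413646043458508) (ZL.cons (nat_lit 15960) (nat_lit 6) (nat_lit 122510407035908030626) (ZL.cons (nat_lit 16036) (nat_lit 6) (nat_lit 122107624090837003234) (ZL.cons (nat_lit 16112) (nat_lit 6) (nat_lit 121794712864567692916) (ZL.cons (nat_lit 16188) (nat_lit 6) (nat_lit 121571399939523747844) (ZL.cons (nat_lit 16264) (nat_lit 6) (nat_lit 121437490187906585932) (ZL.cons (nat_lit 16340) (nat_lit 3) (nat_lit 60696433300597688327) (ZL.cons (nat_lit 16416) (nat_lit 6) (nat_lit 122335328311663092414)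 (ZL.cons (nat_lit 16492) (nat_lit 6) (nat_lit 121804950150180268830) (ZL.cons (nat_lit 16568) (nat_lit 6) (nat_lit 121363674507221423868) (ZL.cons (nat_lit 16644) (nat_lit 6) (nat_lit 121011115802127661448) (ZL.cons (nat_lit 16720) (nat_lit 6) (nat_lit 120746965973894530714) (ZL.cons (nat_lit 16796) (nat_lit 6) (nat_lit 120570994211992507570) (ZL.cons (nat_lit 16872) (nat_lit 6) (nat_lit 120483046754687891220) (ZL.cons (nat_lit 16948) (nat_lit 6) (nat_lit 121720855028159289394) (ZL.cons (nat_lit 17024) (nat_lit 6) (nat_lit 121154193807115887458) (ZL.cons (nat_lit 17100) (nat_lit 6) (nat_lit 120675546612809646794) (ZL.cons (nat_lit 17176) (nat_lit 6) (nat_lit 120284495209828066804) (ZL.cons (nat_lit 17252) (nat_lit 6) (nat_lit 119980697902770483968) (ZL.cons (nat_lit 17328) (nat_lit 6) (nat_lit 119763889237679275162) (ZL.cons (nat_lit 17404) (nat_lit 6) (nat_lit 119633879770089797580) (ZL.cons (nat_lit 17480) (nat_lit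 3) (nat_lit 59795277949748195254) (ZL.cons (nat_lit 17556) (nat_lit 6) (nat_lit 121159456877128987866) (ZL.cons (nat_lit 17632) (nat_lit 6) (nat_lit 120557569384667548696) (ZL.cons (nat_lit 17708) (nat_lit 6) (nat_lit 120042639130800729680) (ZL.cons (nat_lit 17784) (nat_lit 6) (nat_lit 119614216176471753988) (ZL.cons (nat_lit 17860) (nat_lit 6) (nat_lit 119271926171526353582) (ZL.cons (nat_lit 17936) (nat_lit 6) (nat_lit 119015470027610692674) (ZL.cons (nat_lit 18012) (nat_lit 6) (nat_lit 118844623656832029430) (ZL.cons (nat_lit 18088) (nat_lit 6) (nat_lit 118759237775953761126) (ZL.cons (nat_lit 18164) (nat_lit 6) (nat_lit 120650643316498472036) (ZL.cons (nat_lit 18240) (nat_lit 6) (nat_lit 120014555560524375358) (ZL.cons (nat_lit 18316) (nat_lit 6) (nat_lit 119464399035239519108) (ZL.cons (nat_lit 18392) (nat_lit 6) (nat_lit 118999693021349965064) (ZL.cons (nat_lit 18468) (nat_lit 6) (nat_lit 118620031465057168956)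 (ZL.cons (nat_lit 18544) (nat_lit 6) (nat_lit 118325082623253690478) (ZL.cons (nat_lit 18620) (nat_lit 6) (nat_lit 118114588773650575132) (ZL.cons (nat_lit 18696) (nat_lit 6) (nat_lit 117988365989583121166) (ZL.cons (nat_lit 18772) (nat_lit 3) (nat_lit 58973151989649129967) (ZL.cons (nat_lit 18848) (nat_lit 6) (nat_lit 120193969751894375432) (ZL.cons (nat_lit 18924) (nat_lit 6) (nat_lit 119524677856587601560) (ZL.cons (nat_lit 19000) (nat_lit 6) (nat_lit 118940321067790087802) (ZL.cons (nat_lit 19076) (nat_lit 6) (nat_lit 118440388782482496524) (ZL.cons (nat_lit 19152) (nat_lit 6) (nat_lit 118024444166629122064) (ZL.cons (nat_lit 19228) (nat_lit 6) (nat_lit 117692123773478247884) (ZL.cons (nat_lit 19304) (nat_lit 6) (nat_lit 117443137225987314968) (ZL.cons (nat_lit 19380) (nat_lit 6) (nat_lit 117277266963095408900) (ZL.cons (nat_lit 19456) (nat_lit 6) (nat_lit 117194368049621362006) (ZL.cons (nat_lit 19532) (nat_lit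 3) (nat_lit 58725669225113491530) (ZL.cons (nat_lit 19608) (nat_lit 6) (nat_lit 117476786658194616008) (ZL.cons (nat_lit 19684) (nat_lit 6) (nat_lit 117553153518395739002) (ZL.cons (nat_lit 19760) (nat_lit 6) (nat_lit 117680505759154799622) (ZL.cons (nat_lit 19836) (nat_lit 6) (nat_lit 117858954659128771804) (ZL.cons (nat_lit 19912) (nat_lit 6) (nat_lit 118088656144540933782) (ZL.cons (nat_lit 19988) (nat_lit 6) (nat_lit 118369810925427082586) (ZL.cons (nat_lit 20064) (nat_lit 6) (nat_lit 118702664671013235236) (ZL.cons (nat_lit 20140) (nat_lit 6) (nat_lit 119087508224378059252) (ZL.cons (nat_lit 20216) (nat_lit 6) (nat_lit 118469947296247868300) (ZL.cons (nat_lit 20292) (nat_lit 6) (nat_lit 117935814747427619514) (ZL.cons (nat_lit 20368) (nat_lit 6) (nat_lit 117484643860156207820) (ZL.cons (nat_lit 20444) (nat_lit 6) (nat_lit 117116040407444755288) (ZL.cons (nat_lit 20520) (nat_lit 6) (nat_lit 116829682308606426670)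 (ZL.cons (nat_lit 20596) (nat_lit 6) (nat_lit 116625319347826703032) (ZL.cons (nat_lit 20672) (nat_lit 6) (nat_lit 116502772955528204036) (ZL.cons (nat_lit 20748) (nat_lit 3) (nat_lit 58230968026169509187) (ZL.cons (nat_lit 20824) (nat_lit 6) (nat_lit 116600694684562950272) (ZL.cons (nat_lit 20900) (nat_lit 6) (nat_lit 116652354546737245160) (ZL.cons (nat_lit 20976) (nat_lit 6) (nat_lit 116755719410771229948) (ZL.cons (nat_lit 21052) (nat_lit 6) (nat_lit 116910879595478138218) (ZL.cons (nat_lit 21128) (nat_lit 6) (nat_lit 117117970677718393482) (ZL.cons (nat_lit 21204) (nat_lit 6) (nat_lit 117377173610864827030) (ZL.cons (nat_lit 21280) (nat_lit 6) (nat_lit 117688714882917275552) (ZL.cons (nat_lit 21356) (nat_lit 6) (nat_lit 118052866714404716914) (ZL.cons (nat_lit 21432) (nat_lit 6) (nat_lit 117485530026251790934) (ZL.cons (nat_lit 21508) (nat_lit 6) (nat_lit 117000158875467721732) (ZL.cons (nat_lit 21584) (nat_lit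 6) (nat_lit 116596329151338231966) (ZL.cons (nat_lit 21660) (nat_lit 6) (nat_lit 116273687992939324996) (ZL.cons (nat_lit 21736) (nat_lit 6) (nat_lit 116031953480812205656) (ZL.cons (nat_lit 21812) (nat_lit 6) (nat_lit 115870914390625889090) (ZL.cons (nat_lit 21888) (nat_lit 6) (nat_lit 115790430008612251326) (ZL.cons (nat_lit 21964) (nat_lit 3) (nat_lit 57900137579438091228) (ZL.cons (nat_lit 22040) (nat_lit 6) (nat_lit 115826486813082844396) (ZL.cons (nat_lit 22116) (nat_lit 6) (nat_lit 115905144679090001078) (ZL.cons (nat_lit 22192) (nat_lit 6) (nat_lit 116036317487071833516) (ZL.cons (nat_lit 22268) (nat_lit 6) (nat_lit 116220119854045024868) (ZL.cons (nat_lit 22344) (nat_lit 6) (nat_lit 116456712384019551702) (ZL.cons (nat_lit 22420) (nat_lit 6) (nat_lit 116746301808332284968) (ZL.cons (nat_lit 22496) (nat_lit 6) (nat_lit 117089141166286022202) (ZL.cons (nat_lit 22572) (nat_lit 6) (nat_lit 116570565876169275806)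 (ZL.cons (nat_lit 22648) (nat_lit 6) (nat_lit 116132535888527128532) (ZL.cons (nat_lit 22724) (nat_lit 6) (nat_lit 115774668458710184328) (ZL.cons (nat_lit 22800) (nat_lit 6) (nat_lit 115496650887022486636) (ZL.cons (nat_lit 22876) (nat_lit 6) (nat_lit 115298240245488774368) (ZL.cons (nat_lit 22952) (nat_lit 6) (nat_lit 115179263165587319034) (ZL.cons (nat_lit 23028) (nat_lit 3) (nat_lit 57569807843381433466) (ZL.cons (nat_lit 23104) (nat_lit 6) (nat_lit 115074828685432256164) (ZL.cons (nat_lit 23180) (nat_lit 6) (nat_lit 115128038343471779898) (ZL.cons (nat_lit 23256) (nat_lit 6) (nat_lit 115234504153426784230) (ZL.cons (nat_lit 23332) (nat_lit 6) (nat_lit 115394319143674899750) (ZL.cons (nat_lit 23408) (nat_lit 6) (nat_lit 115607622958382362672) (ZL.cons (nat_lit 23484) (nat_lit 6) (nat_lit 115874601979523189224) (ZL.cons (nat_lit 23560) (nat_lit 6) (nat_lit 116195489489737211202) (ZL.cons (nat_lit 23636) (nat_lit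 6) (nat_lit 115724255362762386734) (ZL.cons (nat_lit 23712) (nat_lit 6) (nat_lit 115332187669432785022) (ZL.cons (nat_lit 23788) (nat_lit 6) (nat_lit 115018943826327050096) (ZL.cons (nat_lit 23864) (nat_lit 6) (nat_lit 114784250125232759476) (ZL.cons (nat_lit 23940) (nat_lit 6) (nat_lit 114627901493983908440) (ZL.cons (nat_lit 24016) (nat_lit 6) (nat_lit 114549761317271638768) (ZL.cons (nat_lit 24092) (nat_lit 3) (nat_lit 57198361687565125900) (ZL.cons (nat_lit 24168) (nat_lit 6) (nat_lit 114423721378963113594) (ZL.cons (nat_lit 24244) (nat_lit 6) (nat_lit 114504738980950484978) (ZL.cons (nat_lit 24320) (nat_lit 6) (nat_lit 114639846973171772392) (ZL.cons (nat_lit 24396) (nat_lit 6) (nat_lit 114829163411154159482) (ZL.cons (nat_lit 24472) (nat_lit 6) (nat_lit 115072853717027922122) (ZL.cons (nat_lit 24548) (nat_lit 6) (nat_lit 115371130824070037386) (ZL.cons (nat_lit 24624) (nat_lit 6) (nat_lit 114945858991407758480)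 (ZL.cons (nat_lit 24700) (nat_lit 6) (nat_lit 114598414884789366046) (ZL.cons (nat_lit 24776) (nat_lit 6) (nat_lit 114328494912277038192) (ZL.cons (nat_lit 24852) (nat_lit 6) (nat_lit 114135863221467608804) (ZL.cons (nat_lit 24928) (nat_lit 6) (nat_lit 114020351493407943430) (ZL.cons (nat_lit 25004) (nat_lit 3) (nat_lit 56990929397760062930) (ZL.cons (nat_lit 25080) (nat_lit 6) (nat_lit 113791578362973654792) (ZL.cons (nat_lit 25156) (nat_lit 6) (nat_lit 113846384310754364236) (ZL.cons (nat_lit 25232) (nat_lit 6) (nat_lit 113956044095008018702) (ZL.cons (nat_lit 25308) (nat_lit 6) (nat_lit 114120653534963577686) (ZL.cons (nat_lit 25384) (nat_lit 6) (nat_lit 114340356464112264494) (ZL.cons (nat_lit 25460) (nat_lit 6) (nat_lit 114615344855887315846) (ZL.cons (nat_lit 25536) (nat_lit 6) (nat_lit 114234696609936246218) (ZL.cons (nat_lit 25612) (nat_lit 6) (nat_lit 113930576373911260856) (ZL.cons (nat_lit 25688) (nat_lit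 6) (nat_lit 113702718411683794234) (ZL.cons (nat_lit 25764) (nat_lit 6) (nat_lit 113550923624063550508) (ZL.cons (nat_lit 25840) (nat_lit 6) (nat_lit 113475059374828337236) (ZL.cons (nat_lit 25916) (nat_lit 3) (nat_lit 56615528468764133531) (ZL.cons (nat_lit 25992) (nat_lit 6) (nat_lit 113258864881476114712) (ZL.cons (nat_lit 26068) (nat_lit 6) (nat_lit 113342313011523107238) (ZL.cons (nat_lit 26144) (nat_lit 6) (nat_lit 113481474243511033274) (ZL.cons (nat_lit 26220) (nat_lit 6) (nat_lit 113676470174632891976) (ZL.cons (nat_lit 26296) (nat_lit 6) (nat_lit 113927471189682867496) (ZL.cons (nat_lit 26372) (nat_lit 6) (nat_lit 113590146814325204940) (ZL.cons (nat_lit 26448) (nat_lit 6) (nat_lit 113328088588585080810) (ZL.cons (nat_lit 26524) (nat_lit 6) (nat_lit 113141067529546799850) (ZL.cons (nat_lit 26600) (nat_lit 6) (nat_lit 113028920220751008226) (ZL.cons (nat_lit 26676) (nat_lit 3) (nat_lit 56495774334701806262)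 (ZL.cons (nat_lit 26752) (nat_lit 6) (nat_lit 112741667326624134054) (ZL.cons (nat_lit 26828) (nat_lit 6) (nat_lit 112798117452838264786) (ZL.cons (nat_lit 26904) (nat_lit 6) (nat_lit 112911067030619528882) (ZL.cons (nat_lit 26980) (nat_lit 6) (nat_lit 113080614753773754636) (ZL.cons (nat_lit 27056) (nat_lit 6) (nat_lit 113306908770796902050) (ZL.cons (nat_lit 27132) (nat_lit 6) (nat_lit 113011646405724100726) (ZL.cons (nat_lit 27208) (nat_lit 6) (nat_lit 112790425083173162258) (ZL.cons (nat_lit 27284) (nat_lit 6) (nat_lit 112643051502959333400) (ZL.cons (nat_lit 27360) (nat_lit 6) (nat_lit 112569396892051359346) (ZL.cons (nat_lit 27436) (nat_lit 3) (nat_lit 56147169863002431139) (ZL.cons (nat_lit 27512) (nat_lit 6) (nat_lit 112322981908271145360) (ZL.cons (nat_lit 27588) (nat_lit 6) (nat_lit 112408933482219547662) (ZL.cons (nat_lit 27664) (nat_lit 6) (nat_lit 112552269551167111476) (ZL.cons (nat_lit 27740) (nat_lit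 6) (nat_lit 112753115360222625942) (ZL.cons (nat_lit 27816) (nat_lit 6) (nat_lit 112498689898339010280) (ZL.cons (nat_lit 27892) (nat_lit 6) (nat_lit 112317116054612523914) (ZL.cons (nat_lit 27968) (nat_lit 6) (nat_lit 112208235172286512626) (ZL.cons (nat_lit 28044) (nat_lit 3) (nat_lit 56085976056362967137) (ZL.cons (nat_lit 28120) (nat_lit 6) (nat_lit 111916491210841059246) (ZL.cons (nat_lit 28196) (nat_lit 6) (nat_lit 111974634840841613898) (ZL.cons (nat_lit 28272) (nat_lit 6) (nat_lit 112090972905956315918) (ZL.cons (nat_lit 28348) (nat_lit 6) (nat_lit 112265607060805168444) (ZL.cons (nat_lit 28424) (nat_lit 6) (nat_lit 112050829077746004884) (ZL.cons (nat_lit 28500) (nat_lit 6) (nat_lit 111907747931907336088) (ZL.cons (nat_lit 28576) (nat_lit 6) (nat_lit 111836238600928720502) (ZL.cons (nat_lit 28652) (nat_lit 3) (nat_lit 55789145087250854158) (ZL.cons (nat_lit 28728) (nat_lit 6) (nat_lit 111607791622235979886)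 (ZL.cons (nat_lit 28804) (nat_lit 6) (nat_lit 111696321743402834256) (ZL.cons (nat_lit 28880) (nat_lit 6) (nat_lit 111843957894418824988) (ZL.cons (nat_lit 28956) (nat_lit 6) (nat_lit 111667672609247478998) (ZL.cons (nat_lit 29032) (nat_lit 6) (nat_lit 111561963014756205904) (ZL.cons (nat_lit 29108) (nat_lit 3) (nat_lit 55763368371669084335) (ZL.cons (nat_lit 29184) (nat_lit 6) (nat_lit 111308083283784446526) (ZL.cons (nat_lit 29260) (nat_lit 6) (nat_lit 111367971222685017814) (ZL.cons (nat_lit 29336) (nat_lit 6) (nat_lit 111487799429753160896) (ZL.cons (nat_lit 29412) (nat_lit 6) (nat_lit 111348885695929210608) (ZL.cons (nat_lit 29488) (nat_lit 6) (nat_lit 111279459160998515866) (ZL.cons (nat_lit 29564) (nat_lit 3) (nat_lit 55537623972207290219) (ZL.cons (nat_lit 29640) (nat_lit 6) (nat_lit 111105634435580880156) (ZL.cons (nat_lit 29716) (nat_lit 6) (nat_lit 111196820460382740156) (ZL.cons (nat_lit 29792) (nat_lit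 6) (nat_lit 111094189786119368220) (ZL.cons (nat_lit 29868) (nat_lit 3) (nat_lit 55529994761303355356) (ZL.cons (nat_lit 29944) (nat_lit 6) (nat_lit 110909082155771592420) (ZL.cons (nat_lit 30020) (nat_lit 6) (nat_lit 110970766732839180850) (ZL.cons (nat_lit 30096) (nat_lit 6) (nat_lit 110903362329993846148) (ZL.cons (nat_lit 30172) (nat_lit 3) (nat_lit 55389071319273320818) (ZL.cons (nat_lit 30248) (nat_lit 6) (nat_lit 110809440724447930348) (ZL.cons (nat_lit 30324) (nat_lit 3) (nat_lit 55388118292557626577) (ZL.cons (nat_lit 30400) (nat_lit 6) (nat_lit 110712701470735637072) (ZL.cons (nat_lit 30476) (nat_lit 1) (nat_lit 18446744073709551617) ZL.nil)))))))))))))))))))))))))))))))))))))))))))))))))))))))))))))))))))))))))))))))))))))))))))))))))))))))))))))))))))))))))))))))))))))))))))))))))))))))))))))))))))))))))))))))))))))))))))))))))))))))))))))))))))))))))))))))))))))))))))))))))))))))))))))))))))))))))))))))))))))))))))))))))))))))))))))))))))))))))))))))))))))))))))))))))))))))))))))))))))))))))))))))))))))))))))))))))))))))))))))))))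

noncomputable def vl : XL := ⟨(nat_lit 0), (nat_lit 76), (nat_lit 22771175), (nat_lit 152), (nat_lit 340812500), (nat_lit 76), (nat_lit 22771175), (nat_lit 1), (nat_lit 5), (nat_lit 2), (nat_lit 4), (nat_lit 1), (nat_lit 4), (nat_lit 0), (nat_lit 0), (nat_lit 0)⟩

noncomputable def cp0 : Nat := (nat_lit 83874416612005575105690829282289757814153605447530040619380532159150763894086686292555857943886963075550428791794908401954443322205010083203999216577062511066924865769626664121305267127981377686444624167658148531886142475864504303762939984158625562101755917799641006110710931448986685454743828142469393706407544158329666245290018835475512847562945201546255669244481692946683764813594932293947229343084329208122222037006297208674289531122534730426151764040329244938813499125796175544399566101605725515413016215975994467227813319303092193591357873002339776513992523178072961588753797475725101844086047942830782442421597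281232736033030118135216775502611520544734012210231871980318753960396111398293474545588909287715909889122484994689183111633699395469446474879940071652667785460409421265423705074599533685388743749198274580132097244131595627437305062921625014695768907079856599288482117885969906675765418567695499374667864180824178608295306829228870375033509304258707874466344105391961174902825413335051552576540028377612300315662493144930822507064554350141636737997616598597024286459558599648725292271801316188724069317893878540907195218182619247762707639755236116140920864401331868242885253572983189282066850861608391288807968623996699037146255353810600333237909633115269106228794510265770273547837239083483343401626280857510759571810226343495728766402277571317526845326337807775273505571969377377975049452110078636925884461330496697078815429992668742729000280495698659676527132582585729915663431939639865085078875244589333097269315244741588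634154157200507741211043703127335829704320395993307587567631873513524671007187241999276458632413479468792831999879397197403998258892436384832816987865389363462379802652010216464470626003682756728945593293833174110150211748287285930342160750625708113953192458548711137066198379397365654238671269402697019488707227743066131988233036487389274705096086828413326483192811416344185720961304628175299936937127168006263464172532175241472280104578552695433364008881075453053910841540587669135241970131150278752813488333755543158058294966975942821797429871741994247375049193244390613406854452361586199505106222786601299795159537636020435492002441690789857447604561063887597882964478189530855289327457279814552343693897369951963038252656530234160374981352661171842412625007194743270705847654072618376658928559687953483616297297366425454427081028945733670170593815019838790503658929153579590399113267826267735677701230905622185581391284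235627958495270556188527658107976818467908440978773274585369678321083396263875093567285758428376201344749373799199241078128660133715604485095264553524347917838918387290652283584685781875939564446855463958160520060123509516722073761600320972599210473632465240498295819626577637060950882003378987858019315016314822426862647448359424156932858190157694768895843907624484737902652079928620544037545609449144243201313383713406826258536571490230582262743952985167181591421318155419619522625655705503880177559657373626931152727665678808451723259782142958127599425167992070994935346079045191401602007281845950290812924485849869708552171108838774842641024792858471926915704862809074203071509017231243227027595054844279128710360020656878438586151305312133414036162980966334458705254147671570930701380406348472431796391382623087120346358089336663987600292151578084936852832767267296552598225629246493478033094111746853925365306703246339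024228110754315445892770352572271224281266130951042940744262839075476406406664214173034475379971924268234717614853176008231160098797751503658636579101061382869347591276161126028632998794714895204155075382078832681322089994538282595485681480596457135314715183545768584420542948610265213998478329504911304090679640323931031908489996894377795096076351756525076620466624430299293512975089508872115208035956469995216511388989202639415959234775668640748605734557226143752453655767355022464175554491870885741361091019729771476383610538645201298501757125317986191025353911907409051218408410653838772263006390349126450009954100444310786273730945169230141832030904629736182516556177944208558877532162829108132480668922955296665351730061931083562244688379261454686645566542315172660537560327253436307965004289491573497310362756752912247401088019897143569796805390039175112357720446923192048989978889582883977395824371842130393693077359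922702745428733908277375805296786181334454523368132133490423321263187107734740038767663106063651374867276376710603382782599785489054611663548879199604255863919575184652056540391925541234958565771074472013426188510113323802817963804871687009805011226957539504418521561588239303508562391503289678061129868884033563000416147508109714310180282205204721575149248183755322006513633895303900126320576955642568550067387238834236378221300916570195276619705970218944686792739339588530141162445660992507228514280111640032443407316549977121047738445437258722053633116189203039994449741224133171487791417841862017222700351170443596123365156397339928919804805640559138063564015845371970421488906937314171305130128283506629063826150309038118675132208528601239329780518753228790385086567835877145799480488962127100827969776095455175587703046926016240217298816110316847541225299010653206647011529545751019400443381260179049347828444399734154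783753177325796800647071256372921595608282944419218711540312411079803807694227066121242637215951456596362632482723206172819749951008789690697857231216254669617443581814016614089474780264227349120080278832768847419708706656559417105711092920820745713107253608353222283750586556795445593469827854631022763321822188279054419275128059742890913891014205849385482336771538622048295941828364471225016302448343679572289752813029115545015918353350582431422688427434332180982316558713863135532547582887375676317904381519761502050937334466027720294939279377448839870743669323351138461727464480649795758777783035374490055444164609802597840749083655232578791027358966420259322417687191105441199843851926928539242442060991295957144987091494499814907478487907875050176183084091099883247906596634533299883809649471921731417626750415643125165353715155716464337105265261837895345299353202651575050866851362498439608872233408922204331837457258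843445982905458172118549314165884558960767888538018010043543161045546913278396299163580785168389332732085962007296199952063642360450857581176719526088571695681850142898849487266321492503783558173944577452748847504964786548299994493868450237166892520724320849129411663397617823330974402438678975893998464448551371266569633644117073891659182728829422791454741729550490181392078969933423923019762084771726403098253863759047476667314579053114685199915715050720532810565141217736660675597219468371644948457614842644231156687043091785834055465783876003829302230067037107583530209697404792099707213852246540831036123462210924082855077741428293470855651430952282330618721256380205525377052568609705429814226726174872226952683178089219792294586677081528664187417688419705692965710271552923778258003019346497688900103565541921506061939583745712679655755284726522603010219557830522460612303248407832961311884231299160681624924331019093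071186653525526620690373025247428302528745351323277055885422151906166311031135191085023784688677760508350216227877315428666557795863353179704629570232727844762812291606435516603138798293078218021961450845393059081236762518720906755735124310857400690527927516943001403886181892679028115038917542899072002733302117630800907492867428469698298274996454714468507711916969384546984057488412463974832365894486255834246687823151938125901641756271921962364318278590862585698190115671459328120643281536566428816981933402101606222815749843708784115772273598223468111870754429537368333479471873706860591000351341280479354043851330456161006958411905542968449707629822827965323116880194397982729980458691559087024382828145726567366357435541147320621982079744498678948696631330769187614994497474614198441486756463043441761914275188473993866871987182089639882994044409734195744323322141312183458052986097269456066602939648128581000528329632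77470884483164898794065180726364145471668110650490094935070943826385473605905574079137552378311646929369859054774147049034886540358287007057823016071126891702233101867613465264292417764108343624120039499810176821466431778099200436515148107826612397421916112229871820280634239207220456192638933274912657466312264697000018205597942188922587296094505359167063539418379197436790593563769228127983264791359052612888494114462786565156875803182006550290435358432446743249727917669787972996352109153688397588546048688073708488428675571128368630995386489539150362249894859348164299425095323532376183052980686532959827172748280227495688712453634582918706995756869185163716462269706736129290925876213403442824039618177383675779461212188763903340584782071389015879487110215533670342059753357764243817050817570315061618741832664733696304424609113025890798954991474745440124703439290633256037611720866171936643499132802340990986422830352637542125547249399288203109360873670291093931736181488869407684882452013880976456049987203554811317506829337286994744262879830797845534936184959736757188932796200456283137391815644607146126250996215952724771847078328478081032603820033420181121373393145626099712)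

noncomputable def cp1 : Nat := (nat_lit 105901096648659449583688274628096611074417495751604301028621705893523060340344279893147656410010885792274570611211742705718226425844845122929942180992758597500933986417619274522050646142418385915700953893592877974008044725444942913732115836127825533685855264560923467843715521855653108488617965762183074352415172800867238932930805962665125445005912388153600178128184874325698654326671029842407727661559206775100839528515757788596949589279502928989486652313864456068482734157649293138849289426976375330451790220325963623090854891817907052009571857879417446593039159118421813896056391019484023130653512525417159972982614353070358363116728727520444747991140133884843759724410550636897054776331285746575513744837021645187497659270415191328744035167848084931905827941156471802560392672700763105219432044001823256924134852905576068070740749162066168497118353350051017480047610312272382112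193184774861857782444513383748365069378438410766048760456355409539547702935228738678523205588615966936812542499680772566608611310235109331125606964688497451195795454898062697391854020048775777728930065658650761192306393493505070645620576270467691897226765828473076660635830408166444042472378834742780582727368706282842346829617307752271130670322807438733144413994954013708381422941868893888997061708958221699607365993459421700677462110786936597614014253761186650952541230228967837219612606562211130863899651072508783977033136096383568986728445037036818576802287247778533266503240802202578603022480724019099116464673332312157703815276675277019577700121387427164163279416815070749009055862443598201815866528611791556894449910163372580828066840846755673902649205523443436577182552530639141608261077577998833315287937704729658842724257339435557809265427371785019103453851601720923378944065889823268107308270480084402999041446379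319742273617031745205488013201907493968152472169244089700737900548895021956008106125100445934390841637282033085241281023166250349419363968467862921846813257978344083899058265837241661163048147672132593127495064042075163122294562303871286393868834941263912178958321246180375876627614913659182351774905211108614672088581665699631414742584492950048272391535385142879433818618956248849878441964970855784231675749043447535186539913065369192609626052626674220736907126809304030548392143077215586125702935741222660374787561963030020742559571775014581471359453467028211687019959743802615287664225051525425048095911548116904149569295386193005489423398213914536085130004806213191378858398198114567054259789813529498628323314283379458939973020395763911479014018074591034089078531343486202515729998929842332075403103473020836960264641242357229030327878938313075960300175665503822419475235307259200967384440706390690652000817482170218304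697479835763308854379778846779065340468835662855712389798891762433768017885423003678136600866600421377437270858734918503885432418886347804421843238386018575326861205015369626253203787755465185386158979230834933516509283929079386881921861384892083144874320921529124945696883262870516759228436254812471702857434001923593069645648586469726412057301247890182915840669220484074351838072055323725283288117996248463328230913554363698654565231089084556807971016011756380225149257164408745753188647571847988121615471022848892686023030363566422986695363544123216517998769895443558400640509604273972700371204478796333882021479624453202703697163024447829553998906745616786929618753773044394666016040948557609440677933964189716448894216452882294030672999710686647009199685657430234634273328518361983284290417908635558976668237154981387577341428228345769240040195246837735788757934386190188948173112520920418322921017970818316213000305487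513665201821840382262391065878631729794873894003547229490262743472104929812267568435111170754800935313381036733063360427538099915019592716609386482162952010422709132201416245529478193077295486659095733585063323913252268337096569830490212150971059534140086591818042892406614487139386813551787180940450315890655578824384302915842460636674847881612386041966877421037981244436509600636668659195044971557409640058102631841742493194904938192536717659797511318198270996408524952849815280374956667773026772388497741282021895751706177261149259285089530703625136807983132761095211846311976577430811396422781707578120440922373015980511771168545832405390776719180284428696737892577325511041476712718090503881148814533099168092839853021977500309139725157565382484830593615939359306100352844215792598994247453978914070257501742851208499902213244858180278769943136570131374467929462856034620955406004880617938200858085078973222298556372943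343677164586787104274382332516734328235514667120238207009538072891834745870407825424570559030886137187695111263117125916294109953782293042573524142331757057254897304384478370432687237982134175837952237489600955890475200731749639158400505022597067546430647732543692557216005140817779144717652268957098301400484317867798303150376870547635230665838148270265002720484827421566948412274389145822755936873137838590433287041024405780029405850868173274254067468612395412938869983160885878611504295886721586994900157453329143981185811763432880323059250732992231429765449993593650451786509957883586442315271017587428703644312916709213983487972717961044310668788032504111798498127246398935887608023563825621392192607829986785776527182938287091796837410303053652664845676516575380745970624983607107179701429340183884479360003700399204928481392844213762829607273203940716539130321887774861842970766166859549138774313010961081330013110524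390295042052603413592194080112634214155864717114030678147639496522183906307314643392037220551318490219524807647870195798829442985269934305845065142767805002907422730271375666600220083152962936628280340165695333274798385074125113954998439878339953438434455134438415790438292710489538644183463025144932952303183551963940144385454106237208693793780813359155252935835755779981424383323521766472385905753136645731318482113226597460683377076911909971609485833418746672020445655829291652664345791253997390525764760589126537918561009336360689036870141997560116855829591017024962713778929544185087503019925090800320606890958546235958492432716307789320372338806308210710393676149221712999759563333671665989369255204428537862262839765338513908631494300316538446138575463158786682888467538242019639542389535879087983300515065795880918593492013257623208897501042433111844535698164541055796935514866930784103472229589981893436705073601058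420283414893341012608686455599836814465891978476182945478900453213571670698803119366006051109256879612946235405340589292852607197248356686554182110444305737707045372246217041190249749453797356460321811971146627367763697264247384899188020067350348933801781382976946593521681623361007694887696855557123456952319772163322408989078152915183432688825298496203288195608855102203247053953918199825308687240310736269430812559820121469923505004783397558820063595302012084798809452977249518710243514985496089788361093847705057540978399947252298381021662744113230769018063767898838831171269268544581534134677288912855225245054414012609078423273260260312902750013405235878134165828287745092940472793258724569064207753015047621549786085323490469846110698626108159902799273706245956568492198145291898889565093187847223837485692416531249214119217227412677853072871663575279942728614205852930272208994364166350648785342701872387505299553777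047853508142545735664394584450105038774807889430198573032543417898041087082475303120205031575123741690305285717753060133771016428313776379805965004117749219256390368298095336334969485838285304142362969005621202146801972364733809651545833830409708134841302844391142674165936079721993927154474069647492592513207268929847839453486034675098831528856063592810319006035178715969629616744204200971818985276483794649417315560305680515172380346472125814256047688974575086338818257725858918884997108115584149385354318840177383914389729922775415672444354294814421130090408072991536127281617033902150594004824142946139607875276720881792708390853618699498230432381995512788784566243071570955549881501509429865614608884239743814245289334986975586547932640963143710625153521048201111443113943458295521186443707157843136202010492448775542799603065258075264387597719387604148104246018465397629321800537819890654878045333680379451695302983182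02100482210837747954668091151222107391283345280834500296230969959586951490087471716413184458417670180210273848645903038762074781683138870818620237667630667581782912430320394277255246841548270946026521962362560236690476404861789450661674316703045981781434518541551684640516347980548896351630494961397937699801881919911015496120338988327236148742966208063165764055745261542559350144991563651390157218319935923575775407063045662719438172045548840653156679365781520292181022556549827987175727682909477875961170668879465153727434222481619276497988709621712551327108642461884150505884054247957866651790926658257909991549940229668854909973122288386445146310482197540862421099001031321289348825412185580738965732180457670065887407719634689102659801784162264504191968329982305763422083964475072190900984733643304123347512778507164480043838801248054072448459255774683242019288242646081322049029802589325500863570077902501515886592)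

noncomputable def rc0 : Nat := (nat_lit 821170565670627980821037678082526937300078415635697453002906413491131554205438236087757569491025956274170123804203873685008003460674044415223701801866716031165752286900312213621049959127165744557941653977509679118290083355649846088102661875160609518843269658301805030663499364317679672774803167652464207387593047914512012428534527409219669427881825129330232784769022755805750418456677278678913568526701002624280419368743391990374388579608058734825411470075138327411275876653879460249038603576311497516964464631131870260951324441493325811657838005308107077185209801927667372068906828914603579968839246690910876621934780038707947511530602718471682915573324287004353320815730986702066453828774478784094521625272068844551413001468229872442764176059320062051976291782164408970205936848519068067758742385796389201724842916429812572901536973887733786524310055051464604505583999921362339598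705153664160120792145319629301750673502896161464852851475595288585422975301057487601625524058884493733346584938952357119186950089821426381074179591423331253637815933040337693088970085473403733915039382828581686204685564823080266823137059366831249510358446060023108217566421513399806940333081429195714239893698967089653849525689052145841104273711845834480561941927520688664743338007031291652460600503295948404627486641292827404174678388761063264761656310313973808091408413305855257437942819216380573632899991972021435646305693655115728642544481077035506007751874398226533231563495656430309993186349550569966452448834678105101575592264482053072582808846981132965930711943767793196233489954956470263598570740326224881380446904290942685645481854806403605604542635335975894800742604257831452653222666967360491885897846625396750758217879704594641592881661148507588107460101576554859006364494004937584276196145031794708903860620523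624226993164878775682038217541222156626723371415817854236066137705444130375303677478184033708676239804933906750539387545763735578933042836412068203540914372202661824565988154324042398997824564116608954237519385017351291944942652432785238043765317914289583189945724962399853495907295736355840575768409588759798020839117013985900147195395351111786602796419716382001350177714828557940933225881245789994134843614114884903633691596083555617833267508802629041164035011420403828160603542366064888688975578723269011519530903303824419262426810139563152696758982266207669978181736076735174823637501476913814815727000191753164286806885804599544213009650486439553956550183071363080764714708255036412013922088375795032792964209577778694895419898657501764546302284518366181802873250753096060323688000776487909430358561100688147200452667669860805215067863842950996137022932004867512529492300070901792606179383588204926891232341246374126781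578477990128346216054851494367785853972217023469089365667428071759150123644643057793962195358434077794273984453880205207716544904373395538135034875641586546026664791814807858854579389258944255479255068281784037413921690766735127223564474438708719167656228660563316233366879485862683298850200309951340233307538521505782716944520178971923133845155895734041913847641735571952951839110184214148433562378742715871683042527911640185074137350009208453916126057233387861859163195362465495552968727524304645777050171213512800465055171021165378960339542414016779686043535637560494076394993266400871040199847043303308789863530398050872141903881746949307832235376430352844155677606215829888049699808843288339272615820291707779932950240621293674281247016007890398751857572557203936789683082526426672174157577691596509400797562521813410510483281401046944049600206279934185393024543478049776789247124865997856327327062103807695743765597315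100804508522634618862535803284663529424452062465757179252394569997829301225682974606857163549347204006887184423052856945729165204750166215720390893815685110079791241395569849882779644361488518935128696460271392787629694195268827488574209138011346169847695697037989960830598866628434481935097683233359729416429794434909736075986331194178342281271616282327439852253321295523014330756764979096803055289230044663598516292006403656705498221636872247263785838017561806677917787778687480365993892834673478700080969892110086081630759896567924063846269442582974157250418776984820752148827421039801996139428481495918697456313959538979707340381538518231998621925094157635288257709644380407314674096349345731352026300564879318037759819560516996696056552230686195381105768995346002422009924329407869447281997695731543589808811238333538018834126470731628146454433414633626856254110288349061804288664875337077397828787110869179523977528787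549718734225982379264926989885165748990776697847926756003512193040558547971416999597932899086332609654744812732188836242527126211398090163576766674465327526744364663036829921205055213836427282014250698743012721226245023043799694423759377192922612471327468290767219493231927827826307551611897692377982408316227641909059316756477283003549946976893644469153933718436503010322832696619771522646452347235522697764245827630180603948594894152582665844636259245039363144352907496647617485988434576823601753253283569735331670819863535980295796767079207588719912321022238671246851436736117843955071826931675138080702663241193774709441665878559617546415155929343479490827463460056924014189630208732601702721098523374180528861501606870614175553583438275930858557774709348109414348209722391258230485459358419349700275691710301415784701599500671515097699530796989093778548894529839395009256018209329006247935537454916900760706630254050115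102581470733782488473776482651436256513488699225769980731509855436739020331260630384717663371552234861204351008063121107054616197106477864101499828042365925245885227504973355848253252717270528624971116523463792750246224708391174174254708772570137073629354151550496535156462777774615476544264133989242081741575401027701543965954274769507661504401566556918787384822192859616869746973435923426691142004402044202584757651950524292293344802611984728861927714669735655761120148916410496803694178756949103665043049228260548837200807274136194744565561946279142724053119396015719486958393986897046333028617076075443831480789778392655014944926227780874368019509739339334295765580801384063161995742746990674288628192994422196587518568247529838453731730780737097450593160938225157426231340866079341261345144087614406183996697460458809197075461012808112810396733190997266367968509694168786756310512372158584097047580796041311903759919953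736218524714517584341440213125993911498775605573417972089924805404103887179473435109183378580161558050041562441796817057740101484745445854953331429799335017312592451299967621978011281699667997928992131067103202603194029178007887197218058111122525829875745600586254773638122599172740122879038444550101449193359932578528242389404910355509061433806834798410201355005723763110219832045875575253761097101889811543630881393632624991546852514648881746029401154830257626075278227466588599284280655428029939158249830233185028470209421454586977891371445851412548176579090221408155166629536240169074832972086521516312596230697184944062831888458018401892619060829080064432184172937193620483803408039125401179150786263415490783660505039086022739210840987945780843191204168058274259723800940380208057305121227911747754560309673871308220616003362659616826059045142010491703458210113735851104511446688350238565019915954311529982065301410372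670590849624880815206471921336631954019301214736523077805945453196709106955245273105936937632460253744418820065626844109388016289967228586205445644991445528820479936643026462596393717055116254823169893347357323154938312400233295367118200789670164339728915670536382565146832948222351825064723258728453251775601842677844737001649900806004087945096395268126488722478832282052551309826701730344571811340048271022077670309147074712032192171726882262222697581945630268712035130624879159189155566123057347860774751122719799973296252951133583441089986724417098428922825782473079788708799017558988308160470564869976570257645803020637090465268144979577270852925315985538753577617597868654769756476149085445148153142310972553612205872363618650502592083522411803358614714216225059947246507905334746594048907639429333610706967010350290204998321537123623335000292213746710880248219899720653006076585592396782682335151693081995884142029454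8920044187267588804616860481122919664930197957407873690502082568710326811828234558612457272905594009487381076714500340302287158086646604600013072054866235582125204684341577208991280627137481872513458599600748614508297028942957583694239628351451093815745182347988100425511118971276241944689265625861079268312790798857017180623600616112715561276108020269768719016309819343837740089403053409990913729955198248726324734719393504062829637100982555853881941975112280621112379281032664373592232724496384918397037845715831648360053821719849056583252890005392844390007725289672879579277637767309784356018393370707495066994859073080570666193131132676696940724956731330205788116040205984456033708887740036869766663078486132829787996528628283585328064705768776833695052085519098774634440499704333213380005133550814695189802685288423963815676606387496469396345611155128759259975135140071032397768207226366773664389132201755731296256)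

noncomputable def rc1 : Nat := (nat_lit 831102966238217043439587405283877487242965940291764166038090356806628658087368015015900737302211926207998446711473838898891467240455564757628299671977842804800033167038815537898942123955024211321233831741481218074324592175732045503285553023131636845513184429334069344160087034156360617654557985280704262412610608669394821651936757880625529273447883367481295674603015236089719270794271766240132855196877871161661916144372000749561208553158960871202145173539036666078370840716997326919825493680770589180430711304078639019719802389458309945798594569496937992032887654032417270751059266742883050773216759523561786205636428956681598606533850977500372450312548746049803318084915667935933744858340922282023731162824226474570214309830066261899814374026204844902213378843412750601145413705157500973150967160253053197080377096101015502083860909259278605481991498892817390300098622560499928849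784583049796081046281837965085950661229930201528875888982332144582920028164704175775562656249246499729431051167101888772051625970938233662935507106562854139070186075540587742831455679297825110597447704978195101075104336838499664550011326538064139301646298731112476778516247404373945035134422590727034903518862867261097146316107399135681867071625655582093150098614636562070851971007302647649607295981315859457275560499548525997386086096946060612776974137251556377056256452954529781838019518146703431288311753193595652749183590545383833060285376483967470496536257006038882363520730018986643635093431123490488815982494303892619336700587434027316051443639794681591712355648134914731742307142040682512750006258277227196626602258257094318840465854225634993125388244830712961677029022001832835511789207684345933091222982794510602559041604482963083670829627419294915061163707091275085834024302712159609520698346301164631417185841299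262419024286673009104621248540028837917506701137269079241267482581179806532273714076058137593542854606187679270074232525328199240093275417110279748310911258689763573863156891655700367178515286552919389799699301553607016890829430868133247682765402578488445992124018008524774707678213316707927576091743138269411571553142373066697447836007768233787083663974299528085637907992547685630663276877534316610545973649630057211335837368080218973583312201492094663372156982102256278600317344178118161168308257675680356001041868444182665130265999158856433508863028093336895630753224032403476234650962099242127649968403812833507293540845581611272707707438924683471655866812669454793474496367217135056020947712470832822378658531921699243396574849586699510539952468965435782041099453548807975841366542219523230269960396545001690635566280627211925919386367581438437503589806060410260182956783612896334467096957813424719830453074548400416369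992535096803165845053120088934488346226093937374306460991904201906570344939311936605072899266204092144043583951899649761648827937702973882770770378950026797348007089219566527147478706877267496159287537249900163977215044224210281898858841683290569903239794427477030001253615859097015478915641752219547082169009543182660632767640665897160381857284038531804080984623846183616664006435352650855510857357833388355591683109286739200569503887058563792147351075545586350763750940012908310573843596481298516151400096696731983746808184738973748704706217415721868150017565846421124435073966894505522240287040798886666823765202815662826417081178464671566587230409814347103203062065337421700438633781212968882967418742711173860204276697678214128726075416012308025134263607912931430631249458396352688023598875711402228467041028153758588419879162423289793335749546742685479534595391920956995879602239982675498327821280002241474250462517105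621401112399249178813312481848754857926019130634036576818552121734930545619985926585170291032955320075758925685655144827863135230051980784643908244851685879156141236207825280603090706539137545029618600767595536648213263812083313125897733451484595480645090715275952496207653014872564659094328985147649794565842282822104995163251442140420356060831739744691525779416150109071323365076512022725443854115772210249357628216255800221226100952587757894186609620269204057472106399862722412252407639176237822817190038805198314112478175254109685351712607039762430519319060797274616935375538194280476195300341575956017439641984396699881125750096403335125870416715238334949002905469138888974623976765220221850188579854291428502720960444340921756341401917085475166472807907587833332806638654849658581843831141608648254687025835807384773330959294883750114814514555312271143369487803921129361675121640524006178480108987335543057760826547383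996246605428054758460354334115178852180795235782481121413136244263772547900863619128285056412413010991681132465816316730035811524508421042828011222357424300566057002785330158944294493547025657180918417410628934466306948291875637297737913566461676625245780907700854795450968104282310007315165227409478931916044922860773249177458419949615610385627848503511286648950164099046090406475760008661024092091617219033550053291390100220164277530185791909913993594094503123320729076224104721810327089299037824026640607027410792364504293877424607621751164775518779596313229880412417105019697064646090080541352845657886337755996329972390777885580790288076386307728926528295988252878060735828795039829350956250860836160054394459258894414717034924210669815533163171454609543454949429714416023585133694518137354441732815139360460601483199635512413970189725589675303356341693677720227095697506636766781199243036217498495074502764097022396316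157067146410867069416861964315600781553557300716013383163896391458754814059402964125101007810578411617643527568046094546892325221899561313718084785407496117696794793564382245833047933071124622379113842476365645423432377320278573640748623455188159817270498104403085860867666708730874807972847647427701353823323534377261326517992761411584619297930692554072962761333768067997764748472715338937642927811828829806600023677614013387200632642751359878221743439461413669490579784105693269845708169531701345442991117475457939550363107428166465880131878618949169431348598167099404210238379328060676801499050496050864015568018604003195898839211185539933876045274396174771022408255285241116165291067863870315040362621436448150005901891915586868454451992080726065395034532525378328244191586843644659627673726612005540141373438067059144917069829765559316597467557207300840528856114091787594984372118289542983384196357750177029713272559606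819057512416116440088411915461491038986491001104078065992648982206809944937185674516217861768454917806815995428184995199762023278218163626710732068570060727094776374603163218678450241088946067210363705752264692538786676138818461711424942745628059221596717065813378670450026155731567828527560972999999335026132989075529238539459875595996802912226612786221360112348423817883662526514329477196949847633331097825934831281829898774720527946291556027850876779821593545538308140872414873344479887641051046954682237006471712956463262293345453728208753621618565090939216517287836439399039708554014346738439189789520628261520783488048393597402487381618188549106342577192995362901321322480788923137167370469184942701705461078013663194030251064534281082570605633407805237821017961584523624317540382086647803372732530175384253909274227312508005913658961749610043975728967851128407344498689598367355932637221845630596999334892977029844479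781389499260442469718868938144144824367285763292043832575374049052801646661164434546828066867395655404860954749453496346459374086017549966080084169045902983480802929158189353495827536605545469630961683430159184654775632835438220255398785863763167752677469924177953816839106217077563267248117171902826498251417285432495238911484947947640816619111617050380147178136567245796982174388915327121323074355716445673512675885824894889035455809184650993928269917614659178709004309184333354806695924471613615814846718973552829834231310289068589961524543986442701666700636110641524636769259151128644878698739504267908080571552255381192019010624725573300755800059451296183302767456357848632517969913421404560498320739561647627486572631195518903353279491782465604769501092234092778619219060101874437287455297660448777782128662252167948698190820508988142396988281765034596207741231745642846193552625699342681480858571431885773846892412899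0899640214232192325523397328465088825736608231195583388986566754646448622755020990278682282104192918146584737748700833392662282727730316977623744239258774797690614299698871964221752415510303660557210729282601334368894391889138602508907981973423286601895612543382038376455241873308326137834477092842282086212258945378240460676089511610467314078007445059400198772208599881446984482245060771649405731782229279802274841810292192728187362363649174476601017933764308930798421029191051166148844647887173649833476086118117310941371564686411701290648631191617211427175503856696166032266567091149418165657205342423467662711234145961065361164064556892188406537875731650956042715439585581863712158182442182763303665706808607197660485812734643869889428748337582093478690681256362433545662526371085738097996053573436656677616730595864127398332875392332803937888002825362647116525597580403965388153425143767112100004075115821809008640)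

noncomputable def rc2 : Nat := (nat_lit 841336482193123420986281053430906182937201894669889721494968672707339236751679215420634510939136433411177201642089909337055653764644202405450479341577505023129223275519516904848624265816486695798646026185882306101935079885589492784685315178399534786371067647783042709508771289208775777088314803630320791486535741561555135927949260804001105499283927589386229697356967326491550506546520777862136526520404011090002504447847243878355788257460363849006678460942947396597640060375646197420601011880624365438299201318892473170075462491875047935528443956529328458987238069114108257424872157138534015565214838263385050204750405349354975302929183230032801531068679348632463594180393718620599310943875659423687862410799498606508467048507233252240479924284093626562848126014251491105114187859326149679953137245736879696672001201209974216504041091069259181269401562190142803064093622152724164759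049488268475658751715793010567919161872027526699692166835495584604763125748154075263367535517068206719698718066838072132752962467158841855570879041211751258887173985054751328786977290926298890917496670630816349006009820243079002419610508392794923600508968624955874001075270835319381054238093263694383054765721223883656564993217623812361202986256835081395324392003435278461643518451656179380559637440640824416856618915399568068685025781058652789679106960096651411282120285718109698351070142498758196194989030132422589200248772044995612537623988940840097645151668925497970470810046883721646470712273702460464386073673745074987799497617495768545869705135395598267073529270319358399651397325973369482170772803281262022815384482333264005233723594964025741970579246901067466874944651804165005328666193593976005301964114995230776344591709058293963823273872906649048946952492918604359538335125090602662973921141445508845312734072939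766330210368318487972216694321983744068967508630560827261968272675327137366590381690887748415114948772453724222590608148250931710557717442309190118472194280872465574079886092610655078968179877579917080028432151617649114417967717435164373698154626739456441336197071254119559390757215649673061807119026284093013666775486430949983201197020830310152367488153576815789128896942849197489086134867827623176868138183306529797144007912789068741290676309933753789642611738218492020886517163132015171848501548430906907737817637438053957072873139918959852805380485218028086932445829958265118666976758613783116379237347569064047551377135250275155001086023244749392754635560201725259647568915713238613556801035736693292586341787733618339682987665002103612557735169860961401674219411367213501727493739281500003760373827874839822114501943971442555301798454346014308332631474501611585477679330868978537974555869805845915832750165578252937751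744770493952855757381407710642929565769430610424431970350115721295186732135294705945740471166864929381639204926403691352853212485993784675354615863206478523990291931094354853196858352971425056730826388684039727282257825926121171719776709421707879091439655797788423185604721764627892165446014148751073361215500869001206959470491261339741313793135972827338525475960674587403957352567141554812022001048119857665901257390418159002836254999029728970723216470020827743183255379771198389140048453236658901028763000028781791180740280571214211938601455632182792948356384175299228180715998945306457380000862572822232232626485706870566095102589214129790613942953543715992241319116160724392619406844625564495060144085961834030780089964939645941558120921390725085499296848087917927947029694357293789546293480810198381470920383761297969325074550824858991075146406703380554971782480018567857804398856872600660167230586956439799468652331012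962182712392952981100399039492685270873146044177147434168974439564827267678301791268099467884895778600706657708817802764784888859573140534560192012259870111548143308248959926192089126556068708578542273764268585447154805868015888184981959076673870580842534102492688669067846892868627302599217004097262494467671411130366651620308701408026514997371506072314700054345598633114893752308598114612406372892738577850915360560559953259085082126656476748519442282548911214174393267334279545191204313547137768934787759356196673803104114470898626305674085233079192698431363723785537154961792013363482160328350882755359056323922826990116402192236985721411101300807832935476647554261835189910828264062965311772564277714501809851935464741494673196636361731383648555694427968004007215192179119896925552695146322309096051071028349479691054592465612991164138107990281825468859017778811874313914676571242462917569213621395725758266766332587693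601986901570233877923815945044889505977758521358516233583912905137616445264179051051622846581118787014298953409295224738168369757401228116726478893555139197344075035115995406573463522076096164298001880470393957553799105552562169455426263889878766924752312760486558394043600211722122256345845833670206651165183657495194533798984657118539889991493610488558540072616207232292535569678001659189469293195767041379803048341681961779096609314148555610126705130682344923630442683358368312612723502792065845752702605750125297535760257948379963475876054310209948800666231718151157136531426788369271771998490701410868137980029326030643458343717233031795737208689803127787318153865240129496144058235365487803930120199570443887819929221348238314392732056799893935835474420669377525717725835576392766204601365385228804048387399073928748854307390173563512109835077205689524170826771629829684721231464206755077780446566807457303751816981771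760866567026181050797795679589372697418902310734664561657634161255373766524526775711249373676602205641156944861772199847162464276048789961434300896016436468353279499506637824226672404895356933808681875839074418809323983401438808436074448745196457616409771896611322081768637949981854559836714063301901149899986586676666045413556590198214966661883686119728245698938825553520111142320609289366807773815511405503204070987578525607804821350862945270007302645444611680621947519783771847582207115750950425845713145786384007368133259081295635451430718454657106150553506129141534161724388704397137858398318938893916183236902064868269860103905116349290833306382429666089041241144059547355446312142895364878540089051105043420539156013937499169249405626962108174249456945035863168661916261911056072291305596646088611472762678544150258804582428934880611922615600529694937385924594852802790711281664499961076461899763188700105905442610614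381427012762286713481953526361190697621507078934092458927835596357891392080916268940234374087872453101434961361383575587553687723484339505404365634322724400283669600329679843896978867317353681160409676202562299820431399493333510029089834507773349459235810188119282261223352539146827456257638909899340206066572177196925528110561859372398802701815515800824118403289507815441199240177961996705954231985668010893693808682174641498257810581223413299745431230659870638752708110699944709714612449753692802975202993580869498886007893426715084060594830963990075450241765939447971763250991799581164888872873616787747405374870884471251353268908761804016602841596529152500487765537482282058169268477354109740279384648683134103070528357914823244522362833437130521348140230595113384588138630945952968208350853641999812050840304829249567526868604913042975308814435800790654965660604839951173843649406240576140064642255442383730100140977662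956791131600142053815397824947097043102407953401538138596985318022978395164743946887095646020014254943634922129834956092436587499742342422303781161378397598701741716472723366908491330593535551508123743979788744672831095437839236480669992478004507732597451106832692043978074716232189442775073322171407333414135931090818355834535101122999263564993339771784411741162159445912542531111213617193738000879022706090013529010791549171602473280965207854271125322643842136063890205316681594243102549304991828338439553739714278005767589996304063657860898981012747504328610560345176295309030901358865720178772449120563756847903962845755885161669669773914094146798202950652910417187011269170793361849869263771156745449854655001296902623881630466000550931031545651993827664518531250713826962785407051946326474694614898464991216192254908541623895771063313135883637576789312225455844010637026100605570507616795067363239637139867405228018901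0268650200049375535534667126043170201575726438687141071219686683251146098078540301302366677561696929818991733449985477359020694319106326718267285630545487694576790596392379349663791924256741319791815850809430442500060938721073690643540271229847064383037110710710446954815068208863279236017875831981935424880200256369315961585747621393379201281833053116673257766646713362861778999568625206250983385892813890019163979918848044400349696860297795022375954062750143792467520254761528894561550297772658034069986900522159757474594365239871930871783634276750735966708123237460527226170357673732845743933268186939643877205992871854832944847156646767294738052081605125660816936368901202249478867408970057145229327436673926048909358210321243560366159876565557789471849785160613592713704365879472201228215175180398874856494702427823159609002217604405979671430615843170790884412535877839351196789773584179563939072322229054000332800)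

noncomputable def rc3 : Nat := (nat_lit 851833555666801587840794983760325889915145740769978082062257475112727648064147499964926599297406993388552222191702447136379094034149922208862932691662896738114654281777458359887230861455804731513979528260630548515859264141672753802825210441431194438234688260234382920852851683149921307892418082821727845504604664281903172418515915572422113445431052317645207646913783609258266632643618248129337948352556713788006181546627407238242161622472525208451848375622979095414339906998642385871306657667957815909930807346953471376738768603985310961726723681703595644318853260252986025150074330171091924576363824781810712753800951068333764616110662159755216985216188541671444937186406956460803857556386774750758468686575529560459332686118781940101761609022099617670016282534948525002309556265618909255729822587926395930609323017807724979436744349022455577136326121709214647297219196615490721291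845459353094451925149366457855263899790891842440391261182508196210334686596693294299413172254437148874137996691789962115272600706995164417528577805357563901227018431384048427436188540833620855273416261935078061363745989633557575596963959900392379848139205392136730703695609239697854519517329158532737269934234168758084572070845564324325346718357403591373238379095268386921788420245934919567745725174460539062886046959219910401009193918721577651090658745375482545701637559518064139522052847862505710735733579843237194040815918777781266762380821957165527195142146320725736542291637291690102766454825239614078205216105035482724619974882631543428672189988379912438203762229903868451346676099414794854833907775556712376637282189431652758945824128333124682559563310252948960276480948508356030109369415184613609419127142428199556741152377591485663395931952607074763724871692658950349981173998335030178391156371124347290506884366566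479760298239557265115084754137071481550849744481142075591112353112875039192587882622554691075533100300951687194249302243389810277761194203406221156120215929920640845628564990995765553245547996554495560309838287093544150292388879148780727164145068052703908054504154463746771744917051800923426340218003992990809514560172986554320717174535375741062734260372985512498772237050524746438010739276910690157299005565019106320934943184325780202567391392898945092411623584062562176166953648802723207245371681578103744986931705382995812495296858539364466168115719154411974525096142267006527793224239899213302077070920483397637079053821576433460380805592125541572797527149806864824727684018743437179174187056959086092336281617144165488773025998661736977537304104546207633551311624026309258601080228978030804692723944832252400125652833308803565041546504545957279381346910428632670773853157932203192589999800153112567035986902064601860915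280365887420468360025697415341546552240201202216574033698272440047390716495250635241166876013889358800984943776553087423905318649465159217942969359027219590617691382220093636893968370724355719923545903705835975978837821879720017774078904337962575639702963709908164480717631369894224429679029387871614856905409135699553240712959065363890179824876285915324103012020587854727169658033840813398178914561717313735916404772970212260719590332387673418524994657601032521589459250556809987564310211742924196599626902078288689523692828024104596445496865901340289367680166357949115965470610901849359868820990539761748500555542530010811749573004102427638179589771857081217822447771393477144421969345610648946616672426791153699754170881880376962772999420586621075665324440005937459214877272429667440834744690636423276441917746963308946467522894685736311525607677252332701843005478295120586196000781619426862811070512431304690844490808053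614940516063466941691101085573690541308961659294988489708055872326877872552356165848467524837204857568186223235055584137209930178057661135954453722019227856570322910045985325374313029710676289149124719726477787278032080235609596676867715802790613058022483213196723199614427176263707700046848939600673803880567912827978145333913464116561804176910718253854697770056103165836240338040873693996228735978241714805131351435127638266328556952180589734149100971104988858810207371515912830413134159717305921567875191163624829523588861005423089576464527792272941402287477406855690913854136014776656936707800007938075112017885509162442816770277638634764551105252148387541793345754188215308017446517758292200262401821446931096601062713105125463027762240390541555477031760699445620498149823131349744555621966741760945272119635205986619125684108780312297800490405454082248573705321585758824058660928797252316295861853213220272109660606340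661839225735205531755729366911254775255469210485050699373745042867773896626237428533762761203751307488770271819730881776813344942170159498460067206456664391808264677645239449770529749928843856140519346817802353465130596498277810958761126831596085894988288070726767480260944892712323681309157384244092045933318532278867788097845627101247942705375929502171037815190921645613797328603836181674087016464010402145542363503891587232461223826804974022664700569026349565950490794658765939688856690476609190033631652061342310932495261270863281051342913252325568607369807481262773371165333365934451699832887630124278309264726794470487964501478993282639905705108753976112736280227910670865882730823627619210095533106367707048800990442817810306156102629841648960280496920649252383287204632001420561999475335310315157605161235417842271259356142457164844421836255379698542936007529935504976890431234477485169648860188146836445071896034495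516333655869573510742519474278358132447267847867956921288334174527252240130785945575324250317536003418513334337734928926539567854739998225298638519630142202792473432326343277794560848782579632397957681412467982241635704539873088268913681076597220914409617706627893299210527853888788906777245299424766024089004607011862881043877678720442962204415131695369426213854426663501342637529410952064326679995033227294101694303562251526831893213499891056124740300814394471514253413533307313002654131076316909222367970367657970109089668802507791587708018570139969840422798682190422167627746756708838540568802553485249954152658886912008556863947542930176173140874691082060102359987471096564898334178450331635268480032924699999297886334888789187149826044169087947207783306962780658341738652034111434379911165890235533002939816954545217631981931536560251923444860611801572478048772869513005396254558544980259597134326090558671627208056242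414103302324968732750657635779982124378492308057559754560236698000447852999314447655284885729144581802852112803384445461681522032948163003695831381731545275755999833662980585091338236246047990355955500877202027605790264325438363156740390293901988099504733460244303217397944118400262459489370439165627072853406384768152016613676974382664352614815967396732284627453220077207197316249450873730642482383306559286419130345139243270525703430564876362485887619067831226959460112057491145605553809220947520197195083476439632608697077501332149417313712209319474937389621776596497511332411535770450121971704171799321347371960365063953684489275529228531061310093485127080767799396535239550186529896955800727361370251989245648062664519878357030375778759055830991127984610289740646455023116497287450866725943226760273890359076201244033812759964457055104088735867599795253989806681925024991599514276566016193596794078168553126544128822078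401597005409855344744378380715843569025134754874309236672171079462396648278921344005959903252299227053138807114991254985970703235903246919614093918229808068120922289572613249802888807064733927304463272131546315193006304009545028817167303421307770914204936091346406411302786860618599278982025224755911882481063757904660498811379177489753954059725699706859179334707278201215495545191407416303101908885626246664134286370362239457767232731110053129532011309541790227099467245997047115749239395430610874004064031436087016919314459414755212573540931362704081098537578386157057948395540562281245429411053953731175592493876039706702870428423756157918234928797495628317549612835150281827949028438292377058956186442710266357360990020927907814726976330339208848866096326464203679002103651212799434163226592947008398812733759139736297736568053793923807644714345791376248181809013834607028523167930701675923167634368583290468102118610386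6958394353019947931050673409952145797546730188996973660609476635338031602682756610847059092772934387963178090832996598897226908446149036830651756339986620502409987955675748409131469787357688265455255418244083480874926653624392083897485294624977089958921018106490231175092928534826049866580927880832566123903778071023359934683986714629487308015080585080472920497231560161990367777752422936311120933414090318256811626118583559210685469819903447621949950400222813245172823164225564667484308094473952876378408121119108729297351373809456769719554017793221211348942485294751673285916958453022397166037932938117320474449147324311631692130374298699969745683321373004512087170822385990736388299876878652687175602656607874963084750107348910749451461447819873829264217382420319725563100250480718050395171965587769449543976641481102820068103310508610922526109064638925693371476469954007821774442059465283654545693838884056806195200)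

noncomputable def rc4 : Nat := (nat_lit 862557669940237314393859543225885179216646708691299207237580068814777338897994743498568813258847202900525311843456548102911516852908438145398172151660459912751280696367726359200286308729199036068146763612635253931487523102116778531895278217419107286674281558425774113051560886011132703802340120006856061824464691155586228404862694041222670639868163500898118112404144350981149270772984442208376098708334600667178775056333678047164357164634515990569031877683701248583599913518086573732358959532510352595037844319779577681583883114353381547597959659840255775723551359816014675092628200582331294314754055664963391869968617886533106050415989215879238487412268120809209763117894649966994559973567605717069509090514042877057935635015699947405785270565147113831878677310418563312284786301589225316315803723501024886873333342621253982023155098079515482543326020099289284467820078768309471408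641823206770518236449218396207604202176734924466732936020591227988270342770166502547401828598973939741725375021655031285414704758889634703574017160463318018427907300773611143683727582760521626999238872518998843112937555604090454103698062052452167905021525460381306091136596585451066845427012092018197071624705700410522803802493364614294163632878542309683685448048106960868664024164245196242692816726255983590774293782075582248272019744116129540679390204087164798434811346097743094911997910047007085237392232757328173056970322807278268386073117301817937973524425992206050455017712823154982860641216405088864834810474852177750702566764433404746948362861823389242901100974617945690676013382734438040874496630431817800968113092405981746393448112049289180611114590740548873206926370222004411512029745731163536311386995251376843615871730841863848214450681837688808668927320761340259187430004279871925404031431366171891925576534766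437772072892251099087171522088191826560042002971453742727078668891347377952686639141175110924462846668656075513639317782538423775622763844736497559903604250821019159284956385841424520223280078510036986430755160349907016472309112988326728144899363008326287740123799607141650094191462282473902941038336364294083437216471611524512890036850020887655725691867640406563219384198562803396059091030514668927508852128208954269888537610860263856731832490560687367334258783071167984361547663649437659154827728156180800864463383439121912815775799364877612994392546848227746518959719086394037702567789062409756863624391731332885551114156383018620044834853751715638386309250193849195273895198739767636021460531141847506879106377503093658894140716313813429124533064669616866300921527538451401112955142428189477458389026758037538298424782007261611564317962197479847951620048523370511999137264993755479803470576445016803255985484330130925402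244798738606238751728236261603527297101805585460786413916395648834421120652027984575359702311833945984400663120166240921683729318486787538429441681476496692114148535000646427625546145637493737864557872438353758348229712350681920324654134049987860202176233639670558360758643876684096451695427464479457588510281112102943896610735984327114486953364435860299022894432434752582130236334140942284915992708964904591382905208399437477336272523487539000999061251446494555225991517561834970131063180169828086116837342633609917149041761068232370502653647327993121470349353394665691973620808642686605672656596408232645315992981891918947160238496762873850313638793703779907378948468410558837267061824670181430699108167061579552541416370555613822149488159531199501286130901632159640179354589644592493489192568271469307985509510465594398033976761497952822906683783791929964302976982674980520140543181594366961676839317957778289014612315205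571343220991748868311719154313388499611951347229506814988118383030114764917874704810591072792633061052545582385285839054111875326025332683193396007611903270552478296071708317575112041005759087564825136252297640054044187308444961368553706921414537203232680029597020938150960540204428785877926334265718803900378604540076860193771652226939242351329877847976605368620240513789836848513357126910437802201214365872102238503499393797792248221163728142274174031108280169412648093099068678737501156144947455815649870545685776332012057901685783771305053649917900673193451140839150837460166861955117760726962626655524810197928042508940757993335456131995767393458567610045092917241347870213874767142929786751226020688885731092794356034238025235579341088456203232371865686980603843663200086857410851365988976229604508399699790715076614230814105037258640944699562312868431204524421712897028625094946537111251336612819720451758875303091860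320088824586402294181273659912802904865581689798246180318614011146625557631828442029647275022817847172177300767211949000245018100610758354002372137826066728159623646138346414658470551090671254118595129717924191311435833650176069595285788999036251135894280191204724072087044536696147325521280179808523340410905732968935625663385182678179607238184921484439544002392402228709275962575717966504010339641494378914487474355393804876033908549747857210916853236334292508984114348784567200772861082028507280732887718265715214393692835151056472674468761579783153944091999957188387618741818370292534565132774357853744510507563725575278021683593648452602734355618778881262782584088824318327011687578752032052521723788004692652945227473611661723901630155113449340930645300956313437974243308804161817248255338628046071381371834041612865122337333365035627057970969577049239597099857404568090612033934530732350914181891667287433293721955043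376426706101746263181661663162122684395157228752620073421508321668477986174222689860111998172647079954427249938690534368683558361542301079578003453209799380212932012497791118064927845706563628618223248281658886503768562821960997794124594493425724795069996597723497294677784754455085972270572763888022194882996114575589993942599804139718042951188936048525696429737532678520434534971291897298002921738919059134701316959314766079644519617499731420129034915275772352866946806476715171269865664119806308838168743258854665495491057746871719897082355779857520108744009904633246717121204464267450739593891781219333941210826738589312412205420162668038559586337656530518958227067611583447630060992526549152348189053696571851972059958111522342890181072762034342616244342869222401220771795123515018195592346343358286094958523245336609609943436170818134535564482441188155973878824997364424647468010966777002288853822301631334942497652929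961305824047185495145287816211079934034014050880612542858576610222867769591798040494502818572911374619562355433393256826459693075255529387359759755827821757111718920050548083325896528949427855376022773198745053443878401645238609039410257180398896272002174669526884045857147257669729929609719639586419783921535660188778399103511806280498359697748035409955388236964240554433242944947528826389292393504327244840919100182965866686101757606327382284422769467897937269920231849736741671637819073763324798564038163504377175934932802480383394676680024223632494677491243991489635799183849498079520750004132769984981043622144249955214972755830864758005052591334162645112366495392709301243681317197480309879362127947829783484053217355578896036848574724941280621780409570711207798286033317565421239746490210427472006317650336839363476925927114281743966212593845193886515996395037193727968263294584962253633816373345263379833800120521587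051000034939295696244775267192283389484827716249311115313870575145950814451123426908118087682826167979176126781164564661486126645043574586634437180011958867574387651686676399537884751969336543353679088242265126531633128601414737909497215337776079333734970862595926788530683614935095283210760257280836304107829045574704412746432444588102340272064947912218204277929482704638133195877585169993136835684787360785972613096655241689406144629215060468610817567916770247102384278655269800271927304927567085111780651467259956527865540150191955056792171359400492742138047003940408813669396255334354669750348842611736941012026608580566588188771257005848519304755605668115430527959670364512748839560872846760720146987751598963060300370318806294366576692543255766196146843940595666252428151757020824046510165216385173462546172038398058468599562523929285639118553305951713441759019058242510907857819162952006561489539159278732103268650817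4775639582591429935915360959150109754643329972249760958584258361444648894086415037283209277789379502597269179437117503943655532746735813761075748385983919917835949415890373809207408433084843671840827311561327476077574199293831145477346328632038096817695433567816110932863673481285114254901073707761923671035200641860041493428050788289936020875804021669181408304419127326949177066534781676967887869026623755957649777871224218706060855845686176629793712201096434611179276096599966149303779377932000711128478509030209689818213040681346705347995577032478277821225649505639900637000421902726990117416863745243663978356506274592076351931648570790917546528651455435637521326960254631380645856256778529392463047680302231398619819978346079128468979336718908627646923552198394711910836417628720418718312431187403349179610171405927395080987413053633810105718072784141254714241766216077590539892907622176165924145163959383881678848)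

noncomputable def rc5 : Nat := (nat_lit 873455057377292543411266773506864948345133047328796008407819530027463613463290690170301624857373776290687577428677433443687954871927209204639036594550853929748062794550173311093449388973800737211560015164584373560161826347656688522832871215499799613623757203604874108310872645205897039420790623965326811049292946271490278688296263734104399672116697441007175100261613151594317990281721189067252154423032595322731137706030533672756320076201031677368443573017479767655086508452998953455733310685870139877206625163160368789711802591965957532129587465828469840559745973949598447164787028791175017970432518674095002499663597795804617528389936736569052678583618822761269838687711204296363946632178003690387479618135919909357294177303887937453901211594121784817367954943767123855499926999787525380130796232851586304283187221502668541428127463458410407252251345903050374159906073591726942681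255814534163389143303715430759009728242653725190555996498952652468623475072902618129579061923362122066049657036825987733762637784961265484186080576799472750167924792556103632958539309388050859913533921787939576431678764615873471809638878641621571747954075749892438716978046932279470440532375472084308058429431385807837092564922174421720465736705823181825737707817217109399458053531287455181568533822134795925094806033517925814175270060207088266775608540015701914654184666967349581618585801592657906935893734088761528851453156814530068698427361116559406541828226923518693918865215953743043734773962169523288603998695368393081267560283445674383968133123768905963342535317792274021905882386137193103338599249988883369842697837270923386979019412132382005654106801858354059424146165490724682356144960089346428424726711300121674864970361665619989682642469743289771771574162451599166463073086770378140507243194822998874211337020769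876117364074214952076217038070590064240447923220673094309190683630651883020108577918678498210848303635127123937534910213011761993265006323325319618093354005725685964802279083412354069427007789926979151588829606373259830659940108286436605117550145663766979510967649380359635054231111133043224498745025938691491590564529275703325787995228628700464789854570649067155117928680841703929226309100386335085383915612906511187773681127658677771983190925825504884285172599286019798259123185983062410026843766677656943283444452561614462287144737964782500976926794435910822492101460870734867893501230778172171516477970826620103881401213681146000823029732769986560778704784806726293943641602015542477668227709570999227797635901261968246078469726969038150454249159852462196205211847598042128719320025977419378601992956482219359041569024242034027050580489320452397677593447757713894258374674940694387183237683611852793865687849291152266783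459229359950876993077038895039598430369538092421775711435087279387544816330038328897991087155223003027801008494999435329898615308826533273226155901118560385379480703578425323253516148427504289176949006153453782009328286126769328961034227606995108996999494956339578897145531529076015890339832622034516405547035830772577863987588236077175885965685069168177414693174151949881124865321414853433208907137543200598233460687485301705192781501768730633862601745554049505375753620944338242800765727305541192058173790778463210064992022219283185043273316934342487513321049921205631113730532822144287533247069181743462178726211228565589674804232053629121452256323082873399983711768134539720910115205454591260425504968289021086077897442128766209950250570494249901182407757177235585910137795414975810643360502348102108081300613261843165407274848875038021778593423240121476885331037439378293463609587164470482758864539329418183422424948068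771709625093342623979484428365726248976531351787725629270783349638554081048153791647406763405410731808982339735946878897326106258522089085998692951714511852321091536878864129104575842649521789111706720926911932262220937853851581346051858637005697993663349958615124792454385026804463860052383714335047462536703429509584809287277720297677602550776499531606728241479216645457954683782808079320684254086444702569103544833046020660096837659693155694178975389892315352619077778284845128422462876608446079906763773902969048914405353195449712970232080014403146519122458919820110510185532464179678516721424643164342615948798712231879476058528284846529610880351477420268907767534345991196346209355934890534603551431411818205322676603929686316873208067183455198571881503220372052626975801130090891093129355411881619784916023767097232129733847750220887693284310317942281039852167166570701720527132083366541888313925107824143837495312073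106186342701572112641725581311583294069573673951212518627166695413807579693030500603769421801959301392653917574775604974579581310279309005786732928552195669957208073058085285745315717978887679304561847048180290871061208476099108585008059746497356617872587119118121464280828036556605900012305943744825523639337390824740231450734337981440525991955827157925426633621347635624896796292078464228067896269260254161400126135037538989780206588790668785937281364796002004880661587880139680574692521569201410588626789598285527402520010152203047712401909574925476918134776222317852518058966390388209633247705619457700354959079817357338997331386835384176735914316684784739681356153648092663007859429040503754442148561138341713615454722524818897826251112568558214363721069582094182730399838524683881631984596195794816004137600989708493490709482012402856082235291695513135761516546065478295965962541078454664593225769949022845793001256781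105770159733155766130512902599380134963561652588953318733392133099809931380417368887316541982039896495362445217672524740134786555217402780741381543072599500528170913199621666297633932132551507419966663852745264611192771636565379910704507209828987903409115570205274607615660746097602487720149917139786057617147966449224197247575110843874711028616963200857491676220767248626255439592121635005008213996845794314286744903485559539444551217002348298865342160633698261704177802385194682326029553057672641273683003630176699094771610973691722480138862469605008210556376344306847714436216420686300273543125759021864076041963067854716101437330030182232023529830117808379884392521957562179986914702637945583087873526535389971181696151585550491233523901465581358075984603759783721078237804270551132668467707745543777537699527866293356081811613823381024696827850061483489855179684749503742931293313640605999241661696951271177552796677768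503952387049993176645857868232693597574908715666531504262086513733145395378113279671395242244869124020196541841524698385958756832169670476584449055943280217192036304627771700799700045142273260000447392060448777125570196836738174952954858244571650458919094198533892543772570866838192226335980463025259160191181237124107105902055471597202747347400340925363773244201847687643002917697653697301384428869761445259703165577163085307374143332674040566858065637057702444175561106987098938178058374970637312505302414945690018931282611819578408896927355505863935550101380730264311288940356371642316415700990501816486991963747676509194813531286618004910727668728600152943082202927755669885166568855248583492219477214023992400242341924662537972081619932118077599705098921181738485757152456093019796088688841101737654557659772472477803350718010304186853673862470282096983342111918691046988797682126039919457344487510188187477791633433911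928341245871325650809027055925192184977231816945446393066337960535209098663684916633545996302385897091118347303484936075029874675841388350027208313220164126096829710609912512042650378836170628447195303873149922848891389996897280340393704115669106460631155112070355125230580546148264439877032588211274677569215549230112549926403375214600393622660170957745293935350477937444216254388761614378720009089212574444095867864361364498468434758683514979881054348694217274544581186577053930146784169580198333873399931652517679518906749900374947885540933810655651389067043371632429411281743030272211519558764838022228752772593382679491997025883667222903676449726717389477694196242011000475774606946331882307934534936908993880324318142582436778147148657461729435992616880120814593870698029272455811662469266851296215044860913980233131301981678108568519996704178724166030300339577837901010836189746841807281399838992723204679562721276220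3315419752893006136061699950823045137738635073024085945373797173255787531693146368905070558461056904736154309149486041376529520750764803484901577150031778815062300194747233827771959408085075435904320845796338995022055178147024485462352418713961108570108704214144090171003918657713652181395736338934300585812231125183016652893327559534041446408487869916855373920455051586605094150207205346657749797194422260010448715601029075187124571534957717618858087547956822357952608187351030435530883825764299272278600749472559841461247343457712336657175358029631729881204994209037873028819509014247326966321055368833792848447211727581744551499638306273906093666644069205346373349504939490714532283931159132654177587732314507612941660158025848590850583857269466857258699119221789188732170835205236043737252234022474077721045459358576151648015114318024125016478027405166309691226419783946380746054460366983931221030403595338078224384)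

noncomputable def rc6 : Nat := (nat_lit 884477179337378288612889099389482155359246529479617537178979112706446598943502410827279147630194731455413880475404202097241320293462880403929342051256367673326360451490424539445443737641577868169068853987626317251185517714625883665489720306898776486815544998510286326624085605100104653402360849888459177879826210023756391186301811386909673692320765134339841641457131854146906350529642077272500076731171902287560915599810616940793655384244927574198477034680080930588450721807317068229592240866029295570146797419750210155298257365302447891644914348173491623635442424504609825209378587575947172683799012351142153223800329811736704658039897628975825604236352253972083845211039167256248491512327984720724898409806751279619090964322751356178728879405806457608683178037604493787360953036028394808656134169972104357764358034971819930601310127202373813131859080404582167703958241307216391356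262287115630087498685427331954023497385743393661876489845859489069499947908982722963436961667803095109122276570254208168151394927739723245254755581490898988291080396829675661103732161726683203817343396414744631348036830788029641912155146068954575371005022290548105927821352315425351912051299921414301295019433244258140072490561895946174124810044582262141248840107962464353725257763015369924709512519152232088634656817957462143631048827696016234259501728965172553798738304335130429000147691543713125892143559140900395272168029402643795611124222050542983928496100328785180805275240650828185871337164667013899338284688195007608729895997952307462709649865767316081261070735616343214039917669323936265126231929408473453784692450101379180242550255483697324092830544319748960527465887434199540201481887586725340505256864329825653460250595852896668486206500959989489144328583797065588112528889686070425424978810608831350857538030226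397298743294488133794900153473120179713653260203395033146801446630721430292732277179574665638013105991111483070369149852421044072636290301362827587961547229565206704171544147731149682689102991192055753541719435867558175921206366540576638144907529536827214389902313730714737738739832272442811744855847608998017086893427679338626001204957570129307102280818463948670388416477800251239288655286349324448069545522939003162971256591311500537912550159047181336735320055114927751999173242277920704916374988638649152239455714104778941216313250380618715592363573085043137067598976237791956000893764847045528578476876706591290459167425913150608804979768431746261443447864513194701995610778554313963621592637939465649560460523445407116909723370528210198860220156756599827299021031374882999876650037333233985609945411022406066002037321922082818489984831722035013007024509564321330182496103370432327822217664381517189836783025556553873099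959022574618908319244231209115814781221757609538431340470422640303938920823855857718535665129711372306927052824538089046713108134699028305368618887409477419969163701900729550066279683069296961950394842791419868934621323461224351182636540938333424710231476970144256113028320461308962531707743462257031757158579838515041873368629499472938759668003035396491023720790660874488703547633020903007201708185790269706279453566593620652695503269863788286217999310248018181600267381759916134452219625936464353661202388810995782977455014783812982038653605159635244067577520534765209697735988099672496829214250742366528626846280096114290749730206250677112031380773242781386856783851468726710963086268703093070122656428870580682707773658953629269170812654936084565214307791981818379651355874953870564525047699993854170276064786915768648418568218475646623742308248729720410937555367635359266154707185538852514295040780178688972443950594456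978331819191425192632504263850867269827228528588788002879690813895178058953620015912677930549881437453863992509672169986745352082183173403671233156260713852613774078844648273410914403788822271622903639801081974618983240099613383247848040157939676346735719366427093173878755599318180717931869075351581857043306987067459244887404660477795101278644987828387355416077695282090575266537168855427138376658413574645207433254279077095045689617120921785988722748317088776507580300840931117937895415482095517726104969621261657612755289899159913619945499320519930653051726019008532300816274879324519670107232516901635624277156919774367012218620618399887421080366701052845856110615469108053804206703889637023030230391031884384376473895715090593454076730584238341544073450979763509158926169564016188555961741482503468316727165893098748484636624267545899263420196032579794672541099145148269007472016992578589561470313292395063236969884328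294067516191001327221012221050182452457678840528029467111539626462496685038958971201768952541470531485750527305829577356776670614084414213375356035141329414035504997539407174372137268028309338586738083960787305260408219997290436240668606242663860397278992533525088088335585405039956529711715599376907133131246259535346721271216852828710062691098714744077937786290958590501780987331152537583132828621159443406536716694763746887755506115148051936305224213544736654108105014563073842557165885071613159942700760111162973537672357358689034162202280470979640328546335583728223778440518746661878154833888632274650011299429828329086148035043402728143433442286349995875962310832876881670568282704568771387277309546472108559435741601365818392234479615244375811979353519139130163066341482034801661019844008871183923739504803328177761554494690070078872700239742203967392119052881544699240005443669342125537175529513335306309537784439178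173228911857342514253173856828229179672135899870621766741864354965978712670120694736139750411590060788271436944719675629273497239952641220736262285584799675942519810923840838924201880296310670383204508605191879204950718345158159997006416050363335379171842910434932001427038346825167186744888285530442019326866686190559008280639214338130889672516675227589013118317108055768364576986214330223564107359141757344525363863536366064136910910433019545998905304461675430287196942628711310101567225779616944728295216297640460554488294493680806077987484476310318109392236599394935011658256194803560464599222603979752239906662754727499606297803526986905371553418087161885668922341747369943352065713243789391552130777414748196754314833661525315125975658517832065991380741456897230082297076356595190926247796232115303756023124777760530145116137600409991385425225105295073846481269398930324080160765664932461943883150768777348841815208392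237659802443976801713864272304838622661573291303720091938503579759240783591305978600222540032081182514005516334591238516381327775346707202840803298526548777218264382665350012739342233317799344907194320102689439479653945605771084097375194871223327262594946190828321733073085297196103086794437911896775314259104022287309660526020866573197023074352076201324189444874489136106262436198305530637578977117193075943862865579615083621956028499587216346351111838373469215530303257515783820509359439304814489715097531662495313567216702095403538448782228597377265516944478831338371425060356465021833363959881437046048427179568063783967605874309417479240446440754190444358588584076154683639114114299409583300466350691050169119333197058487721712864957935504051743176557855282054229993243751579257316323303498837745365284298713448452957716988082839400808928966087123805886321385354368746341337133762840192685427547037655644839530155803443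633587942227008015104689844741494803848321550130808196377996159729360556152276339355093865058897001892173680134764960392399725402458173323856662025658725391963807191783919902545815556637263242397640041429946516430925559129960806744241044585196638322046908662165465677281104617183698303932538072967142053986684419666851312632427135933881788026362904783533561748170553515281420072812033472476929367806803505209293340178819070550764381488608691392261633425487254508743973997961393563463380728412632976305678753948732213361047708076398388861663080049135096614228006716739973617256810390359792318004062633657582880172094927216668646865790606318836027663458619341416191236909682919085256230595371266285334860737647048192610937581219791886410713391825791378122886110435715491194164249059391743230031122651784388330876011528339033322296405996583235152703523461208847052686942610870033956765996972138091174062250327981118455142241281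0251718357436307650736341033641277522386685823568177194740173001771131487795352225861632238539531749356845385036049704157678271179641137198503547006126907257159460763851293395242484406129239062850849047703251594080741906697850519942033907048978134907426008830669618960683853992492402117678270398061615834566695889496430721044942675434734760354221555560725667291347681065538761727628717081791270553085545024375895962730646207714214031402708318193399801905658251808279201282982690393161559624202325828049416392824871369351812430090442500819455775828988392440644034147944539578072576470913520041867378651594520366616985243205387289881224551950651895603047462830198906182281958413200462689525733529570693072535848938049312101244581028689667381306148972121683769671228725933073640498156955262279702604417500318184228062426330031067001616907931557186909652952411965689574433634368920827113458836100966102005953912931711188992)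

noncomputable def rc7 : Nat := (nat_lit 895582115681009762815512236219957538769762842062950776037449582921379029164675574053633900775997260730424691093589736372292450683811356569225653741329288151404108665628524574138594702497281304930909947442281973489954770018569134659747988841895223155990539486709405148552741825280186072773863706168618673756689672711386052814633104815078865830505917051487824021373405570154780892804652670390746028592037942800596446049042606979759033285361257617129554628444471104331456170785972500132260481849622694424309057049501158942730618409420157144616506506245092258129280464971747821135311077946581329883053273153594277379865210837801286253858700905477970123317821900169410351149614535961806248889806292527842469033060153810570485198674601662805324360880062288266219019429326814601902168997399898588465941555103382176564898469272035378699116613602120305540309085605431263108513403742714274170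460464052308868212808199768325391393670526263575794842227936830962732904106983623569497371104779143901011555239352337656217775848674410032082458144780983777005039279593080765380282606159256260943718039747134775284489992309116925808145984757207866452655826156146356463586097467833855690961456358669983051320667480073785073084978312934520186006355264624010363492944175158991071862143329300892845068179802196180924971373186055431002048502365100258908494291070035763984827922389792685256029385889717525495118030172280956732155152537838692147012909331867609534378678383035754797855115023111394001310860530925932866026558593994378314642046331875077613928277718563015145012489386871051952818306327365610580967275833568439306820164640156834710022161959858655488286663431505746836580983245025935449137057220033072829984567875700834718589759512393874794378888165354823512890981729900192665564608665806021249907208730221409699097754088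590387993997975442713086206881415057190082439097753457946826296057510003967131422775320130110473314689317748538465793711811384744334041721597776320817239242310246827166711227200986026075173240964087553026938766823654390501439637941664508310156120315565813447008306492453816092715193553005659295268563197557699396577982486676794048233998628541280521835122393981075162711675053836468896240121888511178238898129399273047149926589142189039856154745369116443530978898329835517569820020137687489284811092262546176256407284747710107587080905741070047984573036508855525444505109638732864237700806859827587265468156840810320502281953809093358502419482824400050187782120616412631377908130393999977224877434729315697901164406582375363329358497048341874068247416851888926584484651732220672419199740874712498969802734307225466231608982401122031211161121335197956737272454621168811412209373927223637071335901502941349556602513186476823721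052929135092908393751238890362155676598663035678731293514269779542387111296467486715289447244831026287922139048967812932677148825380934981771364722866930863392897778925768286561168787984220659355697587832059889186225836784284176963016633693004370529216389914139569735063789636037964870638540344892070371849291735243530056724913265953896896722504475540913502663070659736412904103545446240816838305213377946307603394263642113785252946689855676281511275216885190032109387007538196562021548477119387103084588848207910877641975389434710818098157412354805826993041287738820919594829023460922119777400835141079702591222449426647183108995043179319191447692662606913801294117163920239474369599204482280332925695308736335762188242319521351486915509927921816305805003143965988181250247706166602552092934417385027258054186534737539006304902737840363639986405448941244859908573602888568930745281819983936804296326822560905250359656135950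891375948551128241733202233385997036561956210461184214931189957774300979005428270505541552961054762495689922840434562149049535263210346089448737957687491435998870370549660221782384848021222554799219385713953645423576958897378526305443598969623521617699895104145339661751956386276588155274309739225363464367100795010637049661519454762017300912123036553121148012607074174599317082661056678726009191742145014275103021605996819090369402351979801028139449262611358795477682565682769921740611644330549842109746958437905804885590288542412005982626589509327105880505068372018666585359325463375421620302490286254953125887134522996516632793625647083474347880097906535610678289587526167902530054715375474649848136357236600670768648143761964323977166356275564013009798442512440685289692228803818210960520557953057409553057547630675742329268908643639424870588154340096497887506858308415317010601265260584467885161762081430481530884562374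005830932563564639987604906928026130137925592659335696280555505150963046326486827346198680633980176761412210686649412873891172948509098666852851168154994804951359622429136281177841774196466734786485827754306454194728086720432768469170131328426127757380853434530209114833335226462647803526730197244664190272497502546626544810483261575873788839603197037461279750437629024460868015801737804701336604332559933687291630905306169134084468709222669620702632957215054374292794199109964126656958008559669259760553745938914388301966213695350113181588086650064303635839156354106893502722834152194274566522703471965638604870181115265731907247343821749258448458433693816232524249972932975545201377903875950749842332369560316183182264211592040074038057627520734978623621871834876857486988981330753041049611786241248515801667927695082399935636338461100172452478282369552057547803114889506685274726938015391673894650143286842500588286105853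050162993531928247045803769726683695326904605874581796507371510314558329328400778529248887802032641293677005925215359318480205193091114664196350244566485773664172072342032366239406717645390216017252465953368034153057555245733902644221165787191775878815459336100648832287807466932194465548285214655895145067128458894041548822389679128100015489803065751318087693511458661641924526104716492267329891104444936835236156154351756767577685385904448529016471515248288378604078385433693748483213984631868224349624525279030822930175106936790964692949696598735419893999558525641188686962105917282387134633934947801146121357300177663191480430215330853877879785228988986556000367512823446320167328258824803167709139502735342782194819363771921963855077578981114159210345978554141322589693338456243413442065648407340976237203453124369923907573239497048786130037346031455659476998552500033694195190614129379566315388927056968416941412658715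502160440229326596340986533802675787534711827511991357010221732625847867178019829028602224198138381272022165238720773948063316446615504679293397726794117769154527326676443217439294197469535345329273732608693091776945323100107126727711803934395150604061906467695567976485716097497293346210807967950477323403235863175262444990570139675763848570050972163206204434368955684133104644059816092351998236314921200123049892280889366599861675095426603716601076257046833488306037580447645268485129489700417863147294553595704973378755866039655976103139845325440287261645945396440006777983659957185367635715707788585980852921100404822695199243819655171462085984412774738449543590484122124532017297191065763659096046873048963738840012792635625285584130639302249494170278671910758173276653773293405777136605111544726532983091622562681407221170110697405285380839296874389061944514696955187703884107278397523740152403396830565244856437960982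224858776790720411098623261659796652967039810623468621422842072033749495928679109617275006558567914507830117985275844450106248164030430706447015692838360670683829431468637970105455070205836410130706915308973095502012405824410827743592475333348048558773554789137058042697232813811930114556664864838622226656070461377863827806746142665811309518432618616018807048277607723756757231402388229989463621901239498251862166514735572971963952454993008876533973374399636528140937335422713822478178141188153393686064982993711828442084656588890916921663987882450417156880850491004280510837099272864612952573391805907881660007542185411376960939671991139052045709334021962753791196456607217148119199023350641651179243750676679029417425943335568088450313994064905041415252236504231944742878955354993592870444205361038728385609273541746142853647980287081218589250353593045864865166213021491283598478355577129414514425882328104640067941943319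5931649834422828298689658550453341654310422736714948421591354932919520539031406208981197395077884735918491511693755158145863684879693929435595613723513622057756517514850159036923159126350112927829475893957475676475323891612892729089108535086150729659949849913526840786547636764440652838134266657396090394746147945677054967674246068958696940473937502984299153827603571198504156877124054837372633565215110072839518847275518707779599307202627963821117668411233038896273699167982402737500428532740179768745832570014430220323585827506317702487563940124188520866603632725404397963619295706715807798636365937989495548215575229699824839701544081499702424684856307800751281071140018419494040431579270784416106382016316887832578781498165834596118178337476858966411664575248592328447558941027522994213206905433031568614199134398627041325422400630449253138881687304251100249687233115189176500024263086395956406922031824613991776256)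

noncomputable def rc8 : Nat := (nat_lit 906733271658893825868748878157147596419426086356542767234372072896038277865859956248136079056775545206037709068521256938178332255403340634828199428051207192951208420873131610767066320645230598685804234183231061375423566408599780094454104306817435775675311564182307334539484439237399506123263477358966919127211804332617177140491208699138267564724973801740434722497038840772192732751558683771006292342743220062371676024718406456093170118652747608472636453672715594439142190338855088136399359930347730754644486602774142091915294677860641118823750356827742565738243714150005732119153469580805291358616872938945068018325635002952140507455750496869197623315411353611617321196500116326447588614414138085161635733782337576932423697754824801398345528375725724244344847400411188265344293694784412760425162620927991685338118873177423387932531181040012896168873085626177290142952391016299165570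304410961755529606122124134514913354782292398435711890574210207060258763541728908028661004836680090355192861330376291466404636008644097456737943428450803356070789920894776469140901264531078331966458125830756009449805363575521046593594647170373221506882539939783966695568029411421941191159091779294225032012310274876917042140366191623717617012375775923798812946617348863943636096563871302738264854412085735617081855161472876536883839753168472439227347209029125300725845729522185325374596019374681280234896313069203269153054902207891956725132321728266555722771365606209557452178301421797163808288306658058908403424794167100653561410410716849451992029232608139016407498007536122165540908805215487834405703256446859823446948560421407467812879082358191467902777088975512955423875918085473767899884965629483670517524327327512666646401998909486381944011707320403395146452425518404166298879721109848785857676909977455754444734643285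519577723281178125812309901455181319908265324585993337214495333655667220741537344813882326076666595741314499502417157977997829096620775737988033154161683570233018219209522836010017436687375946801069098646298343234958832195693069472185957428083018463940164399257530054044622370050995589829561610494800614610600017628012449359554328008195437234101173503408142367332765677392784727031795885063428577911362064026184076667660271794376633427296411252265776607541997285470559273799157614004724124295109760340943220467615356792506995469595337033913132515366545741190135253659193553969895934423149235396892902998709467781950179049635160225242844974180557463313319504247897856679976756961623014173491758071251436289747797293601114304861432487887537858856714351216299747772643754832266764978234954494024950146103478039890610844360456188485788183974826883823648677247667405174099626670682463966242170852469861847079060135376408653004002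999286328034300295908190506154387011885252414892252596057901008112256660447440486172389456351740387557227876234307935728605050889165975553746028940343484204968234586345128935531494291130171657391691713438956154599276991742833294233954895377700770576486478993489015580159547528610689458743550575411072195881557160161152704362126357173572773447730878875151459705500546771839744249042366617789083403972374834160904068945806973439095232329987744826037751768113454824565380094306035174903466543191732071582888455065113351129549940217118061292425420146910810009473870019501520913025264054860440055441163640650858407305997311683115971643283034415292549468226644898452621786112814842625043249569782999735534554554003917855550830503227280519474949388357550727851811318437084531172441892430966306196307264515442328215746913618407844962682596797093388937367759229427986870517372474967664603102613530909326258791224325517415867772047839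914976183833701919523518373048259914397156194272770437008546871817671460478378984240511659779131334323759941139458226915806977499542033704257331771135752068239974556892206504459320621466011403573370153096978289141666008288316920865622031949870491645926780587608736971116761349766109549122489849951462647711106156929711997609703746413011337988413947260165385466124697953453491388304795523758369077214056498598735658487207940434835496352240929709404116996219119465616526828981228047767464198822036602791256951844738742620198312209578098694006922715624986063770592631227937588066909793280925742723915791638986944557891429115245599389105582767422635165892477264139397394856675542912512616283996471551123741548060153087794967604360364013037068731509879579623784559671485529421446731733902452741103692831387237667976656174799677566292790244167348971574022593096569496496653238863847541870148013782258420545621115189785305443892462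923499491633652907486429384835973110049145412235253790246176723804294953444825804667077742353580638661741109448718174867103793481017473197054627638309090232259004482481525864230524613928626481112676881681745754074896152046175416129353732909409646670444935558109636942258970771699681796808264999744016629082868682608321562717575769656593822727882575104848632363233395261588170019730342265935572574172677399554947095565048786899349145321349986749453194746153553754033289447667283253999755230348021060240740208129258468319373864570916986954839960793596661019618965947116179353667016566452242492739345358318265218857264062249023793994188231012150854699761268827865723225882417716731471144132269987688988547376529568057008721182244694724809691679626098607180619596097035234669838591759286457921531875068184673805880333383866431277518009183904862367702994734681424281423815293829495457500515210587259332621829056942491733267477028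354600892385707390542040045551368089449950713423287354021631633783661149936883180603100012846184228038285308009472261484743761345110391007677127345420664525390916003348525407626934289620629940538705118093823632132322050288836040406203877700680370069965292573428469428107040066344620757792867838104737620885067655010034688143168874723316392364085281081091574019451577140165441188951113693582077109840579554144818254247788541228281690396633802175506409416543261324179593752973788881059452453876625504614933507030041847119365565272684233746051122608859225734891831158789958398019338110249686415700327012941489991208149132032627866961396769079352110912014743140756427014399805962058616314907238420665930929198202258366748883735117820612577398121775084858247805086622244630079405176218630409991510738221238436054507457913499140271988682184234659472977303554557062916115634179199519356080989478500554253537072832271638702801470821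469099744312432540049622493203675000965036965797317549517012217076628936332619417127170914261834548708025006068528579252899531281986937767528516307478423911147588982265750105094132587741723875352250057879352170770275144362847504166008763031157508393420147393815601222775079237573661372649514804483414987855717088103577262797185698133148712360017266534914550676715330457117695756828975080418547248978942748254563371784634986926566563715648412212456766368640704451128415184781552611514370522439309519911976709301456329780015273330087581716860685542001023563528395709367355750801341980011487749045865424700948732266117313774274927577997824619671833674966566768966160043745385858580572514306360217708149378216855514385922740330622691812341299020952702715646278985566100364163698737562626230763493022959094895574207635425148200285481128192641908864335713028456488698428895314564874111436760680917804205121485002716590809862996688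505376107943325786162177394049584116093761679952263231274204347638543537647570462038665931983595738166959014136577041936413777979593872017463568079370069718152730791700665853199937166930548267804280692338509926324515970422754976544090452400972012600172967105141702512383882637595899993963227745871083306395151073447506831407591870774427909284005029723996693942207529638229220575746192052687745133875831391298965339193036683139809773366061522460839727905831887089518636103771929532500458740960674793086350906533944688541432540548352363776597669272807345836833839811975612102191723342413488484544482642600441354138064614457346831145109725176088258641856369083946398123027274443086858660106838051319839092819513498940229860983564068299378317152801333647402781297281848510986707419072154181675270141253946590580152344363149892851308184037236762030334288112847652211815132002527586429142653261155822173466711789309048777203879061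2378950953125497574147808165585836630243967547434123961295224109536787825346004927808497971960241393688000954309365203302331437101052110805382646285361774819826737500010643680091524024021393175483874888511607164171042653032112890401234956183161630565043346384231249755649624188572230432584728971786198516227515132954397296386258419046253600355059360180652886155097722887691595166224625711279998447840599454517786254474677062408548474778064442074843115116552293557047163736095395805810673806673217802027124323107773852873837384176841384574400373778443904046147534831576108149659275536239223058221018180086146179034128033109146197387252658958297905730869157064892197936861009317842395844266538251813586310204950224173445507883364478732754242661442858987192735459115023940671358490712302977121143909001129249340799846772827049236867507835949926062156351713997673375053451142926435336901362019773400437411828015553977516032)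

noncomputable def rc9 : Nat := (nat_lit 917898145704197344760984155550908550616751930269211221447811955585500665019917690025491465221060214547769039011002871384210661414271122220229143365179471159733581958655941922634582872549547277039570939133746004164993526188733623608870640896841161133454539609007113312196892722922265698019528150051756636875690660653976750797377754814343937213811063381646781777741002947184910603722342665926080134101659875338885470832337009631724303823154631838066641783558489473401966174777801314436382236137499809542753142091829939749879098078047286128199043206542261156137032680538319327921235892780908915824379343473053047090471692988014932028415072789037066456151843050486644725151044062419602822490267278909863972611926138386121306993179235991534831485906800218807594076473085931265432324992460143431201807570626463814535971465451270687623329053692858902291860492985277084741162581160411503232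411148560726038779224126837739390289089234867801502635463490740233663357799967124916615993401810018467765073488144330968328840959167374212309380548791103666054457735339968825401440570494586897843761929541566139060310274438967380259846884130949791676328913659465885383894570205243260699236959386725313459651591855580534934642956388401659806689917646378171459502951333328120381261221345507376496483226495760628611880765511456883474089362710689480402822563999731556175121103078244257677275490115093900929903045906461778289270834969847526685561057030468328646803868138316440976057106196302637975347465987710445425230690369911488962949151233003412605877491543070034160346748619528395613527255601711800106281029462207753185698921094893619379344811429096892305209794491080461083076693696569893266315496313279861477430893575028581018103497249645481424460886651848743730436521423907079296264411738591332271833450869837365105449567962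862357235732137209199324703674919190597260313855907467373672754105882999254034803383871527568406487382747279648498093645990505692139028949726518020223639312785655878589018423522154718056962092228245709605819912980862596931460250652205529443036721593558367485497979868042875251024576496317941341333770228529548035764671162561074221316341533560677180478625869794365432627774385506767400954232644253212459515674680966695262632169382336782593349426163284282816117502586118815543491584164289683480301884515504272045670766502453319802764265782626250556843897597740030226778005991450254440736236442996150533466950656919439725851766451557029545283797126755346450745020689043179873692947694659650264845582029192557270732119041282714187696930640502324745149973847375418460040868571052850519620593683580315373335218106370331798541596339157903399605670596500654320668275706942818593088528550385887032878466097628047272306671764411707186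981869283923081362476497864894082878151825735169804665194776875846472372624332505696082356290020050092354180577151053959433138615880232110505164284954331071321381607476113308616297070074185856964668378150837863665523792598522748638551662142084938523445705083686841281258288340566863274729800380495384069162377916184406803334949087330683607963510327558914630315390247116754686984368640079574755999218789146114940870432585805114698475494404228541567307751184414849803247548197084814499249573949872071486519509412660736581879409734081536521242136897474704953861577618318824393142020756406769420925394172337518988654592408776306919242065847720531268545959993131276627629906913023932522241662687820041242001051509801443772943487808175852809440251107089950847118653270628532482584071774780079065063763971156955834995143268012253992207865047196368529479841060897135512312571030934979464027007841199926245674722286231540705093018767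933187902407788775427976228430553124180875342839910011742123330987302774084090293035084116711721755166484336735724136542974949074834271294473382911128760728546763536595512626812247987841471137507957315148317318237759040655834403308547140990202540844519573302021375991164767134252719587373013313226520819943961736358840100562739452448163183242848887058632548022982257699158873179572319296404328881417251337633653312068199669949634143749814945794665654198914872470622028715111759182916388895082812859442050524058153174729913473781358272529884688401240953775552651366085433142858703848964969990606249067009862737603420324152327931405281638407121520336712569828388436849574159148356179075032306962480321233289123958776745343958742116762749636635434447914211737363384504250996825186050397895159136856968576894611329060669378876290436848161005931882951654992194799605475389861398517340018789434947339854103546602798103598548937951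086651563561560481652780768612113796797333360951062311274180171859731921423901403426981188402907197356214331715416977688800801764723954608185412059532690900865373110316021678370279266550111718202642639959997934915111089596879407715499317850453588833110221265673932650017494257567908637200251116246973646015565001658531434041966599643112686121388563347429388117741458239970492807924785718468166903441198004383363018359619650150400020887033074865250724278204415033126431706293713555068452264384364219288329109084150420871016265843982931820519841733972687559688797539372777284715598411914805542714745162054292020510164344713367198711886367061561931271738160076944651267656370562363843107301624383073634393118118263933732925252408077612463294028691246724225426822022744943937832823259147725526878952212709551137100906605732454821104646622009945430463703949393949010535085011391281262336586462441760452029827308569172507205221477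473282457747891153922228981169851338020297955796529371548347055195782564178308157462675538178860490896187325719008155917480180401529560612781959442540543192169146340392671378253808890597860760112469110918838461223157377846731739392684555757660797503946292255091397040023621802724442628999745683512863687134244270166834119915286816062164476090064220643319147836232631910480101128247180768851708261373704852543375720782549211493419937396224859579445587642841785120846055920015473238378677354294784544077174033585313683295200496578197102062622642938352827112551134367177697437104272607169639701383648153595012700125972683795550714786602176801466892055216091756408168724386509949867915366477290821450755479154049520563454470422905990201510617970874630084842438633557411682907703464853352241867964686490363894393517364075943048798144497542965706336338176880170971143956006763830692598708618124836429417170436432238878051344896075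868406232331089609582483490085003791377717780788133965432116729196678163123231293776521807531799373139220281393878372453255579913402358947727833928342937998875216023229713402187781949614173895353305288195487524051371616063428838949593313146593062773817669481103519737364520690134473387526924804900346537417297898144232506131644483393008451135861468258086936216018590043735199773818745721145019327768474803619562373367183037899417524399126646590154761522027533184919851312336454978164327152832772816460497965719456227915766460789007454274130423795910519309604172863880676276144958688056491361637342726388527028294148127829919950577618351117505980537999762758822976777879876281913147369952022749231860208697332345228862831420174700103100923718366396331360647839026225158827004575390545725967131918271887287200846981613564228615576079188513413988275177489152529603641886562990258535159035871296883192481255285077211426647673208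906726674074480387284246137493358506390158367719237990095697862260957596801007728838780956153642319386128625813657146170856088777465192244578153615517243457615801419281220774920814605313624531296235208368798567171481333649067349609693024976083361321323606718500211548734463431063108951041951245001993862411901273007285636244691251040404070808546318791294207884729005251692070204066949001907502845589782379995707611251550276215864195230348049081052572051088469521997677295765355901955347365202359696569494077515273752258791719871722354019445621733546692108554138287736354923204239744619299898904284316330943486817894627824758867195876548133854218768980092418994174059431203544877220023383806042438456327843211976207064451699093539315854337178673938058406378308968506214526816497151900014530421205732982753329827328486715017599453965797140632857825103955765157467173913693079495714520658921829033744531532565989670737452180895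9532290623024429111338641477571502332242340077622834760002768927567659751879890913083721901085159783801516641823333968622634755009680357149909291248461389197814575397421246262350191906281405806949025388088898158811582772798946917738434386689057721779526563984593404457546845146773947984979628183439407669900969123498223720174892700129134896251307634489878398857877263230781251973790092296781302378881530730773412029704893600643931627461458103868326477020056704028577861459143546249382466806108866406598415269552777730630697947000108396697464477423350737055959460439646281713138781306650724224810512070438687812852400434749012618113989788594752134797635217605008753856839904027956155730324847972764041878331562943249544995082124292340617875139376879096489855616295746382548772110540244949091086829979375885055157057354236079732543640975895792016995086238555887082451316840502742066221097862176334541782574302179694215168)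

noncomputable def rc10 : Nat := (nat_lit 92904759679082287903197747367553285705787670631081263812011431900556202415283378335865630799437169568114633619172980613242806847316692929035840925800104114926231788348109218661839674828421212752195800698547125093168717760043094887926484487814414476638550697800584810060638387883230148373994554567570706668327047943402013073051921083050209268381775715319165366589587539612627171442340002156857411509623295304098580314006343433154809241331220522708083536066281033696879297344004216014483560770150926132089332871119013667365727487942339351045498127266686520406719597075609979865706790673632022155446820423973581968744702951493637253612969392786110737482833304595969858719662051419333599268864685519104294568426291922924435615859080292412648488281803081838854517114716695789189405638925787581956378413429338228905082479090067712465378987288275276180699819155822210155404968216113456987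565322390620839802366312231935942924870727487860948134724577886213138715106717914693407948911869838652178457486505155988486151144487931753885394837486584515988953787514674609278007814062309626433442609245763337939562309025990994090867178781703576399243433498734432899277867921680798889117277985202444650754200419065690330962032719577691056601691282938621776609317633896997021235157645790246039507438360933004847985046691692410755650735056364856276180630325239103442927432603449509524959746971015151065155227995731328077395311938273466221817638071239942080031123774076727802981093520972872099998913282025508708636321138745568417876686018318599884263441087638826511828900540582750332201344647526649487390062265616526415296931504883077129080044285870833156598989956648216126235919826089735846053406782774691887123455481985496178747664316683973683794168446456373280808306849003346407287588529719134538234819825045462397253095947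211566075081484607232362494607474748476392005729270956483479213189124372877520590563712191594971579065560305688831209435685765060953058726580194749592236454035459046661359363518517787653093645866165813837031322990063528735924928596492491055993377863905119641668009653647097763543102113863100108930803444211834321118007580900656903948675052361828394565552805139070964705865729248391815174077288969754623612135196136558190009903678135068710315713638926144255026225518442409580818088944686400841857335617768867788997803235080439000751657791975226171775536296003681591264169837279280456150131622568559701980708747387965046187730680422112561545246512656832913657741265325253826791720535769717598541136555074405904491638367836121772200065736137494664199871229654360459431688881641929288780757589394778382036820299261539348492687139490307661916899098717211394047339914951855128130224990542168759459410333820064456330255585785086334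254342879464634978604207161441682946283999252059539984724741991300544200477342425231859833677069686371090786340254239936258253555613311253444568363138428139553740458201111805685073595546800448976117595718131678720092326334404934663405816262608803015686694666210936873176657387600248117207883192796485802396144262505740615502710070455792151100239856374582653111201610095704303858555263316598040879407225593438848388419629867546767904428770881270416480647637645771671501378830432637700111232286943841084715406185226465285740877491469253275008642007965378718257520861635206205141924894369711084653603826377824833304976291318275640341431368873108651690102279898739693230837049519300030159462517957578720033729962089185484072836361031950607453230302499298590089334339154676038969593527475882307370551726609514794117532002948459775203552621476293123907720272709209215969081391053455104604236435793536552183728477591803061215286652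836143088714368977327953316384094553687860711903855312812964789738376362817242719636267659799179392812195702868288509338797174886332718872469927893059111658583024765450823544646252653036523681163701403412298435660340584237879566386260306929569098315271341664183025685362438760299897655501437137664560977565057027775938837685884705063485852611727888846194468232527191238062027154960448716932077617508553697406861482676929508305863543155283250251536573819444449017030218549370047773689800283392606511171340200672198261632333137601068909460828248656844863026981577559777082398574941034482450160769327385876919345191354571521056788603600802041324666733625566044729124829639036945972889606756481232313030434499530320098306828574193180938480576918683637990432630434011023729254929762474063054788227763495022980604830071058229531913449547596180244137191629088787588341463928089388534458305802950600319839003967339062826946187202339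957456648030531097332954714819862178849607801457574429127146249656228724216817180325239964714682713045093284314738456677672982097348192007889797098238391264986234940379853727294298321351106517642730609961360231896031062519763502170195437020793877066857726108972099164585358842142140180267052445351924999804482510908195053665529249249370159184428832710144985079036578000019345640737086953761556256485176164873092119060912725810449944728691330039273884364246206796801368692094683809042201790239460240068357488644261875511400668464648032403075293477208824239561571007683034794263842100470209757246567752368240040046860634847309635902247048776604295967992366410066890977716006384660000561174616143845131522086348667449590970278314535171868921530821999441155136083157290256886107387698181292270596646437124103086340676437288041700232615151882626290322742193866285249325806553715796910227061273406151301041061877520333155457886862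387575473743533068268979291224208260933310990041823097024868936197237728483181781173620783554789428829384434510470169668024395290081814955546084440323182218605501848144988024472629351552836607161160279377345454322857316389890751124907584881736449386842279829535858674316920066853911595418261155148717995871491599564872367925150644108020068890348837269286335027187550553604958395056660701524336116263906782794712376434637451366498551899937321524213259654852175146405529809014052475383994285559387971154346290461980071007285194736097587916657201388614358982863485827178014612703653391522068472563749590393619845123857922009545261355661368517866883546413301400694325818637506936826574021056539567181949824034188315222410269891417119607032879558403049780624382094238822912178734600561875664728183494644055050207022394554423154764443044906899315782040397423911578846822189803182067380478458763945970291632908089703206681723415888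471451283658687336270784703526710274500333941556618293008201859752751759236839495252747841110509384256647447192816160450594872523656994221049402829452514278619269178509879590011149395657249956716200945457719086869287182108007820825037665447125624084304048032794928160718133667041422774222144108572026972999080393074220414216786781284199164182091668340134894752709974731880048707848820831635652769333214568609418588737804848277438809889822479192277265406000560754225633273618979680675526152884866002567078944914136662507026966306159103989249183177139424786003398216812559723717161168937715892008964111426223704577705173726300980696522406113181002571095989372321494687668261185398016204383271937130928669681579908126852010389193768691119473791673406220286308345894928393889087655779625685045184716846496075852001056264721970426152680078717581577185090193514774878330381958697695113307729481567339087967782633819604002039725771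376079761775126041229730935697176120863365945075387482030634759240995612073136270631178660814635032923047815938695914750567827250641813899424794609825307407065175810774265328233976703156835833488580381301164492761552470607056354220170118029847044275497752762467979592236988488503465207306956928893151892349557474233412734937006575351491439192831173346038681025657218253900538081748366229987423979592168994838124744389108363901012264578953294965436195560099741460476240587914559638647016071768450034544516388596006426551522493057299878285457831540514066937622090163458343387629126054329388208562384403724570375896480874629411488843250587486817858803814727925582368011344536043264926553727308490515313958178158382150776245037523538975016795178865263276508186517914071863642068282689271314903788058339376130510787338117246305446832328589908710932065082642715918293000944935186711457201393343670850196534852800029833895659050860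60561124438811366692072450724397127039991039419515934266360671487440240204386794341966993334538440636344156222139056012027656705152773772751881772125892717446713889828368419467842178541764445355927062941782357959546769179081230557438761127494954476885690404467174934511345182697772186242489283059863550275370428278968658835296533087733690804846109279081481732917844582737876999542502958980910850429036037218502451849683810477678066055078565528685873994151928736927097278218415944886154070951913857566145159799192915148561809316777374970249735340366522074313418940803613549777246540086991003972580193029108075741765206015857964820305755079869976560567285266843342603802836291639740489394075195843060609749705393921073786095381824325430869209479192502948891136778580840864500894916214061626201068598406237428827140107137761224218837347819064745038736367130725458363336966575756872917274719752762865639029606191227939586048)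

noncomputable def rc11 : Nat := (nat_lit 94015530278001045134082451142233048888780455862924403430127219032970849776958416507355321071739271258692742445360851854023894332288925621830990601653569042801621758091511402225762093221549387496852410400288443785422755081397888414909398222703897517152531729393071380348526699394620221766124946502269821338110989531102448614807527356558161392278588878535414619997336310695528144621457433849633850336608404567066803877575279385948408011093207689866047889711159881452217702749410342648453358693705958349898455018054033218110789816162275224731521786164451627457989164599664584154866448142951061083031035007669323672721941845659052024867771865805794676578451052724718580935623668149423748209331162644060971703877680697885407972022405859024910924398274180847894835317943664980101079985435750815817171125222598287720319567956104657089737984709362809147709752914249702916981091287407395925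521868021468018547000403888280163009855347357310585191812665869123287322335237893043213044805181055949427044963974987274210376934510928145559924582550281764580088167419254092030498320748599899140857249166915793990866092239390261495172658269018323002842816238668719980184891742572258434069752664540041593315918141067493041077721164097478465849806771073505568744247294120108931776657492955809906343349147004215854666624016506844906390848936887373688884191482309807058633811096497296477755897534985071561184776880681858603648363788175950739481879000582524321487250940968138215717012395070328999603877400405622338787230913979666061758870899333529473417810709669479199099905041083792208258591885309380842507438799497180606804917899056556276926266744631396746831583041253163179226405309599471360857732184042850708633746812924037799499538665121610458203590124599303047234071141929417108178449696726306134422235926265192184571127917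665855271744179774998653202448070128055054675273963368817608407414336298129020005242646786239870287760376543653761030759599090082932502221543534058036291722333559967784861555617367234825260495861846808601174411607689130481018617724824119479621288648131643863323797341309589779667269164384252517574930485271228521596549496255916929371433758487022407513779598113805703021736564150141907021247889714678204830980967850345884107354887112893130714510199806516797034579697515940308853082794659977159602780411817477720686896909521865857571646157925390053512625310916130145463326768476873139690923877944915667822983134450843946451242314636078717945054543656140464024083371921601829268167059119061005573655785894363825098259448967945401913947563618620333227157509886174293217940365198216030200159395136607122887649626638877366553156739457164660207316140694068666027662257795488049940819522508182401531198834671988527634710719710299290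037507107739622097367200824409721549412371764220279218710518876234113640328788351206606780242792773520340103186518556994508305910981092867113793703939955481380537831592095184026760074179591526247058488907555767915473028410472869256615274584973282877018906845409998516518003213825530296689472711222487435136168439260403832457019616764261007098338190071477193539583796182393420415059369303997825071731720718553175303648835705904942247182044996029237816582752964874803064273473105476358597813172097660946088620730185031426438495371269622196080903309951776025549292255706233218342149734916565146243564962060553821742044895060043996876409661279301744028812909990980607695537762226483238768978945076202195747062906400875533454990315288137493778909493584387441844233681906432751378318000440128586681892198967320506998837737092553367219450375215735946481122122851431879500676218214786957539798850050507126046093462343296650800451600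412970605655696183217926376809211691994660338370465668740447549615227502750190844439251803720715512280517192331658051463821483878921248664073851160236486724467996227866439619825169673849737880217971796128868694302695337296271841146448267749908339820274557114522539535669875139440720905394398123817088040381361973232890298299023779325018820015746924682557856606506820712305575144304472127171509846283615987453106510777018198014780554099992733260958645047517795284364184267142932786712220791921304420467127634360105274994188907929923456409994401398011561166342420386770485805122545157201536545481940473400982633746433577403154934305101940737588406357180019944986411596507868888980843504507536866450539007060589628841182798012218188824623826570869586661846060970945317926568963978001871183051643490288019919233025353158862008797352470090808692661273173472308877711643359233200801310033132299661993439929716430310974836132064349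057925012595741297781012505506318106827925077064776184286843402244890434452651315967697330631062440728942559345179088820632633791926362560906746330322446302828692634737739493033149048520939332342926401111976392934307151522182549047395686076877158677607657758908424749154915403762933870488098719437224395458561499828379722778326643578691764571604742752238665260985721355783868834192051690949533619132968772228996931642131211836826107021761573908860922615912033035834916928352418072996746040721240399492843584051996177295642042865605628322664852246375942906348023148932004832973084690537471777641887174383671024171075419674603797706182081253446892987536785676351206516457073580482508430765061889490962553719852457700075509607933296889456945995305408548636939952816859197550841470850035001430376393652179442909661736412863332717617339586168771302133387599442412295069631968521424719961763164590228257779452214984831796737002216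835483989574837357314372164058808858396586190595023160845008541419150467319750391211308180955639893636879275150784734043507002855242455063755967356682110650151395913713361100783471146854841041780862763838167422243570446871829624708838084856388447915828486778882289716427911608259821148547867993227002219422630347461817562563923973251463101930591953308588421081420892878339493444874693305163866877581504419623527941050441646418593277834663444289036339364305208645408781046563163934140314431700052089179182659283818550797395541109228340950043653897940501759854431852001106849067806808277235943846576138005236102748637111000591710093202493330391408486341070532187473804096690228430779958858637399269359010455205842548472081564013225252035842589274014073467477879429100602478772658336117472191660268584810120132286352349551543985401852173815751779661879187832613172771341690698086724064176041167991403832141866339131359639546872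012290312501289951652630721218067696010916811297406584999662569482643472804423259657609828730795338007555280118727337643832390752405252121666628633827354040498650891488514769467193949843111743931628344046882612999301104149361294859376859933114099843732492399344001755142033143344155462524525767807883118910245308562323580780062180362378444921366550894167559901094176140114078467941657408096984223825388686900542720471756303727677090446897549294878171098417949155833577374748869315111787636155736411682595969366836647520532172630016399442410021809693451997047223148469657855315966749025694657416439014922309160556635403935489857547927334164894825865035177743173870651168721172910980572785569893508847275478967294193232212868066340646576154894250758309609228572417505526716165523864318798588706119156875089768287320597483886807403542667868120262076437163965183827618654205097679237612100159240429893439751813856387578814738060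187986739940989834082925258866472304474085682972011411559547399499178380869021410503490733517454788460980214551741944039128717611718645503695802047484163388743411615375320166565130963554918652639736720290617213264859947843578537658712527991291216347932313238101508596644644670341724459543574749857322477423374029208121816630903647745566047567199729829840076462241816384839982090717915716434419397995124513701508237226012278101807351838238376348662998412913268506830773193978851050886054784522363281124121807137753731134876924123260057279883151049444113480934429824862229777979756806597682488012710425987225194288197943304932531364362533318565547085825858543982062798172165316092115157965530943647771126196965063981412896971067751827766882712394194691708843592209044977966547015084890691049199685175492829104377801961719928878972232295047228418232142260664853417109672793139525669564881877932926081388002052782089168632694620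05610094423395414423883175074761898431489771655591751816596441774634576519111941329127695582277689947482955048399021631889200223658380344270785284763875148542429288237927476001312250327741809023393172174064231300849631587130896185623679468693073224698812610254191847810278370674494047523055636996599491010346304955489200351289435173036125499293556069596708020957148932238801240188986769923770624465660357259920906631258126833785071336987451616572382312539651400722142753142129395671068573613033966666145931181986021585613035473480267382173810177874022315853789703024642995901369797594625937661310109558107175048095278374118116578355107596239377161100227809006251972938175810469301379228010320828319271948759638946612711822917952768573361980807595009315183926430283676783851352454942170708059977687144867275932564797404977444947760662748699876081036637420394476722111850077724126847166817947067819826424158144419158032384)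

noncomputable def rc12 : Nat := (nat_lit 95119757051769148641162370695927601486177166774888567529062748030680545892208411957458516165238865886562646017242843505914846587086742352339865183982774117096142883233339791858453084124277610364888119349593771972804700251733000523615149548770911384473723295325261465136305545298097114704373063974948173037868505161167338549385663941772453065333362120616689908399785140824363713709375044365577659819403910063711709740032654425518167344963001039277197142439665133056794540958898904222392408779215641755003430176848171440671822887275556384122901953107705664120938344596871882852281623124518381558405338989683529987820791055336060029330023236450516534456845522807408181600010029334355798441924521585110174678376470706928421413600225689590185101728770291516030983097903767290340671001023505397133700087625180577706188351252995605261517280938976955771136556294813932882169197345642700131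542283674578427404214596695776472943392589613472140672173871202232882174485024075568521763226407475942555344159772087578899644061992084710752345985163724608745681741743315126644747223131343836349827706673470753504150617081361121655209884737273554948645401501098742049203778291208937571535183423706815587379361874883249383129504104926408954040421521362754097283642218149413249073143495047455361425209236912033197618211463493430991859703884312730575385167180419908965635267134494077157884800634920029053414430732988624911867793168525780226793050488636246903077830035939667644086631606497306270621240351810080017264995715143312308715412524538211421625033756278715609274036032702628271202736042800346466686668688632898745430440099552999637000349929572692901663877504270730601650091862615336806250173450834960776963346085282528558097880727224753640316606601689986492706389714800874543550541158643193009081698797582741337845622739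918770479134185110217202635619638861492765905796117650145066340553851516431542079328250732138078911908722868810698056715175670170130215574764272497392887194679174340585803422227171018970985152212119062799820091342233403819197419255737161314392219103457962001658606064249729461530237645539346918150181368636354803388858739692408801262191202394810910231987940701093599541291527137715142653595064715176439734960995749277440818619846343658997164448989338474090298341266227721603766103010010442326753800632565538082445492995704948436335862840988682121014525871687758330513796122014426990809815439909521400323292100895107495619527911026485150709529411822663482702523804473374367789516350864723049529207274845000813331848574286418952206547827930989970236781037858911552195323613625920469753883884552463197066867492225605966987093390808378057801483436376838958788647470560218482830094205410335476396327420595701006587181604849936173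919399043856024592211245078610572156385290603625683463573109192598755039077743501354190673936086039055764154298766759905926336865393698265725252090177481358961662824491056371372650766758596857371769483768862129257498181013556589091060556686430122439486642350478252244689620941648463821723054349716345712398870913547534680857997591591463092976310643320244455483302383333241683019294835232342951260176574436274498182994128671015299312172660344013224729743238317369064433357253518646071129138155890339682565949789613875701797242773799765511308386765086631525500758909572603295610617379193207650998499536571540601018376011022656684064389388121757018597562319090230918902736519778376187491027228623945628969379982856193466531999605865204684317323539328605961637809250078354116699862706970030187589994534186204344687031437531145336125719523041363007725113425450523079328560476789920870029419598994402768471645862393629440616687126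571692675174547135914985398796653681954085396798350379093385079117929820674382108365578543807199186195780087912645186265010481471321834447034842535922801545774179073667952500861140020065345424040297467098135693246309098699233972389191580813000013792931729935990624522680340829356131536939784552034244931892550645445292769804269758900885261793323687546605323837602501090270389755202391449481144262065981748381085339809022475199405893886746916512377810801696036886441439923938301551405108467192790736528971909704478553430255038280808440683530308307123405608584676122683945946649214087088223398079328264873335922833424241715041503596404099681125319623338840747855950586250993408578894440589710897159233280026926972688210160272884224247023550923604778261108007154932823788268906551214018603678334899757018328742567744084709231573213360546025456229315803309046432380790171947441750520856891779974229495815631830062040991648584019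342237349249195222207927684683773625458911504376843388469723392937319772751100414578196522580271966032076809495991014792724838403038376436163780616863514148155179285600948586579833143722828971859268022062005684198671756997862136444779263366540791518659383859991539437498212722818182412651541343168501836673619081886394248614403819854849980866500834579036978658336304782218050610919209278220729345310845316039569195093107081490587326194186592720016801965700246352134759608592128200112168314864608835551939676438101844564154101724385425543892722777087172540310163428144797718644707682074089948439058208547607752712000346103993315628571892952033208984741871089470469490650309841679351271487799522301985133835944296600673172285192883161610659977333493406088290472647578437698885690497013420716602931056062612854256350717116194219686463288363937379184492433814670741530169316594626653844905833080496087333594335969191507100254805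919734890836075981363241822452135833065010579224846142092388307013116606602019373980498602638165045929121413689317034289604458402775803455507144210660999554484070491136956487899063560487981261528953695434676860904840509621506013129268414948555667425330981184338739101294745582406024086794125015577988207323523273703903495168565412539927338458135983873883697322582840670810527558675840158407399885701374248988326371672868222585830661277211842797362682176626724278086823065748904568683147027998445232548738276415548414520505541160647672470465054182349233536785747705762983014894092059516833932889636287947684426322849084447632458646473547166848434470699888087381865266540812275259572387169069999278032591214236165784157850766098672980766838971489389289810373195933801444919434664226722431699586275602910506913177544540292233786346425925760328683093895750005194943152861317811302697340231540121216724462382029005044660172202924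817450466221756473713479091340098764854776131781131620525131310866343086730222205536760597311359964604819256006954604006415786505753601858839621214663284617710413251474507477173860173846094179497443133679879518661406607857202174556091470325082483304802466062056220546076742659641980022034378966767165420082998618085197882357695827720924697203638360445666418205109067745562057846036263723085560582936689577903373026024966276169241871078037692745902174307939943088123069208304012725494955922426593709271158184781335622058184461312580703609666463189314265160458463047386942664346370225604851262807236377415576151208355308199028818520776065505695111711719997577343256788515893122745292565379449558235765965548230029248616910239599451206885042500267814603908841543126256118349942238246709826393495650660055112525968430304501597408747984345707835230756044305191297838010313319605568555218207260688090325081517165777752049947556524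302730751636289194730599427335172243291648773938029748725569264722835529290821311802472579818955410085899816282849952061731861902230134545871443483290234647176431133974399017658549436489284200369182780440691204680091838216688079998121085894237219799975863976967751971309741506953747295877323872708901068660402225273384099405289653174649351820171440981450212010075437559123538609694902018559546613407693562127825705199728730676630271589355193570211115799877068243720692472445916261064889054766605340117223349364541651624607933104498174132612474697057424504567508656592323723463930273596756936192289852926524053093693195230711872464242345729188449703448743590945683224295921059098186139394064482842363634326876366506770883551229779272986636618719097234085925087557089672172632810524867679305151506148007782492166831420590402674252768347633334602130162841722488086274707462082503906767807120977708967388866021265548011287504461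64379360021955451997134490960495547314388574149670261787679772899057444084745460362240078434424924644546582728758899927956250698880547166080985703458089708452938943681635149260867122138420589186288111000896872550383505003156068359879347482239910068861728482720335316526979708600930264991168150000600330476826444618403022513095853321777506024066717456940749434435257187584927442263368357290316146238841565970764584169533841377671492043447021277865539807216188072392159505284787766636440600637511874137340949438004851658652462709148951792359225381667709262704561210536917939885702337294367302265455490144170129413428743129371296348032476455342589502663035320195202500006206419969683032119360151811915860781279883391188159418266298953654808537896713864762661668578134240743179136545370826464007803316975296582075929181797383786265814916190730400402620331826684324990247965067561556769442614408850171590804471533637623349248)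

noncomputable def rc13 : Nat := (nat_lit 96215309289757236383142866486504482902164947126411315123504921873208243479436680587326133406169515527920205134337312739574176372879961058560096565106288340694428841544021456681273342538276990207110678570683802476988229865405747269111560413493971550224314433434823654538684817510936631449183324177099548685846406749348208854294425003410453608995101905414090284003883155232322715978962865496121386535244149359743503289970784278012020837233765913951144722822796692579271639688423808851633666059078621031984213673905508574236583310431447047643371286707018835383806960961161936407421589359709532306447285112801830201769846279099864508724468448693311415097699909693083638497624146391578167088759931008299728096135235601067913977202585224090130798854956987476312786832735859585792361795007643813763239928604230750820492763765053182103969626119402382136239827796071136944662261100983429901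593051700399164714012374789376014975701367831752930046469035004106163243739553832819793950873543894121717166875882404506525961576329810097870587269147616399851019361542549290872084678750742013323591786765424603376256807418185004957966990004824399081253504257904156363838921458416466781322449037629453183652024265776434463444720667569525882417885056796329504968252502829245353714685142610823059781781484630149747843623095934059440916338143823229571814762891539198722318799209364703964155788024019526380719452682165413550231605860175812360635591906011764766798347857764503109883776820323663889299645987755862900680790562660445397838843089306246429260763435292072758199553546956234761470420220515019280660638432325966156787864882044514088288433212386948561918580657256503250636089626642072779147399243660133380896543444736691371442328969337006339750292665025165292580535408918361587709570020365485693768336168680911991612778393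547567847096236773144435117367861635173650345599413718261653958957310931329664287564655527478719255873987344922436970444258626884771812179245799377422836172991703426902930896410231261661312458470424197885400422197460623675900959509692490503058036222962554494208306175420145469804214798708694328334800731323475349057966114263334692263169521127435126363960207997589786554612375494477335560525248548376798393058828793321565528792457452674821273454668587220658881952652087298030009816964565103399922493948820803099603799903930247622236898803174211029568221973659638104433134590150597907827496712387723195936716449581251343653489657545961915155535622853155577607652239637256388293823734652094380815613372959932052247734547087160227944589530082567595392681468815175088073430474262298079656419584355952683838612493961437488760586174278251333881941266732562680045901795340595873800662020851080572456314458888917387969405022493023511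296206323606276343969357450902420166253798016191746833206799823253933745927079377770702295912951975910669443779686245153688171303763827628787736260028738894135769719897907974213679201465240703228390634873116802370748410073648631242101675287385438495553324602750226888610538898921454353407437858782531703070896193577039481671312962570237330404225806152452422423547111333683621792775781218070461571494269485167586700238876097980190794102181415807087177410019346510894778491901819693487311748103516298017219964233469689131171514443382273273349806078181833742374952532806787290098744305926704745317187279518281447700438301231878008986291281206906385002799256275287545512326841250029900005282668475811515834986155259621756650622928934939780244429230553436225465910894835184983257056318165365551056989281833471165567092630393323353163864226014603832626649582466933198772473260420197161601766878771487643272451174518611632928233466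550498287885202930844893808214691484882918258004979338829330729176533291324343834709952322158913521923023664794434421939522075243001534622826329474501869590867612766349364332376537613659890986124759970981579855018401052229562127983135674317659467136602938721909056995943761877873602303781916446049094347425325533283621632258855526499361957895167904306116573978017133593773887328615725627944823768074465439688189056779568086115140499948696729461947270658971821851930867864140857988667072437653609573655398398119552289785377611622857188575013633765568502251364894492043364000123943875497555491631332289171856572206389933257269797751915436411504895019824709706849095882481539614875022380453873916517957781928678403948263706779031089800208432574724087513746753085861272527207852362521499588049024802565940655837400575834482420883742606685269742443201433231014584788013659849394407829972599118204063678096225881179217981593735540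655315627035942730619028460532817908739337553556417534152508248534161793711125170966997559772029366946555613843361635426459110617751547043423266753668465869536688015514999412495412190888083345715488779991373710264752484921106656962607181049687810861310316939611260796865366442881018176221580220391101603547796293505880216349754471811820010397895003263942366431231718797397661031027938790151559924096897850032329077049484411411004679899253308247015449630142664219961123868177054959155024631078645983991493228217441070417709050617637160862701183543881061739271019710348354551909365924365734859729947099363985305147998803343113083152075223952019636602007006450345179176130395227495537829782724780375480650294464056889032258666181860865198331965217927810604398057253166059358627834327141415999013456589957982147214459272017896972498194303482341820499623305593102195668640292022067099132481175501854599851021725266426263511149583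614119745371479478500422805208567919742855842383821581422798846665367437980334149930027647960019235341853091219008994363651640405172328896014394847992498422799554508508651835257529536790885792425418230350628013505752766522151318437717227568740327628361518426074164895747755151160904237161809836408984028680846752807974977581693156249261957701654880418993284087563462603786828756244426954743473068108483954172970065680245171070925613917783581606965575411066059286847465305852895748856000584716644538830224241799747046338025248025090347440149429688020657278889605407641454047209560303602643387718729962368063030228387944371883913874021756357121305646900788542869583697994709005080389927839336553412045691843982787060460904203676123264134725645061197305070162166775162791111942203385259187916698993918989989435806864575943647016054645852048074065920561839826576575628473618903162487528687073744587491344099877362998033362968203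378713218449603851710386252843729083953596484820882611458653742869266992618828238498905643087210096864840875539449426709723818615546439714800108457552737314727112209502143792909676476135678590073443634898637233809948096343426072467183951009331769590501381550887267577814773793125866482525990293305734223051847430783743023687107958299774683395419633815727609203490903861439776146747733134189192395873637439200622497167945457966287915142106410943392881203145303565043921251198964432607505725002856724853746897131443513277694377291453516219833286348581675707421656887681223061986561476105584132732863855026271993798843569208303668203713756508683492105995023682700423953819475747344375834531772372051721914181629741083463543842835081627401409404054834180380055956809571813901920061026940534538862409546992017164040112830729288773117129091622463955374884245649926955768714559419166061095553461229547656235418594435142126129525601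307803842416681445401351701525508913812346058260588969012986552887827363501360827664596148929567702783393839070361104552436694539401725434975832665330687437033296684253877519919228773376281030970939000397475143758176563132721429354647617422425043724108409192804970057846749065998909481643731811943108634159035380756746236211002010630133914443561183626657084617810209480059735119088699165754920828076578123899529854156140587671606358790151291754877791071661684641738368619541211004558078276376670871523057789495422487892699322260883642353668614806880923338657971870332957806752655829016236097409260385720914479858360867085961148795623264380153725991915170894685654557587729225917813521914773389810780954256660445095998564841700012076378572979819577099821635329322675742215078710361322551839535507385798382326979504676413418158905968369536011636455822885448239472292645350336710661375390361625781229887358223732815903822965018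57155407688617868518402275565195317519676694801327199620532970123335100244846921457833162128034519451125494719663883389973578430386823017622149105471734827638780122115192968810763527461441703163733212226806698395189052000883961736016786242405823556510041215399296720871487504327059271821050916622644764789324162854424077346934993811935036270373052013990573535049560322283317632339946320987776959682725299221231339165203705763933756464132918039115675344712241143858287450767728906714262230111297855345386736091128501637456611207306485655594637189539929670470619023206508289143417618265890093376530189559340837797942378938824124216585198580397458819004542272411548875780820832821880567646757766446287884080032498033268503064034373055455462777056099747992788763868956484326051335919822674500815848690326220650316161622735436545328928343580565270164190787482340085711530850516285253576510140208252611949694089827550066900992)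

noncomputable def rc14 : Nat := (nat_lit 97300300404492591349276310631504303897730780022974980975180221283971762935993580471733723037674226091110624834315214654632089671941179628332217752790071212104614623356348661645233521287309059182857589929641738029909837373323368169868673756684881419486192625339415996533605837640745530935992080912415962483257869404393715475169882244475434024914981224379952267461786146786737258844521826080289316752331064581002038274649305551884385005318882739833847484425702104087994239262678398119863974344155333500134268213415610559883350040983154739242525665181081942796956983069283825489783769731893494156280854514608003031514244965150082450146501613244599729514491786122152439732413267451864074054053474505974260948356272239970113035561456728620055113780072874922842711234883205298449612941101199073725451929892721506523232772887590007441011982215492754489438720298951602504203177098682021742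811570230447090229366960757483510277573472593704085351541563717947613102978581725874973683982379830875878478155588790512366018346939315315803587791820746022193489967897079336186393412436693754904593381405209195682767968116968741781504024739046351462765945124675089439834556712966042285914022164554401438585605976502004354607554698356981450910224089023678224207453193186989312292735295464738177629265443116707997479554424763985706033787427916994532009876532941621517892427911025262284365953408349129553579849854672856083012548838069329855410090647169932626604348108183808790074333388144207113377177543788213583863536657880460242654837171607212753397715955499695754207790617405746395616641216432061787863035257803038219771561603494321573187087244590337016507702592512124899550117899777092236015583145560297504223050414602092928749048594306893565527908183754815358096641751433773498167484758885903576906706459118274086343948405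706014267578928591946365302265077366297472866307048218771384486445625257012012472963598999163471723888112428191790608687229908798213015908006566659410721599286855266641656011945083128784676542363618599062691929896671817515386928280207533462285460179266436744012459943029822163667314939196114305411891408282364009048969858901455888065669478615293523301748138541344301723467653885341907168190981509244646362722041149500758962759499083893921123337307133853281238666404217754150995976047442747992711276639314067780030434079364994036545649210313053662074496141843827550310751205552852654874956012220636399949334344415724502078887855164833469135977472301324787971832561173192151424718651227044215784683093540181425510103107867192097491089670684631782551077632128820127705075747587586485984313026361732899128556628163693873418167550802920841446514133156725480691714362774512463174630293960172623252753866352842322359418388245942554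166011028096334494582911963205675141645540795833537885542788162592411059326487096483670980992790668904133988207480829354528515595864480366355521739233991484732792313652899287744360056521778077571075199103283054751361893965813614542835984577940867019993541058756388917044121248338518305975504463094575608592836958396455655998470040572611498324719163189206646209473304806066244051063912997894163131302590968858045831045865022913684473323132507431168351683736430551091690909447894353015520207515730709166751820919614435535015122073975901090225643631023473759196419092293164634249635886110631884631960126826835118323221751040001418151787964593388123485804068229993159187472407262326861432073455651118139594224934344370987340263626568125766526334468947522994436500704040228078911833735464737709452608735832151423294558389569118449750055267558007436252537744601725107673017913202549926318435614217965044541853563603812338704618594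468776694757018728705965098677906950711000108109167833896020223494662199176558723338545402495587336294404508080272507413915248291492420288997283869551306541534297865552567028186067938083453618011039761483320266703389638637384361836297636455627705377648316184560931002183858886100607546870002732617136170820457910126479372241994345421302092005130092840528993532631140295316287743902458432566906616708182218523661089157686748138388001400451821104335626474642329437440432018760981059067426965268270090504620316208753395901303236133593827668145443722530256807752961592167902930850780354718671462667716495735872412953391912034970820382366577077970408505522581158457820715632753548675572123778323419380702059336353159342955271206005240884424911316402275200328194235674397816595736462124881608995579474280333518211515851100497206741102069777092342469682212050980841584603607801896923534842117042002060843745742562154285813746602009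969956976297165767055330116754953245329582415441384940652357102314296272206322694219369154328876479256826743316215661758775045974824675770807015447134847121484834149102010930812545786649134897469887242866829140652701243747937896772557600837079216322081105752790953427480453162217080866347752300038873798837956554235987861330830694767785576897528646500705635729004026285874058655696664633248825540918099320930728058689589336046031503564829781928566316691652706496662218518645792873948490411963175362551688905716977651233668098298373406376503237305687000597292649739640316505916117094863233645138715383865910798039861368509881030334994542105263640519216999355523452773324221489072997540372987129000577146219151853617372497819797240092460108153108030849165373526076837040651112404841890050164729129324861839175340099085942326866326878725852485502248287415984118487601018795716898437155769904700779835499384439110193503867401865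871804308550810267944101545073349887804452508221980656269637656117271616156479541504821692142536535778174547382338887032523490648673444047214490572544333572734256162391372860977058319522530047095785579744463624385417997355453859789081856749698470440558622615742070370953411076739291915499380310599110278707132899163846712239668621498478682339736248389128135977474420168411789127469566316967853645582143165958134376601916755293346660751132004509476697101849745817155826711103340059283589970114086386067113957789152167627025971519915354163687913452352940576314597221714776852597856833631994600603709283739702530318732382755465149997047665335200988420464696323579820386199588907893486417878261858204413377008918045862928702965242970847493123221471215951633520226386450603391788482840058004215211619428885222298944425358657905793659100689459279728307637932681595718781280722199817534207531496051594698629179359822665220965684953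288056437343930276846602323109565111160920420055314506119428288356181236240477355559708005355451521425022990743215979807484469872123973077357004347312731337037857090384665218830181542679178121994786433551555361398643899417082768034317461660203549853002859215098681143361481247393314696053995624003755092339212627551129632778902667096657127932317956335064256723816307522122858793794009026075832417873078758345476625913740102806412113536522264380826536599107911469708941366170039679922028897143151108156188717282231933497097088020877756225155328299887959066779257158181792690950952888423414335044530363972453876992321637281424060049097559394026355358461361901261853977249169356114329252339196205697774582457880937859518432089565632492999294009652402961311000996211151176521814350458429469613816152825935916703189916629344705018300660075014413528178355030605791326430044091183165459380666254443685305527447931507069805360929723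167154638927559293714327764237316761583706021555245355698862375951961176803719002481516174133463538477024221314628514140755359319178218545695381632422495531169536429497063623678245960533394838573461032524216192646585258217727905892244380418442583432417556906345734233179639972196330155308157040560940165915763543816378433574306916127211494668794788845540566276051653147771221499593371096321872750995925602191895448203600049494826164901455784660160703426187336464523540540066451358170393276607769945674422239286857784249717684082816152129855868645161118203749716098230300820579007559972034626991881005955863679216526758038617428290281736374587552280829166092135233721741991473594769757441738157438877611110381881741367553122435599991436818165523114759938111696786342855482447204129006910289520108925194970864643383313136705556792905165525373389828666215654499500787976156052545838888430392381198760368323170524623736052103390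76223134112940843648110977669000669124809824715646953893513746632454282791653954443696118531689123327281001647526324020908178260082100568641253171121744980702782434613548382126470647384054030446580953224939085486283989967318365781159942834596855382902165559487387710766876539360682917455062545910572618496537845433784453169875743443280230598341215336213525374285060604690976480855413455272524598079544031600659295554487983740478087990999220096442933595802998965423831685160079115831983968691187353912635386724068844480814234805205985529949260175692711301924265612280581291445806124324664473111924769049306930139143960942996670406524670922085946509601816523250415305926429938529671117266370283428310211692825075287822556605420481310454977121147248401651826281117222968533607412900893377761584787130699741572622873092441296778678026226596506945867947724048605598531719553711825954620856989226831247350045786983123856130048)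

noncomputable def rc15 : Nat := (nat_lit 98373017801234769278743619084520116330979019809045276894419042720860982636428653431886206000167460757497751270040059750890624316740172882411139836823221261596847101225907731233105126220286375624544576730435253598158724828313008861954209005188450267570970485602188108176486213404868646484951097917628661950150755443117580617587423417178896780008723679504275919928363304829531934923071552383066945593661193636098239838174841343623447130895493848326650899568732318631813326473955077149367369726474406042239177022018501600602785053399033159472882537681948730987512854615802706292236547460972963042352575480461932728513207923986404237132948923741067357776216697940076847742603943046759092959817183629968658446256794959254842881214499818939263259706382197862167393813752599277298324467529008441506888570272694477999846836192012754351503500614477884701106290061472375762868779781073821624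215696167666000595249332403601839246436723413117714424253264077062363734310119238007679902707111924860779891944026128438881151622019829610388498333987972939486779475404171790016476274871324657537123438600949554800883210087356589868574461592511545336578839043281364139934686113048055063911016812493699561144060750696137715241598012627040096048487075405100922355595663334047337997494096657404906995876094374063594720909377352230853013060034079732556910731521302395855505882490147467022452745610908168612610943728962440061996593924097151191269532403631796206087188468665385534654044825713371897147465292157188066903935573394993341838445482696732844059056781689436782085350932690138391363670221899493040162511528347301463593619330706995456978204688197769413580297333053647643657664643300738389093945576592309106517271734276118872881560746539962928667337933312381302936866307390152908348639795103438519123302066737071749937496894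128114903662220343091975102724720791764788722398171882580767092762542366192116675521582608522524671139809607176059735267579172521008415595706425524773008222535312331606757171426620521255709597033959989755151588957225029974208082718688772219117664440283890760938454174774597266938620720006647419476174993253447809964117473084970942297768932160205635932761902974109360942644883383559177247591789984936109110839103566557100527727046461582603566966917666691927069479372979473189949133599116700215514601026871392500442217953506244301103945769454578819570905161295411919523059395398337323592747249629677378340424314600071529349002618746013185683492887775920903796175558230918329353062546291534029650339650181295408063787258976860114396788951460476506279674947745399658977982523063230139172848261431470787735390325466922868754598444675335634573137149055863495874141672718096713022089614516470153574423350992854385064768956903164828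234278833035625942955129819669007093473346235314411145435648189900646517911522101909326058469013297318863025018991264273434600811088462559097984922838240186985471934295123801737184519848348804953820484093860754420057569767819089096078151880477604180670185632571755385229800319454039944210838466148900611555992988190835539723245998197623780482529120663587723911884781500355489481400114065499129187910301906358576611354937618266701877773435597456180219541139687613510710342981351194543759385033636363435004782173360412474209949768139194517433629270065647792363310082139413467260682086507442232108566253322199929424449861449597166421862023839290635884598444757655827825299921875517258903545527783852508512730332621732443281955974083980870491682260023253773466180581245598150234399100294933345311615850120413433364059029803894120644379384416451838883045699507564426062160741483428394866851454976371851202085937420242385128948558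314372627991921167306709703926741653918157676198042005335354561049265364677954198761287998530565481073441817686324016507864618850298251187865127714318791917666094309149160759510885798123719456624933927087533669157364501952058170472857736385191573082389383169807792329654674751052401794591800240706289751850686644380076969147327378055799962353326481890584232290371366637356883084949611972805920491191636252360336165979529831260571520772825649439642257794594272520920780759207663587732371763347115391013194850205544467777002963978305107568724293850643696345957587831215704689270817364441320584741975396449842354388602682659190730890401572147337980376969073835116187964213041329274058768588042261791510850418494235109435522465454279599228413532725583277887644907006459504069209539054533870874255719505899162700137411805498649233847792235307520148582404982075124235809538309904105257871225874113362083661385391593408147095478238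798960243602449939636505435864964678171854143407712196481774975564582588534132141627192119587500243021326423873406842607128784566341064768590580105746663891987823456990374653113280610993419098045797865782326597107507080556769502205083044219398743741114828027035014009713523296794238596829826511356879520652919141794902201515486026581455340079263782582687295280898423675702512092504621861837260084296383751602477710102194490820529244293146392919293057601192537414800765175369296600200408486231708178515410447508201327080716048799105948981044929812624697678201995401914698238565670808217566627477684700334440914021072312425116825974858276220482145639317818813239704825674654021625406871651650170578584362600605312186728032616696202279309091449122535534607348331793969103989131250693772279352871246713097824521165062937227007294426686420947318664514347142138717422949128533206443647682677045469066955405036352393779778099479059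044249923868356824438275596506092255385667725596696352902576968800577356633355431946226707411996556279806524248568142757101902203115056673482810599859597187561256192107679838692467772472083721689992845672550666300083431714467021751449539823706337459714073825948812274606100514631351212272357285159533197028199216853576565835130185563822641751043352665050897232728614913753588716226586813618146906771190278495864188599868698473415285344335408817920363986748271079438368933899308221290337325482057795251906592528690522720061094306409242301729408317821310702228482164457073197136729882626083197820558440405037105356627772161579822402766124931297001161360319066438958848434592837407563286824959751190264806788992464977096908504094449051307208398474399978500247472287384373342764802692222320930570557284227630509675483182667988959516885581748244994128683182216660204943972862930999732494603363002554175744043411210403669373682411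383809833151388475660132718111234416057003178680107538549147026685266387412816981089110323178431439362193769991186699214147832104349650983082161597231719645376804811747222116217666533509629351528782287728514316772123961756425634438418619127623894598366731112146501671201132618004210443877677786034133447437131194762421296764813041740562112450183919869941617339563814035410487066072212026960939866035895700882274102917603662216809311305626236511835070873444180293447924691310371675663285917676809159988419871091957065371158919635013296523339084707427951780094424512055288424183985082365527091002596644010036414585616929704806935812022933525527434698479062716381971969156334574712916375789314704012687074463757809729719811613826457650391816825637456222216452401909875617028445829362866463383513306776773189129478520216792434987690610719405464661775075346234910473159807861453572108251770215147937807829980502245882574544062714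655286132604973521122523001531836775288842919070087769262603353054622177686812164565565932802320927145386780331494439552503803594298420231357143912161228233918714231597032644745767758847376183571602544661857935055000263604437446661738356711168902769692418312238790113508666801902793280606320033760889753844780480433057346872769081624475124154824613841206085861713502960040883257317662028573457242473065822084055551975422858783497079768404991203586196615435079727221501909380904083054312871786238449438469638205056246036574288900121379787621150502956309971211827347427448462152551378097766110728095806586879011743729444112424022479079561697150268691884335289643815793136235954953225280663134009432195986578753081082119847813797698811717087659053776904197054427788463207233194264125477952016229865865779041404211248917747562938756836828338684494865806622212238562482021109190602147441288371964561493118676421706923106291505867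56841680833013581627096590566008872272450770075673704801034414984063167611286451317679247040398828122659817847997204129117574676893680064205028173627674035053097562393136564054741766070352540768651647659943422375172195142732669681452767140903387438316917847885944343245917015066511692459229932081386145625342027586123662647878809724624541476293710108499086806840308249844833420444697042364522891113301402422399650844763298683294513127998707147607709139053953207268263095239276383743102248601438937475733338758471962822051753483882343766528904379223984377536318518494464148197630463522333867416407811474326454861161185502687784117072422680558598309035104191253562606559460729954370540377700698989195636369546930641056079862449434173931857767890749698378955004504940174763707094508719957596752026376580861805237113949109935978159322161843485993453729115927810080842992539973106617243959518255583400410678987594858063986688)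

noncomputable def rc16 : Nat := (nat_lit 99431949996875715168427993590479137720077264857867135638522614352928972560774874076742471968940300594374839595791948304030408206498186887982269508417723999748656566432660460473138635487984304246120269824502892938916768432368862482290202786629117035384401601604252928872509936166421200810669238055177171460774820259251101215873838715736581114253825294154980783486392738261194803399640514707928547101139970258040465743872278909215701252469385598576950468710061404226289042726463485985069249470880660496562701772145807822013269367212492729984548573275445945142012616795978627773315796306321369063832160821893793785719698805670442738543277336195881439172311875786704890503230456281581032639645887117265987913481550258720117134829299531191250324441876369639631086868619809043438073953366109478652070934123242096467809056126194917042333910240829874134061479310292626665370024561454061332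588981956348329606970887102451571394997189621672330397387605029062325697814293294595253430680048302657524767709645679413000642195639166706512886253671754872717741612745223213431818511507028772590104924808568566363916005124807812076927225001400049457002896292938933624261061662596859405578277584262291597922837750241413084149395390397503076069713111784505459886992664672390715749954696221900529286287786724826294112537676492433622756168534180203565472024278521171677947763403215624418612050352262904770956430167612206816578620653951746429249191205162684457799360004834518887802030059654221294798482093931448130742498487341890173837084314570945341766516148429244394024828614928347062808940570569971430048555211986238178936732299345358105255900409046725772289188006966725206096378123368027943486288178511108941246491407018275134675045957363925570334882345508201549283131056085603651079403292469468980489539736847729081372371485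297432097182870189956711205189058721122083856766283234969628581411983061188543710300357037991836248730163955578290839530461230005637244800401039683070840647166088931603988431013875102586756842871000909537994928588145854047547637260495818408039154912355397249413200048917178912296958938700238161976955108821256197548999027487480913844582400548417034589378753123254027251902443856488080927976555223317316095761093295212077841306871359623080248188919389995481541316916171471140869756601309595439949989247719482714868029438757225011447034584222835322180104275768815977228815925704395895008067905100052400925559301261906009476774079374395570186174356495888051614474511629783242329899674474400039250374580151041256048778146077295154653415779858488195888712517415190099157644728590004400419765508267703836653314189775368456283424715490873589638607375067741362659354183033711033183664884207610946140031252112190908375699085921221110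682263721324278701894848335710679676482893661119058497002314729551100804521323953395997743148702555266719358177809215368606208820774936521272557834906609853967740348114851880319282806878087559905678628323283746543897947483073452305557526355500492851858414093360402720577310587279332850634402669235004935336445565383191927733581668816553069256478377189742735325352515075151355880912175033229217045504717390782533053451711702286988917914114413298147120683489457581957710587324413912803175374028705089122938918249424234502820413794355631095682418086619527607711400650691569095383264714254449854716033969007046175155362850590758918646784226633349279623414088424588775064225812728550887993461884019764621798238118431667189063326755293772515562151430567751732596420598131056890297277434461077070135321371862805089004667671668772896529192138094660623506595607594904010959730649888588713184776489862056892803772437866721888382590682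845515055257767031839624021426141789632916984790952249189646903448445208035792805108644360467623364591273476815999321084994932860823083847735367853385450207492102498842139088955152666358950741986450033886399594153229255095968131877825260001028078234840183347465996847398367187338501051224180526632150067941859272993243959734287028956846641414731053837047402216895309025223644442495138116948700259604241676512306798504361571991059904073182975954785180608804702243287056301460496870318569753841789070034061899110927409651013318118499819117411930665461134129909912481087558738654439535397247395055311714745965353544207323539917389175098125250593580110073921536898678755707957828038245786317101941624075193118204158354949119110792679263816146245289074440166739340364468511102226745045482074253457677120926766478560478655139617006423266692666112190887876139749010392405923785107475180569074481204635261924711451695317385857656287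244622647939252845231336944305773511653255855758285815543637791508612439302146033509077671828440815300655785631928067874088258148716823726183373084388603706068268634409258564179862779234564733099774657089757456107165585203443797761601302294056841079333734863264385072278649628866420509858085251631628724508539817630543702455441674563673418531479496720271288217756922022511739247308952482202626324521532885785499782826382793719861216111058937740271074585350238463750171473765785066828236163448476199578599592369950004419516717552479265906476396221934647413249565211268331051765849134846167582393736109238529218534160035846613080478251006981921123752994871167669228429693486883108388524657876046711892870093813673220582518905441727420948994637137499049577249351907952078553018764238751593301793004339743735780983895511306777079562451586403444475990571089643557949347338318484397842904020468016834104085918099394713331327434944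734957896961927462390806661521606645418135915926496777113136932391450212730491621572766894168676187119724778381815082956883809906667484071575967252521724877673119451440488914701408206109948175488242962027311465055741005164348744114064924772756099144764174283316323841865675496606277858386662505365951042512034036260185568812232306749202425503743574321961900402831037618137962602797751723519098612416178848190332322249640751965943492958805615750963331789984628920902284762829438471467830107825121794903873718853348855013351946257315887635371749918705727173734737704445707877176873216909343947733047281898316240926930707931260334207570269723140689726787774362031087018210394973064715080347901703258250229394862007733888989795238417842841175302620783973903508640054446807306209153574093326912848661845345878452874470030771705278822273197828946590906149822232300556968199193564267470080687698038804267465356741070886036407160754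883836478210929619622940282189123448855235201195515546536077080148327433226026509640278468459821888544956761856967385741777940790291151914471085379534879666201325031800479915414738851666901597282541927380119457905390718486300103007104352921519883218497862855401169657143709219620871601712986451933909487928502507182052625901608194713346632436102825396816018725869231859139176183534089154849492910451597593167978374934850198582630185761105324566762340909832520094977397560061612334265401699088873308930140683003525839166701105843560743915233424643086612368151593052702879247476410639251222427846690350757729833848355376238337371160878923526939428940636372559934789520266230171914319424879686405666592356428610646588158944886762768542886810436907768186427246561570749824593165421982607675061403712074974049457532343608596703738622708200631943449917153720776746055587555673262785999863988807271638684715178256928096683754679669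691988429490217807127225520145472140151719949494741853409199154412831312672748027244335376906083805146094646293190691292249100428725795307996450242075083795551095715642381166406766439226887371479056923622174460964506245759334708646339608170779954314233068016504270976856553661152290145411975652835700757090108030539407134811093705823800106108398054597009565145819223098510481984462318951656379070013777202218488307385472462270421423466395954444037563508956342920289228377035210342795157432133513196557666410868094048721318564015758863900843508768671400142243833325986738529165329160176016825427035480027196748369748490389577065886523385677814567286131331918986126556365367776508743364415566349129178217932477274124789129079397532543177241779869022493662069324134953197032941490084355173672246444547358322420505187714023067770679586332730338675496694310320681201689246208714803716440859852249915245668846105528387386507319657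86778159021607371161077966972180639293602289941306574888282220225550354937987676044488926252597169691584670345200043435801202273292970521122364547987516176226179542987164032901289543307306533588649873457087233294379357994893385684418943140513862238334884671249468057598690952017620972023508631500597433289106019545079868836204179601437366374832346825351384300215962716169893823544069686090956088292070076093686609463792120000783720886823849767189546578194663615444263882258715782009039485125873774391269052593370800913264575719124166729537445010582107439110755268098196591159081270196822000894139039120967407803753210537082330735567800945718477252137016046979943465502576647990099288323806001436126026194801950458994801476280235139279364472704582743122822059166144486449883363975585315780801718683734214463737227598324716622638287355891010771493985758948061284798392388199538339992533434244903504409440946579332719968256)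

noncomputable def rc17 : Nat := (nat_lit 10047576069138804107333293354819720844562720055436474136391793473358841483157732586889204780398490153973162395472359303146194668654154501469328414336040915886021460999848659888654158751884336369523165182831468937743779041439013304646928847318949291420661294043544349026037397298434509122044466972325835888847555292701530785428833859531575279156348946341289782216480385502867114407602921756862431848641060854248005526590248854269505154424447563777236003716705276693836828720246191732263601873115530172045904405771721059803392118644350032003112605900129530922978493710858645407976588616909757214366413821445178297359031120968141301753632097626620366110889321602946468938545372736867943652324711624724570488174999868899614651932752441415407803238992562831508129274602793043867342284513944276967350090702301972071111513315113091161502181138400054077728042522101441397946122748505318533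395911675341284912487651867323361563230968494186886597556463671422318008705782231439469633440343891488581298214759487819327444051344407195614179817626167860828632376784232208272291052657580528958490819077362796714129452814812717679419200640554260019821962639936722202303622768130255355244534274754333523926538860173424188210757469297488810655305069126978802091583071740163204540629624435099559674848321873712288090696531175700974578993693462926699829335532106390727427947381454082540697658821046781466575982161265922926302580287679558609936300925875520372052800381142892813865189970679419447259201608247960837301220228772978519142637648245410412399203180146407334188178080306661983357916250488796513142040340928403810919528349016180438635773364849906113715803106037421357184857297165136561966610623965398653203421921282543948685221976515734736314130803926345892091271216165950659743632133213737529165871614068102891314417770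154428278784556400224150525669129707175581962955532738511833740746848118135261080509453889362130040411009553385106922726888828153408132126162508849993503062251994119792415693305933220355058718020758935863295259301302672779264988002608155138369278368253941621359694984105461818775689063079808142427068402963821719774689406364686619480253879640936093960733081442793089438210917052472980747235209971113467175498228405724814586177257727474822396322229024883415077261253969396802527211784035351948270915701193361919566836766974272471102820297893390116692824359163934835978530421719254534329597896061718650173717840700364924955033480967737269879427301999792761949394452451518241931175348709131450953723158732811952568992329644256378826160888784063941325279230989060179018658393318510829626272289893444498281760421759981457455212286904408312212679499338437541780566597296403661321106261116099817067297679510596231626019949694202924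978529272113150048938670775359309198451766388315315389144635421959599217041413336154833708599452242526730820670164948856035884877845560660293150603920704611436213341609891482195805122272460906731049431556126519942613449755601667221054862235644853178518776512495146744514810124446312850683095370847950110908807037146467391742354618632580017440855541156451694568731493232899343605999221007474708320758495815445977302665325585479623784002140580171080157256205339762190213102970261272335994274188312921603612704610303975425875637386574092474940812355850869505554728044982116352719103792823652921499708965193925107445778210116549044219811272926760221173775056884948746623622909373998451927431085909825305997224336867833901589835585286544756682112444510575937652706951087974319260029843035634244865286662282645330678464387330915623701329125055019301438403743317408889459913076767959942043942916545476582977413929451787035454937191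396570064795953021662909517115271134242700731468332867337015094132567956544362379644044406854490015955018412570065884192905971690675393234452142815596387462406808792010269361179201472332305548564604445175497523392239693901928563674927299596710861984375083628295004921819514023429446900681663606252701184692110414474716695828033218242106633585629911463443861767509331580542826363412317699901931960963231621911711096705679974353101299212245671254943213636033708016366505713857719917000574912354359116409371836201426504564111103255510199552028490130025383279538155840104896832533971136921177393733259837826403529379441300469708922188093068767085946341176872574314789066389757528963561641547168169130245048283609079221172710590344134742216350931366556663419243046117296831521938950428399810277705201676836875726092915256246522606146492687989086385600895165688219990661867835172528576090681799262981336803680958014447383521433382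260306499307300050880563228612071567518569365368369732307451295809996837512586611211434527525177363386701660939659116984885812297504971164191823537766763096748949402603459839327398232326221031528469754340075842335761786811575220390517235285675691259778079587278395473471862004433342212818191796095411018019528923941734958650858790047629700914046529192310079724627894048214869815662447462351075917604021440347752975269034671668289572355482536250665010932897123280850519452149756903467184621758790555437317506277444464430545794176257410470134716238863510937825270050667918816676402940162168862988048749240865567255081803110400904250068201137060685701254693198129170593774667685504511305364568467458540554368535947021177031666019014697209158203061391784468654861265074081754312568588771144889548927422598590443343877526016581052025385013665921962911818870735588907591441922040174824020169689893763841744864240415933269530259081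263829271272200432095761130562583571953548446488259340898648382543618162062779957771359259436837871413039985083265437548767562716791864906198652785676178195296238186850933439071396718495644827787930023957169706659822152491747698568796006831577051419476642645652180166199318333335669647520686664250395198863441068702396214748467539692748916854175108495893993593989964775617894960505721294654166299724630143922081588000827073020386631729655466142441897604481190898120805504117312314656020284018861469130312644409759569768064261958366639075441643791689888247459266156417097127010337138704943439977403123703507250862918570167709808800262729710823061271426912064854037821344625720411289713273167744928004120409377414740254953105655788319738759050199695169489094352385769947416892566688573628973269368025725253463616089729250860957360656655540803144568101906963385900580105512771018250374531448078455623132985865554876542755023273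052510594253324652438695199714999234869215874025299788063431592557006925334548670253787938030638474752712517250856745740505017632579063310303793129934216872739550818185065350106722443525178230212697057482504836404343467327092950356042400857201724105544124935828772970571774786732959331308345146458857301016551756606062589512201794848957972269168387656554014931217400752820581838115240093003816097940681138836403327324626293965787007474320552183805936238929744292841069339916416364364362671507581961970693498932625208561385874834156791367189908433894187357236045683884608625717134998691129499043932185776334801071128709578419390597582683317203243840997569950673555124115449657974411639322796141667647364094227758446765878699925589667640457026024074550652058624052875888436686991807923407914970084720319994496773645250307773598855782508108360987462512705709959703904807323759205009852542422063311369668809851457545463182265381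093429982764818313931764002828942371547772744374406247070839976331626271473617493491498355336729499125633529543671619880792829761237534984716541430662978245056309416064014823438308801366788462643053629999358220159175822956200747128720125499486788669855057514729442915844203257852052298815090217943264914148084933555100491614736742689688543461605441142018483490547014394031870065882546969490121506740426214644565552137114587794445199365472011297226607250502350917578950201839290760736440467681770670931619954597672078735792683877950196896064416966183946527269032150142789298743699600976782256892208065031896400824556587799578397757457399918693455271577855979965957381893152126843686180293759488580229446629132042343822846062006672579906688722643298854319875392444667823876492242866665142843704014321684101469642380154355871942467924689974976675361430460456791684743300490516547311817774467274798429173208670947873400669785410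306254583758224020763956944748776045905368441009495314542338608236548472644877489116858507726928801700975616404336142614777886542619119249581437813145600263027493614921994314841005662251779214883798658370126881706080680326940276226114723344723759079716866217304652593429568370828293767511698683326504454833357544220115694770313644167944509810985879838247375375668815378930805739864497087085775391437103601614760873350870021973778801595423638054971903174769021218215657554727453773767884197034803633661919657023654631424596176295393522351077108774870087493527438339976489323003280107907333031901963181569597017145948152083245422880425974177661566065604836260466633448358843986635370634795441685530169207740828141876765594804125538682897071916194966959104548175051853728269436788812439095311331390002291473368577479439748181290997103064461972546295497993057775958878903311094460947433441618802664135792017346838258566299648)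

noncomputable def rc18 : Nat := (nat_lit 10150326787827646970581642313485564783827325315015977691131415817014805591610206980831964374521003393680833172581759838263186682821524374493025062010496006181484689002419483827201737336281957877441923259408122311932551531302750248480603399535342633703153296380023382534099842327920964367503561714690355968997667706085688716207684794463111270784022030842309501375510223165495777666466668317466254972194889034654681607466910077601575324787837803570948579531690434510424637356212062839165490988472451266878214682416829434462161570723300006316535190552716663783252091511049298050665549511517464233730996460056570420104082136936306808113944056252049950699873622350868273568587759066861693517334696142229562243215723788768729266899879706272901365608590903475472486807736631777557808073598746905229105154214533599900741969620980443993499856542701239919220075810834888540978948031651216973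892107255526733798624268005537107119115386656831077666926474107526315000577219932812675931657951200878950467862109212097353683509925813121063718970028931518568568935274706578038392591633499770449193968615687856981572848449351705199132584639380251769329308850331388849587152097277787574958752746207941611536188527864489283701841260851262082709259264318817521931046155263352184786171138374597911315685045403963243909287096918309649467751335050976413020393462122295680137581757050945718026955742571973435795019839836503949833903142306146194919316969477032882129709151745472883958146892279768204415779569444095811394813846045448399128656926273552745670087743145096521644653578109839180526154796706232214002282978642817611952507541733008638938579595034001112341895980283144885743694621554464385796477026331554572074323462098348318141054423722338843220576381803384219621526222677436906381723818672226916667886257013615521606629583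677174939046187196072414231130547220173664425291915788334993143066744650846991109372681258824928079409861594038335054107088391315887371692049363297707804589544339556624779179692789413631126222415121052771158225967165587674407109531081690761989885991060849320962627340069565634466980495341359026929644388712425852547159400642693863372458285583800224245980903025944246554388230364041992111219928016821538685293445226445204497568117349355210241538407787860366770861826998050150121284915745376860122414818484771368344884942491825636214981338344435459424496657856123240462432496948407348435765380710521015794002284121395153080361086326742993853970133009848631074117821259705288156897429540845904713876285174173760095190428911676635701408756122116819760894002548234313406045491412766352968457997203469659083781423963489492253083968016061882714723707681806612082835287581437437709750221230338898422839239214433908316275618616874636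924156846405061176316816814234699758399958042452421602382883821952670244789898571804979859061754598183001191949454189551345623637501818304923141491399483032655700758898308553370481781857935300171764781927871681809731054144759430323237180752610761117798536160802204775533335991271571008275340211975038939853857012487219289963797842863101164486810367160691608486786355747184131967537451965405930962807646095543631566953942723613676241838469824067184932823930884940495008387814559202889524952120789108094798531889816153924960956099375462294633663636346505359752133467883051280437423651171895669443037951709139607277656718496176481392218891348531403078879590735117939781852280263206741678958085791187767926734724534081936479253272392890048525899322887602938837288612322371808196776083172434343428201641768358250286943532143328955935481622454101086709129972171026525811275900666553923760159067502187780604144426952155683476121626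284359148329026219830567747093949055464587982501208320974983113410568299903355733243976064234260945944001506154771089641625379337418364713539214961905489970107161226842269468121747844559716710113472038066240963672944615873932009671893422526262544762242786393817240442714129039620599423679390518869754435889387907786634316197031187407630855782599229027053159373658831488491955309893836964050903747884487104006468735456747826098939671606181839222109950809128895472805222429373256704217198288840342630744665450054135840984902551468761045935207711046352884947258749367969774360532321634610041913183682357277203104013746884849513964605459913413387829541019147500000234492682807066427752785429224339703068531336771182969147085760342463978524864411025352765619629046784993445009625801780580727797026727154301429935199057963975750160164010740411331490883107496174583948383070758074344502550030939723445821051642117795998290705295649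280048295724347197632643522856882459003607511023376255828898192607627569042934857698547287966855406197937580390133459893644740616622907464028302891374674394794826429009265448268674844314026053962780401775018692278847353966792492172558901194229660628595087723082164666951070121625064751962343602541213806605999144819034776663786122693044285362654805296639419094361069376237981602538346127330128558255494660876452933094531889746467134751613894521561840025982349895625793377748624927185811161823784380504804757904803657331068146657782866877708005841289981229127780352821363187773319599493157158401026612813285004373887984160893139929088532345170514173975420816507962897893999238546337272583266309425747042936656812311606509312803426648546123259040409578093511562430543262926242970294185206119280361626413414206125117263521735658410244391420148480065632730204189560070403364011117164184442660287187482789656474740555492261382266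590023390651373563460063093827717852797367585540353795786961242863579048912153038468729360917084281285643593139072903432300483096477522172083300169130639446984258459492135331807190228365599737421070405832681023939919580109068048992868483503845021518315401573918584602319170954861425400414626437426487913687418518976423299036109769558829068274669314491939588164648816188164947468197629742194095993248637272343474835406348412138700796128993121182086710105342318753938261771619904221352530518592474357884646987975976398519548926124464536731792153314548386604169832364382369750560154416993511188376589697835634620504230542779148210043012790282820698222742404727452525264722095073795356188354488138564838825705503047600194513848546781202524290554876492592357822857823135368745635078553133898485122540848012606139208509278281376612488679193518168565419167639408091445039893645351171961093818265706232389333789702546414752361619979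929754885748699383568140244748090778968459629678853839049711414119928040157261968401674736181416493592204366223779033413583248470206326783331769276011924009962599294660595626812055589759485995408267425579836794867242005217211239723113095132475662286001154569676694777137439866835744022264653032169309554343130026019959063877373716605714407537339528658898961295415846980806612141947869905603231058006472614672929534369159800127628062716840079100709506457250287260774624094143283505367182329815059609065057381906189393455791148554177843669415946910153054700670333312101154804059108082398801533908154354250904590781950867730280966224916028259929517665314694079742236016275326625031399995752717414640736692201320815618431139072055152287596628942829303538043919553751054578300991085187523209957088069100338959420620148361547870633958813182042715513737107067587469727796001659467544425722033583534182480163861217819023682926773571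587789450613497477804864475871268672153394936034641965125840824696533711143903118020135050840759256339590309604024765608451647902309061089993124682816806264546922386930646316186582241853599589588339887503213566173625549495056651989879624326474803975912300343514242035211164530023458251036533600920762034694561532145900492983232065673666639534718811861069008176388651258540185722594442591579313932938613088158098277416980038671825781118620315621059683950798057730737112619004759335098396435392045992334001679673021290129555476270048642802305133194240609041551331590211268535190463363781689206182516316718089467199047082978392013995733418192110538882423094681293435253686435803252539977394759761118818063965812201014662222938957011626159403982541970067736310159483312858685738970968101873559770508323029747195999943152976384831294527245375844459531738964614019834225479740648539604947175487004829415173219574249044912240457776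510529942943501596235812577855697214901232820026296687292493994492018964060612642690813414934788010609797485266187651435698155085181556956526945738438674370499547315049419519198294529226284750579681150596676761855513834354533363280500386443360321535962765339461770814441060788534850880050876435987897538527507479467375794110254991120920206039412780298669729549230118599163772740415328872775720118447969108685684842929956964418816711129995138382764150872327692494629496981552295725018427775022706764736264436414229093015226350125783505953131901196613660319348167264470630164804518237788211452666523059355670558817338049872462336240322926012710837833780952994273460032771844294652237921120622016688380986282395466302605543863155942681926013809739816098684878547542224317400807097469687745682314547891037830999926576815998461036141420739925585726663971022948085961155828196597913139149326036768698845286139743577656673697792)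

noncomputable def rc19 : Nat := (nat_lit 10251346005483958304771660312420068914082078684663771528607919410805852302936682684439545717485700060297430031005254309045669603616696297809842276413283066361896437852079795414208322957719177502085357459861900203178087998955057456345310415402205581172489918510652997113609106294606087213423674192554483547317866201618156284322205144990810810381280290221318666586808298096590302391535376215011216124063598488185777384857008109392766295846817115461278302339625966993478402372008506252834105388114869153598423542449208808242972667288703376007437483731323266261933875833247542548906028198518954135544857025639275328690389084132007225500500534851573146763475876369513152756775133229564145173553882828745034428880909603952394507841018850131316515203222503833149669858786591969030895261735850552815061326297469282585225581282919342080048701343329916078561191053565789073497738054020331401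598147089646038883932582870483732914597289211240967101676792304543955306022406392158121580882149323697686940802685435985084354311322313979485094460132143875738821248590191473490105298749016145127212832480523349973742059780279137855386558625807435197860464426993929535836526949605567672126000449012609491324610515587054014447835468586754570927476672816001835396887565213017030394721479770282287458711202392958675444796222616047651113424481417931786710873177092458776648010012573888407762520085027397988469760810788645317940956332774903811317778331218820337697549219437906873586655113748624377863542017398764410979885711283271795802453378249836150817368438881384043574030479499763671999466648606203013211174478152878013205763659567518864800241296969705324709028368080274834983907812091962252392528093482083542554678577730294246619814233893945998784290721918268260137965045505880268947112018879796687559351211320547005187537958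406008064617645843038890656864198411330590893079705396103679491209826903870007612306369221645747588485705407828691174420564251379965605113283438354088056815958271321899916979485330850404601870508166182699895122375394808888413454726529009443582539605554706559200430900529948987747642826493254434004277341571230858065477152042575127009643160917467755198105507322788329429375790105201182592097154501722364366432885644227305633355040912998864017805503104686599948078366016390904683911387573039941387478190603344898295293898180171749594594679352231286900113775294328004134201943300793635613284854499248530590287593364651741283460663398057099198797097164299000848592332040341312436035616034940709717690851116104776752029643041135560678723751479047060918078758696515127445002851388132590572228558798765278049103963117437817428662079006817699857895972253006183623870712393356112005386668975016511184317425944665982487775505633776773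833115691271052863237527770117617186332859231675659923007337502383873068024839705921440336366503644888382048446786564589487482681559682762312511774396884939292282191719713294399891885641431178607341918332369300642665416061361394663527388823907743907644314874244765442249248504983284429519733685100252480729760359478288824366400451583769771386763605657556835928744932985912453556082309749683201524720974467800135612988061272019169650774170696615789950942282258070117367701857978600214189667904482662325285076033512671556506677272193448023747276266029760231655290894468459052222223352904131204838100901112131275383517098823603158152849236065960353705263656663235629363989502670262787538949262458474448302187083414516534931224145242885397040650355828110197550926528606437190401862011646521944231097915117769280384764637662426648781178992650999562214082386150269035536008312375051363729350981017441649202859967266655404738300617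712161726389996044109265244851187788888189353539662883557471754779631439132084430652739721071066455328428109402095860924384744143051573328265138545905057934819574082797047372872431401137371068830982903660576592323527921214950822952303221267453708128853017434160859136899748454869545006045175711015374059128494565600592501755495023510392454417320198961446032175688374809310256931849831890879584640480593287355711566542532433865231748675387675601247801080121279187379506296267994038556412681263831731402980654395706020321065587670262447647857745365551619900259995218172061182076768448916906340059118420692055986808362311578886912799923961705505570885707646018256144252833435543805290470251943295961292708532021696383730187666389549388540129318080366588841345720102744282856976658654458878709107682621375059766731562165917898442863287237059241902818126458743903307450725559072417507185232996623776574348925649602203819230787181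104462342650904549012920633952503386843515741276887190243629157557088100815619717511520930444867900571234000716005964562934728397950167192375508593128322747049866769451993934985525724469761457858079961328753700864437602619578180196241355369399644372385710382100606619312919031280135203553310989059242346148156769838789510473384382883296368757106616306574562240174781001907311406998583534527205891580438335336042108812740784799563582794467444727478332127290908347548894812813797664899892799205282018567005145876115825112033749947508649887069832329998469264365168950575238185261112422499265128893417065960402338167744780444991240575881036596216670620499007303276213607818793961568055990614586454297719983210696660658507391583099845278144802367380631860755562550790017732891194975464651298835719423404840848915250769471010271923169577131084396102515382841927088438436076164369518035834509102180787087308630031627143820503235546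310435761112109349760662264638937559149293541593268866022841730419309795024367126162483558250049759841497052801469485810307724710390952430234107851207896564193294486775965932870028600048981614522153892003428422053312394580041350392094954621990364664949946280958508772357080533383438429381532317625032322614941367102856210920067071290862570251591708566787398214283787828219952288485894256637775555345883247024314558354676429868886524586058313121425487592690872451259576551058984466458358303089871608563749880726062078086819818689082696114010489539968287838312239853691405111685853792361879549034246025353182400056915971793599365358799204902812613731458011668951888722805456658843066346061428601947567565280756709320961655506802347821247681385105056111582925561750504387854847675417341919871912281957103419140765354923713551961378618432417223316276181315407938850253923187788264168120885796713231308480546980061052006261119716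975823546444727994394096220299509582548887300394624735303822632980201247627134788506432224751792799106615233021515474516090967585846133246541491398414886972307207425772502802458771372653537182454022181520274786695551194554744071372218920896060120178765082417946013759616649230458682397658486050521001559040222128705873758435877878268734108380319652120842332719437763540559376449493389564535764278793183928841300165982440170847435563132432366661257471309640578999130585793954052106421423826593441564440522153660589435025349560974755957795370249320993635810109386605477097772144711811983693573456087665513375363750842975647918179296270466093696373042986057973616135632226037720977679833803803666354448651998407921228260069125047555761070023551833446331924829434919538043253025393113939629786721901289870404934330551410643614897063013516151187305783705169227640159033969781624204840303982882812123564708370944300353185433366805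926677919476669699988907972647102031480402536385856575196988823582705426491287860923172869970270797916509353266915536300767874165071997095479072256893208568061297438211446104255736836242170606327907320847874898025530034210069139038263431310099550259997376497265237995975026255905450282375890442381798257116200616109145709474039739875950420420121423413920683174083425127989596714829804097191850236013426953860275267512284250756204095272327845657492807784320278923462541815572260392151919605354284585566481653624054539365912298793679533887538469640165768525476999646892798029548538112264240825073494150718300399199134176600362153007481518693382783665493744405476476792308187314216843560057461536135858326320617213893521362660313346322025919227622156737907794181508893514089642249495715397707769807157504984037315298143486227096893182928823481131449726802800988543717615525828571913785651172525528429038411036516298093292860141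487247455259325305923168681943486408045979426065783722928350236501113372726682643747726578273956868792139632652973619280923618348683106933186446245255523962423859425842646834438072394771981942883241107078037250761030955183825855100086719436804028283606400465330765862936579772922495786875173578497120776594146014951019270052479861371376034793868651365709812724656933540281102154604654261655756917348200414931340836883672685888162112489792686698867605169397566384636747474064674886921666991561034176421749841585743670592114419143748341990054642537251108106195035438814642418841747304222283578605185315754761336667421550450469434020894329724180814745254238101091314353313723748042704388514838676466214681142103951455108125662663526113723422761859763196311445030601138711420462089359043875170186394101841370842124942708398031259838991106763283974926472401597375063936474496604919837255222451300525689489819896191389844635648)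

noncomputable def rc20 : Nat := (nat_lit 10350544754056546524879928889887144517789531740312234504230143206640976241230649204608290484088379254220352090827104943796712344896077117294546838727423065747050976992719113619565820890863254083290235277746211112890246999176506278128150923628989743084277273857655676232355831753000794412844030087235951933119477494816754279996933196095608089595663714226460049833343725349688221806756826310156202935180056551454335628127463288992088241409804677826933900462113793033496896675288810215670241685385263028868070034073347521039911522475160045170351284512214466429027288153577042139227503755797340310978815477329481726294469750396468467764251712025644714395865913169360618636696256449598978437950706642409166562021219561231450022448429984728923735537093135919557413157960545798634321093423120447401743117848143234898215538880318232509534221183608301290335765564648149320677622197337943297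860649068223693935859182486700524337696441405170950080965826180362283933027885359456758520366506720025565563868849111861603854514058324349422004143532631897880565875292353306900311005678255727459795399762061903787514662046882808945128835508203746224408930894814533448995838001014252023436518717524126057434473944379680632748395746793966537927258385230239903026964170256125176115291315808214635015577297838707345263668835430657225902391175131807601987773181382472795649379847681797999464137048997649319129189755016361743744560284309319486259740126863899408024293637648904349263944569538373338002359700014338016951057460522995021146640152326666321306644838698424766393056767822514141402194008436070904017750215025149833785544041354851927694002534230202534315973305923999754417585755764417921653727789907860278552628549966841888984912249223128292025551706185016121747100201393197359546020021748230373151179420788063168876934039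307135304103925369825575821793128579594614926141291689792986584143173543001344874595977441840148919149262555255374395990775558174828254021164572226777176225247456225003892178475883647581489420668031368326081708473560451665791818397060497449053735383234844270926216806945949212852986987210211511671909760991069697406971619446475961421357583562612087242985711396576854517781034041587875660182071549500209688824531507059588428122025691463966753907471819056366235306528852625162116799158465254965399814044691256922333052125495749879690920758717161586918173900240809894199009650280422308069656546969335521008315341849897624912325946849238566903555399413117061391485013050985059008465867529992902058789482844996117324818513452016045441508354559904944076775159490623939572150790585230809631995483156299773113933162857566784060895706450411049734923983085826903218262470321741106524770935126795533952031449429395247365578711131355979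127055176695082637472768730646102204546175515402586569450464748579171192212049204822074728858526425377004089973293766318618810374873516999794312434117159591405910143442896066649235699106961406919901353607969377397366562270223495806902415359773057272949200923822977347937241805462793182276659441483805044645113994334990512044570847938946470078004213450572164897800757964979225906132080186453228510852307713739252231323602715911182643469756119048550487805065733831536429753648489825522467894014976274486821359705705331176728872000249261766151711231896463829842617801574236919440360624765457955393496937100853568183576791380391880238249581086761260751756493326491788525956786347269543889086548875628394021630797139956774449204944321109774162822242991135662243950308645040704738430628437065737801297991033276472012261452091159459040607288678203471038730485107289613552580644680652712149264713070890153194883762691506514651352431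105516326256615861303365773125097588386126182872341801722787680006733162218879701548439566863541634897413794924223731339453752819049604995399435127355784174513237569248114591012798681972732217884076632862592499534638977449478984628264378729181170098145093989096818488430198481211779367866180195724398714207022854871902850346386748469187931787090342553321489675276849679278072030260507835259046269797769793245539014079382702513504771852093706870643926521920363107149871769998603688775577722395799020631722701673015957743547653047422627485425762882177901718946959324143780610473991203664718508885082709559453897086465873288868339329187045767829569507755370302352804506613578875885839291319878824757983710306005364697064212017529528552259646196894418380223260825946500802228808145933360026486044757024396449959004719247854082886742446473472305193984185605940646052334223926735395445584103740238228480598384121815781783448524625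902914306607721702391995349792696377973724589227611217748972663558401644798258385150545318499455391278849954829565890521435850718814542900490700742619913865340566553452405079167451450666598196083384670063235095485388989867148445509745518706242574608058019985506273925302008095539088177115242451890215049466534076021179050066023348610488010103383363441914098033053342063571569697790953295717095722491337523130843245629871717660899244943306173715915773825403578776546262012463968152345750803183898707281466016361943122317344870058099018892525011464362613462774436139321229390915378336373508352281938864581580081295948621085642948765848418618889572512243370361228883143537419084726102936780441690506606097794854529580837160814945029368059824800395141513143761544632728005365763778608417166086788487809042471722032208787683307731458945900586928847135498508629345581888538790954840327694344815378592593051460463310411182265188864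050023020784640912039876226362972617619740011957825635983242733375049338917813703138111218303212173626362549665211690503735565866414498001365903446977093159081059520709046294993048311091879265994886537982697999642450526208185921124994643344903653332544864944360349613082873641481476737101709872627404507656704481040521373747476057397011639287789866047705829395830367803566009057639323706089825971409381764999820571060882036007232614661688580122294891983738452519875994038180354294092164534096435887939962307504328763821837171045859991090707916705341466480171228599649619518500934818173788555004894667331901131209411918503368638500313287447357067971454735634214389354581864953308567953320913953272489493462882365261858813036521634895882032446105592058701096208726894800509933512986701525551049276968375266830353698270040606353785912735114063497745758868372355217629642513618347424449623144668786898936960346821251055063115959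585831658602430667101319719825205843490767762532268543510929425035076198446290256580623847105812720680197715546411189612173613086965150445684571496010273398876937998524735567525944712817059197262772445880052036091591097499819957483699272561245164713762419270643532091851009303074791355693972354597704884646980133142625002647298750507025652478240746782424164902495518646467086512182300577311030684270080750349202733050060151126041923250696502115596254189206978202724357144788257812319217851065586430921394416809018345593952863433094308901613008474930631455634224693371467380839977058964403543994655104610224494514905775652107894253634481230582471697110621319828712286811885026205100026212248636389765648575525431210934481177728417604967322348557240763857505976590213118068776401137434387287454064426676455666168390870037737945121560906648553246466402400001094063631849824701735671132204759027015297003339727261370896950555054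477395104715436962148354815054700441231716560553369563772669172854568586992103858302417411420835756166559060514376799609797462857976345485799899538078039599441164784235519838643777221839561388124663946541399563054531283140875635537822774019964140880756894960051907999355287355031440980372228457684366814616198910014699670907992169120526839279156780207084181480115042734312112694068093747651437151986039957986809153584191476997511150473704323738465911623584173689856044503300954494555890349893451405864206168903379252251240481679986258887887242247738442199314876766175982499163579868275328733980538186172474349554810901286083158885463489585260993737990291779539543040308891053153914152475905328156815096388372788377288162846757008127119634345992870640995552625756720693597912083689415355140751594093319651394766310119796383233639885427599347607146040888500624537105110740142064734965723788291500812597409074325362969911588057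809791206495894155632772509418117736978536558517847849267966366893521220313412261117154316491542018599741413886772698257396608079959264595681541824073592105389913180524219452120030085769309471568123288782479578320112200308128810643660648911918696631179713052355754025850185870254290954027198924411624115970373337437737025301870945825228862898598510630122685333779383384921083112917677846141805290643080551441721369698568641463287241209922689103433070463498378499105181589427829020530468215749568733866534682462597172420901382449170533184830555404938543951898193871265115567207347334790198599339808092351665577076680439431159822618672269300513116059137284320627176443875714374044275756435949701067295273441131618547258879399465325279831991122634892361723852965074319991333047679010748315389969454436032597821057239460205719067995121385976531278718930931123118011718219263336575233804269705559975915616799654667910897467392)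

noncomputable def rc21 : Nat := (nat_lit 10447847323619222744780434215838668552664402916989252188207466806318681266694163115003802672042345067221112953030425793236673204529910399384627392244275128830926464457275454825703599865659637571540801704932350829027347652652259267559913131385564922537392959662613949070541039788576792295496476985326193543416038754474623370786352007357001446990125040347889593881798283123926799725427806662328466840477800682082047650653560350412605521737295086295734906092155075011757936123989268982849298533390321607383487838476946717479767203485278354953201964383140708690641597996110954361472928900655627325508903445155627691285243917324653385626502871567389223031932740510401922131276959217684531736838492836221358463501128207082989408743586703133379287212382653019839131646951374636147216896169073742095683554221819216618792227901100185698032850181102836342055690498655092829454065276274173494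716101363968436008792849228830810915781861823528046111946515794826383792535483016754798327981912905002497781843459034635258169454570880319077668062927109374275268323839577441312918980624313565204031135477965410841555048110295806966382127380890604638900572472230657660510128611575779479717001357206583119614340700216031656581088713022573578481730956782158023958907603127506769550181773279418775993734208685608774806045935109293475493311099673618492264788277111032175118615730147497964328087360832793644756473649851639857581725902827559820610614839926142500003525887701460290953961512674106143156404868667873642767189982687591762623666296689170515657446910433355913533389270051061978847540848403822011799638386162933278014255723138537322816981395743500735619537746703592377598509396530663066388322879237870080065452195231366220064233498149428410537119491242485176183933331001149767799412829768392412743524543021407970919366421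816291221718784731422300133778261419374356965553577490417184601226927218664459320300109426146441744855191746715954321644354709969172863344952928830990189630021883242805739645016570813940314455891436827672938234557294650416712282997805481792545789867831230971195846194127851205547742090420697889118133353020271828213695778977797519244184441167191670148207953645410959704741820184969070574939068452940446177275399067264931243066642534813493613410730217053376719918669830657316185916028359612887035483939744970468798588538597528243807232539147818614549067737475737013947419773184980261205010124797694308712649960711616743447708131036141417874728811353496911547089463380782797436419704257172085355888969787916255247083769859023714803102309087841813311801604140973337249000969892566755520937673678610741696505524365067109172296556364309666596987468068100332183512115205252107219791134409165926846131245439325210784686224275052885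680916257707415441969487087270277715711123647740147230970597354053061828570036574231021811429216784565982612568219392734985204093833078742798628913055051115203463085075430682206615054100346613493480649478236384571154445353484526149047395358378780116667873632744090130634782610015013417946551992986565833809735881919769818665799134638299018861851313081004583365383642453990627420412851338461722285447477133595631127661943540475747107944537321005134683761783431540365846159238512736723584776140716753482216071009813134335125574332146524368134740871613917006985397259295423158968830232867794518546666340398219899450132325677516870230468754654640062054580228292814249501444615086002399843568699605678424762805314422706232659753229428925418298456758790639074674644638706216005942485787076491253666394519172643153038920925812313822551282068518918793375471795415961292329884516418765131498670985726153663416368418891169321234821806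508783619746414223451470665233114913155511432111895491302084742461711032477781024313392122589227713804924813373744377482215494568696508683183787115055714864962188003781968620231109260863594215052704697604458972645494141174555150247601508300414365292921572976599594524118752033208193389816211040431599395518377214322967425533402522819184087731453812344375493388566400975587905971417932605164180520987475096696939469173689885972559566178568570502662310909064039121626068279895520355113734538470007042975393132222974045686691266852135879899455892415383982063633438757568708810721386055952245356403133556850951046896868632043958255658330747949663252513110452540641004957244020594505579584979294283885921250815483799480557393168761126924564216118806279094911574484837302292644315621291195314925378080857446943106688183463260388626375828268735353985914772026563475828842253628952788362617197776107061410685708921172060312640622020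411667892076139822674264306992213362943846201699136664907808954037213003951467522351760291491954365606446708199953282626861707660374643574350925584297779708806426439772201986570518152544905916981509709721995959299744591875953834114034673602607461154029907938245318023490920350566069618161149973106540647805663600157592077272203955706765913341646158921542931994846970055949668790262962276745133028349099249768385535684316129511643809272834903936428558014023922066763515180827800840760702240645556718019259792165173211815699758482686406662212032439373860798023514475854006514123028061468577089275939722822283845807175116186455686137860542926792375293333245290544149289870914777138024312859697957422610634293359179540656873442253423963651202882464153406931609997813306942693723393652783175905367334659636299108328224223510454920176272484243112269859549450356711085105650707755254267335045048655966324248273964956763679753493660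101085356969306042309658820990113450891051545216080055491107395867905969544582368366988954102999704984785343763359850352052638086250718035081045794291736320413896494320814825457546971724213952811952077333541621513012272553598650627551534699726502114850170899417570866637398489822097999337891149466049483348398746530777726489834550699998306673402318649472601816460917207110172711332014241925621201959563296988743641961578996028313113383447740967282398613494244155204688546401876372625387930422083112102530894054923925010092416077391776183821032281192970317754890502574317188269282576933732001995808277652185057374125289760474229526939621467877702743424178939355895620419311616980234945970572535946831513040560530060435723493602628052294055240411242252617498109806220825745188504201723538774389237758341447888804537375572433695976524004739937025983365662448309860978817366383632757270363326118244679090920956823928371067865006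895560139440415921529420523877177007923806261478758073414137004696324649370974710356563648948473751451534014388253759424465226707887959163515359419051279999922560520518219943293909812846064863312079242421562249359800916658412187140106689175558967297307377403539084231375161035980101919718479506579064734294217916060488520385439120190355921307271243281297295830701579180089224554600522005094924911763596478327578927219010510014925842786272085164000546873345917739757373770548610557616857994663502030943262675761866371956988104263644791356718192450714665500180758276537360936196646653884110079739016257715439511765314327009379112057689447324841365238183569122456023829085693548888979551417509814556407020860477270315627885194570446159831165268103958653458200836512946145799125671572567769739331985328140361422594638898437590831844535944459016935074734061683038691282016763057138857779555220450829034127892715519069700488229928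276707198776203195086912702457843212590654348914875156668349797484854278297638116536323775936820849422485005074638536034303661795527466294437586135100859986145653137756958275125667041084298306482876435811297454313040162976191666130431531457402606678398453161111907863743580489256151325328561022018081414079097297663183815113837215485572428487829619533161532713360288780883326053748906306480792848598050466074497804004770188982343124489327805378018317762584217575945501129990603516618252071997394743326567418700593883552754527547471700402412696152221894664944229122603809970506278156687954219570975699502213067590506101679182993826344501241473670645712816543927294440802335014518955664521137610038294793140583571906403669918462838984252903166286635601624781430342382089137896566715004728368547662019238893743694411912438813023853583563998333353192169616877143935766580271346324758994572128984367861566877108401898080505952165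955049786085954048711379264553897175750154201868430885778255357613811085523993136778423631519725427915007981871296108408639079355387291319264309682354240947789535298662782643065383067814020949434116055629631735115260922528344548618653713412314466355831097513241127549725080568543200229735095914715334481814022314183334909738843298862493558273168413803716889082726141710090500031888828790097845491270908742015719368149350081143235036085725986573681731519122552683856560768573962077610624105746856998403951092167330318370359042436731596287785487881983796185094018968670270117708590801071678603506771105961524130000883310023916586154970009400642852855015869589547686155296775199930616166758197017057168575134568051521400286507017700752897511646104055924146985834366468452922683986852794541284698556000205233720658468315967375195027611765341485257282793201280287063110564483660693877213952573357714331453966750756194272411648)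

noncomputable def rc22 : Nat := (nat_lit 10543190227649311521128281810463678334683880214770657840719469074317373244127051928254290125580983346509162824115951901436690179409871033310086715071080569730448953974077558865296842251934869429444347660522431946256960513614649480388711781579103744965012239060190900172912853447429284326018078885096675698114972473358270383660908739918954826191606380996965106339043144302656215189571778876269368107378636024936310971597050864810071125998584308142973415013204152199678946571357746629577805157455440198993964803506638593493299851965425282120037750840722249335964478176646830419036325727462219799909208292081827881123198068348806923537850207892955176337162462274868313408375750451807583832638042141230349798458867429924408869134261933773082606377124804057619056094056310558062307013012313732506846301995714496987522764371026639521181610589044187363045599756813736519465571166409887923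533001906541576065243669883892786575397755840779561661023715789918921837362784119094750499415074704183775257633333690240291953365466339580668417353291320235787611230341224965068076225401029464881339366703152857577232083097990514560543108785858615509277869199919016337644430850513382088413609374218219875412027341162522596652968953774781208645575748741401897767330216780070765613017732704637616759102050910980037212709129401342964017508171263395355256622731830378291448349815964534059046744460741523725403561754720635168147958114931030696608624847339269187768415757640393378886816797697371079367168091204470229995106042009563744838766597007568453348819472356848111192716336620529550499124488937957699919722504166507842182030016796390741437215816151646788726063120712378948588933619244236670380451543117391029445744742002120195773645820083552841223847540679438073699939194119520982305243979676905796471011687698843553386459020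550643882191221800351607644872650811986538959833831719061117245183917237199884795485496075420057589719511992759113492406565869240025241514008645447333313155586851935720630304707938259067399382939866200100410667599182360037269916147629343001990409640415346945426156149972660449171068068513661365411850043994993667012645425962771841952785108011220513831363492418771744920860023000397680647665090559674427686082611029344293761346543451253664688718021571589308304708069533247640679709235740575604085076358841431395726025186921610422490382357874867499224373164742393648338707647185907994835408258163542098198216267790299533772289484089299415618112484739696709707910514830892675787015766506146461157420481539573542665684053283727177780514315968209332343822944547673532128983552350339558806027230884519227755870797500779114896500952699419798782888200712976169290394605392833019971382727432551560563485914807684009330814911671400309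056874817573199288534052705457839844466426367304011449649378410491306915028719322297804681766791177597649048864375643467895220800766068980552774915062066089547451367633671642111100821971683984000885247336046650904923710774168021918823713869966021615008680352567841644429764596916161976709710199797519774100749088445576913838258342568128328270290231444854185738442881782154313744582480306304644422879769251261163875547648138124232400928424705511336969253758295785034422435968209795459361552974901857955478320336103685217305539630735670241230217102962997079295550163542898941102201593764476743562308981770056896870233125500208802415714662260821737014876316913721090656595635570222274325413625349908982444440327023645647803055306085556850771839542382277841152656036108733150518666980605284506295158419484921416316204991969602935497102322475667915889617628019744197457879938910731462143246480213106084384707778638695236774489817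683589580163406442251106251629573793108928141682814350206247142278203734277836212140809164702549001777000289551362868949815499435881824110943310314502753616465765819125307279463506161982888002149214596018242661528541952005147937268531832302386700726459962090348276056777997120992869162962051277042650912022494134538572065592003675420899829155638331499283224457556102616866505627743530508356991432453271006008376912013399093241940391156972851383136501861613735125784231296085819807941360409491846017778305497121529464548236627374670477754129157884936146217458562764585901807984431683633370975884248729473021961451379200700317653578693709215872900490039743398205474045921994314334360735197913710309070305107627884170253432032802118787462246515895890853043089266005770602611480139781132673513171893720858796855590186832264280720786854073792088657277678023578011882310407032947802874028770764376571556997256933170451313937736010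300714718975396910081258901780926017722668021199575159048873152285931044664075360467529379321624534799965489795866165551641361560198203450751764686064002056769811855227866975716185010322596566911978507921963185839146252078803259677661231992071193111047934366564818063341759941219125544524071173895619274740413619106842017281239966687022750904589054453398067998860680964429366283624518922268730513448228008549226485696400734619965609073936782107734759456328760345282240035611948759390303013300830202828216408128695832965790053741420145762726459972727224918116999945616513533278246664620970470517372022688429376320056496588652135706610944968022047025581413805668089370523440620537533611221007376011130939432863082842465971031352229690097523203302240985318944338102480994806819682680648183666349915046057216413283267225642329315993030746051463812139993050923963089405713272321053737471019346946718017723645277217920029622512686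811550881609544668536808622114514778139220841342406956765704718241955706930387450806853937147541753835391328513003226613009422442463342330751927055294448369778176746751079556443752968661407073067120684036157801364587993015318683236606139598323071117986872299076800003892051560574771949950263153884794044518777542011051373365623700497670067911767601746690494646460148002648938193852820351607967689605074264278146444859702414014539785186847388226242012112473627113715084623393143439560322594676617657276928339757872484925032740736394159893908848770818873017144441372646076007749815623938519076404580037601202324401115826074902987861661084269770265054450715153002468832479338270786543035356900162989153598505957320475264110585965437485034904211134319848206242805140789095812344825833103137922052265718610910898606463295364163443075115215258527296827074094962758522978173294583762197529429023938670252680842599482459981834104462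277121346943800186955353524538614570810546273936277632333807084663849546408058225837445681795881993104802926680511925192789436375782272278012872425348216373292642874484201439976246532071509906574711004946212378266566567455943920327815559918168136792910781991035684740721894723120140663555913815794338017481052604742640855750507203474253179660697464779363960840309978368100025419296884552936541154946153731279453973747790920509784665390034545684107345574339550862158361766006937922646574048474903696408259164402930816001687525269112488824551493854745340606045246390639345846578164244940244849944340348214333177561490454926286979785860162221512587129014777672621605435625856120873653511935726399299002511440822902968733810510406953394234262918383030693830789201171885664441123352059102175073546935456144161989656152865125209853790067867409473028201390131269467298447009707014549175208313345600420198884273502251290971580893270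605731580874894206648288235724317296649536653223106809643048311686569884971248820954646009104905164308136841003422599696300907264671603234015202388458099793918893159729270920015789163720761637113787168807343654421682105640885113982981798712510746211025084724131727008128268020074856433738967810839370466681291361291148696477626352209759057424581686469405297627687647538173951849867663027187465766431268904240648611687584779298662227990921661671671148213793900194873126989551214217334137257213898288863133297164021670862662695605197884290923934621205145537693149099726942787241199064430814936763239676004609147495758240764138939518513167458309054001216884744493262422372894250454854975203607669630884584019822084010028394661987626268109139441509920704440816791771135828941892005738690181494308862414936764208648186593714956756154717979830962737642335486992943563304590402186347374008270700805721079977511820283254021024423789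828877348579646957608636141635506972476837666456020529752239703409688149453336210024617771492682206505459720963565160417660625902711524288344773819195165440712610604777904241584513498938426743102708507454129330143797155545379005220233587070523696620616800715845802326643461640072259685808390496066425452875324846097065027121951268113542384061223689903396600432626934869433922800380364979072272305220580129537449966661495600211948669416302131858684659040189922681166056253792722918901822596231057540430925438940855579304440007361845066949653446836531455875955129704490430985169725273313351494975397923569307375169923700855885862763461247749176151558190971456418880973205530423729746421016899920153810784113556114289071818782758307798494678026533527471036217590417187144275021829478012485939706168209970572425262057798754185378097503501580934395207909263170165625649362994427600211165004911962063021435913876680172868993024)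

noncomputable def rc23 : Nat := (nat_lit 10590109664865944958368827462809661107441749575160430102862170589352306034034427989314765641001088579227457061121174270571822642584484512292994218099275859750093398641761927452205064614241838591570095389359287797400804472544494291373211583612782553368585526456092346784371552185565310848861796576218307435241517280086723893293080596266512544500591238815360017812818487432569865432667102984240772766155920677510083952851575778859694958927950292898948665231386445606848273415764929313884928942697637533045179022032596362309085489181790705200957185787941744659303915911842181389605639101948402313065351252541715997298261435307035836311672872752044474799114013388484375972441055063689705477633128574657551374483702164518749765927041519132874403516784808493190582794115647180256039267270076310521943204400182325692413485290557606807074074916206616849711835335005101748004761031227238211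219318477486185778244451338374836506937843841076604876045635540953954770293522873867852320558861596693681254249968077256660861131023510933112560696468849745119579545489806269739185402004877577772893006565865076119230639349350507064562057627046769189722676582847307666063583040816644404247237883474278058272736870628284234682961730775227113067032280743873314441399495401370838142294186889388899706170895822169960736599345942170067746211078693659761401425376118665095254123022896783721961260656221113086389965107250878397703313609638356898672844503703681857680228724777853326650324080220257860302248072401909911646467333231215770381527667527701957770012138742716416327941681507074900905586244359820181586652861179155689444991016337258082806684084675567390264920552344343657718255253063914160826107757799883331528793770472965884272425733943555780926542737178501910345385160172092337894406588982326810730827048008440299904144637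931974227361703174520548801320190749396815247216924408970073790054889502195600810612510044593439084163728203308524128102316625034941936396846786292184681325797834408389905826583724166116304814767213259312749506404207516312229456230387128639386883494126391217895832124618037587662761491365918235177490521110861467208858166569963141474258449295004827239153538514287943381861895624884987844196497085578423167574904344753518653991306536919260962605262667422073690712680930403054839214307721558612570293574122266037478756196303002074255957177501458147135945346702821168701995974380261528766422505152542504809591154811690414956929538619300548942339821391453608513000480621319137885839819811456705425978981352949862832331428337945893997302039576391147901401807459103408907853134348620251572999892984233207540310347302083696026464124235722903032787893831307596030017566550382241947523530725920096738444070639069065200081748217021830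469747983576330885437977884677906534046883566285571238979889176243376801788542300367813660086660042137743727085873491850388543241888634780442184323838601857532686120501536962625320378775546518538615897923083493351650928392907938688192186138489208314487432092152912494569688326287051675922843625481247170285743400192359306964564858646972641205730124789018291584066922048407435183807205532372528328811799624846332823091355436369865456523108908455680797101601175638022514925716440874575318864757184798812161547102284889268602303036356642298669536354412321651799876989544355840064050960427397270037120447879633388202147962445320270369716302444782955399890674561678692961875377304439466601604094855760944067793396418971644889421645288229403067299971068664700919968565743023463427332851836198328429041790863555897666823715498138757734142822834576924004019524683773578875793438619018894817311252092041832292101797081831621300030548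751366520182184038226239106587863172979487389400354722949026274347210492981226756843511117075480093531338103673306336042753809991501959271660938648216295201042270913220141624552947819307729548665909573358506332391325226833709656983049021215097105953414008659181804289240661448713938681355178718094045031589065557882438430291584246063667484788161238604196687742103798124443650960063666865919504497155740964005810263184174249319490493819253671765979751131819827099640852495284981528037495666777302677238849774128202189575170617726114925928508953070362513680798313276109521184631197657743081139642278170757812044092237301598051177116854583240539077671918028442869673789257732551104147671271809050388114881453309916809283985302197750030913972515756538248483059361593935930610035284421579259899424745397891407025750174285120849990221324485818027876994313657013137446792946285603462095540600488061793820085808507897322229855637294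334367716458678710427438233251673432823551466712023820700953807289183474587040782542457055903088613718769511126311712591629410995378229304257352414233175705725489730438447837043268723798213417583795223748960095589047520073174963915840050502259706754643064773254369255721600514081777914471765226895709830140048431786779830315037687054763523066583814827026500272048482742156694841227438914582275593687313783859043328704102440578002940585086817327425406746861239541293886998316088587861150429588672158699490015745332914398118581176343288032305925073299223142976544999359365045178650995788358644231527101758742870364431291670921398348797271796104431066878803250411179849812724639893588760802356382562139219260782998678577652718293828709179683741030305365266484567651657538074597062498360710717970142934018388447936000370039920492848139284421376282960727320394071653913032188777486184297076616685954913877431301096108133001311052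439029504205260341359219408011263421415586471711403067814763949652218390630731464339203722055131849021952480764787019579882944298526993430584506514276780500290742273027137566660022008315296293662828034016569533327479838507412511395499843987833995343843445513443841579043829271048953864418346302514493295230318355196394014438545410623720869379378081335915525293583575577998142438332352176647238590575313664573131848211322659746068337707691190997160948583341874667202044565582929165266434579125399739052576476058912653791856100933636068903687014199756011685582959101702496271377892954418508750301992509080032060689095854623595849243271630778932037233880630821071039367614922171299975956333367166598936925520442853786226283976533851390863149430031653844613857546315878668288846753824201963954238953587908798330051506579588091859349201325762320889750104243311184453569816454105579693551486693078410347222958998189343670507360105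842028341489334101260868645559983681446589197847618294547890045321357167069880311936600605110925687961294623540534058929285260719724835668655418211044430573770704537224621704119024974945379735646032181197114662736776369726424738489918802006735034893380178138297694659352168162336100769488769685555712345695231977216332240898907815291518343268882529849620328819560885510220324705395391819982530868724031073626943081255982012146992350500478339755882006359530201208479880945297724951871024351498549608978836109384770505754097839994725229838102166274411323076901806376789883883117126926854458153413467728891285522524505441401260907842327326026031290275001340523587813416582828774509294047279325872456906420775301504762154978608532349046984611069862610815990279927370624595656849219814529189888956509318784722383748569241653124921411921722741267785307287166357527994272861420585293027220899436416635064878534270187238750529955377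704785350814254573566439458445010503877480788943019857303254341789804108708247530312020503157512374169030528571775306013377101642831377637980596500411774921925639036829809533633496948583828530414236296900562120214680197236473380965154583383040970813484130284439114267416593607972199392715447406964749259251320726892984783945348603467509883152885606359281031900603517871596962961674420420097181898527648379464941731556030568051517238034647212581425604768897457508633881825772585891888499710811558414938535431884017738391438972992277541567244435429481442113009040807299153612728161703390215059400482414294613960787527672088179270839085361869949823043238199551278878456624307157095554988150150942986561460888423974381424528933498697558654793264096314371062515352104820111144311394345829552118644370715784313620201049244877554279960306525807526438759771938760414810424601846539762932180053781989065487804533368037945169530298318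202100482210837747954668091151222107391283345280834500296230969959586951490087471716413184458417670180210273848645903038762074781683138870818620237667630667581782912430320394277255246841548270946026521962362560236690476404861789450661674316703045981781434518541551684640516347980548896351630494961397937699801881919911015496120338988327236148742966208063165764055745261542559350144991563651390157218319935923575775407063045662719438172045548840653156679365781520292181022556549827987175727682909477875961170668879465153727434222481619276497988709621712551327108642461884150505884054247957866651790926658257909991549940229668854909973122288386445146310482197540862421099001031321289348825412185580738965732180457670065887407719634689102659801784162264504191968329982305763422083964475072190900984733643304123347512778507164480043838801248054072448459255774683242019288242646081322049029802589325500863570077902501515886592)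

end Vale.Agent.Lib.P154.PChain.BF.S6
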