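import Vale.Agent.Lib.P154.PChain.BF.R6_2

set_option linter.all false

namespace Vale.Agent.Lib.P154.PChain.BF.S7

open Vale.Agent.Lib.P154.Chain

noncomputable def pc0 : PT := (PT.nd (nat_lit 5964816) (PT.nd (nat_lit 5752344) (PT.nd (nat_lit 5540184) (PT.nd (nat_lit 5486988) (PT.nd (nat_lit 3894696) (PT.nd (nat_lit 3894618) PT.nil (PT.lf (nat_lit 76) (nat_lit 6) (nat_lit 1) (nat_lit 3) (nat_lit 218) (nat_lit 73) (nat_lit 219))) (PT.nd (nat_lit 53040) (PT.lf (nat_lit 76) (nat_lit 6) (nat_lit 1) (nat_lit 1) (nat_lit 219) (nat_lit 73) (nat_lit 218)) (PT.lf (nat_lit 152) (nat_lit 3) (nat_lit 2) (nat_lit 1) (nat_lit 218) (nat_lit 74) (nat_lit 218)))) (PT.nd (nat_lit 53040) (PT.nd (nat_lit 78) (PT.lf (nat_lit 3420) (nat_lit 6) (nat_lit 45) (nat_lit 3) (nat_lit 203) (nat_lit 103) (nat_lit 204)) (PT.lf (nat_lit 3420) (nat_lit 6) (nat_lit 45) (nat_lit 1) (nat_lit 204) (nat_lit 103) (nat_lit 203))) (PT.nd (nat_lit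 78) (PT.lf (nat_lit 3496) (nat_lit 6) (nat_lit 46) (nat_lit 3) (nat_lit 202) (nat_lit 104) (nat_lit 204)) (PT.lf (nat_lit 3572) (nat_lit 3) (nat_lit 47) (nat_lit 1) (nat_lit 203) (nat_lit 104) (nat_lit 203))))) (PT.nd (nat_lit 106080) (PT.nd (nat_lit 53040) (PT.nd (nat_lit 52962) (PT.lf (nat_lit 3496) (nat_lit 6) (nat_lit 46) (nat_lit 1) (nat_lit 204) (nat_lit 104) (nat_lit 202)) (PT.lf (nat_lit 3724) (nat_lit 6) (nat_lit 49) (nat_lit 3) (nat_lit 202) (nat_lit 105) (nat_lit 203))) (PT.nd (nat_lit 52962) (PT.lf (nat_lit 3724) (nat_lit 6) (nat_lit 49) (nat_lit 1) (nat_lit 203) (nat_lit 105) (nat_lit 202)) (PT.lf (nat_lit 3800) (nat_lit 6) (nat_lit 50) (nat_lit 3) (nat_lit 201) (nat_lit 106) (nat_lit 203)))) (PT.nd (nat_lit 53040) (PT.nd (nat_lit 78) (PT.lf (nat_lit 3876) (nat_lit 3) (nat_lit 51) (nat_lit 1) (nat_lit 202) (nat_lit 106) (nat_lit 202)) (PT.lf (nat_lit 3800) (nat_lit 6) (nat_lit 50) (nat_lit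 1) (nat_lit 203) (nat_lit 106) (nat_lit 201))) (PT.nd (nat_lit 78) (PT.lf (nat_lit 4028) (nat_lit 6) (nat_lit 53) (nat_lit 3) (nat_lit 201) (nat_lit 107) (nat_lit 202)) (PT.lf (nat_lit 4028) (nat_lit 6) (nat_lit 53) (nat_lit 1) (nat_lit 202) (nat_lit 107) (nat_lit 201)))))) (PT.nd (nat_lit 106236) (PT.nd (nat_lit 53118) (PT.nd (nat_lit 156) (PT.nd (nat_lit 78) (PT.lf (nat_lit 4104) (nat_lit 6) (nat_lit 54) (nat_lit 3) (nat_lit 200) (nat_lit 108) (nat_lit 202)) (PT.lf (nat_lit 4180) (nat_lit 3) (nat_lit 55) (nat_lit 1) (nat_lit 201) (nat_lit 108) (nat_lit 201))) (PT.nd (nat_lit 52884) (PT.lf (nat_lit 4104) (nat_lit 6) (nat_lit 54) (nat_lit 1) (nat_lit 202) (nat_lit 108) (nat_lit 200)) (PT.lf (nat_lit 4256) (nat_lit 6) (nat_lit 56) (nat_lit 3) (nat_lit 199) (nat_lit 109) (nat_lit 202)))) (PT.nd (nat_lit 156) (PT.nd (nat_lit 78) (PT.lf (nat_lit 4332) (nat_lit 6) (nat_lit 57) (nat_lit 3) (nat_lit 200)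 (nat_lit 109) (nat_lit 201)) (PT.lf (nat_lit 4332) (nat_lit 6) (nat_lit 57) (nat_lit 1) (nat_lit 201) (nat_lit 109) (nat_lit 200))) (PT.nd (nat_lit 52884) (PT.lf (nat_lit 4256) (nat_lit 6) (nat_lit 56) (nat_lit 1) (nat_lit 202) (nat_lit 109) (nat_lit 199)) (PT.lf (nat_lit 4408) (nat_lit 6) (nat_lit 58) (nat_lit 3) (nat_lit 199) (nat_lit 110) (nat_lit 201))))) (PT.nd (nat_lit 53118) (PT.nd (nat_lit 52962) (PT.nd (nat_lit 78) (PT.lf (nat_lit 4484) (nat_lit 3) (nat_lit 59) (nat_lit 1) (nat_lit 200) (nat_lit 110) (nat_lit 200)) (PT.lf (nat_lit 4408) (nat_lit 6) (nat_lit 58) (nat_lit 1) (nat_lit 201) (nat_lit 110) (nat_lit 199))) (PT.nd (nat_lit 78) (PT.lf (nat_lit 4560) (nat_lit 6) (nat_lit 60) (nat_lit 3) (nat_lit 198) (nat_lit 111) (nat_lit 201)) (PT.lf (nat_lit 4636) (nat_lit 6) (nat_lit 61) (nat_lit 3) (nat_lit 199) (nat_lit 111) (nat_lit 200)))) (PT.nd (nat_lit 52962) (PT.nd (nat_lit 78) (PT.lf (nat_lit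 4636) (nat_lit 6) (nat_lit 61) (nat_lit 1) (nat_lit 200) (nat_lit 111) (nat_lit 199)) (PT.lf (nat_lit 4560) (nat_lit 6) (nat_lit 60) (nat_lit 1) (nat_lit 201) (nat_lit 111) (nat_lit 198))) (PT.nd (nat_lit 78) (PT.lf (nat_lit 4788) (nat_lit 6) (nat_lit 63) (nat_lit 3) (nat_lit 198) (nat_lit 112) (nat_lit 200)) (PT.lf (nat_lit 4864) (nat_lit 3) (nat_lit 64) (nat_lit 1) (nat_lit 199) (nat_lit 112) (nat_lit 199))))))) (PT.nd (nat_lit 212316) (PT.nd (nat_lit 106158) (PT.nd (nat_lit 53040) (PT.nd (nat_lit 52884) (PT.lf (nat_lit 4788) (nat_lit 6) (nat_lit 63) (nat_lit 1) (nat_lit 200) (nat_lit 112) (nat_lit 198)) (PT.nd (nat_lit 78) (PT.lf (nat_lit 4940) (nat_lit 6) (nat_lit 65) (nat_lit 3) (nat_lit 197) (nat_lit 113) (nat_lit 200)) (PT.lf (nat_lit 5016) (nat_lit 6) (nat_lit 66) (nat_lit 3) (nat_lit 198) (nat_lit 113) (nat_lit 199)))) (PT.nd (nat_lit 52962) (PT.nd (nat_lit 78) (PT.lf (nat_lit 5016) (nat_lit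 6) (nat_lit 66) (nat_lit 1) (nat_lit 199) (nat_lit 113) (nat_lit 198)) (PT.lf (nat_lit 4940) (nat_lit 6) (nat_lit 65) (nat_lit 1) (nat_lit 200) (nat_lit 113) (nat_lit 197))) (PT.nd (nat_lit 78) (PT.lf (nat_lit 5168) (nat_lit 6) (nat_lit 68) (nat_lit 3) (nat_lit 197) (nat_lit 114) (nat_lit 199)) (PT.lf (nat_lit 5244) (nat_lit 3) (nat_lit 69) (nat_lit 1) (nat_lit 198) (nat_lit 114) (nat_lit 198))))) (PT.nd (nat_lit 53118) (PT.nd (nat_lit 52962) (PT.nd (nat_lit 52884) (PT.lf (nat_lit 5168) (nat_lit 6) (nat_lit 68) (nat_lit 1) (nat_lit 199) (nat_lit 114) (nat_lit 197)) (PT.lf (nat_lit 5320) (nat_lit 6) (nat_lit 70) (nat_lit 3) (nat_lit 196) (nat_lit 115) (nat_lit 199))) (PT.nd (nat_lit 78) (PT.lf (nat_lit 5396) (nat_lit 6) (nat_lit 71) (nat_lit 3) (nat_lit 197) (nat_lit 115) (nat_lit 198)) (PT.lf (nat_lit 5396) (nat_lit 6) (nat_lit 71) (nat_lit 1) (nat_lit 198) (nat_lit 115) (nat_lit 197)))) (PT.nd (nat_lit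 52884) (PT.nd (nat_lit 52806) (PT.lf (nat_lit 5320) (nat_lit 6) (nat_lit 70) (nat_lit 1) (nat_lit 199) (nat_lit 115) (nat_lit 196)) (PT.lf (nat_lit 5472) (nat_lit 6) (nat_lit 72) (nat_lit 3) (nat_lit 195) (nat_lit 116) (nat_lit 199))) (PT.nd (nat_lit 78) (PT.lf (nat_lit 5548) (nat_lit 6) (nat_lit 73) (nat_lit 3) (nat_lit 196) (nat_lit 116) (nat_lit 198)) (PT.lf (nat_lit 5624) (nat_lit 3) (nat_lit 74) (nat_lit 1) (nat_lit 197) (nat_lit 116) (nat_lit 197)))))) (PT.nd (nat_lit 106080) (PT.nd (nat_lit 53040) (PT.nd (nat_lit 52884) (PT.nd (nat_lit 78) (PT.lf (nat_lit 5548) (nat_lit 6) (nat_lit 73) (nat_lit 1) (nat_lit 198) (nat_lit 116) (nat_lit 196)) (PT.lf (nat_lit 5472) (nat_lit 6) (nat_lit 72) (nat_lit 1) (nat_lit 199) (nat_lit 116) (nat_lit 195))) (PT.nd (nat_lit 78) (PT.lf (nat_lit 5700) (nat_lit 6) (nat_lit 75) (nat_lit 3) (nat_lit 195) (nat_lit 117) (nat_lit 198)) (PT.lf (nat_lit 5776) (nat_lit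 6) (nat_lit 76) (nat_lit 3) (nat_lit 196) (nat_lit 117) (nat_lit 197)))) (PT.nd (nat_lit 52884) (PT.nd (nat_lit 78) (PT.lf (nat_lit 5776) (nat_lit 6) (nat_lit 76) (nat_lit 1) (nat_lit 197) (nat_lit 117) (nat_lit 196)) (PT.lf (nat_lit 5700) (nat_lit 6) (nat_lit 75) (nat_lit 1) (nat_lit 198) (nat_lit 117) (nat_lit 195))) (PT.nd (nat_lit 78) (PT.lf (nat_lit 5852) (nat_lit 6) (nat_lit 77) (nat_lit 3) (nat_lit 194) (nat_lit 118) (nat_lit 198)) (PT.lf (nat_lit 5928) (nat_lit 6) (nat_lit 78) (nat_lit 3) (nat_lit 195) (nat_lit 118) (nat_lit 197))))) (PT.nd (nat_lit 53040) (PT.nd (nat_lit 156) (PT.nd (nat_lit 78) (PT.lf (nat_lit 6004) (nat_lit 3) (nat_lit 79) (nat_lit 1) (nat_lit 196) (nat_lit 118) (nat_lit 196)) (PT.lf (nat_lit 5928) (nat_lit 6) (nat_lit 78) (nat_lit 1) (nat_lit 197) (nat_lit 118) (nat_lit 195))) (PT.nd (nat_lit 52806) (PT.lf (nat_lit 5852) (nat_lit 6) (nat_lit 77) (nat_lit 1) (nat_lit 198)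 (nat_lit 118) (nat_lit 194)) (PT.lf (nat_lit 6080) (nat_lit 6) (nat_lit 80) (nat_lit 3) (nat_lit 194) (nat_lit 119) (nat_lit 197)))) (PT.nd (nat_lit 156) (PT.nd (nat_lit 78) (PT.lf (nat_lit 6156) (nat_lit 6) (nat_lit 81) (nat_lit 3) (nat_lit 195) (nat_lit 119) (nat_lit 196)) (PT.lf (nat_lit 6156) (nat_lit 6) (nat_lit 81) (nat_lit 1) (nat_lit 196) (nat_lit 119) (nat_lit 195))) (PT.nd (nat_lit 52806) (PT.lf (nat_lit 6080) (nat_lit 6) (nat_lit 80) (nat_lit 1) (nat_lit 197) (nat_lit 119) (nat_lit 194)) (PT.lf (nat_lit 6232) (nat_lit 6) (nat_lit 82) (nat_lit 3) (nat_lit 193) (nat_lit 120) (nat_lit 197))))))))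
noncomputable def pc1 : PT := (PT.nd (nat_lit 318396) (PT.nd (nat_lit 159276) (PT.nd (nat_lit 53274) (PT.nd (nat_lit 234) (PT.nd (nat_lit 78) (PT.lf (nat_lit 6308) (nat_lit 6) (nat_lit 83) (nat_lit 3) (nat_lit 194) (nat_lit 120) (nat_lit 196)) (PT.nd (nat_lit 78) (PT.lf (nat_lit 6384) (nat_lit 3) (nat_lit 84) (nat_lit 1) (nat_lit 195) (nat_lit 120) (nat_lit 195)) (PT.lf (nat_lit 6308) (nat_lit 6) (nat_lit 83) (nat_lit 1) (nat_lit 196) (nat_lit 120) (nat_lit 194)))) (PT.nd (nat_lit 52884) (PT.nd (nat_lit 52806) (PT.lf (nat_lit 6232) (nat_lit 6) (nat_lit 82) (nat_lit 1) (nat_lit 197) (nat_lit 120) (nat_lit 193)) (PT.lf (nat_lit 6536) (nat_lit 6) (nat_lit 86) (nat_lit 3) (nat_lit 193) (nat_lit 121) (nat_lit 196))) (PT.nd (nat_lit 78) (PT.lf (nat_lit 6612) (nat_lit 6) (nat_lit 87) (nat_lit 3) (nat_lit 194) (nat_lit 121) (nat_lit 195)) (PT.lf (nat_lit 6612) (nat_lit 6) (nat_lit 87) (nat_lit 1) (nat_lit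 195) (nat_lit 121) (nat_lit 194))))) (PT.nd (nat_lit 53040) (PT.nd (nat_lit 52884) (PT.nd (nat_lit 52806) (PT.lf (nat_lit 6536) (nat_lit 6) (nat_lit 86) (nat_lit 1) (nat_lit 196) (nat_lit 121) (nat_lit 193)) (PT.lf (nat_lit 6688) (nat_lit 6) (nat_lit 88) (nat_lit 3) (nat_lit 192) (nat_lit 122) (nat_lit 196))) (PT.nd (nat_lit 78) (PT.lf (nat_lit 6764) (nat_lit 6) (nat_lit 89) (nat_lit 3) (nat_lit 193) (nat_lit 122) (nat_lit 195)) (PT.lf (nat_lit 6840) (nat_lit 3) (nat_lit 90) (nat_lit 1) (nat_lit 194) (nat_lit 122) (nat_lit 194)))) (PT.nd (nat_lit 52806) (PT.nd (nat_lit 78) (PT.lf (nat_lit 6764) (nat_lit 6) (nat_lit 89) (nat_lit 1) (nat_lit 195) (nat_lit 122) (nat_lit 193)) (PT.lf (nat_lit 6688) (nat_lit 6) (nat_lit 88) (nat_lit 1) (nat_lit 196) (nat_lit 122) (nat_lit 192))) (PT.nd (nat_lit 78) (PT.lf (nat_lit 6916) (nat_lit 6) (nat_lit 91) (nat_lit 3) (nat_lit 191) (nat_lit 123) (nat_lit 196)) (PT.lf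 (nat_lit 6992) (nat_lit 6) (nat_lit 92) (nat_lit 3) (nat_lit 192) (nat_lit 123) (nat_lit 195)))))) (PT.nd (nat_lit 53274) (PT.nd (nat_lit 52962) (PT.nd (nat_lit 156) (PT.nd (nat_lit 78) (PT.lf (nat_lit 7068) (nat_lit 6) (nat_lit 93) (nat_lit 3) (nat_lit 193) (nat_lit 123) (nat_lit 194)) (PT.lf (nat_lit 7068) (nat_lit 6) (nat_lit 93) (nat_lit 1) (nat_lit 194) (nat_lit 123) (nat_lit 193))) (PT.nd (nat_lit 78) (PT.lf (nat_lit 6992) (nat_lit 6) (nat_lit 92) (nat_lit 1) (nat_lit 195) (nat_lit 123) (nat_lit 192)) (PT.lf (nat_lit 6916) (nat_lit 6) (nat_lit 91) (nat_lit 1) (nat_lit 196) (nat_lit 123) (nat_lit 191)))) (PT.nd (nat_lit 156) (PT.nd (nat_lit 78) (PT.lf (nat_lit 7144) (nat_lit 6) (nat_lit 94) (nat_lit 3) (nat_lit 191) (nat_lit 124) (nat_lit 195)) (PT.lf (nat_lit 7220) (nat_lit 6) (nat_lit 95) (nat_lit 3) (nat_lit 192) (nat_lit 124) (nat_lit 194))) (PT.nd (nat_lit 78) (PT.lf (nat_lit 7296) (nat_lit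 3) (nat_lit 96) (nat_lit 1) (nat_lit 193) (nat_lit 124) (nat_lit 193)) (PT.lf (nat_lit 7220) (nat_lit 6) (nat_lit 95) (nat_lit 1) (nat_lit 194) (nat_lit 124) (nat_lit 192))))) (PT.nd (nat_lit 52962) (PT.nd (nat_lit 52806) (PT.nd (nat_lit 52728) (PT.lf (nat_lit 7144) (nat_lit 6) (nat_lit 94) (nat_lit 1) (nat_lit 195) (nat_lit 124) (nat_lit 191)) (PT.lf (nat_lit 7372) (nat_lit 6) (nat_lit 97) (nat_lit 3) (nat_lit 190) (nat_lit 125) (nat_lit 195))) (PT.nd (nat_lit 78) (PT.lf (nat_lit 7448) (nat_lit 6) (nat_lit 98) (nat_lit 3) (nat_lit 191) (nat_lit 125) (nat_lit 194)) (PT.lf (nat_lit 7524) (nat_lit 6) (nat_lit 99) (nat_lit 3) (nat_lit 192) (nat_lit 125) (nat_lit 193)))) (PT.nd (nat_lit 156) (PT.nd (nat_lit 78) (PT.lf (nat_lit 7524) (nat_lit 6) (nat_lit 99) (nat_lit 1) (nat_lit 193) (nat_lit 125) (nat_lit 192)) (PT.lf (nat_lit 7448) (nat_lit 6) (nat_lit 98) (nat_lit 1) (nat_lit 194) (nat_lit 125) (nat_lit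 191))) (PT.nd (nat_lit 52650) (PT.lf (nat_lit 7372) (nat_lit 6) (nat_lit 97) (nat_lit 1) (nat_lit 195) (nat_lit 125) (nat_lit 190)) (PT.lf (nat_lit 7600) (nat_lit 6) (nat_lit 100) (nat_lit 3) (nat_lit 189) (nat_lit 126) (nat_lit 195))))))) (PT.nd (nat_lit 106314) (PT.nd (nat_lit 53118) (PT.nd (nat_lit 234) (PT.nd (nat_lit 78) (PT.lf (nat_lit 7676) (nat_lit 6) (nat_lit 101) (nat_lit 3) (nat_lit 190) (nat_lit 126) (nat_lit 194)) (PT.nd (nat_lit 78) (PT.lf (nat_lit 7752) (nat_lit 6) (nat_lit 102) (nat_lit 3) (nat_lit 191) (nat_lit 126) (nat_lit 193)) (PT.lf (nat_lit 7828) (nat_lit 3) (nat_lit 103) (nat_lit 1) (nat_lit 192) (nat_lit 126) (nat_lit 192)))) (PT.nd (nat_lit 156) (PT.nd (nat_lit 78) (PT.lf (nat_lit 7752) (nat_lit 6) (nat_lit 102) (nat_lit 1) (nat_lit 193) (nat_lit 126) (nat_lit 191)) (PT.lf (nat_lit 7676) (nat_lit 6) (nat_lit 101) (nat_lit 1) (nat_lit 194) (nat_lit 126) (nat_lit 190))) (PT.nd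 (nat_lit 52650) (PT.lf (nat_lit 7600) (nat_lit 6) (nat_lit 100) (nat_lit 1) (nat_lit 195) (nat_lit 126) (nat_lit 189)) (PT.lf (nat_lit 7904) (nat_lit 6) (nat_lit 104) (nat_lit 3) (nat_lit 189) (nat_lit 127) (nat_lit 194))))) (PT.nd (nat_lit 312) (PT.nd (nat_lit 156) (PT.nd (nat_lit 78) (PT.lf (nat_lit 7980) (nat_lit 6) (nat_lit 105) (nat_lit 3) (nat_lit 190) (nat_lit 127) (nat_lit 193)) (PT.lf (nat_lit 8056) (nat_lit 6) (nat_lit 106) (nat_lit 3) (nat_lit 191) (nat_lit 127) (nat_lit 192))) (PT.nd (nat_lit 78) (PT.lf (nat_lit 8056) (nat_lit 6) (nat_lit 106) (nat_lit 1) (nat_lit 192) (nat_lit 127) (nat_lit 191)) (PT.lf (nat_lit 7980) (nat_lit 6) (nat_lit 105) (nat_lit 1) (nat_lit 193) (nat_lit 127) (nat_lit 190)))) (PT.nd (nat_lit 52728) (PT.nd (nat_lit 52650) (PT.lf (nat_lit 7904) (nat_lit 6) (nat_lit 104) (nat_lit 1) (nat_lit 194) (nat_lit 127) (nat_lit 189)) (PT.lf (nat_lit 8132) (nat_lit 6) (nat_lit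 107) (nat_lit 3) (nat_lit 188) (nat_lit 128) (nat_lit 194))) (PT.nd (nat_lit 78) (PT.lf (nat_lit 8208) (nat_lit 6) (nat_lit 108) (nat_lit 3) (nat_lit 189) (nat_lit 128) (nat_lit 193)) (PT.lf (nat_lit 8284) (nat_lit 6) (nat_lit 109) (nat_lit 3) (nat_lit 190) (nat_lit 128) (nat_lit 192)))))) (PT.nd (nat_lit 53196) (PT.nd (nat_lit 52884) (PT.nd (nat_lit 156) (PT.nd (nat_lit 78) (PT.lf (nat_lit 8360) (nat_lit 3) (nat_lit 110) (nat_lit 1) (nat_lit 191) (nat_lit 128) (nat_lit 191)) (PT.lf (nat_lit 8284) (nat_lit 6) (nat_lit 109) (nat_lit 1) (nat_lit 192) (nat_lit 128) (nat_lit 190))) (PT.nd (nat_lit 78) (PT.lf (nat_lit 8208) (nat_lit 6) (nat_lit 108) (nat_lit 1) (nat_lit 193) (nat_lit 128) (nat_lit 189)) (PT.lf (nat_lit 8132) (nat_lit 6) (nat_lit 107) (nat_lit 1) (nat_lit 194) (nat_lit 128) (nat_lit 188)))) (PT.nd (nat_lit 156) (PT.nd (nat_lit 78) (PT.lf (nat_lit 8436) (nat_lit 6) (nat_lit 111) (nat_lit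 3) (nat_lit 188) (nat_lit 129) (nat_lit 193)) (PT.lf (nat_lit 8512) (nat_lit 6) (nat_lit 112) (nat_lit 3) (nat_lit 189) (nat_lit 129) (nat_lit 192))) (PT.nd (nat_lit 78) (PT.lf (nat_lit 8588) (nat_lit 6) (nat_lit 113) (nat_lit 3) (nat_lit 190) (nat_lit 129) (nat_lit 191)) (PT.lf (nat_lit 8588) (nat_lit 6) (nat_lit 113) (nat_lit 1) (nat_lit 191) (nat_lit 129) (nat_lit 190))))) (PT.nd (nat_lit 52884) (PT.nd (nat_lit 52728) (PT.nd (nat_lit 78) (PT.lf (nat_lit 8512) (nat_lit 6) (nat_lit 112) (nat_lit 1) (nat_lit 192) (nat_lit 129) (nat_lit 189)) (PT.lf (nat_lit 8436) (nat_lit 6) (nat_lit 111) (nat_lit 1) (nat_lit 193) (nat_lit 129) (nat_lit 188))) (PT.nd (nat_lit 78) (PT.lf (nat_lit 8664) (nat_lit 6) (nat_lit 114) (nat_lit 3) (nat_lit 187) (nat_lit 130) (nat_lit 193)) (PT.lf (nat_lit 8740) (nat_lit 6) (nat_lit 115) (nat_lit 3) (nat_lit 188) (nat_lit 130) (nat_lit 192)))) (PT.nd (nat_lit 156) (PT.nd (nat_lit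 78) (PT.lf (nat_lit 8816) (nat_lit 6) (nat_lit 116) (nat_lit 3) (nat_lit 189) (nat_lit 130) (nat_lit 191)) (PT.lf (nat_lit 8892) (nat_lit 3) (nat_lit 117) (nat_lit 1) (nat_lit 190) (nat_lit 130) (nat_lit 190))) (PT.nd (nat_lit 78) (PT.lf (nat_lit 8816) (nat_lit 6) (nat_lit 116) (nat_lit 1) (nat_lit 191) (nat_lit 130) (nat_lit 189)) (PT.lf (nat_lit 8740) (nat_lit 6) (nat_lit 115) (nat_lit 1) (nat_lit 192) (nat_lit 130) (nat_lit 188))))))))
noncomputable def pc2 : PT := (PT.nd (nat_lit 212316) (PT.nd (nat_lit 106158) (PT.nd (nat_lit 53040) (PT.nd (nat_lit 52728) (PT.nd (nat_lit 52572) (PT.lf (nat_lit 8664) (nat_lit 6) (nat_lit 114) (nat_lit 1) (nat_lit 193) (nat_lit 130) (nat_lit 187)) (PT.nd (nat_lit 78) (PT.lf (nat_lit 8968) (nat_lit 6) (nat_lit 118) (nat_lit 3) (nat_lit 186) (nat_lit 131) (nat_lit 193)) (PT.lf (nat_lit 9044) (nat_lit 6) (nat_lit 119) (nat_lit 3) (nat_lit 187) (nat_lit 131) (nat_lit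 192)))) (PT.nd (nat_lit 156) (PT.nd (nat_lit 78) (PT.lf (nat_lit 9120) (nat_lit 6) (nat_lit 120) (nat_lit 3) (nat_lit 188) (nat_lit 131) (nat_lit 191)) (PT.lf (nat_lit 9196) (nat_lit 6) (nat_lit 121) (nat_lit 3) (nat_lit 189) (nat_lit 131) (nat_lit 190))) (PT.nd (nat_lit 78) (PT.lf (nat_lit 9196) (nat_lit 6) (nat_lit 121) (nat_lit 1) (nat_lit 190) (nat_lit 131) (nat_lit 189)) (PT.lf (nat_lit 9120) (nat_lit 6) (nat_lit 120) (nat_lit 1) (nat_lit 191) (nat_lit 131) (nat_lit 188))))) (PT.nd (nat_lit 52806) (PT.nd (nat_lit 52650) (PT.nd (nat_lit 78) (PT.lf (nat_lit 9044) (nat_lit 6) (nat_lit 119) (nat_lit 1) (nat_lit 192) (nat_lit 131) (nat_lit 187)) (PT.lf (nat_lit 8968) (nat_lit 6) (nat_lit 118) (nat_lit 1) (nat_lit 193) (nat_lit 131) (nat_lit 186))) (PT.nd (nat_lit 78) (PT.lf (nat_lit 9272) (nat_lit 6) (nat_lit 122) (nat_lit 3) (nat_lit 186) (nat_lit 132) (nat_lit 192)) (PT.lf (nat_lit 9348) (nat_lit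 6) (nat_lit 123) (nat_lit 3) (nat_lit 187) (nat_lit 132) (nat_lit 191)))) (PT.nd (nat_lit 156) (PT.nd (nat_lit 78) (PT.lf (nat_lit 9424) (nat_lit 6) (nat_lit 124) (nat_lit 3) (nat_lit 188) (nat_lit 132) (nat_lit 190)) (PT.lf (nat_lit 9500) (nat_lit 3) (nat_lit 125) (nat_lit 1) (nat_lit 189) (nat_lit 132) (nat_lit 189))) (PT.nd (nat_lit 78) (PT.lf (nat_lit 9424) (nat_lit 6) (nat_lit 124) (nat_lit 1) (nat_lit 190) (nat_lit 132) (nat_lit 188)) (PT.lf (nat_lit 9348) (nat_lit 6) (nat_lit 123) (nat_lit 1) (nat_lit 191) (nat_lit 132) (nat_lit 187)))))) (PT.nd (nat_lit 53118) (PT.nd (nat_lit 52806) (PT.nd (nat_lit 52650) (PT.nd (nat_lit 52572) (PT.lf (nat_lit 9272) (nat_lit 6) (nat_lit 122) (nat_lit 1) (nat_lit 192) (nat_lit 132) (nat_lit 186)) (PT.lf (nat_lit 9576) (nat_lit 6) (nat_lit 126) (nat_lit 3) (nat_lit 185) (nat_lit 133) (nat_lit 192))) (PT.nd (nat_lit 78) (PT.lf (nat_lit 9652) (nat_lit 6) (nat_lit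 127) (nat_lit 3) (nat_lit 186) (nat_lit 133) (nat_lit 191)) (PT.lf (nat_lit 9728) (nat_lit 6) (nat_lit 128) (nat_lit 3) (nat_lit 187) (nat_lit 133) (nat_lit 190)))) (PT.nd (nat_lit 156) (PT.nd (nat_lit 78) (PT.lf (nat_lit 9804) (nat_lit 6) (nat_lit 129) (nat_lit 3) (nat_lit 188) (nat_lit 133) (nat_lit 189)) (PT.lf (nat_lit 9804) (nat_lit 6) (nat_lit 129) (nat_lit 1) (nat_lit 189) (nat_lit 133) (nat_lit 188))) (PT.nd (nat_lit 78) (PT.lf (nat_lit 9728) (nat_lit 6) (nat_lit 128) (nat_lit 1) (nat_lit 190) (nat_lit 133) (nat_lit 187)) (PT.lf (nat_lit 9652) (nat_lit 6) (nat_lit 127) (nat_lit 1) (nat_lit 191) (nat_lit 133) (nat_lit 186))))) (PT.nd (nat_lit 52728) (PT.nd (nat_lit 52572) (PT.nd (nat_lit 52494) (PT.lf (nat_lit 9576) (nat_lit 6) (nat_lit 126) (nat_lit 1) (nat_lit 192) (nat_lit 133) (nat_lit 185)) (PT.lf (nat_lit 9880) (nat_lit 6) (nat_lit 130) (nat_lit 3) (nat_lit 184) (nat_lit 134) (nat_lit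 192))) (PT.nd (nat_lit 78) (PT.lf (nat_lit 9956) (nat_lit 6) (nat_lit 131) (nat_lit 3) (nat_lit 185) (nat_lit 134) (nat_lit 191)) (PT.lf (nat_lit 10032) (nat_lit 6) (nat_lit 132) (nat_lit 3) (nat_lit 186) (nat_lit 134) (nat_lit 190)))) (PT.nd (nat_lit 156) (PT.nd (nat_lit 78) (PT.lf (nat_lit 10108) (nat_lit 6) (nat_lit 133) (nat_lit 3) (nat_lit 187) (nat_lit 134) (nat_lit 189)) (PT.lf (nat_lit 10184) (nat_lit 3) (nat_lit 134) (nat_lit 1) (nat_lit 188) (nat_lit 134) (nat_lit 188))) (PT.nd (nat_lit 78) (PT.lf (nat_lit 10108) (nat_lit 6) (nat_lit 133) (nat_lit 1) (nat_lit 189) (nat_lit 134) (nat_lit 187)) (PT.lf (nat_lit 10032) (nat_lit 6) (nat_lit 132) (nat_lit 1) (nat_lit 190) (nat_lit 134) (nat_lit 186))))))) (PT.nd (nat_lit 106002) (PT.nd (nat_lit 52962) (PT.nd (nat_lit 52650) (PT.nd (nat_lit 78) (PT.lf (nat_lit 9956) (nat_lit 6) (nat_lit 131) (nat_lit 1) (nat_lit 191) (nat_lit 134) (nat_lit 185))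 (PT.nd (nat_lit 52494) (PT.lf (nat_lit 9880) (nat_lit 6) (nat_lit 130) (nat_lit 1) (nat_lit 192) (nat_lit 134) (nat_lit 184)) (PT.lf (nat_lit 10260) (nat_lit 6) (nat_lit 135) (nat_lit 3) (nat_lit 184) (nat_lit 135) (nat_lit 191)))) (PT.nd (nat_lit 156) (PT.nd (nat_lit 78) (PT.lf (nat_lit 10336) (nat_lit 6) (nat_lit 136) (nat_lit 3) (nat_lit 185) (nat_lit 135) (nat_lit 190)) (PT.lf (nat_lit 10412) (nat_lit 6) (nat_lit 137) (nat_lit 3) (nat_lit 186) (nat_lit 135) (nat_lit 189))) (PT.nd (nat_lit 78) (PT.lf (nat_lit 10488) (nat_lit 6) (nat_lit 138) (nat_lit 3) (nat_lit 187) (nat_lit 135) (nat_lit 188)) (PT.lf (nat_lit 10488) (nat_lit 6) (nat_lit 138) (nat_lit 1) (nat_lit 188) (nat_lit 135) (nat_lit 187))))) (PT.nd (nat_lit 52728) (PT.nd (nat_lit 156) (PT.nd (nat_lit 78) (PT.lf (nat_lit 10412) (nat_lit 6) (nat_lit 137) (nat_lit 1) (nat_lit 189) (nat_lit 135) (nat_lit 186)) (PT.lf (nat_lit 10336) (nat_lit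 6) (nat_lit 136) (nat_lit 1) (nat_lit 190) (nat_lit 135) (nat_lit 185))) (PT.nd (nat_lit 52494) (PT.lf (nat_lit 10260) (nat_lit 6) (nat_lit 135) (nat_lit 1) (nat_lit 191) (nat_lit 135) (nat_lit 184)) (PT.lf (nat_lit 10564) (nat_lit 6) (nat_lit 139) (nat_lit 3) (nat_lit 183) (nat_lit 136) (nat_lit 191)))) (PT.nd (nat_lit 156) (PT.nd (nat_lit 78) (PT.lf (nat_lit 10640) (nat_lit 6) (nat_lit 140) (nat_lit 3) (nat_lit 184) (nat_lit 136) (nat_lit 190)) (PT.lf (nat_lit 10716) (nat_lit 6) (nat_lit 141) (nat_lit 3) (nat_lit 185) (nat_lit 136) (nat_lit 189))) (PT.nd (nat_lit 78) (PT.lf (nat_lit 10792) (nat_lit 6) (nat_lit 142) (nat_lit 3) (nat_lit 186) (nat_lit 136) (nat_lit 188)) (PT.lf (nat_lit 10868) (nat_lit 3) (nat_lit 143) (nat_lit 1) (nat_lit 187) (nat_lit 136) (nat_lit 187)))))) (PT.nd (nat_lit 52962) (PT.nd (nat_lit 52650) (PT.nd (nat_lit 156) (PT.nd (nat_lit 78) (PT.lf (nat_lit 10792) (nat_lit 6) (nat_lit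 142) (nat_lit 1) (nat_lit 188) (nat_lit 136) (nat_lit 186)) (PT.lf (nat_lit 10716) (nat_lit 6) (nat_lit 141) (nat_lit 1) (nat_lit 189) (nat_lit 136) (nat_lit 185))) (PT.nd (nat_lit 78) (PT.lf (nat_lit 10640) (nat_lit 6) (nat_lit 140) (nat_lit 1) (nat_lit 190) (nat_lit 136) (nat_lit 184)) (PT.lf (nat_lit 10564) (nat_lit 6) (nat_lit 139) (nat_lit 1) (nat_lit 191) (nat_lit 136) (nat_lit 183)))) (PT.nd (nat_lit 156) (PT.nd (nat_lit 78) (PT.lf (nat_lit 10944) (nat_lit 6) (nat_lit 144) (nat_lit 3) (nat_lit 182) (nat_lit 137) (nat_lit 191)) (PT.lf (nat_lit 11020) (nat_lit 6) (nat_lit 145) (nat_lit 3) (nat_lit 183) (nat_lit 137) (nat_lit 190))) (PT.nd (nat_lit 78) (PT.lf (nat_lit 11096) (nat_lit 6) (nat_lit 146) (nat_lit 3) (nat_lit 184) (nat_lit 137) (nat_lit 189)) (PT.lf (nat_lit 11172) (nat_lit 6) (nat_lit 147) (nat_lit 3) (nat_lit 185) (nat_lit 137) (nat_lit 188))))) (PT.nd (nat_lit 312) (PT.nd (nat_lit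 156) (PT.nd (nat_lit 78) (PT.lf (nat_lit 11248) (nat_lit 6) (nat_lit 148) (nat_lit 3) (nat_lit 186) (nat_lit 137) (nat_lit 187)) (PT.lf (nat_lit 11248) (nat_lit 6) (nat_lit 148) (nat_lit 1) (nat_lit 187) (nat_lit 137) (nat_lit 186))) (PT.nd (nat_lit 78) (PT.lf (nat_lit 11172) (nat_lit 6) (nat_lit 147) (nat_lit 1) (nat_lit 188) (nat_lit 137) (nat_lit 185)) (PT.lf (nat_lit 11096) (nat_lit 6) (nat_lit 146) (nat_lit 1) (nat_lit 189) (nat_lit 137) (nat_lit 184)))) (PT.nd (nat_lit 52494) (PT.nd (nat_lit 78) (PT.lf (nat_lit 11020) (nat_lit 6) (nat_lit 145) (nat_lit 1) (nat_lit 190) (nat_lit 137) (nat_lit 183)) (PT.lf (nat_lit 10944) (nat_lit 6) (nat_lit 144) (nat_lit 1) (nat_lit 191) (nat_lit 137) (nat_lit 182))) (PT.nd (nat_lit 78) (PT.lf (nat_lit 11324) (nat_lit 6) (nat_lit 149) (nat_lit 3) (nat_lit 182) (nat_lit 138) (nat_lit 190)) (PT.lf (nat_lit 11400) (nat_lit 6) (nat_lit 150) (nat_lit 3) (nat_lit 183)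 (nat_lit 138) (nat_lit 189))))))))
noncomputable def pc3 : PT := (PT.nd (nat_lit 159276) (PT.nd (nat_lit 53508) (PT.nd (nat_lit 52884) (PT.nd (nat_lit 234) (PT.nd (nat_lit 78) (PT.lf (nat_lit 11476) (nat_lit 6) (nat_lit 151) (nat_lit 3) (nat_lit 184) (nat_lit 138) (nat_lit 188)) (PT.nd (nat_lit 78) (PT.lf (nat_lit 11552) (nat_lit 6) (nat_lit 152) (nat_lit 3) (nat_lit 185) (nat_lit 138) (nat_lit 187)) (PT.lf (nat_lit 11628) (nat_lit 3) (nat_lit 153) (nat_lit 1) (nat_lit 186) (nat_lit 138) (nat_lit 186)))) (PT.nd (nat_lit 156) (PT.nd (nat_lit 78) (PT.lf (nat_lit 11552) (nat_lit 6) (nat_lit 152) (nat_lit 1) (nat_lit 187) (nat_lit 138) (nat_lit 185)) (PT.lf (nat_lit 11476) (nat_lit 6) (nat_lit 151) (nat_lit 1) (nat_lit 188) (nat_lit 138) (nat_lit 184))) (PT.nd (nat_lit 78) (PT.lf (nat_lit 11400) (nat_lit 6) (nat_lit 150) (nat_lit 1) (nat_lit 189) (nat_lit 138) (nat_lit 183)) (PT.lf (nat_lit 11324) (nat_lit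 6) (nat_lit 149) (nat_lit 1) (nat_lit 190) (nat_lit 138) (nat_lit 182))))) (PT.nd (nat_lit 312) (PT.nd (nat_lit 156) (PT.nd (nat_lit 78) (PT.lf (nat_lit 11704) (nat_lit 6) (nat_lit 154) (nat_lit 3) (nat_lit 181) (nat_lit 139) (nat_lit 190)) (PT.lf (nat_lit 11780) (nat_lit 6) (nat_lit 155) (nat_lit 3) (nat_lit 182) (nat_lit 139) (nat_lit 189))) (PT.nd (nat_lit 78) (PT.lf (nat_lit 11856) (nat_lit 6) (nat_lit 156) (nat_lit 3) (nat_lit 183) (nat_lit 139) (nat_lit 188)) (PT.lf (nat_lit 11932) (nat_lit 6) (nat_lit 157) (nat_lit 3) (nat_lit 184) (nat_lit 139) (nat_lit 187)))) (PT.nd (nat_lit 156) (PT.nd (nat_lit 78) (PT.lf (nat_lit 12008) (nat_lit 6) (nat_lit 158) (nat_lit 3) (nat_lit 185) (nat_lit 139) (nat_lit 186)) (PT.lf (nat_lit 12008) (nat_lit 6) (nat_lit 158) (nat_lit 1) (nat_lit 186) (nat_lit 139) (nat_lit 185))) (PT.nd (nat_lit 78) (PT.lf (nat_lit 11932) (nat_lit 6) (nat_lit 157) (nat_lit 1) (nat_lit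 187) (nat_lit 139) (nat_lit 184)) (PT.lf (nat_lit 11856) (nat_lit 6) (nat_lit 156) (nat_lit 1) (nat_lit 188) (nat_lit 139) (nat_lit 183)))))) (PT.nd (nat_lit 52884) (PT.nd (nat_lit 52572) (PT.nd (nat_lit 52416) (PT.nd (nat_lit 78) (PT.lf (nat_lit 11780) (nat_lit 6) (nat_lit 155) (nat_lit 1) (nat_lit 189) (nat_lit 139) (nat_lit 182)) (PT.lf (nat_lit 11704) (nat_lit 6) (nat_lit 154) (nat_lit 1) (nat_lit 190) (nat_lit 139) (nat_lit 181))) (PT.nd (nat_lit 78) (PT.lf (nat_lit 12084) (nat_lit 6) (nat_lit 159) (nat_lit 3) (nat_lit 180) (nat_lit 140) (nat_lit 190)) (PT.lf (nat_lit 12160) (nat_lit 6) (nat_lit 160) (nat_lit 3) (nat_lit 181) (nat_lit 140) (nat_lit 189)))) (PT.nd (nat_lit 156) (PT.nd (nat_lit 78) (PT.lf (nat_lit 12236) (nat_lit 6) (nat_lit 161) (nat_lit 3) (nat_lit 182) (nat_lit 140) (nat_lit 188)) (PT.lf (nat_lit 12312) (nat_lit 6) (nat_lit 162) (nat_lit 3) (nat_lit 183) (nat_lit 140) (nat_lit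 187))) (PT.nd (nat_lit 78) (PT.lf (nat_lit 12388) (nat_lit 6) (nat_lit 163) (nat_lit 3) (nat_lit 184) (nat_lit 140) (nat_lit 186)) (PT.lf (nat_lit 12464) (nat_lit 3) (nat_lit 164) (nat_lit 1) (nat_lit 185) (nat_lit 140) (nat_lit 185))))) (PT.nd (nat_lit 312) (PT.nd (nat_lit 156) (PT.nd (nat_lit 78) (PT.lf (nat_lit 12388) (nat_lit 6) (nat_lit 163) (nat_lit 1) (nat_lit 186) (nat_lit 140) (nat_lit 184)) (PT.lf (nat_lit 12312) (nat_lit 6) (nat_lit 162) (nat_lit 1) (nat_lit 187) (nat_lit 140) (nat_lit 183))) (PT.nd (nat_lit 78) (PT.lf (nat_lit 12236) (nat_lit 6) (nat_lit 161) (nat_lit 1) (nat_lit 188) (nat_lit 140) (nat_lit 182)) (PT.lf (nat_lit 12160) (nat_lit 6) (nat_lit 160) (nat_lit 1) (nat_lit 189) (nat_lit 140) (nat_lit 181)))) (PT.nd (nat_lit 52416) (PT.nd (nat_lit 52338) (PT.lf (nat_lit 12084) (nat_lit 6) (nat_lit 159) (nat_lit 1) (nat_lit 190) (nat_lit 140) (nat_lit 180)) (PT.lf (nat_lit 12540)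 (nat_lit 6) (nat_lit 165) (nat_lit 3) (nat_lit 180) (nat_lit 141) (nat_lit 189))) (PT.nd (nat_lit 78) (PT.lf (nat_lit 12616) (nat_lit 6) (nat_lit 166) (nat_lit 3) (nat_lit 181) (nat_lit 141) (nat_lit 188)) (PT.lf (nat_lit 12692) (nat_lit 6) (nat_lit 167) (nat_lit 3) (nat_lit 182) (nat_lit 141) (nat_lit 187))))))) (PT.nd (nat_lit 53430) (PT.nd (nat_lit 52806) (PT.nd (nat_lit 234) (PT.nd (nat_lit 78) (PT.lf (nat_lit 12768) (nat_lit 6) (nat_lit 168) (nat_lit 3) (nat_lit 183) (nat_lit 141) (nat_lit 186)) (PT.nd (nat_lit 78) (PT.lf (nat_lit 12844) (nat_lit 6) (nat_lit 169) (nat_lit 3) (nat_lit 184) (nat_lit 141) (nat_lit 185)) (PT.lf (nat_lit 12844) (nat_lit 6) (nat_lit 169) (nat_lit 1) (nat_lit 185) (nat_lit 141) (nat_lit 184)))) (PT.nd (nat_lit 156) (PT.nd (nat_lit 78) (PT.lf (nat_lit 12768) (nat_lit 6) (nat_lit 168) (nat_lit 1) (nat_lit 186) (nat_lit 141) (nat_lit 183)) (PT.lf (nat_lit 12692) (nat_lit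 6) (nat_lit 167) (nat_lit 1) (nat_lit 187) (nat_lit 141) (nat_lit 182))) (PT.nd (nat_lit 78) (PT.lf (nat_lit 12616) (nat_lit 6) (nat_lit 166) (nat_lit 1) (nat_lit 188) (nat_lit 141) (nat_lit 181)) (PT.lf (nat_lit 12540) (nat_lit 6) (nat_lit 165) (nat_lit 1) (nat_lit 189) (nat_lit 141) (nat_lit 180))))) (PT.nd (nat_lit 312) (PT.nd (nat_lit 156) (PT.nd (nat_lit 78) (PT.lf (nat_lit 12920) (nat_lit 6) (nat_lit 170) (nat_lit 3) (nat_lit 179) (nat_lit 142) (nat_lit 189)) (PT.lf (nat_lit 12996) (nat_lit 6) (nat_lit 171) (nat_lit 3) (nat_lit 180) (nat_lit 142) (nat_lit 188))) (PT.nd (nat_lit 78) (PT.lf (nat_lit 13072) (nat_lit 6) (nat_lit 172) (nat_lit 3) (nat_lit 181) (nat_lit 142) (nat_lit 187)) (PT.lf (nat_lit 13148) (nat_lit 6) (nat_lit 173) (nat_lit 3) (nat_lit 182) (nat_lit 142) (nat_lit 186)))) (PT.nd (nat_lit 156) (PT.nd (nat_lit 78) (PT.lf (nat_lit 13224) (nat_lit 6) (nat_lit 174) (nat_lit 3) (nat_lit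 183) (nat_lit 142) (nat_lit 185)) (PT.lf (nat_lit 13300) (nat_lit 3) (nat_lit 175) (nat_lit 1) (nat_lit 184) (nat_lit 142) (nat_lit 184))) (PT.nd (nat_lit 78) (PT.lf (nat_lit 13224) (nat_lit 6) (nat_lit 174) (nat_lit 1) (nat_lit 185) (nat_lit 142) (nat_lit 183)) (PT.lf (nat_lit 13148) (nat_lit 6) (nat_lit 173) (nat_lit 1) (nat_lit 186) (nat_lit 142) (nat_lit 182)))))) (PT.nd (nat_lit 52806) (PT.nd (nat_lit 52494) (PT.nd (nat_lit 156) (PT.nd (nat_lit 78) (PT.lf (nat_lit 13072) (nat_lit 6) (nat_lit 172) (nat_lit 1) (nat_lit 187) (nat_lit 142) (nat_lit 181)) (PT.lf (nat_lit 12996) (nat_lit 6) (nat_lit 171) (nat_lit 1) (nat_lit 188) (nat_lit 142) (nat_lit 180))) (PT.nd (nat_lit 52260) (PT.lf (nat_lit 12920) (nat_lit 6) (nat_lit 170) (nat_lit 1) (nat_lit 189) (nat_lit 142) (nat_lit 179)) (PT.lf (nat_lit 13376) (nat_lit 6) (nat_lit 176) (nat_lit 3) (nat_lit 178) (nat_lit 143) (nat_lit 189)))) (PT.nd (nat_lit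 156) (PT.nd (nat_lit 78) (PT.lf (nat_lit 13452) (nat_lit 6) (nat_lit 177) (nat_lit 3) (nat_lit 179) (nat_lit 143) (nat_lit 188)) (PT.lf (nat_lit 13528) (nat_lit 6) (nat_lit 178) (nat_lit 3) (nat_lit 180) (nat_lit 143) (nat_lit 187))) (PT.nd (nat_lit 78) (PT.lf (nat_lit 13604) (nat_lit 6) (nat_lit 179) (nat_lit 3) (nat_lit 181) (nat_lit 143) (nat_lit 186)) (PT.lf (nat_lit 13680) (nat_lit 6) (nat_lit 180) (nat_lit 3) (nat_lit 182) (nat_lit 143) (nat_lit 185))))) (PT.nd (nat_lit 312) (PT.nd (nat_lit 156) (PT.nd (nat_lit 78) (PT.lf (nat_lit 13756) (nat_lit 6) (nat_lit 181) (nat_lit 3) (nat_lit 183) (nat_lit 143) (nat_lit 184)) (PT.lf (nat_lit 13756) (nat_lit 6) (nat_lit 181) (nat_lit 1) (nat_lit 184) (nat_lit 143) (nat_lit 183))) (PT.nd (nat_lit 78) (PT.lf (nat_lit 13680) (nat_lit 6) (nat_lit 180) (nat_lit 1) (nat_lit 185) (nat_lit 143) (nat_lit 182)) (PT.lf (nat_lit 13604) (nat_lit 6) (nat_lit 179) (nat_lit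 1) (nat_lit 186) (nat_lit 143) (nat_lit 181)))) (PT.nd (nat_lit 156) (PT.nd (nat_lit 78) (PT.lf (nat_lit 13528) (nat_lit 6) (nat_lit 178) (nat_lit 1) (nat_lit 187) (nat_lit 143) (nat_lit 180)) (PT.lf (nat_lit 13452) (nat_lit 6) (nat_lit 177) (nat_lit 1) (nat_lit 188) (nat_lit 143) (nat_lit 179))) (PT.nd (nat_lit 52260) (PT.lf (nat_lit 13376) (nat_lit 6) (nat_lit 176) (nat_lit 1) (nat_lit 189) (nat_lit 143) (nat_lit 178)) (PT.lf (nat_lit 13908) (nat_lit 6) (nat_lit 183) (nat_lit 3) (nat_lit 178) (nat_lit 144) (nat_lit 188))))))))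
noncomputable def pc4 : PT := (PT.nd (nat_lit 106704) (PT.nd (nat_lit 53352) (PT.nd (nat_lit 546) (PT.nd (nat_lit 234) (PT.nd (nat_lit 78) (PT.lf (nat_lit 13984) (nat_lit 6) (nat_lit 184) (nat_lit 3) (nat_lit 179) (nat_lit 144) (nat_lit 187)) (PT.nd (nat_lit 78) (PT.lf (nat_lit 14060) (nat_lit 6) (nat_lit 185) (nat_lit 3) (nat_lit 180) (nat_lit 144) (nat_lit 186)) (PT.lf (nat_lit 14136) (nat_lit 6) (nat_lit 186) (nat_lit 3) (nat_lit 181) (nat_lit 144) (nat_lit 185)))) (PT.nd (nat_lit 156) (PT.nd (nat_lit 78) (PT.lf (nat_lit 14212) (nat_lit 6) (nat_lit 187) (nat_lit 3) (nat_lit 182) (nat_lit 144) (nat_lit 184)) (PT.lf (nat_lit 14288) (nat_lit 3) (nat_lit 188) (nat_lit 1) (nat_lit 183) (nat_lit 144) (nat_lit 183))) (PT.nd (nat_lit 78) (PT.lf (nat_lit 14212) (nat_lit 6) (nat_lit 187) (nat_lit 1) (nat_lit 184) (nat_lit 144) (nat_lit 182)) (PT.lf (nat_lit 14136) (nat_lit 6) (nat_lit 186) (nat_lit 1) (nat_lit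 185) (nat_lit 144) (nat_lit 181))))) (PT.nd (nat_lit 52494) (PT.nd (nat_lit 156) (PT.nd (nat_lit 78) (PT.lf (nat_lit 14060) (nat_lit 6) (nat_lit 185) (nat_lit 1) (nat_lit 186) (nat_lit 144) (nat_lit 180)) (PT.lf (nat_lit 13984) (nat_lit 6) (nat_lit 184) (nat_lit 1) (nat_lit 187) (nat_lit 144) (nat_lit 179))) (PT.nd (nat_lit 52260) (PT.lf (nat_lit 13908) (nat_lit 6) (nat_lit 183) (nat_lit 1) (nat_lit 188) (nat_lit 144) (nat_lit 178)) (PT.lf (nat_lit 14364) (nat_lit 6) (nat_lit 189) (nat_lit 3) (nat_lit 177) (nat_lit 145) (nat_lit 188)))) (PT.nd (nat_lit 156) (PT.nd (nat_lit 78) (PT.lf (nat_lit 14440) (nat_lit 6) (nat_lit 190) (nat_lit 3) (nat_lit 178) (nat_lit 145) (nat_lit 187)) (PT.lf (nat_lit 14516) (nat_lit 6) (nat_lit 191) (nat_lit 3) (nat_lit 179) (nat_lit 145) (nat_lit 186))) (PT.nd (nat_lit 78) (PT.lf (nat_lit 14592) (nat_lit 6) (nat_lit 192) (nat_lit 3) (nat_lit 180) (nat_lit 145) (nat_lit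 185)) (PT.lf (nat_lit 14668) (nat_lit 6) (nat_lit 193) (nat_lit 3) (nat_lit 181) (nat_lit 145) (nat_lit 184)))))) (PT.nd (nat_lit 52728) (PT.nd (nat_lit 312) (PT.nd (nat_lit 156) (PT.nd (nat_lit 78) (PT.lf (nat_lit 14744) (nat_lit 6) (nat_lit 194) (nat_lit 3) (nat_lit 182) (nat_lit 145) (nat_lit 183)) (PT.lf (nat_lit 14744) (nat_lit 6) (nat_lit 194) (nat_lit 1) (nat_lit 183) (nat_lit 145) (nat_lit 182))) (PT.nd (nat_lit 78) (PT.lf (nat_lit 14668) (nat_lit 6) (nat_lit 193) (nat_lit 1) (nat_lit 184) (nat_lit 145) (nat_lit 181)) (PT.lf (nat_lit 14592) (nat_lit 6) (nat_lit 192) (nat_lit 1) (nat_lit 185) (nat_lit 145) (nat_lit 180)))) (PT.nd (nat_lit 156) (PT.nd (nat_lit 78) (PT.lf (nat_lit 14516) (nat_lit 6) (nat_lit 191) (nat_lit 1) (nat_lit 186) (nat_lit 145) (nat_lit 179)) (PT.lf (nat_lit 14440) (nat_lit 6) (nat_lit 190) (nat_lit 1) (nat_lit 187) (nat_lit 145) (nat_lit 178))) (PT.nd (nat_lit 52182)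 (PT.lf (nat_lit 14364) (nat_lit 6) (nat_lit 189) (nat_lit 1) (nat_lit 188) (nat_lit 145) (nat_lit 177)) (PT.lf (nat_lit 14820) (nat_lit 6) (nat_lit 195) (nat_lit 3) (nat_lit 176) (nat_lit 146) (nat_lit 188))))) (PT.nd (nat_lit 312) (PT.nd (nat_lit 156) (PT.nd (nat_lit 78) (PT.lf (nat_lit 14896) (nat_lit 6) (nat_lit 196) (nat_lit 3) (nat_lit 177) (nat_lit 146) (nat_lit 187)) (PT.lf (nat_lit 14972) (nat_lit 6) (nat_lit 197) (nat_lit 3) (nat_lit 178) (nat_lit 146) (nat_lit 186))) (PT.nd (nat_lit 78) (PT.lf (nat_lit 15048) (nat_lit 6) (nat_lit 198) (nat_lit 3) (nat_lit 179) (nat_lit 146) (nat_lit 185)) (PT.lf (nat_lit 15124) (nat_lit 6) (nat_lit 199) (nat_lit 3) (nat_lit 180) (nat_lit 146) (nat_lit 184)))) (PT.nd (nat_lit 156) (PT.nd (nat_lit 78) (PT.lf (nat_lit 15200) (nat_lit 6) (nat_lit 200) (nat_lit 3) (nat_lit 181) (nat_lit 146) (nat_lit 183)) (PT.lf (nat_lit 15276) (nat_lit 3) (nat_lit 201) (nat_lit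 1) (nat_lit 182) (nat_lit 146) (nat_lit 182))) (PT.nd (nat_lit 78) (PT.lf (nat_lit 15200) (nat_lit 6) (nat_lit 200) (nat_lit 1) (nat_lit 183) (nat_lit 146) (nat_lit 181)) (PT.lf (nat_lit 15124) (nat_lit 6) (nat_lit 199) (nat_lit 1) (nat_lit 184) (nat_lit 146) (nat_lit 180))))))) (PT.nd (nat_lit 53196) (PT.nd (nat_lit 52572) (PT.nd (nat_lit 234) (PT.nd (nat_lit 78) (PT.lf (nat_lit 15048) (nat_lit 6) (nat_lit 198) (nat_lit 1) (nat_lit 185) (nat_lit 146) (nat_lit 179)) (PT.nd (nat_lit 78) (PT.lf (nat_lit 14972) (nat_lit 6) (nat_lit 197) (nat_lit 1) (nat_lit 186) (nat_lit 146) (nat_lit 178)) (PT.lf (nat_lit 14896) (nat_lit 6) (nat_lit 196) (nat_lit 1) (nat_lit 187) (nat_lit 146) (nat_lit 177)))) (PT.nd (nat_lit 52182) (PT.nd (nat_lit 52104) (PT.lf (nat_lit 14820) (nat_lit 6) (nat_lit 195) (nat_lit 1) (nat_lit 188) (nat_lit 146) (nat_lit 176)) (PT.lf (nat_lit 15352) (nat_lit 6) (nat_lit 202) (nat_lit 3)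 (nat_lit 175) (nat_lit 147) (nat_lit 188))) (PT.nd (nat_lit 78) (PT.lf (nat_lit 15428) (nat_lit 6) (nat_lit 203) (nat_lit 3) (nat_lit 176) (nat_lit 147) (nat_lit 187)) (PT.lf (nat_lit 15504) (nat_lit 6) (nat_lit 204) (nat_lit 3) (nat_lit 177) (nat_lit 147) (nat_lit 186))))) (PT.nd (nat_lit 312) (PT.nd (nat_lit 156) (PT.nd (nat_lit 78) (PT.lf (nat_lit 15580) (nat_lit 6) (nat_lit 205) (nat_lit 3) (nat_lit 178) (nat_lit 147) (nat_lit 185)) (PT.lf (nat_lit 15656) (nat_lit 6) (nat_lit 206) (nat_lit 3) (nat_lit 179) (nat_lit 147) (nat_lit 184))) (PT.nd (nat_lit 78) (PT.lf (nat_lit 15732) (nat_lit 6) (nat_lit 207) (nat_lit 3) (nat_lit 180) (nat_lit 147) (nat_lit 183)) (PT.lf (nat_lit 15808) (nat_lit 6) (nat_lit 208) (nat_lit 3) (nat_lit 181) (nat_lit 147) (nat_lit 182)))) (PT.nd (nat_lit 156) (PT.nd (nat_lit 78) (PT.lf (nat_lit 15808) (nat_lit 6) (nat_lit 208) (nat_lit 1) (nat_lit 182) (nat_lit 147) (nat_lit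 181)) (PT.lf (nat_lit 15732) (nat_lit 6) (nat_lit 207) (nat_lit 1) (nat_lit 183) (nat_lit 147) (nat_lit 180))) (PT.nd (nat_lit 78) (PT.lf (nat_lit 15656) (nat_lit 6) (nat_lit 206) (nat_lit 1) (nat_lit 184) (nat_lit 147) (nat_lit 179)) (PT.lf (nat_lit 15580) (nat_lit 6) (nat_lit 205) (nat_lit 1) (nat_lit 185) (nat_lit 147) (nat_lit 178)))))) (PT.nd (nat_lit 52650) (PT.nd (nat_lit 52338) (PT.nd (nat_lit 156) (PT.nd (nat_lit 78) (PT.lf (nat_lit 15504) (nat_lit 6) (nat_lit 204) (nat_lit 1) (nat_lit 186) (nat_lit 147) (nat_lit 177)) (PT.lf (nat_lit 15428) (nat_lit 6) (nat_lit 203) (nat_lit 1) (nat_lit 187) (nat_lit 147) (nat_lit 176))) (PT.nd (nat_lit 52104) (PT.lf (nat_lit 15352) (nat_lit 6) (nat_lit 202) (nat_lit 1) (nat_lit 188) (nat_lit 147) (nat_lit 175)) (PT.lf (nat_lit 15884) (nat_lit 6) (nat_lit 209) (nat_lit 3) (nat_lit 175) (nat_lit 148) (nat_lit 187)))) (PT.nd (nat_lit 156) (PT.nd (nat_lit 78)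 (PT.lf (nat_lit 15960) (nat_lit 6) (nat_lit 210) (nat_lit 3) (nat_lit 176) (nat_lit 148) (nat_lit 186)) (PT.lf (nat_lit 16036) (nat_lit 6) (nat_lit 211) (nat_lit 3) (nat_lit 177) (nat_lit 148) (nat_lit 185))) (PT.nd (nat_lit 78) (PT.lf (nat_lit 16112) (nat_lit 6) (nat_lit 212) (nat_lit 3) (nat_lit 178) (nat_lit 148) (nat_lit 184)) (PT.lf (nat_lit 16188) (nat_lit 6) (nat_lit 213) (nat_lit 3) (nat_lit 179) (nat_lit 148) (nat_lit 183))))) (PT.nd (nat_lit 312) (PT.nd (nat_lit 156) (PT.nd (nat_lit 78) (PT.lf (nat_lit 16264) (nat_lit 6) (nat_lit 214) (nat_lit 3) (nat_lit 180) (nat_lit 148) (nat_lit 182)) (PT.lf (nat_lit 16340) (nat_lit 3) (nat_lit 215) (nat_lit 1) (nat_lit 181) (nat_lit 148) (nat_lit 181))) (PT.nd (nat_lit 78) (PT.lf (nat_lit 16264) (nat_lit 6) (nat_lit 214) (nat_lit 1) (nat_lit 182) (nat_lit 148) (nat_lit 180)) (PT.lf (nat_lit 16188) (nat_lit 6) (nat_lit 213) (nat_lit 1) (nat_lit 183) (nat_lit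 148) (nat_lit 179)))) (PT.nd (nat_lit 156) (PT.nd (nat_lit 78) (PT.lf (nat_lit 16112) (nat_lit 6) (nat_lit 212) (nat_lit 1) (nat_lit 184) (nat_lit 148) (nat_lit 178)) (PT.lf (nat_lit 16036) (nat_lit 6) (nat_lit 211) (nat_lit 1) (nat_lit 185) (nat_lit 148) (nat_lit 177))) (PT.nd (nat_lit 78) (PT.lf (nat_lit 15960) (nat_lit 6) (nat_lit 210) (nat_lit 1) (nat_lit 186) (nat_lit 148) (nat_lit 176)) (PT.lf (nat_lit 15884) (nat_lit 6) (nat_lit 209) (nat_lit 1) (nat_lit 187) (nat_lit 148) (nat_lit 175))))))))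
noncomputable def pc5 : PT := (PT.nd (nat_lit 106236) (PT.nd (nat_lit 53118) (PT.nd (nat_lit 546) (PT.nd (nat_lit 234) (PT.nd (nat_lit 78) (PT.lf (nat_lit 16416) (nat_lit 6) (nat_lit 216) (nat_lit 3) (nat_lit 174) (nat_lit 149) (nat_lit 187)) (PT.nd (nat_lit 78) (PT.lf (nat_lit 16492) (nat_lit 6) (nat_lit 217) (nat_lit 3) (nat_lit 175) (nat_lit 149) (nat_lit 186)) (PT.lf (nat_lit 16568) (nat_lit 6) (nat_lit 218) (nat_lit 3) (nat_lit 176) (nat_lit 149) (nat_lit 185)))) (PT.nd (nat_lit 156) (PT.nd (nat_lit 78) (PT.lf (nat_lit 16644) (nat_lit 6) (nat_lit 219) (nat_lit 3) (nat_lit 177) (nat_lit 149) (nat_lit 184)) (PT.lf (nat_lit 16720) (nat_lit 6) (nat_lit 220) (nat_lit 3) (nat_lit 178) (nat_lit 149) (nat_lit 183))) (PT.nd (nat_lit 78) (PT.lf (nat_lit 16796) (nat_lit 6) (nat_lit 221) (nat_lit 3) (nat_lit 179) (nat_lit 149) (nat_lit 182)) (PT.lf (nat_lit 16872) (nat_lit 6) (nat_lit 222) (nat_lit 3) (nat_lit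 180) (nat_lit 149) (nat_lit 181))))) (PT.nd (nat_lit 312) (PT.nd (nat_lit 156) (PT.nd (nat_lit 78) (PT.lf (nat_lit 16872) (nat_lit 6) (nat_lit 222) (nat_lit 1) (nat_lit 181) (nat_lit 149) (nat_lit 180)) (PT.lf (nat_lit 16796) (nat_lit 6) (nat_lit 221) (nat_lit 1) (nat_lit 182) (nat_lit 149) (nat_lit 179))) (PT.nd (nat_lit 78) (PT.lf (nat_lit 16720) (nat_lit 6) (nat_lit 220) (nat_lit 1) (nat_lit 183) (nat_lit 149) (nat_lit 178)) (PT.lf (nat_lit 16644) (nat_lit 6) (nat_lit 219) (nat_lit 1) (nat_lit 184) (nat_lit 149) (nat_lit 177)))) (PT.nd (nat_lit 156) (PT.nd (nat_lit 78) (PT.lf (nat_lit 16568) (nat_lit 6) (nat_lit 218) (nat_lit 1) (nat_lit 185) (nat_lit 149) (nat_lit 176)) (PT.lf (nat_lit 16492) (nat_lit 6) (nat_lit 217) (nat_lit 1) (nat_lit 186) (nat_lit 149) (nat_lit 175))) (PT.nd (nat_lit 52026) (PT.lf (nat_lit 16416) (nat_lit 6) (nat_lit 216) (nat_lit 1) (nat_lit 187) (nat_lit 149) (nat_lit 174))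 (PT.lf (nat_lit 16948) (nat_lit 6) (nat_lit 223) (nat_lit 3) (nat_lit 173) (nat_lit 150) (nat_lit 187)))))) (PT.nd (nat_lit 624) (PT.nd (nat_lit 312) (PT.nd (nat_lit 156) (PT.nd (nat_lit 78) (PT.lf (nat_lit 17024) (nat_lit 6) (nat_lit 224) (nat_lit 3) (nat_lit 174) (nat_lit 150) (nat_lit 186)) (PT.lf (nat_lit 17100) (nat_lit 6) (nat_lit 225) (nat_lit 3) (nat_lit 175) (nat_lit 150) (nat_lit 185))) (PT.nd (nat_lit 78) (PT.lf (nat_lit 17176) (nat_lit 6) (nat_lit 226) (nat_lit 3) (nat_lit 176) (nat_lit 150) (nat_lit 184)) (PT.lf (nat_lit 17252) (nat_lit 6) (nat_lit 227) (nat_lit 3) (nat_lit 177) (nat_lit 150) (nat_lit 183)))) (PT.nd (nat_lit 156) (PT.nd (nat_lit 78) (PT.lf (nat_lit 17328) (nat_lit 6) (nat_lit 228) (nat_lit 3) (nat_lit 178) (nat_lit 150) (nat_lit 182)) (PT.lf (nat_lit 17404) (nat_lit 6) (nat_lit 229) (nat_lit 3) (nat_lit 179) (nat_lit 150) (nat_lit 181))) (PT.nd (nat_lit 78) (PT.lf (nat_lit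 17480) (nat_lit 3) (nat_lit 230) (nat_lit 1) (nat_lit 180) (nat_lit 150) (nat_lit 180)) (PT.lf (nat_lit 17404) (nat_lit 6) (nat_lit 229) (nat_lit 1) (nat_lit 181) (nat_lit 150) (nat_lit 179))))) (PT.nd (nat_lit 312) (PT.nd (nat_lit 156) (PT.nd (nat_lit 78) (PT.lf (nat_lit 17328) (nat_lit 6) (nat_lit 228) (nat_lit 1) (nat_lit 182) (nat_lit 150) (nat_lit 178)) (PT.lf (nat_lit 17252) (nat_lit 6) (nat_lit 227) (nat_lit 1) (nat_lit 183) (nat_lit 150) (nat_lit 177))) (PT.nd (nat_lit 78) (PT.lf (nat_lit 17176) (nat_lit 6) (nat_lit 226) (nat_lit 1) (nat_lit 184) (nat_lit 150) (nat_lit 176)) (PT.lf (nat_lit 17100) (nat_lit 6) (nat_lit 225) (nat_lit 1) (nat_lit 185) (nat_lit 150) (nat_lit 175)))) (PT.nd (nat_lit 52026) (PT.nd (nat_lit 78) (PT.lf (nat_lit 17024) (nat_lit 6) (nat_lit 224) (nat_lit 1) (nat_lit 186) (nat_lit 150) (nat_lit 174)) (PT.lf (nat_lit 16948) (nat_lit 6) (nat_lit 223) (nat_lit 1) (nat_lit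 187) (nat_lit 150) (nat_lit 173))) (PT.nd (nat_lit 78) (PT.lf (nat_lit 17556) (nat_lit 6) (nat_lit 231) (nat_lit 3) (nat_lit 172) (nat_lit 151) (nat_lit 187)) (PT.lf (nat_lit 17632) (nat_lit 6) (nat_lit 232) (nat_lit 3) (nat_lit 173) (nat_lit 151) (nat_lit 186))))))) (PT.nd (nat_lit 52962) (PT.nd (nat_lit 546) (PT.nd (nat_lit 234) (PT.nd (nat_lit 78) (PT.lf (nat_lit 17708) (nat_lit 6) (nat_lit 233) (nat_lit 3) (nat_lit 174) (nat_lit 151) (nat_lit 185)) (PT.nd (nat_lit 78) (PT.lf (nat_lit 17784) (nat_lit 6) (nat_lit 234) (nat_lit 3) (nat_lit 175) (nat_lit 151) (nat_lit 184)) (PT.lf (nat_lit 17860) (nat_lit 6) (nat_lit 235) (nat_lit 3) (nat_lit 176) (nat_lit 151) (nat_lit 183)))) (PT.nd (nat_lit 156) (PT.nd (nat_lit 78) (PT.lf (nat_lit 17936) (nat_lit 6) (nat_lit 236) (nat_lit 3) (nat_lit 177) (nat_lit 151) (nat_lit 182)) (PT.lf (nat_lit 18012) (nat_lit 6) (nat_lit 237) (nat_lit 3) (nat_lit 178) (nat_lit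 151) (nat_lit 181))) (PT.nd (nat_lit 78) (PT.lf (nat_lit 18088) (nat_lit 6) (nat_lit 238) (nat_lit 3) (nat_lit 179) (nat_lit 151) (nat_lit 180)) (PT.lf (nat_lit 18088) (nat_lit 6) (nat_lit 238) (nat_lit 1) (nat_lit 180) (nat_lit 151) (nat_lit 179))))) (PT.nd (nat_lit 312) (PT.nd (nat_lit 156) (PT.nd (nat_lit 78) (PT.lf (nat_lit 18012) (nat_lit 6) (nat_lit 237) (nat_lit 1) (nat_lit 181) (nat_lit 151) (nat_lit 178)) (PT.lf (nat_lit 17936) (nat_lit 6) (nat_lit 236) (nat_lit 1) (nat_lit 182) (nat_lit 151) (nat_lit 177))) (PT.nd (nat_lit 78) (PT.lf (nat_lit 17860) (nat_lit 6) (nat_lit 235) (nat_lit 1) (nat_lit 183) (nat_lit 151) (nat_lit 176)) (PT.lf (nat_lit 17784) (nat_lit 6) (nat_lit 234) (nat_lit 1) (nat_lit 184) (nat_lit 151) (nat_lit 175)))) (PT.nd (nat_lit 156) (PT.nd (nat_lit 78) (PT.lf (nat_lit 17708) (nat_lit 6) (nat_lit 233) (nat_lit 1) (nat_lit 185) (nat_lit 151) (nat_lit 174)) (PT.lf (nat_lit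 17632) (nat_lit 6) (nat_lit 232) (nat_lit 1) (nat_lit 186) (nat_lit 151) (nat_lit 173))) (PT.nd (nat_lit 51870) (PT.lf (nat_lit 17556) (nat_lit 6) (nat_lit 231) (nat_lit 1) (nat_lit 187) (nat_lit 151) (nat_lit 172)) (PT.lf (nat_lit 18164) (nat_lit 6) (nat_lit 239) (nat_lit 3) (nat_lit 171) (nat_lit 152) (nat_lit 187)))))) (PT.nd (nat_lit 624) (PT.nd (nat_lit 312) (PT.nd (nat_lit 156) (PT.nd (nat_lit 78) (PT.lf (nat_lit 18240) (nat_lit 6) (nat_lit 240) (nat_lit 3) (nat_lit 172) (nat_lit 152) (nat_lit 186)) (PT.lf (nat_lit 18316) (nat_lit 6) (nat_lit 241) (nat_lit 3) (nat_lit 173) (nat_lit 152) (nat_lit 185))) (PT.nd (nat_lit 78) (PT.lf (nat_lit 18392) (nat_lit 6) (nat_lit 242) (nat_lit 3) (nat_lit 174) (nat_lit 152) (nat_lit 184)) (PT.lf (nat_lit 18468) (nat_lit 6) (nat_lit 243) (nat_lit 3) (nat_lit 175) (nat_lit 152) (nat_lit 183)))) (PT.nd (nat_lit 156) (PT.nd (nat_lit 78) (PT.lf (nat_lit 18544) (nat_lit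 6) (nat_lit 244) (nat_lit 3) (nat_lit 176) (nat_lit 152) (nat_lit 182)) (PT.lf (nat_lit 18620) (nat_lit 6) (nat_lit 245) (nat_lit 3) (nat_lit 177) (nat_lit 152) (nat_lit 181))) (PT.nd (nat_lit 78) (PT.lf (nat_lit 18696) (nat_lit 6) (nat_lit 246) (nat_lit 3) (nat_lit 178) (nat_lit 152) (nat_lit 180)) (PT.lf (nat_lit 18772) (nat_lit 3) (nat_lit 247) (nat_lit 1) (nat_lit 179) (nat_lit 152) (nat_lit 179))))) (PT.nd (nat_lit 312) (PT.nd (nat_lit 156) (PT.nd (nat_lit 78) (PT.lf (nat_lit 18696) (nat_lit 6) (nat_lit 246) (nat_lit 1) (nat_lit 180) (nat_lit 152) (nat_lit 178)) (PT.lf (nat_lit 18620) (nat_lit 6) (nat_lit 245) (nat_lit 1) (nat_lit 181) (nat_lit 152) (nat_lit 177))) (PT.nd (nat_lit 78) (PT.lf (nat_lit 18544) (nat_lit 6) (nat_lit 244) (nat_lit 1) (nat_lit 182) (nat_lit 152) (nat_lit 176)) (PT.lf (nat_lit 18468) (nat_lit 6) (nat_lit 243) (nat_lit 1) (nat_lit 183) (nat_lit 152) (nat_lit 175)))) (PT.nd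 (nat_lit 156) (PT.nd (nat_lit 78) (PT.lf (nat_lit 18392) (nat_lit 6) (nat_lit 242) (nat_lit 1) (nat_lit 184) (nat_lit 152) (nat_lit 174)) (PT.lf (nat_lit 18316) (nat_lit 6) (nat_lit 241) (nat_lit 1) (nat_lit 185) (nat_lit 152) (nat_lit 173))) (PT.nd (nat_lit 78) (PT.lf (nat_lit 18240) (nat_lit 6) (nat_lit 240) (nat_lit 1) (nat_lit 186) (nat_lit 152) (nat_lit 172)) (PT.lf (nat_lit 18164) (nat_lit 6) (nat_lit 239) (nat_lit 1) (nat_lit 187) (nat_lit 152) (nat_lit 171))))))))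
noncomputable def pc6 : PT := (PT.nd (nat_lit 54132) (PT.nd (nat_lit 1170) (PT.nd (nat_lit 546) (PT.nd (nat_lit 234) (PT.nd (nat_lit 78) (PT.lf (nat_lit 18848) (nat_lit 6) (nat_lit 248) (nat_lit 3) (nat_lit 170) (nat_lit 153) (nat_lit 187)) (PT.nd (nat_lit 78) (PT.lf (nat_lit 18924) (nat_lit 6) (nat_lit 249) (nat_lit 3) (nat_lit 171) (nat_lit 153) (nat_lit 186)) (PT.lf (nat_lit 19000) (nat_lit 6) (nat_lit 250) (nat_lit 3) (nat_lit 172) (nat_lit 153) (nat_lit 185)))) (PT.nd (nat_lit 156) (PT.nd (nat_lit 78) (PT.lf (nat_lit 19076) (nat_lit 6) (nat_lit 251) (nat_lit 3) (nat_lit 173) (nat_lit 153) (nat_lit 184)) (PT.lf (nat_lit 19152) (nat_lit 6) (nat_lit 252) (nat_lit 3) (nat_lit 174) (nat_lit 153) (nat_lit 183))) (PT.nd (nat_lit 78) (PT.lf (nat_lit 19228) (nat_lit 6) (nat_lit 253) (nat_lit 3) (nat_lit 175) (nat_lit 153) (nat_lit 182)) (PT.lf (nat_lit 19304) (nat_lit 6) (nat_lit 254) (nat_lit 3) (nat_lit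 176) (nat_lit 153) (nat_lit 181))))) (PT.nd (nat_lit 312) (PT.nd (nat_lit 156) (PT.nd (nat_lit 78) (PT.lf (nat_lit 19380) (nat_lit 6) (nat_lit 255) (nat_lit 3) (nat_lit 177) (nat_lit 153) (nat_lit 180)) (PT.lf (nat_lit 19456) (nat_lit 6) (nat_lit 256) (nat_lit 3) (nat_lit 178) (nat_lit 153) (nat_lit 179))) (PT.nd (nat_lit 78) (PT.lf (nat_lit 19456) (nat_lit 6) (nat_lit 256) (nat_lit 1) (nat_lit 179) (nat_lit 153) (nat_lit 178)) (PT.lf (nat_lit 19380) (nat_lit 6) (nat_lit 255) (nat_lit 1) (nat_lit 180) (nat_lit 153) (nat_lit 177)))) (PT.nd (nat_lit 156) (PT.nd (nat_lit 78) (PT.lf (nat_lit 19304) (nat_lit 6) (nat_lit 254) (nat_lit 1) (nat_lit 181) (nat_lit 153) (nat_lit 176)) (PT.lf (nat_lit 19228) (nat_lit 6) (nat_lit 253) (nat_lit 1) (nat_lit 182) (nat_lit 153) (nat_lit 175))) (PT.nd (nat_lit 78) (PT.lf (nat_lit 19152) (nat_lit 6) (nat_lit 252) (nat_lit 1) (nat_lit 183) (nat_lit 153) (nat_lit 174))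 (PT.lf (nat_lit 19076) (nat_lit 6) (nat_lit 251) (nat_lit 1) (nat_lit 184) (nat_lit 153) (nat_lit 173)))))) (PT.nd (nat_lit 52338) (PT.nd (nat_lit 52026) (PT.nd (nat_lit 156) (PT.nd (nat_lit 78) (PT.lf (nat_lit 19000) (nat_lit 6) (nat_lit 250) (nat_lit 1) (nat_lit 185) (nat_lit 153) (nat_lit 172)) (PT.lf (nat_lit 18924) (nat_lit 6) (nat_lit 249) (nat_lit 1) (nat_lit 186) (nat_lit 153) (nat_lit 171))) (PT.nd (nat_lit 51792) (PT.lf (nat_lit 18848) (nat_lit 6) (nat_lit 248) (nat_lit 1) (nat_lit 187) (nat_lit 153) (nat_lit 170)) (PT.lf (nat_lit 20140) (nat_lit 6) (nat_lit 265) (nat_lit 3) (nat_lit 170) (nat_lit 154) (nat_lit 186)))) (PT.nd (nat_lit 156) (PT.nd (nat_lit 78) (PT.lf (nat_lit 20216) (nat_lit 6) (nat_lit 266) (nat_lit 3) (nat_lit 171) (nat_lit 154) (nat_lit 185)) (PT.lf (nat_lit 20292) (nat_lit 6) (nat_lit 267) (nat_lit 3) (nat_lit 172) (nat_lit 154) (nat_lit 184))) (PT.nd (nat_lit 78) (PT.lf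 (nat_lit 20368) (nat_lit 6) (nat_lit 268) (nat_lit 3) (nat_lit 173) (nat_lit 154) (nat_lit 183)) (PT.lf (nat_lit 20444) (nat_lit 6) (nat_lit 269) (nat_lit 3) (nat_lit 174) (nat_lit 154) (nat_lit 182))))) (PT.nd (nat_lit 312) (PT.nd (nat_lit 156) (PT.nd (nat_lit 78) (PT.lf (nat_lit 20520) (nat_lit 6) (nat_lit 270) (nat_lit 3) (nat_lit 175) (nat_lit 154) (nat_lit 181)) (PT.lf (nat_lit 20596) (nat_lit 6) (nat_lit 271) (nat_lit 3) (nat_lit 176) (nat_lit 154) (nat_lit 180))) (PT.nd (nat_lit 78) (PT.lf (nat_lit 20672) (nat_lit 6) (nat_lit 272) (nat_lit 3) (nat_lit 177) (nat_lit 154) (nat_lit 179)) (PT.lf (nat_lit 20748) (nat_lit 3) (nat_lit 273) (nat_lit 1) (nat_lit 178) (nat_lit 154) (nat_lit 178)))) (PT.nd (nat_lit 156) (PT.nd (nat_lit 78) (PT.lf (nat_lit 20672) (nat_lit 6) (nat_lit 272) (nat_lit 1) (nat_lit 179) (nat_lit 154) (nat_lit 177)) (PT.lf (nat_lit 20596) (nat_lit 6) (nat_lit 271) (nat_lit 1)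 (nat_lit 180) (nat_lit 154) (nat_lit 176))) (PT.nd (nat_lit 78) (PT.lf (nat_lit 20520) (nat_lit 6) (nat_lit 270) (nat_lit 1) (nat_lit 181) (nat_lit 154) (nat_lit 175)) (PT.lf (nat_lit 20444) (nat_lit 6) (nat_lit 269) (nat_lit 1) (nat_lit 182) (nat_lit 154) (nat_lit 174))))))) (PT.nd (nat_lit 52884) (PT.nd (nat_lit 52260) (PT.nd (nat_lit 234) (PT.nd (nat_lit 78) (PT.lf (nat_lit 20368) (nat_lit 6) (nat_lit 268) (nat_lit 1) (nat_lit 183) (nat_lit 154) (nat_lit 173)) (PT.nd (nat_lit 78) (PT.lf (nat_lit 20292) (nat_lit 6) (nat_lit 267) (nat_lit 1) (nat_lit 184) (nat_lit 154) (nat_lit 172)) (PT.lf (nat_lit 20216) (nat_lit 6) (nat_lit 266) (nat_lit 1) (nat_lit 185) (nat_lit 154) (nat_lit 171)))) (PT.nd (nat_lit 51870) (PT.nd (nat_lit 51792) (PT.lf (nat_lit 20140) (nat_lit 6) (nat_lit 265) (nat_lit 1) (nat_lit 186) (nat_lit 154) (nat_lit 170)) (PT.lf (nat_lit 20064) (nat_lit 6) (nat_lit 264) (nat_lit 3) (nat_lit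 169) (nat_lit 155) (nat_lit 186))) (PT.nd (nat_lit 78) (PT.lf (nat_lit 21356) (nat_lit 6) (nat_lit 281) (nat_lit 3) (nat_lit 170) (nat_lit 155) (nat_lit 185)) (PT.lf (nat_lit 21432) (nat_lit 6) (nat_lit 282) (nat_lit 3) (nat_lit 171) (nat_lit 155) (nat_lit 184))))) (PT.nd (nat_lit 312) (PT.nd (nat_lit 156) (PT.nd (nat_lit 78) (PT.lf (nat_lit 21508) (nat_lit 6) (nat_lit 283) (nat_lit 3) (nat_lit 172) (nat_lit 155) (nat_lit 183)) (PT.lf (nat_lit 21584) (nat_lit 6) (nat_lit 284) (nat_lit 3) (nat_lit 173) (nat_lit 155) (nat_lit 182))) (PT.nd (nat_lit 78) (PT.lf (nat_lit 21660) (nat_lit 6) (nat_lit 285) (nat_lit 3) (nat_lit 174) (nat_lit 155) (nat_lit 181)) (PT.lf (nat_lit 21736) (nat_lit 6) (nat_lit 286) (nat_lit 3) (nat_lit 175) (nat_lit 155) (nat_lit 180)))) (PT.nd (nat_lit 156) (PT.nd (nat_lit 78) (PT.lf (nat_lit 21812) (nat_lit 6) (nat_lit 287) (nat_lit 3) (nat_lit 176) (nat_lit 155) (nat_lit 179))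 (PT.lf (nat_lit 21888) (nat_lit 6) (nat_lit 288) (nat_lit 3) (nat_lit 177) (nat_lit 155) (nat_lit 178))) (PT.nd (nat_lit 78) (PT.lf (nat_lit 21888) (nat_lit 6) (nat_lit 288) (nat_lit 1) (nat_lit 178) (nat_lit 155) (nat_lit 177)) (PT.lf (nat_lit 21812) (nat_lit 6) (nat_lit 287) (nat_lit 1) (nat_lit 179) (nat_lit 155) (nat_lit 176)))))) (PT.nd (nat_lit 52260) (PT.nd (nat_lit 312) (PT.nd (nat_lit 156) (PT.nd (nat_lit 78) (PT.lf (nat_lit 21736) (nat_lit 6) (nat_lit 286) (nat_lit 1) (nat_lit 180) (nat_lit 155) (nat_lit 175)) (PT.lf (nat_lit 21660) (nat_lit 6) (nat_lit 285) (nat_lit 1) (nat_lit 181) (nat_lit 155) (nat_lit 174))) (PT.nd (nat_lit 78) (PT.lf (nat_lit 21584) (nat_lit 6) (nat_lit 284) (nat_lit 1) (nat_lit 182) (nat_lit 155) (nat_lit 173)) (PT.lf (nat_lit 21508) (nat_lit 6) (nat_lit 283) (nat_lit 1) (nat_lit 183) (nat_lit 155) (nat_lit 172)))) (PT.nd (nat_lit 156) (PT.nd (nat_lit 78) (PT.lf (nat_lit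 21432) (nat_lit 6) (nat_lit 282) (nat_lit 1) (nat_lit 184) (nat_lit 155) (nat_lit 171)) (PT.lf (nat_lit 21356) (nat_lit 6) (nat_lit 281) (nat_lit 1) (nat_lit 185) (nat_lit 155) (nat_lit 170))) (PT.nd (nat_lit 51714) (PT.lf (nat_lit 20064) (nat_lit 6) (nat_lit 264) (nat_lit 1) (nat_lit 186) (nat_lit 155) (nat_lit 169)) (PT.lf (nat_lit 19988) (nat_lit 6) (nat_lit 263) (nat_lit 3) (nat_lit 168) (nat_lit 156) (nat_lit 186))))) (PT.nd (nat_lit 312) (PT.nd (nat_lit 156) (PT.nd (nat_lit 78) (PT.lf (nat_lit 21280) (nat_lit 6) (nat_lit 280) (nat_lit 3) (nat_lit 169) (nat_lit 156) (nat_lit 185)) (PT.lf (nat_lit 22496) (nat_lit 6) (nat_lit 296) (nat_lit 3) (nat_lit 170) (nat_lit 156) (nat_lit 184))) (PT.nd (nat_lit 78) (PT.lf (nat_lit 22572) (nat_lit 6) (nat_lit 297) (nat_lit 3) (nat_lit 171) (nat_lit 156) (nat_lit 183)) (PT.lf (nat_lit 22648) (nat_lit 6) (nat_lit 298) (nat_lit 3) (nat_lit 172) (nat_lit 156)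 (nat_lit 182)))) (PT.nd (nat_lit 156) (PT.nd (nat_lit 78) (PT.lf (nat_lit 22724) (nat_lit 6) (nat_lit 299) (nat_lit 3) (nat_lit 173) (nat_lit 156) (nat_lit 181)) (PT.lf (nat_lit 22800) (nat_lit 6) (nat_lit 300) (nat_lit 3) (nat_lit 174) (nat_lit 156) (nat_lit 180))) (PT.nd (nat_lit 78) (PT.lf (nat_lit 22876) (nat_lit 6) (nat_lit 301) (nat_lit 3) (nat_lit 175) (nat_lit 156) (nat_lit 179)) (PT.lf (nat_lit 22952) (nat_lit 6) (nat_lit 302) (nat_lit 3) (nat_lit 176) (nat_lit 156) (nat_lit 178))))))))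
noncomputable def pc7 : PT := (PT.nd (nat_lit 105456) (PT.nd (nat_lit 52728) (PT.nd (nat_lit 546) (PT.nd (nat_lit 234) (PT.nd (nat_lit 78) (PT.lf (nat_lit 23028) (nat_lit 3) (nat_lit 303) (nat_lit 1) (nat_lit 177) (nat_lit 156) (nat_lit 177)) (PT.nd (nat_lit 78) (PT.lf (nat_lit 22952) (nat_lit 6) (nat_lit 302) (nat_lit 1) (nat_lit 178) (nat_lit 156) (nat_lit 176)) (PT.lf (nat_lit 22876) (nat_lit 6) (nat_lit 301) (nat_lit 1) (nat_lit 179) (nat_lit 156) (nat_lit 175)))) (PT.nd (nat_lit 156) (PT.nd (nat_lit 78) (PT.lf (nat_lit 22800) (nat_lit 6) (nat_lit 300) (nat_lit 1) (nat_lit 180) (nat_lit 156) (nat_lit 174)) (PT.lf (nat_lit 22724) (nat_lit 6) (nat_lit 299) (nat_lit 1) (nat_lit 181) (nat_lit 156) (nat_lit 173))) (PT.nd (nat_lit 78) (PT.lf (nat_lit 22648) (nat_lit 6) (nat_lit 298) (nat_lit 1) (nat_lit 182) (nat_lit 156) (nat_lit 172)) (PT.lf (nat_lit 22572) (nat_lit 6) (nat_lit 297) (nat_lit 1) (nat_lit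 183) (nat_lit 156) (nat_lit 171))))) (PT.nd (nat_lit 51870) (PT.nd (nat_lit 156) (PT.nd (nat_lit 78) (PT.lf (nat_lit 22496) (nat_lit 6) (nat_lit 296) (nat_lit 1) (nat_lit 184) (nat_lit 156) (nat_lit 170)) (PT.lf (nat_lit 21280) (nat_lit 6) (nat_lit 280) (nat_lit 1) (nat_lit 185) (nat_lit 156) (nat_lit 169))) (PT.nd (nat_lit 51636) (PT.lf (nat_lit 19988) (nat_lit 6) (nat_lit 263) (nat_lit 1) (nat_lit 186) (nat_lit 156) (nat_lit 168)) (PT.lf (nat_lit 19912) (nat_lit 6) (nat_lit 262) (nat_lit 3) (nat_lit 167) (nat_lit 157) (nat_lit 186)))) (PT.nd (nat_lit 156) (PT.nd (nat_lit 78) (PT.lf (nat_lit 21204) (nat_lit 6) (nat_lit 279) (nat_lit 3) (nat_lit 168) (nat_lit 157) (nat_lit 185)) (PT.lf (nat_lit 22420) (nat_lit 6) (nat_lit 295) (nat_lit 3) (nat_lit 169) (nat_lit 157) (nat_lit 184))) (PT.nd (nat_lit 78) (PT.lf (nat_lit 23560) (nat_lit 6) (nat_lit 310) (nat_lit 3) (nat_lit 170) (nat_lit 157) (nat_lit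 183)) (PT.lf (nat_lit 23636) (nat_lit 6) (nat_lit 311) (nat_lit 3) (nat_lit 171) (nat_lit 157) (nat_lit 182)))))) (PT.nd (nat_lit 624) (PT.nd (nat_lit 312) (PT.nd (nat_lit 156) (PT.nd (nat_lit 78) (PT.lf (nat_lit 23712) (nat_lit 6) (nat_lit 312) (nat_lit 3) (nat_lit 172) (nat_lit 157) (nat_lit 181)) (PT.lf (nat_lit 23788) (nat_lit 6) (nat_lit 313) (nat_lit 3) (nat_lit 173) (nat_lit 157) (nat_lit 180))) (PT.nd (nat_lit 78) (PT.lf (nat_lit 23864) (nat_lit 6) (nat_lit 314) (nat_lit 3) (nat_lit 174) (nat_lit 157) (nat_lit 179)) (PT.lf (nat_lit 23940) (nat_lit 6) (nat_lit 315) (nat_lit 3) (nat_lit 175) (nat_lit 157) (nat_lit 178)))) (PT.nd (nat_lit 156) (PT.nd (nat_lit 78) (PT.lf (nat_lit 24016) (nat_lit 6) (nat_lit 316) (nat_lit 3) (nat_lit 176) (nat_lit 157) (nat_lit 177)) (PT.lf (nat_lit 24016) (nat_lit 6) (nat_lit 316) (nat_lit 1) (nat_lit 177) (nat_lit 157) (nat_lit 176))) (PT.nd (nat_lit 78) (PT.lf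 (nat_lit 23940) (nat_lit 6) (nat_lit 315) (nat_lit 1) (nat_lit 178) (nat_lit 157) (nat_lit 175)) (PT.lf (nat_lit 23864) (nat_lit 6) (nat_lit 314) (nat_lit 1) (nat_lit 179) (nat_lit 157) (nat_lit 174))))) (PT.nd (nat_lit 312) (PT.nd (nat_lit 156) (PT.nd (nat_lit 78) (PT.lf (nat_lit 23788) (nat_lit 6) (nat_lit 313) (nat_lit 1) (nat_lit 180) (nat_lit 157) (nat_lit 173)) (PT.lf (nat_lit 23712) (nat_lit 6) (nat_lit 312) (nat_lit 1) (nat_lit 181) (nat_lit 157) (nat_lit 172))) (PT.nd (nat_lit 78) (PT.lf (nat_lit 23636) (nat_lit 6) (nat_lit 311) (nat_lit 1) (nat_lit 182) (nat_lit 157) (nat_lit 171)) (PT.lf (nat_lit 23560) (nat_lit 6) (nat_lit 310) (nat_lit 1) (nat_lit 183) (nat_lit 157) (nat_lit 170)))) (PT.nd (nat_lit 156) (PT.nd (nat_lit 78) (PT.lf (nat_lit 22420) (nat_lit 6) (nat_lit 295) (nat_lit 1) (nat_lit 184) (nat_lit 157) (nat_lit 169)) (PT.lf (nat_lit 21204) (nat_lit 6) (nat_lit 279) (nat_lit 1)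 (nat_lit 185) (nat_lit 157) (nat_lit 168))) (PT.nd (nat_lit 51558) (PT.lf (nat_lit 19912) (nat_lit 6) (nat_lit 262) (nat_lit 1) (nat_lit 186) (nat_lit 157) (nat_lit 167)) (PT.lf (nat_lit 19836) (nat_lit 6) (nat_lit 261) (nat_lit 3) (nat_lit 166) (nat_lit 158) (nat_lit 186))))))) (PT.nd (nat_lit 1170) (PT.nd (nat_lit 546) (PT.nd (nat_lit 234) (PT.nd (nat_lit 78) (PT.lf (nat_lit 21128) (nat_lit 6) (nat_lit 278) (nat_lit 3) (nat_lit 167) (nat_lit 158) (nat_lit 185)) (PT.nd (nat_lit 78) (PT.lf (nat_lit 22344) (nat_lit 6) (nat_lit 294) (nat_lit 3) (nat_lit 168) (nat_lit 158) (nat_lit 184)) (PT.lf (nat_lit 23484) (nat_lit 6) (nat_lit 309) (nat_lit 3) (nat_lit 169) (nat_lit 158) (nat_lit 183)))) (PT.nd (nat_lit 156) (PT.nd (nat_lit 78) (PT.lf (nat_lit 24548) (nat_lit 6) (nat_lit 323) (nat_lit 3) (nat_lit 170) (nat_lit 158) (nat_lit 182)) (PT.lf (nat_lit 24624) (nat_lit 6) (nat_lit 324) (nat_lit 3) (nat_lit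 171) (nat_lit 158) (nat_lit 181))) (PT.nd (nat_lit 78) (PT.lf (nat_lit 24700) (nat_lit 6) (nat_lit 325) (nat_lit 3) (nat_lit 172) (nat_lit 158) (nat_lit 180)) (PT.lf (nat_lit 24776) (nat_lit 6) (nat_lit 326) (nat_lit 3) (nat_lit 173) (nat_lit 158) (nat_lit 179))))) (PT.nd (nat_lit 312) (PT.nd (nat_lit 156) (PT.nd (nat_lit 78) (PT.lf (nat_lit 24852) (nat_lit 6) (nat_lit 327) (nat_lit 3) (nat_lit 174) (nat_lit 158) (nat_lit 178)) (PT.lf (nat_lit 24928) (nat_lit 6) (nat_lit 328) (nat_lit 3) (nat_lit 175) (nat_lit 158) (nat_lit 177))) (PT.nd (nat_lit 78) (PT.lf (nat_lit 25004) (nat_lit 3) (nat_lit 329) (nat_lit 1) (nat_lit 176) (nat_lit 158) (nat_lit 176)) (PT.lf (nat_lit 24928) (nat_lit 6) (nat_lit 328) (nat_lit 1) (nat_lit 177) (nat_lit 158) (nat_lit 175)))) (PT.nd (nat_lit 156) (PT.nd (nat_lit 78) (PT.lf (nat_lit 24852) (nat_lit 6) (nat_lit 327) (nat_lit 1) (nat_lit 178) (nat_lit 158) (nat_lit 174))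 (PT.lf (nat_lit 24776) (nat_lit 6) (nat_lit 326) (nat_lit 1) (nat_lit 179) (nat_lit 158) (nat_lit 173))) (PT.nd (nat_lit 78) (PT.lf (nat_lit 24700) (nat_lit 6) (nat_lit 325) (nat_lit 1) (nat_lit 180) (nat_lit 158) (nat_lit 172)) (PT.lf (nat_lit 24624) (nat_lit 6) (nat_lit 324) (nat_lit 1) (nat_lit 181) (nat_lit 158) (nat_lit 171)))))) (PT.nd (nat_lit 52026) (PT.nd (nat_lit 312) (PT.nd (nat_lit 156) (PT.nd (nat_lit 78) (PT.lf (nat_lit 24548) (nat_lit 6) (nat_lit 323) (nat_lit 1) (nat_lit 182) (nat_lit 158) (nat_lit 170)) (PT.lf (nat_lit 23484) (nat_lit 6) (nat_lit 309) (nat_lit 1) (nat_lit 183) (nat_lit 158) (nat_lit 169))) (PT.nd (nat_lit 78) (PT.lf (nat_lit 22344) (nat_lit 6) (nat_lit 294) (nat_lit 1) (nat_lit 184) (nat_lit 158) (nat_lit 168)) (PT.lf (nat_lit 21128) (nat_lit 6) (nat_lit 278) (nat_lit 1) (nat_lit 185) (nat_lit 158) (nat_lit 167)))) (PT.nd (nat_lit 51558) (PT.nd (nat_lit 51480) (PT.lf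 (nat_lit 19836) (nat_lit 6) (nat_lit 261) (nat_lit 1) (nat_lit 186) (nat_lit 158) (nat_lit 166)) (PT.lf (nat_lit 19760) (nat_lit 6) (nat_lit 260) (nat_lit 3) (nat_lit 165) (nat_lit 159) (nat_lit 186))) (PT.nd (nat_lit 78) (PT.lf (nat_lit 21052) (nat_lit 6) (nat_lit 277) (nat_lit 3) (nat_lit 166) (nat_lit 159) (nat_lit 185)) (PT.lf (nat_lit 22268) (nat_lit 6) (nat_lit 293) (nat_lit 3) (nat_lit 167) (nat_lit 159) (nat_lit 184))))) (PT.nd (nat_lit 312) (PT.nd (nat_lit 156) (PT.nd (nat_lit 78) (PT.lf (nat_lit 23408) (nat_lit 6) (nat_lit 308) (nat_lit 3) (nat_lit 168) (nat_lit 159) (nat_lit 183)) (PT.lf (nat_lit 24472) (nat_lit 6) (nat_lit 322) (nat_lit 3) (nat_lit 169) (nat_lit 159) (nat_lit 182))) (PT.nd (nat_lit 78) (PT.lf (nat_lit 25460) (nat_lit 6) (nat_lit 335) (nat_lit 3) (nat_lit 170) (nat_lit 159) (nat_lit 181)) (PT.lf (nat_lit 25536) (nat_lit 6) (nat_lit 336) (nat_lit 3) (nat_lit 171) (nat_lit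 159) (nat_lit 180)))) (PT.nd (nat_lit 156) (PT.nd (nat_lit 78) (PT.lf (nat_lit 25612) (nat_lit 6) (nat_lit 337) (nat_lit 3) (nat_lit 172) (nat_lit 159) (nat_lit 179)) (PT.lf (nat_lit 25688) (nat_lit 6) (nat_lit 338) (nat_lit 3) (nat_lit 173) (nat_lit 159) (nat_lit 178))) (PT.nd (nat_lit 78) (PT.lf (nat_lit 25764) (nat_lit 6) (nat_lit 339) (nat_lit 3) (nat_lit 174) (nat_lit 159) (nat_lit 177)) (PT.lf (nat_lit 25840) (nat_lit 6) (nat_lit 340) (nat_lit 3) (nat_lit 175) (nat_lit 159) (nat_lit 176))))))))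
noncomputable def pc8 : PT := (PT.nd (nat_lit 53742) (PT.nd (nat_lit 52494) (PT.nd (nat_lit 546) (PT.nd (nat_lit 234) (PT.nd (nat_lit 78) (PT.lf (nat_lit 25840) (nat_lit 6) (nat_lit 340) (nat_lit 1) (nat_lit 176) (nat_lit 159) (nat_lit 175)) (PT.nd (nat_lit 78) (PT.lf (nat_lit 25764) (nat_lit 6) (nat_lit 339) (nat_lit 1) (nat_lit 177) (nat_lit 159) (nat_lit 174)) (PT.lf (nat_lit 25688) (nat_lit 6) (nat_lit 338) (nat_lit 1) (nat_lit 178) (nat_lit 159) (nat_lit 173)))) (PT.nd (nat_lit 156) (PT.nd (nat_lit 78) (PT.lf (nat_lit 25612) (nat_lit 6) (nat_lit 337) (nat_lit 1) (nat_lit 179) (nat_lit 159) (nat_lit 172)) (PT.lf (nat_lit 25536) (nat_lit 6) (nat_lit 336) (nat_lit 1) (nat_lit 180) (nat_lit 159) (nat_lit 171))) (PT.nd (nat_lit 78) (PT.lf (nat_lit 25460) (nat_lit 6) (nat_lit 335) (nat_lit 1) (nat_lit 181) (nat_lit 159) (nat_lit 170)) (PT.lf (nat_lit 24472) (nat_lit 6) (nat_lit 322) (nat_lit 1) (nat_lit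 182) (nat_lit 159) (nat_lit 169))))) (PT.nd (nat_lit 51636) (PT.nd (nat_lit 156) (PT.nd (nat_lit 78) (PT.lf (nat_lit 23408) (nat_lit 6) (nat_lit 308) (nat_lit 1) (nat_lit 183) (nat_lit 159) (nat_lit 168)) (PT.lf (nat_lit 22268) (nat_lit 6) (nat_lit 293) (nat_lit 1) (nat_lit 184) (nat_lit 159) (nat_lit 167))) (PT.nd (nat_lit 78) (PT.lf (nat_lit 21052) (nat_lit 6) (nat_lit 277) (nat_lit 1) (nat_lit 185) (nat_lit 159) (nat_lit 166)) (PT.lf (nat_lit 19760) (nat_lit 6) (nat_lit 260) (nat_lit 1) (nat_lit 186) (nat_lit 159) (nat_lit 165)))) (PT.nd (nat_lit 156) (PT.nd (nat_lit 78) (PT.lf (nat_lit 19684) (nat_lit 6) (nat_lit 259) (nat_lit 3) (nat_lit 164) (nat_lit 160) (nat_lit 186)) (PT.lf (nat_lit 20976) (nat_lit 6) (nat_lit 276) (nat_lit 3) (nat_lit 165) (nat_lit 160) (nat_lit 185))) (PT.nd (nat_lit 78) (PT.lf (nat_lit 22192) (nat_lit 6) (nat_lit 292) (nat_lit 3) (nat_lit 166) (nat_lit 160) (nat_lit 184))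 (PT.lf (nat_lit 23332) (nat_lit 6) (nat_lit 307) (nat_lit 3) (nat_lit 167) (nat_lit 160) (nat_lit 183)))))) (PT.nd (nat_lit 624) (PT.nd (nat_lit 312) (PT.nd (nat_lit 156) (PT.nd (nat_lit 78) (PT.lf (nat_lit 24396) (nat_lit 6) (nat_lit 321) (nat_lit 3) (nat_lit 168) (nat_lit 160) (nat_lit 182)) (PT.lf (nat_lit 25384) (nat_lit 6) (nat_lit 334) (nat_lit 3) (nat_lit 169) (nat_lit 160) (nat_lit 181))) (PT.nd (nat_lit 78) (PT.lf (nat_lit 26296) (nat_lit 6) (nat_lit 346) (nat_lit 3) (nat_lit 170) (nat_lit 160) (nat_lit 180)) (PT.lf (nat_lit 26372) (nat_lit 6) (nat_lit 347) (nat_lit 3) (nat_lit 171) (nat_lit 160) (nat_lit 179)))) (PT.nd (nat_lit 156) (PT.nd (nat_lit 78) (PT.lf (nat_lit 26448) (nat_lit 6) (nat_lit 348) (nat_lit 3) (nat_lit 172) (nat_lit 160) (nat_lit 178)) (PT.lf (nat_lit 26524) (nat_lit 6) (nat_lit 349) (nat_lit 3) (nat_lit 173) (nat_lit 160) (nat_lit 177))) (PT.nd (nat_lit 78) (PT.lf (nat_lit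 26600) (nat_lit 6) (nat_lit 350) (nat_lit 3) (nat_lit 174) (nat_lit 160) (nat_lit 176)) (PT.lf (nat_lit 26676) (nat_lit 3) (nat_lit 351) (nat_lit 1) (nat_lit 175) (nat_lit 160) (nat_lit 175))))) (PT.nd (nat_lit 312) (PT.nd (nat_lit 156) (PT.nd (nat_lit 78) (PT.lf (nat_lit 26600) (nat_lit 6) (nat_lit 350) (nat_lit 1) (nat_lit 176) (nat_lit 160) (nat_lit 174)) (PT.lf (nat_lit 26524) (nat_lit 6) (nat_lit 349) (nat_lit 1) (nat_lit 177) (nat_lit 160) (nat_lit 173))) (PT.nd (nat_lit 78) (PT.lf (nat_lit 26448) (nat_lit 6) (nat_lit 348) (nat_lit 1) (nat_lit 178) (nat_lit 160) (nat_lit 172)) (PT.lf (nat_lit 26372) (nat_lit 6) (nat_lit 347) (nat_lit 1) (nat_lit 179) (nat_lit 160) (nat_lit 171)))) (PT.nd (nat_lit 156) (PT.nd (nat_lit 78) (PT.lf (nat_lit 26296) (nat_lit 6) (nat_lit 346) (nat_lit 1) (nat_lit 180) (nat_lit 160) (nat_lit 170)) (PT.lf (nat_lit 25384) (nat_lit 6) (nat_lit 334) (nat_lit 1) (nat_lit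 181) (nat_lit 160) (nat_lit 169))) (PT.nd (nat_lit 78) (PT.lf (nat_lit 24396) (nat_lit 6) (nat_lit 321) (nat_lit 1) (nat_lit 182) (nat_lit 160) (nat_lit 168)) (PT.lf (nat_lit 23332) (nat_lit 6) (nat_lit 307) (nat_lit 1) (nat_lit 183) (nat_lit 160) (nat_lit 167))))))) (PT.nd (nat_lit 52416) (PT.nd (nat_lit 51792) (PT.nd (nat_lit 51480) (PT.nd (nat_lit 78) (PT.lf (nat_lit 22192) (nat_lit 6) (nat_lit 292) (nat_lit 1) (nat_lit 184) (nat_lit 160) (nat_lit 166)) (PT.nd (nat_lit 78) (PT.lf (nat_lit 20976) (nat_lit 6) (nat_lit 276) (nat_lit 1) (nat_lit 185) (nat_lit 160) (nat_lit 165)) (PT.lf (nat_lit 19684) (nat_lit 6) (nat_lit 259) (nat_lit 1) (nat_lit 186) (nat_lit 160) (nat_lit 164)))) (PT.nd (nat_lit 156) (PT.nd (nat_lit 78) (PT.lf (nat_lit 19608) (nat_lit 6) (nat_lit 258) (nat_lit 3) (nat_lit 163) (nat_lit 161) (nat_lit 186)) (PT.lf (nat_lit 20900) (nat_lit 6) (nat_lit 275) (nat_lit 3) (nat_lit 164)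 (nat_lit 161) (nat_lit 185))) (PT.nd (nat_lit 78) (PT.lf (nat_lit 22116) (nat_lit 6) (nat_lit 291) (nat_lit 3) (nat_lit 165) (nat_lit 161) (nat_lit 184)) (PT.lf (nat_lit 23256) (nat_lit 6) (nat_lit 306) (nat_lit 3) (nat_lit 166) (nat_lit 161) (nat_lit 183))))) (PT.nd (nat_lit 312) (PT.nd (nat_lit 156) (PT.nd (nat_lit 78) (PT.lf (nat_lit 24320) (nat_lit 6) (nat_lit 320) (nat_lit 3) (nat_lit 167) (nat_lit 161) (nat_lit 182)) (PT.lf (nat_lit 25308) (nat_lit 6) (nat_lit 333) (nat_lit 3) (nat_lit 168) (nat_lit 161) (nat_lit 181))) (PT.nd (nat_lit 78) (PT.lf (nat_lit 26220) (nat_lit 6) (nat_lit 345) (nat_lit 3) (nat_lit 169) (nat_lit 161) (nat_lit 180)) (PT.lf (nat_lit 27056) (nat_lit 6) (nat_lit 356) (nat_lit 3) (nat_lit 170) (nat_lit 161) (nat_lit 179)))) (PT.nd (nat_lit 156) (PT.nd (nat_lit 78) (PT.lf (nat_lit 27132) (nat_lit 6) (nat_lit 357) (nat_lit 3) (nat_lit 171) (nat_lit 161) (nat_lit 178)) (PT.lf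 (nat_lit 27208) (nat_lit 6) (nat_lit 358) (nat_lit 3) (nat_lit 172) (nat_lit 161) (nat_lit 177))) (PT.nd (nat_lit 78) (PT.lf (nat_lit 27284) (nat_lit 6) (nat_lit 359) (nat_lit 3) (nat_lit 173) (nat_lit 161) (nat_lit 176)) (PT.lf (nat_lit 27360) (nat_lit 6) (nat_lit 360) (nat_lit 3) (nat_lit 174) (nat_lit 161) (nat_lit 175)))))) (PT.nd (nat_lit 624) (PT.nd (nat_lit 312) (PT.nd (nat_lit 156) (PT.nd (nat_lit 78) (PT.lf (nat_lit 27360) (nat_lit 6) (nat_lit 360) (nat_lit 1) (nat_lit 175) (nat_lit 161) (nat_lit 174)) (PT.lf (nat_lit 27284) (nat_lit 6) (nat_lit 359) (nat_lit 1) (nat_lit 176) (nat_lit 161) (nat_lit 173))) (PT.nd (nat_lit 78) (PT.lf (nat_lit 27208) (nat_lit 6) (nat_lit 358) (nat_lit 1) (nat_lit 177) (nat_lit 161) (nat_lit 172)) (PT.lf (nat_lit 27132) (nat_lit 6) (nat_lit 357) (nat_lit 1) (nat_lit 178) (nat_lit 161) (nat_lit 171)))) (PT.nd (nat_lit 156) (PT.nd (nat_lit 78) (PT.lf (nat_lit 27056)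 (nat_lit 6) (nat_lit 356) (nat_lit 1) (nat_lit 179) (nat_lit 161) (nat_lit 170)) (PT.lf (nat_lit 26220) (nat_lit 6) (nat_lit 345) (nat_lit 1) (nat_lit 180) (nat_lit 161) (nat_lit 169))) (PT.nd (nat_lit 78) (PT.lf (nat_lit 25308) (nat_lit 6) (nat_lit 333) (nat_lit 1) (nat_lit 181) (nat_lit 161) (nat_lit 168)) (PT.lf (nat_lit 24320) (nat_lit 6) (nat_lit 320) (nat_lit 1) (nat_lit 182) (nat_lit 161) (nat_lit 167))))) (PT.nd (nat_lit 51480) (PT.nd (nat_lit 156) (PT.nd (nat_lit 78) (PT.lf (nat_lit 23256) (nat_lit 6) (nat_lit 306) (nat_lit 1) (nat_lit 183) (nat_lit 161) (nat_lit 166)) (PT.lf (nat_lit 22116) (nat_lit 6) (nat_lit 291) (nat_lit 1) (nat_lit 184) (nat_lit 161) (nat_lit 165))) (PT.nd (nat_lit 78) (PT.lf (nat_lit 20900) (nat_lit 6) (nat_lit 275) (nat_lit 1) (nat_lit 185) (nat_lit 161) (nat_lit 164)) (PT.lf (nat_lit 19608) (nat_lit 6) (nat_lit 258) (nat_lit 1) (nat_lit 186) (nat_lit 161) (nat_lit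 163)))) (PT.nd (nat_lit 156) (PT.nd (nat_lit 78) (PT.lf (nat_lit 19532) (nat_lit 3) (nat_lit 257) (nat_lit 3) (nat_lit 162) (nat_lit 162) (nat_lit 186)) (PT.lf (nat_lit 20824) (nat_lit 6) (nat_lit 274) (nat_lit 3) (nat_lit 163) (nat_lit 162) (nat_lit 185))) (PT.nd (nat_lit 78) (PT.lf (nat_lit 22040) (nat_lit 6) (nat_lit 290) (nat_lit 3) (nat_lit 164) (nat_lit 162) (nat_lit 184)) (PT.lf (nat_lit 23180) (nat_lit 6) (nat_lit 305) (nat_lit 3) (nat_lit 165) (nat_lit 162) (nat_lit 183))))))))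
noncomputable def pc9 : PT := (PT.nd (nat_lit 53508) (PT.nd (nat_lit 1170) (PT.nd (nat_lit 546) (PT.nd (nat_lit 234) (PT.nd (nat_lit 78) (PT.lf (nat_lit 24244) (nat_lit 6) (nat_lit 319) (nat_lit 3) (nat_lit 166) (nat_lit 162) (nat_lit 182)) (PT.nd (nat_lit 78) (PT.lf (nat_lit 25232) (nat_lit 6) (nat_lit 332) (nat_lit 3) (nat_lit 167) (nat_lit 162) (nat_lit 181)) (PT.lf (nat_lit 26144) (nat_lit 6) (nat_lit 344) (nat_lit 3) (nat_lit 168) (nat_lit 162) (nat_lit 180)))) (PT.nd (nat_lit 156) (PT.nd (nat_lit 78) (PT.lf (nat_lit 26980) (nat_lit 6) (nat_lit 355) (nat_lit 3) (nat_lit 169) (nat_lit 162) (nat_lit 179)) (PT.lf (nat_lit 27740) (nat_lit 6) (nat_lit 365) (nat_lit 3) (nat_lit 170) (nat_lit 162) (nat_lit 178))) (PT.nd (nat_lit 78) (PT.lf (nat_lit 27816) (nat_lit 6) (nat_lit 366) (nat_lit 3) (nat_lit 171) (nat_lit 162) (nat_lit 177)) (PT.lf (nat_lit 27892) (nat_lit 6) (nat_lit 367) (nat_lit 3) (nat_lit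 172) (nat_lit 162) (nat_lit 176))))) (PT.nd (nat_lit 312) (PT.nd (nat_lit 156) (PT.nd (nat_lit 78) (PT.lf (nat_lit 27968) (nat_lit 6) (nat_lit 368) (nat_lit 3) (nat_lit 173) (nat_lit 162) (nat_lit 175)) (PT.lf (nat_lit 28044) (nat_lit 3) (nat_lit 369) (nat_lit 1) (nat_lit 174) (nat_lit 162) (nat_lit 174))) (PT.nd (nat_lit 78) (PT.lf (nat_lit 27968) (nat_lit 6) (nat_lit 368) (nat_lit 1) (nat_lit 175) (nat_lit 162) (nat_lit 173)) (PT.lf (nat_lit 27892) (nat_lit 6) (nat_lit 367) (nat_lit 1) (nat_lit 176) (nat_lit 162) (nat_lit 172)))) (PT.nd (nat_lit 156) (PT.nd (nat_lit 78) (PT.lf (nat_lit 27816) (nat_lit 6) (nat_lit 366) (nat_lit 1) (nat_lit 177) (nat_lit 162) (nat_lit 171)) (PT.lf (nat_lit 27740) (nat_lit 6) (nat_lit 365) (nat_lit 1) (nat_lit 178) (nat_lit 162) (nat_lit 170))) (PT.nd (nat_lit 78) (PT.lf (nat_lit 26980) (nat_lit 6) (nat_lit 355) (nat_lit 1) (nat_lit 179) (nat_lit 162) (nat_lit 169))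 (PT.lf (nat_lit 26144) (nat_lit 6) (nat_lit 344) (nat_lit 1) (nat_lit 180) (nat_lit 162) (nat_lit 168)))))) (PT.nd (nat_lit 51714) (PT.nd (nat_lit 312) (PT.nd (nat_lit 156) (PT.nd (nat_lit 78) (PT.lf (nat_lit 25232) (nat_lit 6) (nat_lit 332) (nat_lit 1) (nat_lit 181) (nat_lit 162) (nat_lit 167)) (PT.lf (nat_lit 24244) (nat_lit 6) (nat_lit 319) (nat_lit 1) (nat_lit 182) (nat_lit 162) (nat_lit 166))) (PT.nd (nat_lit 78) (PT.lf (nat_lit 23180) (nat_lit 6) (nat_lit 305) (nat_lit 1) (nat_lit 183) (nat_lit 162) (nat_lit 165)) (PT.lf (nat_lit 22040) (nat_lit 6) (nat_lit 290) (nat_lit 1) (nat_lit 184) (nat_lit 162) (nat_lit 164)))) (PT.nd (nat_lit 51246) (PT.nd (nat_lit 78) (PT.lf (nat_lit 20824) (nat_lit 6) (nat_lit 274) (nat_lit 1) (nat_lit 185) (nat_lit 162) (nat_lit 163)) (PT.lf (nat_lit 19532) (nat_lit 3) (nat_lit 257) (nat_lit 0) (nat_lit 186) (nat_lit 162) (nat_lit 162))) (PT.nd (nat_lit 78) (PT.lf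 (nat_lit 19608) (nat_lit 6) (nat_lit 258) (nat_lit 5) (nat_lit 161) (nat_lit 163) (nat_lit 186)) (PT.lf (nat_lit 20824) (nat_lit 6) (nat_lit 274) (nat_lit 5) (nat_lit 162) (nat_lit 163) (nat_lit 185))))) (PT.nd (nat_lit 312) (PT.nd (nat_lit 156) (PT.nd (nat_lit 78) (PT.lf (nat_lit 21964) (nat_lit 3) (nat_lit 289) (nat_lit 3) (nat_lit 163) (nat_lit 163) (nat_lit 184)) (PT.lf (nat_lit 23104) (nat_lit 6) (nat_lit 304) (nat_lit 3) (nat_lit 164) (nat_lit 163) (nat_lit 183))) (PT.nd (nat_lit 78) (PT.lf (nat_lit 24168) (nat_lit 6) (nat_lit 318) (nat_lit 3) (nat_lit 165) (nat_lit 163) (nat_lit 182)) (PT.lf (nat_lit 25156) (nat_lit 6) (nat_lit 331) (nat_lit 3) (nat_lit 166) (nat_lit 163) (nat_lit 181)))) (PT.nd (nat_lit 156) (PT.nd (nat_lit 78) (PT.lf (nat_lit 26068) (nat_lit 6) (nat_lit 343) (nat_lit 3) (nat_lit 167) (nat_lit 163) (nat_lit 180)) (PT.lf (nat_lit 26904) (nat_lit 6) (nat_lit 354) (nat_lit 3)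 (nat_lit 168) (nat_lit 163) (nat_lit 179))) (PT.nd (nat_lit 78) (PT.lf (nat_lit 27664) (nat_lit 6) (nat_lit 364) (nat_lit 3) (nat_lit 169) (nat_lit 163) (nat_lit 178)) (PT.lf (nat_lit 28348) (nat_lit 6) (nat_lit 373) (nat_lit 3) (nat_lit 170) (nat_lit 163) (nat_lit 177))))))) (PT.nd (nat_lit 1170) (PT.nd (nat_lit 546) (PT.nd (nat_lit 234) (PT.nd (nat_lit 78) (PT.lf (nat_lit 28424) (nat_lit 6) (nat_lit 374) (nat_lit 3) (nat_lit 171) (nat_lit 163) (nat_lit 176)) (PT.nd (nat_lit 78) (PT.lf (nat_lit 28500) (nat_lit 6) (nat_lit 375) (nat_lit 3) (nat_lit 172) (nat_lit 163) (nat_lit 175)) (PT.lf (nat_lit 28576) (nat_lit 6) (nat_lit 376) (nat_lit 3) (nat_lit 173) (nat_lit 163) (nat_lit 174)))) (PT.nd (nat_lit 156) (PT.nd (nat_lit 78) (PT.lf (nat_lit 28576) (nat_lit 6) (nat_lit 376) (nat_lit 1) (nat_lit 174) (nat_lit 163) (nat_lit 173)) (PT.lf (nat_lit 28500) (nat_lit 6) (nat_lit 375) (nat_lit 1) (nat_lit 175)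 (nat_lit 163) (nat_lit 172))) (PT.nd (nat_lit 78) (PT.lf (nat_lit 28424) (nat_lit 6) (nat_lit 374) (nat_lit 1) (nat_lit 176) (nat_lit 163) (nat_lit 171)) (PT.lf (nat_lit 28348) (nat_lit 6) (nat_lit 373) (nat_lit 1) (nat_lit 177) (nat_lit 163) (nat_lit 170))))) (PT.nd (nat_lit 312) (PT.nd (nat_lit 156) (PT.nd (nat_lit 78) (PT.lf (nat_lit 27664) (nat_lit 6) (nat_lit 364) (nat_lit 1) (nat_lit 178) (nat_lit 163) (nat_lit 169)) (PT.lf (nat_lit 26904) (nat_lit 6) (nat_lit 354) (nat_lit 1) (nat_lit 179) (nat_lit 163) (nat_lit 168))) (PT.nd (nat_lit 78) (PT.lf (nat_lit 26068) (nat_lit 6) (nat_lit 343) (nat_lit 1) (nat_lit 180) (nat_lit 163) (nat_lit 167)) (PT.lf (nat_lit 25156) (nat_lit 6) (nat_lit 331) (nat_lit 1) (nat_lit 181) (nat_lit 163) (nat_lit 166)))) (PT.nd (nat_lit 156) (PT.nd (nat_lit 78) (PT.lf (nat_lit 24168) (nat_lit 6) (nat_lit 318) (nat_lit 1) (nat_lit 182) (nat_lit 163) (nat_lit 165)) (PT.lf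 (nat_lit 23104) (nat_lit 6) (nat_lit 304) (nat_lit 1) (nat_lit 183) (nat_lit 163) (nat_lit 164))) (PT.nd (nat_lit 78) (PT.lf (nat_lit 21964) (nat_lit 3) (nat_lit 289) (nat_lit 0) (nat_lit 184) (nat_lit 163) (nat_lit 163)) (PT.lf (nat_lit 20824) (nat_lit 6) (nat_lit 274) (nat_lit 0) (nat_lit 185) (nat_lit 163) (nat_lit 162)))))) (PT.nd (nat_lit 51636) (PT.nd (nat_lit 51324) (PT.nd (nat_lit 51168) (PT.nd (nat_lit 51090) (PT.lf (nat_lit 19608) (nat_lit 6) (nat_lit 258) (nat_lit 0) (nat_lit 186) (nat_lit 163) (nat_lit 161)) (PT.lf (nat_lit 19684) (nat_lit 6) (nat_lit 259) (nat_lit 5) (nat_lit 160) (nat_lit 164) (nat_lit 186))) (PT.nd (nat_lit 78) (PT.lf (nat_lit 20900) (nat_lit 6) (nat_lit 275) (nat_lit 5) (nat_lit 161) (nat_lit 164) (nat_lit 185)) (PT.lf (nat_lit 22040) (nat_lit 6) (nat_lit 290) (nat_lit 5) (nat_lit 162) (nat_lit 164) (nat_lit 184)))) (PT.nd (nat_lit 156) (PT.nd (nat_lit 78) (PT.lf (nat_lit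 23104) (nat_lit 6) (nat_lit 304) (nat_lit 5) (nat_lit 163) (nat_lit 164) (nat_lit 183)) (PT.lf (nat_lit 24092) (nat_lit 3) (nat_lit 317) (nat_lit 3) (nat_lit 164) (nat_lit 164) (nat_lit 182))) (PT.nd (nat_lit 78) (PT.lf (nat_lit 25080) (nat_lit 6) (nat_lit 330) (nat_lit 3) (nat_lit 165) (nat_lit 164) (nat_lit 181)) (PT.lf (nat_lit 25992) (nat_lit 6) (nat_lit 342) (nat_lit 3) (nat_lit 166) (nat_lit 164) (nat_lit 180))))) (PT.nd (nat_lit 312) (PT.nd (nat_lit 156) (PT.nd (nat_lit 78) (PT.lf (nat_lit 26828) (nat_lit 6) (nat_lit 353) (nat_lit 3) (nat_lit 167) (nat_lit 164) (nat_lit 179)) (PT.lf (nat_lit 27588) (nat_lit 6) (nat_lit 363) (nat_lit 3) (nat_lit 168) (nat_lit 164) (nat_lit 178))) (PT.nd (nat_lit 78) (PT.lf (nat_lit 28272) (nat_lit 6) (nat_lit 372) (nat_lit 3) (nat_lit 169) (nat_lit 164) (nat_lit 177)) (PT.lf (nat_lit 28880) (nat_lit 6) (nat_lit 380) (nat_lit 3) (nat_lit 170) (nat_lit 164) (nat_lit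 176)))) (PT.nd (nat_lit 156) (PT.nd (nat_lit 78) (PT.lf (nat_lit 28956) (nat_lit 6) (nat_lit 381) (nat_lit 3) (nat_lit 171) (nat_lit 164) (nat_lit 175)) (PT.lf (nat_lit 29032) (nat_lit 6) (nat_lit 382) (nat_lit 3) (nat_lit 172) (nat_lit 164) (nat_lit 174))) (PT.nd (nat_lit 78) (PT.lf (nat_lit 29108) (nat_lit 3) (nat_lit 383) (nat_lit 1) (nat_lit 173) (nat_lit 164) (nat_lit 173)) (PT.lf (nat_lit 29032) (nat_lit 6) (nat_lit 382) (nat_lit 1) (nat_lit 174) (nat_lit 164) (nat_lit 172))))))))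
noncomputable def pc10 : PT := (PT.nd (nat_lit 53352) (PT.nd (nat_lit 52104) (PT.nd (nat_lit 546) (PT.nd (nat_lit 234) (PT.nd (nat_lit 78) (PT.lf (nat_lit 28956) (nat_lit 6) (nat_lit 381) (nat_lit 1) (nat_lit 175) (nat_lit 164) (nat_lit 171)) (PT.nd (nat_lit 78) (PT.lf (nat_lit 28880) (nat_lit 6) (nat_lit 380) (nat_lit 1) (nat_lit 176) (nat_lit 164) (nat_lit 170)) (PT.lf (nat_lit 28272) (nat_lit 6) (nat_lit 372) (nat_lit 1) (nat_lit 177) (nat_lit 164) (nat_lit 169)))) (PT.nd (nat_lit 156) (PT.nd (nat_lit 78) (PT.lf (nat_lit 27588) (nat_lit 6) (nat_lit 363) (nat_lit 1) (nat_lit 178) (nat_lit 164) (nat_lit 168)) (PT.lf (nat_lit 26828) (nat_lit 6) (nat_lit 353) (nat_lit 1) (nat_lit 179) (nat_lit 164) (nat_lit 167))) (PT.nd (nat_lit 78) (PT.lf (nat_lit 25992) (nat_lit 6) (nat_lit 342) (nat_lit 1) (nat_lit 180) (nat_lit 164) (nat_lit 166)) (PT.lf (nat_lit 25080) (nat_lit 6) (nat_lit 330) (nat_lit 1) (nat_lit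 181) (nat_lit 164) (nat_lit 165))))) (PT.nd (nat_lit 312) (PT.nd (nat_lit 156) (PT.nd (nat_lit 78) (PT.lf (nat_lit 24092) (nat_lit 3) (nat_lit 317) (nat_lit 0) (nat_lit 182) (nat_lit 164) (nat_lit 164)) (PT.lf (nat_lit 23104) (nat_lit 6) (nat_lit 304) (nat_lit 0) (nat_lit 183) (nat_lit 164) (nat_lit 163))) (PT.nd (nat_lit 78) (PT.lf (nat_lit 22040) (nat_lit 6) (nat_lit 290) (nat_lit 0) (nat_lit 184) (nat_lit 164) (nat_lit 162)) (PT.lf (nat_lit 20900) (nat_lit 6) (nat_lit 275) (nat_lit 0) (nat_lit 185) (nat_lit 164) (nat_lit 161)))) (PT.nd (nat_lit 51090) (PT.nd (nat_lit 51012) (PT.lf (nat_lit 19684) (nat_lit 6) (nat_lit 259) (nat_lit 0) (nat_lit 186) (nat_lit 164) (nat_lit 160)) (PT.lf (nat_lit 19760) (nat_lit 6) (nat_lit 260) (nat_lit 5) (nat_lit 159) (nat_lit 165) (nat_lit 186))) (PT.nd (nat_lit 78) (PT.lf (nat_lit 20976) (nat_lit 6) (nat_lit 276) (nat_lit 5) (nat_lit 160) (nat_lit 165) (nat_lit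 185)) (PT.lf (nat_lit 22116) (nat_lit 6) (nat_lit 291) (nat_lit 5) (nat_lit 161) (nat_lit 165) (nat_lit 184)))))) (PT.nd (nat_lit 624) (PT.nd (nat_lit 312) (PT.nd (nat_lit 156) (PT.nd (nat_lit 78) (PT.lf (nat_lit 23180) (nat_lit 6) (nat_lit 305) (nat_lit 5) (nat_lit 162) (nat_lit 165) (nat_lit 183)) (PT.lf (nat_lit 24168) (nat_lit 6) (nat_lit 318) (nat_lit 5) (nat_lit 163) (nat_lit 165) (nat_lit 182))) (PT.nd (nat_lit 78) (PT.lf (nat_lit 25080) (nat_lit 6) (nat_lit 330) (nat_lit 5) (nat_lit 164) (nat_lit 165) (nat_lit 181)) (PT.lf (nat_lit 25916) (nat_lit 3) (nat_lit 341) (nat_lit 3) (nat_lit 165) (nat_lit 165) (nat_lit 180)))) (PT.nd (nat_lit 156) (PT.nd (nat_lit 78) (PT.lf (nat_lit 26752) (nat_lit 6) (nat_lit 352) (nat_lit 3) (nat_lit 166) (nat_lit 165) (nat_lit 179)) (PT.lf (nat_lit 27512) (nat_lit 6) (nat_lit 362) (nat_lit 3) (nat_lit 167) (nat_lit 165) (nat_lit 178))) (PT.nd (nat_lit 78) (PT.lf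 (nat_lit 28196) (nat_lit 6) (nat_lit 371) (nat_lit 3) (nat_lit 168) (nat_lit 165) (nat_lit 177)) (PT.lf (nat_lit 28804) (nat_lit 6) (nat_lit 379) (nat_lit 3) (nat_lit 169) (nat_lit 165) (nat_lit 176))))) (PT.nd (nat_lit 312) (PT.nd (nat_lit 156) (PT.nd (nat_lit 78) (PT.lf (nat_lit 29336) (nat_lit 6) (nat_lit 386) (nat_lit 3) (nat_lit 170) (nat_lit 165) (nat_lit 175)) (PT.lf (nat_lit 29412) (nat_lit 6) (nat_lit 387) (nat_lit 3) (nat_lit 171) (nat_lit 165) (nat_lit 174))) (PT.nd (nat_lit 78) (PT.lf (nat_lit 29488) (nat_lit 6) (nat_lit 388) (nat_lit 3) (nat_lit 172) (nat_lit 165) (nat_lit 173)) (PT.lf (nat_lit 29488) (nat_lit 6) (nat_lit 388) (nat_lit 1) (nat_lit 173) (nat_lit 165) (nat_lit 172)))) (PT.nd (nat_lit 156) (PT.nd (nat_lit 78) (PT.lf (nat_lit 29412) (nat_lit 6) (nat_lit 387) (nat_lit 1) (nat_lit 174) (nat_lit 165) (nat_lit 171)) (PT.lf (nat_lit 29336) (nat_lit 6) (nat_lit 386) (nat_lit 1)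 (nat_lit 175) (nat_lit 165) (nat_lit 170))) (PT.nd (nat_lit 78) (PT.lf (nat_lit 28804) (nat_lit 6) (nat_lit 379) (nat_lit 1) (nat_lit 176) (nat_lit 165) (nat_lit 169)) (PT.lf (nat_lit 28196) (nat_lit 6) (nat_lit 371) (nat_lit 1) (nat_lit 177) (nat_lit 165) (nat_lit 168))))))) (PT.nd (nat_lit 52026) (PT.nd (nat_lit 546) (PT.nd (nat_lit 234) (PT.nd (nat_lit 78) (PT.lf (nat_lit 27512) (nat_lit 6) (nat_lit 362) (nat_lit 1) (nat_lit 178) (nat_lit 165) (nat_lit 167)) (PT.nd (nat_lit 78) (PT.lf (nat_lit 26752) (nat_lit 6) (nat_lit 352) (nat_lit 1) (nat_lit 179) (nat_lit 165) (nat_lit 166)) (PT.lf (nat_lit 25916) (nat_lit 3) (nat_lit 341) (nat_lit 0) (nat_lit 180) (nat_lit 165) (nat_lit 165)))) (PT.nd (nat_lit 156) (PT.nd (nat_lit 78) (PT.lf (nat_lit 25080) (nat_lit 6) (nat_lit 330) (nat_lit 0) (nat_lit 181) (nat_lit 165) (nat_lit 164)) (PT.lf (nat_lit 24168) (nat_lit 6) (nat_lit 318) (nat_lit 0) (nat_lit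 182) (nat_lit 165) (nat_lit 163))) (PT.nd (nat_lit 78) (PT.lf (nat_lit 23180) (nat_lit 6) (nat_lit 305) (nat_lit 0) (nat_lit 183) (nat_lit 165) (nat_lit 162)) (PT.lf (nat_lit 22116) (nat_lit 6) (nat_lit 291) (nat_lit 0) (nat_lit 184) (nat_lit 165) (nat_lit 161))))) (PT.nd (nat_lit 51168) (PT.nd (nat_lit 51012) (PT.nd (nat_lit 78) (PT.lf (nat_lit 20976) (nat_lit 6) (nat_lit 276) (nat_lit 0) (nat_lit 185) (nat_lit 165) (nat_lit 160)) (PT.lf (nat_lit 19760) (nat_lit 6) (nat_lit 260) (nat_lit 0) (nat_lit 186) (nat_lit 165) (nat_lit 159))) (PT.nd (nat_lit 78) (PT.lf (nat_lit 19836) (nat_lit 6) (nat_lit 261) (nat_lit 5) (nat_lit 158) (nat_lit 166) (nat_lit 186)) (PT.lf (nat_lit 21052) (nat_lit 6) (nat_lit 277) (nat_lit 5) (nat_lit 159) (nat_lit 166) (nat_lit 185)))) (PT.nd (nat_lit 156) (PT.nd (nat_lit 78) (PT.lf (nat_lit 22192) (nat_lit 6) (nat_lit 292) (nat_lit 5) (nat_lit 160) (nat_lit 166) (nat_lit 184))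 (PT.lf (nat_lit 23256) (nat_lit 6) (nat_lit 306) (nat_lit 5) (nat_lit 161) (nat_lit 166) (nat_lit 183))) (PT.nd (nat_lit 78) (PT.lf (nat_lit 24244) (nat_lit 6) (nat_lit 319) (nat_lit 5) (nat_lit 162) (nat_lit 166) (nat_lit 182)) (PT.lf (nat_lit 25156) (nat_lit 6) (nat_lit 331) (nat_lit 5) (nat_lit 163) (nat_lit 166) (nat_lit 181)))))) (PT.nd (nat_lit 624) (PT.nd (nat_lit 312) (PT.nd (nat_lit 156) (PT.nd (nat_lit 78) (PT.lf (nat_lit 25992) (nat_lit 6) (nat_lit 342) (nat_lit 5) (nat_lit 164) (nat_lit 166) (nat_lit 180)) (PT.lf (nat_lit 26752) (nat_lit 6) (nat_lit 352) (nat_lit 5) (nat_lit 165) (nat_lit 166) (nat_lit 179))) (PT.nd (nat_lit 78) (PT.lf (nat_lit 27436) (nat_lit 3) (nat_lit 361) (nat_lit 3) (nat_lit 166) (nat_lit 166) (nat_lit 178)) (PT.lf (nat_lit 28120) (nat_lit 6) (nat_lit 370) (nat_lit 3) (nat_lit 167) (nat_lit 166) (nat_lit 177)))) (PT.nd (nat_lit 156) (PT.nd (nat_lit 78) (PT.lf (nat_lit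 28728) (nat_lit 6) (nat_lit 378) (nat_lit 3) (nat_lit 168) (nat_lit 166) (nat_lit 176)) (PT.lf (nat_lit 29260) (nat_lit 6) (nat_lit 385) (nat_lit 3) (nat_lit 169) (nat_lit 166) (nat_lit 175))) (PT.nd (nat_lit 78) (PT.lf (nat_lit 29716) (nat_lit 6) (nat_lit 391) (nat_lit 3) (nat_lit 170) (nat_lit 166) (nat_lit 174)) (PT.lf (nat_lit 29792) (nat_lit 6) (nat_lit 392) (nat_lit 3) (nat_lit 171) (nat_lit 166) (nat_lit 173))))) (PT.nd (nat_lit 312) (PT.nd (nat_lit 156) (PT.nd (nat_lit 78) (PT.lf (nat_lit 29868) (nat_lit 3) (nat_lit 393) (nat_lit 1) (nat_lit 172) (nat_lit 166) (nat_lit 172)) (PT.lf (nat_lit 29792) (nat_lit 6) (nat_lit 392) (nat_lit 1) (nat_lit 173) (nat_lit 166) (nat_lit 171))) (PT.nd (nat_lit 78) (PT.lf (nat_lit 29716) (nat_lit 6) (nat_lit 391) (nat_lit 1) (nat_lit 174) (nat_lit 166) (nat_lit 170)) (PT.lf (nat_lit 29260) (nat_lit 6) (nat_lit 385) (nat_lit 1) (nat_lit 175) (nat_lit 166) (nat_lit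 169)))) (PT.nd (nat_lit 156) (PT.nd (nat_lit 78) (PT.lf (nat_lit 28728) (nat_lit 6) (nat_lit 378) (nat_lit 1) (nat_lit 176) (nat_lit 166) (nat_lit 168)) (PT.lf (nat_lit 28120) (nat_lit 6) (nat_lit 370) (nat_lit 1) (nat_lit 177) (nat_lit 166) (nat_lit 167))) (PT.nd (nat_lit 78) (PT.lf (nat_lit 27436) (nat_lit 3) (nat_lit 361) (nat_lit 0) (nat_lit 178) (nat_lit 166) (nat_lit 166)) (PT.lf (nat_lit 26752) (nat_lit 6) (nat_lit 352) (nat_lit 0) (nat_lit 179) (nat_lit 166) (nat_lit 165))))))))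
noncomputable def pc11 : PT := (PT.nd (nat_lit 53196) (PT.nd (nat_lit 51948) (PT.nd (nat_lit 51324) (PT.nd (nat_lit 234) (PT.nd (nat_lit 78) (PT.lf (nat_lit 25992) (nat_lit 6) (nat_lit 342) (nat_lit 0) (nat_lit 180) (nat_lit 166) (nat_lit 164)) (PT.nd (nat_lit 78) (PT.lf (nat_lit 25156) (nat_lit 6) (nat_lit 331) (nat_lit 0) (nat_lit 181) (nat_lit 166) (nat_lit 163)) (PT.lf (nat_lit 24244) (nat_lit 6) (nat_lit 319) (nat_lit 0) (nat_lit 182) (nat_lit 166) (nat_lit 162)))) (PT.nd (nat_lit 156) (PT.nd (nat_lit 78) (PT.lf (nat_lit 23256) (nat_lit 6) (nat_lit 306) (nat_lit 0) (nat_lit 183) (nat_lit 166) (nat_lit 161)) (PT.lf (nat_lit 22192) (nat_lit 6) (nat_lit 292) (nat_lit 0) (nat_lit 184) (nat_lit 166) (nat_lit 160))) (PT.nd (nat_lit 78) (PT.lf (nat_lit 21052) (nat_lit 6) (nat_lit 277) (nat_lit 0) (nat_lit 185) (nat_lit 166) (nat_lit 159)) (PT.lf (nat_lit 19836) (nat_lit 6) (nat_lit 261) (nat_lit 0) (nat_lit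 186) (nat_lit 166) (nat_lit 158))))) (PT.nd (nat_lit 312) (PT.nd (nat_lit 156) (PT.nd (nat_lit 78) (PT.lf (nat_lit 19912) (nat_lit 6) (nat_lit 262) (nat_lit 5) (nat_lit 157) (nat_lit 167) (nat_lit 186)) (PT.lf (nat_lit 21128) (nat_lit 6) (nat_lit 278) (nat_lit 5) (nat_lit 158) (nat_lit 167) (nat_lit 185))) (PT.nd (nat_lit 78) (PT.lf (nat_lit 22268) (nat_lit 6) (nat_lit 293) (nat_lit 5) (nat_lit 159) (nat_lit 167) (nat_lit 184)) (PT.lf (nat_lit 23332) (nat_lit 6) (nat_lit 307) (nat_lit 5) (nat_lit 160) (nat_lit 167) (nat_lit 183)))) (PT.nd (nat_lit 156) (PT.nd (nat_lit 78) (PT.lf (nat_lit 24320) (nat_lit 6) (nat_lit 320) (nat_lit 5) (nat_lit 161) (nat_lit 167) (nat_lit 182)) (PT.lf (nat_lit 25232) (nat_lit 6) (nat_lit 332) (nat_lit 5) (nat_lit 162) (nat_lit 167) (nat_lit 181))) (PT.nd (nat_lit 78) (PT.lf (nat_lit 26068) (nat_lit 6) (nat_lit 343) (nat_lit 5) (nat_lit 163) (nat_lit 167) (nat_lit 180))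 (PT.lf (nat_lit 26828) (nat_lit 6) (nat_lit 353) (nat_lit 5) (nat_lit 164) (nat_lit 167) (nat_lit 179)))))) (PT.nd (nat_lit 624) (PT.nd (nat_lit 312) (PT.nd (nat_lit 156) (PT.nd (nat_lit 78) (PT.lf (nat_lit 27512) (nat_lit 6) (nat_lit 362) (nat_lit 5) (nat_lit 165) (nat_lit 167) (nat_lit 178)) (PT.lf (nat_lit 28120) (nat_lit 6) (nat_lit 370) (nat_lit 5) (nat_lit 166) (nat_lit 167) (nat_lit 177))) (PT.nd (nat_lit 78) (PT.lf (nat_lit 28652) (nat_lit 3) (nat_lit 377) (nat_lit 3) (nat_lit 167) (nat_lit 167) (nat_lit 176)) (PT.lf (nat_lit 29184) (nat_lit 6) (nat_lit 384) (nat_lit 3) (nat_lit 168) (nat_lit 167) (nat_lit 175)))) (PT.nd (nat_lit 156) (PT.nd (nat_lit 78) (PT.lf (nat_lit 29640) (nat_lit 6) (nat_lit 390) (nat_lit 3) (nat_lit 169) (nat_lit 167) (nat_lit 174)) (PT.lf (nat_lit 30020) (nat_lit 6) (nat_lit 395) (nat_lit 3) (nat_lit 170) (nat_lit 167) (nat_lit 173))) (PT.nd (nat_lit 78) (PT.lf (nat_lit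 30096) (nat_lit 6) (nat_lit 396) (nat_lit 3) (nat_lit 171) (nat_lit 167) (nat_lit 172)) (PT.lf (nat_lit 30096) (nat_lit 6) (nat_lit 396) (nat_lit 1) (nat_lit 172) (nat_lit 167) (nat_lit 171))))) (PT.nd (nat_lit 312) (PT.nd (nat_lit 156) (PT.nd (nat_lit 78) (PT.lf (nat_lit 30020) (nat_lit 6) (nat_lit 395) (nat_lit 1) (nat_lit 173) (nat_lit 167) (nat_lit 170)) (PT.lf (nat_lit 29640) (nat_lit 6) (nat_lit 390) (nat_lit 1) (nat_lit 174) (nat_lit 167) (nat_lit 169))) (PT.nd (nat_lit 78) (PT.lf (nat_lit 29184) (nat_lit 6) (nat_lit 384) (nat_lit 1) (nat_lit 175) (nat_lit 167) (nat_lit 168)) (PT.lf (nat_lit 28652) (nat_lit 3) (nat_lit 377) (nat_lit 0) (nat_lit 176) (nat_lit 167) (nat_lit 167)))) (PT.nd (nat_lit 156) (PT.nd (nat_lit 78) (PT.lf (nat_lit 28120) (nat_lit 6) (nat_lit 370) (nat_lit 0) (nat_lit 177) (nat_lit 167) (nat_lit 166)) (PT.lf (nat_lit 27512) (nat_lit 6) (nat_lit 362) (nat_lit 0) (nat_lit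 178) (nat_lit 167) (nat_lit 165))) (PT.nd (nat_lit 78) (PT.lf (nat_lit 26828) (nat_lit 6) (nat_lit 353) (nat_lit 0) (nat_lit 179) (nat_lit 167) (nat_lit 164)) (PT.lf (nat_lit 26068) (nat_lit 6) (nat_lit 343) (nat_lit 0) (nat_lit 180) (nat_lit 167) (nat_lit 163))))))) (PT.nd (nat_lit 51870) (PT.nd (nat_lit 51246) (PT.nd (nat_lit 234) (PT.nd (nat_lit 78) (PT.lf (nat_lit 25232) (nat_lit 6) (nat_lit 332) (nat_lit 0) (nat_lit 181) (nat_lit 167) (nat_lit 162)) (PT.nd (nat_lit 78) (PT.lf (nat_lit 24320) (nat_lit 6) (nat_lit 320) (nat_lit 0) (nat_lit 182) (nat_lit 167) (nat_lit 161)) (PT.lf (nat_lit 23332) (nat_lit 6) (nat_lit 307) (nat_lit 0) (nat_lit 183) (nat_lit 167) (nat_lit 160)))) (PT.nd (nat_lit 156) (PT.nd (nat_lit 78) (PT.lf (nat_lit 22268) (nat_lit 6) (nat_lit 293) (nat_lit 0) (nat_lit 184) (nat_lit 167) (nat_lit 159)) (PT.lf (nat_lit 21128) (nat_lit 6) (nat_lit 278) (nat_lit 0) (nat_lit 185) (nat_lit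 167) (nat_lit 158))) (PT.nd (nat_lit 50778) (PT.lf (nat_lit 19912) (nat_lit 6) (nat_lit 262) (nat_lit 0) (nat_lit 186) (nat_lit 167) (nat_lit 157)) (PT.lf (nat_lit 19988) (nat_lit 6) (nat_lit 263) (nat_lit 5) (nat_lit 156) (nat_lit 168) (nat_lit 186))))) (PT.nd (nat_lit 312) (PT.nd (nat_lit 156) (PT.nd (nat_lit 78) (PT.lf (nat_lit 21204) (nat_lit 6) (nat_lit 279) (nat_lit 5) (nat_lit 157) (nat_lit 168) (nat_lit 185)) (PT.lf (nat_lit 22344) (nat_lit 6) (nat_lit 294) (nat_lit 5) (nat_lit 158) (nat_lit 168) (nat_lit 184))) (PT.nd (nat_lit 78) (PT.lf (nat_lit 23408) (nat_lit 6) (nat_lit 308) (nat_lit 5) (nat_lit 159) (nat_lit 168) (nat_lit 183)) (PT.lf (nat_lit 24396) (nat_lit 6) (nat_lit 321) (nat_lit 5) (nat_lit 160) (nat_lit 168) (nat_lit 182)))) (PT.nd (nat_lit 156) (PT.nd (nat_lit 78) (PT.lf (nat_lit 25308) (nat_lit 6) (nat_lit 333) (nat_lit 5) (nat_lit 161) (nat_lit 168) (nat_lit 181)) (PT.lf (nat_lit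 26144) (nat_lit 6) (nat_lit 344) (nat_lit 5) (nat_lit 162) (nat_lit 168) (nat_lit 180))) (PT.nd (nat_lit 78) (PT.lf (nat_lit 26904) (nat_lit 6) (nat_lit 354) (nat_lit 5) (nat_lit 163) (nat_lit 168) (nat_lit 179)) (PT.lf (nat_lit 27588) (nat_lit 6) (nat_lit 363) (nat_lit 5) (nat_lit 164) (nat_lit 168) (nat_lit 178)))))) (PT.nd (nat_lit 624) (PT.nd (nat_lit 312) (PT.nd (nat_lit 156) (PT.nd (nat_lit 78) (PT.lf (nat_lit 28196) (nat_lit 6) (nat_lit 371) (nat_lit 5) (nat_lit 165) (nat_lit 168) (nat_lit 177)) (PT.lf (nat_lit 28728) (nat_lit 6) (nat_lit 378) (nat_lit 5) (nat_lit 166) (nat_lit 168) (nat_lit 176))) (PT.nd (nat_lit 78) (PT.lf (nat_lit 29184) (nat_lit 6) (nat_lit 384) (nat_lit 5) (nat_lit 167) (nat_lit 168) (nat_lit 175)) (PT.lf (nat_lit 29564) (nat_lit 3) (nat_lit 389) (nat_lit 3) (nat_lit 168) (nat_lit 168) (nat_lit 174)))) (PT.nd (nat_lit 156) (PT.nd (nat_lit 78) (PT.lf (nat_lit 29944) (nat_lit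 6) (nat_lit 394) (nat_lit 3) (nat_lit 169) (nat_lit 168) (nat_lit 173)) (PT.lf (nat_lit 30248) (nat_lit 6) (nat_lit 398) (nat_lit 3) (nat_lit 170) (nat_lit 168) (nat_lit 172))) (PT.nd (nat_lit 78) (PT.lf (nat_lit 30324) (nat_lit 3) (nat_lit 399) (nat_lit 1) (nat_lit 171) (nat_lit 168) (nat_lit 171)) (PT.lf (nat_lit 30248) (nat_lit 6) (nat_lit 398) (nat_lit 1) (nat_lit 172) (nat_lit 168) (nat_lit 170))))) (PT.nd (nat_lit 312) (PT.nd (nat_lit 156) (PT.nd (nat_lit 78) (PT.lf (nat_lit 29944) (nat_lit 6) (nat_lit 394) (nat_lit 1) (nat_lit 173) (nat_lit 168) (nat_lit 169)) (PT.lf (nat_lit 29564) (nat_lit 3) (nat_lit 389) (nat_lit 0) (nat_lit 174) (nat_lit 168) (nat_lit 168))) (PT.nd (nat_lit 78) (PT.lf (nat_lit 29184) (nat_lit 6) (nat_lit 384) (nat_lit 0) (nat_lit 175) (nat_lit 168) (nat_lit 167)) (PT.lf (nat_lit 28728) (nat_lit 6) (nat_lit 378) (nat_lit 0) (nat_lit 176) (nat_lit 168) (nat_lit 166)))) (PT.nd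 (nat_lit 156) (PT.nd (nat_lit 78) (PT.lf (nat_lit 28196) (nat_lit 6) (nat_lit 371) (nat_lit 0) (nat_lit 177) (nat_lit 168) (nat_lit 165)) (PT.lf (nat_lit 27588) (nat_lit 6) (nat_lit 363) (nat_lit 0) (nat_lit 178) (nat_lit 168) (nat_lit 164))) (PT.nd (nat_lit 78) (PT.lf (nat_lit 26904) (nat_lit 6) (nat_lit 354) (nat_lit 0) (nat_lit 179) (nat_lit 168) (nat_lit 163)) (PT.lf (nat_lit 26144) (nat_lit 6) (nat_lit 344) (nat_lit 0) (nat_lit 180) (nat_lit 168) (nat_lit 162))))))))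
noncomputable def pc12 : PT := (PT.nd (nat_lit 53040) (PT.nd (nat_lit 51792) (PT.nd (nat_lit 51168) (PT.nd (nat_lit 234) (PT.nd (nat_lit 78) (PT.lf (nat_lit 25308) (nat_lit 6) (nat_lit 333) (nat_lit 0) (nat_lit 181) (nat_lit 168) (nat_lit 161)) (PT.nd (nat_lit 78) (PT.lf (nat_lit 24396) (nat_lit 6) (nat_lit 321) (nat_lit 0) (nat_lit 182) (nat_lit 168) (nat_lit 160)) (PT.lf (nat_lit 23408) (nat_lit 6) (nat_lit 308) (nat_lit 0) (nat_lit 183) (nat_lit 168) (nat_lit 159)))) (PT.nd (nat_lit 156) (PT.nd (nat_lit 78) (PT.lf (nat_lit 22344) (nat_lit 6) (nat_lit 294) (nat_lit 0) (nat_lit 184) (nat_lit 168) (nat_lit 158)) (PT.lf (nat_lit 21204) (nat_lit 6) (nat_lit 279) (nat_lit 0) (nat_lit 185) (nat_lit 168) (nat_lit 157))) (PT.nd (nat_lit 50700) (PT.lf (nat_lit 19988) (nat_lit 6) (nat_lit 263) (nat_lit 0) (nat_lit 186) (nat_lit 168) (nat_lit 156)) (PT.lf (nat_lit 20064) (nat_lit 6) (nat_lit 264) (nat_lit 5)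 (nat_lit 155) (nat_lit 169) (nat_lit 186))))) (PT.nd (nat_lit 312) (PT.nd (nat_lit 156) (PT.nd (nat_lit 78) (PT.lf (nat_lit 21280) (nat_lit 6) (nat_lit 280) (nat_lit 5) (nat_lit 156) (nat_lit 169) (nat_lit 185)) (PT.lf (nat_lit 22420) (nat_lit 6) (nat_lit 295) (nat_lit 5) (nat_lit 157) (nat_lit 169) (nat_lit 184))) (PT.nd (nat_lit 78) (PT.lf (nat_lit 23484) (nat_lit 6) (nat_lit 309) (nat_lit 5) (nat_lit 158) (nat_lit 169) (nat_lit 183)) (PT.lf (nat_lit 24472) (nat_lit 6) (nat_lit 322) (nat_lit 5) (nat_lit 159) (nat_lit 169) (nat_lit 182)))) (PT.nd (nat_lit 156) (PT.nd (nat_lit 78) (PT.lf (nat_lit 25384) (nat_lit 6) (nat_lit 334) (nat_lit 5) (nat_lit 160) (nat_lit 169) (nat_lit 181)) (PT.lf (nat_lit 26220) (nat_lit 6) (nat_lit 345) (nat_lit 5) (nat_lit 161) (nat_lit 169) (nat_lit 180))) (PT.nd (nat_lit 78) (PT.lf (nat_lit 26980) (nat_lit 6) (nat_lit 355) (nat_lit 5) (nat_lit 162) (nat_lit 169) (nat_lit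 179)) (PT.lf (nat_lit 27664) (nat_lit 6) (nat_lit 364) (nat_lit 5) (nat_lit 163) (nat_lit 169) (nat_lit 178)))))) (PT.nd (nat_lit 624) (PT.nd (nat_lit 312) (PT.nd (nat_lit 156) (PT.nd (nat_lit 78) (PT.lf (nat_lit 28272) (nat_lit 6) (nat_lit 372) (nat_lit 5) (nat_lit 164) (nat_lit 169) (nat_lit 177)) (PT.lf (nat_lit 28804) (nat_lit 6) (nat_lit 379) (nat_lit 5) (nat_lit 165) (nat_lit 169) (nat_lit 176))) (PT.nd (nat_lit 78) (PT.lf (nat_lit 29260) (nat_lit 6) (nat_lit 385) (nat_lit 5) (nat_lit 166) (nat_lit 169) (nat_lit 175)) (PT.lf (nat_lit 29640) (nat_lit 6) (nat_lit 390) (nat_lit 5) (nat_lit 167) (nat_lit 169) (nat_lit 174)))) (PT.nd (nat_lit 156) (PT.nd (nat_lit 78) (PT.lf (nat_lit 29944) (nat_lit 6) (nat_lit 394) (nat_lit 5) (nat_lit 168) (nat_lit 169) (nat_lit 173)) (PT.lf (nat_lit 30172) (nat_lit 3) (nat_lit 397) (nat_lit 3) (nat_lit 169) (nat_lit 169) (nat_lit 172))) (PT.nd (nat_lit 78) (PT.lf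 (nat_lit 30400) (nat_lit 6) (nat_lit 400) (nat_lit 3) (nat_lit 170) (nat_lit 169) (nat_lit 171)) (PT.lf (nat_lit 30400) (nat_lit 6) (nat_lit 400) (nat_lit 1) (nat_lit 171) (nat_lit 169) (nat_lit 170))))) (PT.nd (nat_lit 312) (PT.nd (nat_lit 156) (PT.nd (nat_lit 78) (PT.lf (nat_lit 30172) (nat_lit 3) (nat_lit 397) (nat_lit 0) (nat_lit 172) (nat_lit 169) (nat_lit 169)) (PT.lf (nat_lit 29944) (nat_lit 6) (nat_lit 394) (nat_lit 0) (nat_lit 173) (nat_lit 169) (nat_lit 168))) (PT.nd (nat_lit 78) (PT.lf (nat_lit 29640) (nat_lit 6) (nat_lit 390) (nat_lit 0) (nat_lit 174) (nat_lit 169) (nat_lit 167)) (PT.lf (nat_lit 29260) (nat_lit 6) (nat_lit 385) (nat_lit 0) (nat_lit 175) (nat_lit 169) (nat_lit 166)))) (PT.nd (nat_lit 156) (PT.nd (nat_lit 78) (PT.lf (nat_lit 28804) (nat_lit 6) (nat_lit 379) (nat_lit 0) (nat_lit 176) (nat_lit 169) (nat_lit 165)) (PT.lf (nat_lit 28272) (nat_lit 6) (nat_lit 372) (nat_lit 0)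 (nat_lit 177) (nat_lit 169) (nat_lit 164))) (PT.nd (nat_lit 78) (PT.lf (nat_lit 27664) (nat_lit 6) (nat_lit 364) (nat_lit 0) (nat_lit 178) (nat_lit 169) (nat_lit 163)) (PT.lf (nat_lit 26980) (nat_lit 6) (nat_lit 355) (nat_lit 0) (nat_lit 179) (nat_lit 169) (nat_lit 162))))))) (PT.nd (nat_lit 51636) (PT.nd (nat_lit 51012) (PT.nd (nat_lit 234) (PT.nd (nat_lit 78) (PT.lf (nat_lit 26220) (nat_lit 6) (nat_lit 345) (nat_lit 0) (nat_lit 180) (nat_lit 169) (nat_lit 161)) (PT.nd (nat_lit 78) (PT.lf (nat_lit 25384) (nat_lit 6) (nat_lit 334) (nat_lit 0) (nat_lit 181) (nat_lit 169) (nat_lit 160)) (PT.lf (nat_lit 24472) (nat_lit 6) (nat_lit 322) (nat_lit 0) (nat_lit 182) (nat_lit 169) (nat_lit 159)))) (PT.nd (nat_lit 156) (PT.nd (nat_lit 78) (PT.lf (nat_lit 23484) (nat_lit 6) (nat_lit 309) (nat_lit 0) (nat_lit 183) (nat_lit 169) (nat_lit 158)) (PT.lf (nat_lit 22420) (nat_lit 6) (nat_lit 295) (nat_lit 0) (nat_lit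 184) (nat_lit 169) (nat_lit 157))) (PT.nd (nat_lit 78) (PT.lf (nat_lit 21280) (nat_lit 6) (nat_lit 280) (nat_lit 0) (nat_lit 185) (nat_lit 169) (nat_lit 156)) (PT.lf (nat_lit 20064) (nat_lit 6) (nat_lit 264) (nat_lit 0) (nat_lit 186) (nat_lit 169) (nat_lit 155))))) (PT.nd (nat_lit 312) (PT.nd (nat_lit 156) (PT.nd (nat_lit 78) (PT.lf (nat_lit 18848) (nat_lit 6) (nat_lit 248) (nat_lit 5) (nat_lit 153) (nat_lit 170) (nat_lit 187)) (PT.lf (nat_lit 20140) (nat_lit 6) (nat_lit 265) (nat_lit 5) (nat_lit 154) (nat_lit 170) (nat_lit 186))) (PT.nd (nat_lit 78) (PT.lf (nat_lit 21356) (nat_lit 6) (nat_lit 281) (nat_lit 5) (nat_lit 155) (nat_lit 170) (nat_lit 185)) (PT.lf (nat_lit 22496) (nat_lit 6) (nat_lit 296) (nat_lit 5) (nat_lit 156) (nat_lit 170) (nat_lit 184)))) (PT.nd (nat_lit 156) (PT.nd (nat_lit 78) (PT.lf (nat_lit 23560) (nat_lit 6) (nat_lit 310) (nat_lit 5) (nat_lit 157) (nat_lit 170) (nat_lit 183))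 (PT.lf (nat_lit 24548) (nat_lit 6) (nat_lit 323) (nat_lit 5) (nat_lit 158) (nat_lit 170) (nat_lit 182))) (PT.nd (nat_lit 78) (PT.lf (nat_lit 25460) (nat_lit 6) (nat_lit 335) (nat_lit 5) (nat_lit 159) (nat_lit 170) (nat_lit 181)) (PT.lf (nat_lit 26296) (nat_lit 6) (nat_lit 346) (nat_lit 5) (nat_lit 160) (nat_lit 170) (nat_lit 180)))))) (PT.nd (nat_lit 624) (PT.nd (nat_lit 312) (PT.nd (nat_lit 156) (PT.nd (nat_lit 78) (PT.lf (nat_lit 27056) (nat_lit 6) (nat_lit 356) (nat_lit 5) (nat_lit 161) (nat_lit 170) (nat_lit 179)) (PT.lf (nat_lit 27740) (nat_lit 6) (nat_lit 365) (nat_lit 5) (nat_lit 162) (nat_lit 170) (nat_lit 178))) (PT.nd (nat_lit 78) (PT.lf (nat_lit 28348) (nat_lit 6) (nat_lit 373) (nat_lit 5) (nat_lit 163) (nat_lit 170) (nat_lit 177)) (PT.lf (nat_lit 28880) (nat_lit 6) (nat_lit 380) (nat_lit 5) (nat_lit 164) (nat_lit 170) (nat_lit 176)))) (PT.nd (nat_lit 156) (PT.nd (nat_lit 78) (PT.lf (nat_lit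 29336) (nat_lit 6) (nat_lit 386) (nat_lit 5) (nat_lit 165) (nat_lit 170) (nat_lit 175)) (PT.lf (nat_lit 29716) (nat_lit 6) (nat_lit 391) (nat_lit 5) (nat_lit 166) (nat_lit 170) (nat_lit 174))) (PT.nd (nat_lit 78) (PT.lf (nat_lit 30020) (nat_lit 6) (nat_lit 395) (nat_lit 5) (nat_lit 167) (nat_lit 170) (nat_lit 173)) (PT.lf (nat_lit 30248) (nat_lit 6) (nat_lit 398) (nat_lit 5) (nat_lit 168) (nat_lit 170) (nat_lit 172))))) (PT.nd (nat_lit 312) (PT.nd (nat_lit 156) (PT.nd (nat_lit 78) (PT.lf (nat_lit 30400) (nat_lit 6) (nat_lit 400) (nat_lit 5) (nat_lit 169) (nat_lit 170) (nat_lit 171)) (PT.lf (nat_lit 30476) (nat_lit 1) (nat_lit 401) (nat_lit 0) (nat_lit 170) (nat_lit 170) (nat_lit 170))) (PT.nd (nat_lit 78) (PT.lf (nat_lit 30400) (nat_lit 6) (nat_lit 400) (nat_lit 0) (nat_lit 171) (nat_lit 170) (nat_lit 169)) (PT.lf (nat_lit 30248) (nat_lit 6) (nat_lit 398) (nat_lit 0) (nat_lit 172) (nat_lit 170) (nat_lit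 168)))) (PT.nd (nat_lit 156) (PT.nd (nat_lit 78) (PT.lf (nat_lit 30020) (nat_lit 6) (nat_lit 395) (nat_lit 0) (nat_lit 173) (nat_lit 170) (nat_lit 167)) (PT.lf (nat_lit 29716) (nat_lit 6) (nat_lit 391) (nat_lit 0) (nat_lit 174) (nat_lit 170) (nat_lit 166))) (PT.nd (nat_lit 78) (PT.lf (nat_lit 29336) (nat_lit 6) (nat_lit 386) (nat_lit 0) (nat_lit 175) (nat_lit 170) (nat_lit 165)) (PT.lf (nat_lit 28880) (nat_lit 6) (nat_lit 380) (nat_lit 0) (nat_lit 176) (nat_lit 170) (nat_lit 164))))))))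
noncomputable def pc13 : PT := (PT.nd (nat_lit 52728) (PT.nd (nat_lit 51480) (PT.nd (nat_lit 546) (PT.nd (nat_lit 234) (PT.nd (nat_lit 78) (PT.lf (nat_lit 28348) (nat_lit 6) (nat_lit 373) (nat_lit 0) (nat_lit 177) (nat_lit 170) (nat_lit 163)) (PT.nd (nat_lit 78) (PT.lf (nat_lit 27740) (nat_lit 6) (nat_lit 365) (nat_lit 0) (nat_lit 178) (nat_lit 170) (nat_lit 162)) (PT.lf (nat_lit 27056) (nat_lit 6) (nat_lit 356) (nat_lit 0) (nat_lit 179) (nat_lit 170) (nat_lit 161)))) (PT.nd (nat_lit 156) (PT.nd (nat_lit 78) (PT.lf (nat_lit 26296) (nat_lit 6) (nat_lit 346) (nat_lit 0) (nat_lit 180) (nat_lit 170) (nat_lit 160)) (PT.lf (nat_lit 25460) (nat_lit 6) (nat_lit 335) (nat_lit 0) (nat_lit 181) (nat_lit 170) (nat_lit 159))) (PT.nd (nat_lit 78) (PT.lf (nat_lit 24548) (nat_lit 6) (nat_lit 323) (nat_lit 0) (nat_lit 182) (nat_lit 170) (nat_lit 158)) (PT.lf (nat_lit 23560) (nat_lit 6) (nat_lit 310) (nat_lit 0) (nat_lit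 183) (nat_lit 170) (nat_lit 157))))) (PT.nd (nat_lit 50622) (PT.nd (nat_lit 156) (PT.nd (nat_lit 78) (PT.lf (nat_lit 22496) (nat_lit 6) (nat_lit 296) (nat_lit 0) (nat_lit 184) (nat_lit 170) (nat_lit 156)) (PT.lf (nat_lit 21356) (nat_lit 6) (nat_lit 281) (nat_lit 0) (nat_lit 185) (nat_lit 170) (nat_lit 155))) (PT.nd (nat_lit 78) (PT.lf (nat_lit 20140) (nat_lit 6) (nat_lit 265) (nat_lit 0) (nat_lit 186) (nat_lit 170) (nat_lit 154)) (PT.lf (nat_lit 18848) (nat_lit 6) (nat_lit 248) (nat_lit 0) (nat_lit 187) (nat_lit 170) (nat_lit 153)))) (PT.nd (nat_lit 156) (PT.nd (nat_lit 78) (PT.lf (nat_lit 18164) (nat_lit 6) (nat_lit 239) (nat_lit 5) (nat_lit 152) (nat_lit 171) (nat_lit 187)) (PT.lf (nat_lit 18924) (nat_lit 6) (nat_lit 249) (nat_lit 5) (nat_lit 153) (nat_lit 171) (nat_lit 186))) (PT.nd (nat_lit 78) (PT.lf (nat_lit 20216) (nat_lit 6) (nat_lit 266) (nat_lit 5) (nat_lit 154) (nat_lit 171) (nat_lit 185))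 (PT.lf (nat_lit 21432) (nat_lit 6) (nat_lit 282) (nat_lit 5) (nat_lit 155) (nat_lit 171) (nat_lit 184)))))) (PT.nd (nat_lit 624) (PT.nd (nat_lit 312) (PT.nd (nat_lit 156) (PT.nd (nat_lit 78) (PT.lf (nat_lit 22572) (nat_lit 6) (nat_lit 297) (nat_lit 5) (nat_lit 156) (nat_lit 171) (nat_lit 183)) (PT.lf (nat_lit 23636) (nat_lit 6) (nat_lit 311) (nat_lit 5) (nat_lit 157) (nat_lit 171) (nat_lit 182))) (PT.nd (nat_lit 78) (PT.lf (nat_lit 24624) (nat_lit 6) (nat_lit 324) (nat_lit 5) (nat_lit 158) (nat_lit 171) (nat_lit 181)) (PT.lf (nat_lit 25536) (nat_lit 6) (nat_lit 336) (nat_lit 5) (nat_lit 159) (nat_lit 171) (nat_lit 180)))) (PT.nd (nat_lit 156) (PT.nd (nat_lit 78) (PT.lf (nat_lit 26372) (nat_lit 6) (nat_lit 347) (nat_lit 5) (nat_lit 160) (nat_lit 171) (nat_lit 179)) (PT.lf (nat_lit 27132) (nat_lit 6) (nat_lit 357) (nat_lit 5) (nat_lit 161) (nat_lit 171) (nat_lit 178))) (PT.nd (nat_lit 78) (PT.lf (nat_lit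 27816) (nat_lit 6) (nat_lit 366) (nat_lit 5) (nat_lit 162) (nat_lit 171) (nat_lit 177)) (PT.lf (nat_lit 28424) (nat_lit 6) (nat_lit 374) (nat_lit 5) (nat_lit 163) (nat_lit 171) (nat_lit 176))))) (PT.nd (nat_lit 312) (PT.nd (nat_lit 156) (PT.nd (nat_lit 78) (PT.lf (nat_lit 28956) (nat_lit 6) (nat_lit 381) (nat_lit 5) (nat_lit 164) (nat_lit 171) (nat_lit 175)) (PT.lf (nat_lit 29412) (nat_lit 6) (nat_lit 387) (nat_lit 5) (nat_lit 165) (nat_lit 171) (nat_lit 174))) (PT.nd (nat_lit 78) (PT.lf (nat_lit 29792) (nat_lit 6) (nat_lit 392) (nat_lit 5) (nat_lit 166) (nat_lit 171) (nat_lit 173)) (PT.lf (nat_lit 30096) (nat_lit 6) (nat_lit 396) (nat_lit 5) (nat_lit 167) (nat_lit 171) (nat_lit 172)))) (PT.nd (nat_lit 156) (PT.nd (nat_lit 78) (PT.lf (nat_lit 30324) (nat_lit 3) (nat_lit 399) (nat_lit 4) (nat_lit 168) (nat_lit 171) (nat_lit 171)) (PT.lf (nat_lit 30400) (nat_lit 6) (nat_lit 400) (nat_lit 4) (nat_lit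 169) (nat_lit 171) (nat_lit 170))) (PT.nd (nat_lit 78) (PT.lf (nat_lit 30400) (nat_lit 6) (nat_lit 400) (nat_lit 2) (nat_lit 170) (nat_lit 171) (nat_lit 169)) (PT.lf (nat_lit 30324) (nat_lit 3) (nat_lit 399) (nat_lit 0) (nat_lit 171) (nat_lit 171) (nat_lit 168))))))) (PT.nd (nat_lit 1170) (PT.nd (nat_lit 546) (PT.nd (nat_lit 234) (PT.nd (nat_lit 78) (PT.lf (nat_lit 30096) (nat_lit 6) (nat_lit 396) (nat_lit 0) (nat_lit 172) (nat_lit 171) (nat_lit 167)) (PT.nd (nat_lit 78) (PT.lf (nat_lit 29792) (nat_lit 6) (nat_lit 392) (nat_lit 0) (nat_lit 173) (nat_lit 171) (nat_lit 166)) (PT.lf (nat_lit 29412) (nat_lit 6) (nat_lit 387) (nat_lit 0) (nat_lit 174) (nat_lit 171) (nat_lit 165)))) (PT.nd (nat_lit 156) (PT.nd (nat_lit 78) (PT.lf (nat_lit 28956) (nat_lit 6) (nat_lit 381) (nat_lit 0) (nat_lit 175) (nat_lit 171) (nat_lit 164)) (PT.lf (nat_lit 28424) (nat_lit 6) (nat_lit 374) (nat_lit 0) (nat_lit 176) (nat_lit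 171) (nat_lit 163))) (PT.nd (nat_lit 78) (PT.lf (nat_lit 27816) (nat_lit 6) (nat_lit 366) (nat_lit 0) (nat_lit 177) (nat_lit 171) (nat_lit 162)) (PT.lf (nat_lit 27132) (nat_lit 6) (nat_lit 357) (nat_lit 0) (nat_lit 178) (nat_lit 171) (nat_lit 161))))) (PT.nd (nat_lit 312) (PT.nd (nat_lit 156) (PT.nd (nat_lit 78) (PT.lf (nat_lit 26372) (nat_lit 6) (nat_lit 347) (nat_lit 0) (nat_lit 179) (nat_lit 171) (nat_lit 160)) (PT.lf (nat_lit 25536) (nat_lit 6) (nat_lit 336) (nat_lit 0) (nat_lit 180) (nat_lit 171) (nat_lit 159))) (PT.nd (nat_lit 78) (PT.lf (nat_lit 24624) (nat_lit 6) (nat_lit 324) (nat_lit 0) (nat_lit 181) (nat_lit 171) (nat_lit 158)) (PT.lf (nat_lit 23636) (nat_lit 6) (nat_lit 311) (nat_lit 0) (nat_lit 182) (nat_lit 171) (nat_lit 157)))) (PT.nd (nat_lit 156) (PT.nd (nat_lit 78) (PT.lf (nat_lit 22572) (nat_lit 6) (nat_lit 297) (nat_lit 0) (nat_lit 183) (nat_lit 171) (nat_lit 156)) (PT.lf (nat_lit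 21432) (nat_lit 6) (nat_lit 282) (nat_lit 0) (nat_lit 184) (nat_lit 171) (nat_lit 155))) (PT.nd (nat_lit 78) (PT.lf (nat_lit 20216) (nat_lit 6) (nat_lit 266) (nat_lit 0) (nat_lit 185) (nat_lit 171) (nat_lit 154)) (PT.lf (nat_lit 18924) (nat_lit 6) (nat_lit 249) (nat_lit 0) (nat_lit 186) (nat_lit 171) (nat_lit 153)))))) (PT.nd (nat_lit 50856) (PT.nd (nat_lit 50544) (PT.nd (nat_lit 50388) (PT.nd (nat_lit 50310) (PT.lf (nat_lit 18164) (nat_lit 6) (nat_lit 239) (nat_lit 0) (nat_lit 187) (nat_lit 171) (nat_lit 152)) (PT.lf (nat_lit 17556) (nat_lit 6) (nat_lit 231) (nat_lit 5) (nat_lit 151) (nat_lit 172) (nat_lit 187))) (PT.nd (nat_lit 78) (PT.lf (nat_lit 18240) (nat_lit 6) (nat_lit 240) (nat_lit 5) (nat_lit 152) (nat_lit 172) (nat_lit 186)) (PT.lf (nat_lit 19000) (nat_lit 6) (nat_lit 250) (nat_lit 5) (nat_lit 153) (nat_lit 172) (nat_lit 185)))) (PT.nd (nat_lit 156) (PT.nd (nat_lit 78) (PT.lf (nat_lit 20292)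 (nat_lit 6) (nat_lit 267) (nat_lit 5) (nat_lit 154) (nat_lit 172) (nat_lit 184)) (PT.lf (nat_lit 21508) (nat_lit 6) (nat_lit 283) (nat_lit 5) (nat_lit 155) (nat_lit 172) (nat_lit 183))) (PT.nd (nat_lit 78) (PT.lf (nat_lit 22648) (nat_lit 6) (nat_lit 298) (nat_lit 5) (nat_lit 156) (nat_lit 172) (nat_lit 182)) (PT.lf (nat_lit 23712) (nat_lit 6) (nat_lit 312) (nat_lit 5) (nat_lit 157) (nat_lit 172) (nat_lit 181))))) (PT.nd (nat_lit 312) (PT.nd (nat_lit 156) (PT.nd (nat_lit 78) (PT.lf (nat_lit 24700) (nat_lit 6) (nat_lit 325) (nat_lit 5) (nat_lit 158) (nat_lit 172) (nat_lit 180)) (PT.lf (nat_lit 25612) (nat_lit 6) (nat_lit 337) (nat_lit 5) (nat_lit 159) (nat_lit 172) (nat_lit 179))) (PT.nd (nat_lit 78) (PT.lf (nat_lit 26448) (nat_lit 6) (nat_lit 348) (nat_lit 5) (nat_lit 160) (nat_lit 172) (nat_lit 178)) (PT.lf (nat_lit 27208) (nat_lit 6) (nat_lit 358) (nat_lit 5) (nat_lit 161) (nat_lit 172) (nat_lit 177))))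 (PT.nd (nat_lit 156) (PT.nd (nat_lit 78) (PT.lf (nat_lit 27892) (nat_lit 6) (nat_lit 367) (nat_lit 5) (nat_lit 162) (nat_lit 172) (nat_lit 176)) (PT.lf (nat_lit 28500) (nat_lit 6) (nat_lit 375) (nat_lit 5) (nat_lit 163) (nat_lit 172) (nat_lit 175))) (PT.nd (nat_lit 78) (PT.lf (nat_lit 29032) (nat_lit 6) (nat_lit 382) (nat_lit 5) (nat_lit 164) (nat_lit 172) (nat_lit 174)) (PT.lf (nat_lit 29488) (nat_lit 6) (nat_lit 388) (nat_lit 5) (nat_lit 165) (nat_lit 172) (nat_lit 173))))))))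
noncomputable def pc14 : PT := (PT.nd (nat_lit 52572) (PT.nd (nat_lit 1170) (PT.nd (nat_lit 546) (PT.nd (nat_lit 234) (PT.nd (nat_lit 78) (PT.lf (nat_lit 29868) (nat_lit 3) (nat_lit 393) (nat_lit 4) (nat_lit 166) (nat_lit 172) (nat_lit 172)) (PT.nd (nat_lit 78) (PT.lf (nat_lit 30096) (nat_lit 6) (nat_lit 396) (nat_lit 4) (nat_lit 167) (nat_lit 172) (nat_lit 171)) (PT.lf (nat_lit 30248) (nat_lit 6) (nat_lit 398) (nat_lit 4) (nat_lit 168) (nat_lit 172) (nat_lit 170)))) (PT.nd (nat_lit 156) (PT.nd (nat_lit 78) (PT.lf (nat_lit 30172) (nat_lit 3) (nat_lit 397) (nat_lit 2) (nat_lit 169) (nat_lit 172) (nat_lit 169)) (PT.lf (nat_lit 30248) (nat_lit 6) (nat_lit 398) (nat_lit 2) (nat_lit 170) (nat_lit 172) (nat_lit 168))) (PT.nd (nat_lit 78) (PT.lf (nat_lit 30096) (nat_lit 6) (nat_lit 396) (nat_lit 2) (nat_lit 171) (nat_lit 172) (nat_lit 167)) (PT.lf (nat_lit 29868) (nat_lit 3) (nat_lit 393) (nat_lit 0) (nat_lit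 172) (nat_lit 172) (nat_lit 166))))) (PT.nd (nat_lit 312) (PT.nd (nat_lit 156) (PT.nd (nat_lit 78) (PT.lf (nat_lit 29488) (nat_lit 6) (nat_lit 388) (nat_lit 0) (nat_lit 173) (nat_lit 172) (nat_lit 165)) (PT.lf (nat_lit 29032) (nat_lit 6) (nat_lit 382) (nat_lit 0) (nat_lit 174) (nat_lit 172) (nat_lit 164))) (PT.nd (nat_lit 78) (PT.lf (nat_lit 28500) (nat_lit 6) (nat_lit 375) (nat_lit 0) (nat_lit 175) (nat_lit 172) (nat_lit 163)) (PT.lf (nat_lit 27892) (nat_lit 6) (nat_lit 367) (nat_lit 0) (nat_lit 176) (nat_lit 172) (nat_lit 162)))) (PT.nd (nat_lit 156) (PT.nd (nat_lit 78) (PT.lf (nat_lit 27208) (nat_lit 6) (nat_lit 358) (nat_lit 0) (nat_lit 177) (nat_lit 172) (nat_lit 161)) (PT.lf (nat_lit 26448) (nat_lit 6) (nat_lit 348) (nat_lit 0) (nat_lit 178) (nat_lit 172) (nat_lit 160))) (PT.nd (nat_lit 78) (PT.lf (nat_lit 25612) (nat_lit 6) (nat_lit 337) (nat_lit 0) (nat_lit 179) (nat_lit 172) (nat_lit 159))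 (PT.lf (nat_lit 24700) (nat_lit 6) (nat_lit 325) (nat_lit 0) (nat_lit 180) (nat_lit 172) (nat_lit 158)))))) (PT.nd (nat_lit 50778) (PT.nd (nat_lit 312) (PT.nd (nat_lit 156) (PT.nd (nat_lit 78) (PT.lf (nat_lit 23712) (nat_lit 6) (nat_lit 312) (nat_lit 0) (nat_lit 181) (nat_lit 172) (nat_lit 157)) (PT.lf (nat_lit 22648) (nat_lit 6) (nat_lit 298) (nat_lit 0) (nat_lit 182) (nat_lit 172) (nat_lit 156))) (PT.nd (nat_lit 78) (PT.lf (nat_lit 21508) (nat_lit 6) (nat_lit 283) (nat_lit 0) (nat_lit 183) (nat_lit 172) (nat_lit 155)) (PT.lf (nat_lit 20292) (nat_lit 6) (nat_lit 267) (nat_lit 0) (nat_lit 184) (nat_lit 172) (nat_lit 154)))) (PT.nd (nat_lit 156) (PT.nd (nat_lit 78) (PT.lf (nat_lit 19000) (nat_lit 6) (nat_lit 250) (nat_lit 0) (nat_lit 185) (nat_lit 172) (nat_lit 153)) (PT.lf (nat_lit 18240) (nat_lit 6) (nat_lit 240) (nat_lit 0) (nat_lit 186) (nat_lit 172) (nat_lit 152))) (PT.nd (nat_lit 50232) (PT.lf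 (nat_lit 17556) (nat_lit 6) (nat_lit 231) (nat_lit 0) (nat_lit 187) (nat_lit 172) (nat_lit 151)) (PT.lf (nat_lit 16948) (nat_lit 6) (nat_lit 223) (nat_lit 5) (nat_lit 150) (nat_lit 173) (nat_lit 187))))) (PT.nd (nat_lit 312) (PT.nd (nat_lit 156) (PT.nd (nat_lit 78) (PT.lf (nat_lit 17632) (nat_lit 6) (nat_lit 232) (nat_lit 5) (nat_lit 151) (nat_lit 173) (nat_lit 186)) (PT.lf (nat_lit 18316) (nat_lit 6) (nat_lit 241) (nat_lit 5) (nat_lit 152) (nat_lit 173) (nat_lit 185))) (PT.nd (nat_lit 78) (PT.lf (nat_lit 19076) (nat_lit 6) (nat_lit 251) (nat_lit 5) (nat_lit 153) (nat_lit 173) (nat_lit 184)) (PT.lf (nat_lit 20368) (nat_lit 6) (nat_lit 268) (nat_lit 5) (nat_lit 154) (nat_lit 173) (nat_lit 183)))) (PT.nd (nat_lit 156) (PT.nd (nat_lit 78) (PT.lf (nat_lit 21584) (nat_lit 6) (nat_lit 284) (nat_lit 5) (nat_lit 155) (nat_lit 173) (nat_lit 182)) (PT.lf (nat_lit 22724) (nat_lit 6) (nat_lit 299) (nat_lit 5)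 (nat_lit 156) (nat_lit 173) (nat_lit 181))) (PT.nd (nat_lit 78) (PT.lf (nat_lit 23788) (nat_lit 6) (nat_lit 313) (nat_lit 5) (nat_lit 157) (nat_lit 173) (nat_lit 180)) (PT.lf (nat_lit 24776) (nat_lit 6) (nat_lit 326) (nat_lit 5) (nat_lit 158) (nat_lit 173) (nat_lit 179))))))) (PT.nd (nat_lit 1170) (PT.nd (nat_lit 546) (PT.nd (nat_lit 234) (PT.nd (nat_lit 78) (PT.lf (nat_lit 25688) (nat_lit 6) (nat_lit 338) (nat_lit 5) (nat_lit 159) (nat_lit 173) (nat_lit 178)) (PT.nd (nat_lit 78) (PT.lf (nat_lit 26524) (nat_lit 6) (nat_lit 349) (nat_lit 5) (nat_lit 160) (nat_lit 173) (nat_lit 177)) (PT.lf (nat_lit 27284) (nat_lit 6) (nat_lit 359) (nat_lit 5) (nat_lit 161) (nat_lit 173) (nat_lit 176)))) (PT.nd (nat_lit 156) (PT.nd (nat_lit 78) (PT.lf (nat_lit 27968) (nat_lit 6) (nat_lit 368) (nat_lit 5) (nat_lit 162) (nat_lit 173) (nat_lit 175)) (PT.lf (nat_lit 28576) (nat_lit 6) (nat_lit 376) (nat_lit 5) (nat_lit 163)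 (nat_lit 173) (nat_lit 174))) (PT.nd (nat_lit 78) (PT.lf (nat_lit 29108) (nat_lit 3) (nat_lit 383) (nat_lit 4) (nat_lit 164) (nat_lit 173) (nat_lit 173)) (PT.lf (nat_lit 29488) (nat_lit 6) (nat_lit 388) (nat_lit 4) (nat_lit 165) (nat_lit 173) (nat_lit 172))))) (PT.nd (nat_lit 312) (PT.nd (nat_lit 156) (PT.nd (nat_lit 78) (PT.lf (nat_lit 29792) (nat_lit 6) (nat_lit 392) (nat_lit 4) (nat_lit 166) (nat_lit 173) (nat_lit 171)) (PT.lf (nat_lit 30020) (nat_lit 6) (nat_lit 395) (nat_lit 4) (nat_lit 167) (nat_lit 173) (nat_lit 170))) (PT.nd (nat_lit 78) (PT.lf (nat_lit 29944) (nat_lit 6) (nat_lit 394) (nat_lit 4) (nat_lit 168) (nat_lit 173) (nat_lit 169)) (PT.lf (nat_lit 29944) (nat_lit 6) (nat_lit 394) (nat_lit 2) (nat_lit 169) (nat_lit 173) (nat_lit 168)))) (PT.nd (nat_lit 156) (PT.nd (nat_lit 78) (PT.lf (nat_lit 30020) (nat_lit 6) (nat_lit 395) (nat_lit 2) (nat_lit 170) (nat_lit 173) (nat_lit 167)) (PT.lf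 (nat_lit 29792) (nat_lit 6) (nat_lit 392) (nat_lit 2) (nat_lit 171) (nat_lit 173) (nat_lit 166))) (PT.nd (nat_lit 78) (PT.lf (nat_lit 29488) (nat_lit 6) (nat_lit 388) (nat_lit 2) (nat_lit 172) (nat_lit 173) (nat_lit 165)) (PT.lf (nat_lit 29108) (nat_lit 3) (nat_lit 383) (nat_lit 0) (nat_lit 173) (nat_lit 173) (nat_lit 164)))))) (PT.nd (nat_lit 624) (PT.nd (nat_lit 312) (PT.nd (nat_lit 156) (PT.nd (nat_lit 78) (PT.lf (nat_lit 28576) (nat_lit 6) (nat_lit 376) (nat_lit 0) (nat_lit 174) (nat_lit 173) (nat_lit 163)) (PT.lf (nat_lit 27968) (nat_lit 6) (nat_lit 368) (nat_lit 0) (nat_lit 175) (nat_lit 173) (nat_lit 162))) (PT.nd (nat_lit 78) (PT.lf (nat_lit 27284) (nat_lit 6) (nat_lit 359) (nat_lit 0) (nat_lit 176) (nat_lit 173) (nat_lit 161)) (PT.lf (nat_lit 26524) (nat_lit 6) (nat_lit 349) (nat_lit 0) (nat_lit 177) (nat_lit 173) (nat_lit 160)))) (PT.nd (nat_lit 156) (PT.nd (nat_lit 78) (PT.lf (nat_lit 25688)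 (nat_lit 6) (nat_lit 338) (nat_lit 0) (nat_lit 178) (nat_lit 173) (nat_lit 159)) (PT.lf (nat_lit 24776) (nat_lit 6) (nat_lit 326) (nat_lit 0) (nat_lit 179) (nat_lit 173) (nat_lit 158))) (PT.nd (nat_lit 78) (PT.lf (nat_lit 23788) (nat_lit 6) (nat_lit 313) (nat_lit 0) (nat_lit 180) (nat_lit 173) (nat_lit 157)) (PT.lf (nat_lit 22724) (nat_lit 6) (nat_lit 299) (nat_lit 0) (nat_lit 181) (nat_lit 173) (nat_lit 156))))) (PT.nd (nat_lit 312) (PT.nd (nat_lit 156) (PT.nd (nat_lit 78) (PT.lf (nat_lit 21584) (nat_lit 6) (nat_lit 284) (nat_lit 0) (nat_lit 182) (nat_lit 173) (nat_lit 155)) (PT.lf (nat_lit 20368) (nat_lit 6) (nat_lit 268) (nat_lit 0) (nat_lit 183) (nat_lit 173) (nat_lit 154))) (PT.nd (nat_lit 78) (PT.lf (nat_lit 19076) (nat_lit 6) (nat_lit 251) (nat_lit 0) (nat_lit 184) (nat_lit 173) (nat_lit 153)) (PT.lf (nat_lit 18316) (nat_lit 6) (nat_lit 241) (nat_lit 0) (nat_lit 185) (nat_lit 173) (nat_lit 152))))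 (PT.nd (nat_lit 50232) (PT.nd (nat_lit 78) (PT.lf (nat_lit 17632) (nat_lit 6) (nat_lit 232) (nat_lit 0) (nat_lit 186) (nat_lit 173) (nat_lit 151)) (PT.lf (nat_lit 16948) (nat_lit 6) (nat_lit 223) (nat_lit 0) (nat_lit 187) (nat_lit 173) (nat_lit 150))) (PT.nd (nat_lit 78) (PT.lf (nat_lit 16416) (nat_lit 6) (nat_lit 216) (nat_lit 5) (nat_lit 149) (nat_lit 174) (nat_lit 187)) (PT.lf (nat_lit 17024) (nat_lit 6) (nat_lit 224) (nat_lit 5) (nat_lit 150) (nat_lit 174) (nat_lit 186))))))))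
noncomputable def pc15 : PT := (PT.nd (nat_lit 2418) (PT.nd (nat_lit 1170) (PT.nd (nat_lit 546) (PT.nd (nat_lit 234) (PT.nd (nat_lit 78) (PT.lf (nat_lit 17708) (nat_lit 6) (nat_lit 233) (nat_lit 5) (nat_lit 151) (nat_lit 174) (nat_lit 185)) (PT.nd (nat_lit 78) (PT.lf (nat_lit 18392) (nat_lit 6) (nat_lit 242) (nat_lit 5) (nat_lit 152) (nat_lit 174) (nat_lit 184)) (PT.lf (nat_lit 19152) (nat_lit 6) (nat_lit 252) (nat_lit 5) (nat_lit 153) (nat_lit 174) (nat_lit 183)))) (PT.nd (nat_lit 156) (PT.nd (nat_lit 78) (PT.lf (nat_lit 20444) (nat_lit 6) (nat_lit 269) (nat_lit 5) (nat_lit 154) (nat_lit 174) (nat_lit 182)) (PT.lf (nat_lit 21660) (nat_lit 6) (nat_lit 285) (nat_lit 5) (nat_lit 155) (nat_lit 174) (nat_lit 181))) (PT.nd (nat_lit 78) (PT.lf (nat_lit 22800) (nat_lit 6) (nat_lit 300) (nat_lit 5) (nat_lit 156) (nat_lit 174) (nat_lit 180)) (PT.lf (nat_lit 23864) (nat_lit 6) (nat_lit 314) (nat_lit 5) (nat_lit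 157) (nat_lit 174) (nat_lit 179))))) (PT.nd (nat_lit 312) (PT.nd (nat_lit 156) (PT.nd (nat_lit 78) (PT.lf (nat_lit 24852) (nat_lit 6) (nat_lit 327) (nat_lit 5) (nat_lit 158) (nat_lit 174) (nat_lit 178)) (PT.lf (nat_lit 25764) (nat_lit 6) (nat_lit 339) (nat_lit 5) (nat_lit 159) (nat_lit 174) (nat_lit 177))) (PT.nd (nat_lit 78) (PT.lf (nat_lit 26600) (nat_lit 6) (nat_lit 350) (nat_lit 5) (nat_lit 160) (nat_lit 174) (nat_lit 176)) (PT.lf (nat_lit 27360) (nat_lit 6) (nat_lit 360) (nat_lit 5) (nat_lit 161) (nat_lit 174) (nat_lit 175)))) (PT.nd (nat_lit 156) (PT.nd (nat_lit 78) (PT.lf (nat_lit 28044) (nat_lit 3) (nat_lit 369) (nat_lit 4) (nat_lit 162) (nat_lit 174) (nat_lit 174)) (PT.lf (nat_lit 28576) (nat_lit 6) (nat_lit 376) (nat_lit 4) (nat_lit 163) (nat_lit 174) (nat_lit 173))) (PT.nd (nat_lit 78) (PT.lf (nat_lit 29032) (nat_lit 6) (nat_lit 382) (nat_lit 4) (nat_lit 164) (nat_lit 174) (nat_lit 172))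 (PT.lf (nat_lit 29412) (nat_lit 6) (nat_lit 387) (nat_lit 4) (nat_lit 165) (nat_lit 174) (nat_lit 171)))))) (PT.nd (nat_lit 624) (PT.nd (nat_lit 312) (PT.nd (nat_lit 156) (PT.nd (nat_lit 78) (PT.lf (nat_lit 29716) (nat_lit 6) (nat_lit 391) (nat_lit 4) (nat_lit 166) (nat_lit 174) (nat_lit 170)) (PT.lf (nat_lit 29640) (nat_lit 6) (nat_lit 390) (nat_lit 4) (nat_lit 167) (nat_lit 174) (nat_lit 169))) (PT.nd (nat_lit 78) (PT.lf (nat_lit 29564) (nat_lit 3) (nat_lit 389) (nat_lit 2) (nat_lit 168) (nat_lit 174) (nat_lit 168)) (PT.lf (nat_lit 29640) (nat_lit 6) (nat_lit 390) (nat_lit 2) (nat_lit 169) (nat_lit 174) (nat_lit 167)))) (PT.nd (nat_lit 156) (PT.nd (nat_lit 78) (PT.lf (nat_lit 29716) (nat_lit 6) (nat_lit 391) (nat_lit 2) (nat_lit 170) (nat_lit 174) (nat_lit 166)) (PT.lf (nat_lit 29412) (nat_lit 6) (nat_lit 387) (nat_lit 2) (nat_lit 171) (nat_lit 174) (nat_lit 165))) (PT.nd (nat_lit 78) (PT.lf (nat_lit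 29032) (nat_lit 6) (nat_lit 382) (nat_lit 2) (nat_lit 172) (nat_lit 174) (nat_lit 164)) (PT.lf (nat_lit 28576) (nat_lit 6) (nat_lit 376) (nat_lit 2) (nat_lit 173) (nat_lit 174) (nat_lit 163))))) (PT.nd (nat_lit 312) (PT.nd (nat_lit 156) (PT.nd (nat_lit 78) (PT.lf (nat_lit 28044) (nat_lit 3) (nat_lit 369) (nat_lit 0) (nat_lit 174) (nat_lit 174) (nat_lit 162)) (PT.lf (nat_lit 27360) (nat_lit 6) (nat_lit 360) (nat_lit 0) (nat_lit 175) (nat_lit 174) (nat_lit 161))) (PT.nd (nat_lit 78) (PT.lf (nat_lit 26600) (nat_lit 6) (nat_lit 350) (nat_lit 0) (nat_lit 176) (nat_lit 174) (nat_lit 160)) (PT.lf (nat_lit 25764) (nat_lit 6) (nat_lit 339) (nat_lit 0) (nat_lit 177) (nat_lit 174) (nat_lit 159)))) (PT.nd (nat_lit 156) (PT.nd (nat_lit 78) (PT.lf (nat_lit 24852) (nat_lit 6) (nat_lit 327) (nat_lit 0) (nat_lit 178) (nat_lit 174) (nat_lit 158)) (PT.lf (nat_lit 23864) (nat_lit 6) (nat_lit 314) (nat_lit 0) (nat_lit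 179) (nat_lit 174) (nat_lit 157))) (PT.nd (nat_lit 78) (PT.lf (nat_lit 22800) (nat_lit 6) (nat_lit 300) (nat_lit 0) (nat_lit 180) (nat_lit 174) (nat_lit 156)) (PT.lf (nat_lit 21660) (nat_lit 6) (nat_lit 285) (nat_lit 0) (nat_lit 181) (nat_lit 174) (nat_lit 155))))))) (PT.nd (nat_lit 51168) (PT.nd (nat_lit 50544) (PT.nd (nat_lit 312) (PT.nd (nat_lit 156) (PT.nd (nat_lit 78) (PT.lf (nat_lit 20444) (nat_lit 6) (nat_lit 269) (nat_lit 0) (nat_lit 182) (nat_lit 174) (nat_lit 154)) (PT.lf (nat_lit 19152) (nat_lit 6) (nat_lit 252) (nat_lit 0) (nat_lit 183) (nat_lit 174) (nat_lit 153))) (PT.nd (nat_lit 78) (PT.lf (nat_lit 18392) (nat_lit 6) (nat_lit 242) (nat_lit 0) (nat_lit 184) (nat_lit 174) (nat_lit 152)) (PT.lf (nat_lit 17708) (nat_lit 6) (nat_lit 233) (nat_lit 0) (nat_lit 185) (nat_lit 174) (nat_lit 151)))) (PT.nd (nat_lit 50076) (PT.nd (nat_lit 78) (PT.lf (nat_lit 17024) (nat_lit 6) (nat_lit 224) (nat_lit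 0) (nat_lit 186) (nat_lit 174) (nat_lit 150)) (PT.lf (nat_lit 16416) (nat_lit 6) (nat_lit 216) (nat_lit 0) (nat_lit 187) (nat_lit 174) (nat_lit 149))) (PT.nd (nat_lit 78) (PT.lf (nat_lit 15352) (nat_lit 6) (nat_lit 202) (nat_lit 5) (nat_lit 147) (nat_lit 175) (nat_lit 188)) (PT.lf (nat_lit 15884) (nat_lit 6) (nat_lit 209) (nat_lit 5) (nat_lit 148) (nat_lit 175) (nat_lit 187))))) (PT.nd (nat_lit 312) (PT.nd (nat_lit 156) (PT.nd (nat_lit 78) (PT.lf (nat_lit 16492) (nat_lit 6) (nat_lit 217) (nat_lit 5) (nat_lit 149) (nat_lit 175) (nat_lit 186)) (PT.lf (nat_lit 17100) (nat_lit 6) (nat_lit 225) (nat_lit 5) (nat_lit 150) (nat_lit 175) (nat_lit 185))) (PT.nd (nat_lit 78) (PT.lf (nat_lit 17784) (nat_lit 6) (nat_lit 234) (nat_lit 5) (nat_lit 151) (nat_lit 175) (nat_lit 184)) (PT.lf (nat_lit 18468) (nat_lit 6) (nat_lit 243) (nat_lit 5) (nat_lit 152) (nat_lit 175) (nat_lit 183)))) (PT.nd (nat_lit 156) (PT.nd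 (nat_lit 78) (PT.lf (nat_lit 19228) (nat_lit 6) (nat_lit 253) (nat_lit 5) (nat_lit 153) (nat_lit 175) (nat_lit 182)) (PT.lf (nat_lit 20520) (nat_lit 6) (nat_lit 270) (nat_lit 5) (nat_lit 154) (nat_lit 175) (nat_lit 181))) (PT.nd (nat_lit 78) (PT.lf (nat_lit 21736) (nat_lit 6) (nat_lit 286) (nat_lit 5) (nat_lit 155) (nat_lit 175) (nat_lit 180)) (PT.lf (nat_lit 22876) (nat_lit 6) (nat_lit 301) (nat_lit 5) (nat_lit 156) (nat_lit 175) (nat_lit 179)))))) (PT.nd (nat_lit 624) (PT.nd (nat_lit 312) (PT.nd (nat_lit 156) (PT.nd (nat_lit 78) (PT.lf (nat_lit 23940) (nat_lit 6) (nat_lit 315) (nat_lit 5) (nat_lit 157) (nat_lit 175) (nat_lit 178)) (PT.lf (nat_lit 24928) (nat_lit 6) (nat_lit 328) (nat_lit 5) (nat_lit 158) (nat_lit 175) (nat_lit 177))) (PT.nd (nat_lit 78) (PT.lf (nat_lit 25840) (nat_lit 6) (nat_lit 340) (nat_lit 5) (nat_lit 159) (nat_lit 175) (nat_lit 176)) (PT.lf (nat_lit 26676) (nat_lit 3) (nat_lit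 351) (nat_lit 4) (nat_lit 160) (nat_lit 175) (nat_lit 175)))) (PT.nd (nat_lit 156) (PT.nd (nat_lit 78) (PT.lf (nat_lit 27360) (nat_lit 6) (nat_lit 360) (nat_lit 4) (nat_lit 161) (nat_lit 175) (nat_lit 174)) (PT.lf (nat_lit 27968) (nat_lit 6) (nat_lit 368) (nat_lit 4) (nat_lit 162) (nat_lit 175) (nat_lit 173))) (PT.nd (nat_lit 78) (PT.lf (nat_lit 28500) (nat_lit 6) (nat_lit 375) (nat_lit 4) (nat_lit 163) (nat_lit 175) (nat_lit 172)) (PT.lf (nat_lit 28956) (nat_lit 6) (nat_lit 381) (nat_lit 4) (nat_lit 164) (nat_lit 175) (nat_lit 171))))) (PT.nd (nat_lit 312) (PT.nd (nat_lit 156) (PT.nd (nat_lit 78) (PT.lf (nat_lit 29336) (nat_lit 6) (nat_lit 386) (nat_lit 4) (nat_lit 165) (nat_lit 175) (nat_lit 170)) (PT.lf (nat_lit 29260) (nat_lit 6) (nat_lit 385) (nat_lit 4) (nat_lit 166) (nat_lit 175) (nat_lit 169))) (PT.nd (nat_lit 78) (PT.lf (nat_lit 29184) (nat_lit 6) (nat_lit 384) (nat_lit 4) (nat_lit 167) (nat_lit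 175) (nat_lit 168)) (PT.lf (nat_lit 29184) (nat_lit 6) (nat_lit 384) (nat_lit 2) (nat_lit 168) (nat_lit 175) (nat_lit 167)))) (PT.nd (nat_lit 156) (PT.nd (nat_lit 78) (PT.lf (nat_lit 29260) (nat_lit 6) (nat_lit 385) (nat_lit 2) (nat_lit 169) (nat_lit 175) (nat_lit 166)) (PT.lf (nat_lit 29336) (nat_lit 6) (nat_lit 386) (nat_lit 2) (nat_lit 170) (nat_lit 175) (nat_lit 165))) (PT.nd (nat_lit 78) (PT.lf (nat_lit 28956) (nat_lit 6) (nat_lit 381) (nat_lit 2) (nat_lit 171) (nat_lit 175) (nat_lit 164)) (PT.lf (nat_lit 28500) (nat_lit 6) (nat_lit 375) (nat_lit 2) (nat_lit 172) (nat_lit 175) (nat_lit 163))))))))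
noncomputable def pc16 : PT := (PT.nd (nat_lit 52182) (PT.nd (nat_lit 1170) (PT.nd (nat_lit 546) (PT.nd (nat_lit 234) (PT.nd (nat_lit 78) (PT.lf (nat_lit 27968) (nat_lit 6) (nat_lit 368) (nat_lit 2) (nat_lit 173) (nat_lit 175) (nat_lit 162)) (PT.nd (nat_lit 78) (PT.lf (nat_lit 27360) (nat_lit 6) (nat_lit 360) (nat_lit 2) (nat_lit 174) (nat_lit 175) (nat_lit 161)) (PT.lf (nat_lit 26676) (nat_lit 3) (nat_lit 351) (nat_lit 0) (nat_lit 175) (nat_lit 175) (nat_lit 160)))) (PT.nd (nat_lit 156) (PT.nd (nat_lit 78) (PT.lf (nat_lit 25840) (nat_lit 6) (nat_lit 340) (nat_lit 0) (nat_lit 176) (nat_lit 175) (nat_lit 159)) (PT.lf (nat_lit 24928) (nat_lit 6) (nat_lit 328) (nat_lit 0) (nat_lit 177) (nat_lit 175) (nat_lit 158))) (PT.nd (nat_lit 78) (PT.lf (nat_lit 23940) (nat_lit 6) (nat_lit 315) (nat_lit 0) (nat_lit 178) (nat_lit 175) (nat_lit 157)) (PT.lf (nat_lit 22876) (nat_lit 6) (nat_lit 301) (nat_lit 0) (nat_lit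 179) (nat_lit 175) (nat_lit 156))))) (PT.nd (nat_lit 312) (PT.nd (nat_lit 156) (PT.nd (nat_lit 78) (PT.lf (nat_lit 21736) (nat_lit 6) (nat_lit 286) (nat_lit 0) (nat_lit 180) (nat_lit 175) (nat_lit 155)) (PT.lf (nat_lit 20520) (nat_lit 6) (nat_lit 270) (nat_lit 0) (nat_lit 181) (nat_lit 175) (nat_lit 154))) (PT.nd (nat_lit 78) (PT.lf (nat_lit 19228) (nat_lit 6) (nat_lit 253) (nat_lit 0) (nat_lit 182) (nat_lit 175) (nat_lit 153)) (PT.lf (nat_lit 18468) (nat_lit 6) (nat_lit 243) (nat_lit 0) (nat_lit 183) (nat_lit 175) (nat_lit 152)))) (PT.nd (nat_lit 156) (PT.nd (nat_lit 78) (PT.lf (nat_lit 17784) (nat_lit 6) (nat_lit 234) (nat_lit 0) (nat_lit 184) (nat_lit 175) (nat_lit 151)) (PT.lf (nat_lit 17100) (nat_lit 6) (nat_lit 225) (nat_lit 0) (nat_lit 185) (nat_lit 175) (nat_lit 150))) (PT.nd (nat_lit 78) (PT.lf (nat_lit 16492) (nat_lit 6) (nat_lit 217) (nat_lit 0) (nat_lit 186) (nat_lit 175) (nat_lit 149))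 (PT.lf (nat_lit 15884) (nat_lit 6) (nat_lit 209) (nat_lit 0) (nat_lit 187) (nat_lit 175) (nat_lit 148)))))) (PT.nd (nat_lit 50388) (PT.nd (nat_lit 50076) (PT.nd (nat_lit 49920) (PT.nd (nat_lit 49842) (PT.lf (nat_lit 15352) (nat_lit 6) (nat_lit 202) (nat_lit 0) (nat_lit 188) (nat_lit 175) (nat_lit 147)) (PT.lf (nat_lit 14820) (nat_lit 6) (nat_lit 195) (nat_lit 5) (nat_lit 146) (nat_lit 176) (nat_lit 188))) (PT.nd (nat_lit 78) (PT.lf (nat_lit 15428) (nat_lit 6) (nat_lit 203) (nat_lit 5) (nat_lit 147) (nat_lit 176) (nat_lit 187)) (PT.lf (nat_lit 15960) (nat_lit 6) (nat_lit 210) (nat_lit 5) (nat_lit 148) (nat_lit 176) (nat_lit 186)))) (PT.nd (nat_lit 156) (PT.nd (nat_lit 78) (PT.lf (nat_lit 16568) (nat_lit 6) (nat_lit 218) (nat_lit 5) (nat_lit 149) (nat_lit 176) (nat_lit 185)) (PT.lf (nat_lit 17176) (nat_lit 6) (nat_lit 226) (nat_lit 5) (nat_lit 150) (nat_lit 176) (nat_lit 184))) (PT.nd (nat_lit 78) (PT.lf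 (nat_lit 17860) (nat_lit 6) (nat_lit 235) (nat_lit 5) (nat_lit 151) (nat_lit 176) (nat_lit 183)) (PT.lf (nat_lit 18544) (nat_lit 6) (nat_lit 244) (nat_lit 5) (nat_lit 152) (nat_lit 176) (nat_lit 182))))) (PT.nd (nat_lit 312) (PT.nd (nat_lit 156) (PT.nd (nat_lit 78) (PT.lf (nat_lit 19304) (nat_lit 6) (nat_lit 254) (nat_lit 5) (nat_lit 153) (nat_lit 176) (nat_lit 181)) (PT.lf (nat_lit 20596) (nat_lit 6) (nat_lit 271) (nat_lit 5) (nat_lit 154) (nat_lit 176) (nat_lit 180))) (PT.nd (nat_lit 78) (PT.lf (nat_lit 21812) (nat_lit 6) (nat_lit 287) (nat_lit 5) (nat_lit 155) (nat_lit 176) (nat_lit 179)) (PT.lf (nat_lit 22952) (nat_lit 6) (nat_lit 302) (nat_lit 5) (nat_lit 156) (nat_lit 176) (nat_lit 178)))) (PT.nd (nat_lit 156) (PT.nd (nat_lit 78) (PT.lf (nat_lit 24016) (nat_lit 6) (nat_lit 316) (nat_lit 5) (nat_lit 157) (nat_lit 176) (nat_lit 177)) (PT.lf (nat_lit 25004) (nat_lit 3) (nat_lit 329) (nat_lit 4)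 (nat_lit 158) (nat_lit 176) (nat_lit 176))) (PT.nd (nat_lit 78) (PT.lf (nat_lit 25840) (nat_lit 6) (nat_lit 340) (nat_lit 4) (nat_lit 159) (nat_lit 176) (nat_lit 175)) (PT.lf (nat_lit 26600) (nat_lit 6) (nat_lit 350) (nat_lit 4) (nat_lit 160) (nat_lit 176) (nat_lit 174))))))) (PT.nd (nat_lit 1170) (PT.nd (nat_lit 546) (PT.nd (nat_lit 234) (PT.nd (nat_lit 78) (PT.lf (nat_lit 27284) (nat_lit 6) (nat_lit 359) (nat_lit 4) (nat_lit 161) (nat_lit 176) (nat_lit 173)) (PT.nd (nat_lit 78) (PT.lf (nat_lit 27892) (nat_lit 6) (nat_lit 367) (nat_lit 4) (nat_lit 162) (nat_lit 176) (nat_lit 172)) (PT.lf (nat_lit 28424) (nat_lit 6) (nat_lit 374) (nat_lit 4) (nat_lit 163) (nat_lit 176) (nat_lit 171)))) (PT.nd (nat_lit 156) (PT.nd (nat_lit 78) (PT.lf (nat_lit 28880) (nat_lit 6) (nat_lit 380) (nat_lit 4) (nat_lit 164) (nat_lit 176) (nat_lit 170)) (PT.lf (nat_lit 28804) (nat_lit 6) (nat_lit 379) (nat_lit 4) (nat_lit 165)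 (nat_lit 176) (nat_lit 169))) (PT.nd (nat_lit 78) (PT.lf (nat_lit 28728) (nat_lit 6) (nat_lit 378) (nat_lit 4) (nat_lit 166) (nat_lit 176) (nat_lit 168)) (PT.lf (nat_lit 28652) (nat_lit 3) (nat_lit 377) (nat_lit 2) (nat_lit 167) (nat_lit 176) (nat_lit 167))))) (PT.nd (nat_lit 312) (PT.nd (nat_lit 156) (PT.nd (nat_lit 78) (PT.lf (nat_lit 28728) (nat_lit 6) (nat_lit 378) (nat_lit 2) (nat_lit 168) (nat_lit 176) (nat_lit 166)) (PT.lf (nat_lit 28804) (nat_lit 6) (nat_lit 379) (nat_lit 2) (nat_lit 169) (nat_lit 176) (nat_lit 165))) (PT.nd (nat_lit 78) (PT.lf (nat_lit 28880) (nat_lit 6) (nat_lit 380) (nat_lit 2) (nat_lit 170) (nat_lit 176) (nat_lit 164)) (PT.lf (nat_lit 28424) (nat_lit 6) (nat_lit 374) (nat_lit 2) (nat_lit 171) (nat_lit 176) (nat_lit 163)))) (PT.nd (nat_lit 156) (PT.nd (nat_lit 78) (PT.lf (nat_lit 27892) (nat_lit 6) (nat_lit 367) (nat_lit 2) (nat_lit 172) (nat_lit 176) (nat_lit 162)) (PT.lf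 (nat_lit 27284) (nat_lit 6) (nat_lit 359) (nat_lit 2) (nat_lit 173) (nat_lit 176) (nat_lit 161))) (PT.nd (nat_lit 78) (PT.lf (nat_lit 26600) (nat_lit 6) (nat_lit 350) (nat_lit 2) (nat_lit 174) (nat_lit 176) (nat_lit 160)) (PT.lf (nat_lit 25840) (nat_lit 6) (nat_lit 340) (nat_lit 2) (nat_lit 175) (nat_lit 176) (nat_lit 159)))))) (PT.nd (nat_lit 624) (PT.nd (nat_lit 312) (PT.nd (nat_lit 156) (PT.nd (nat_lit 78) (PT.lf (nat_lit 25004) (nat_lit 3) (nat_lit 329) (nat_lit 0) (nat_lit 176) (nat_lit 176) (nat_lit 158)) (PT.lf (nat_lit 24016) (nat_lit 6) (nat_lit 316) (nat_lit 0) (nat_lit 177) (nat_lit 176) (nat_lit 157))) (PT.nd (nat_lit 78) (PT.lf (nat_lit 22952) (nat_lit 6) (nat_lit 302) (nat_lit 0) (nat_lit 178) (nat_lit 176) (nat_lit 156)) (PT.lf (nat_lit 21812) (nat_lit 6) (nat_lit 287) (nat_lit 0) (nat_lit 179) (nat_lit 176) (nat_lit 155)))) (PT.nd (nat_lit 156) (PT.nd (nat_lit 78) (PT.lf (nat_lit 20596)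 (nat_lit 6) (nat_lit 271) (nat_lit 0) (nat_lit 180) (nat_lit 176) (nat_lit 154)) (PT.lf (nat_lit 19304) (nat_lit 6) (nat_lit 254) (nat_lit 0) (nat_lit 181) (nat_lit 176) (nat_lit 153))) (PT.nd (nat_lit 78) (PT.lf (nat_lit 18544) (nat_lit 6) (nat_lit 244) (nat_lit 0) (nat_lit 182) (nat_lit 176) (nat_lit 152)) (PT.lf (nat_lit 17860) (nat_lit 6) (nat_lit 235) (nat_lit 0) (nat_lit 183) (nat_lit 176) (nat_lit 151))))) (PT.nd (nat_lit 312) (PT.nd (nat_lit 156) (PT.nd (nat_lit 78) (PT.lf (nat_lit 17176) (nat_lit 6) (nat_lit 226) (nat_lit 0) (nat_lit 184) (nat_lit 176) (nat_lit 150)) (PT.lf (nat_lit 16568) (nat_lit 6) (nat_lit 218) (nat_lit 0) (nat_lit 185) (nat_lit 176) (nat_lit 149))) (PT.nd (nat_lit 78) (PT.lf (nat_lit 15960) (nat_lit 6) (nat_lit 210) (nat_lit 0) (nat_lit 186) (nat_lit 176) (nat_lit 148)) (PT.lf (nat_lit 15428) (nat_lit 6) (nat_lit 203) (nat_lit 0) (nat_lit 187) (nat_lit 176) (nat_lit 147))))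 (PT.nd (nat_lit 49842) (PT.nd (nat_lit 49764) (PT.lf (nat_lit 14820) (nat_lit 6) (nat_lit 195) (nat_lit 0) (nat_lit 188) (nat_lit 176) (nat_lit 146)) (PT.lf (nat_lit 14364) (nat_lit 6) (nat_lit 189) (nat_lit 5) (nat_lit 145) (nat_lit 177) (nat_lit 188))) (PT.nd (nat_lit 78) (PT.lf (nat_lit 14896) (nat_lit 6) (nat_lit 196) (nat_lit 5) (nat_lit 146) (nat_lit 177) (nat_lit 187)) (PT.lf (nat_lit 15504) (nat_lit 6) (nat_lit 204) (nat_lit 5) (nat_lit 147) (nat_lit 177) (nat_lit 186))))))))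
noncomputable def pc17 : PT := (PT.nd (nat_lit 2418) (PT.nd (nat_lit 1170) (PT.nd (nat_lit 546) (PT.nd (nat_lit 234) (PT.nd (nat_lit 78) (PT.lf (nat_lit 16036) (nat_lit 6) (nat_lit 211) (nat_lit 5) (nat_lit 148) (nat_lit 177) (nat_lit 185)) (PT.nd (nat_lit 78) (PT.lf (nat_lit 16644) (nat_lit 6) (nat_lit 219) (nat_lit 5) (nat_lit 149) (nat_lit 177) (nat_lit 184)) (PT.lf (nat_lit 17252) (nat_lit 6) (nat_lit 227) (nat_lit 5) (nat_lit 150) (nat_lit 177) (nat_lit 183)))) (PT.nd (nat_lit 156) (PT.nd (nat_lit 78) (PT.lf (nat_lit 17936) (nat_lit 6) (nat_lit 236) (nat_lit 5) (nat_lit 151) (nat_lit 177) (nat_lit 182)) (PT.lf (nat_lit 18620) (nat_lit 6) (nat_lit 245) (nat_lit 5) (nat_lit 152) (nat_lit 177) (nat_lit 181))) (PT.nd (nat_lit 78) (PT.lf (nat_lit 19380) (nat_lit 6) (nat_lit 255) (nat_lit 5) (nat_lit 153) (nat_lit 177) (nat_lit 180)) (PT.lf (nat_lit 20672) (nat_lit 6) (nat_lit 272) (nat_lit 5) (nat_lit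 154) (nat_lit 177) (nat_lit 179))))) (PT.nd (nat_lit 312) (PT.nd (nat_lit 156) (PT.nd (nat_lit 78) (PT.lf (nat_lit 21888) (nat_lit 6) (nat_lit 288) (nat_lit 5) (nat_lit 155) (nat_lit 177) (nat_lit 178)) (PT.lf (nat_lit 23028) (nat_lit 3) (nat_lit 303) (nat_lit 4) (nat_lit 156) (nat_lit 177) (nat_lit 177))) (PT.nd (nat_lit 78) (PT.lf (nat_lit 24016) (nat_lit 6) (nat_lit 316) (nat_lit 4) (nat_lit 157) (nat_lit 177) (nat_lit 176)) (PT.lf (nat_lit 24928) (nat_lit 6) (nat_lit 328) (nat_lit 4) (nat_lit 158) (nat_lit 177) (nat_lit 175)))) (PT.nd (nat_lit 156) (PT.nd (nat_lit 78) (PT.lf (nat_lit 25764) (nat_lit 6) (nat_lit 339) (nat_lit 4) (nat_lit 159) (nat_lit 177) (nat_lit 174)) (PT.lf (nat_lit 26524) (nat_lit 6) (nat_lit 349) (nat_lit 4) (nat_lit 160) (nat_lit 177) (nat_lit 173))) (PT.nd (nat_lit 78) (PT.lf (nat_lit 27208) (nat_lit 6) (nat_lit 358) (nat_lit 4) (nat_lit 161) (nat_lit 177) (nat_lit 172))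 (PT.lf (nat_lit 27816) (nat_lit 6) (nat_lit 366) (nat_lit 4) (nat_lit 162) (nat_lit 177) (nat_lit 171)))))) (PT.nd (nat_lit 624) (PT.nd (nat_lit 312) (PT.nd (nat_lit 156) (PT.nd (nat_lit 78) (PT.lf (nat_lit 28348) (nat_lit 6) (nat_lit 373) (nat_lit 4) (nat_lit 163) (nat_lit 177) (nat_lit 170)) (PT.lf (nat_lit 28272) (nat_lit 6) (nat_lit 372) (nat_lit 4) (nat_lit 164) (nat_lit 177) (nat_lit 169))) (PT.nd (nat_lit 78) (PT.lf (nat_lit 28196) (nat_lit 6) (nat_lit 371) (nat_lit 4) (nat_lit 165) (nat_lit 177) (nat_lit 168)) (PT.lf (nat_lit 28120) (nat_lit 6) (nat_lit 370) (nat_lit 4) (nat_lit 166) (nat_lit 177) (nat_lit 167)))) (PT.nd (nat_lit 156) (PT.nd (nat_lit 78) (PT.lf (nat_lit 28120) (nat_lit 6) (nat_lit 370) (nat_lit 2) (nat_lit 167) (nat_lit 177) (nat_lit 166)) (PT.lf (nat_lit 28196) (nat_lit 6) (nat_lit 371) (nat_lit 2) (nat_lit 168) (nat_lit 177) (nat_lit 165))) (PT.nd (nat_lit 78) (PT.lf (nat_lit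 28272) (nat_lit 6) (nat_lit 372) (nat_lit 2) (nat_lit 169) (nat_lit 177) (nat_lit 164)) (PT.lf (nat_lit 28348) (nat_lit 6) (nat_lit 373) (nat_lit 2) (nat_lit 170) (nat_lit 177) (nat_lit 163))))) (PT.nd (nat_lit 312) (PT.nd (nat_lit 156) (PT.nd (nat_lit 78) (PT.lf (nat_lit 27816) (nat_lit 6) (nat_lit 366) (nat_lit 2) (nat_lit 171) (nat_lit 177) (nat_lit 162)) (PT.lf (nat_lit 27208) (nat_lit 6) (nat_lit 358) (nat_lit 2) (nat_lit 172) (nat_lit 177) (nat_lit 161))) (PT.nd (nat_lit 78) (PT.lf (nat_lit 26524) (nat_lit 6) (nat_lit 349) (nat_lit 2) (nat_lit 173) (nat_lit 177) (nat_lit 160)) (PT.lf (nat_lit 25764) (nat_lit 6) (nat_lit 339) (nat_lit 2) (nat_lit 174) (nat_lit 177) (nat_lit 159)))) (PT.nd (nat_lit 156) (PT.nd (nat_lit 78) (PT.lf (nat_lit 24928) (nat_lit 6) (nat_lit 328) (nat_lit 2) (nat_lit 175) (nat_lit 177) (nat_lit 158)) (PT.lf (nat_lit 24016) (nat_lit 6) (nat_lit 316) (nat_lit 2) (nat_lit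 176) (nat_lit 177) (nat_lit 157))) (PT.nd (nat_lit 78) (PT.lf (nat_lit 23028) (nat_lit 3) (nat_lit 303) (nat_lit 0) (nat_lit 177) (nat_lit 177) (nat_lit 156)) (PT.lf (nat_lit 21888) (nat_lit 6) (nat_lit 288) (nat_lit 0) (nat_lit 178) (nat_lit 177) (nat_lit 155))))))) (PT.nd (nat_lit 50700) (PT.nd (nat_lit 546) (PT.nd (nat_lit 234) (PT.nd (nat_lit 78) (PT.lf (nat_lit 20672) (nat_lit 6) (nat_lit 272) (nat_lit 0) (nat_lit 179) (nat_lit 177) (nat_lit 154)) (PT.nd (nat_lit 78) (PT.lf (nat_lit 19380) (nat_lit 6) (nat_lit 255) (nat_lit 0) (nat_lit 180) (nat_lit 177) (nat_lit 153)) (PT.lf (nat_lit 18620) (nat_lit 6) (nat_lit 245) (nat_lit 0) (nat_lit 181) (nat_lit 177) (nat_lit 152)))) (PT.nd (nat_lit 156) (PT.nd (nat_lit 78) (PT.lf (nat_lit 17936) (nat_lit 6) (nat_lit 236) (nat_lit 0) (nat_lit 182) (nat_lit 177) (nat_lit 151)) (PT.lf (nat_lit 17252) (nat_lit 6) (nat_lit 227) (nat_lit 0) (nat_lit 183) (nat_lit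 177) (nat_lit 150))) (PT.nd (nat_lit 78) (PT.lf (nat_lit 16644) (nat_lit 6) (nat_lit 219) (nat_lit 0) (nat_lit 184) (nat_lit 177) (nat_lit 149)) (PT.lf (nat_lit 16036) (nat_lit 6) (nat_lit 211) (nat_lit 0) (nat_lit 185) (nat_lit 177) (nat_lit 148))))) (PT.nd (nat_lit 49842) (PT.nd (nat_lit 156) (PT.nd (nat_lit 78) (PT.lf (nat_lit 15504) (nat_lit 6) (nat_lit 204) (nat_lit 0) (nat_lit 186) (nat_lit 177) (nat_lit 147)) (PT.lf (nat_lit 14896) (nat_lit 6) (nat_lit 196) (nat_lit 0) (nat_lit 187) (nat_lit 177) (nat_lit 146))) (PT.nd (nat_lit 49608) (PT.lf (nat_lit 14364) (nat_lit 6) (nat_lit 189) (nat_lit 0) (nat_lit 188) (nat_lit 177) (nat_lit 145)) (PT.lf (nat_lit 13376) (nat_lit 6) (nat_lit 176) (nat_lit 5) (nat_lit 143) (nat_lit 178) (nat_lit 189)))) (PT.nd (nat_lit 156) (PT.nd (nat_lit 78) (PT.lf (nat_lit 13908) (nat_lit 6) (nat_lit 183) (nat_lit 5) (nat_lit 144) (nat_lit 178) (nat_lit 188)) (PT.lf (nat_lit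 14440) (nat_lit 6) (nat_lit 190) (nat_lit 5) (nat_lit 145) (nat_lit 178) (nat_lit 187))) (PT.nd (nat_lit 78) (PT.lf (nat_lit 14972) (nat_lit 6) (nat_lit 197) (nat_lit 5) (nat_lit 146) (nat_lit 178) (nat_lit 186)) (PT.lf (nat_lit 15580) (nat_lit 6) (nat_lit 205) (nat_lit 5) (nat_lit 147) (nat_lit 178) (nat_lit 185)))))) (PT.nd (nat_lit 624) (PT.nd (nat_lit 312) (PT.nd (nat_lit 156) (PT.nd (nat_lit 78) (PT.lf (nat_lit 16112) (nat_lit 6) (nat_lit 212) (nat_lit 5) (nat_lit 148) (nat_lit 178) (nat_lit 184)) (PT.lf (nat_lit 16720) (nat_lit 6) (nat_lit 220) (nat_lit 5) (nat_lit 149) (nat_lit 178) (nat_lit 183))) (PT.nd (nat_lit 78) (PT.lf (nat_lit 17328) (nat_lit 6) (nat_lit 228) (nat_lit 5) (nat_lit 150) (nat_lit 178) (nat_lit 182)) (PT.lf (nat_lit 18012) (nat_lit 6) (nat_lit 237) (nat_lit 5) (nat_lit 151) (nat_lit 178) (nat_lit 181)))) (PT.nd (nat_lit 156) (PT.nd (nat_lit 78) (PT.lf (nat_lit 18696) (nat_lit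 6) (nat_lit 246) (nat_lit 5) (nat_lit 152) (nat_lit 178) (nat_lit 180)) (PT.lf (nat_lit 19456) (nat_lit 6) (nat_lit 256) (nat_lit 5) (nat_lit 153) (nat_lit 178) (nat_lit 179))) (PT.nd (nat_lit 78) (PT.lf (nat_lit 20748) (nat_lit 3) (nat_lit 273) (nat_lit 4) (nat_lit 154) (nat_lit 178) (nat_lit 178)) (PT.lf (nat_lit 21888) (nat_lit 6) (nat_lit 288) (nat_lit 4) (nat_lit 155) (nat_lit 178) (nat_lit 177))))) (PT.nd (nat_lit 312) (PT.nd (nat_lit 156) (PT.nd (nat_lit 78) (PT.lf (nat_lit 22952) (nat_lit 6) (nat_lit 302) (nat_lit 4) (nat_lit 156) (nat_lit 178) (nat_lit 176)) (PT.lf (nat_lit 23940) (nat_lit 6) (nat_lit 315) (nat_lit 4) (nat_lit 157) (nat_lit 178) (nat_lit 175))) (PT.nd (nat_lit 78) (PT.lf (nat_lit 24852) (nat_lit 6) (nat_lit 327) (nat_lit 4) (nat_lit 158) (nat_lit 178) (nat_lit 174)) (PT.lf (nat_lit 25688) (nat_lit 6) (nat_lit 338) (nat_lit 4) (nat_lit 159) (nat_lit 178) (nat_lit 173)))) (PT.nd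 (nat_lit 156) (PT.nd (nat_lit 78) (PT.lf (nat_lit 26448) (nat_lit 6) (nat_lit 348) (nat_lit 4) (nat_lit 160) (nat_lit 178) (nat_lit 172)) (PT.lf (nat_lit 27132) (nat_lit 6) (nat_lit 357) (nat_lit 4) (nat_lit 161) (nat_lit 178) (nat_lit 171))) (PT.nd (nat_lit 78) (PT.lf (nat_lit 27740) (nat_lit 6) (nat_lit 365) (nat_lit 4) (nat_lit 162) (nat_lit 178) (nat_lit 170)) (PT.lf (nat_lit 27664) (nat_lit 6) (nat_lit 364) (nat_lit 4) (nat_lit 163) (nat_lit 178) (nat_lit 169))))))))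
noncomputable def pc18 : PT := (PT.nd (nat_lit 51792) (PT.nd (nat_lit 1170) (PT.nd (nat_lit 546) (PT.nd (nat_lit 234) (PT.nd (nat_lit 78) (PT.lf (nat_lit 27588) (nat_lit 6) (nat_lit 363) (nat_lit 4) (nat_lit 164) (nat_lit 178) (nat_lit 168)) (PT.nd (nat_lit 78) (PT.lf (nat_lit 27512) (nat_lit 6) (nat_lit 362) (nat_lit 4) (nat_lit 165) (nat_lit 178) (nat_lit 167)) (PT.lf (nat_lit 27436) (nat_lit 3) (nat_lit 361) (nat_lit 2) (nat_lit 166) (nat_lit 178) (nat_lit 166)))) (PT.nd (nat_lit 156) (PT.nd (nat_lit 78) (PT.lf (nat_lit 27512) (nat_lit 6) (nat_lit 362) (nat_lit 2) (nat_lit 167) (nat_lit 178) (nat_lit 165)) (PT.lf (nat_lit 27588) (nat_lit 6) (nat_lit 363) (nat_lit 2) (nat_lit 168) (nat_lit 178) (nat_lit 164))) (PT.nd (nat_lit 78) (PT.lf (nat_lit 27664) (nat_lit 6) (nat_lit 364) (nat_lit 2) (nat_lit 169) (nat_lit 178) (nat_lit 163)) (PT.lf (nat_lit 27740) (nat_lit 6) (nat_lit 365) (nat_lit 2) (nat_lit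 170) (nat_lit 178) (nat_lit 162))))) (PT.nd (nat_lit 312) (PT.nd (nat_lit 156) (PT.nd (nat_lit 78) (PT.lf (nat_lit 27132) (nat_lit 6) (nat_lit 357) (nat_lit 2) (nat_lit 171) (nat_lit 178) (nat_lit 161)) (PT.lf (nat_lit 26448) (nat_lit 6) (nat_lit 348) (nat_lit 2) (nat_lit 172) (nat_lit 178) (nat_lit 160))) (PT.nd (nat_lit 78) (PT.lf (nat_lit 25688) (nat_lit 6) (nat_lit 338) (nat_lit 2) (nat_lit 173) (nat_lit 178) (nat_lit 159)) (PT.lf (nat_lit 24852) (nat_lit 6) (nat_lit 327) (nat_lit 2) (nat_lit 174) (nat_lit 178) (nat_lit 158)))) (PT.nd (nat_lit 156) (PT.nd (nat_lit 78) (PT.lf (nat_lit 23940) (nat_lit 6) (nat_lit 315) (nat_lit 2) (nat_lit 175) (nat_lit 178) (nat_lit 157)) (PT.lf (nat_lit 22952) (nat_lit 6) (nat_lit 302) (nat_lit 2) (nat_lit 176) (nat_lit 178) (nat_lit 156))) (PT.nd (nat_lit 78) (PT.lf (nat_lit 21888) (nat_lit 6) (nat_lit 288) (nat_lit 2) (nat_lit 177) (nat_lit 178) (nat_lit 155))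 (PT.lf (nat_lit 20748) (nat_lit 3) (nat_lit 273) (nat_lit 0) (nat_lit 178) (nat_lit 178) (nat_lit 154)))))) (PT.nd (nat_lit 624) (PT.nd (nat_lit 312) (PT.nd (nat_lit 156) (PT.nd (nat_lit 78) (PT.lf (nat_lit 19456) (nat_lit 6) (nat_lit 256) (nat_lit 0) (nat_lit 179) (nat_lit 178) (nat_lit 153)) (PT.lf (nat_lit 18696) (nat_lit 6) (nat_lit 246) (nat_lit 0) (nat_lit 180) (nat_lit 178) (nat_lit 152))) (PT.nd (nat_lit 78) (PT.lf (nat_lit 18012) (nat_lit 6) (nat_lit 237) (nat_lit 0) (nat_lit 181) (nat_lit 178) (nat_lit 151)) (PT.lf (nat_lit 17328) (nat_lit 6) (nat_lit 228) (nat_lit 0) (nat_lit 182) (nat_lit 178) (nat_lit 150)))) (PT.nd (nat_lit 156) (PT.nd (nat_lit 78) (PT.lf (nat_lit 16720) (nat_lit 6) (nat_lit 220) (nat_lit 0) (nat_lit 183) (nat_lit 178) (nat_lit 149)) (PT.lf (nat_lit 16112) (nat_lit 6) (nat_lit 212) (nat_lit 0) (nat_lit 184) (nat_lit 178) (nat_lit 148))) (PT.nd (nat_lit 78) (PT.lf (nat_lit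 15580) (nat_lit 6) (nat_lit 205) (nat_lit 0) (nat_lit 185) (nat_lit 178) (nat_lit 147)) (PT.lf (nat_lit 14972) (nat_lit 6) (nat_lit 197) (nat_lit 0) (nat_lit 186) (nat_lit 178) (nat_lit 146))))) (PT.nd (nat_lit 49686) (PT.nd (nat_lit 156) (PT.nd (nat_lit 78) (PT.lf (nat_lit 14440) (nat_lit 6) (nat_lit 190) (nat_lit 0) (nat_lit 187) (nat_lit 178) (nat_lit 145)) (PT.lf (nat_lit 13908) (nat_lit 6) (nat_lit 183) (nat_lit 0) (nat_lit 188) (nat_lit 178) (nat_lit 144))) (PT.nd (nat_lit 49452) (PT.lf (nat_lit 13376) (nat_lit 6) (nat_lit 176) (nat_lit 0) (nat_lit 189) (nat_lit 178) (nat_lit 143)) (PT.lf (nat_lit 12920) (nat_lit 6) (nat_lit 170) (nat_lit 5) (nat_lit 142) (nat_lit 179) (nat_lit 189)))) (PT.nd (nat_lit 156) (PT.nd (nat_lit 78) (PT.lf (nat_lit 13452) (nat_lit 6) (nat_lit 177) (nat_lit 5) (nat_lit 143) (nat_lit 179) (nat_lit 188)) (PT.lf (nat_lit 13984) (nat_lit 6) (nat_lit 184) (nat_lit 5) (nat_lit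 144) (nat_lit 179) (nat_lit 187))) (PT.nd (nat_lit 78) (PT.lf (nat_lit 14516) (nat_lit 6) (nat_lit 191) (nat_lit 5) (nat_lit 145) (nat_lit 179) (nat_lit 186)) (PT.lf (nat_lit 15048) (nat_lit 6) (nat_lit 198) (nat_lit 5) (nat_lit 146) (nat_lit 179) (nat_lit 185))))))) (PT.nd (nat_lit 1170) (PT.nd (nat_lit 546) (PT.nd (nat_lit 234) (PT.nd (nat_lit 78) (PT.lf (nat_lit 15656) (nat_lit 6) (nat_lit 206) (nat_lit 5) (nat_lit 147) (nat_lit 179) (nat_lit 184)) (PT.nd (nat_lit 78) (PT.lf (nat_lit 16188) (nat_lit 6) (nat_lit 213) (nat_lit 5) (nat_lit 148) (nat_lit 179) (nat_lit 183)) (PT.lf (nat_lit 16796) (nat_lit 6) (nat_lit 221) (nat_lit 5) (nat_lit 149) (nat_lit 179) (nat_lit 182)))) (PT.nd (nat_lit 156) (PT.nd (nat_lit 78) (PT.lf (nat_lit 17404) (nat_lit 6) (nat_lit 229) (nat_lit 5) (nat_lit 150) (nat_lit 179) (nat_lit 181)) (PT.lf (nat_lit 18088) (nat_lit 6) (nat_lit 238) (nat_lit 5) (nat_lit 151) (nat_lit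 179) (nat_lit 180))) (PT.nd (nat_lit 78) (PT.lf (nat_lit 18772) (nat_lit 3) (nat_lit 247) (nat_lit 4) (nat_lit 152) (nat_lit 179) (nat_lit 179)) (PT.lf (nat_lit 19456) (nat_lit 6) (nat_lit 256) (nat_lit 4) (nat_lit 153) (nat_lit 179) (nat_lit 178))))) (PT.nd (nat_lit 312) (PT.nd (nat_lit 156) (PT.nd (nat_lit 78) (PT.lf (nat_lit 20672) (nat_lit 6) (nat_lit 272) (nat_lit 4) (nat_lit 154) (nat_lit 179) (nat_lit 177)) (PT.lf (nat_lit 21812) (nat_lit 6) (nat_lit 287) (nat_lit 4) (nat_lit 155) (nat_lit 179) (nat_lit 176))) (PT.nd (nat_lit 78) (PT.lf (nat_lit 22876) (nat_lit 6) (nat_lit 301) (nat_lit 4) (nat_lit 156) (nat_lit 179) (nat_lit 175)) (PT.lf (nat_lit 23864) (nat_lit 6) (nat_lit 314) (nat_lit 4) (nat_lit 157) (nat_lit 179) (nat_lit 174)))) (PT.nd (nat_lit 156) (PT.nd (nat_lit 78) (PT.lf (nat_lit 24776) (nat_lit 6) (nat_lit 326) (nat_lit 4) (nat_lit 158) (nat_lit 179) (nat_lit 173)) (PT.lf (nat_lit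 25612) (nat_lit 6) (nat_lit 337) (nat_lit 4) (nat_lit 159) (nat_lit 179) (nat_lit 172))) (PT.nd (nat_lit 78) (PT.lf (nat_lit 26372) (nat_lit 6) (nat_lit 347) (nat_lit 4) (nat_lit 160) (nat_lit 179) (nat_lit 171)) (PT.lf (nat_lit 27056) (nat_lit 6) (nat_lit 356) (nat_lit 4) (nat_lit 161) (nat_lit 179) (nat_lit 170)))))) (PT.nd (nat_lit 624) (PT.nd (nat_lit 312) (PT.nd (nat_lit 156) (PT.nd (nat_lit 78) (PT.lf (nat_lit 26980) (nat_lit 6) (nat_lit 355) (nat_lit 4) (nat_lit 162) (nat_lit 179) (nat_lit 169)) (PT.lf (nat_lit 26904) (nat_lit 6) (nat_lit 354) (nat_lit 4) (nat_lit 163) (nat_lit 179) (nat_lit 168))) (PT.nd (nat_lit 78) (PT.lf (nat_lit 26828) (nat_lit 6) (nat_lit 353) (nat_lit 4) (nat_lit 164) (nat_lit 179) (nat_lit 167)) (PT.lf (nat_lit 26752) (nat_lit 6) (nat_lit 352) (nat_lit 4) (nat_lit 165) (nat_lit 179) (nat_lit 166)))) (PT.nd (nat_lit 156) (PT.nd (nat_lit 78) (PT.lf (nat_lit 26752) (nat_lit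 6) (nat_lit 352) (nat_lit 2) (nat_lit 166) (nat_lit 179) (nat_lit 165)) (PT.lf (nat_lit 26828) (nat_lit 6) (nat_lit 353) (nat_lit 2) (nat_lit 167) (nat_lit 179) (nat_lit 164))) (PT.nd (nat_lit 78) (PT.lf (nat_lit 26904) (nat_lit 6) (nat_lit 354) (nat_lit 2) (nat_lit 168) (nat_lit 179) (nat_lit 163)) (PT.lf (nat_lit 26980) (nat_lit 6) (nat_lit 355) (nat_lit 2) (nat_lit 169) (nat_lit 179) (nat_lit 162))))) (PT.nd (nat_lit 312) (PT.nd (nat_lit 156) (PT.nd (nat_lit 78) (PT.lf (nat_lit 27056) (nat_lit 6) (nat_lit 356) (nat_lit 2) (nat_lit 170) (nat_lit 179) (nat_lit 161)) (PT.lf (nat_lit 26372) (nat_lit 6) (nat_lit 347) (nat_lit 2) (nat_lit 171) (nat_lit 179) (nat_lit 160))) (PT.nd (nat_lit 78) (PT.lf (nat_lit 25612) (nat_lit 6) (nat_lit 337) (nat_lit 2) (nat_lit 172) (nat_lit 179) (nat_lit 159)) (PT.lf (nat_lit 24776) (nat_lit 6) (nat_lit 326) (nat_lit 2) (nat_lit 173) (nat_lit 179) (nat_lit 158)))) (PT.nd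 (nat_lit 156) (PT.nd (nat_lit 78) (PT.lf (nat_lit 23864) (nat_lit 6) (nat_lit 314) (nat_lit 2) (nat_lit 174) (nat_lit 179) (nat_lit 157)) (PT.lf (nat_lit 22876) (nat_lit 6) (nat_lit 301) (nat_lit 2) (nat_lit 175) (nat_lit 179) (nat_lit 156))) (PT.nd (nat_lit 78) (PT.lf (nat_lit 21812) (nat_lit 6) (nat_lit 287) (nat_lit 2) (nat_lit 176) (nat_lit 179) (nat_lit 155)) (PT.lf (nat_lit 20672) (nat_lit 6) (nat_lit 272) (nat_lit 2) (nat_lit 177) (nat_lit 179) (nat_lit 154))))))))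
noncomputable def pc19 : PT := (PT.nd (nat_lit 51636) (PT.nd (nat_lit 50388) (PT.nd (nat_lit 546) (PT.nd (nat_lit 234) (PT.nd (nat_lit 78) (PT.lf (nat_lit 19456) (nat_lit 6) (nat_lit 256) (nat_lit 2) (nat_lit 178) (nat_lit 179) (nat_lit 153)) (PT.nd (nat_lit 78) (PT.lf (nat_lit 18772) (nat_lit 3) (nat_lit 247) (nat_lit 0) (nat_lit 179) (nat_lit 179) (nat_lit 152)) (PT.lf (nat_lit 18088) (nat_lit 6) (nat_lit 238) (nat_lit 0) (nat_lit 180) (nat_lit 179) (nat_lit 151)))) (PT.nd (nat_lit 156) (PT.nd (nat_lit 78) (PT.lf (nat_lit 17404) (nat_lit 6) (nat_lit 229) (nat_lit 0) (nat_lit 181) (nat_lit 179) (nat_lit 150)) (PT.lf (nat_lit 16796) (nat_lit 6) (nat_lit 221) (nat_lit 0) (nat_lit 182) (nat_lit 179) (nat_lit 149))) (PT.nd (nat_lit 78) (PT.lf (nat_lit 16188) (nat_lit 6) (nat_lit 213) (nat_lit 0) (nat_lit 183) (nat_lit 179) (nat_lit 148)) (PT.lf (nat_lit 15656) (nat_lit 6) (nat_lit 206) (nat_lit 0) (nat_lit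 184) (nat_lit 179) (nat_lit 147))))) (PT.nd (nat_lit 312) (PT.nd (nat_lit 156) (PT.nd (nat_lit 78) (PT.lf (nat_lit 15048) (nat_lit 6) (nat_lit 198) (nat_lit 0) (nat_lit 185) (nat_lit 179) (nat_lit 146)) (PT.lf (nat_lit 14516) (nat_lit 6) (nat_lit 191) (nat_lit 0) (nat_lit 186) (nat_lit 179) (nat_lit 145))) (PT.nd (nat_lit 78) (PT.lf (nat_lit 13984) (nat_lit 6) (nat_lit 184) (nat_lit 0) (nat_lit 187) (nat_lit 179) (nat_lit 144)) (PT.lf (nat_lit 13452) (nat_lit 6) (nat_lit 177) (nat_lit 0) (nat_lit 188) (nat_lit 179) (nat_lit 143)))) (PT.nd (nat_lit 49374) (PT.nd (nat_lit 49296) (PT.lf (nat_lit 12920) (nat_lit 6) (nat_lit 170) (nat_lit 0) (nat_lit 189) (nat_lit 179) (nat_lit 142)) (PT.lf (nat_lit 12084) (nat_lit 6) (nat_lit 159) (nat_lit 5) (nat_lit 140) (nat_lit 180) (nat_lit 190))) (PT.nd (nat_lit 78) (PT.lf (nat_lit 12540) (nat_lit 6) (nat_lit 165) (nat_lit 5) (nat_lit 141) (nat_lit 180) (nat_lit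 189)) (PT.lf (nat_lit 12996) (nat_lit 6) (nat_lit 171) (nat_lit 5) (nat_lit 142) (nat_lit 180) (nat_lit 188)))))) (PT.nd (nat_lit 624) (PT.nd (nat_lit 312) (PT.nd (nat_lit 156) (PT.nd (nat_lit 78) (PT.lf (nat_lit 13528) (nat_lit 6) (nat_lit 178) (nat_lit 5) (nat_lit 143) (nat_lit 180) (nat_lit 187)) (PT.lf (nat_lit 14060) (nat_lit 6) (nat_lit 185) (nat_lit 5) (nat_lit 144) (nat_lit 180) (nat_lit 186))) (PT.nd (nat_lit 78) (PT.lf (nat_lit 14592) (nat_lit 6) (nat_lit 192) (nat_lit 5) (nat_lit 145) (nat_lit 180) (nat_lit 185)) (PT.lf (nat_lit 15124) (nat_lit 6) (nat_lit 199) (nat_lit 5) (nat_lit 146) (nat_lit 180) (nat_lit 184)))) (PT.nd (nat_lit 156) (PT.nd (nat_lit 78) (PT.lf (nat_lit 15732) (nat_lit 6) (nat_lit 207) (nat_lit 5) (nat_lit 147) (nat_lit 180) (nat_lit 183)) (PT.lf (nat_lit 16264) (nat_lit 6) (nat_lit 214) (nat_lit 5) (nat_lit 148) (nat_lit 180) (nat_lit 182))) (PT.nd (nat_lit 78) (PT.lf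 (nat_lit 16872) (nat_lit 6) (nat_lit 222) (nat_lit 5) (nat_lit 149) (nat_lit 180) (nat_lit 181)) (PT.lf (nat_lit 17480) (nat_lit 3) (nat_lit 230) (nat_lit 4) (nat_lit 150) (nat_lit 180) (nat_lit 180))))) (PT.nd (nat_lit 312) (PT.nd (nat_lit 156) (PT.nd (nat_lit 78) (PT.lf (nat_lit 18088) (nat_lit 6) (nat_lit 238) (nat_lit 4) (nat_lit 151) (nat_lit 180) (nat_lit 179)) (PT.lf (nat_lit 18696) (nat_lit 6) (nat_lit 246) (nat_lit 4) (nat_lit 152) (nat_lit 180) (nat_lit 178))) (PT.nd (nat_lit 78) (PT.lf (nat_lit 19380) (nat_lit 6) (nat_lit 255) (nat_lit 4) (nat_lit 153) (nat_lit 180) (nat_lit 177)) (PT.lf (nat_lit 20596) (nat_lit 6) (nat_lit 271) (nat_lit 4) (nat_lit 154) (nat_lit 180) (nat_lit 176)))) (PT.nd (nat_lit 156) (PT.nd (nat_lit 78) (PT.lf (nat_lit 21736) (nat_lit 6) (nat_lit 286) (nat_lit 4) (nat_lit 155) (nat_lit 180) (nat_lit 175)) (PT.lf (nat_lit 22800) (nat_lit 6) (nat_lit 300) (nat_lit 4)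 (nat_lit 156) (nat_lit 180) (nat_lit 174))) (PT.nd (nat_lit 78) (PT.lf (nat_lit 23788) (nat_lit 6) (nat_lit 313) (nat_lit 4) (nat_lit 157) (nat_lit 180) (nat_lit 173)) (PT.lf (nat_lit 24700) (nat_lit 6) (nat_lit 325) (nat_lit 4) (nat_lit 158) (nat_lit 180) (nat_lit 172))))))) (PT.nd (nat_lit 1170) (PT.nd (nat_lit 546) (PT.nd (nat_lit 234) (PT.nd (nat_lit 78) (PT.lf (nat_lit 25536) (nat_lit 6) (nat_lit 336) (nat_lit 4) (nat_lit 159) (nat_lit 180) (nat_lit 171)) (PT.nd (nat_lit 78) (PT.lf (nat_lit 26296) (nat_lit 6) (nat_lit 346) (nat_lit 4) (nat_lit 160) (nat_lit 180) (nat_lit 170)) (PT.lf (nat_lit 26220) (nat_lit 6) (nat_lit 345) (nat_lit 4) (nat_lit 161) (nat_lit 180) (nat_lit 169)))) (PT.nd (nat_lit 156) (PT.nd (nat_lit 78) (PT.lf (nat_lit 26144) (nat_lit 6) (nat_lit 344) (nat_lit 4) (nat_lit 162) (nat_lit 180) (nat_lit 168)) (PT.lf (nat_lit 26068) (nat_lit 6) (nat_lit 343) (nat_lit 4) (nat_lit 163)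 (nat_lit 180) (nat_lit 167))) (PT.nd (nat_lit 78) (PT.lf (nat_lit 25992) (nat_lit 6) (nat_lit 342) (nat_lit 4) (nat_lit 164) (nat_lit 180) (nat_lit 166)) (PT.lf (nat_lit 25916) (nat_lit 3) (nat_lit 341) (nat_lit 2) (nat_lit 165) (nat_lit 180) (nat_lit 165))))) (PT.nd (nat_lit 312) (PT.nd (nat_lit 156) (PT.nd (nat_lit 78) (PT.lf (nat_lit 25992) (nat_lit 6) (nat_lit 342) (nat_lit 2) (nat_lit 166) (nat_lit 180) (nat_lit 164)) (PT.lf (nat_lit 26068) (nat_lit 6) (nat_lit 343) (nat_lit 2) (nat_lit 167) (nat_lit 180) (nat_lit 163))) (PT.nd (nat_lit 78) (PT.lf (nat_lit 26144) (nat_lit 6) (nat_lit 344) (nat_lit 2) (nat_lit 168) (nat_lit 180) (nat_lit 162)) (PT.lf (nat_lit 26220) (nat_lit 6) (nat_lit 345) (nat_lit 2) (nat_lit 169) (nat_lit 180) (nat_lit 161)))) (PT.nd (nat_lit 156) (PT.nd (nat_lit 78) (PT.lf (nat_lit 26296) (nat_lit 6) (nat_lit 346) (nat_lit 2) (nat_lit 170) (nat_lit 180) (nat_lit 160)) (PT.lf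 (nat_lit 25536) (nat_lit 6) (nat_lit 336) (nat_lit 2) (nat_lit 171) (nat_lit 180) (nat_lit 159))) (PT.nd (nat_lit 78) (PT.lf (nat_lit 24700) (nat_lit 6) (nat_lit 325) (nat_lit 2) (nat_lit 172) (nat_lit 180) (nat_lit 158)) (PT.lf (nat_lit 23788) (nat_lit 6) (nat_lit 313) (nat_lit 2) (nat_lit 173) (nat_lit 180) (nat_lit 157)))))) (PT.nd (nat_lit 624) (PT.nd (nat_lit 312) (PT.nd (nat_lit 156) (PT.nd (nat_lit 78) (PT.lf (nat_lit 22800) (nat_lit 6) (nat_lit 300) (nat_lit 2) (nat_lit 174) (nat_lit 180) (nat_lit 156)) (PT.lf (nat_lit 21736) (nat_lit 6) (nat_lit 286) (nat_lit 2) (nat_lit 175) (nat_lit 180) (nat_lit 155))) (PT.nd (nat_lit 78) (PT.lf (nat_lit 20596) (nat_lit 6) (nat_lit 271) (nat_lit 2) (nat_lit 176) (nat_lit 180) (nat_lit 154)) (PT.lf (nat_lit 19380) (nat_lit 6) (nat_lit 255) (nat_lit 2) (nat_lit 177) (nat_lit 180) (nat_lit 153)))) (PT.nd (nat_lit 156) (PT.nd (nat_lit 78) (PT.lf (nat_lit 18696)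 (nat_lit 6) (nat_lit 246) (nat_lit 2) (nat_lit 178) (nat_lit 180) (nat_lit 152)) (PT.lf (nat_lit 18088) (nat_lit 6) (nat_lit 238) (nat_lit 2) (nat_lit 179) (nat_lit 180) (nat_lit 151))) (PT.nd (nat_lit 78) (PT.lf (nat_lit 17480) (nat_lit 3) (nat_lit 230) (nat_lit 0) (nat_lit 180) (nat_lit 180) (nat_lit 150)) (PT.lf (nat_lit 16872) (nat_lit 6) (nat_lit 222) (nat_lit 0) (nat_lit 181) (nat_lit 180) (nat_lit 149))))) (PT.nd (nat_lit 312) (PT.nd (nat_lit 156) (PT.nd (nat_lit 78) (PT.lf (nat_lit 16264) (nat_lit 6) (nat_lit 214) (nat_lit 0) (nat_lit 182) (nat_lit 180) (nat_lit 148)) (PT.lf (nat_lit 15732) (nat_lit 6) (nat_lit 207) (nat_lit 0) (nat_lit 183) (nat_lit 180) (nat_lit 147))) (PT.nd (nat_lit 78) (PT.lf (nat_lit 15124) (nat_lit 6) (nat_lit 199) (nat_lit 0) (nat_lit 184) (nat_lit 180) (nat_lit 146)) (PT.lf (nat_lit 14592) (nat_lit 6) (nat_lit 192) (nat_lit 0) (nat_lit 185) (nat_lit 180) (nat_lit 145))))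 (PT.nd (nat_lit 156) (PT.nd (nat_lit 78) (PT.lf (nat_lit 14060) (nat_lit 6) (nat_lit 185) (nat_lit 0) (nat_lit 186) (nat_lit 180) (nat_lit 144)) (PT.lf (nat_lit 13528) (nat_lit 6) (nat_lit 178) (nat_lit 0) (nat_lit 187) (nat_lit 180) (nat_lit 143))) (PT.nd (nat_lit 78) (PT.lf (nat_lit 12996) (nat_lit 6) (nat_lit 171) (nat_lit 0) (nat_lit 188) (nat_lit 180) (nat_lit 142)) (PT.lf (nat_lit 12540) (nat_lit 6) (nat_lit 165) (nat_lit 0) (nat_lit 189) (nat_lit 180) (nat_lit 141))))))))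
noncomputable def pc20 : PT := (PT.nd (nat_lit 51480) (PT.nd (nat_lit 50232) (PT.nd (nat_lit 49608) (PT.nd (nat_lit 49296) (PT.nd (nat_lit 49140) (PT.lf (nat_lit 12084) (nat_lit 6) (nat_lit 159) (nat_lit 0) (nat_lit 190) (nat_lit 180) (nat_lit 140)) (PT.nd (nat_lit 78) (PT.lf (nat_lit 11704) (nat_lit 6) (nat_lit 154) (nat_lit 5) (nat_lit 139) (nat_lit 181) (nat_lit 190)) (PT.lf (nat_lit 12160) (nat_lit 6) (nat_lit 160) (nat_lit 5) (nat_lit 140) (nat_lit 181) (nat_lit 189)))) (PT.nd (nat_lit 156) (PT.nd (nat_lit 78) (PT.lf (nat_lit 12616) (nat_lit 6) (nat_lit 166) (nat_lit 5) (nat_lit 141) (nat_lit 181) (nat_lit 188)) (PT.lf (nat_lit 13072) (nat_lit 6) (nat_lit 172) (nat_lit 5) (nat_lit 142) (nat_lit 181) (nat_lit 187))) (PT.nd (nat_lit 78) (PT.lf (nat_lit 13604) (nat_lit 6) (nat_lit 179) (nat_lit 5) (nat_lit 143) (nat_lit 181) (nat_lit 186)) (PT.lf (nat_lit 14136) (nat_lit 6) (nat_lit 186) (nat_lit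 5) (nat_lit 144) (nat_lit 181) (nat_lit 185))))) (PT.nd (nat_lit 312) (PT.nd (nat_lit 156) (PT.nd (nat_lit 78) (PT.lf (nat_lit 14668) (nat_lit 6) (nat_lit 193) (nat_lit 5) (nat_lit 145) (nat_lit 181) (nat_lit 184)) (PT.lf (nat_lit 15200) (nat_lit 6) (nat_lit 200) (nat_lit 5) (nat_lit 146) (nat_lit 181) (nat_lit 183))) (PT.nd (nat_lit 78) (PT.lf (nat_lit 15808) (nat_lit 6) (nat_lit 208) (nat_lit 5) (nat_lit 147) (nat_lit 181) (nat_lit 182)) (PT.lf (nat_lit 16340) (nat_lit 3) (nat_lit 215) (nat_lit 4) (nat_lit 148) (nat_lit 181) (nat_lit 181)))) (PT.nd (nat_lit 156) (PT.nd (nat_lit 78) (PT.lf (nat_lit 16872) (nat_lit 6) (nat_lit 222) (nat_lit 4) (nat_lit 149) (nat_lit 181) (nat_lit 180)) (PT.lf (nat_lit 17404) (nat_lit 6) (nat_lit 229) (nat_lit 4) (nat_lit 150) (nat_lit 181) (nat_lit 179))) (PT.nd (nat_lit 78) (PT.lf (nat_lit 18012) (nat_lit 6) (nat_lit 237) (nat_lit 4) (nat_lit 151) (nat_lit 181) (nat_lit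 178)) (PT.lf (nat_lit 18620) (nat_lit 6) (nat_lit 245) (nat_lit 4) (nat_lit 152) (nat_lit 181) (nat_lit 177)))))) (PT.nd (nat_lit 624) (PT.nd (nat_lit 312) (PT.nd (nat_lit 156) (PT.nd (nat_lit 78) (PT.lf (nat_lit 19304) (nat_lit 6) (nat_lit 254) (nat_lit 4) (nat_lit 153) (nat_lit 181) (nat_lit 176)) (PT.lf (nat_lit 20520) (nat_lit 6) (nat_lit 270) (nat_lit 4) (nat_lit 154) (nat_lit 181) (nat_lit 175))) (PT.nd (nat_lit 78) (PT.lf (nat_lit 21660) (nat_lit 6) (nat_lit 285) (nat_lit 4) (nat_lit 155) (nat_lit 181) (nat_lit 174)) (PT.lf (nat_lit 22724) (nat_lit 6) (nat_lit 299) (nat_lit 4) (nat_lit 156) (nat_lit 181) (nat_lit 173)))) (PT.nd (nat_lit 156) (PT.nd (nat_lit 78) (PT.lf (nat_lit 23712) (nat_lit 6) (nat_lit 312) (nat_lit 4) (nat_lit 157) (nat_lit 181) (nat_lit 172)) (PT.lf (nat_lit 24624) (nat_lit 6) (nat_lit 324) (nat_lit 4) (nat_lit 158) (nat_lit 181) (nat_lit 171))) (PT.nd (nat_lit 78) (PT.lf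 (nat_lit 25460) (nat_lit 6) (nat_lit 335) (nat_lit 4) (nat_lit 159) (nat_lit 181) (nat_lit 170)) (PT.lf (nat_lit 25384) (nat_lit 6) (nat_lit 334) (nat_lit 4) (nat_lit 160) (nat_lit 181) (nat_lit 169))))) (PT.nd (nat_lit 312) (PT.nd (nat_lit 156) (PT.nd (nat_lit 78) (PT.lf (nat_lit 25308) (nat_lit 6) (nat_lit 333) (nat_lit 4) (nat_lit 161) (nat_lit 181) (nat_lit 168)) (PT.lf (nat_lit 25232) (nat_lit 6) (nat_lit 332) (nat_lit 4) (nat_lit 162) (nat_lit 181) (nat_lit 167))) (PT.nd (nat_lit 78) (PT.lf (nat_lit 25156) (nat_lit 6) (nat_lit 331) (nat_lit 4) (nat_lit 163) (nat_lit 181) (nat_lit 166)) (PT.lf (nat_lit 25080) (nat_lit 6) (nat_lit 330) (nat_lit 4) (nat_lit 164) (nat_lit 181) (nat_lit 165)))) (PT.nd (nat_lit 156) (PT.nd (nat_lit 78) (PT.lf (nat_lit 25080) (nat_lit 6) (nat_lit 330) (nat_lit 2) (nat_lit 165) (nat_lit 181) (nat_lit 164)) (PT.lf (nat_lit 25156) (nat_lit 6) (nat_lit 331) (nat_lit 2)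 (nat_lit 166) (nat_lit 181) (nat_lit 163))) (PT.nd (nat_lit 78) (PT.lf (nat_lit 25232) (nat_lit 6) (nat_lit 332) (nat_lit 2) (nat_lit 167) (nat_lit 181) (nat_lit 162)) (PT.lf (nat_lit 25308) (nat_lit 6) (nat_lit 333) (nat_lit 2) (nat_lit 168) (nat_lit 181) (nat_lit 161))))))) (PT.nd (nat_lit 1170) (PT.nd (nat_lit 546) (PT.nd (nat_lit 234) (PT.nd (nat_lit 78) (PT.lf (nat_lit 25384) (nat_lit 6) (nat_lit 334) (nat_lit 2) (nat_lit 169) (nat_lit 181) (nat_lit 160)) (PT.nd (nat_lit 78) (PT.lf (nat_lit 25460) (nat_lit 6) (nat_lit 335) (nat_lit 2) (nat_lit 170) (nat_lit 181) (nat_lit 159)) (PT.lf (nat_lit 24624) (nat_lit 6) (nat_lit 324) (nat_lit 2) (nat_lit 171) (nat_lit 181) (nat_lit 158)))) (PT.nd (nat_lit 156) (PT.nd (nat_lit 78) (PT.lf (nat_lit 23712) (nat_lit 6) (nat_lit 312) (nat_lit 2) (nat_lit 172) (nat_lit 181) (nat_lit 157)) (PT.lf (nat_lit 22724) (nat_lit 6) (nat_lit 299) (nat_lit 2) (nat_lit 173)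 (nat_lit 181) (nat_lit 156))) (PT.nd (nat_lit 78) (PT.lf (nat_lit 21660) (nat_lit 6) (nat_lit 285) (nat_lit 2) (nat_lit 174) (nat_lit 181) (nat_lit 155)) (PT.lf (nat_lit 20520) (nat_lit 6) (nat_lit 270) (nat_lit 2) (nat_lit 175) (nat_lit 181) (nat_lit 154))))) (PT.nd (nat_lit 312) (PT.nd (nat_lit 156) (PT.nd (nat_lit 78) (PT.lf (nat_lit 19304) (nat_lit 6) (nat_lit 254) (nat_lit 2) (nat_lit 176) (nat_lit 181) (nat_lit 153)) (PT.lf (nat_lit 18620) (nat_lit 6) (nat_lit 245) (nat_lit 2) (nat_lit 177) (nat_lit 181) (nat_lit 152))) (PT.nd (nat_lit 78) (PT.lf (nat_lit 18012) (nat_lit 6) (nat_lit 237) (nat_lit 2) (nat_lit 178) (nat_lit 181) (nat_lit 151)) (PT.lf (nat_lit 17404) (nat_lit 6) (nat_lit 229) (nat_lit 2) (nat_lit 179) (nat_lit 181) (nat_lit 150)))) (PT.nd (nat_lit 156) (PT.nd (nat_lit 78) (PT.lf (nat_lit 16872) (nat_lit 6) (nat_lit 222) (nat_lit 2) (nat_lit 180) (nat_lit 181) (nat_lit 149)) (PT.lf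 (nat_lit 16340) (nat_lit 3) (nat_lit 215) (nat_lit 0) (nat_lit 181) (nat_lit 181) (nat_lit 148))) (PT.nd (nat_lit 78) (PT.lf (nat_lit 15808) (nat_lit 6) (nat_lit 208) (nat_lit 0) (nat_lit 182) (nat_lit 181) (nat_lit 147)) (PT.lf (nat_lit 15200) (nat_lit 6) (nat_lit 200) (nat_lit 0) (nat_lit 183) (nat_lit 181) (nat_lit 146)))))) (PT.nd (nat_lit 49530) (PT.nd (nat_lit 312) (PT.nd (nat_lit 156) (PT.nd (nat_lit 78) (PT.lf (nat_lit 14668) (nat_lit 6) (nat_lit 193) (nat_lit 0) (nat_lit 184) (nat_lit 181) (nat_lit 145)) (PT.lf (nat_lit 14136) (nat_lit 6) (nat_lit 186) (nat_lit 0) (nat_lit 185) (nat_lit 181) (nat_lit 144))) (PT.nd (nat_lit 78) (PT.lf (nat_lit 13604) (nat_lit 6) (nat_lit 179) (nat_lit 0) (nat_lit 186) (nat_lit 181) (nat_lit 143)) (PT.lf (nat_lit 13072) (nat_lit 6) (nat_lit 172) (nat_lit 0) (nat_lit 187) (nat_lit 181) (nat_lit 142)))) (PT.nd (nat_lit 156) (PT.nd (nat_lit 78) (PT.lf (nat_lit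 12616) (nat_lit 6) (nat_lit 166) (nat_lit 0) (nat_lit 188) (nat_lit 181) (nat_lit 141)) (PT.lf (nat_lit 12160) (nat_lit 6) (nat_lit 160) (nat_lit 0) (nat_lit 189) (nat_lit 181) (nat_lit 140))) (PT.nd (nat_lit 48984) (PT.lf (nat_lit 11704) (nat_lit 6) (nat_lit 154) (nat_lit 0) (nat_lit 190) (nat_lit 181) (nat_lit 139)) (PT.lf (nat_lit 10944) (nat_lit 6) (nat_lit 144) (nat_lit 5) (nat_lit 137) (nat_lit 182) (nat_lit 191))))) (PT.nd (nat_lit 312) (PT.nd (nat_lit 156) (PT.nd (nat_lit 78) (PT.lf (nat_lit 11324) (nat_lit 6) (nat_lit 149) (nat_lit 5) (nat_lit 138) (nat_lit 182) (nat_lit 190)) (PT.lf (nat_lit 11780) (nat_lit 6) (nat_lit 155) (nat_lit 5) (nat_lit 139) (nat_lit 182) (nat_lit 189))) (PT.nd (nat_lit 78) (PT.lf (nat_lit 12236) (nat_lit 6) (nat_lit 161) (nat_lit 5) (nat_lit 140) (nat_lit 182) (nat_lit 188)) (PT.lf (nat_lit 12692) (nat_lit 6) (nat_lit 167) (nat_lit 5) (nat_lit 141) (nat_lit 182)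 (nat_lit 187)))) (PT.nd (nat_lit 156) (PT.nd (nat_lit 78) (PT.lf (nat_lit 13148) (nat_lit 6) (nat_lit 173) (nat_lit 5) (nat_lit 142) (nat_lit 182) (nat_lit 186)) (PT.lf (nat_lit 13680) (nat_lit 6) (nat_lit 180) (nat_lit 5) (nat_lit 143) (nat_lit 182) (nat_lit 185))) (PT.nd (nat_lit 78) (PT.lf (nat_lit 14212) (nat_lit 6) (nat_lit 187) (nat_lit 5) (nat_lit 144) (nat_lit 182) (nat_lit 184)) (PT.lf (nat_lit 14744) (nat_lit 6) (nat_lit 194) (nat_lit 5) (nat_lit 145) (nat_lit 182) (nat_lit 183))))))))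
noncomputable def pc21 : PT := (PT.nd (nat_lit 2418) (PT.nd (nat_lit 1170) (PT.nd (nat_lit 546) (PT.nd (nat_lit 234) (PT.nd (nat_lit 78) (PT.lf (nat_lit 15276) (nat_lit 3) (nat_lit 201) (nat_lit 4) (nat_lit 146) (nat_lit 182) (nat_lit 182)) (PT.nd (nat_lit 78) (PT.lf (nat_lit 15808) (nat_lit 6) (nat_lit 208) (nat_lit 4) (nat_lit 147) (nat_lit 182) (nat_lit 181)) (PT.lf (nat_lit 16264) (nat_lit 6) (nat_lit 214) (nat_lit 4) (nat_lit 148) (nat_lit 182) (nat_lit 180)))) (PT.nd (nat_lit 156) (PT.nd (nat_lit 78) (PT.lf (nat_lit 16796) (nat_lit 6) (nat_lit 221) (nat_lit 4) (nat_lit 149) (nat_lit 182) (nat_lit 179)) (PT.lf (nat_lit 17328) (nat_lit 6) (nat_lit 228) (nat_lit 4) (nat_lit 150) (nat_lit 182) (nat_lit 178))) (PT.nd (nat_lit 78) (PT.lf (nat_lit 17936) (nat_lit 6) (nat_lit 236) (nat_lit 4) (nat_lit 151) (nat_lit 182) (nat_lit 177)) (PT.lf (nat_lit 18544) (nat_lit 6) (nat_lit 244) (nat_lit 4) (nat_lit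 152) (nat_lit 182) (nat_lit 176))))) (PT.nd (nat_lit 312) (PT.nd (nat_lit 156) (PT.nd (nat_lit 78) (PT.lf (nat_lit 19228) (nat_lit 6) (nat_lit 253) (nat_lit 4) (nat_lit 153) (nat_lit 182) (nat_lit 175)) (PT.lf (nat_lit 20444) (nat_lit 6) (nat_lit 269) (nat_lit 4) (nat_lit 154) (nat_lit 182) (nat_lit 174))) (PT.nd (nat_lit 78) (PT.lf (nat_lit 21584) (nat_lit 6) (nat_lit 284) (nat_lit 4) (nat_lit 155) (nat_lit 182) (nat_lit 173)) (PT.lf (nat_lit 22648) (nat_lit 6) (nat_lit 298) (nat_lit 4) (nat_lit 156) (nat_lit 182) (nat_lit 172)))) (PT.nd (nat_lit 156) (PT.nd (nat_lit 78) (PT.lf (nat_lit 23636) (nat_lit 6) (nat_lit 311) (nat_lit 4) (nat_lit 157) (nat_lit 182) (nat_lit 171)) (PT.lf (nat_lit 24548) (nat_lit 6) (nat_lit 323) (nat_lit 4) (nat_lit 158) (nat_lit 182) (nat_lit 170))) (PT.nd (nat_lit 78) (PT.lf (nat_lit 24472) (nat_lit 6) (nat_lit 322) (nat_lit 4) (nat_lit 159) (nat_lit 182) (nat_lit 169))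 (PT.lf (nat_lit 24396) (nat_lit 6) (nat_lit 321) (nat_lit 4) (nat_lit 160) (nat_lit 182) (nat_lit 168)))))) (PT.nd (nat_lit 624) (PT.nd (nat_lit 312) (PT.nd (nat_lit 156) (PT.nd (nat_lit 78) (PT.lf (nat_lit 24320) (nat_lit 6) (nat_lit 320) (nat_lit 4) (nat_lit 161) (nat_lit 182) (nat_lit 167)) (PT.lf (nat_lit 24244) (nat_lit 6) (nat_lit 319) (nat_lit 4) (nat_lit 162) (nat_lit 182) (nat_lit 166))) (PT.nd (nat_lit 78) (PT.lf (nat_lit 24168) (nat_lit 6) (nat_lit 318) (nat_lit 4) (nat_lit 163) (nat_lit 182) (nat_lit 165)) (PT.lf (nat_lit 24092) (nat_lit 3) (nat_lit 317) (nat_lit 2) (nat_lit 164) (nat_lit 182) (nat_lit 164)))) (PT.nd (nat_lit 156) (PT.nd (nat_lit 78) (PT.lf (nat_lit 24168) (nat_lit 6) (nat_lit 318) (nat_lit 2) (nat_lit 165) (nat_lit 182) (nat_lit 163)) (PT.lf (nat_lit 24244) (nat_lit 6) (nat_lit 319) (nat_lit 2) (nat_lit 166) (nat_lit 182) (nat_lit 162))) (PT.nd (nat_lit 78) (PT.lf (nat_lit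 24320) (nat_lit 6) (nat_lit 320) (nat_lit 2) (nat_lit 167) (nat_lit 182) (nat_lit 161)) (PT.lf (nat_lit 24396) (nat_lit 6) (nat_lit 321) (nat_lit 2) (nat_lit 168) (nat_lit 182) (nat_lit 160))))) (PT.nd (nat_lit 312) (PT.nd (nat_lit 156) (PT.nd (nat_lit 78) (PT.lf (nat_lit 24472) (nat_lit 6) (nat_lit 322) (nat_lit 2) (nat_lit 169) (nat_lit 182) (nat_lit 159)) (PT.lf (nat_lit 24548) (nat_lit 6) (nat_lit 323) (nat_lit 2) (nat_lit 170) (nat_lit 182) (nat_lit 158))) (PT.nd (nat_lit 78) (PT.lf (nat_lit 23636) (nat_lit 6) (nat_lit 311) (nat_lit 2) (nat_lit 171) (nat_lit 182) (nat_lit 157)) (PT.lf (nat_lit 22648) (nat_lit 6) (nat_lit 298) (nat_lit 2) (nat_lit 172) (nat_lit 182) (nat_lit 156)))) (PT.nd (nat_lit 156) (PT.nd (nat_lit 78) (PT.lf (nat_lit 21584) (nat_lit 6) (nat_lit 284) (nat_lit 2) (nat_lit 173) (nat_lit 182) (nat_lit 155)) (PT.lf (nat_lit 20444) (nat_lit 6) (nat_lit 269) (nat_lit 2) (nat_lit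 174) (nat_lit 182) (nat_lit 154))) (PT.nd (nat_lit 78) (PT.lf (nat_lit 19228) (nat_lit 6) (nat_lit 253) (nat_lit 2) (nat_lit 175) (nat_lit 182) (nat_lit 153)) (PT.lf (nat_lit 18544) (nat_lit 6) (nat_lit 244) (nat_lit 2) (nat_lit 176) (nat_lit 182) (nat_lit 152))))))) (PT.nd (nat_lit 49920) (PT.nd (nat_lit 546) (PT.nd (nat_lit 234) (PT.nd (nat_lit 78) (PT.lf (nat_lit 17936) (nat_lit 6) (nat_lit 236) (nat_lit 2) (nat_lit 177) (nat_lit 182) (nat_lit 151)) (PT.nd (nat_lit 78) (PT.lf (nat_lit 17328) (nat_lit 6) (nat_lit 228) (nat_lit 2) (nat_lit 178) (nat_lit 182) (nat_lit 150)) (PT.lf (nat_lit 16796) (nat_lit 6) (nat_lit 221) (nat_lit 2) (nat_lit 179) (nat_lit 182) (nat_lit 149)))) (PT.nd (nat_lit 156) (PT.nd (nat_lit 78) (PT.lf (nat_lit 16264) (nat_lit 6) (nat_lit 214) (nat_lit 2) (nat_lit 180) (nat_lit 182) (nat_lit 148)) (PT.lf (nat_lit 15808) (nat_lit 6) (nat_lit 208) (nat_lit 2) (nat_lit 181) (nat_lit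 182) (nat_lit 147))) (PT.nd (nat_lit 78) (PT.lf (nat_lit 15276) (nat_lit 3) (nat_lit 201) (nat_lit 0) (nat_lit 182) (nat_lit 182) (nat_lit 146)) (PT.lf (nat_lit 14744) (nat_lit 6) (nat_lit 194) (nat_lit 0) (nat_lit 183) (nat_lit 182) (nat_lit 145))))) (PT.nd (nat_lit 312) (PT.nd (nat_lit 156) (PT.nd (nat_lit 78) (PT.lf (nat_lit 14212) (nat_lit 6) (nat_lit 187) (nat_lit 0) (nat_lit 184) (nat_lit 182) (nat_lit 144)) (PT.lf (nat_lit 13680) (nat_lit 6) (nat_lit 180) (nat_lit 0) (nat_lit 185) (nat_lit 182) (nat_lit 143))) (PT.nd (nat_lit 78) (PT.lf (nat_lit 13148) (nat_lit 6) (nat_lit 173) (nat_lit 0) (nat_lit 186) (nat_lit 182) (nat_lit 142)) (PT.lf (nat_lit 12692) (nat_lit 6) (nat_lit 167) (nat_lit 0) (nat_lit 187) (nat_lit 182) (nat_lit 141)))) (PT.nd (nat_lit 156) (PT.nd (nat_lit 78) (PT.lf (nat_lit 12236) (nat_lit 6) (nat_lit 161) (nat_lit 0) (nat_lit 188) (nat_lit 182) (nat_lit 140)) (PT.lf (nat_lit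 11780) (nat_lit 6) (nat_lit 155) (nat_lit 0) (nat_lit 189) (nat_lit 182) (nat_lit 139))) (PT.nd (nat_lit 78) (PT.lf (nat_lit 11324) (nat_lit 6) (nat_lit 149) (nat_lit 0) (nat_lit 190) (nat_lit 182) (nat_lit 138)) (PT.lf (nat_lit 10944) (nat_lit 6) (nat_lit 144) (nat_lit 0) (nat_lit 191) (nat_lit 182) (nat_lit 137)))))) (PT.nd (nat_lit 624) (PT.nd (nat_lit 312) (PT.nd (nat_lit 156) (PT.nd (nat_lit 78) (PT.lf (nat_lit 10564) (nat_lit 6) (nat_lit 139) (nat_lit 5) (nat_lit 136) (nat_lit 183) (nat_lit 191)) (PT.lf (nat_lit 11020) (nat_lit 6) (nat_lit 145) (nat_lit 5) (nat_lit 137) (nat_lit 183) (nat_lit 190))) (PT.nd (nat_lit 78) (PT.lf (nat_lit 11400) (nat_lit 6) (nat_lit 150) (nat_lit 5) (nat_lit 138) (nat_lit 183) (nat_lit 189)) (PT.lf (nat_lit 11856) (nat_lit 6) (nat_lit 156) (nat_lit 5) (nat_lit 139) (nat_lit 183) (nat_lit 188)))) (PT.nd (nat_lit 156) (PT.nd (nat_lit 78) (PT.lf (nat_lit 12312) (nat_lit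 6) (nat_lit 162) (nat_lit 5) (nat_lit 140) (nat_lit 183) (nat_lit 187)) (PT.lf (nat_lit 12768) (nat_lit 6) (nat_lit 168) (nat_lit 5) (nat_lit 141) (nat_lit 183) (nat_lit 186))) (PT.nd (nat_lit 78) (PT.lf (nat_lit 13224) (nat_lit 6) (nat_lit 174) (nat_lit 5) (nat_lit 142) (nat_lit 183) (nat_lit 185)) (PT.lf (nat_lit 13756) (nat_lit 6) (nat_lit 181) (nat_lit 5) (nat_lit 143) (nat_lit 183) (nat_lit 184))))) (PT.nd (nat_lit 312) (PT.nd (nat_lit 156) (PT.nd (nat_lit 78) (PT.lf (nat_lit 14288) (nat_lit 3) (nat_lit 188) (nat_lit 4) (nat_lit 144) (nat_lit 183) (nat_lit 183)) (PT.lf (nat_lit 14744) (nat_lit 6) (nat_lit 194) (nat_lit 4) (nat_lit 145) (nat_lit 183) (nat_lit 182))) (PT.nd (nat_lit 78) (PT.lf (nat_lit 15200) (nat_lit 6) (nat_lit 200) (nat_lit 4) (nat_lit 146) (nat_lit 183) (nat_lit 181)) (PT.lf (nat_lit 15732) (nat_lit 6) (nat_lit 207) (nat_lit 4) (nat_lit 147) (nat_lit 183) (nat_lit 180)))) (PT.nd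 (nat_lit 156) (PT.nd (nat_lit 78) (PT.lf (nat_lit 16188) (nat_lit 6) (nat_lit 213) (nat_lit 4) (nat_lit 148) (nat_lit 183) (nat_lit 179)) (PT.lf (nat_lit 16720) (nat_lit 6) (nat_lit 220) (nat_lit 4) (nat_lit 149) (nat_lit 183) (nat_lit 178))) (PT.nd (nat_lit 78) (PT.lf (nat_lit 17252) (nat_lit 6) (nat_lit 227) (nat_lit 4) (nat_lit 150) (nat_lit 183) (nat_lit 177)) (PT.lf (nat_lit 17860) (nat_lit 6) (nat_lit 235) (nat_lit 4) (nat_lit 151) (nat_lit 183) (nat_lit 176))))))))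
noncomputable def pc22 : PT := (PT.nd (nat_lit 2418) (PT.nd (nat_lit 1170) (PT.nd (nat_lit 546) (PT.nd (nat_lit 234) (PT.nd (nat_lit 78) (PT.lf (nat_lit 18468) (nat_lit 6) (nat_lit 243) (nat_lit 4) (nat_lit 152) (nat_lit 183) (nat_lit 175)) (PT.nd (nat_lit 78) (PT.lf (nat_lit 19152) (nat_lit 6) (nat_lit 252) (nat_lit 4) (nat_lit 153) (nat_lit 183) (nat_lit 174)) (PT.lf (nat_lit 20368) (nat_lit 6) (nat_lit 268) (nat_lit 4) (nat_lit 154) (nat_lit 183) (nat_lit 173)))) (PT.nd (nat_lit 156) (PT.nd (nat_lit 78) (PT.lf (nat_lit 21508) (nat_lit 6) (nat_lit 283) (nat_lit 4) (nat_lit 155) (nat_lit 183) (nat_lit 172)) (PT.lf (nat_lit 22572) (nat_lit 6) (nat_lit 297) (nat_lit 4) (nat_lit 156) (nat_lit 183) (nat_lit 171))) (PT.nd (nat_lit 78) (PT.lf (nat_lit 23560) (nat_lit 6) (nat_lit 310) (nat_lit 4) (nat_lit 157) (nat_lit 183) (nat_lit 170)) (PT.lf (nat_lit 23484) (nat_lit 6) (nat_lit 309) (nat_lit 4) (nat_lit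 158) (nat_lit 183) (nat_lit 169))))) (PT.nd (nat_lit 312) (PT.nd (nat_lit 156) (PT.nd (nat_lit 78) (PT.lf (nat_lit 23408) (nat_lit 6) (nat_lit 308) (nat_lit 4) (nat_lit 159) (nat_lit 183) (nat_lit 168)) (PT.lf (nat_lit 23332) (nat_lit 6) (nat_lit 307) (nat_lit 4) (nat_lit 160) (nat_lit 183) (nat_lit 167))) (PT.nd (nat_lit 78) (PT.lf (nat_lit 23256) (nat_lit 6) (nat_lit 306) (nat_lit 4) (nat_lit 161) (nat_lit 183) (nat_lit 166)) (PT.lf (nat_lit 23180) (nat_lit 6) (nat_lit 305) (nat_lit 4) (nat_lit 162) (nat_lit 183) (nat_lit 165)))) (PT.nd (nat_lit 156) (PT.nd (nat_lit 78) (PT.lf (nat_lit 23104) (nat_lit 6) (nat_lit 304) (nat_lit 4) (nat_lit 163) (nat_lit 183) (nat_lit 164)) (PT.lf (nat_lit 23104) (nat_lit 6) (nat_lit 304) (nat_lit 2) (nat_lit 164) (nat_lit 183) (nat_lit 163))) (PT.nd (nat_lit 78) (PT.lf (nat_lit 23180) (nat_lit 6) (nat_lit 305) (nat_lit 2) (nat_lit 165) (nat_lit 183) (nat_lit 162))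 (PT.lf (nat_lit 23256) (nat_lit 6) (nat_lit 306) (nat_lit 2) (nat_lit 166) (nat_lit 183) (nat_lit 161)))))) (PT.nd (nat_lit 624) (PT.nd (nat_lit 312) (PT.nd (nat_lit 156) (PT.nd (nat_lit 78) (PT.lf (nat_lit 23332) (nat_lit 6) (nat_lit 307) (nat_lit 2) (nat_lit 167) (nat_lit 183) (nat_lit 160)) (PT.lf (nat_lit 23408) (nat_lit 6) (nat_lit 308) (nat_lit 2) (nat_lit 168) (nat_lit 183) (nat_lit 159))) (PT.nd (nat_lit 78) (PT.lf (nat_lit 23484) (nat_lit 6) (nat_lit 309) (nat_lit 2) (nat_lit 169) (nat_lit 183) (nat_lit 158)) (PT.lf (nat_lit 23560) (nat_lit 6) (nat_lit 310) (nat_lit 2) (nat_lit 170) (nat_lit 183) (nat_lit 157)))) (PT.nd (nat_lit 156) (PT.nd (nat_lit 78) (PT.lf (nat_lit 22572) (nat_lit 6) (nat_lit 297) (nat_lit 2) (nat_lit 171) (nat_lit 183) (nat_lit 156)) (PT.lf (nat_lit 21508) (nat_lit 6) (nat_lit 283) (nat_lit 2) (nat_lit 172) (nat_lit 183) (nat_lit 155))) (PT.nd (nat_lit 78) (PT.lf (nat_lit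 20368) (nat_lit 6) (nat_lit 268) (nat_lit 2) (nat_lit 173) (nat_lit 183) (nat_lit 154)) (PT.lf (nat_lit 19152) (nat_lit 6) (nat_lit 252) (nat_lit 2) (nat_lit 174) (nat_lit 183) (nat_lit 153))))) (PT.nd (nat_lit 312) (PT.nd (nat_lit 156) (PT.nd (nat_lit 78) (PT.lf (nat_lit 18468) (nat_lit 6) (nat_lit 243) (nat_lit 2) (nat_lit 175) (nat_lit 183) (nat_lit 152)) (PT.lf (nat_lit 17860) (nat_lit 6) (nat_lit 235) (nat_lit 2) (nat_lit 176) (nat_lit 183) (nat_lit 151))) (PT.nd (nat_lit 78) (PT.lf (nat_lit 17252) (nat_lit 6) (nat_lit 227) (nat_lit 2) (nat_lit 177) (nat_lit 183) (nat_lit 150)) (PT.lf (nat_lit 16720) (nat_lit 6) (nat_lit 220) (nat_lit 2) (nat_lit 178) (nat_lit 183) (nat_lit 149)))) (PT.nd (nat_lit 156) (PT.nd (nat_lit 78) (PT.lf (nat_lit 16188) (nat_lit 6) (nat_lit 213) (nat_lit 2) (nat_lit 179) (nat_lit 183) (nat_lit 148)) (PT.lf (nat_lit 15732) (nat_lit 6) (nat_lit 207) (nat_lit 2) (nat_lit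 180) (nat_lit 183) (nat_lit 147))) (PT.nd (nat_lit 78) (PT.lf (nat_lit 15200) (nat_lit 6) (nat_lit 200) (nat_lit 2) (nat_lit 181) (nat_lit 183) (nat_lit 146)) (PT.lf (nat_lit 14744) (nat_lit 6) (nat_lit 194) (nat_lit 2) (nat_lit 182) (nat_lit 183) (nat_lit 145))))))) (PT.nd (nat_lit 49764) (PT.nd (nat_lit 546) (PT.nd (nat_lit 234) (PT.nd (nat_lit 78) (PT.lf (nat_lit 14288) (nat_lit 3) (nat_lit 188) (nat_lit 0) (nat_lit 183) (nat_lit 183) (nat_lit 144)) (PT.nd (nat_lit 78) (PT.lf (nat_lit 13756) (nat_lit 6) (nat_lit 181) (nat_lit 0) (nat_lit 184) (nat_lit 183) (nat_lit 143)) (PT.lf (nat_lit 13224) (nat_lit 6) (nat_lit 174) (nat_lit 0) (nat_lit 185) (nat_lit 183) (nat_lit 142)))) (PT.nd (nat_lit 156) (PT.nd (nat_lit 78) (PT.lf (nat_lit 12768) (nat_lit 6) (nat_lit 168) (nat_lit 0) (nat_lit 186) (nat_lit 183) (nat_lit 141)) (PT.lf (nat_lit 12312) (nat_lit 6) (nat_lit 162) (nat_lit 0) (nat_lit 187) (nat_lit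 183) (nat_lit 140))) (PT.nd (nat_lit 78) (PT.lf (nat_lit 11856) (nat_lit 6) (nat_lit 156) (nat_lit 0) (nat_lit 188) (nat_lit 183) (nat_lit 139)) (PT.lf (nat_lit 11400) (nat_lit 6) (nat_lit 150) (nat_lit 0) (nat_lit 189) (nat_lit 183) (nat_lit 138))))) (PT.nd (nat_lit 48906) (PT.nd (nat_lit 48750) (PT.nd (nat_lit 78) (PT.lf (nat_lit 11020) (nat_lit 6) (nat_lit 145) (nat_lit 0) (nat_lit 190) (nat_lit 183) (nat_lit 137)) (PT.lf (nat_lit 10564) (nat_lit 6) (nat_lit 139) (nat_lit 0) (nat_lit 191) (nat_lit 183) (nat_lit 136))) (PT.nd (nat_lit 78) (PT.lf (nat_lit 9880) (nat_lit 6) (nat_lit 130) (nat_lit 5) (nat_lit 134) (nat_lit 184) (nat_lit 192)) (PT.lf (nat_lit 10260) (nat_lit 6) (nat_lit 135) (nat_lit 5) (nat_lit 135) (nat_lit 184) (nat_lit 191)))) (PT.nd (nat_lit 156) (PT.nd (nat_lit 78) (PT.lf (nat_lit 10640) (nat_lit 6) (nat_lit 140) (nat_lit 5) (nat_lit 136) (nat_lit 184) (nat_lit 190)) (PT.lf (nat_lit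 11096) (nat_lit 6) (nat_lit 146) (nat_lit 5) (nat_lit 137) (nat_lit 184) (nat_lit 189))) (PT.nd (nat_lit 78) (PT.lf (nat_lit 11476) (nat_lit 6) (nat_lit 151) (nat_lit 5) (nat_lit 138) (nat_lit 184) (nat_lit 188)) (PT.lf (nat_lit 11932) (nat_lit 6) (nat_lit 157) (nat_lit 5) (nat_lit 139) (nat_lit 184) (nat_lit 187)))))) (PT.nd (nat_lit 624) (PT.nd (nat_lit 312) (PT.nd (nat_lit 156) (PT.nd (nat_lit 78) (PT.lf (nat_lit 12388) (nat_lit 6) (nat_lit 163) (nat_lit 5) (nat_lit 140) (nat_lit 184) (nat_lit 186)) (PT.lf (nat_lit 12844) (nat_lit 6) (nat_lit 169) (nat_lit 5) (nat_lit 141) (nat_lit 184) (nat_lit 185))) (PT.nd (nat_lit 78) (PT.lf (nat_lit 13300) (nat_lit 3) (nat_lit 175) (nat_lit 4) (nat_lit 142) (nat_lit 184) (nat_lit 184)) (PT.lf (nat_lit 13756) (nat_lit 6) (nat_lit 181) (nat_lit 4) (nat_lit 143) (nat_lit 184) (nat_lit 183)))) (PT.nd (nat_lit 156) (PT.nd (nat_lit 78) (PT.lf (nat_lit 14212) (nat_lit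 6) (nat_lit 187) (nat_lit 4) (nat_lit 144) (nat_lit 184) (nat_lit 182)) (PT.lf (nat_lit 14668) (nat_lit 6) (nat_lit 193) (nat_lit 4) (nat_lit 145) (nat_lit 184) (nat_lit 181))) (PT.nd (nat_lit 78) (PT.lf (nat_lit 15124) (nat_lit 6) (nat_lit 199) (nat_lit 4) (nat_lit 146) (nat_lit 184) (nat_lit 180)) (PT.lf (nat_lit 15656) (nat_lit 6) (nat_lit 206) (nat_lit 4) (nat_lit 147) (nat_lit 184) (nat_lit 179))))) (PT.nd (nat_lit 312) (PT.nd (nat_lit 156) (PT.nd (nat_lit 78) (PT.lf (nat_lit 16112) (nat_lit 6) (nat_lit 212) (nat_lit 4) (nat_lit 148) (nat_lit 184) (nat_lit 178)) (PT.lf (nat_lit 16644) (nat_lit 6) (nat_lit 219) (nat_lit 4) (nat_lit 149) (nat_lit 184) (nat_lit 177))) (PT.nd (nat_lit 78) (PT.lf (nat_lit 17176) (nat_lit 6) (nat_lit 226) (nat_lit 4) (nat_lit 150) (nat_lit 184) (nat_lit 176)) (PT.lf (nat_lit 17784) (nat_lit 6) (nat_lit 234) (nat_lit 4) (nat_lit 151) (nat_lit 184) (nat_lit 175)))) (PT.nd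 (nat_lit 156) (PT.nd (nat_lit 78) (PT.lf (nat_lit 18392) (nat_lit 6) (nat_lit 242) (nat_lit 4) (nat_lit 152) (nat_lit 184) (nat_lit 174)) (PT.lf (nat_lit 19076) (nat_lit 6) (nat_lit 251) (nat_lit 4) (nat_lit 153) (nat_lit 184) (nat_lit 173))) (PT.nd (nat_lit 78) (PT.lf (nat_lit 20292) (nat_lit 6) (nat_lit 267) (nat_lit 4) (nat_lit 154) (nat_lit 184) (nat_lit 172)) (PT.lf (nat_lit 21432) (nat_lit 6) (nat_lit 282) (nat_lit 4) (nat_lit 155) (nat_lit 184) (nat_lit 171))))))))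
noncomputable def pc23 : PT := (PT.nd (nat_lit 2418) (PT.nd (nat_lit 1170) (PT.nd (nat_lit 546) (PT.nd (nat_lit 234) (PT.nd (nat_lit 78) (PT.lf (nat_lit 22496) (nat_lit 6) (nat_lit 296) (nat_lit 4) (nat_lit 156) (nat_lit 184) (nat_lit 170)) (PT.nd (nat_lit 78) (PT.lf (nat_lit 22420) (nat_lit 6) (nat_lit 295) (nat_lit 4) (nat_lit 157) (nat_lit 184) (nat_lit 169)) (PT.lf (nat_lit 22344) (nat_lit 6) (nat_lit 294) (nat_lit 4) (nat_lit 158) (nat_lit 184) (nat_lit 168)))) (PT.nd (nat_lit 156) (PT.nd (nat_lit 78) (PT.lf (nat_lit 22268) (nat_lit 6) (nat_lit 293) (nat_lit 4) (nat_lit 159) (nat_lit 184) (nat_lit 167)) (PT.lf (nat_lit 22192) (nat_lit 6) (nat_lit 292) (nat_lit 4) (nat_lit 160) (nat_lit 184) (nat_lit 166))) (PT.nd (nat_lit 78) (PT.lf (nat_lit 22116) (nat_lit 6) (nat_lit 291) (nat_lit 4) (nat_lit 161) (nat_lit 184) (nat_lit 165)) (PT.lf (nat_lit 22040) (nat_lit 6) (nat_lit 290) (nat_lit 4) (nat_lit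 162) (nat_lit 184) (nat_lit 164))))) (PT.nd (nat_lit 312) (PT.nd (nat_lit 156) (PT.nd (nat_lit 78) (PT.lf (nat_lit 21964) (nat_lit 3) (nat_lit 289) (nat_lit 2) (nat_lit 163) (nat_lit 184) (nat_lit 163)) (PT.lf (nat_lit 22040) (nat_lit 6) (nat_lit 290) (nat_lit 2) (nat_lit 164) (nat_lit 184) (nat_lit 162))) (PT.nd (nat_lit 78) (PT.lf (nat_lit 22116) (nat_lit 6) (nat_lit 291) (nat_lit 2) (nat_lit 165) (nat_lit 184) (nat_lit 161)) (PT.lf (nat_lit 22192) (nat_lit 6) (nat_lit 292) (nat_lit 2) (nat_lit 166) (nat_lit 184) (nat_lit 160)))) (PT.nd (nat_lit 156) (PT.nd (nat_lit 78) (PT.lf (nat_lit 22268) (nat_lit 6) (nat_lit 293) (nat_lit 2) (nat_lit 167) (nat_lit 184) (nat_lit 159)) (PT.lf (nat_lit 22344) (nat_lit 6) (nat_lit 294) (nat_lit 2) (nat_lit 168) (nat_lit 184) (nat_lit 158))) (PT.nd (nat_lit 78) (PT.lf (nat_lit 22420) (nat_lit 6) (nat_lit 295) (nat_lit 2) (nat_lit 169) (nat_lit 184) (nat_lit 157))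 (PT.lf (nat_lit 22496) (nat_lit 6) (nat_lit 296) (nat_lit 2) (nat_lit 170) (nat_lit 184) (nat_lit 156)))))) (PT.nd (nat_lit 624) (PT.nd (nat_lit 312) (PT.nd (nat_lit 156) (PT.nd (nat_lit 78) (PT.lf (nat_lit 21432) (nat_lit 6) (nat_lit 282) (nat_lit 2) (nat_lit 171) (nat_lit 184) (nat_lit 155)) (PT.lf (nat_lit 20292) (nat_lit 6) (nat_lit 267) (nat_lit 2) (nat_lit 172) (nat_lit 184) (nat_lit 154))) (PT.nd (nat_lit 78) (PT.lf (nat_lit 19076) (nat_lit 6) (nat_lit 251) (nat_lit 2) (nat_lit 173) (nat_lit 184) (nat_lit 153)) (PT.lf (nat_lit 18392) (nat_lit 6) (nat_lit 242) (nat_lit 2) (nat_lit 174) (nat_lit 184) (nat_lit 152)))) (PT.nd (nat_lit 156) (PT.nd (nat_lit 78) (PT.lf (nat_lit 17784) (nat_lit 6) (nat_lit 234) (nat_lit 2) (nat_lit 175) (nat_lit 184) (nat_lit 151)) (PT.lf (nat_lit 17176) (nat_lit 6) (nat_lit 226) (nat_lit 2) (nat_lit 176) (nat_lit 184) (nat_lit 150))) (PT.nd (nat_lit 78) (PT.lf (nat_lit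 16644) (nat_lit 6) (nat_lit 219) (nat_lit 2) (nat_lit 177) (nat_lit 184) (nat_lit 149)) (PT.lf (nat_lit 16112) (nat_lit 6) (nat_lit 212) (nat_lit 2) (nat_lit 178) (nat_lit 184) (nat_lit 148))))) (PT.nd (nat_lit 312) (PT.nd (nat_lit 156) (PT.nd (nat_lit 78) (PT.lf (nat_lit 15656) (nat_lit 6) (nat_lit 206) (nat_lit 2) (nat_lit 179) (nat_lit 184) (nat_lit 147)) (PT.lf (nat_lit 15124) (nat_lit 6) (nat_lit 199) (nat_lit 2) (nat_lit 180) (nat_lit 184) (nat_lit 146))) (PT.nd (nat_lit 78) (PT.lf (nat_lit 14668) (nat_lit 6) (nat_lit 193) (nat_lit 2) (nat_lit 181) (nat_lit 184) (nat_lit 145)) (PT.lf (nat_lit 14212) (nat_lit 6) (nat_lit 187) (nat_lit 2) (nat_lit 182) (nat_lit 184) (nat_lit 144)))) (PT.nd (nat_lit 156) (PT.nd (nat_lit 78) (PT.lf (nat_lit 13756) (nat_lit 6) (nat_lit 181) (nat_lit 2) (nat_lit 183) (nat_lit 184) (nat_lit 143)) (PT.lf (nat_lit 13300) (nat_lit 3) (nat_lit 175) (nat_lit 0) (nat_lit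 184) (nat_lit 184) (nat_lit 142))) (PT.nd (nat_lit 78) (PT.lf (nat_lit 12844) (nat_lit 6) (nat_lit 169) (nat_lit 0) (nat_lit 185) (nat_lit 184) (nat_lit 141)) (PT.lf (nat_lit 12388) (nat_lit 6) (nat_lit 163) (nat_lit 0) (nat_lit 186) (nat_lit 184) (nat_lit 140))))))) (PT.nd (nat_lit 49686) (PT.nd (nat_lit 49062) (PT.nd (nat_lit 312) (PT.nd (nat_lit 156) (PT.nd (nat_lit 78) (PT.lf (nat_lit 11932) (nat_lit 6) (nat_lit 157) (nat_lit 0) (nat_lit 187) (nat_lit 184) (nat_lit 139)) (PT.lf (nat_lit 11476) (nat_lit 6) (nat_lit 151) (nat_lit 0) (nat_lit 188) (nat_lit 184) (nat_lit 138))) (PT.nd (nat_lit 78) (PT.lf (nat_lit 11096) (nat_lit 6) (nat_lit 146) (nat_lit 0) (nat_lit 189) (nat_lit 184) (nat_lit 137)) (PT.lf (nat_lit 10640) (nat_lit 6) (nat_lit 140) (nat_lit 0) (nat_lit 190) (nat_lit 184) (nat_lit 136)))) (PT.nd (nat_lit 48594) (PT.nd (nat_lit 78) (PT.lf (nat_lit 10260) (nat_lit 6) (nat_lit 135) (nat_lit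 0) (nat_lit 191) (nat_lit 184) (nat_lit 135)) (PT.lf (nat_lit 9880) (nat_lit 6) (nat_lit 130) (nat_lit 0) (nat_lit 192) (nat_lit 184) (nat_lit 134))) (PT.nd (nat_lit 78) (PT.lf (nat_lit 9576) (nat_lit 6) (nat_lit 126) (nat_lit 5) (nat_lit 133) (nat_lit 185) (nat_lit 192)) (PT.lf (nat_lit 9956) (nat_lit 6) (nat_lit 131) (nat_lit 5) (nat_lit 134) (nat_lit 185) (nat_lit 191))))) (PT.nd (nat_lit 312) (PT.nd (nat_lit 156) (PT.nd (nat_lit 78) (PT.lf (nat_lit 10336) (nat_lit 6) (nat_lit 136) (nat_lit 5) (nat_lit 135) (nat_lit 185) (nat_lit 190)) (PT.lf (nat_lit 10716) (nat_lit 6) (nat_lit 141) (nat_lit 5) (nat_lit 136) (nat_lit 185) (nat_lit 189))) (PT.nd (nat_lit 78) (PT.lf (nat_lit 11172) (nat_lit 6) (nat_lit 147) (nat_lit 5) (nat_lit 137) (nat_lit 185) (nat_lit 188)) (PT.lf (nat_lit 11552) (nat_lit 6) (nat_lit 152) (nat_lit 5) (nat_lit 138) (nat_lit 185) (nat_lit 187)))) (PT.nd (nat_lit 156) (PT.nd (nat_lit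 78) (PT.lf (nat_lit 12008) (nat_lit 6) (nat_lit 158) (nat_lit 5) (nat_lit 139) (nat_lit 185) (nat_lit 186)) (PT.lf (nat_lit 12464) (nat_lit 3) (nat_lit 164) (nat_lit 4) (nat_lit 140) (nat_lit 185) (nat_lit 185))) (PT.nd (nat_lit 78) (PT.lf (nat_lit 12844) (nat_lit 6) (nat_lit 169) (nat_lit 4) (nat_lit 141) (nat_lit 185) (nat_lit 184)) (PT.lf (nat_lit 13224) (nat_lit 6) (nat_lit 174) (nat_lit 4) (nat_lit 142) (nat_lit 185) (nat_lit 183)))))) (PT.nd (nat_lit 624) (PT.nd (nat_lit 312) (PT.nd (nat_lit 156) (PT.nd (nat_lit 78) (PT.lf (nat_lit 13680) (nat_lit 6) (nat_lit 180) (nat_lit 4) (nat_lit 143) (nat_lit 185) (nat_lit 182)) (PT.lf (nat_lit 14136) (nat_lit 6) (nat_lit 186) (nat_lit 4) (nat_lit 144) (nat_lit 185) (nat_lit 181))) (PT.nd (nat_lit 78) (PT.lf (nat_lit 14592) (nat_lit 6) (nat_lit 192) (nat_lit 4) (nat_lit 145) (nat_lit 185) (nat_lit 180)) (PT.lf (nat_lit 15048) (nat_lit 6) (nat_lit 198) (nat_lit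 4) (nat_lit 146) (nat_lit 185) (nat_lit 179)))) (PT.nd (nat_lit 156) (PT.nd (nat_lit 78) (PT.lf (nat_lit 15580) (nat_lit 6) (nat_lit 205) (nat_lit 4) (nat_lit 147) (nat_lit 185) (nat_lit 178)) (PT.lf (nat_lit 16036) (nat_lit 6) (nat_lit 211) (nat_lit 4) (nat_lit 148) (nat_lit 185) (nat_lit 177))) (PT.nd (nat_lit 78) (PT.lf (nat_lit 16568) (nat_lit 6) (nat_lit 218) (nat_lit 4) (nat_lit 149) (nat_lit 185) (nat_lit 176)) (PT.lf (nat_lit 17100) (nat_lit 6) (nat_lit 225) (nat_lit 4) (nat_lit 150) (nat_lit 185) (nat_lit 175))))) (PT.nd (nat_lit 312) (PT.nd (nat_lit 156) (PT.nd (nat_lit 78) (PT.lf (nat_lit 17708) (nat_lit 6) (nat_lit 233) (nat_lit 4) (nat_lit 151) (nat_lit 185) (nat_lit 174)) (PT.lf (nat_lit 18316) (nat_lit 6) (nat_lit 241) (nat_lit 4) (nat_lit 152) (nat_lit 185) (nat_lit 173))) (PT.nd (nat_lit 78) (PT.lf (nat_lit 19000) (nat_lit 6) (nat_lit 250) (nat_lit 4) (nat_lit 153) (nat_lit 185) (nat_lit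 172)) (PT.lf (nat_lit 20216) (nat_lit 6) (nat_lit 266) (nat_lit 4) (nat_lit 154) (nat_lit 185) (nat_lit 171)))) (PT.nd (nat_lit 156) (PT.nd (nat_lit 78) (PT.lf (nat_lit 21356) (nat_lit 6) (nat_lit 281) (nat_lit 4) (nat_lit 155) (nat_lit 185) (nat_lit 170)) (PT.lf (nat_lit 21280) (nat_lit 6) (nat_lit 280) (nat_lit 4) (nat_lit 156) (nat_lit 185) (nat_lit 169))) (PT.nd (nat_lit 78) (PT.lf (nat_lit 21204) (nat_lit 6) (nat_lit 279) (nat_lit 4) (nat_lit 157) (nat_lit 185) (nat_lit 168)) (PT.lf (nat_lit 21128) (nat_lit 6) (nat_lit 278) (nat_lit 4) (nat_lit 158) (nat_lit 185) (nat_lit 167))))))))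
noncomputable def pc24 : PT := (PT.nd (nat_lit 2418) (PT.nd (nat_lit 1170) (PT.nd (nat_lit 546) (PT.nd (nat_lit 234) (PT.nd (nat_lit 78) (PT.lf (nat_lit 21052) (nat_lit 6) (nat_lit 277) (nat_lit 4) (nat_lit 159) (nat_lit 185) (nat_lit 166)) (PT.nd (nat_lit 78) (PT.lf (nat_lit 20976) (nat_lit 6) (nat_lit 276) (nat_lit 4) (nat_lit 160) (nat_lit 185) (nat_lit 165)) (PT.lf (nat_lit 20900) (nat_lit 6) (nat_lit 275) (nat_lit 4) (nat_lit 161) (nat_lit 185) (nat_lit 164)))) (PT.nd (nat_lit 156) (PT.nd (nat_lit 78) (PT.lf (nat_lit 20824) (nat_lit 6) (nat_lit 274) (nat_lit 4) (nat_lit 162) (nat_lit 185) (nat_lit 163)) (PT.lf (nat_lit 20824) (nat_lit 6) (nat_lit 274) (nat_lit 2) (nat_lit 163) (nat_lit 185) (nat_lit 162))) (PT.nd (nat_lit 78) (PT.lf (nat_lit 20900) (nat_lit 6) (nat_lit 275) (nat_lit 2) (nat_lit 164) (nat_lit 185) (nat_lit 161)) (PT.lf (nat_lit 20976) (nat_lit 6) (nat_lit 276) (nat_lit 2) (nat_lit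 165) (nat_lit 185) (nat_lit 160))))) (PT.nd (nat_lit 312) (PT.nd (nat_lit 156) (PT.nd (nat_lit 78) (PT.lf (nat_lit 21052) (nat_lit 6) (nat_lit 277) (nat_lit 2) (nat_lit 166) (nat_lit 185) (nat_lit 159)) (PT.lf (nat_lit 21128) (nat_lit 6) (nat_lit 278) (nat_lit 2) (nat_lit 167) (nat_lit 185) (nat_lit 158))) (PT.nd (nat_lit 78) (PT.lf (nat_lit 21204) (nat_lit 6) (nat_lit 279) (nat_lit 2) (nat_lit 168) (nat_lit 185) (nat_lit 157)) (PT.lf (nat_lit 21280) (nat_lit 6) (nat_lit 280) (nat_lit 2) (nat_lit 169) (nat_lit 185) (nat_lit 156)))) (PT.nd (nat_lit 156) (PT.nd (nat_lit 78) (PT.lf (nat_lit 21356) (nat_lit 6) (nat_lit 281) (nat_lit 2) (nat_lit 170) (nat_lit 185) (nat_lit 155)) (PT.lf (nat_lit 20216) (nat_lit 6) (nat_lit 266) (nat_lit 2) (nat_lit 171) (nat_lit 185) (nat_lit 154))) (PT.nd (nat_lit 78) (PT.lf (nat_lit 19000) (nat_lit 6) (nat_lit 250) (nat_lit 2) (nat_lit 172) (nat_lit 185) (nat_lit 153))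 (PT.lf (nat_lit 18316) (nat_lit 6) (nat_lit 241) (nat_lit 2) (nat_lit 173) (nat_lit 185) (nat_lit 152)))))) (PT.nd (nat_lit 624) (PT.nd (nat_lit 312) (PT.nd (nat_lit 156) (PT.nd (nat_lit 78) (PT.lf (nat_lit 17708) (nat_lit 6) (nat_lit 233) (nat_lit 2) (nat_lit 174) (nat_lit 185) (nat_lit 151)) (PT.lf (nat_lit 17100) (nat_lit 6) (nat_lit 225) (nat_lit 2) (nat_lit 175) (nat_lit 185) (nat_lit 150))) (PT.nd (nat_lit 78) (PT.lf (nat_lit 16568) (nat_lit 6) (nat_lit 218) (nat_lit 2) (nat_lit 176) (nat_lit 185) (nat_lit 149)) (PT.lf (nat_lit 16036) (nat_lit 6) (nat_lit 211) (nat_lit 2) (nat_lit 177) (nat_lit 185) (nat_lit 148)))) (PT.nd (nat_lit 156) (PT.nd (nat_lit 78) (PT.lf (nat_lit 15580) (nat_lit 6) (nat_lit 205) (nat_lit 2) (nat_lit 178) (nat_lit 185) (nat_lit 147)) (PT.lf (nat_lit 15048) (nat_lit 6) (nat_lit 198) (nat_lit 2) (nat_lit 179) (nat_lit 185) (nat_lit 146))) (PT.nd (nat_lit 78) (PT.lf (nat_lit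 14592) (nat_lit 6) (nat_lit 192) (nat_lit 2) (nat_lit 180) (nat_lit 185) (nat_lit 145)) (PT.lf (nat_lit 14136) (nat_lit 6) (nat_lit 186) (nat_lit 2) (nat_lit 181) (nat_lit 185) (nat_lit 144))))) (PT.nd (nat_lit 312) (PT.nd (nat_lit 156) (PT.nd (nat_lit 78) (PT.lf (nat_lit 13680) (nat_lit 6) (nat_lit 180) (nat_lit 2) (nat_lit 182) (nat_lit 185) (nat_lit 143)) (PT.lf (nat_lit 13224) (nat_lit 6) (nat_lit 174) (nat_lit 2) (nat_lit 183) (nat_lit 185) (nat_lit 142))) (PT.nd (nat_lit 78) (PT.lf (nat_lit 12844) (nat_lit 6) (nat_lit 169) (nat_lit 2) (nat_lit 184) (nat_lit 185) (nat_lit 141)) (PT.lf (nat_lit 12464) (nat_lit 3) (nat_lit 164) (nat_lit 0) (nat_lit 185) (nat_lit 185) (nat_lit 140)))) (PT.nd (nat_lit 156) (PT.nd (nat_lit 78) (PT.lf (nat_lit 12008) (nat_lit 6) (nat_lit 158) (nat_lit 0) (nat_lit 186) (nat_lit 185) (nat_lit 139)) (PT.lf (nat_lit 11552) (nat_lit 6) (nat_lit 152) (nat_lit 0) (nat_lit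 187) (nat_lit 185) (nat_lit 138))) (PT.nd (nat_lit 78) (PT.lf (nat_lit 11172) (nat_lit 6) (nat_lit 147) (nat_lit 0) (nat_lit 188) (nat_lit 185) (nat_lit 137)) (PT.lf (nat_lit 10716) (nat_lit 6) (nat_lit 141) (nat_lit 0) (nat_lit 189) (nat_lit 185) (nat_lit 136))))))) (PT.nd (nat_lit 49452) (PT.nd (nat_lit 48828) (PT.nd (nat_lit 48516) (PT.nd (nat_lit 78) (PT.lf (nat_lit 10336) (nat_lit 6) (nat_lit 136) (nat_lit 0) (nat_lit 190) (nat_lit 185) (nat_lit 135)) (PT.nd (nat_lit 78) (PT.lf (nat_lit 9956) (nat_lit 6) (nat_lit 131) (nat_lit 0) (nat_lit 191) (nat_lit 185) (nat_lit 134)) (PT.lf (nat_lit 9576) (nat_lit 6) (nat_lit 126) (nat_lit 0) (nat_lit 192) (nat_lit 185) (nat_lit 133)))) (PT.nd (nat_lit 156) (PT.nd (nat_lit 78) (PT.lf (nat_lit 8968) (nat_lit 6) (nat_lit 118) (nat_lit 5) (nat_lit 131) (nat_lit 186) (nat_lit 193)) (PT.lf (nat_lit 9272) (nat_lit 6) (nat_lit 122) (nat_lit 5) (nat_lit 132) (nat_lit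 186) (nat_lit 192))) (PT.nd (nat_lit 78) (PT.lf (nat_lit 9652) (nat_lit 6) (nat_lit 127) (nat_lit 5) (nat_lit 133) (nat_lit 186) (nat_lit 191)) (PT.lf (nat_lit 10032) (nat_lit 6) (nat_lit 132) (nat_lit 5) (nat_lit 134) (nat_lit 186) (nat_lit 190))))) (PT.nd (nat_lit 312) (PT.nd (nat_lit 156) (PT.nd (nat_lit 78) (PT.lf (nat_lit 10412) (nat_lit 6) (nat_lit 137) (nat_lit 5) (nat_lit 135) (nat_lit 186) (nat_lit 189)) (PT.lf (nat_lit 10792) (nat_lit 6) (nat_lit 142) (nat_lit 5) (nat_lit 136) (nat_lit 186) (nat_lit 188))) (PT.nd (nat_lit 78) (PT.lf (nat_lit 11248) (nat_lit 6) (nat_lit 148) (nat_lit 5) (nat_lit 137) (nat_lit 186) (nat_lit 187)) (PT.lf (nat_lit 11628) (nat_lit 3) (nat_lit 153) (nat_lit 4) (nat_lit 138) (nat_lit 186) (nat_lit 186)))) (PT.nd (nat_lit 156) (PT.nd (nat_lit 78) (PT.lf (nat_lit 12008) (nat_lit 6) (nat_lit 158) (nat_lit 4) (nat_lit 139) (nat_lit 186) (nat_lit 185)) (PT.lf (nat_lit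 12388) (nat_lit 6) (nat_lit 163) (nat_lit 4) (nat_lit 140) (nat_lit 186) (nat_lit 184))) (PT.nd (nat_lit 78) (PT.lf (nat_lit 12768) (nat_lit 6) (nat_lit 168) (nat_lit 4) (nat_lit 141) (nat_lit 186) (nat_lit 183)) (PT.lf (nat_lit 13148) (nat_lit 6) (nat_lit 173) (nat_lit 4) (nat_lit 142) (nat_lit 186) (nat_lit 182)))))) (PT.nd (nat_lit 624) (PT.nd (nat_lit 312) (PT.nd (nat_lit 156) (PT.nd (nat_lit 78) (PT.lf (nat_lit 13604) (nat_lit 6) (nat_lit 179) (nat_lit 4) (nat_lit 143) (nat_lit 186) (nat_lit 181)) (PT.lf (nat_lit 14060) (nat_lit 6) (nat_lit 185) (nat_lit 4) (nat_lit 144) (nat_lit 186) (nat_lit 180))) (PT.nd (nat_lit 78) (PT.lf (nat_lit 14516) (nat_lit 6) (nat_lit 191) (nat_lit 4) (nat_lit 145) (nat_lit 186) (nat_lit 179)) (PT.lf (nat_lit 14972) (nat_lit 6) (nat_lit 197) (nat_lit 4) (nat_lit 146) (nat_lit 186) (nat_lit 178)))) (PT.nd (nat_lit 156) (PT.nd (nat_lit 78) (PT.lf (nat_lit 15504) (nat_lit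 6) (nat_lit 204) (nat_lit 4) (nat_lit 147) (nat_lit 186) (nat_lit 177)) (PT.lf (nat_lit 15960) (nat_lit 6) (nat_lit 210) (nat_lit 4) (nat_lit 148) (nat_lit 186) (nat_lit 176))) (PT.nd (nat_lit 78) (PT.lf (nat_lit 16492) (nat_lit 6) (nat_lit 217) (nat_lit 4) (nat_lit 149) (nat_lit 186) (nat_lit 175)) (PT.lf (nat_lit 17024) (nat_lit 6) (nat_lit 224) (nat_lit 4) (nat_lit 150) (nat_lit 186) (nat_lit 174))))) (PT.nd (nat_lit 312) (PT.nd (nat_lit 156) (PT.nd (nat_lit 78) (PT.lf (nat_lit 17632) (nat_lit 6) (nat_lit 232) (nat_lit 4) (nat_lit 151) (nat_lit 186) (nat_lit 173)) (PT.lf (nat_lit 18240) (nat_lit 6) (nat_lit 240) (nat_lit 4) (nat_lit 152) (nat_lit 186) (nat_lit 172))) (PT.nd (nat_lit 78) (PT.lf (nat_lit 18924) (nat_lit 6) (nat_lit 249) (nat_lit 4) (nat_lit 153) (nat_lit 186) (nat_lit 171)) (PT.lf (nat_lit 20140) (nat_lit 6) (nat_lit 265) (nat_lit 4) (nat_lit 154) (nat_lit 186) (nat_lit 170)))) (PT.nd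 (nat_lit 156) (PT.nd (nat_lit 78) (PT.lf (nat_lit 20064) (nat_lit 6) (nat_lit 264) (nat_lit 4) (nat_lit 155) (nat_lit 186) (nat_lit 169)) (PT.lf (nat_lit 19988) (nat_lit 6) (nat_lit 263) (nat_lit 4) (nat_lit 156) (nat_lit 186) (nat_lit 168))) (PT.nd (nat_lit 78) (PT.lf (nat_lit 19912) (nat_lit 6) (nat_lit 262) (nat_lit 4) (nat_lit 157) (nat_lit 186) (nat_lit 167)) (PT.lf (nat_lit 19836) (nat_lit 6) (nat_lit 261) (nat_lit 4) (nat_lit 158) (nat_lit 186) (nat_lit 166))))))))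
noncomputable def pc25 : PT := (PT.nd (nat_lit 2418) (PT.nd (nat_lit 1170) (PT.nd (nat_lit 546) (PT.nd (nat_lit 234) (PT.nd (nat_lit 78) (PT.lf (nat_lit 19760) (nat_lit 6) (nat_lit 260) (nat_lit 4) (nat_lit 159) (nat_lit 186) (nat_lit 165)) (PT.nd (nat_lit 78) (PT.lf (nat_lit 19684) (nat_lit 6) (nat_lit 259) (nat_lit 4) (nat_lit 160) (nat_lit 186) (nat_lit 164)) (PT.lf (nat_lit 19608) (nat_lit 6) (nat_lit 258) (nat_lit 4) (nat_lit 161) (nat_lit 186) (nat_lit 163)))) (PT.nd (nat_lit 156) (PT.nd (nat_lit 78) (PT.lf (nat_lit 19532) (nat_lit 3) (nat_lit 257) (nat_lit 2) (nat_lit 162) (nat_lit 186) (nat_lit 162)) (PT.lf (nat_lit 19608) (nat_lit 6) (nat_lit 258) (nat_lit 2) (nat_lit 163) (nat_lit 186) (nat_lit 161))) (PT.nd (nat_lit 78) (PT.lf (nat_lit 19684) (nat_lit 6) (nat_lit 259) (nat_lit 2) (nat_lit 164) (nat_lit 186) (nat_lit 160)) (PT.lf (nat_lit 19760) (nat_lit 6) (nat_lit 260) (nat_lit 2) (nat_lit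 165) (nat_lit 186) (nat_lit 159))))) (PT.nd (nat_lit 312) (PT.nd (nat_lit 156) (PT.nd (nat_lit 78) (PT.lf (nat_lit 19836) (nat_lit 6) (nat_lit 261) (nat_lit 2) (nat_lit 166) (nat_lit 186) (nat_lit 158)) (PT.lf (nat_lit 19912) (nat_lit 6) (nat_lit 262) (nat_lit 2) (nat_lit 167) (nat_lit 186) (nat_lit 157))) (PT.nd (nat_lit 78) (PT.lf (nat_lit 19988) (nat_lit 6) (nat_lit 263) (nat_lit 2) (nat_lit 168) (nat_lit 186) (nat_lit 156)) (PT.lf (nat_lit 20064) (nat_lit 6) (nat_lit 264) (nat_lit 2) (nat_lit 169) (nat_lit 186) (nat_lit 155)))) (PT.nd (nat_lit 156) (PT.nd (nat_lit 78) (PT.lf (nat_lit 20140) (nat_lit 6) (nat_lit 265) (nat_lit 2) (nat_lit 170) (nat_lit 186) (nat_lit 154)) (PT.lf (nat_lit 18924) (nat_lit 6) (nat_lit 249) (nat_lit 2) (nat_lit 171) (nat_lit 186) (nat_lit 153))) (PT.nd (nat_lit 78) (PT.lf (nat_lit 18240) (nat_lit 6) (nat_lit 240) (nat_lit 2) (nat_lit 172) (nat_lit 186) (nat_lit 152))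 (PT.lf (nat_lit 17632) (nat_lit 6) (nat_lit 232) (nat_lit 2) (nat_lit 173) (nat_lit 186) (nat_lit 151)))))) (PT.nd (nat_lit 624) (PT.nd (nat_lit 312) (PT.nd (nat_lit 156) (PT.nd (nat_lit 78) (PT.lf (nat_lit 17024) (nat_lit 6) (nat_lit 224) (nat_lit 2) (nat_lit 174) (nat_lit 186) (nat_lit 150)) (PT.lf (nat_lit 16492) (nat_lit 6) (nat_lit 217) (nat_lit 2) (nat_lit 175) (nat_lit 186) (nat_lit 149))) (PT.nd (nat_lit 78) (PT.lf (nat_lit 15960) (nat_lit 6) (nat_lit 210) (nat_lit 2) (nat_lit 176) (nat_lit 186) (nat_lit 148)) (PT.lf (nat_lit 15504) (nat_lit 6) (nat_lit 204) (nat_lit 2) (nat_lit 177) (nat_lit 186) (nat_lit 147)))) (PT.nd (nat_lit 156) (PT.nd (nat_lit 78) (PT.lf (nat_lit 14972) (nat_lit 6) (nat_lit 197) (nat_lit 2) (nat_lit 178) (nat_lit 186) (nat_lit 146)) (PT.lf (nat_lit 14516) (nat_lit 6) (nat_lit 191) (nat_lit 2) (nat_lit 179) (nat_lit 186) (nat_lit 145))) (PT.nd (nat_lit 78) (PT.lf (nat_lit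 14060) (nat_lit 6) (nat_lit 185) (nat_lit 2) (nat_lit 180) (nat_lit 186) (nat_lit 144)) (PT.lf (nat_lit 13604) (nat_lit 6) (nat_lit 179) (nat_lit 2) (nat_lit 181) (nat_lit 186) (nat_lit 143))))) (PT.nd (nat_lit 312) (PT.nd (nat_lit 156) (PT.nd (nat_lit 78) (PT.lf (nat_lit 13148) (nat_lit 6) (nat_lit 173) (nat_lit 2) (nat_lit 182) (nat_lit 186) (nat_lit 142)) (PT.lf (nat_lit 12768) (nat_lit 6) (nat_lit 168) (nat_lit 2) (nat_lit 183) (nat_lit 186) (nat_lit 141))) (PT.nd (nat_lit 78) (PT.lf (nat_lit 12388) (nat_lit 6) (nat_lit 163) (nat_lit 2) (nat_lit 184) (nat_lit 186) (nat_lit 140)) (PT.lf (nat_lit 12008) (nat_lit 6) (nat_lit 158) (nat_lit 2) (nat_lit 185) (nat_lit 186) (nat_lit 139)))) (PT.nd (nat_lit 156) (PT.nd (nat_lit 78) (PT.lf (nat_lit 11628) (nat_lit 3) (nat_lit 153) (nat_lit 0) (nat_lit 186) (nat_lit 186) (nat_lit 138)) (PT.lf (nat_lit 11248) (nat_lit 6) (nat_lit 148) (nat_lit 0) (nat_lit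 187) (nat_lit 186) (nat_lit 137))) (PT.nd (nat_lit 78) (PT.lf (nat_lit 10792) (nat_lit 6) (nat_lit 142) (nat_lit 0) (nat_lit 188) (nat_lit 186) (nat_lit 136)) (PT.lf (nat_lit 10412) (nat_lit 6) (nat_lit 137) (nat_lit 0) (nat_lit 189) (nat_lit 186) (nat_lit 135))))))) (PT.nd (nat_lit 49296) (PT.nd (nat_lit 48672) (PT.nd (nat_lit 234) (PT.nd (nat_lit 78) (PT.lf (nat_lit 10032) (nat_lit 6) (nat_lit 132) (nat_lit 0) (nat_lit 190) (nat_lit 186) (nat_lit 134)) (PT.nd (nat_lit 78) (PT.lf (nat_lit 9652) (nat_lit 6) (nat_lit 127) (nat_lit 0) (nat_lit 191) (nat_lit 186) (nat_lit 133)) (PT.lf (nat_lit 9272) (nat_lit 6) (nat_lit 122) (nat_lit 0) (nat_lit 192) (nat_lit 186) (nat_lit 132)))) (PT.nd (nat_lit 48282) (PT.nd (nat_lit 48204) (PT.lf (nat_lit 8968) (nat_lit 6) (nat_lit 118) (nat_lit 0) (nat_lit 193) (nat_lit 186) (nat_lit 131)) (PT.lf (nat_lit 8664) (nat_lit 6) (nat_lit 114) (nat_lit 5) (nat_lit 130) (nat_lit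 187) (nat_lit 193))) (PT.nd (nat_lit 78) (PT.lf (nat_lit 9044) (nat_lit 6) (nat_lit 119) (nat_lit 5) (nat_lit 131) (nat_lit 187) (nat_lit 192)) (PT.lf (nat_lit 9348) (nat_lit 6) (nat_lit 123) (nat_lit 5) (nat_lit 132) (nat_lit 187) (nat_lit 191))))) (PT.nd (nat_lit 312) (PT.nd (nat_lit 156) (PT.nd (nat_lit 78) (PT.lf (nat_lit 9728) (nat_lit 6) (nat_lit 128) (nat_lit 5) (nat_lit 133) (nat_lit 187) (nat_lit 190)) (PT.lf (nat_lit 10108) (nat_lit 6) (nat_lit 133) (nat_lit 5) (nat_lit 134) (nat_lit 187) (nat_lit 189))) (PT.nd (nat_lit 78) (PT.lf (nat_lit 10488) (nat_lit 6) (nat_lit 138) (nat_lit 5) (nat_lit 135) (nat_lit 187) (nat_lit 188)) (PT.lf (nat_lit 10868) (nat_lit 3) (nat_lit 143) (nat_lit 4) (nat_lit 136) (nat_lit 187) (nat_lit 187)))) (PT.nd (nat_lit 156) (PT.nd (nat_lit 78) (PT.lf (nat_lit 11248) (nat_lit 6) (nat_lit 148) (nat_lit 4) (nat_lit 137) (nat_lit 187) (nat_lit 186)) (PT.lf (nat_lit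 11552) (nat_lit 6) (nat_lit 152) (nat_lit 4) (nat_lit 138) (nat_lit 187) (nat_lit 185))) (PT.nd (nat_lit 78) (PT.lf (nat_lit 11932) (nat_lit 6) (nat_lit 157) (nat_lit 4) (nat_lit 139) (nat_lit 187) (nat_lit 184)) (PT.lf (nat_lit 12312) (nat_lit 6) (nat_lit 162) (nat_lit 4) (nat_lit 140) (nat_lit 187) (nat_lit 183)))))) (PT.nd (nat_lit 624) (PT.nd (nat_lit 312) (PT.nd (nat_lit 156) (PT.nd (nat_lit 78) (PT.lf (nat_lit 12692) (nat_lit 6) (nat_lit 167) (nat_lit 4) (nat_lit 141) (nat_lit 187) (nat_lit 182)) (PT.lf (nat_lit 13072) (nat_lit 6) (nat_lit 172) (nat_lit 4) (nat_lit 142) (nat_lit 187) (nat_lit 181))) (PT.nd (nat_lit 78) (PT.lf (nat_lit 13528) (nat_lit 6) (nat_lit 178) (nat_lit 4) (nat_lit 143) (nat_lit 187) (nat_lit 180)) (PT.lf (nat_lit 13984) (nat_lit 6) (nat_lit 184) (nat_lit 4) (nat_lit 144) (nat_lit 187) (nat_lit 179)))) (PT.nd (nat_lit 156) (PT.nd (nat_lit 78) (PT.lf (nat_lit 14440) (nat_lit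 6) (nat_lit 190) (nat_lit 4) (nat_lit 145) (nat_lit 187) (nat_lit 178)) (PT.lf (nat_lit 14896) (nat_lit 6) (nat_lit 196) (nat_lit 4) (nat_lit 146) (nat_lit 187) (nat_lit 177))) (PT.nd (nat_lit 78) (PT.lf (nat_lit 15428) (nat_lit 6) (nat_lit 203) (nat_lit 4) (nat_lit 147) (nat_lit 187) (nat_lit 176)) (PT.lf (nat_lit 15884) (nat_lit 6) (nat_lit 209) (nat_lit 4) (nat_lit 148) (nat_lit 187) (nat_lit 175))))) (PT.nd (nat_lit 312) (PT.nd (nat_lit 156) (PT.nd (nat_lit 78) (PT.lf (nat_lit 16416) (nat_lit 6) (nat_lit 216) (nat_lit 4) (nat_lit 149) (nat_lit 187) (nat_lit 174)) (PT.lf (nat_lit 16948) (nat_lit 6) (nat_lit 223) (nat_lit 4) (nat_lit 150) (nat_lit 187) (nat_lit 173))) (PT.nd (nat_lit 78) (PT.lf (nat_lit 17556) (nat_lit 6) (nat_lit 231) (nat_lit 4) (nat_lit 151) (nat_lit 187) (nat_lit 172)) (PT.lf (nat_lit 18164) (nat_lit 6) (nat_lit 239) (nat_lit 4) (nat_lit 152) (nat_lit 187) (nat_lit 171)))) (PT.nd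 (nat_lit 1404) (PT.nd (nat_lit 1326) (PT.lf (nat_lit 18848) (nat_lit 6) (nat_lit 248) (nat_lit 4) (nat_lit 153) (nat_lit 187) (nat_lit 170)) (PT.lf (nat_lit 18848) (nat_lit 6) (nat_lit 248) (nat_lit 2) (nat_lit 170) (nat_lit 187) (nat_lit 153))) (PT.nd (nat_lit 78) (PT.lf (nat_lit 18164) (nat_lit 6) (nat_lit 239) (nat_lit 2) (nat_lit 171) (nat_lit 187) (nat_lit 152)) (PT.lf (nat_lit 17556) (nat_lit 6) (nat_lit 231) (nat_lit 2) (nat_lit 172) (nat_lit 187) (nat_lit 151))))))))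
noncomputable def pc26 : PT := (PT.nd (nat_lit 50388) (PT.nd (nat_lit 1170) (PT.nd (nat_lit 546) (PT.nd (nat_lit 234) (PT.nd (nat_lit 78) (PT.lf (nat_lit 16948) (nat_lit 6) (nat_lit 223) (nat_lit 2) (nat_lit 173) (nat_lit 187) (nat_lit 150)) (PT.nd (nat_lit 78) (PT.lf (nat_lit 16416) (nat_lit 6) (nat_lit 216) (nat_lit 2) (nat_lit 174) (nat_lit 187) (nat_lit 149)) (PT.lf (nat_lit 15884) (nat_lit 6) (nat_lit 209) (nat_lit 2) (nat_lit 175) (nat_lit 187) (nat_lit 148)))) (PT.nd (nat_lit 156) (PT.nd (nat_lit 78) (PT.lf (nat_lit 15428) (nat_lit 6) (nat_lit 203) (nat_lit 2) (nat_lit 176) (nat_lit 187) (nat_lit 147)) (PT.lf (nat_lit 14896) (nat_lit 6) (nat_lit 196) (nat_lit 2) (nat_lit 177) (nat_lit 187) (nat_lit 146))) (PT.nd (nat_lit 78) (PT.lf (nat_lit 14440) (nat_lit 6) (nat_lit 190) (nat_lit 2) (nat_lit 178) (nat_lit 187) (nat_lit 145)) (PT.lf (nat_lit 13984) (nat_lit 6) (nat_lit 184) (nat_lit 2) (nat_lit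 179) (nat_lit 187) (nat_lit 144))))) (PT.nd (nat_lit 312) (PT.nd (nat_lit 156) (PT.nd (nat_lit 78) (PT.lf (nat_lit 13528) (nat_lit 6) (nat_lit 178) (nat_lit 2) (nat_lit 180) (nat_lit 187) (nat_lit 143)) (PT.lf (nat_lit 13072) (nat_lit 6) (nat_lit 172) (nat_lit 2) (nat_lit 181) (nat_lit 187) (nat_lit 142))) (PT.nd (nat_lit 78) (PT.lf (nat_lit 12692) (nat_lit 6) (nat_lit 167) (nat_lit 2) (nat_lit 182) (nat_lit 187) (nat_lit 141)) (PT.lf (nat_lit 12312) (nat_lit 6) (nat_lit 162) (nat_lit 2) (nat_lit 183) (nat_lit 187) (nat_lit 140)))) (PT.nd (nat_lit 156) (PT.nd (nat_lit 78) (PT.lf (nat_lit 11932) (nat_lit 6) (nat_lit 157) (nat_lit 2) (nat_lit 184) (nat_lit 187) (nat_lit 139)) (PT.lf (nat_lit 11552) (nat_lit 6) (nat_lit 152) (nat_lit 2) (nat_lit 185) (nat_lit 187) (nat_lit 138))) (PT.nd (nat_lit 78) (PT.lf (nat_lit 11248) (nat_lit 6) (nat_lit 148) (nat_lit 2) (nat_lit 186) (nat_lit 187) (nat_lit 137))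 (PT.lf (nat_lit 10868) (nat_lit 3) (nat_lit 143) (nat_lit 0) (nat_lit 187) (nat_lit 187) (nat_lit 136)))))) (PT.nd (nat_lit 48594) (PT.nd (nat_lit 312) (PT.nd (nat_lit 156) (PT.nd (nat_lit 78) (PT.lf (nat_lit 10488) (nat_lit 6) (nat_lit 138) (nat_lit 0) (nat_lit 188) (nat_lit 187) (nat_lit 135)) (PT.lf (nat_lit 10108) (nat_lit 6) (nat_lit 133) (nat_lit 0) (nat_lit 189) (nat_lit 187) (nat_lit 134))) (PT.nd (nat_lit 78) (PT.lf (nat_lit 9728) (nat_lit 6) (nat_lit 128) (nat_lit 0) (nat_lit 190) (nat_lit 187) (nat_lit 133)) (PT.lf (nat_lit 9348) (nat_lit 6) (nat_lit 123) (nat_lit 0) (nat_lit 191) (nat_lit 187) (nat_lit 132)))) (PT.nd (nat_lit 48126) (PT.nd (nat_lit 78) (PT.lf (nat_lit 9044) (nat_lit 6) (nat_lit 119) (nat_lit 0) (nat_lit 192) (nat_lit 187) (nat_lit 131)) (PT.lf (nat_lit 8664) (nat_lit 6) (nat_lit 114) (nat_lit 0) (nat_lit 193) (nat_lit 187) (nat_lit 130))) (PT.nd (nat_lit 78) (PT.lf (nat_lit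 8132) (nat_lit 6) (nat_lit 107) (nat_lit 5) (nat_lit 128) (nat_lit 188) (nat_lit 194)) (PT.lf (nat_lit 8436) (nat_lit 6) (nat_lit 111) (nat_lit 5) (nat_lit 129) (nat_lit 188) (nat_lit 193))))) (PT.nd (nat_lit 312) (PT.nd (nat_lit 156) (PT.nd (nat_lit 78) (PT.lf (nat_lit 8740) (nat_lit 6) (nat_lit 115) (nat_lit 5) (nat_lit 130) (nat_lit 188) (nat_lit 192)) (PT.lf (nat_lit 9120) (nat_lit 6) (nat_lit 120) (nat_lit 5) (nat_lit 131) (nat_lit 188) (nat_lit 191))) (PT.nd (nat_lit 78) (PT.lf (nat_lit 9424) (nat_lit 6) (nat_lit 124) (nat_lit 5) (nat_lit 132) (nat_lit 188) (nat_lit 190)) (PT.lf (nat_lit 9804) (nat_lit 6) (nat_lit 129) (nat_lit 5) (nat_lit 133) (nat_lit 188) (nat_lit 189)))) (PT.nd (nat_lit 156) (PT.nd (nat_lit 78) (PT.lf (nat_lit 10184) (nat_lit 3) (nat_lit 134) (nat_lit 4) (nat_lit 134) (nat_lit 188) (nat_lit 188)) (PT.lf (nat_lit 10488) (nat_lit 6) (nat_lit 138) (nat_lit 4) (nat_lit 135) (nat_lit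 188) (nat_lit 187))) (PT.nd (nat_lit 78) (PT.lf (nat_lit 10792) (nat_lit 6) (nat_lit 142) (nat_lit 4) (nat_lit 136) (nat_lit 188) (nat_lit 186)) (PT.lf (nat_lit 11172) (nat_lit 6) (nat_lit 147) (nat_lit 4) (nat_lit 137) (nat_lit 188) (nat_lit 185))))))) (PT.nd (nat_lit 3276) (PT.nd (nat_lit 546) (PT.nd (nat_lit 234) (PT.nd (nat_lit 78) (PT.lf (nat_lit 11476) (nat_lit 6) (nat_lit 151) (nat_lit 4) (nat_lit 138) (nat_lit 188) (nat_lit 184)) (PT.nd (nat_lit 78) (PT.lf (nat_lit 11856) (nat_lit 6) (nat_lit 156) (nat_lit 4) (nat_lit 139) (nat_lit 188) (nat_lit 183)) (PT.lf (nat_lit 12236) (nat_lit 6) (nat_lit 161) (nat_lit 4) (nat_lit 140) (nat_lit 188) (nat_lit 182)))) (PT.nd (nat_lit 156) (PT.nd (nat_lit 78) (PT.lf (nat_lit 12616) (nat_lit 6) (nat_lit 166) (nat_lit 4) (nat_lit 141) (nat_lit 188) (nat_lit 181)) (PT.lf (nat_lit 12996) (nat_lit 6) (nat_lit 171) (nat_lit 4) (nat_lit 142) (nat_lit 188) (nat_lit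 180))) (PT.nd (nat_lit 78) (PT.lf (nat_lit 13452) (nat_lit 6) (nat_lit 177) (nat_lit 4) (nat_lit 143) (nat_lit 188) (nat_lit 179)) (PT.lf (nat_lit 13908) (nat_lit 6) (nat_lit 183) (nat_lit 4) (nat_lit 144) (nat_lit 188) (nat_lit 178))))) (PT.nd (nat_lit 2418) (PT.nd (nat_lit 156) (PT.nd (nat_lit 78) (PT.lf (nat_lit 14364) (nat_lit 6) (nat_lit 189) (nat_lit 4) (nat_lit 145) (nat_lit 188) (nat_lit 177)) (PT.lf (nat_lit 14820) (nat_lit 6) (nat_lit 195) (nat_lit 4) (nat_lit 146) (nat_lit 188) (nat_lit 176))) (PT.nd (nat_lit 2184) (PT.lf (nat_lit 15352) (nat_lit 6) (nat_lit 202) (nat_lit 4) (nat_lit 147) (nat_lit 188) (nat_lit 175)) (PT.lf (nat_lit 15352) (nat_lit 6) (nat_lit 202) (nat_lit 2) (nat_lit 175) (nat_lit 188) (nat_lit 147)))) (PT.nd (nat_lit 156) (PT.nd (nat_lit 78) (PT.lf (nat_lit 14820) (nat_lit 6) (nat_lit 195) (nat_lit 2) (nat_lit 176) (nat_lit 188) (nat_lit 146)) (PT.lf (nat_lit 14364) (nat_lit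 6) (nat_lit 189) (nat_lit 2) (nat_lit 177) (nat_lit 188) (nat_lit 145))) (PT.nd (nat_lit 78) (PT.lf (nat_lit 13908) (nat_lit 6) (nat_lit 183) (nat_lit 2) (nat_lit 178) (nat_lit 188) (nat_lit 144)) (PT.lf (nat_lit 13452) (nat_lit 6) (nat_lit 177) (nat_lit 2) (nat_lit 179) (nat_lit 188) (nat_lit 143)))))) (PT.nd (nat_lit 624) (PT.nd (nat_lit 312) (PT.nd (nat_lit 156) (PT.nd (nat_lit 78) (PT.lf (nat_lit 12996) (nat_lit 6) (nat_lit 171) (nat_lit 2) (nat_lit 180) (nat_lit 188) (nat_lit 142)) (PT.lf (nat_lit 12616) (nat_lit 6) (nat_lit 166) (nat_lit 2) (nat_lit 181) (nat_lit 188) (nat_lit 141))) (PT.nd (nat_lit 78) (PT.lf (nat_lit 12236) (nat_lit 6) (nat_lit 161) (nat_lit 2) (nat_lit 182) (nat_lit 188) (nat_lit 140)) (PT.lf (nat_lit 11856) (nat_lit 6) (nat_lit 156) (nat_lit 2) (nat_lit 183) (nat_lit 188) (nat_lit 139)))) (PT.nd (nat_lit 156) (PT.nd (nat_lit 78) (PT.lf (nat_lit 11476) (nat_lit 6) (nat_lit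 151) (nat_lit 2) (nat_lit 184) (nat_lit 188) (nat_lit 138)) (PT.lf (nat_lit 11172) (nat_lit 6) (nat_lit 147) (nat_lit 2) (nat_lit 185) (nat_lit 188) (nat_lit 137))) (PT.nd (nat_lit 78) (PT.lf (nat_lit 10792) (nat_lit 6) (nat_lit 142) (nat_lit 2) (nat_lit 186) (nat_lit 188) (nat_lit 136)) (PT.lf (nat_lit 10488) (nat_lit 6) (nat_lit 138) (nat_lit 2) (nat_lit 187) (nat_lit 188) (nat_lit 135))))) (PT.nd (nat_lit 312) (PT.nd (nat_lit 156) (PT.nd (nat_lit 78) (PT.lf (nat_lit 10184) (nat_lit 3) (nat_lit 134) (nat_lit 0) (nat_lit 188) (nat_lit 188) (nat_lit 134)) (PT.lf (nat_lit 9804) (nat_lit 6) (nat_lit 129) (nat_lit 0) (nat_lit 189) (nat_lit 188) (nat_lit 133))) (PT.nd (nat_lit 78) (PT.lf (nat_lit 9424) (nat_lit 6) (nat_lit 124) (nat_lit 0) (nat_lit 190) (nat_lit 188) (nat_lit 132)) (PT.lf (nat_lit 9120) (nat_lit 6) (nat_lit 120) (nat_lit 0) (nat_lit 191) (nat_lit 188) (nat_lit 131)))) (PT.nd (nat_lit 156)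 (PT.nd (nat_lit 78) (PT.lf (nat_lit 8740) (nat_lit 6) (nat_lit 115) (nat_lit 0) (nat_lit 192) (nat_lit 188) (nat_lit 130)) (PT.lf (nat_lit 8436) (nat_lit 6) (nat_lit 111) (nat_lit 0) (nat_lit 193) (nat_lit 188) (nat_lit 129))) (PT.nd (nat_lit 47814) (PT.lf (nat_lit 8132) (nat_lit 6) (nat_lit 107) (nat_lit 0) (nat_lit 194) (nat_lit 188) (nat_lit 128)) (PT.lf (nat_lit 7600) (nat_lit 6) (nat_lit 100) (nat_lit 5) (nat_lit 126) (nat_lit 189) (nat_lit 195))))))))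
noncomputable def pc27 : PT := (PT.nd (nat_lit 5070) (PT.nd (nat_lit 1170) (PT.nd (nat_lit 546) (PT.nd (nat_lit 234) (PT.nd (nat_lit 78) (PT.lf (nat_lit 7904) (nat_lit 6) (nat_lit 104) (nat_lit 5) (nat_lit 127) (nat_lit 189) (nat_lit 194)) (PT.nd (nat_lit 78) (PT.lf (nat_lit 8208) (nat_lit 6) (nat_lit 108) (nat_lit 5) (nat_lit 128) (nat_lit 189) (nat_lit 193)) (PT.lf (nat_lit 8512) (nat_lit 6) (nat_lit 112) (nat_lit 5) (nat_lit 129) (nat_lit 189) (nat_lit 192)))) (PT.nd (nat_lit 156) (PT.nd (nat_lit 78) (PT.lf (nat_lit 8816) (nat_lit 6) (nat_lit 116) (nat_lit 5) (nat_lit 130) (nat_lit 189) (nat_lit 191)) (PT.lf (nat_lit 9196) (nat_lit 6) (nat_lit 121) (nat_lit 5) (nat_lit 131) (nat_lit 189) (nat_lit 190))) (PT.nd (nat_lit 78) (PT.lf (nat_lit 9500) (nat_lit 3) (nat_lit 125) (nat_lit 4) (nat_lit 132) (nat_lit 189) (nat_lit 189)) (PT.lf (nat_lit 9804) (nat_lit 6) (nat_lit 129) (nat_lit 4) (nat_lit 133)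 (nat_lit 189) (nat_lit 188))))) (PT.nd (nat_lit 312) (PT.nd (nat_lit 156) (PT.nd (nat_lit 78) (PT.lf (nat_lit 10108) (nat_lit 6) (nat_lit 133) (nat_lit 4) (nat_lit 134) (nat_lit 189) (nat_lit 187)) (PT.lf (nat_lit 10412) (nat_lit 6) (nat_lit 137) (nat_lit 4) (nat_lit 135) (nat_lit 189) (nat_lit 186))) (PT.nd (nat_lit 78) (PT.lf (nat_lit 10716) (nat_lit 6) (nat_lit 141) (nat_lit 4) (nat_lit 136) (nat_lit 189) (nat_lit 185)) (PT.lf (nat_lit 11096) (nat_lit 6) (nat_lit 146) (nat_lit 4) (nat_lit 137) (nat_lit 189) (nat_lit 184)))) (PT.nd (nat_lit 156) (PT.nd (nat_lit 78) (PT.lf (nat_lit 11400) (nat_lit 6) (nat_lit 150) (nat_lit 4) (nat_lit 138) (nat_lit 189) (nat_lit 183)) (PT.lf (nat_lit 11780) (nat_lit 6) (nat_lit 155) (nat_lit 4) (nat_lit 139) (nat_lit 189) (nat_lit 182))) (PT.nd (nat_lit 78) (PT.lf (nat_lit 12160) (nat_lit 6) (nat_lit 160) (nat_lit 4) (nat_lit 140) (nat_lit 189) (nat_lit 181)) (PT.lf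 (nat_lit 12540) (nat_lit 6) (nat_lit 165) (nat_lit 4) (nat_lit 141) (nat_lit 189) (nat_lit 180)))))) (PT.nd (nat_lit 3276) (PT.nd (nat_lit 2964) (PT.nd (nat_lit 2808) (PT.nd (nat_lit 78) (PT.lf (nat_lit 12920) (nat_lit 6) (nat_lit 170) (nat_lit 4) (nat_lit 142) (nat_lit 189) (nat_lit 179)) (PT.lf (nat_lit 13376) (nat_lit 6) (nat_lit 176) (nat_lit 4) (nat_lit 143) (nat_lit 189) (nat_lit 178))) (PT.nd (nat_lit 78) (PT.lf (nat_lit 13376) (nat_lit 6) (nat_lit 176) (nat_lit 2) (nat_lit 178) (nat_lit 189) (nat_lit 143)) (PT.lf (nat_lit 12920) (nat_lit 6) (nat_lit 170) (nat_lit 2) (nat_lit 179) (nat_lit 189) (nat_lit 142)))) (PT.nd (nat_lit 156) (PT.nd (nat_lit 78) (PT.lf (nat_lit 12540) (nat_lit 6) (nat_lit 165) (nat_lit 2) (nat_lit 180) (nat_lit 189) (nat_lit 141)) (PT.lf (nat_lit 12160) (nat_lit 6) (nat_lit 160) (nat_lit 2) (nat_lit 181) (nat_lit 189) (nat_lit 140))) (PT.nd (nat_lit 78) (PT.lf (nat_lit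 11780) (nat_lit 6) (nat_lit 155) (nat_lit 2) (nat_lit 182) (nat_lit 189) (nat_lit 139)) (PT.lf (nat_lit 11400) (nat_lit 6) (nat_lit 150) (nat_lit 2) (nat_lit 183) (nat_lit 189) (nat_lit 138))))) (PT.nd (nat_lit 312) (PT.nd (nat_lit 156) (PT.nd (nat_lit 78) (PT.lf (nat_lit 11096) (nat_lit 6) (nat_lit 146) (nat_lit 2) (nat_lit 184) (nat_lit 189) (nat_lit 137)) (PT.lf (nat_lit 10716) (nat_lit 6) (nat_lit 141) (nat_lit 2) (nat_lit 185) (nat_lit 189) (nat_lit 136))) (PT.nd (nat_lit 78) (PT.lf (nat_lit 10412) (nat_lit 6) (nat_lit 137) (nat_lit 2) (nat_lit 186) (nat_lit 189) (nat_lit 135)) (PT.lf (nat_lit 10108) (nat_lit 6) (nat_lit 133) (nat_lit 2) (nat_lit 187) (nat_lit 189) (nat_lit 134)))) (PT.nd (nat_lit 156) (PT.nd (nat_lit 78) (PT.lf (nat_lit 9804) (nat_lit 6) (nat_lit 129) (nat_lit 2) (nat_lit 188) (nat_lit 189) (nat_lit 133)) (PT.lf (nat_lit 9500) (nat_lit 3) (nat_lit 125) (nat_lit 0) (nat_lit 189)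 (nat_lit 189) (nat_lit 132))) (PT.nd (nat_lit 78) (PT.lf (nat_lit 9196) (nat_lit 6) (nat_lit 121) (nat_lit 0) (nat_lit 190) (nat_lit 189) (nat_lit 131)) (PT.lf (nat_lit 8816) (nat_lit 6) (nat_lit 116) (nat_lit 0) (nat_lit 191) (nat_lit 189) (nat_lit 130))))))) (PT.nd (nat_lit 48750) (PT.nd (nat_lit 48126) (PT.nd (nat_lit 234) (PT.nd (nat_lit 78) (PT.lf (nat_lit 8512) (nat_lit 6) (nat_lit 112) (nat_lit 0) (nat_lit 192) (nat_lit 189) (nat_lit 129)) (PT.nd (nat_lit 78) (PT.lf (nat_lit 8208) (nat_lit 6) (nat_lit 108) (nat_lit 0) (nat_lit 193) (nat_lit 189) (nat_lit 128)) (PT.lf (nat_lit 7904) (nat_lit 6) (nat_lit 104) (nat_lit 0) (nat_lit 194) (nat_lit 189) (nat_lit 127)))) (PT.nd (nat_lit 47736) (PT.nd (nat_lit 47658) (PT.lf (nat_lit 7600) (nat_lit 6) (nat_lit 100) (nat_lit 0) (nat_lit 195) (nat_lit 189) (nat_lit 126)) (PT.lf (nat_lit 7372) (nat_lit 6) (nat_lit 97) (nat_lit 5) (nat_lit 125) (nat_lit 190)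 (nat_lit 195))) (PT.nd (nat_lit 78) (PT.lf (nat_lit 7676) (nat_lit 6) (nat_lit 101) (nat_lit 5) (nat_lit 126) (nat_lit 190) (nat_lit 194)) (PT.lf (nat_lit 7980) (nat_lit 6) (nat_lit 105) (nat_lit 5) (nat_lit 127) (nat_lit 190) (nat_lit 193))))) (PT.nd (nat_lit 312) (PT.nd (nat_lit 156) (PT.nd (nat_lit 78) (PT.lf (nat_lit 8284) (nat_lit 6) (nat_lit 109) (nat_lit 5) (nat_lit 128) (nat_lit 190) (nat_lit 192)) (PT.lf (nat_lit 8588) (nat_lit 6) (nat_lit 113) (nat_lit 5) (nat_lit 129) (nat_lit 190) (nat_lit 191))) (PT.nd (nat_lit 78) (PT.lf (nat_lit 8892) (nat_lit 3) (nat_lit 117) (nat_lit 4) (nat_lit 130) (nat_lit 190) (nat_lit 190)) (PT.lf (nat_lit 9196) (nat_lit 6) (nat_lit 121) (nat_lit 4) (nat_lit 131) (nat_lit 190) (nat_lit 189)))) (PT.nd (nat_lit 156) (PT.nd (nat_lit 78) (PT.lf (nat_lit 9424) (nat_lit 6) (nat_lit 124) (nat_lit 4) (nat_lit 132) (nat_lit 190) (nat_lit 188)) (PT.lf (nat_lit 9728) (nat_lit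 6) (nat_lit 128) (nat_lit 4) (nat_lit 133) (nat_lit 190) (nat_lit 187))) (PT.nd (nat_lit 78) (PT.lf (nat_lit 10032) (nat_lit 6) (nat_lit 132) (nat_lit 4) (nat_lit 134) (nat_lit 190) (nat_lit 186)) (PT.lf (nat_lit 10336) (nat_lit 6) (nat_lit 136) (nat_lit 4) (nat_lit 135) (nat_lit 190) (nat_lit 185)))))) (PT.nd (nat_lit 3666) (PT.nd (nat_lit 312) (PT.nd (nat_lit 156) (PT.nd (nat_lit 78) (PT.lf (nat_lit 10640) (nat_lit 6) (nat_lit 140) (nat_lit 4) (nat_lit 136) (nat_lit 190) (nat_lit 184)) (PT.lf (nat_lit 11020) (nat_lit 6) (nat_lit 145) (nat_lit 4) (nat_lit 137) (nat_lit 190) (nat_lit 183))) (PT.nd (nat_lit 78) (PT.lf (nat_lit 11324) (nat_lit 6) (nat_lit 149) (nat_lit 4) (nat_lit 138) (nat_lit 190) (nat_lit 182)) (PT.lf (nat_lit 11704) (nat_lit 6) (nat_lit 154) (nat_lit 4) (nat_lit 139) (nat_lit 190) (nat_lit 181)))) (PT.nd (nat_lit 3198) (PT.nd (nat_lit 3120) (PT.lf (nat_lit 12084) (nat_lit 6) (nat_lit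 159) (nat_lit 4) (nat_lit 140) (nat_lit 190) (nat_lit 180)) (PT.lf (nat_lit 12084) (nat_lit 6) (nat_lit 159) (nat_lit 2) (nat_lit 180) (nat_lit 190) (nat_lit 140))) (PT.nd (nat_lit 78) (PT.lf (nat_lit 11704) (nat_lit 6) (nat_lit 154) (nat_lit 2) (nat_lit 181) (nat_lit 190) (nat_lit 139)) (PT.lf (nat_lit 11324) (nat_lit 6) (nat_lit 149) (nat_lit 2) (nat_lit 182) (nat_lit 190) (nat_lit 138))))) (PT.nd (nat_lit 312) (PT.nd (nat_lit 156) (PT.nd (nat_lit 78) (PT.lf (nat_lit 11020) (nat_lit 6) (nat_lit 145) (nat_lit 2) (nat_lit 183) (nat_lit 190) (nat_lit 137)) (PT.lf (nat_lit 10640) (nat_lit 6) (nat_lit 140) (nat_lit 2) (nat_lit 184) (nat_lit 190) (nat_lit 136))) (PT.nd (nat_lit 78) (PT.lf (nat_lit 10336) (nat_lit 6) (nat_lit 136) (nat_lit 2) (nat_lit 185) (nat_lit 190) (nat_lit 135)) (PT.lf (nat_lit 10032) (nat_lit 6) (nat_lit 132) (nat_lit 2) (nat_lit 186) (nat_lit 190) (nat_lit 134)))) (PT.nd (nat_lit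 156) (PT.nd (nat_lit 78) (PT.lf (nat_lit 9728) (nat_lit 6) (nat_lit 128) (nat_lit 2) (nat_lit 187) (nat_lit 190) (nat_lit 133)) (PT.lf (nat_lit 9424) (nat_lit 6) (nat_lit 124) (nat_lit 2) (nat_lit 188) (nat_lit 190) (nat_lit 132))) (PT.nd (nat_lit 78) (PT.lf (nat_lit 9196) (nat_lit 6) (nat_lit 121) (nat_lit 2) (nat_lit 189) (nat_lit 190) (nat_lit 131)) (PT.lf (nat_lit 8892) (nat_lit 3) (nat_lit 117) (nat_lit 0) (nat_lit 190) (nat_lit 190) (nat_lit 130))))))))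
noncomputable def pc28 : PT := (PT.nd (nat_lit 53274) (PT.nd (nat_lit 48594) (PT.nd (nat_lit 47970) (PT.nd (nat_lit 234) (PT.nd (nat_lit 78) (PT.lf (nat_lit 8588) (nat_lit 6) (nat_lit 113) (nat_lit 0) (nat_lit 191) (nat_lit 190) (nat_lit 129)) (PT.nd (nat_lit 78) (PT.lf (nat_lit 8284) (nat_lit 6) (nat_lit 109) (nat_lit 0) (nat_lit 192) (nat_lit 190) (nat_lit 128)) (PT.lf (nat_lit 7980) (nat_lit 6) (nat_lit 105) (nat_lit 0) (nat_lit 193) (nat_lit 190) (nat_lit 127)))) (PT.nd (nat_lit 47580) (PT.nd (nat_lit 78) (PT.lf (nat_lit 7676) (nat_lit 6) (nat_lit 101) (nat_lit 0) (nat_lit 194) (nat_lit 190) (nat_lit 126)) (PT.lf (nat_lit 7372) (nat_lit 6) (nat_lit 97) (nat_lit 0) (nat_lit 195) (nat_lit 190) (nat_lit 125))) (PT.nd (nat_lit 78) (PT.lf (nat_lit 6916) (nat_lit 6) (nat_lit 91) (nat_lit 5) (nat_lit 123) (nat_lit 191) (nat_lit 196)) (PT.lf (nat_lit 7144) (nat_lit 6) (nat_lit 94) (nat_lit 5) (nat_lit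 124) (nat_lit 191) (nat_lit 195))))) (PT.nd (nat_lit 312) (PT.nd (nat_lit 156) (PT.nd (nat_lit 78) (PT.lf (nat_lit 7448) (nat_lit 6) (nat_lit 98) (nat_lit 5) (nat_lit 125) (nat_lit 191) (nat_lit 194)) (PT.lf (nat_lit 7752) (nat_lit 6) (nat_lit 102) (nat_lit 5) (nat_lit 126) (nat_lit 191) (nat_lit 193))) (PT.nd (nat_lit 78) (PT.lf (nat_lit 8056) (nat_lit 6) (nat_lit 106) (nat_lit 5) (nat_lit 127) (nat_lit 191) (nat_lit 192)) (PT.lf (nat_lit 8360) (nat_lit 3) (nat_lit 110) (nat_lit 4) (nat_lit 128) (nat_lit 191) (nat_lit 191)))) (PT.nd (nat_lit 156) (PT.nd (nat_lit 78) (PT.lf (nat_lit 8588) (nat_lit 6) (nat_lit 113) (nat_lit 4) (nat_lit 129) (nat_lit 191) (nat_lit 190)) (PT.lf (nat_lit 8816) (nat_lit 6) (nat_lit 116) (nat_lit 4) (nat_lit 130) (nat_lit 191) (nat_lit 189))) (PT.nd (nat_lit 78) (PT.lf (nat_lit 9120) (nat_lit 6) (nat_lit 120) (nat_lit 4) (nat_lit 131) (nat_lit 191) (nat_lit 188)) (PT.lf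 (nat_lit 9348) (nat_lit 6) (nat_lit 123) (nat_lit 4) (nat_lit 132) (nat_lit 191) (nat_lit 187)))))) (PT.nd (nat_lit 4056) (PT.nd (nat_lit 312) (PT.nd (nat_lit 156) (PT.nd (nat_lit 78) (PT.lf (nat_lit 9652) (nat_lit 6) (nat_lit 127) (nat_lit 4) (nat_lit 133) (nat_lit 191) (nat_lit 186)) (PT.lf (nat_lit 9956) (nat_lit 6) (nat_lit 131) (nat_lit 4) (nat_lit 134) (nat_lit 191) (nat_lit 185))) (PT.nd (nat_lit 78) (PT.lf (nat_lit 10260) (nat_lit 6) (nat_lit 135) (nat_lit 4) (nat_lit 135) (nat_lit 191) (nat_lit 184)) (PT.lf (nat_lit 10564) (nat_lit 6) (nat_lit 139) (nat_lit 4) (nat_lit 136) (nat_lit 191) (nat_lit 183)))) (PT.nd (nat_lit 3588) (PT.nd (nat_lit 3510) (PT.lf (nat_lit 10944) (nat_lit 6) (nat_lit 144) (nat_lit 4) (nat_lit 137) (nat_lit 191) (nat_lit 182)) (PT.lf (nat_lit 10944) (nat_lit 6) (nat_lit 144) (nat_lit 2) (nat_lit 182) (nat_lit 191) (nat_lit 137))) (PT.nd (nat_lit 78) (PT.lf (nat_lit 10564)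 (nat_lit 6) (nat_lit 139) (nat_lit 2) (nat_lit 183) (nat_lit 191) (nat_lit 136)) (PT.lf (nat_lit 10260) (nat_lit 6) (nat_lit 135) (nat_lit 2) (nat_lit 184) (nat_lit 191) (nat_lit 135))))) (PT.nd (nat_lit 312) (PT.nd (nat_lit 156) (PT.nd (nat_lit 78) (PT.lf (nat_lit 9956) (nat_lit 6) (nat_lit 131) (nat_lit 2) (nat_lit 185) (nat_lit 191) (nat_lit 134)) (PT.lf (nat_lit 9652) (nat_lit 6) (nat_lit 127) (nat_lit 2) (nat_lit 186) (nat_lit 191) (nat_lit 133))) (PT.nd (nat_lit 78) (PT.lf (nat_lit 9348) (nat_lit 6) (nat_lit 123) (nat_lit 2) (nat_lit 187) (nat_lit 191) (nat_lit 132)) (PT.lf (nat_lit 9120) (nat_lit 6) (nat_lit 120) (nat_lit 2) (nat_lit 188) (nat_lit 191) (nat_lit 131)))) (PT.nd (nat_lit 156) (PT.nd (nat_lit 78) (PT.lf (nat_lit 8816) (nat_lit 6) (nat_lit 116) (nat_lit 2) (nat_lit 189) (nat_lit 191) (nat_lit 130)) (PT.lf (nat_lit 8588) (nat_lit 6) (nat_lit 113) (nat_lit 2) (nat_lit 190) (nat_lit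 191) (nat_lit 129))) (PT.nd (nat_lit 78) (PT.lf (nat_lit 8360) (nat_lit 3) (nat_lit 110) (nat_lit 0) (nat_lit 191) (nat_lit 191) (nat_lit 128)) (PT.lf (nat_lit 8056) (nat_lit 6) (nat_lit 106) (nat_lit 0) (nat_lit 192) (nat_lit 191) (nat_lit 127))))))) (PT.nd (nat_lit 48438) (PT.nd (nat_lit 47814) (PT.nd (nat_lit 234) (PT.nd (nat_lit 78) (PT.lf (nat_lit 7752) (nat_lit 6) (nat_lit 102) (nat_lit 0) (nat_lit 193) (nat_lit 191) (nat_lit 126)) (PT.nd (nat_lit 78) (PT.lf (nat_lit 7448) (nat_lit 6) (nat_lit 98) (nat_lit 0) (nat_lit 194) (nat_lit 191) (nat_lit 125)) (PT.lf (nat_lit 7144) (nat_lit 6) (nat_lit 94) (nat_lit 0) (nat_lit 195) (nat_lit 191) (nat_lit 124)))) (PT.nd (nat_lit 47424) (PT.nd (nat_lit 47346) (PT.lf (nat_lit 6916) (nat_lit 6) (nat_lit 91) (nat_lit 0) (nat_lit 196) (nat_lit 191) (nat_lit 123)) (PT.lf (nat_lit 6688) (nat_lit 6) (nat_lit 88) (nat_lit 5) (nat_lit 122) (nat_lit 192) (nat_lit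 196))) (PT.nd (nat_lit 78) (PT.lf (nat_lit 6992) (nat_lit 6) (nat_lit 92) (nat_lit 5) (nat_lit 123) (nat_lit 192) (nat_lit 195)) (PT.lf (nat_lit 7220) (nat_lit 6) (nat_lit 95) (nat_lit 5) (nat_lit 124) (nat_lit 192) (nat_lit 194))))) (PT.nd (nat_lit 312) (PT.nd (nat_lit 156) (PT.nd (nat_lit 78) (PT.lf (nat_lit 7524) (nat_lit 6) (nat_lit 99) (nat_lit 5) (nat_lit 125) (nat_lit 192) (nat_lit 193)) (PT.lf (nat_lit 7828) (nat_lit 3) (nat_lit 103) (nat_lit 4) (nat_lit 126) (nat_lit 192) (nat_lit 192))) (PT.nd (nat_lit 78) (PT.lf (nat_lit 8056) (nat_lit 6) (nat_lit 106) (nat_lit 4) (nat_lit 127) (nat_lit 192) (nat_lit 191)) (PT.lf (nat_lit 8284) (nat_lit 6) (nat_lit 109) (nat_lit 4) (nat_lit 128) (nat_lit 192) (nat_lit 190)))) (PT.nd (nat_lit 156) (PT.nd (nat_lit 78) (PT.lf (nat_lit 8512) (nat_lit 6) (nat_lit 112) (nat_lit 4) (nat_lit 129) (nat_lit 192) (nat_lit 189)) (PT.lf (nat_lit 8740) (nat_lit 6) (nat_lit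 115) (nat_lit 4) (nat_lit 130) (nat_lit 192) (nat_lit 188))) (PT.nd (nat_lit 78) (PT.lf (nat_lit 9044) (nat_lit 6) (nat_lit 119) (nat_lit 4) (nat_lit 131) (nat_lit 192) (nat_lit 187)) (PT.lf (nat_lit 9272) (nat_lit 6) (nat_lit 122) (nat_lit 4) (nat_lit 132) (nat_lit 192) (nat_lit 186)))))) (PT.nd (nat_lit 4446) (PT.nd (nat_lit 4134) (PT.nd (nat_lit 3978) (PT.nd (nat_lit 78) (PT.lf (nat_lit 9576) (nat_lit 6) (nat_lit 126) (nat_lit 4) (nat_lit 133) (nat_lit 192) (nat_lit 185)) (PT.lf (nat_lit 9880) (nat_lit 6) (nat_lit 130) (nat_lit 4) (nat_lit 134) (nat_lit 192) (nat_lit 184))) (PT.nd (nat_lit 78) (PT.lf (nat_lit 9880) (nat_lit 6) (nat_lit 130) (nat_lit 2) (nat_lit 184) (nat_lit 192) (nat_lit 134)) (PT.lf (nat_lit 9576) (nat_lit 6) (nat_lit 126) (nat_lit 2) (nat_lit 185) (nat_lit 192) (nat_lit 133)))) (PT.nd (nat_lit 156) (PT.nd (nat_lit 78) (PT.lf (nat_lit 9272) (nat_lit 6) (nat_lit 122) (nat_lit 2)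 (nat_lit 186) (nat_lit 192) (nat_lit 132)) (PT.lf (nat_lit 9044) (nat_lit 6) (nat_lit 119) (nat_lit 2) (nat_lit 187) (nat_lit 192) (nat_lit 131))) (PT.nd (nat_lit 78) (PT.lf (nat_lit 8740) (nat_lit 6) (nat_lit 115) (nat_lit 2) (nat_lit 188) (nat_lit 192) (nat_lit 130)) (PT.lf (nat_lit 8512) (nat_lit 6) (nat_lit 112) (nat_lit 2) (nat_lit 189) (nat_lit 192) (nat_lit 129))))) (PT.nd (nat_lit 312) (PT.nd (nat_lit 156) (PT.nd (nat_lit 78) (PT.lf (nat_lit 8284) (nat_lit 6) (nat_lit 109) (nat_lit 2) (nat_lit 190) (nat_lit 192) (nat_lit 128)) (PT.lf (nat_lit 8056) (nat_lit 6) (nat_lit 106) (nat_lit 2) (nat_lit 191) (nat_lit 192) (nat_lit 127))) (PT.nd (nat_lit 78) (PT.lf (nat_lit 7828) (nat_lit 3) (nat_lit 103) (nat_lit 0) (nat_lit 192) (nat_lit 192) (nat_lit 126)) (PT.lf (nat_lit 7524) (nat_lit 6) (nat_lit 99) (nat_lit 0) (nat_lit 193) (nat_lit 192) (nat_lit 125)))) (PT.nd (nat_lit 156) (PT.nd (nat_lit 78)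 (PT.lf (nat_lit 7220) (nat_lit 6) (nat_lit 95) (nat_lit 0) (nat_lit 194) (nat_lit 192) (nat_lit 124)) (PT.lf (nat_lit 6992) (nat_lit 6) (nat_lit 92) (nat_lit 0) (nat_lit 195) (nat_lit 192) (nat_lit 123))) (PT.nd (nat_lit 47190) (PT.lf (nat_lit 6688) (nat_lit 6) (nat_lit 88) (nat_lit 0) (nat_lit 196) (nat_lit 192) (nat_lit 122)) (PT.lf (nat_lit 6232) (nat_lit 6) (nat_lit 82) (nat_lit 5) (nat_lit 120) (nat_lit 193) (nat_lit 197))))))))
noncomputable def pc29 : PT := (PT.nd (nat_lit 53508) (PT.nd (nat_lit 5382) (PT.nd (nat_lit 546) (PT.nd (nat_lit 234) (PT.nd (nat_lit 78) (PT.lf (nat_lit 6536) (nat_lit 6) (nat_lit 86) (nat_lit 5) (nat_lit 121) (nat_lit 193) (nat_lit 196)) (PT.nd (nat_lit 78) (PT.lf (nat_lit 6764) (nat_lit 6) (nat_lit 89) (nat_lit 5) (nat_lit 122) (nat_lit 193) (nat_lit 195)) (PT.lf (nat_lit 7068) (nat_lit 6) (nat_lit 93) (nat_lit 5) (nat_lit 123) (nat_lit 193) (nat_lit 194)))) (PT.nd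 (nat_lit 156) (PT.nd (nat_lit 78) (PT.lf (nat_lit 7296) (nat_lit 3) (nat_lit 96) (nat_lit 4) (nat_lit 124) (nat_lit 193) (nat_lit 193)) (PT.lf (nat_lit 7524) (nat_lit 6) (nat_lit 99) (nat_lit 4) (nat_lit 125) (nat_lit 193) (nat_lit 192))) (PT.nd (nat_lit 78) (PT.lf (nat_lit 7752) (nat_lit 6) (nat_lit 102) (nat_lit 4) (nat_lit 126) (nat_lit 193) (nat_lit 191)) (PT.lf (nat_lit 7980) (nat_lit 6) (nat_lit 105) (nat_lit 4) (nat_lit 127) (nat_lit 193) (nat_lit 190))))) (PT.nd (nat_lit 4524) (PT.nd (nat_lit 156) (PT.nd (nat_lit 78) (PT.lf (nat_lit 8208) (nat_lit 6) (nat_lit 108) (nat_lit 4) (nat_lit 128) (nat_lit 193) (nat_lit 189)) (PT.lf (nat_lit 8436) (nat_lit 6) (nat_lit 111) (nat_lit 4) (nat_lit 129) (nat_lit 193) (nat_lit 188))) (PT.nd (nat_lit 78) (PT.lf (nat_lit 8664) (nat_lit 6) (nat_lit 114) (nat_lit 4) (nat_lit 130) (nat_lit 193) (nat_lit 187)) (PT.lf (nat_lit 8968) (nat_lit 6) (nat_lit 118) (nat_lit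 4) (nat_lit 131) (nat_lit 193) (nat_lit 186)))) (PT.nd (nat_lit 156) (PT.nd (nat_lit 78) (PT.lf (nat_lit 8968) (nat_lit 6) (nat_lit 118) (nat_lit 2) (nat_lit 186) (nat_lit 193) (nat_lit 131)) (PT.lf (nat_lit 8664) (nat_lit 6) (nat_lit 114) (nat_lit 2) (nat_lit 187) (nat_lit 193) (nat_lit 130))) (PT.nd (nat_lit 78) (PT.lf (nat_lit 8436) (nat_lit 6) (nat_lit 111) (nat_lit 2) (nat_lit 188) (nat_lit 193) (nat_lit 129)) (PT.lf (nat_lit 8208) (nat_lit 6) (nat_lit 108) (nat_lit 2) (nat_lit 189) (nat_lit 193) (nat_lit 128)))))) (PT.nd (nat_lit 47502) (PT.nd (nat_lit 312) (PT.nd (nat_lit 156) (PT.nd (nat_lit 78) (PT.lf (nat_lit 7980) (nat_lit 6) (nat_lit 105) (nat_lit 2) (nat_lit 190) (nat_lit 193) (nat_lit 127)) (PT.lf (nat_lit 7752) (nat_lit 6) (nat_lit 102) (nat_lit 2) (nat_lit 191) (nat_lit 193) (nat_lit 126))) (PT.nd (nat_lit 78) (PT.lf (nat_lit 7524) (nat_lit 6) (nat_lit 99) (nat_lit 2) (nat_lit 192)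 (nat_lit 193) (nat_lit 125)) (PT.lf (nat_lit 7296) (nat_lit 3) (nat_lit 96) (nat_lit 0) (nat_lit 193) (nat_lit 193) (nat_lit 124)))) (PT.nd (nat_lit 156) (PT.nd (nat_lit 78) (PT.lf (nat_lit 7068) (nat_lit 6) (nat_lit 93) (nat_lit 0) (nat_lit 194) (nat_lit 193) (nat_lit 123)) (PT.lf (nat_lit 6764) (nat_lit 6) (nat_lit 89) (nat_lit 0) (nat_lit 195) (nat_lit 193) (nat_lit 122))) (PT.nd (nat_lit 78) (PT.lf (nat_lit 6536) (nat_lit 6) (nat_lit 86) (nat_lit 0) (nat_lit 196) (nat_lit 193) (nat_lit 121)) (PT.lf (nat_lit 6232) (nat_lit 6) (nat_lit 82) (nat_lit 0) (nat_lit 197) (nat_lit 193) (nat_lit 120))))) (PT.nd (nat_lit 312) (PT.nd (nat_lit 156) (PT.nd (nat_lit 78) (PT.lf (nat_lit 5852) (nat_lit 6) (nat_lit 77) (nat_lit 5) (nat_lit 118) (nat_lit 194) (nat_lit 198)) (PT.lf (nat_lit 6080) (nat_lit 6) (nat_lit 80) (nat_lit 5) (nat_lit 119) (nat_lit 194) (nat_lit 197))) (PT.nd (nat_lit 78) (PT.lf (nat_lit 6308)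 (nat_lit 6) (nat_lit 83) (nat_lit 5) (nat_lit 120) (nat_lit 194) (nat_lit 196)) (PT.lf (nat_lit 6612) (nat_lit 6) (nat_lit 87) (nat_lit 5) (nat_lit 121) (nat_lit 194) (nat_lit 195)))) (PT.nd (nat_lit 156) (PT.nd (nat_lit 78) (PT.lf (nat_lit 6840) (nat_lit 3) (nat_lit 90) (nat_lit 4) (nat_lit 122) (nat_lit 194) (nat_lit 194)) (PT.lf (nat_lit 7068) (nat_lit 6) (nat_lit 93) (nat_lit 4) (nat_lit 123) (nat_lit 194) (nat_lit 193))) (PT.nd (nat_lit 78) (PT.lf (nat_lit 7220) (nat_lit 6) (nat_lit 95) (nat_lit 4) (nat_lit 124) (nat_lit 194) (nat_lit 192)) (PT.lf (nat_lit 7448) (nat_lit 6) (nat_lit 98) (nat_lit 4) (nat_lit 125) (nat_lit 194) (nat_lit 191))))))) (PT.nd (nat_lit 52416) (PT.nd (nat_lit 5148) (PT.nd (nat_lit 4836) (PT.nd (nat_lit 78) (PT.lf (nat_lit 7676) (nat_lit 6) (nat_lit 101) (nat_lit 4) (nat_lit 126) (nat_lit 194) (nat_lit 190)) (PT.nd (nat_lit 78) (PT.lf (nat_lit 7904) (nat_lit 6) (nat_lit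 104) (nat_lit 4) (nat_lit 127) (nat_lit 194) (nat_lit 189)) (PT.lf (nat_lit 8132) (nat_lit 6) (nat_lit 107) (nat_lit 4) (nat_lit 128) (nat_lit 194) (nat_lit 188)))) (PT.nd (nat_lit 156) (PT.nd (nat_lit 78) (PT.lf (nat_lit 8132) (nat_lit 6) (nat_lit 107) (nat_lit 2) (nat_lit 188) (nat_lit 194) (nat_lit 128)) (PT.lf (nat_lit 7904) (nat_lit 6) (nat_lit 104) (nat_lit 2) (nat_lit 189) (nat_lit 194) (nat_lit 127))) (PT.nd (nat_lit 78) (PT.lf (nat_lit 7676) (nat_lit 6) (nat_lit 101) (nat_lit 2) (nat_lit 190) (nat_lit 194) (nat_lit 126)) (PT.lf (nat_lit 7448) (nat_lit 6) (nat_lit 98) (nat_lit 2) (nat_lit 191) (nat_lit 194) (nat_lit 125))))) (PT.nd (nat_lit 312) (PT.nd (nat_lit 156) (PT.nd (nat_lit 78) (PT.lf (nat_lit 7220) (nat_lit 6) (nat_lit 95) (nat_lit 2) (nat_lit 192) (nat_lit 194) (nat_lit 124)) (PT.lf (nat_lit 7068) (nat_lit 6) (nat_lit 93) (nat_lit 2) (nat_lit 193) (nat_lit 194) (nat_lit 123))) (PT.nd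 (nat_lit 78) (PT.lf (nat_lit 6840) (nat_lit 3) (nat_lit 90) (nat_lit 0) (nat_lit 194) (nat_lit 194) (nat_lit 122)) (PT.lf (nat_lit 6612) (nat_lit 6) (nat_lit 87) (nat_lit 0) (nat_lit 195) (nat_lit 194) (nat_lit 121)))) (PT.nd (nat_lit 156) (PT.nd (nat_lit 78) (PT.lf (nat_lit 6308) (nat_lit 6) (nat_lit 83) (nat_lit 0) (nat_lit 196) (nat_lit 194) (nat_lit 120)) (PT.lf (nat_lit 6080) (nat_lit 6) (nat_lit 80) (nat_lit 0) (nat_lit 197) (nat_lit 194) (nat_lit 119))) (PT.nd (nat_lit 46722) (PT.lf (nat_lit 5852) (nat_lit 6) (nat_lit 77) (nat_lit 0) (nat_lit 198) (nat_lit 194) (nat_lit 118)) (PT.lf (nat_lit 5472) (nat_lit 6) (nat_lit 72) (nat_lit 5) (nat_lit 116) (nat_lit 195) (nat_lit 199)))))) (PT.nd (nat_lit 624) (PT.nd (nat_lit 312) (PT.nd (nat_lit 156) (PT.nd (nat_lit 78) (PT.lf (nat_lit 5700) (nat_lit 6) (nat_lit 75) (nat_lit 5) (nat_lit 117) (nat_lit 195) (nat_lit 198)) (PT.lf (nat_lit 5928) (nat_lit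 6) (nat_lit 78) (nat_lit 5) (nat_lit 118) (nat_lit 195) (nat_lit 197))) (PT.nd (nat_lit 78) (PT.lf (nat_lit 6156) (nat_lit 6) (nat_lit 81) (nat_lit 5) (nat_lit 119) (nat_lit 195) (nat_lit 196)) (PT.lf (nat_lit 6384) (nat_lit 3) (nat_lit 84) (nat_lit 4) (nat_lit 120) (nat_lit 195) (nat_lit 195)))) (PT.nd (nat_lit 156) (PT.nd (nat_lit 78) (PT.lf (nat_lit 6612) (nat_lit 6) (nat_lit 87) (nat_lit 4) (nat_lit 121) (nat_lit 195) (nat_lit 194)) (PT.lf (nat_lit 6764) (nat_lit 6) (nat_lit 89) (nat_lit 4) (nat_lit 122) (nat_lit 195) (nat_lit 193))) (PT.nd (nat_lit 78) (PT.lf (nat_lit 6992) (nat_lit 6) (nat_lit 92) (nat_lit 4) (nat_lit 123) (nat_lit 195) (nat_lit 192)) (PT.lf (nat_lit 7144) (nat_lit 6) (nat_lit 94) (nat_lit 4) (nat_lit 124) (nat_lit 195) (nat_lit 191))))) (PT.nd (nat_lit 5148) (PT.nd (nat_lit 4992) (PT.nd (nat_lit 78) (PT.lf (nat_lit 7372) (nat_lit 6) (nat_lit 97) (nat_lit 4) (nat_lit 125) (nat_lit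 195) (nat_lit 190)) (PT.lf (nat_lit 7600) (nat_lit 6) (nat_lit 100) (nat_lit 4) (nat_lit 126) (nat_lit 195) (nat_lit 189))) (PT.nd (nat_lit 78) (PT.lf (nat_lit 7600) (nat_lit 6) (nat_lit 100) (nat_lit 2) (nat_lit 189) (nat_lit 195) (nat_lit 126)) (PT.lf (nat_lit 7372) (nat_lit 6) (nat_lit 97) (nat_lit 2) (nat_lit 190) (nat_lit 195) (nat_lit 125)))) (PT.nd (nat_lit 156) (PT.nd (nat_lit 78) (PT.lf (nat_lit 7144) (nat_lit 6) (nat_lit 94) (nat_lit 2) (nat_lit 191) (nat_lit 195) (nat_lit 124)) (PT.lf (nat_lit 6992) (nat_lit 6) (nat_lit 92) (nat_lit 2) (nat_lit 192) (nat_lit 195) (nat_lit 123))) (PT.nd (nat_lit 78) (PT.lf (nat_lit 6764) (nat_lit 6) (nat_lit 89) (nat_lit 2) (nat_lit 193) (nat_lit 195) (nat_lit 122)) (PT.lf (nat_lit 6612) (nat_lit 6) (nat_lit 87) (nat_lit 2) (nat_lit 194) (nat_lit 195) (nat_lit 121))))))))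
noncomputable def pc30 : PT := (PT.nd (nat_lit 106080) (PT.nd (nat_lit 52884) (PT.nd (nat_lit 47034) (PT.nd (nat_lit 234) (PT.nd (nat_lit 78) (PT.lf (nat_lit 6384) (nat_lit 3) (nat_lit 84) (nat_lit 0) (nat_lit 195) (nat_lit 195) (nat_lit 120)) (PT.nd (nat_lit 78) (PT.lf (nat_lit 6156) (nat_lit 6) (nat_lit 81) (nat_lit 0) (nat_lit 196) (nat_lit 195) (nat_lit 119)) (PT.lf (nat_lit 5928) (nat_lit 6) (nat_lit 78) (nat_lit 0) (nat_lit 197) (nat_lit 195) (nat_lit 118)))) (PT.nd (nat_lit 46644) (PT.nd (nat_lit 78) (PT.lf (nat_lit 5700) (nat_lit 6) (nat_lit 75) (nat_lit 0) (nat_lit 198) (nat_lit 195) (nat_lit 117)) (PT.lf (nat_lit 5472) (nat_lit 6) (nat_lit 72) (nat_lit 0) (nat_lit 199) (nat_lit 195) (nat_lit 116))) (PT.nd (nat_lit 78) (PT.lf (nat_lit 5320) (nat_lit 6) (nat_lit 70) (nat_lit 5) (nat_lit 115) (nat_lit 196) (nat_lit 199)) (PT.lf (nat_lit 5548) (nat_lit 6) (nat_lit 73) (nat_lit 5) (nat_lit 116)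 (nat_lit 196) (nat_lit 198))))) (PT.nd (nat_lit 312) (PT.nd (nat_lit 156) (PT.nd (nat_lit 78) (PT.lf (nat_lit 5776) (nat_lit 6) (nat_lit 76) (nat_lit 5) (nat_lit 117) (nat_lit 196) (nat_lit 197)) (PT.lf (nat_lit 6004) (nat_lit 3) (nat_lit 79) (nat_lit 4) (nat_lit 118) (nat_lit 196) (nat_lit 196))) (PT.nd (nat_lit 78) (PT.lf (nat_lit 6156) (nat_lit 6) (nat_lit 81) (nat_lit 4) (nat_lit 119) (nat_lit 196) (nat_lit 195)) (PT.lf (nat_lit 6308) (nat_lit 6) (nat_lit 83) (nat_lit 4) (nat_lit 120) (nat_lit 196) (nat_lit 194)))) (PT.nd (nat_lit 156) (PT.nd (nat_lit 78) (PT.lf (nat_lit 6536) (nat_lit 6) (nat_lit 86) (nat_lit 4) (nat_lit 121) (nat_lit 196) (nat_lit 193)) (PT.lf (nat_lit 6688) (nat_lit 6) (nat_lit 88) (nat_lit 4) (nat_lit 122) (nat_lit 196) (nat_lit 192))) (PT.nd (nat_lit 5304) (PT.lf (nat_lit 6916) (nat_lit 6) (nat_lit 91) (nat_lit 4) (nat_lit 123) (nat_lit 196) (nat_lit 191)) (PT.lf (nat_lit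 6916) (nat_lit 6) (nat_lit 91) (nat_lit 2) (nat_lit 191) (nat_lit 196) (nat_lit 123)))))) (PT.nd (nat_lit 46956) (PT.nd (nat_lit 312) (PT.nd (nat_lit 156) (PT.nd (nat_lit 78) (PT.lf (nat_lit 6688) (nat_lit 6) (nat_lit 88) (nat_lit 2) (nat_lit 192) (nat_lit 196) (nat_lit 122)) (PT.lf (nat_lit 6536) (nat_lit 6) (nat_lit 86) (nat_lit 2) (nat_lit 193) (nat_lit 196) (nat_lit 121))) (PT.nd (nat_lit 78) (PT.lf (nat_lit 6308) (nat_lit 6) (nat_lit 83) (nat_lit 2) (nat_lit 194) (nat_lit 196) (nat_lit 120)) (PT.lf (nat_lit 6156) (nat_lit 6) (nat_lit 81) (nat_lit 2) (nat_lit 195) (nat_lit 196) (nat_lit 119)))) (PT.nd (nat_lit 156) (PT.nd (nat_lit 78) (PT.lf (nat_lit 6004) (nat_lit 3) (nat_lit 79) (nat_lit 0) (nat_lit 196) (nat_lit 196) (nat_lit 118)) (PT.lf (nat_lit 5776) (nat_lit 6) (nat_lit 76) (nat_lit 0) (nat_lit 197) (nat_lit 196) (nat_lit 117))) (PT.nd (nat_lit 78) (PT.lf (nat_lit 5548) (nat_lit 6) (nat_lit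 73) (nat_lit 0) (nat_lit 198) (nat_lit 196) (nat_lit 116)) (PT.lf (nat_lit 5320) (nat_lit 6) (nat_lit 70) (nat_lit 0) (nat_lit 199) (nat_lit 196) (nat_lit 115))))) (PT.nd (nat_lit 312) (PT.nd (nat_lit 156) (PT.nd (nat_lit 78) (PT.lf (nat_lit 4940) (nat_lit 6) (nat_lit 65) (nat_lit 5) (nat_lit 113) (nat_lit 197) (nat_lit 200)) (PT.lf (nat_lit 5168) (nat_lit 6) (nat_lit 68) (nat_lit 5) (nat_lit 114) (nat_lit 197) (nat_lit 199))) (PT.nd (nat_lit 78) (PT.lf (nat_lit 5396) (nat_lit 6) (nat_lit 71) (nat_lit 5) (nat_lit 115) (nat_lit 197) (nat_lit 198)) (PT.lf (nat_lit 5624) (nat_lit 3) (nat_lit 74) (nat_lit 4) (nat_lit 116) (nat_lit 197) (nat_lit 197)))) (PT.nd (nat_lit 156) (PT.nd (nat_lit 78) (PT.lf (nat_lit 5776) (nat_lit 6) (nat_lit 76) (nat_lit 4) (nat_lit 117) (nat_lit 197) (nat_lit 196)) (PT.lf (nat_lit 5928) (nat_lit 6) (nat_lit 78) (nat_lit 4) (nat_lit 118) (nat_lit 197) (nat_lit 195))) (PT.nd (nat_lit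 78) (PT.lf (nat_lit 6080) (nat_lit 6) (nat_lit 80) (nat_lit 4) (nat_lit 119) (nat_lit 197) (nat_lit 194)) (PT.lf (nat_lit 6232) (nat_lit 6) (nat_lit 82) (nat_lit 4) (nat_lit 120) (nat_lit 197) (nat_lit 193))))))) (PT.nd (nat_lit 47268) (PT.nd (nat_lit 546) (PT.nd (nat_lit 234) (PT.nd (nat_lit 78) (PT.lf (nat_lit 6232) (nat_lit 6) (nat_lit 82) (nat_lit 2) (nat_lit 193) (nat_lit 197) (nat_lit 120)) (PT.nd (nat_lit 78) (PT.lf (nat_lit 6080) (nat_lit 6) (nat_lit 80) (nat_lit 2) (nat_lit 194) (nat_lit 197) (nat_lit 119)) (PT.lf (nat_lit 5928) (nat_lit 6) (nat_lit 78) (nat_lit 2) (nat_lit 195) (nat_lit 197) (nat_lit 118)))) (PT.nd (nat_lit 156) (PT.nd (nat_lit 78) (PT.lf (nat_lit 5776) (nat_lit 6) (nat_lit 76) (nat_lit 2) (nat_lit 196) (nat_lit 197) (nat_lit 117)) (PT.lf (nat_lit 5624) (nat_lit 3) (nat_lit 74) (nat_lit 0) (nat_lit 197) (nat_lit 197) (nat_lit 116))) (PT.nd (nat_lit 78) (PT.lf (nat_lit 5396)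 (nat_lit 6) (nat_lit 71) (nat_lit 0) (nat_lit 198) (nat_lit 197) (nat_lit 115)) (PT.lf (nat_lit 5168) (nat_lit 6) (nat_lit 68) (nat_lit 0) (nat_lit 199) (nat_lit 197) (nat_lit 114))))) (PT.nd (nat_lit 46410) (PT.nd (nat_lit 46254) (PT.nd (nat_lit 46176) (PT.lf (nat_lit 4940) (nat_lit 6) (nat_lit 65) (nat_lit 0) (nat_lit 200) (nat_lit 197) (nat_lit 113)) (PT.lf (nat_lit 4560) (nat_lit 6) (nat_lit 60) (nat_lit 5) (nat_lit 111) (nat_lit 198) (nat_lit 201))) (PT.nd (nat_lit 78) (PT.lf (nat_lit 4788) (nat_lit 6) (nat_lit 63) (nat_lit 5) (nat_lit 112) (nat_lit 198) (nat_lit 200)) (PT.lf (nat_lit 5016) (nat_lit 6) (nat_lit 66) (nat_lit 5) (nat_lit 113) (nat_lit 198) (nat_lit 199)))) (PT.nd (nat_lit 156) (PT.nd (nat_lit 78) (PT.lf (nat_lit 5244) (nat_lit 3) (nat_lit 69) (nat_lit 4) (nat_lit 114) (nat_lit 198) (nat_lit 198)) (PT.lf (nat_lit 5396) (nat_lit 6) (nat_lit 71) (nat_lit 4) (nat_lit 115) (nat_lit 198)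 (nat_lit 197))) (PT.nd (nat_lit 78) (PT.lf (nat_lit 5548) (nat_lit 6) (nat_lit 73) (nat_lit 4) (nat_lit 116) (nat_lit 198) (nat_lit 196)) (PT.lf (nat_lit 5700) (nat_lit 6) (nat_lit 75) (nat_lit 4) (nat_lit 117) (nat_lit 198) (nat_lit 195)))))) (PT.nd (nat_lit 6474) (PT.nd (nat_lit 6162) (PT.nd (nat_lit 6006) (PT.nd (nat_lit 5928) (PT.lf (nat_lit 5852) (nat_lit 6) (nat_lit 77) (nat_lit 4) (nat_lit 118) (nat_lit 198) (nat_lit 194)) (PT.lf (nat_lit 5852) (nat_lit 6) (nat_lit 77) (nat_lit 2) (nat_lit 194) (nat_lit 198) (nat_lit 118))) (PT.nd (nat_lit 78) (PT.lf (nat_lit 5700) (nat_lit 6) (nat_lit 75) (nat_lit 2) (nat_lit 195) (nat_lit 198) (nat_lit 117)) (PT.lf (nat_lit 5548) (nat_lit 6) (nat_lit 73) (nat_lit 2) (nat_lit 196) (nat_lit 198) (nat_lit 116)))) (PT.nd (nat_lit 156) (PT.nd (nat_lit 78) (PT.lf (nat_lit 5396) (nat_lit 6) (nat_lit 71) (nat_lit 2) (nat_lit 197) (nat_lit 198) (nat_lit 115)) (PT.lf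 (nat_lit 5244) (nat_lit 3) (nat_lit 69) (nat_lit 0) (nat_lit 198) (nat_lit 198) (nat_lit 114))) (PT.nd (nat_lit 78) (PT.lf (nat_lit 5016) (nat_lit 6) (nat_lit 66) (nat_lit 0) (nat_lit 199) (nat_lit 198) (nat_lit 113)) (PT.lf (nat_lit 4788) (nat_lit 6) (nat_lit 63) (nat_lit 0) (nat_lit 200) (nat_lit 198) (nat_lit 112))))) (PT.nd (nat_lit 46176) (PT.nd (nat_lit 46020) (PT.nd (nat_lit 45942) (PT.lf (nat_lit 4560) (nat_lit 6) (nat_lit 60) (nat_lit 0) (nat_lit 201) (nat_lit 198) (nat_lit 111)) (PT.lf (nat_lit 4256) (nat_lit 6) (nat_lit 56) (nat_lit 5) (nat_lit 109) (nat_lit 199) (nat_lit 202))) (PT.nd (nat_lit 78) (PT.lf (nat_lit 4408) (nat_lit 6) (nat_lit 58) (nat_lit 5) (nat_lit 110) (nat_lit 199) (nat_lit 201)) (PT.lf (nat_lit 4636) (nat_lit 6) (nat_lit 61) (nat_lit 5) (nat_lit 111) (nat_lit 199) (nat_lit 200)))) (PT.nd (nat_lit 156) (PT.nd (nat_lit 78) (PT.lf (nat_lit 4864) (nat_lit 3) (nat_lit 64)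 (nat_lit 4) (nat_lit 112) (nat_lit 199) (nat_lit 199)) (PT.lf (nat_lit 5016) (nat_lit 6) (nat_lit 66) (nat_lit 4) (nat_lit 113) (nat_lit 199) (nat_lit 198))) (PT.nd (nat_lit 78) (PT.lf (nat_lit 5168) (nat_lit 6) (nat_lit 68) (nat_lit 4) (nat_lit 114) (nat_lit 199) (nat_lit 197)) (PT.lf (nat_lit 5320) (nat_lit 6) (nat_lit 70) (nat_lit 4) (nat_lit 115) (nat_lit 199) (nat_lit 196))))))))
noncomputable def pc31 : PT := (PT.nd (nat_lit 112944) (PT.nd (nat_lit 59436) (PT.nd (nat_lit 6630) (PT.nd (nat_lit 6318) (PT.nd (nat_lit 6162) (PT.lf (nat_lit 5472) (nat_lit 6) (nat_lit 72) (nat_lit 4) (nat_lit 116) (nat_lit 199) (nat_lit 195)) (PT.nd (nat_lit 78) (PT.lf (nat_lit 5472) (nat_lit 6) (nat_lit 72) (nat_lit 2) (nat_lit 195) (nat_lit 199) (nat_lit 116)) (PT.lf (nat_lit 5320) (nat_lit 6) (nat_lit 70) (nat_lit 2) (nat_lit 196) (nat_lit 199) (nat_lit 115)))) (PT.nd (nat_lit 156) (PT.nd (nat_lit 78) (PT.lf (nat_lit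 5168) (nat_lit 6) (nat_lit 68) (nat_lit 2) (nat_lit 197) (nat_lit 199) (nat_lit 114)) (PT.lf (nat_lit 5016) (nat_lit 6) (nat_lit 66) (nat_lit 2) (nat_lit 198) (nat_lit 199) (nat_lit 113))) (PT.nd (nat_lit 78) (PT.lf (nat_lit 4864) (nat_lit 3) (nat_lit 64) (nat_lit 0) (nat_lit 199) (nat_lit 199) (nat_lit 112)) (PT.lf (nat_lit 4636) (nat_lit 6) (nat_lit 61) (nat_lit 0) (nat_lit 200) (nat_lit 199) (nat_lit 111))))) (PT.nd (nat_lit 46020) (PT.nd (nat_lit 45864) (PT.nd (nat_lit 78) (PT.lf (nat_lit 4408) (nat_lit 6) (nat_lit 58) (nat_lit 0) (nat_lit 201) (nat_lit 199) (nat_lit 110)) (PT.lf (nat_lit 4256) (nat_lit 6) (nat_lit 56) (nat_lit 0) (nat_lit 202) (nat_lit 199) (nat_lit 109))) (PT.nd (nat_lit 78) (PT.lf (nat_lit 4104) (nat_lit 6) (nat_lit 54) (nat_lit 5) (nat_lit 108) (nat_lit 200) (nat_lit 202)) (PT.lf (nat_lit 4332) (nat_lit 6) (nat_lit 57) (nat_lit 5) (nat_lit 109) (nat_lit 200) (nat_lit 201))))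 (PT.nd (nat_lit 156) (PT.nd (nat_lit 78) (PT.lf (nat_lit 4484) (nat_lit 3) (nat_lit 59) (nat_lit 4) (nat_lit 110) (nat_lit 200) (nat_lit 200)) (PT.lf (nat_lit 4636) (nat_lit 6) (nat_lit 61) (nat_lit 4) (nat_lit 111) (nat_lit 200) (nat_lit 199))) (PT.nd (nat_lit 78) (PT.lf (nat_lit 4788) (nat_lit 6) (nat_lit 63) (nat_lit 4) (nat_lit 112) (nat_lit 200) (nat_lit 198)) (PT.lf (nat_lit 4940) (nat_lit 6) (nat_lit 65) (nat_lit 4) (nat_lit 113) (nat_lit 200) (nat_lit 197)))))) (PT.nd (nat_lit 46176) (PT.nd (nat_lit 312) (PT.nd (nat_lit 156) (PT.nd (nat_lit 78) (PT.lf (nat_lit 4940) (nat_lit 6) (nat_lit 65) (nat_lit 2) (nat_lit 197) (nat_lit 200) (nat_lit 113)) (PT.lf (nat_lit 4788) (nat_lit 6) (nat_lit 63) (nat_lit 2) (nat_lit 198) (nat_lit 200) (nat_lit 112))) (PT.nd (nat_lit 78) (PT.lf (nat_lit 4636) (nat_lit 6) (nat_lit 61) (nat_lit 2) (nat_lit 199) (nat_lit 200) (nat_lit 111)) (PT.lf (nat_lit 4484) (nat_lit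 3) (nat_lit 59) (nat_lit 0) (nat_lit 200) (nat_lit 200) (nat_lit 110)))) (PT.nd (nat_lit 45708) (PT.nd (nat_lit 78) (PT.lf (nat_lit 4332) (nat_lit 6) (nat_lit 57) (nat_lit 0) (nat_lit 201) (nat_lit 200) (nat_lit 109)) (PT.lf (nat_lit 4104) (nat_lit 6) (nat_lit 54) (nat_lit 0) (nat_lit 202) (nat_lit 200) (nat_lit 108))) (PT.nd (nat_lit 78) (PT.lf (nat_lit 3800) (nat_lit 6) (nat_lit 50) (nat_lit 5) (nat_lit 106) (nat_lit 201) (nat_lit 203)) (PT.lf (nat_lit 4028) (nat_lit 6) (nat_lit 53) (nat_lit 5) (nat_lit 107) (nat_lit 201) (nat_lit 202))))) (PT.nd (nat_lit 7020) (PT.nd (nat_lit 156) (PT.nd (nat_lit 78) (PT.lf (nat_lit 4180) (nat_lit 3) (nat_lit 55) (nat_lit 4) (nat_lit 108) (nat_lit 201) (nat_lit 201)) (PT.lf (nat_lit 4332) (nat_lit 6) (nat_lit 57) (nat_lit 4) (nat_lit 109) (nat_lit 201) (nat_lit 200))) (PT.nd (nat_lit 78) (PT.lf (nat_lit 4408) (nat_lit 6) (nat_lit 58) (nat_lit 4) (nat_lit 110) (nat_lit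 201) (nat_lit 199)) (PT.lf (nat_lit 4560) (nat_lit 6) (nat_lit 60) (nat_lit 4) (nat_lit 111) (nat_lit 201) (nat_lit 198)))) (PT.nd (nat_lit 156) (PT.nd (nat_lit 78) (PT.lf (nat_lit 4560) (nat_lit 6) (nat_lit 60) (nat_lit 2) (nat_lit 198) (nat_lit 201) (nat_lit 111)) (PT.lf (nat_lit 4408) (nat_lit 6) (nat_lit 58) (nat_lit 2) (nat_lit 199) (nat_lit 201) (nat_lit 110))) (PT.nd (nat_lit 78) (PT.lf (nat_lit 4332) (nat_lit 6) (nat_lit 57) (nat_lit 2) (nat_lit 200) (nat_lit 201) (nat_lit 109)) (PT.lf (nat_lit 4180) (nat_lit 3) (nat_lit 55) (nat_lit 0) (nat_lit 201) (nat_lit 201) (nat_lit 108))))))) (PT.nd (nat_lit 98670) (PT.nd (nat_lit 52884) (PT.nd (nat_lit 45630) (PT.nd (nat_lit 45474) (PT.nd (nat_lit 78) (PT.lf (nat_lit 4028) (nat_lit 6) (nat_lit 53) (nat_lit 0) (nat_lit 202) (nat_lit 201) (nat_lit 107)) (PT.lf (nat_lit 3800) (nat_lit 6) (nat_lit 50) (nat_lit 0) (nat_lit 203) (nat_lit 201) (nat_lit 106)))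 (PT.nd (nat_lit 78) (PT.lf (nat_lit 3496) (nat_lit 6) (nat_lit 46) (nat_lit 5) (nat_lit 104) (nat_lit 202) (nat_lit 204)) (PT.lf (nat_lit 3724) (nat_lit 6) (nat_lit 49) (nat_lit 5) (nat_lit 105) (nat_lit 202) (nat_lit 203)))) (PT.nd (nat_lit 156) (PT.nd (nat_lit 78) (PT.lf (nat_lit 3876) (nat_lit 3) (nat_lit 51) (nat_lit 4) (nat_lit 106) (nat_lit 202) (nat_lit 202)) (PT.lf (nat_lit 4028) (nat_lit 6) (nat_lit 53) (nat_lit 4) (nat_lit 107) (nat_lit 202) (nat_lit 201))) (PT.nd (nat_lit 78) (PT.lf (nat_lit 4104) (nat_lit 6) (nat_lit 54) (nat_lit 4) (nat_lit 108) (nat_lit 202) (nat_lit 200)) (PT.lf (nat_lit 4256) (nat_lit 6) (nat_lit 56) (nat_lit 4) (nat_lit 109) (nat_lit 202) (nat_lit 199))))) (PT.nd (nat_lit 312) (PT.nd (nat_lit 156) (PT.nd (nat_lit 78) (PT.lf (nat_lit 4256) (nat_lit 6) (nat_lit 56) (nat_lit 2) (nat_lit 199) (nat_lit 202) (nat_lit 109)) (PT.lf (nat_lit 4104) (nat_lit 6) (nat_lit 54) (nat_lit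 2) (nat_lit 200) (nat_lit 202) (nat_lit 108))) (PT.nd (nat_lit 78) (PT.lf (nat_lit 4028) (nat_lit 6) (nat_lit 53) (nat_lit 2) (nat_lit 201) (nat_lit 202) (nat_lit 107)) (PT.lf (nat_lit 3876) (nat_lit 3) (nat_lit 51) (nat_lit 0) (nat_lit 202) (nat_lit 202) (nat_lit 106)))) (PT.nd (nat_lit 45318) (PT.nd (nat_lit 78) (PT.lf (nat_lit 3724) (nat_lit 6) (nat_lit 49) (nat_lit 0) (nat_lit 203) (nat_lit 202) (nat_lit 105)) (PT.lf (nat_lit 3496) (nat_lit 6) (nat_lit 46) (nat_lit 0) (nat_lit 204) (nat_lit 202) (nat_lit 104))) (PT.nd (nat_lit 78) (PT.lf (nat_lit 3420) (nat_lit 6) (nat_lit 45) (nat_lit 5) (nat_lit 103) (nat_lit 203) (nat_lit 204)) (PT.lf (nat_lit 3572) (nat_lit 3) (nat_lit 47) (nat_lit 4) (nat_lit 104) (nat_lit 203) (nat_lit 203)))))) (PT.nd (nat_lit 60684) (PT.nd (nat_lit 7644) (PT.nd (nat_lit 7488) (PT.nd (nat_lit 78) (PT.lf (nat_lit 3724) (nat_lit 6) (nat_lit 49) (nat_lit 4) (nat_lit 105) (nat_lit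 203) (nat_lit 202)) (PT.lf (nat_lit 3800) (nat_lit 6) (nat_lit 50) (nat_lit 4) (nat_lit 106) (nat_lit 203) (nat_lit 201))) (PT.nd (nat_lit 78) (PT.lf (nat_lit 3800) (nat_lit 6) (nat_lit 50) (nat_lit 2) (nat_lit 201) (nat_lit 203) (nat_lit 106)) (PT.lf (nat_lit 3724) (nat_lit 6) (nat_lit 49) (nat_lit 2) (nat_lit 202) (nat_lit 203) (nat_lit 105)))) (PT.nd (nat_lit 45318) (PT.nd (nat_lit 78) (PT.lf (nat_lit 3572) (nat_lit 3) (nat_lit 47) (nat_lit 0) (nat_lit 203) (nat_lit 203) (nat_lit 104)) (PT.lf (nat_lit 3420) (nat_lit 6) (nat_lit 45) (nat_lit 0) (nat_lit 204) (nat_lit 203) (nat_lit 103))) (PT.nd (nat_lit 78) (PT.lf (nat_lit 3420) (nat_lit 6) (nat_lit 45) (nat_lit 4) (nat_lit 103) (nat_lit 204) (nat_lit 203)) (PT.lf (nat_lit 3496) (nat_lit 6) (nat_lit 46) (nat_lit 4) (nat_lit 104) (nat_lit 204) (nat_lit 202))))) (PT.nd (nat_lit 744900) (PT.nd (nat_lit 733590) (PT.nd (nat_lit 78) (PT.lf (nat_lit 3496)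 (nat_lit 6) (nat_lit 46) (nat_lit 2) (nat_lit 202) (nat_lit 204) (nat_lit 104)) (PT.lf (nat_lit 3420) (nat_lit 6) (nat_lit 45) (nat_lit 2) (nat_lit 203) (nat_lit 204) (nat_lit 103))) (PT.nd (nat_lit 78) (PT.lf (nat_lit 76) (nat_lit 6) (nat_lit 1) (nat_lit 5) (nat_lit 73) (nat_lit 218) (nat_lit 219)) (PT.lf (nat_lit 152) (nat_lit 3) (nat_lit 2) (nat_lit 4) (nat_lit 74) (nat_lit 218) (nat_lit 218)))) (PT.nd (nat_lit 41808) (PT.nd (nat_lit 78) (PT.lf (nat_lit 152) (nat_lit 3) (nat_lit 2) (nat_lit 0) (nat_lit 218) (nat_lit 218) (nat_lit 74)) (PT.lf (nat_lit 76) (nat_lit 6) (nat_lit 1) (nat_lit 0) (nat_lit 219) (nat_lit 218) (nat_lit 73))) (PT.nd (nat_lit 11310) (PT.lf (nat_lit 76) (nat_lit 6) (nat_lit 1) (nat_lit 4) (nat_lit 73) (nat_lit 219) (nat_lit 218)) (PT.lf (nat_lit 76) (nat_lit 6) (nat_lit 1) (nat_lit 2) (nat_lit 218) (nat_lit 219) (nat_lit 73))))))))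
noncomputable def xc0 : XT := (XT.nd (nat_lit 212004) (nat_lit 0) (nat_lit 0) (XT.nd (nat_lit 158808) (nat_lit 0) (nat_lit 0) (XT.nd (nat_lit 105846) (nat_lit 0) (nat_lit 0) (XT.nd (nat_lit 52962) (nat_lit 0) (nat_lit 0) (XT.nd (nat_lit 52884) (nat_lit 0) (nat_lit 380) (XT.lf (nat_lit 0) (nat_lit 11753070256) (nat_lit 76) (nat_lit 2797142844) (nat_lit 76) (nat_lit 2323106601) (nat_lit 9) (nat_lit 4) (nat_lit 10) (nat_lit 5) (nat_lit 10) (nat_lit 4) (nat_lit 429) (nat_lit 296) (nat_lit 295)) (XT.lf (nat_lit 0) (nat_lit 1809126128) (nat_lit 152) (nat_lit 4376213016) (nat_lit 0) (nat_lit 1809126128) (nat_lit 14) (nat_lit 5) (nat_lit 16) (nat_lit 4) (nat_lit 14) (nat_lit 4) (nat_lit 426) (nat_lit 297) (nat_lit 297))) (XT.nd (nat_lit 78) (nat_lit 228) (nat_lit 0) (XT.lf (nat_lit 0) (nat_lit 8842146979) (nat_lit 152) (nat_lit 3966075195) (nat_lit 152) (nat_lit 3468052718) (nat_lit 12) (nat_lit 4) (nat_lit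 14) (nat_lit 5) (nat_lit 14) (nat_lit 4) (nat_lit 427) (nat_lit 297) (nat_lit 296)) (XT.nd (nat_lit 78) (nat_lit 76) (nat_lit 0) (XT.lf (nat_lit 0) (nat_lit 5595903224) (nat_lit 152) (nat_lit 6342613979) (nat_lit 0) (nat_lit 4633609650) (nat_lit 10) (nat_lit 5) (nat_lit 12) (nat_lit 4) (nat_lit 10) (nat_lit 4) (nat_lit 428) (nat_lit 297) (nat_lit 295)) (XT.lf (nat_lit 0) (nat_lit 11401615018) (nat_lit 76) (nat_lit 3448996407) (nat_lit 76) (nat_lit 2026473471) (nat_lit 9) (nat_lit 4) (nat_lit 10) (nat_lit 5) (nat_lit 10) (nat_lit 4) (nat_lit 429) (nat_lit 297) (nat_lit 294))))) (XT.nd (nat_lit 234) (nat_lit 380) (nat_lit 0) (XT.nd (nat_lit 78) (nat_lit 304) (nat_lit 0) (XT.lf (nat_lit 0) (nat_lit 903549363) (nat_lit 152) (nat_lit 5911559072) (nat_lit 0) (nat_lit 903549363) (nat_lit 18) (nat_lit 5) (nat_lit 20) (nat_lit 4) (nat_lit 18) (nat_lit 4) (nat_lit 424) (nat_lit 298) (nat_lit 298)) (XT.nd (nat_lit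 78) (nat_lit 152) (nat_lit 0) (XT.lf (nat_lit 0) (nat_lit 5425731103) (nat_lit 152) (nat_lit 5403664205) (nat_lit 152) (nat_lit 4880441791) (nat_lit 16) (nat_lit 4) (nat_lit 18) (nat_lit 5) (nat_lit 18) (nat_lit 4) (nat_lit 425) (nat_lit 298) (nat_lit 297)) (XT.lf (nat_lit 0) (nat_lit 4037715638) (nat_lit 152) (nat_lit 8926359165) (nat_lit 0) (nat_lit 3026730010) (nat_lit 14) (nat_lit 5) (nat_lit 16) (nat_lit 4) (nat_lit 14) (nat_lit 4) (nat_lit 426) (nat_lit 298) (nat_lit 296)))) (XT.nd (nat_lit 78) (nat_lit 228) (nat_lit 0) (XT.lf (nat_lit 0) (nat_lit 8494791094) (nat_lit 152) (nat_lit 4639862723) (nat_lit 152) (nat_lit 3145360127) (nat_lit 12) (nat_lit 4) (nat_lit 14) (nat_lit 5) (nat_lit 14) (nat_lit 4) (nat_lit 427) (nat_lit 298) (nat_lit 295)) (XT.nd (nat_lit 78) (nat_lit 76) (nat_lit 0) (XT.lf (nat_lit 0) (nat_lit 5816246533) (nat_lit 152) (nat_lit 6870725213) (nat_lit 0) (nat_lit 3890818547)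 (nat_lit 10) (nat_lit 5) (nat_lit 12) (nat_lit 4) (nat_lit 10) (nat_lit 4) (nat_lit 428) (nat_lit 298) (nat_lit 294)) (XT.lf (nat_lit 0) (nat_lit 10698397445) (nat_lit 76) (nat_lit 4279236871) (nat_lit 76) (nat_lit 1906984262) (nat_lit 9) (nat_lit 4) (nat_lit 10) (nat_lit 5) (nat_lit 10) (nat_lit 4) (nat_lit 429) (nat_lit 298) (nat_lit 293)))))) (XT.nd (nat_lit 390) (nat_lit 380) (nat_lit 0) (XT.nd (nat_lit 156) (nat_lit 456) (nat_lit 0) (XT.nd (nat_lit 78) (nat_lit 304) (nat_lit 0) (XT.lf (nat_lit 0) (nat_lit 7270844780) (nat_lit 152) (nat_lit 92956143) (nat_lit 152) (nat_lit 92956143) (nat_lit 24) (nat_lit 4) (nat_lit 26) (nat_lit 5) (nat_lit 26) (nat_lit 4) (nat_lit 422) (nat_lit 299) (nat_lit 299)) (XT.lf (nat_lit 0) (nat_lit 1598512078) (nat_lit 152) (nat_lit 7061670870) (nat_lit 152) (nat_lit 6511973402) (nat_lit 20) (nat_lit 4) (nat_lit 22) (nat_lit 5) (nat_lit 22) (nat_lit 4) (nat_lit 423)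 (nat_lit 299) (nat_lit 298))) (XT.nd (nat_lit 78) (nat_lit 304) (nat_lit 0) (XT.lf (nat_lit 0) (nat_lit 2253157272) (nat_lit 152) (nat_lit 11995004256) (nat_lit 0) (nat_lit 1191015771) (nat_lit 18) (nat_lit 5) (nat_lit 20) (nat_lit 4) (nat_lit 18) (nat_lit 4) (nat_lit 424) (nat_lit 299) (nat_lit 297)) (XT.nd (nat_lit 78) (nat_lit 152) (nat_lit 0) (XT.lf (nat_lit 0) (nat_lit 5082463252) (nat_lit 152) (nat_lit 6100606012) (nat_lit 152) (nat_lit 4530481585) (nat_lit 16) (nat_lit 4) (nat_lit 18) (nat_lit 5) (nat_lit 18) (nat_lit 4) (nat_lit 425) (nat_lit 299) (nat_lit 296)) (XT.lf (nat_lit 0) (nat_lit 4285486679) (nat_lit 152) (nat_lit 9448310541) (nat_lit 0) (nat_lit 2262632037) (nat_lit 14) (nat_lit 5) (nat_lit 16) (nat_lit 4) (nat_lit 14) (nat_lit 4) (nat_lit 426) (nat_lit 299) (nat_lit 295))))) (XT.nd (nat_lit 52572) (nat_lit 0) (nat_lit 1064) (XT.nd (nat_lit 78) (nat_lit 228) (nat_lit 0) (XT.lf (nat_lit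 0) (nat_lit 7799775809) (nat_lit 152) (nat_lit 5490004049) (nat_lit 152) (nat_lit 2997715458) (nat_lit 12) (nat_lit 4) (nat_lit 14) (nat_lit 5) (nat_lit 14) (nat_lit 4) (nat_lit 427) (nat_lit 299) (nat_lit 294)) (XT.nd (nat_lit 78) (nat_lit 76) (nat_lit 0) (XT.lf (nat_lit 0) (nat_lit 5863028176) (nat_lit 152) (nat_lit 7751423317) (nat_lit 0) (nat_lit 2972783366) (nat_lit 10) (nat_lit 5) (nat_lit 12) (nat_lit 4) (nat_lit 10) (nat_lit 4) (nat_lit 428) (nat_lit 299) (nat_lit 293)) (XT.lf (nat_lit 0) (nat_lit 9642803076) (nat_lit 76) (nat_lit 5288589689) (nat_lit 76) (nat_lit 1964534565) (nat_lit 9) (nat_lit 4) (nat_lit 10) (nat_lit 5) (nat_lit 10) (nat_lit 4) (nat_lit 429) (nat_lit 299) (nat_lit 292)))) (XT.nd (nat_lit 78) (nat_lit 456) (nat_lit 0) (XT.lf (nat_lit 0) (nat_lit 4897874918) (nat_lit 152) (nat_lit 1154802809) (nat_lit 152) (nat_lit 1154802809) (nat_lit 29) (nat_lit 4) (nat_lit 31) (nat_lit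 5) (nat_lit 31) (nat_lit 4) (nat_lit 420) (nat_lit 300) (nat_lit 300)) (XT.nd (nat_lit 78) (nat_lit 228) (nat_lit 0) (XT.lf (nat_lit 0) (nat_lit 6358472072) (nat_lit 228) (nat_lit 2521761329) (nat_lit 0) (nat_lit 5780959912) (nat_lit 26) (nat_lit 5) (nat_lit 29) (nat_lit 4) (nat_lit 26) (nat_lit 4) (nat_lit 421) (nat_lit 300) (nat_lit 299)) (XT.lf (nat_lit 0) (nat_lit 295813715) (nat_lit 228) (nat_lit 540659872) (nat_lit 76) (nat_lit 14078807419) (nat_lit 23) (nat_lit 5) (nat_lit 26) (nat_lit 5) (nat_lit 24) (nat_lit 4) (nat_lit 422) (nat_lit 300) (nat_lit 298))))))) (XT.nd (nat_lit 53040) (nat_lit 0) (nat_lit 0) (XT.nd (nat_lit 390) (nat_lit 228) (nat_lit 0) (XT.nd (nat_lit 156) (nat_lit 456) (nat_lit 0) (XT.nd (nat_lit 78) (nat_lit 152) (nat_lit 0) (XT.lf (nat_lit 0) (nat_lit 1259322557) (nat_lit 152) (nat_lit 7783047914) (nat_lit 152) (nat_lit 6133475191) (nat_lit 20) (nat_lit 4) (nat_lit 22) (nat_lit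 5) (nat_lit 22) (nat_lit 4) (nat_lit 423) (nat_lit 300) (nat_lit 297)) (XT.lf (nat_lit 0) (nat_lit 2529581165) (nat_lit 152) (nat_lit 12510812782) (nat_lit 0) (nat_lit 404370079) (nat_lit 18) (nat_lit 5) (nat_lit 20) (nat_lit 4) (nat_lit 18) (nat_lit 4) (nat_lit 424) (nat_lit 300) (nat_lit 296))) (XT.nd (nat_lit 78) (nat_lit 304) (nat_lit 0) (XT.lf (nat_lit 0) (nat_lit 4395627608) (nat_lit 152) (nat_lit 6971876191) (nat_lit 152) (nat_lit 4353477797) (nat_lit 16) (nat_lit 4) (nat_lit 18) (nat_lit 5) (nat_lit 18) (nat_lit 4) (nat_lit 425) (nat_lit 300) (nat_lit 295)) (XT.nd (nat_lit 78) (nat_lit 152) (nat_lit 0) (XT.lf (nat_lit 0) (nat_lit 4361781876) (nat_lit 152) (nat_lit 10318736235) (nat_lit 0) (nat_lit 1325290678) (nat_lit 14) (nat_lit 5) (nat_lit 16) (nat_lit 4) (nat_lit 14) (nat_lit 4) (nat_lit 426) (nat_lit 300) (nat_lit 294)) (XT.lf (nat_lit 0) (nat_lit 6756493830) (nat_lit 152) (nat_lit 6517242014)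 (nat_lit 152) (nat_lit 3024989700) (nat_lit 12) (nat_lit 4) (nat_lit 14) (nat_lit 5) (nat_lit 14) (nat_lit 4) (nat_lit 427) (nat_lit 300) (nat_lit 293))))) (XT.nd (nat_lit 52416) (nat_lit 0) (nat_lit 1292) (XT.nd (nat_lit 78) (nat_lit 76) (nat_lit 0) (XT.lf (nat_lit 0) (nat_lit 5736289031) (nat_lit 152) (nat_lit 8985477833) (nat_lit 0) (nat_lit 1878701938) (nat_lit 10) (nat_lit 5) (nat_lit 12) (nat_lit 4) (nat_lit 10) (nat_lit 4) (nat_lit 428) (nat_lit 300) (nat_lit 292)) (XT.nd (nat_lit 52260) (nat_lit 0) (nat_lit 1900) (XT.lf (nat_lit 0) (nat_lit 8233909546) (nat_lit 76) (nat_lit 6477936820) (nat_lit 76) (nat_lit 2199174666) (nat_lit 9) (nat_lit 4) (nat_lit 10) (nat_lit 5) (nat_lit 10) (nat_lit 4) (nat_lit 429) (nat_lit 300) (nat_lit 291)) (XT.lf (nat_lit 0) (nat_lit 2429585433) (nat_lit 152) (nat_lit 2270481328) (nat_lit 152) (nat_lit 2270481328) (nat_lit 34) (nat_lit 4) (nat_lit 36) (nat_lit 5)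 (nat_lit 36) (nat_lit 4) (nat_lit 418) (nat_lit 301) (nat_lit 301)))) (XT.nd (nat_lit 78) (nat_lit 380) (nat_lit 0) (XT.lf (nat_lit 0) (nat_lit 3956352711) (nat_lit 228) (nat_lit 6869491500) (nat_lit 0) (nat_lit 3349618435) (nat_lit 31) (nat_lit 5) (nat_lit 34) (nat_lit 4) (nat_lit 31) (nat_lit 4) (nat_lit 419) (nat_lit 301) (nat_lit 300)) (XT.nd (nat_lit 78) (nat_lit 228) (nat_lit 0) (XT.lf (nat_lit 0) (nat_lit 9632668449) (nat_lit 152) (nat_lit 2989941973) (nat_lit 152) (nat_lit 1794145294) (nat_lit 29) (nat_lit 4) (nat_lit 31) (nat_lit 5) (nat_lit 31) (nat_lit 4) (nat_lit 420) (nat_lit 301) (nat_lit 299)) (XT.lf (nat_lit 0) (nat_lit 6772685629) (nat_lit 228) (nat_lit 2852485402) (nat_lit 0) (nat_lit 5039644526) (nat_lit 26) (nat_lit 5) (nat_lit 29) (nat_lit 4) (nat_lit 26) (nat_lit 4) (nat_lit 421) (nat_lit 301) (nat_lit 298)))))) (XT.nd (nat_lit 390) (nat_lit 380) (nat_lit 0) (XT.nd (nat_lit 156)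 (nat_lit 456) (nat_lit 0) (XT.nd (nat_lit 78) (nat_lit 228) (nat_lit 0) (XT.lf (nat_lit 0) (nat_lit 610819867) (nat_lit 228) (nat_lit 1043545570) (nat_lit 76) (nat_lit 13266293080) (nat_lit 23) (nat_lit 5) (nat_lit 26) (nat_lit 5) (nat_lit 24) (nat_lit 4) (nat_lit 422) (nat_lit 301) (nat_lit 297)) (XT.lf (nat_lit 0) (nat_lit 580647136) (nat_lit 152) (nat_lit 8676734864) (nat_lit 152) (nat_lit 5925845512) (nat_lit 20) (nat_lit 4) (nat_lit 22) (nat_lit 5) (nat_lit 22) (nat_lit 4) (nat_lit 423) (nat_lit 301) (nat_lit 296))) (XT.nd (nat_lit 78) (nat_lit 304) (nat_lit 0) (XT.lf (nat_lit 0) (nat_lit 2079371785) (nat_lit 76) (nat_lit 560881774) (nat_lit 152) (nat_lit 12813754270) (nat_lit 18) (nat_lit 5) (nat_lit 19) (nat_lit 5) (nat_lit 20) (nat_lit 4) (nat_lit 424) (nat_lit 301) (nat_lit 295)) (XT.nd (nat_lit 78) (nat_lit 152) (nat_lit 0) (XT.lf (nat_lit 0) (nat_lit 3364624023) (nat_lit 152) (nat_lit 8018236044)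 (nat_lit 152) (nat_lit 4349275763) (nat_lit 16) (nat_lit 4) (nat_lit 18) (nat_lit 5) (nat_lit 18) (nat_lit 4) (nat_lit 425) (nat_lit 301) (nat_lit 294)) (XT.lf (nat_lit 0) (nat_lit 4266667896) (nat_lit 152) (nat_lit 11538396813) (nat_lit 0) (nat_lit 213886897) (nat_lit 14) (nat_lit 5) (nat_lit 16) (nat_lit 4) (nat_lit 14) (nat_lit 4) (nat_lit 426) (nat_lit 301) (nat_lit 293))))) (XT.nd (nat_lit 52260) (nat_lit 0) (nat_lit 1900) (XT.nd (nat_lit 78) (nat_lit 228) (nat_lit 0) (XT.lf (nat_lit 0) (nat_lit 5364033550) (nat_lit 152) (nat_lit 7722474204) (nat_lit 152) (nat_lit 3227206685) (nat_lit 12) (nat_lit 4) (nat_lit 14) (nat_lit 5) (nat_lit 14) (nat_lit 4) (nat_lit 427) (nat_lit 301) (nat_lit 292)) (XT.nd (nat_lit 78) (nat_lit 76) (nat_lit 0) (XT.lf (nat_lit 0) (nat_lit 5435918353) (nat_lit 152) (nat_lit 10573967062) (nat_lit 0) (nat_lit 607618272) (nat_lit 10) (nat_lit 5) (nat_lit 12) (nat_lit 4) (nat_lit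 10) (nat_lit 4) (nat_lit 428) (nat_lit 301) (nat_lit 291)) (XT.lf (nat_lit 0) (nat_lit 6470485783) (nat_lit 76) (nat_lit 7848317499) (nat_lit 76) (nat_lit 2611109591) (nat_lit 9) (nat_lit 4) (nat_lit 10) (nat_lit 5) (nat_lit 10) (nat_lit 4) (nat_lit 429) (nat_lit 301) (nat_lit 290)))) (XT.nd (nat_lit 78) (nat_lit 532) (nat_lit 0) (XT.lf (nat_lit 0) (nat_lit 3321424209) (nat_lit 228) (nat_lit 102403477) (nat_lit 0) (nat_lit 3321424209) (nat_lit 41) (nat_lit 5) (nat_lit 44) (nat_lit 4) (nat_lit 41) (nat_lit 4) (nat_lit 416) (nat_lit 302) (nat_lit 302)) (XT.nd (nat_lit 78) (nat_lit 152) (nat_lit 0) (XT.lf (nat_lit 0) (nat_lit 1475528583) (nat_lit 228) (nat_lit 11400101382) (nat_lit 0) (nat_lit 838093553) (nat_lit 36) (nat_lit 5) (nat_lit 39) (nat_lit 4) (nat_lit 36) (nat_lit 4) (nat_lit 417) (nat_lit 302) (nat_lit 301)) (XT.lf (nat_lit 0) (nat_lit 4698089239) (nat_lit 152) (nat_lit 5250547439) (nat_lit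 152) (nat_lit 3994243448) (nat_lit 34) (nat_lit 4) (nat_lit 36) (nat_lit 5) (nat_lit 36) (nat_lit 4) (nat_lit 418) (nat_lit 302) (nat_lit 300))))))))
noncomputable def xc1 : XT := (XT.nd (nat_lit 53586) (nat_lit 0) (nat_lit 0) (XT.nd (nat_lit 52728) (nat_lit 0) (nat_lit 760) (XT.nd (nat_lit 390) (nat_lit 988) (nat_lit 0) (XT.nd (nat_lit 156) (nat_lit 532) (nat_lit 0) (XT.nd (nat_lit 78) (nat_lit 152) (nat_lit 0) (XT.lf (nat_lit 0) (nat_lit 4401795446) (nat_lit 228) (nat_lit 7196204868) (nat_lit 0) (nat_lit 2581062463) (nat_lit 31) (nat_lit 5) (nat_lit 34) (nat_lit 4) (nat_lit 31) (nat_lit 4) (nat_lit 419) (nat_lit 302) (nat_lit 299)) (XT.lf (nat_lit 0) (nat_lit 9143281788) (nat_lit 152) (nat_lit 3835748823) (nat_lit 152) (nat_lit 1443110594) (nat_lit 29) (nat_lit 4) (nat_lit 31) (nat_lit 5) (nat_lit 31) (nat_lit 4) (nat_lit 420) (nat_lit 302) (nat_lit 298))) (XT.nd (nat_lit 78) (nat_lit 304) (nat_lit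 0) (XT.lf (nat_lit 0) (nat_lit 7023962518) (nat_lit 228) (nat_lit 3514222530) (nat_lit 0) (nat_lit 4133878165) (nat_lit 26) (nat_lit 5) (nat_lit 29) (nat_lit 4) (nat_lit 26) (nat_lit 4) (nat_lit 421) (nat_lit 302) (nat_lit 297)) (XT.nd (nat_lit 78) (nat_lit 76) (nat_lit 0) (XT.lf (nat_lit 0) (nat_lit 761819689) (nat_lit 228) (nat_lit 1879714017) (nat_lit 76) (nat_lit 12288141803) (nat_lit 23) (nat_lit 5) (nat_lit 26) (nat_lit 5) (nat_lit 24) (nat_lit 4) (nat_lit 422) (nat_lit 302) (nat_lit 296)) (XT.lf (nat_lit 0) (nat_lit 9308249892) (nat_lit 152) (nat_lit 432361346) (nat_lit 0) (nat_lit 5453640221) (nat_lit 22) (nat_lit 5) (nat_lit 24) (nat_lit 4) (nat_lit 22) (nat_lit 4) (nat_lit 423) (nat_lit 302) (nat_lit 295))))) (XT.nd (nat_lit 234) (nat_lit 380) (nat_lit 0) (XT.nd (nat_lit 78) (nat_lit 304) (nat_lit 0) (XT.lf (nat_lit 0) (nat_lit 879537308) (nat_lit 76) (nat_lit 1705881533) (nat_lit 152) (nat_lit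 12881494992) (nat_lit 18) (nat_lit 5) (nat_lit 19) (nat_lit 5) (nat_lit 20) (nat_lit 4) (nat_lit 424) (nat_lit 302) (nat_lit 294)) (XT.nd (nat_lit 78) (nat_lit 152) (nat_lit 0) (XT.lf (nat_lit 0) (nat_lit 1988551620) (nat_lit 152) (nat_lit 9240599868) (nat_lit 152) (nat_lit 4517871812) (nat_lit 16) (nat_lit 4) (nat_lit 18) (nat_lit 5) (nat_lit 18) (nat_lit 4) (nat_lit 425) (nat_lit 302) (nat_lit 293)) (XT.lf (nat_lit 0) (nat_lit 2920313817) (nat_lit 76) (nat_lit 1086804065) (nat_lit 152) (nat_lit 12028610186) (nat_lit 14) (nat_lit 5) (nat_lit 15) (nat_lit 5) (nat_lit 16) (nat_lit 4) (nat_lit 426) (nat_lit 302) (nat_lit 292)))) (XT.nd (nat_lit 78) (nat_lit 228) (nat_lit 0) (XT.lf (nat_lit 0) (nat_lit 3621178256) (nat_lit 152) (nat_lit 9106753737) (nat_lit 152) (nat_lit 3604543108) (nat_lit 12) (nat_lit 4) (nat_lit 14) (nat_lit 5) (nat_lit 14) (nat_lit 4) (nat_lit 427) (nat_lit 302) (nat_lit 291)) (XT.nd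 (nat_lit 78) (nat_lit 76) (nat_lit 0) (XT.lf (nat_lit 0) (nat_lit 4114427962) (nat_lit 76) (nat_lit 852762421) (nat_lit 152) (nat_lit 11671053281) (nat_lit 10) (nat_lit 5) (nat_lit 11) (nat_lit 5) (nat_lit 12) (nat_lit 4) (nat_lit 428) (nat_lit 302) (nat_lit 290)) (XT.lf (nat_lit 0) (nat_lit 4350990932) (nat_lit 76) (nat_lit 9400929146) (nat_lit 76) (nat_lit 3200699283) (nat_lit 9) (nat_lit 4) (nat_lit 10) (nat_lit 5) (nat_lit 10) (nat_lit 4) (nat_lit 429) (nat_lit 302) (nat_lit 289)))))) (XT.nd (nat_lit 390) (nat_lit 1140) (nat_lit 0) (XT.nd (nat_lit 156) (nat_lit 760) (nat_lit 0) (XT.nd (nat_lit 78) (nat_lit 228) (nat_lit 0) (XT.lf (nat_lit 0) (nat_lit 1945161360) (nat_lit 228) (nat_lit 2640319964) (nat_lit 0) (nat_lit 1945161360) (nat_lit 47) (nat_lit 5) (nat_lit 50) (nat_lit 4) (nat_lit 47) (nat_lit 4) (nat_lit 414) (nat_lit 303) (nat_lit 303)) (XT.lf (nat_lit 0) (nat_lit 10511330219) (nat_lit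 228) (nat_lit 1722832402) (nat_lit 228) (nat_lit 1039749374) (nat_lit 44) (nat_lit 4) (nat_lit 47) (nat_lit 5) (nat_lit 47) (nat_lit 4) (nat_lit 415) (nat_lit 303) (nat_lit 302))) (XT.nd (nat_lit 78) (nat_lit 532) (nat_lit 0) (XT.lf (nat_lit 0) (nat_lit 7225163065) (nat_lit 228) (nat_lit 361803706) (nat_lit 0) (nat_lit 5905290092) (nat_lit 41) (nat_lit 5) (nat_lit 44) (nat_lit 4) (nat_lit 41) (nat_lit 4) (nat_lit 416) (nat_lit 303) (nat_lit 301)) (XT.nd (nat_lit 78) (nat_lit 152) (nat_lit 0) (XT.lf (nat_lit 0) (nat_lit 1953678032) (nat_lit 228) (nat_lit 11722808478) (nat_lit 0) (nat_lit 40815960) (nat_lit 36) (nat_lit 5) (nat_lit 39) (nat_lit 4) (nat_lit 36) (nat_lit 4) (nat_lit 417) (nat_lit 303) (nat_lit 300)) (XT.lf (nat_lit 0) (nat_lit 4214703607) (nat_lit 152) (nat_lit 6123617822) (nat_lit 152) (nat_lit 3609912099) (nat_lit 34) (nat_lit 4) (nat_lit 36) (nat_lit 5) (nat_lit 36) (nat_lit 4) (nat_lit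 418) (nat_lit 303) (nat_lit 299))))) (XT.nd (nat_lit 234) (nat_lit 532) (nat_lit 0) (XT.nd (nat_lit 78) (nat_lit 380) (nat_lit 0) (XT.lf (nat_lit 0) (nat_lit 4686335863) (nat_lit 228) (nat_lit 7849917083) (nat_lit 0) (nat_lit 1650013241) (nat_lit 31) (nat_lit 5) (nat_lit 34) (nat_lit 4) (nat_lit 31) (nat_lit 4) (nat_lit 419) (nat_lit 303) (nat_lit 298)) (XT.nd (nat_lit 78) (nat_lit 228) (nat_lit 0) (XT.lf (nat_lit 0) (nat_lit 8327162233) (nat_lit 152) (nat_lit 4847765225) (nat_lit 152) (nat_lit 1256194791) (nat_lit 29) (nat_lit 4) (nat_lit 31) (nat_lit 5) (nat_lit 31) (nat_lit 4) (nat_lit 420) (nat_lit 303) (nat_lit 297)) (XT.lf (nat_lit 0) (nat_lit 7112522301) (nat_lit 228) (nat_lit 4507550931) (nat_lit 0) (nat_lit 3062869381) (nat_lit 26) (nat_lit 5) (nat_lit 29) (nat_lit 4) (nat_lit 26) (nat_lit 4) (nat_lit 421) (nat_lit 303) (nat_lit 296)))) (XT.nd (nat_lit 78) (nat_lit 304) (nat_lit 0) (XT.lf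 (nat_lit 0) (nat_lit 748945123) (nat_lit 228) (nat_lit 3049895846) (nat_lit 76) (nat_lit 11143498892) (nat_lit 23) (nat_lit 5) (nat_lit 26) (nat_lit 5) (nat_lit 24) (nat_lit 4) (nat_lit 422) (nat_lit 303) (nat_lit 295)) (XT.nd (nat_lit 78) (nat_lit 228) (nat_lit 0) (XT.lf (nat_lit 0) (nat_lit 9198155369) (nat_lit 152) (nat_lit 1774251758) (nat_lit 0) (nat_lit 4236457273) (nat_lit 22) (nat_lit 5) (nat_lit 24) (nat_lit 4) (nat_lit 22) (nat_lit 4) (nat_lit 423) (nat_lit 303) (nat_lit 294)) (XT.lf (nat_lit 0) (nat_lit 2366679163) (nat_lit 228) (nat_lit 655180050) (nat_lit 76) (nat_lit 12461601099) (nat_lit 19) (nat_lit 5) (nat_lit 22) (nat_lit 5) (nat_lit 20) (nat_lit 4) (nat_lit 424) (nat_lit 303) (nat_lit 293))))))) (XT.nd (nat_lit 52572) (nat_lit 0) (nat_lit 152) (XT.nd (nat_lit 52104) (nat_lit 0) (nat_lit 2052) (XT.nd (nat_lit 156) (nat_lit 380) (nat_lit 0) (XT.nd (nat_lit 78) (nat_lit 152) (nat_lit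 0) (XT.lf (nat_lit 0) (nat_lit 266208005) (nat_lit 152) (nat_lit 10640035747) (nat_lit 152) (nat_lit 4859413260) (nat_lit 16) (nat_lit 4) (nat_lit 18) (nat_lit 5) (nat_lit 18) (nat_lit 4) (nat_lit 425) (nat_lit 303) (nat_lit 292)) (XT.lf (nat_lit 0) (nat_lit 1009572570) (nat_lit 76) (nat_lit 2568836138) (nat_lit 152) (nat_lit 12477834051) (nat_lit 14) (nat_lit 5) (nat_lit 15) (nat_lit 5) (nat_lit 16) (nat_lit 4) (nat_lit 426) (nat_lit 303) (nat_lit 291))) (XT.nd (nat_lit 78) (nat_lit 228) (nat_lit 0) (XT.lf (nat_lit 0) (nat_lit 1526405066) (nat_lit 152) (nat_lit 10671290176) (nat_lit 152) (nat_lit 4157328681) (nat_lit 12) (nat_lit 4) (nat_lit 14) (nat_lit 5) (nat_lit 14) (nat_lit 4) (nat_lit 427) (nat_lit 303) (nat_lit 290)) (XT.nd (nat_lit 78) (nat_lit 76) (nat_lit 0) (XT.lf (nat_lit 0) (nat_lit 1826350550) (nat_lit 76) (nat_lit 2502981079) (nat_lit 152) (nat_lit 12333382504) (nat_lit 10) (nat_lit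 5) (nat_lit 11) (nat_lit 5) (nat_lit 12) (nat_lit 4) (nat_lit 428) (nat_lit 303) (nat_lit 289)) (XT.lf (nat_lit 0) (nat_lit 1873573007) (nat_lit 76) (nat_lit 11137128413) (nat_lit 76) (nat_lit 3968458917) (nat_lit 9) (nat_lit 4) (nat_lit 10) (nat_lit 5) (nat_lit 10) (nat_lit 4) (nat_lit 429) (nat_lit 303) (nat_lit 288))))) (XT.nd (nat_lit 234) (nat_lit 836) (nat_lit 0) (XT.nd (nat_lit 78) (nat_lit 456) (nat_lit 0) (XT.lf (nat_lit 0) (nat_lit 566871945) (nat_lit 228) (nat_lit 5192700736) (nat_lit 0) (nat_lit 566871945) (nat_lit 53) (nat_lit 5) (nat_lit 56) (nat_lit 4) (nat_lit 53) (nat_lit 4) (nat_lit 412) (nat_lit 304) (nat_lit 304)) (XT.nd (nat_lit 78) (nat_lit 228) (nat_lit 0) (XT.lf (nat_lit 0) (nat_lit 4979672656) (nat_lit 228) (nat_lit 4296435830) (nat_lit 228) (nat_lit 3578788801) (nat_lit 50) (nat_lit 4) (nat_lit 53) (nat_lit 5) (nat_lit 53) (nat_lit 4) (nat_lit 413) (nat_lit 304) (nat_lit 303))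 (XT.lf (nat_lit 0) (nat_lit 4507011383) (nat_lit 228) (nat_lit 5435664746) (nat_lit 0) (nat_lit 3120352838) (nat_lit 47) (nat_lit 5) (nat_lit 50) (nat_lit 4) (nat_lit 47) (nat_lit 4) (nat_lit 414) (nat_lit 304) (nat_lit 302)))) (XT.nd (nat_lit 78) (nat_lit 608) (nat_lit 0) (XT.lf (nat_lit 0) (nat_lit 10201735480) (nat_lit 228) (nat_lit 2562749540) (nat_lit 228) (nat_lit 512903589) (nat_lit 44) (nat_lit 4) (nat_lit 47) (nat_lit 5) (nat_lit 47) (nat_lit 4) (nat_lit 415) (nat_lit 304) (nat_lit 301)) (XT.nd (nat_lit 78) (nat_lit 380) (nat_lit 0) (XT.lf (nat_lit 0) (nat_lit 7652742848) (nat_lit 228) (nat_lit 832931144) (nat_lit 0) (nat_lit 5011843615) (nat_lit 41) (nat_lit 5) (nat_lit 44) (nat_lit 4) (nat_lit 41) (nat_lit 4) (nat_lit 416) (nat_lit 304) (nat_lit 300)) (XT.lf (nat_lit 0) (nat_lit 1349805297) (nat_lit 152) (nat_lit 929187304) (nat_lit 228) (nat_lit 11445350243) (nat_lit 36) (nat_lit 5) (nat_lit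 38) (nat_lit 5) (nat_lit 39) (nat_lit 4) (nat_lit 417) (nat_lit 304) (nat_lit 299)))))) (XT.nd (nat_lit 390) (nat_lit 912) (nat_lit 0) (XT.nd (nat_lit 156) (nat_lit 608) (nat_lit 0) (XT.nd (nat_lit 78) (nat_lit 228) (nat_lit 0) (XT.lf (nat_lit 0) (nat_lit 3408591593) (nat_lit 152) (nat_lit 7160936683) (nat_lit 152) (nat_lit 3387632785) (nat_lit 34) (nat_lit 4) (nat_lit 36) (nat_lit 5) (nat_lit 36) (nat_lit 4) (nat_lit 418) (nat_lit 304) (nat_lit 298)) (XT.lf (nat_lit 0) (nat_lit 4810222588) (nat_lit 228) (nat_lit 8831199348) (nat_lit 0) (nat_lit 555657230) (nat_lit 31) (nat_lit 5) (nat_lit 34) (nat_lit 4) (nat_lit 31) (nat_lit 4) (nat_lit 419) (nat_lit 304) (nat_lit 297))) (XT.nd (nat_lit 78) (nat_lit 456) (nat_lit 0) (XT.lf (nat_lit 0) (nat_lit 7183596671) (nat_lit 152) (nat_lit 6026875464) (nat_lit 152) (nat_lit 1233234561) (nat_lit 29) (nat_lit 4) (nat_lit 31) (nat_lit 5) (nat_lit 31) (nat_lit 4)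 (nat_lit 420) (nat_lit 304) (nat_lit 296)) (XT.nd (nat_lit 78) (nat_lit 228) (nat_lit 0) (XT.lf (nat_lit 0) (nat_lit 7038442360) (nat_lit 228) (nat_lit 5833338560) (nat_lit 0) (nat_lit 1825682341) (nat_lit 26) (nat_lit 5) (nat_lit 29) (nat_lit 4) (nat_lit 26) (nat_lit 4) (nat_lit 421) (nat_lit 304) (nat_lit 295)) (XT.lf (nat_lit 0) (nat_lit 572184918) (nat_lit 228) (nat_lit 4555113546) (nat_lit 76) (nat_lit 9831364174) (nat_lit 23) (nat_lit 5) (nat_lit 26) (nat_lit 5) (nat_lit 24) (nat_lit 4) (nat_lit 422) (nat_lit 304) (nat_lit 294))))) (XT.nd (nat_lit 234) (nat_lit 532) (nat_lit 0) (XT.nd (nat_lit 78) (nat_lit 304) (nat_lit 0) (XT.lf (nat_lit 0) (nat_lit 8923232286) (nat_lit 152) (nat_lit 3453811916) (nat_lit 0) (nat_lit 2850110301) (nat_lit 22) (nat_lit 5) (nat_lit 24) (nat_lit 4) (nat_lit 22) (nat_lit 4) (nat_lit 423) (nat_lit 304) (nat_lit 293)) (XT.nd (nat_lit 78) (nat_lit 76) (nat_lit 0) (XT.lf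 (nat_lit 0) (nat_lit 1987479340) (nat_lit 228) (nat_lit 2518776692) (nat_lit 76) (nat_lit 10997332974) (nat_lit 19) (nat_lit 5) (nat_lit 22) (nat_lit 5) (nat_lit 20) (nat_lit 4) (nat_lit 424) (nat_lit 304) (nat_lit 292)) (XT.lf (nat_lit 0) (nat_lit 10425566900) (nat_lit 152) (nat_lit 1780253152) (nat_lit 0) (nat_lit 3581998954) (nat_lit 18) (nat_lit 5) (nat_lit 20) (nat_lit 4) (nat_lit 18) (nat_lit 4) (nat_lit 425) (nat_lit 304) (nat_lit 291)))) (XT.nd (nat_lit 78) (nat_lit 304) (nat_lit 0) (XT.lf (nat_lit 0) (nat_lit 2986886808) (nat_lit 228) (nat_lit 1235484297) (nat_lit 76) (nat_lit 11858008080) (nat_lit 15) (nat_lit 5) (nat_lit 18) (nat_lit 5) (nat_lit 16) (nat_lit 4) (nat_lit 426) (nat_lit 304) (nat_lit 290)) (XT.nd (nat_lit 78) (nat_lit 228) (nat_lit 0) (XT.lf (nat_lit 0) (nat_lit 11501321179) (nat_lit 152) (nat_lit 910022681) (nat_lit 0) (nat_lit 3969917007) (nat_lit 14) (nat_lit 5) (nat_lit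 16) (nat_lit 4) (nat_lit 14) (nat_lit 4) (nat_lit 427) (nat_lit 304) (nat_lit 289)) (XT.lf (nat_lit 0) (nat_lit 3523102261) (nat_lit 228) (nat_lit 807881145) (nat_lit 76) (nat_lit 12359926722) (nat_lit 11) (nat_lit 5) (nat_lit 14) (nat_lit 5) (nat_lit 12) (nat_lit 4) (nat_lit 428) (nat_lit 304) (nat_lit 288))))))))
noncomputable def xc2 : XT := (XT.nd (nat_lit 104676) (nat_lit 0) (nat_lit 0) (XT.nd (nat_lit 52416) (nat_lit 0) (nat_lit 0) (XT.nd (nat_lit 51948) (nat_lit 0) (nat_lit 1596) (XT.nd (nat_lit 51714) (nat_lit 0) (nat_lit 3040) (XT.nd (nat_lit 51636) (nat_lit 0) (nat_lit 3952) (XT.lf (nat_lit 0) (nat_lit 12100758130) (nat_lit 152) (nat_lit 951290574) (nat_lit 0) (nat_lit 3957385116) (nat_lit 10) (nat_lit 5) (nat_lit 12) (nat_lit 4) (nat_lit 10) (nat_lit 4) (nat_lit 429) (nat_lit 304) (nat_lit 287)) (XT.lf (nat_lit 0) (nat_lit 4535393234) (nat_lit 228) (nat_lit 798149096) (nat_lit 228) (nat_lit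 798149096) (nat_lit 62) (nat_lit 4) (nat_lit 65) (nat_lit 5) (nat_lit 65) (nat_lit 4) (nat_lit 410) (nat_lit 305) (nat_lit 305))) (XT.nd (nat_lit 78) (nat_lit 684) (nat_lit 0) (XT.lf (nat_lit 0) (nat_lit 6338844657) (nat_lit 228) (nat_lit 532347711) (nat_lit 0) (nat_lit 5584884689) (nat_lit 59) (nat_lit 5) (nat_lit 62) (nat_lit 4) (nat_lit 59) (nat_lit 4) (nat_lit 411) (nat_lit 305) (nat_lit 304)) (XT.nd (nat_lit 78) (nat_lit 228) (nat_lit 0) (XT.lf (nat_lit 0) (nat_lit 1786496826) (nat_lit 228) (nat_lit 10538453697) (nat_lit 0) (nat_lit 329673358) (nat_lit 53) (nat_lit 5) (nat_lit 56) (nat_lit 4) (nat_lit 53) (nat_lit 4) (nat_lit 412) (nat_lit 305) (nat_lit 303)) (XT.lf (nat_lit 0) (nat_lit 4674017315) (nat_lit 228) (nat_lit 5168953275) (nat_lit 228) (nat_lit 3015385120) (nat_lit 50) (nat_lit 4) (nat_lit 53) (nat_lit 5) (nat_lit 53) (nat_lit 4) (nat_lit 413) (nat_lit 305) (nat_lit 302))))) (XT.nd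 (nat_lit 234) (nat_lit 760) (nat_lit 0) (XT.nd (nat_lit 78) (nat_lit 456) (nat_lit 0) (XT.lf (nat_lit 0) (nat_lit 4970957681) (nat_lit 228) (nat_lit 5900874656) (nat_lit 0) (nat_lit 2196428947) (nat_lit 47) (nat_lit 5) (nat_lit 50) (nat_lit 4) (nat_lit 47) (nat_lit 4) (nat_lit 414) (nat_lit 305) (nat_lit 301)) (XT.nd (nat_lit 78) (nat_lit 228) (nat_lit 0) (XT.lf (nat_lit 0) (nat_lit 9582275482) (nat_lit 228) (nat_lit 3560234697) (nat_lit 228) (nat_lit 141834695) (nat_lit 44) (nat_lit 4) (nat_lit 47) (nat_lit 5) (nat_lit 47) (nat_lit 4) (nat_lit 415) (nat_lit 305) (nat_lit 300)) (XT.lf (nat_lit 0) (nat_lit 7925961382) (nat_lit 228) (nat_lit 1618600931) (nat_lit 0) (nat_lit 3961728307) (nat_lit 41) (nat_lit 5) (nat_lit 44) (nat_lit 4) (nat_lit 41) (nat_lit 4) (nat_lit 416) (nat_lit 305) (nat_lit 299)))) (XT.nd (nat_lit 78) (nat_lit 380) (nat_lit 0) (XT.lf (nat_lit 0) (nat_lit 383794848) (nat_lit 152)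 (nat_lit 2063253736) (nat_lit 228) (nat_lit 11287896364) (nat_lit 36) (nat_lit 5) (nat_lit 38) (nat_lit 5) (nat_lit 39) (nat_lit 4) (nat_lit 417) (nat_lit 305) (nat_lit 298)) (XT.nd (nat_lit 78) (nat_lit 228) (nat_lit 0) (XT.lf (nat_lit 0) (nat_lit 2279048828) (nat_lit 152) (nat_lit 8363410415) (nat_lit 152) (nat_lit 3327211282) (nat_lit 34) (nat_lit 4) (nat_lit 36) (nat_lit 5) (nat_lit 36) (nat_lit 4) (nat_lit 418) (nat_lit 305) (nat_lit 297)) (XT.lf (nat_lit 0) (nat_lit 4065884827) (nat_lit 152) (nat_lit 712303794) (nat_lit 228) (nat_lit 9433230049) (nat_lit 31) (nat_lit 5) (nat_lit 33) (nat_lit 5) (nat_lit 34) (nat_lit 4) (nat_lit 419) (nat_lit 305) (nat_lit 296)))))) (XT.nd (nat_lit 390) (nat_lit 684) (nat_lit 0) (XT.nd (nat_lit 156) (nat_lit 532) (nat_lit 0) (XT.nd (nat_lit 78) (nat_lit 228) (nat_lit 0) (XT.lf (nat_lit 0) (nat_lit 5711585869) (nat_lit 152) (nat_lit 7374109832) (nat_lit 152) (nat_lit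 1374209840) (nat_lit 29) (nat_lit 4) (nat_lit 31) (nat_lit 5) (nat_lit 31) (nat_lit 4) (nat_lit 420) (nat_lit 305) (nat_lit 295)) (XT.lf (nat_lit 0) (nat_lit 6801657965) (nat_lit 228) (nat_lit 7492743874) (nat_lit 0) (nat_lit 421236008) (nat_lit 26) (nat_lit 5) (nat_lit 29) (nat_lit 4) (nat_lit 26) (nat_lit 4) (nat_lit 421) (nat_lit 305) (nat_lit 294))) (XT.nd (nat_lit 78) (nat_lit 304) (nat_lit 0) (XT.lf (nat_lit 0) (nat_lit 231384625) (nat_lit 228) (nat_lit 6396682355) (nat_lit 76) (nat_lit 8350591122) (nat_lit 23) (nat_lit 5) (nat_lit 26) (nat_lit 5) (nat_lit 24) (nat_lit 4) (nat_lit 422) (nat_lit 305) (nat_lit 293)) (XT.nd (nat_lit 78) (nat_lit 228) (nat_lit 0) (XT.lf (nat_lit 0) (nat_lit 8483240419) (nat_lit 152) (nat_lit 5472509396) (nat_lit 0) (nat_lit 1293387934) (nat_lit 22) (nat_lit 5) (nat_lit 24) (nat_lit 4) (nat_lit 22) (nat_lit 4) (nat_lit 423) (nat_lit 305) (nat_lit 292)) (XT.lf (nat_lit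 0) (nat_lit 1441777493) (nat_lit 228) (nat_lit 4724416293) (nat_lit 76) (nat_lit 9361237927) (nat_lit 19) (nat_lit 5) (nat_lit 22) (nat_lit 5) (nat_lit 20) (nat_lit 4) (nat_lit 424) (nat_lit 305) (nat_lit 291))))) (XT.nd (nat_lit 234) (nat_lit 304) (nat_lit 0) (XT.nd (nat_lit 78) (nat_lit 304) (nat_lit 0) (XT.lf (nat_lit 0) (nat_lit 9778976633) (nat_lit 152) (nat_lit 4168223089) (nat_lit 0) (nat_lit 1866483410) (nat_lit 18) (nat_lit 5) (nat_lit 20) (nat_lit 4) (nat_lit 18) (nat_lit 4) (nat_lit 425) (nat_lit 305) (nat_lit 290)) (XT.nd (nat_lit 78) (nat_lit 76) (nat_lit 0) (XT.lf (nat_lit 0) (nat_lit 2232744875) (nat_lit 228) (nat_lit 3815385179) (nat_lit 76) (nat_lit 10060014189) (nat_lit 15) (nat_lit 5) (nat_lit 18) (nat_lit 5) (nat_lit 16) (nat_lit 4) (nat_lit 426) (nat_lit 305) (nat_lit 289)) (XT.lf (nat_lit 0) (nat_lit 10644430191) (nat_lit 152) (nat_lit 3677651586) (nat_lit 0) (nat_lit 2089002503)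 (nat_lit 14) (nat_lit 5) (nat_lit 16) (nat_lit 4) (nat_lit 14) (nat_lit 4) (nat_lit 427) (nat_lit 305) (nat_lit 288)))) (XT.nd (nat_lit 78) (nat_lit 76) (nat_lit 0) (XT.lf (nat_lit 0) (nat_lit 2556668207) (nat_lit 228) (nat_lit 3772650668) (nat_lit 76) (nat_lit 10393360002) (nat_lit 11) (nat_lit 5) (nat_lit 14) (nat_lit 5) (nat_lit 12) (nat_lit 4) (nat_lit 428) (nat_lit 305) (nat_lit 287)) (XT.nd (nat_lit 51480) (nat_lit 0) (nat_lit 4484) (XT.lf (nat_lit 0) (nat_lit 11029549658) (nat_lit 152) (nat_lit 4109393958) (nat_lit 0) (nat_lit 1904357558) (nat_lit 10) (nat_lit 5) (nat_lit 12) (nat_lit 4) (nat_lit 10) (nat_lit 4) (nat_lit 429) (nat_lit 305) (nat_lit 286)) (XT.lf (nat_lit 0) (nat_lit 1660461874) (nat_lit 228) (nat_lit 2142772988) (nat_lit 228) (nat_lit 2142772988) (nat_lit 69) (nat_lit 4) (nat_lit 72) (nat_lit 5) (nat_lit 72) (nat_lit 4) (nat_lit 408) (nat_lit 306) (nat_lit 306))))))) (XT.nd (nat_lit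 858) (nat_lit 1596) (nat_lit 0) (XT.nd (nat_lit 390) (nat_lit 1444) (nat_lit 0) (XT.nd (nat_lit 156) (nat_lit 912) (nat_lit 0) (XT.nd (nat_lit 78) (nat_lit 228) (nat_lit 0) (XT.lf (nat_lit 0) (nat_lit 3469226375) (nat_lit 304) (nat_lit 5929487306) (nat_lit 0) (nat_lit 2677116032) (nat_lit 65) (nat_lit 5) (nat_lit 69) (nat_lit 4) (nat_lit 65) (nat_lit 4) (nat_lit 409) (nat_lit 306) (nat_lit 305)) (XT.lf (nat_lit 0) (nat_lit 8924104529) (nat_lit 228) (nat_lit 2451057546) (nat_lit 228) (nat_lit 889908036) (nat_lit 62) (nat_lit 4) (nat_lit 65) (nat_lit 5) (nat_lit 65) (nat_lit 4) (nat_lit 410) (nat_lit 306) (nat_lit 304))) (XT.nd (nat_lit 78) (nat_lit 684) (nat_lit 0) (XT.lf (nat_lit 0) (nat_lit 6945957277) (nat_lit 228) (nat_lit 830103280) (nat_lit 0) (nat_lit 4683418573) (nat_lit 59) (nat_lit 5) (nat_lit 62) (nat_lit 4) (nat_lit 59) (nat_lit 4) (nat_lit 411) (nat_lit 306) (nat_lit 303)) (XT.nd (nat_lit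 78) (nat_lit 228) (nat_lit 0) (XT.lf (nat_lit 0) (nat_lit 1657881585) (nat_lit 152) (nat_lit 634742113) (nat_lit 228) (nat_lit 10367123159) (nat_lit 53) (nat_lit 5) (nat_lit 55) (nat_lit 5) (nat_lit 56) (nat_lit 4) (nat_lit 412) (nat_lit 306) (nat_lit 302)) (XT.lf (nat_lit 0) (nat_lit 4062439554) (nat_lit 228) (nat_lit 6197103532) (nat_lit 228) (nat_lit 2605732490) (nat_lit 50) (nat_lit 4) (nat_lit 53) (nat_lit 5) (nat_lit 53) (nat_lit 4) (nat_lit 413) (nat_lit 306) (nat_lit 301))))) (XT.nd (nat_lit 234) (nat_lit 760) (nat_lit 0) (XT.nd (nat_lit 78) (nat_lit 456) (nat_lit 0) (XT.lf (nat_lit 0) (nat_lit 5282567004) (nat_lit 228) (nat_lit 6676676154) (nat_lit 0) (nat_lit 1117743736) (nat_lit 47) (nat_lit 5) (nat_lit 50) (nat_lit 4) (nat_lit 47) (nat_lit 4) (nat_lit 414) (nat_lit 306) (nat_lit 300)) (XT.nd (nat_lit 78) (nat_lit 152) (nat_lit 0) (XT.lf (nat_lit 0) (nat_lit 72813883) (nat_lit 304) (nat_lit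 4642856959) (nat_lit 76) (nat_lit 8579106446) (nat_lit 43) (nat_lit 5) (nat_lit 47) (nat_lit 5) (nat_lit 44) (nat_lit 4) (nat_lit 415) (nat_lit 306) (nat_lit 299)) (XT.lf (nat_lit 0) (nat_lit 8045057401) (nat_lit 228) (nat_lit 2719499577) (nat_lit 0) (nat_lit 2754026591) (nat_lit 41) (nat_lit 5) (nat_lit 44) (nat_lit 4) (nat_lit 41) (nat_lit 4) (nat_lit 416) (nat_lit 306) (nat_lit 298)))) (XT.nd (nat_lit 78) (nat_lit 532) (nat_lit 0) (XT.lf (nat_lit 0) (nat_lit 2463594368) (nat_lit 228) (nat_lit 892250008) (nat_lit 76) (nat_lit 10393161643) (nat_lit 38) (nat_lit 5) (nat_lit 41) (nat_lit 5) (nat_lit 39) (nat_lit 4) (nat_lit 417) (nat_lit 306) (nat_lit 297)) (XT.nd (nat_lit 78) (nat_lit 228) (nat_lit 0) (XT.lf (nat_lit 0) (nat_lit 825088334) (nat_lit 152) (nat_lit 9732089726) (nat_lit 152) (nat_lit 3428594794) (nat_lit 34) (nat_lit 4) (nat_lit 36) (nat_lit 5) (nat_lit 36) (nat_lit 4) (nat_lit 418) (nat_lit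 306) (nat_lit 296)) (XT.lf (nat_lit 0) (nat_lit 2435111154) (nat_lit 152) (nat_lit 2155209582) (nat_lit 228) (nat_lit 9638974199) (nat_lit 31) (nat_lit 5) (nat_lit 33) (nat_lit 5) (nat_lit 34) (nat_lit 4) (nat_lit 419) (nat_lit 306) (nat_lit 295)))))) (XT.nd (nat_lit 390) (nat_lit 684) (nat_lit 0) (XT.nd (nat_lit 156) (nat_lit 532) (nat_lit 0) (XT.nd (nat_lit 78) (nat_lit 228) (nat_lit 0) (XT.lf (nat_lit 0) (nat_lit 3909843605) (nat_lit 152) (nat_lit 8890645523) (nat_lit 152) (nat_lit 1679243811) (nat_lit 29) (nat_lit 4) (nat_lit 31) (nat_lit 5) (nat_lit 31) (nat_lit 4) (nat_lit 420) (nat_lit 306) (nat_lit 294)) (XT.lf (nat_lit 0) (nat_lit 5242536923) (nat_lit 152) (nat_lit 1167002246) (nat_lit 228) (nat_lit 8327791543) (nat_lit 26) (nat_lit 5) (nat_lit 28) (nat_lit 5) (nat_lit 29) (nat_lit 4) (nat_lit 421) (nat_lit 306) (nat_lit 293))) (XT.nd (nat_lit 78) (nat_lit 380) (nat_lit 0) (XT.lf (nat_lit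 0) (nat_lit 6424295285) (nat_lit 152) (nat_lit 8300620839) (nat_lit 152) (nat_lit 277391583) (nat_lit 24) (nat_lit 4) (nat_lit 26) (nat_lit 5) (nat_lit 26) (nat_lit 4) (nat_lit 422) (nat_lit 306) (nat_lit 292)) (XT.nd (nat_lit 78) (nat_lit 228) (nat_lit 0) (XT.lf (nat_lit 0) (nat_lit 7439805690) (nat_lit 76) (nat_lit 440851922) (nat_lit 152) (nat_lit 7394118490) (nat_lit 22) (nat_lit 5) (nat_lit 23) (nat_lit 5) (nat_lit 24) (nat_lit 4) (nat_lit 423) (nat_lit 306) (nat_lit 291)) (XT.lf (nat_lit 0) (nat_lit 729096795) (nat_lit 228) (nat_lit 7274026111) (nat_lit 76) (nat_lit 7551886362) (nat_lit 19) (nat_lit 5) (nat_lit 22) (nat_lit 5) (nat_lit 20) (nat_lit 4) (nat_lit 424) (nat_lit 306) (nat_lit 290))))) (XT.nd (nat_lit 234) (nat_lit 304) (nat_lit 0) (XT.nd (nat_lit 78) (nat_lit 304) (nat_lit 0) (XT.lf (nat_lit 0) (nat_lit 8939864736) (nat_lit 76) (nat_lit 24473734) (nat_lit 152) (nat_lit 6878964911)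 (nat_lit 18) (nat_lit 5) (nat_lit 19) (nat_lit 5) (nat_lit 20) (nat_lit 4) (nat_lit 425) (nat_lit 306) (nat_lit 289)) (XT.nd (nat_lit 78) (nat_lit 76) (nat_lit 0) (XT.lf (nat_lit 0) (nat_lit 1308769137) (nat_lit 228) (nat_lit 6745625084) (nat_lit 76) (nat_lit 8085299072) (nat_lit 15) (nat_lit 5) (nat_lit 18) (nat_lit 5) (nat_lit 16) (nat_lit 4) (nat_lit 426) (nat_lit 306) (nat_lit 288)) (XT.lf (nat_lit 0) (nat_lit 9616363105) (nat_lit 152) (nat_lit 6798919040) (nat_lit 0) (nat_lit 29436285) (nat_lit 14) (nat_lit 5) (nat_lit 16) (nat_lit 4) (nat_lit 14) (nat_lit 4) (nat_lit 427) (nat_lit 306) (nat_lit 287)))) (XT.nd (nat_lit 78) (nat_lit 76) (nat_lit 0) (XT.lf (nat_lit 0) (nat_lit 1417327131) (nat_lit 228) (nat_lit 7094501508) (nat_lit 76) (nat_lit 8246456656) (nat_lit 11) (nat_lit 5) (nat_lit 14) (nat_lit 5) (nat_lit 12) (nat_lit 4) (nat_lit 428) (nat_lit 306) (nat_lit 286)) (XT.nd (nat_lit 51324)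 (nat_lit 0) (nat_lit 5244) (XT.lf (nat_lit 0) (nat_lit 9450745137) (nat_lit 76) (nat_lit 335408072) (nat_lit 152) (nat_lit 7294838517) (nat_lit 10) (nat_lit 5) (nat_lit 11) (nat_lit 5) (nat_lit 12) (nat_lit 4) (nat_lit 429) (nat_lit 306) (nat_lit 285)) (XT.lf (nat_lit 0) (nat_lit 2313667941) (nat_lit 304) (nat_lit 1141737185) (nat_lit 0) (nat_lit 2313667941) (nat_lit 79) (nat_lit 5) (nat_lit 83) (nat_lit 4) (nat_lit 79) (nat_lit 4) (nat_lit 406) (nat_lit 307) (nat_lit 307))))))))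
noncomputable def xc3 : XT := (XT.nd (nat_lit 52884) (nat_lit 0) (nat_lit 532) (XT.nd (nat_lit 858) (nat_lit 2052) (nat_lit 0) (XT.nd (nat_lit 390) (nat_lit 1596) (nat_lit 0) (XT.nd (nat_lit 156) (nat_lit 760) (nat_lit 0) (XT.nd (nat_lit 78) (nat_lit 228) (nat_lit 0) (XT.lf (nat_lit 0) (nat_lit 468192231) (nat_lit 228) (nat_lit 183801421) (nat_lit 304) (nat_lit 11061814274) (nat_lit 72) (nat_lit 5) (nat_lit 75) (nat_lit 5) (nat_lit 76) (nat_lit 4) (nat_lit 407) (nat_lit 307) (nat_lit 306)) (XT.lf (nat_lit 0) (nat_lit 3176190555) (nat_lit 228) (nat_lit 5178824338) (nat_lit 228) (nat_lit 3538680663) (nat_lit 69) (nat_lit 4) (nat_lit 72) (nat_lit 5) (nat_lit 72) (nat_lit 4) (nat_lit 408) (nat_lit 307) (nat_lit 305))) (XT.nd (nat_lit 78) (nat_lit 456) (nat_lit 0) (XT.lf (nat_lit 0) (nat_lit 4116446466) (nat_lit 304) (nat_lit 6223346410) (nat_lit 0) (nat_lit 1739423303) (nat_lit 65) (nat_lit 5) (nat_lit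 69) (nat_lit 4) (nat_lit 65) (nat_lit 4) (nat_lit 409) (nat_lit 307) (nat_lit 304)) (XT.nd (nat_lit 78) (nat_lit 228) (nat_lit 0) (XT.lf (nat_lit 0) (nat_lit 8483930542) (nat_lit 228) (nat_lit 3454932973) (nat_lit 228) (nat_lit 331269841) (nat_lit 62) (nat_lit 4) (nat_lit 65) (nat_lit 5) (nat_lit 65) (nat_lit 4) (nat_lit 410) (nat_lit 307) (nat_lit 303)) (XT.lf (nat_lit 0) (nat_lit 7406753036) (nat_lit 228) (nat_lit 1425874592) (nat_lit 0) (nat_lit 3633658620) (nat_lit 59) (nat_lit 5) (nat_lit 62) (nat_lit 4) (nat_lit 59) (nat_lit 4) (nat_lit 411) (nat_lit 307) (nat_lit 302))))) (XT.nd (nat_lit 234) (nat_lit 684) (nat_lit 0) (XT.nd (nat_lit 78) (nat_lit 456) (nat_lit 0) (XT.lf (nat_lit 0) (nat_lit 893190776) (nat_lit 152) (nat_lit 1758425742) (nat_lit 228) (nat_lit 10016665142) (nat_lit 53) (nat_lit 5) (nat_lit 55) (nat_lit 5) (nat_lit 56) (nat_lit 4) (nat_lit 412) (nat_lit 307) (nat_lit 301)) (XT.nd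 (nat_lit 78) (nat_lit 228) (nat_lit 0) (XT.lf (nat_lit 0) (nat_lit 3144404987) (nat_lit 228) (nat_lit 7381784983) (nat_lit 228) (nat_lit 2349472965) (nat_lit 50) (nat_lit 4) (nat_lit 53) (nat_lit 5) (nat_lit 53) (nat_lit 4) (nat_lit 413) (nat_lit 307) (nat_lit 300)) (XT.lf (nat_lit 0) (nat_lit 5324683545) (nat_lit 152) (nat_lit 118195491) (nat_lit 228) (nat_lit 7646319036) (nat_lit 47) (nat_lit 5) (nat_lit 49) (nat_lit 5) (nat_lit 50) (nat_lit 4) (nat_lit 414) (nat_lit 307) (nat_lit 299)))) (XT.nd (nat_lit 78) (nat_lit 380) (nat_lit 0) (XT.lf (nat_lit 0) (nat_lit 132374339) (nat_lit 304) (nat_lit 5898271225) (nat_lit 76) (nat_lit 7278060736) (nat_lit 43) (nat_lit 5) (nat_lit 47) (nat_lit 5) (nat_lit 44) (nat_lit 4) (nat_lit 415) (nat_lit 307) (nat_lit 298)) (XT.nd (nat_lit 78) (nat_lit 228) (nat_lit 0) (XT.lf (nat_lit 0) (nat_lit 8010134970) (nat_lit 228) (nat_lit 4136589031) (nat_lit 0) (nat_lit 1387683194)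 (nat_lit 41) (nat_lit 5) (nat_lit 44) (nat_lit 4) (nat_lit 41) (nat_lit 4) (nat_lit 416) (nat_lit 307) (nat_lit 297)) (XT.lf (nat_lit 0) (nat_lit 2327358306) (nat_lit 228) (nat_lit 2482042192) (nat_lit 76) (nat_lit 8957163565) (nat_lit 38) (nat_lit 5) (nat_lit 41) (nat_lit 5) (nat_lit 39) (nat_lit 4) (nat_lit 417) (nat_lit 307) (nat_lit 296)))))) (XT.nd (nat_lit 390) (nat_lit 988) (nat_lit 0) (XT.nd (nat_lit 156) (nat_lit 532) (nat_lit 0) (XT.nd (nat_lit 78) (nat_lit 380) (nat_lit 0) (XT.lf (nat_lit 0) (nat_lit 10319807845) (nat_lit 228) (nat_lit 942041110) (nat_lit 0) (nat_lit 2743509207) (nat_lit 36) (nat_lit 5) (nat_lit 39) (nat_lit 4) (nat_lit 36) (nat_lit 4) (nat_lit 418) (nat_lit 307) (nat_lit 295)) (XT.lf (nat_lit 0) (nat_lit 475862603) (nat_lit 152) (nat_lit 3766936531) (nat_lit 228) (nat_lit 10007997557) (nat_lit 31) (nat_lit 5) (nat_lit 33) (nat_lit 5) (nat_lit 34) (nat_lit 4) (nat_lit 419)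 (nat_lit 307) (nat_lit 294))) (XT.nd (nat_lit 78) (nat_lit 380) (nat_lit 0) (XT.lf (nat_lit 0) (nat_lit 1776795541) (nat_lit 152) (nat_lit 10577807665) (nat_lit 152) (nat_lit 2148603009) (nat_lit 29) (nat_lit 4) (nat_lit 31) (nat_lit 5) (nat_lit 31) (nat_lit 4) (nat_lit 420) (nat_lit 307) (nat_lit 293)) (XT.nd (nat_lit 78) (nat_lit 152) (nat_lit 0) (XT.lf (nat_lit 0) (nat_lit 2925091813) (nat_lit 152) (nat_lit 2932956755) (nat_lit 228) (nat_lit 8904586140) (nat_lit 26) (nat_lit 5) (nat_lit 28) (nat_lit 5) (nat_lit 29) (nat_lit 4) (nat_lit 421) (nat_lit 307) (nat_lit 292)) (XT.lf (nat_lit 0) (nat_lit 3927802520) (nat_lit 152) (nat_lit 10145601660) (nat_lit 152) (nat_lit 956211860) (nat_lit 24) (nat_lit 4) (nat_lit 26) (nat_lit 5) (nat_lit 26) (nat_lit 4) (nat_lit 422) (nat_lit 307) (nat_lit 291))))) (XT.nd (nat_lit 234) (nat_lit 532) (nat_lit 0) (XT.nd (nat_lit 78) (nat_lit 304) (nat_lit 0) (XT.lf (nat_lit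 0) (nat_lit 4753912927) (nat_lit 76) (nat_lit 2367828513) (nat_lit 152) (nat_lit 8182214841) (nat_lit 22) (nat_lit 5) (nat_lit 23) (nat_lit 5) (nat_lit 24) (nat_lit 4) (nat_lit 423) (nat_lit 307) (nat_lit 290)) (XT.nd (nat_lit 78) (nat_lit 152) (nat_lit 0) (XT.lf (nat_lit 0) (nat_lit 5415497273) (nat_lit 152) (nat_lit 10017633941) (nat_lit 152) (nat_lit 153194659) (nat_lit 20) (nat_lit 4) (nat_lit 22) (nat_lit 5) (nat_lit 22) (nat_lit 4) (nat_lit 424) (nat_lit 307) (nat_lit 289)) (XT.lf (nat_lit 0) (nat_lit 5874866713) (nat_lit 76) (nat_lit 2119357314) (nat_lit 152) (nat_lit 7882215936) (nat_lit 18) (nat_lit 5) (nat_lit 19) (nat_lit 5) (nat_lit 20) (nat_lit 4) (nat_lit 425) (nat_lit 307) (nat_lit 288)))) (XT.nd (nat_lit 78) (nat_lit 304) (nat_lit 0) (XT.lf (nat_lit 0) (nat_lit 214152235) (nat_lit 228) (nat_lit 10028764415) (nat_lit 76) (nat_lit 5932137249) (nat_lit 15) (nat_lit 5) (nat_lit 18) (nat_lit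 5) (nat_lit 16) (nat_lit 4) (nat_lit 426) (nat_lit 307) (nat_lit 287)) (XT.nd (nat_lit 78) (nat_lit 228) (nat_lit 0) (XT.lf (nat_lit 0) (nat_lit 6190806179) (nat_lit 76) (nat_lit 2239958729) (nat_lit 152) (nat_lit 8051136935) (nat_lit 14) (nat_lit 5) (nat_lit 15) (nat_lit 5) (nat_lit 16) (nat_lit 4) (nat_lit 427) (nat_lit 307) (nat_lit 286)) (XT.lf (nat_lit 0) (nat_lit 104083493) (nat_lit 228) (nat_lit 10776336254) (nat_lit 76) (nat_lit 5917340750) (nat_lit 11) (nat_lit 5) (nat_lit 14) (nat_lit 5) (nat_lit 12) (nat_lit 4) (nat_lit 428) (nat_lit 307) (nat_lit 285))))))) (XT.nd (nat_lit 858) (nat_lit 2204) (nat_lit 0) (XT.nd (nat_lit 390) (nat_lit 1672) (nat_lit 0) (XT.nd (nat_lit 156) (nat_lit 1064) (nat_lit 0) (XT.nd (nat_lit 78) (nat_lit 304) (nat_lit 0) (XT.lf (nat_lit 0) (nat_lit 873925777) (nat_lit 304) (nat_lit 3852547130) (nat_lit 0) (nat_lit 873925777) (nat_lit 87) (nat_lit 5) (nat_lit 91) (nat_lit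 4) (nat_lit 87) (nat_lit 4) (nat_lit 404) (nat_lit 308) (nat_lit 308)) (XT.lf (nat_lit 0) (nat_lit 6321895342) (nat_lit 304) (nat_lit 2968875503) (nat_lit 304) (nat_lit 2077089506) (nat_lit 83) (nat_lit 4) (nat_lit 87) (nat_lit 5) (nat_lit 87) (nat_lit 4) (nat_lit 405) (nat_lit 308) (nat_lit 307))) (XT.nd (nat_lit 78) (nat_lit 760) (nat_lit 0) (XT.lf (nat_lit 0) (nat_lit 5419277116) (nat_lit 304) (nat_lit 2424381306) (nat_lit 0) (nat_lit 3696142171) (nat_lit 79) (nat_lit 5) (nat_lit 83) (nat_lit 4) (nat_lit 79) (nat_lit 4) (nat_lit 406) (nat_lit 308) (nat_lit 306)) (XT.nd (nat_lit 78) (nat_lit 228) (nat_lit 0) (XT.lf (nat_lit 0) (nat_lit 175060702) (nat_lit 228) (nat_lit 1172616152) (nat_lit 304) (nat_lit 10369374618) (nat_lit 72) (nat_lit 5) (nat_lit 75) (nat_lit 5) (nat_lit 76) (nat_lit 4) (nat_lit 407) (nat_lit 308) (nat_lit 305)) (XT.lf (nat_lit 0) (nat_lit 2741864507) (nat_lit 228) (nat_lit 6219296279)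 (nat_lit 228) (nat_lit 2937575793) (nat_lit 69) (nat_lit 4) (nat_lit 72) (nat_lit 5) (nat_lit 72) (nat_lit 4) (nat_lit 408) (nat_lit 308) (nat_lit 304))))) (XT.nd (nat_lit 234) (nat_lit 912) (nat_lit 0) (XT.nd (nat_lit 78) (nat_lit 456) (nat_lit 0) (XT.lf (nat_lit 0) (nat_lit 4619341838) (nat_lit 304) (nat_lit 6811321389) (nat_lit 0) (nat_lit 655328845) (nat_lit 65) (nat_lit 5) (nat_lit 69) (nat_lit 4) (nat_lit 65) (nat_lit 4) (nat_lit 409) (nat_lit 308) (nat_lit 303)) (XT.nd (nat_lit 78) (nat_lit 152) (nat_lit 0) (XT.lf (nat_lit 0) (nat_lit 79053935) (nat_lit 304) (nat_lit 4529217217) (nat_lit 76) (nat_lit 7670295461) (nat_lit 61) (nat_lit 5) (nat_lit 65) (nat_lit 5) (nat_lit 62) (nat_lit 4) (nat_lit 410) (nat_lit 308) (nat_lit 302)) (XT.lf (nat_lit 0) (nat_lit 7721634571) (nat_lit 228) (nat_lit 2320182225) (nat_lit 0) (nat_lit 2434687564) (nat_lit 59) (nat_lit 5) (nat_lit 62) (nat_lit 4) (nat_lit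 59) (nat_lit 4) (nat_lit 411) (nat_lit 308) (nat_lit 301)))) (XT.nd (nat_lit 78) (nat_lit 608) (nat_lit 0) (XT.lf (nat_lit 0) (nat_lit 2862765102) (nat_lit 304) (nat_lit 174045166) (nat_lit 76) (nat_lit 9643445960) (nat_lit 55) (nat_lit 5) (nat_lit 59) (nat_lit 5) (nat_lit 56) (nat_lit 4) (nat_lit 412) (nat_lit 308) (nat_lit 300)) (XT.nd (nat_lit 78) (nat_lit 228) (nat_lit 0) (XT.lf (nat_lit 0) (nat_lit 1919111446) (nat_lit 228) (nat_lit 8724032787) (nat_lit 228) (nat_lit 2246382626) (nat_lit 50) (nat_lit 4) (nat_lit 53) (nat_lit 5) (nat_lit 53) (nat_lit 4) (nat_lit 413) (nat_lit 308) (nat_lit 299)) (XT.lf (nat_lit 0) (nat_lit 3931795867) (nat_lit 152) (nat_lit 1527854954) (nat_lit 228) (nat_lit 7645102326) (nat_lit 47) (nat_lit 5) (nat_lit 49) (nat_lit 5) (nat_lit 50) (nat_lit 4) (nat_lit 414) (nat_lit 308) (nat_lit 298)))))) (XT.nd (nat_lit 390) (nat_lit 1140) (nat_lit 0) (XT.nd (nat_lit 156) (nat_lit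 608) (nat_lit 0) (XT.nd (nat_lit 78) (nat_lit 152) (nat_lit 0) (XT.lf (nat_lit 0) (nat_lit 38758903) (nat_lit 304) (nat_lit 7468488270) (nat_lit 76) (nat_lit 5818915325) (nat_lit 43) (nat_lit 5) (nat_lit 47) (nat_lit 5) (nat_lit 44) (nat_lit 4) (nat_lit 415) (nat_lit 308) (nat_lit 297)) (XT.lf (nat_lit 0) (nat_lit 7681738419) (nat_lit 152) (nat_lit 140336311) (nat_lit 228) (nat_lit 5731682372) (nat_lit 41) (nat_lit 5) (nat_lit 43) (nat_lit 5) (nat_lit 44) (nat_lit 4) (nat_lit 416) (nat_lit 308) (nat_lit 296))) (XT.nd (nat_lit 78) (nat_lit 380) (nat_lit 0) (XT.lf (nat_lit 0) (nat_lit 2035729509) (nat_lit 228) (nat_lit 4392004379) (nat_lit 76) (nat_lit 7359950373) (nat_lit 38) (nat_lit 5) (nat_lit 41) (nat_lit 5) (nat_lit 39) (nat_lit 4) (nat_lit 417) (nat_lit 308) (nat_lit 295)) (XT.nd (nat_lit 78) (nat_lit 228) (nat_lit 0) (XT.lf (nat_lit 0) (nat_lit 9931419834) (nat_lit 228) (nat_lit 3021300733) (nat_lit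 0) (nat_lit 1075697423) (nat_lit 36) (nat_lit 5) (nat_lit 39) (nat_lit 4) (nat_lit 36) (nat_lit 4) (nat_lit 418) (nat_lit 308) (nat_lit 294)) (XT.lf (nat_lit 0) (nat_lit 3747095076) (nat_lit 228) (nat_lit 1789787456) (nat_lit 76) (nat_lit 8738824698) (nat_lit 33) (nat_lit 5) (nat_lit 36) (nat_lit 5) (nat_lit 34) (nat_lit 4) (nat_lit 419) (nat_lit 308) (nat_lit 293))))) (XT.nd (nat_lit 234) (nat_lit 456) (nat_lit 0) (XT.nd (nat_lit 78) (nat_lit 532) (nat_lit 0) (XT.lf (nat_lit 0) (nat_lit 11752124512) (nat_lit 228) (nat_lit 680380256) (nat_lit 0) (nat_lit 2097751587) (nat_lit 31) (nat_lit 5) (nat_lit 34) (nat_lit 4) (nat_lit 31) (nat_lit 4) (nat_lit 420) (nat_lit 308) (nat_lit 292)) (XT.nd (nat_lit 78) (nat_lit 152) (nat_lit 0) (XT.lf (nat_lit 0) (nat_lit 271360407) (nat_lit 152) (nat_lit 4872572578) (nat_lit 228) (nat_lit 9647694383) (nat_lit 26) (nat_lit 5) (nat_lit 28) (nat_lit 5) (nat_lit 29) (nat_lit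 4) (nat_lit 421) (nat_lit 308) (nat_lit 291)) (XT.lf (nat_lit 0) (nat_lit 1091868764) (nat_lit 152) (nat_lit 12166174278) (nat_lit 152) (nat_lit 1802594368) (nat_lit 24) (nat_lit 4) (nat_lit 26) (nat_lit 5) (nat_lit 26) (nat_lit 4) (nat_lit 422) (nat_lit 308) (nat_lit 290)))) (XT.nd (nat_lit 78) (nat_lit 304) (nat_lit 0) (XT.lf (nat_lit 0) (nat_lit 1725282482) (nat_lit 76) (nat_lit 4472037159) (nat_lit 152) (nat_lit 9139554325) (nat_lit 22) (nat_lit 5) (nat_lit 23) (nat_lit 5) (nat_lit 24) (nat_lit 4) (nat_lit 423) (nat_lit 308) (nat_lit 289)) (XT.nd (nat_lit 78) (nat_lit 152) (nat_lit 0) (XT.lf (nat_lit 0) (nat_lit 2199046887) (nat_lit 152) (nat_lit 12206480085) (nat_lit 152) (nat_lit 1215783745) (nat_lit 20) (nat_lit 4) (nat_lit 22) (nat_lit 5) (nat_lit 22) (nat_lit 4) (nat_lit 424) (nat_lit 308) (nat_lit 288)) (XT.lf (nat_lit 0) (nat_lit 2460312909) (nat_lit 76) (nat_lit 4395193227) (nat_lit 152)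 (nat_lit 9057861289) (nat_lit 18) (nat_lit 5) (nat_lit 19) (nat_lit 5) (nat_lit 20) (nat_lit 4) (nat_lit 425) (nat_lit 308) (nat_lit 287))))))))
noncomputable def xc4 : XT := (XT.nd (nat_lit 52728) (nat_lit 0) (nat_lit 152) (XT.nd (nat_lit 51870) (nat_lit 0) (nat_lit 1444) (XT.nd (nat_lit 51402) (nat_lit 0) (nat_lit 4028) (XT.nd (nat_lit 156) (nat_lit 152) (nat_lit 0) (XT.nd (nat_lit 78) (nat_lit 152) (nat_lit 0) (XT.lf (nat_lit 0) (nat_lit 2539525135) (nat_lit 152) (nat_lit 12608549753) (nat_lit 152) (nat_lit 1066043645) (nat_lit 16) (nat_lit 4) (nat_lit 18) (nat_lit 5) (nat_lit 18) (nat_lit 4) (nat_lit 426) (nat_lit 308) (nat_lit 286)) (XT.lf (nat_lit 0) (nat_lit 2378859668) (nat_lit 76) (nat_lit 4694577683) (nat_lit 152) (nat_lit 9449492901) (nat_lit 14) (nat_lit 5) (nat_lit 15) (nat_lit 5) (nat_lit 16) (nat_lit 4) (nat_lit 427) (nat_lit 308) (nat_lit 285))) (XT.nd (nat_lit 51090) (nat_lit 0) (nat_lit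 6004) (XT.lf (nat_lit 0) (nat_lit 2010478154) (nat_lit 152) (nat_lit 13427873063) (nat_lit 152) (nat_lit 1402605625) (nat_lit 12) (nat_lit 4) (nat_lit 14) (nat_lit 5) (nat_lit 14) (nat_lit 4) (nat_lit 428) (nat_lit 308) (nat_lit 284)) (XT.nd (nat_lit 78) (nat_lit 608) (nat_lit 0) (XT.lf (nat_lit 0) (nat_lit 4403604348) (nat_lit 304) (nat_lit 517962452) (nat_lit 304) (nat_lit 517962452) (nat_lit 99) (nat_lit 4) (nat_lit 103) (nat_lit 5) (nat_lit 103) (nat_lit 4) (nat_lit 402) (nat_lit 309) (nat_lit 309)) (XT.lf (nat_lit 0) (nat_lit 631363917) (nat_lit 304) (nat_lit 5671934405) (nat_lit 304) (nat_lit 4735024036) (nat_lit 91) (nat_lit 4) (nat_lit 95) (nat_lit 5) (nat_lit 95) (nat_lit 4) (nat_lit 403) (nat_lit 309) (nat_lit 308))))) (XT.nd (nat_lit 234) (nat_lit 1064) (nat_lit 0) (XT.nd (nat_lit 78) (nat_lit 608) (nat_lit 0) (XT.lf (nat_lit 0) (nat_lit 2584352137) (nat_lit 304) (nat_lit 7844067101) (nat_lit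 0) (nat_lit 774026563) (nat_lit 87) (nat_lit 5) (nat_lit 91) (nat_lit 4) (nat_lit 87) (nat_lit 4) (nat_lit 404) (nat_lit 309) (nat_lit 307)) (XT.nd (nat_lit 78) (nat_lit 304) (nat_lit 0) (XT.lf (nat_lit 0) (nat_lit 6044357457) (nat_lit 304) (nat_lit 4001462503) (nat_lit 304) (nat_lit 1325325282) (nat_lit 83) (nat_lit 4) (nat_lit 87) (nat_lit 5) (nat_lit 87) (nat_lit 4) (nat_lit 405) (nat_lit 309) (nat_lit 306)) (XT.lf (nat_lit 0) (nat_lit 6072657860) (nat_lit 304) (nat_lit 2847225236) (nat_lit 0) (nat_lit 2624882318) (nat_lit 79) (nat_lit 5) (nat_lit 83) (nat_lit 4) (nat_lit 79) (nat_lit 4) (nat_lit 406) (nat_lit 309) (nat_lit 305)))) (XT.nd (nat_lit 78) (nat_lit 760) (nat_lit 0) (XT.lf (nat_lit 0) (nat_lit 1904620273) (nat_lit 304) (nat_lit 400550939) (nat_lit 76) (nat_lit 9418426981) (nat_lit 75) (nat_lit 5) (nat_lit 79) (nat_lit 5) (nat_lit 76) (nat_lit 4) (nat_lit 407) (nat_lit 309) (nat_lit 304))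 (XT.nd (nat_lit 78) (nat_lit 304) (nat_lit 0) (XT.lf (nat_lit 0) (nat_lit 2017566096) (nat_lit 228) (nat_lit 7407870950) (nat_lit 228) (nat_lit 2481706131) (nat_lit 69) (nat_lit 4) (nat_lit 72) (nat_lit 5) (nat_lit 72) (nat_lit 4) (nat_lit 408) (nat_lit 309) (nat_lit 303)) (XT.lf (nat_lit 0) (nat_lit 4398371271) (nat_lit 228) (nat_lit 583770870) (nat_lit 304) (nat_lit 7113945363) (nat_lit 65) (nat_lit 5) (nat_lit 68) (nat_lit 5) (nat_lit 69) (nat_lit 4) (nat_lit 409) (nat_lit 309) (nat_lit 302)))))) (XT.nd (nat_lit 390) (nat_lit 1216) (nat_lit 0) (XT.nd (nat_lit 156) (nat_lit 912) (nat_lit 0) (XT.nd (nat_lit 78) (nat_lit 152) (nat_lit 0) (XT.lf (nat_lit 0) (nat_lit 340055348) (nat_lit 304) (nat_lit 5571334501) (nat_lit 76) (nat_lit 6378973870) (nat_lit 61) (nat_lit 5) (nat_lit 65) (nat_lit 5) (nat_lit 62) (nat_lit 4) (nat_lit 410) (nat_lit 309) (nat_lit 301)) (XT.lf (nat_lit 0) (nat_lit 7890877020)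 (nat_lit 228) (nat_lit 3513807613) (nat_lit 0) (nat_lit 1085457761) (nat_lit 59) (nat_lit 5) (nat_lit 62) (nat_lit 4) (nat_lit 59) (nat_lit 4) (nat_lit 411) (nat_lit 309) (nat_lit 300))) (XT.nd (nat_lit 78) (nat_lit 608) (nat_lit 0) (XT.lf (nat_lit 0) (nat_lit 2932892506) (nat_lit 304) (nat_lit 1531348887) (nat_lit 76) (nat_lit 8231306858) (nat_lit 55) (nat_lit 5) (nat_lit 59) (nat_lit 5) (nat_lit 56) (nat_lit 4) (nat_lit 412) (nat_lit 309) (nat_lit 299)) (XT.nd (nat_lit 78) (nat_lit 228) (nat_lit 0) (XT.lf (nat_lit 0) (nat_lit 385488286) (nat_lit 228) (nat_lit 10225019783) (nat_lit 228) (nat_lit 2296371396) (nat_lit 50) (nat_lit 4) (nat_lit 53) (nat_lit 5) (nat_lit 53) (nat_lit 4) (nat_lit 413) (nat_lit 309) (nat_lit 298)) (XT.lf (nat_lit 0) (nat_lit 2227931269) (nat_lit 152) (nat_lit 3097612168) (nat_lit 228) (nat_lit 7798269348) (nat_lit 47) (nat_lit 5) (nat_lit 49) (nat_lit 5) (nat_lit 50) (nat_lit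 4) (nat_lit 414) (nat_lit 309) (nat_lit 297))))) (XT.nd (nat_lit 234) (nat_lit 532) (nat_lit 0) (XT.nd (nat_lit 78) (nat_lit 456) (nat_lit 0) (XT.lf (nat_lit 0) (nat_lit 3990884453) (nat_lit 228) (nat_lit 9145369347) (nat_lit 228) (nat_lit 210879953) (nat_lit 44) (nat_lit 4) (nat_lit 47) (nat_lit 5) (nat_lit 47) (nat_lit 4) (nat_lit 415) (nat_lit 309) (nat_lit 296)) (XT.nd (nat_lit 78) (nat_lit 228) (nat_lit 0) (XT.lf (nat_lit 0) (nat_lit 5639881846) (nat_lit 152) (nat_lit 1850108377) (nat_lit 228) (nat_lit 6086474416) (nat_lit 41) (nat_lit 5) (nat_lit 43) (nat_lit 5) (nat_lit 44) (nat_lit 4) (nat_lit 416) (nat_lit 309) (nat_lit 295)) (XT.lf (nat_lit 0) (nat_lit 1588453153) (nat_lit 228) (nat_lit 6623805468) (nat_lit 76) (nat_lit 5600126445) (nat_lit 38) (nat_lit 5) (nat_lit 41) (nat_lit 5) (nat_lit 39) (nat_lit 4) (nat_lit 417) (nat_lit 309) (nat_lit 294)))) (XT.nd (nat_lit 78) (nat_lit 380) (nat_lit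 0) (XT.lf (nat_lit 0) (nat_lit 8624674124) (nat_lit 152) (nat_lit 766620926) (nat_lit 228) (nat_lit 4663685031) (nat_lit 36) (nat_lit 5) (nat_lit 38) (nat_lit 5) (nat_lit 39) (nat_lit 4) (nat_lit 418) (nat_lit 309) (nat_lit 293)) (XT.nd (nat_lit 78) (nat_lit 152) (nat_lit 0) (XT.lf (nat_lit 0) (nat_lit 3096236609) (nat_lit 228) (nat_lit 4377027116) (nat_lit 76) (nat_lit 6830915367) (nat_lit 33) (nat_lit 5) (nat_lit 36) (nat_lit 5) (nat_lit 34) (nat_lit 4) (nat_lit 419) (nat_lit 309) (nat_lit 292)) (XT.lf (nat_lit 0) (nat_lit 11001759795) (nat_lit 228) (nat_lit 3445179794) (nat_lit 0) (nat_lit 113782742) (nat_lit 31) (nat_lit 5) (nat_lit 34) (nat_lit 4) (nat_lit 31) (nat_lit 4) (nat_lit 420) (nat_lit 309) (nat_lit 291))))))) (XT.nd (nat_lit 51714) (nat_lit 0) (nat_lit 2964) (XT.nd (nat_lit 390) (nat_lit 380) (nat_lit 0) (XT.nd (nat_lit 156) (nat_lit 532) (nat_lit 0) (XT.nd (nat_lit 78) (nat_lit 152)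 (nat_lit 0) (XT.lf (nat_lit 0) (nat_lit 4284234820) (nat_lit 228) (nat_lit 2685289997) (nat_lit 76) (nat_lit 7854455884) (nat_lit 28) (nat_lit 5) (nat_lit 31) (nat_lit 5) (nat_lit 29) (nat_lit 4) (nat_lit 421) (nat_lit 309) (nat_lit 290)) (XT.lf (nat_lit 0) (nat_lit 12291663848) (nat_lit 228) (nat_lit 2058625928) (nat_lit 0) (nat_lit 744838274) (nat_lit 26) (nat_lit 5) (nat_lit 29) (nat_lit 4) (nat_lit 26) (nat_lit 4) (nat_lit 422) (nat_lit 309) (nat_lit 289))) (XT.nd (nat_lit 78) (nat_lit 304) (nat_lit 0) (XT.lf (nat_lit 0) (nat_lit 5117289130) (nat_lit 228) (nat_lit 1627108602) (nat_lit 76) (nat_lit 8628946094) (nat_lit 23) (nat_lit 5) (nat_lit 26) (nat_lit 5) (nat_lit 24) (nat_lit 4) (nat_lit 423) (nat_lit 309) (nat_lit 288)) (XT.nd (nat_lit 78) (nat_lit 228) (nat_lit 0) (XT.lf (nat_lit 0) (nat_lit 13219051509) (nat_lit 152) (nat_lit 1348366784) (nat_lit 0) (nat_lit 1092494592) (nat_lit 22) (nat_lit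 5) (nat_lit 24) (nat_lit 4) (nat_lit 22) (nat_lit 4) (nat_lit 424) (nat_lit 309) (nat_lit 287)) (XT.lf (nat_lit 0) (nat_lit 5555674283) (nat_lit 228) (nat_lit 1289641609) (nat_lit 76) (nat_lit 9108632450) (nat_lit 19) (nat_lit 5) (nat_lit 22) (nat_lit 5) (nat_lit 20) (nat_lit 4) (nat_lit 425) (nat_lit 309) (nat_lit 286))))) (XT.nd (nat_lit 51090) (nat_lit 0) (nat_lit 6460) (XT.nd (nat_lit 78) (nat_lit 304) (nat_lit 0) (XT.lf (nat_lit 0) (nat_lit 13742175744) (nat_lit 152) (nat_lit 1406218427) (nat_lit 0) (nat_lit 1108429774) (nat_lit 18) (nat_lit 5) (nat_lit 20) (nat_lit 4) (nat_lit 18) (nat_lit 4) (nat_lit 426) (nat_lit 309) (nat_lit 285)) (XT.nd (nat_lit 78) (nat_lit 76) (nat_lit 0) (XT.lf (nat_lit 0) (nat_lit 5554643233) (nat_lit 228) (nat_lit 1769655643) (nat_lit 76) (nat_lit 9243311658) (nat_lit 15) (nat_lit 5) (nat_lit 18) (nat_lit 5) (nat_lit 16) (nat_lit 4) (nat_lit 427) (nat_lit 309) (nat_lit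 284)) (XT.lf (nat_lit 0) (nat_lit 13814041480) (nat_lit 152) (nat_lit 2334124864) (nat_lit 0) (nat_lit 739584000) (nat_lit 14) (nat_lit 5) (nat_lit 16) (nat_lit 4) (nat_lit 14) (nat_lit 4) (nat_lit 428) (nat_lit 309) (nat_lit 283)))) (XT.nd (nat_lit 78) (nat_lit 684) (nat_lit 0) (XT.lf (nat_lit 0) (nat_lit 1575262718) (nat_lit 304) (nat_lit 1855336720) (nat_lit 304) (nat_lit 1855336720) (nat_lit 108) (nat_lit 4) (nat_lit 112) (nat_lit 5) (nat_lit 112) (nat_lit 4) (nat_lit 400) (nat_lit 310) (nat_lit 310)) (XT.nd (nat_lit 78) (nat_lit 304) (nat_lit 0) (XT.lf (nat_lit 0) (nat_lit 3450468479) (nat_lit 380) (nat_lit 4807320734) (nat_lit 0) (nat_lit 2466150447) (nat_lit 103) (nat_lit 5) (nat_lit 108) (nat_lit 4) (nat_lit 103) (nat_lit 4) (nat_lit 401) (nat_lit 310) (nat_lit 309)) (XT.lf (nat_lit 0) (nat_lit 8674318642) (nat_lit 304) (nat_lit 2073157096) (nat_lit 304) (nat_lit 133190487) (nat_lit 99) (nat_lit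 4) (nat_lit 103) (nat_lit 5) (nat_lit 103) (nat_lit 4) (nat_lit 402) (nat_lit 310) (nat_lit 308)))))) (XT.nd (nat_lit 390) (nat_lit 1672) (nat_lit 0) (XT.nd (nat_lit 156) (nat_lit 912) (nat_lit 0) (XT.nd (nat_lit 78) (nat_lit 304) (nat_lit 0) (XT.lf (nat_lit 0) (nat_lit 357703047) (nat_lit 304) (nat_lit 6747721375) (nat_lit 304) (nat_lit 3936171611) (nat_lit 91) (nat_lit 4) (nat_lit 95) (nat_lit 5) (nat_lit 95) (nat_lit 4) (nat_lit 403) (nat_lit 310) (nat_lit 307)) (XT.lf (nat_lit 0) (nat_lit 2944017502) (nat_lit 228) (nat_lit 342465243) (nat_lit 304) (nat_lit 7920865320) (nat_lit 87) (nat_lit 5) (nat_lit 90) (nat_lit 5) (nat_lit 91) (nat_lit 4) (nat_lit 404) (nat_lit 310) (nat_lit 306))) (XT.nd (nat_lit 78) (nat_lit 608) (nat_lit 0) (XT.lf (nat_lit 0) (nat_lit 5489039176) (nat_lit 304) (nat_lit 5175752766) (nat_lit 304) (nat_lit 712925949) (nat_lit 83) (nat_lit 4) (nat_lit 87) (nat_lit 5) (nat_lit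 87) (nat_lit 4) (nat_lit 405) (nat_lit 310) (nat_lit 305)) (XT.nd (nat_lit 78) (nat_lit 304) (nat_lit 0) (XT.lf (nat_lit 0) (nat_lit 6588049030) (nat_lit 304) (nat_lit 3552375635) (nat_lit 0) (nat_lit 1412620271) (nat_lit 79) (nat_lit 5) (nat_lit 83) (nat_lit 4) (nat_lit 79) (nat_lit 4) (nat_lit 406) (nat_lit 310) (nat_lit 304)) (XT.lf (nat_lit 0) (nat_lit 2323681567) (nat_lit 304) (nat_lit 1258396216) (nat_lit 76) (nat_lit 8151368607) (nat_lit 75) (nat_lit 5) (nat_lit 79) (nat_lit 5) (nat_lit 76) (nat_lit 4) (nat_lit 407) (nat_lit 310) (nat_lit 303))))) (XT.nd (nat_lit 234) (nat_lit 608) (nat_lit 0) (XT.nd (nat_lit 78) (nat_lit 608) (nat_lit 0) (XT.lf (nat_lit 0) (nat_lit 1002662441) (nat_lit 228) (nat_lit 8745586911) (nat_lit 228) (nat_lit 2170673344) (nat_lit 69) (nat_lit 4) (nat_lit 72) (nat_lit 5) (nat_lit 72) (nat_lit 4) (nat_lit 408) (nat_lit 310) (nat_lit 302)) (XT.nd (nat_lit 78) (nat_lit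 304) (nat_lit 0) (XT.lf (nat_lit 0) (nat_lit 3224681634) (nat_lit 228) (nat_lit 1981977067) (nat_lit 304) (nat_lit 6902822712) (nat_lit 65) (nat_lit 5) (nat_lit 68) (nat_lit 5) (nat_lit 69) (nat_lit 4) (nat_lit 409) (nat_lit 310) (nat_lit 301)) (XT.lf (nat_lit 0) (nat_lit 456307118) (nat_lit 304) (nat_lit 6911314433) (nat_lit 76) (nat_lit 4937956449) (nat_lit 61) (nat_lit 5) (nat_lit 65) (nat_lit 5) (nat_lit 62) (nat_lit 4) (nat_lit 410) (nat_lit 310) (nat_lit 300)))) (XT.nd (nat_lit 78) (nat_lit 456) (nat_lit 0) (XT.lf (nat_lit 0) (nat_lit 7496632262) (nat_lit 152) (nat_lit 420727647) (nat_lit 228) (nat_lit 4589797724) (nat_lit 59) (nat_lit 5) (nat_lit 61) (nat_lit 5) (nat_lit 62) (nat_lit 4) (nat_lit 411) (nat_lit 310) (nat_lit 299)) (XT.nd (nat_lit 78) (nat_lit 152) (nat_lit 0) (XT.lf (nat_lit 0) (nat_lit 2856260822) (nat_lit 304) (nat_lit 3191620737) (nat_lit 76) (nat_lit 6666405517) (nat_lit 55)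 (nat_lit 5) (nat_lit 59) (nat_lit 5) (nat_lit 56) (nat_lit 4) (nat_lit 412) (nat_lit 310) (nat_lit 298)) (XT.lf (nat_lit 0) (nat_lit 10437717995) (nat_lit 228) (nat_lit 1438685181) (nat_lit 0) (nat_lit 1051143438) (nat_lit 53) (nat_lit 5) (nat_lit 56) (nat_lit 4) (nat_lit 53) (nat_lit 4) (nat_lit 413) (nat_lit 310) (nat_lit 297))))))))
noncomputable def xc5 : XT := (XT.nd (nat_lit 52416) (nat_lit 0) (nat_lit 304) (XT.nd (nat_lit 858) (nat_lit 608) (nat_lit 0) (XT.nd (nat_lit 390) (nat_lit 1064) (nat_lit 0) (XT.nd (nat_lit 156) (nat_lit 608) (nat_lit 0) (XT.nd (nat_lit 78) (nat_lit 228) (nat_lit 0) (XT.lf (nat_lit 0) (nat_lit 211600938) (nat_lit 152) (nat_lit 4828838765) (nat_lit 228) (nat_lit 8105953934) (nat_lit 47) (nat_lit 5) (nat_lit 49) (nat_lit 5) (nat_lit 50) (nat_lit 4) (nat_lit 414) (nat_lit 310) (nat_lit 296)) (XT.lf (nat_lit 0) (nat_lit 1808542368) (nat_lit 228) (nat_lit 10946551250) (nat_lit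 228) (nat_lit 616546882) (nat_lit 44) (nat_lit 4) (nat_lit 47) (nat_lit 5) (nat_lit 47) (nat_lit 4) (nat_lit 415) (nat_lit 310) (nat_lit 295))) (XT.nd (nat_lit 78) (nat_lit 380) (nat_lit 0) (XT.lf (nat_lit 0) (nat_lit 3279776383) (nat_lit 152) (nat_lit 3724685399) (nat_lit 228) (nat_lit 6598270456) (nat_lit 41) (nat_lit 5) (nat_lit 43) (nat_lit 5) (nat_lit 44) (nat_lit 4) (nat_lit 416) (nat_lit 310) (nat_lit 294)) (XT.nd (nat_lit 78) (nat_lit 152) (nat_lit 0) (XT.lf (nat_lit 0) (nat_lit 985138415) (nat_lit 228) (nat_lit 9179395576) (nat_lit 76) (nat_lit 3676154069) (nat_lit 38) (nat_lit 5) (nat_lit 41) (nat_lit 5) (nat_lit 39) (nat_lit 4) (nat_lit 417) (nat_lit 310) (nat_lit 293)) (XT.lf (nat_lit 0) (nat_lit 5910654502) (nat_lit 152) (nat_lit 2791494689) (nat_lit 228) (nat_lit 5382854699) (nat_lit 36) (nat_lit 5) (nat_lit 38) (nat_lit 5) (nat_lit 39) (nat_lit 4) (nat_lit 418) (nat_lit 310) (nat_lit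 292))))) (XT.nd (nat_lit 234) (nat_lit 456) (nat_lit 0) (XT.nd (nat_lit 78) (nat_lit 380) (nat_lit 0) (XT.lf (nat_lit 0) (nat_lit 2286565408) (nat_lit 228) (nat_lit 7294358094) (nat_lit 76) (nat_lit 4755375447) (nat_lit 33) (nat_lit 5) (nat_lit 36) (nat_lit 5) (nat_lit 34) (nat_lit 4) (nat_lit 419) (nat_lit 310) (nat_lit 291)) (XT.nd (nat_lit 78) (nat_lit 228) (nat_lit 0) (XT.lf (nat_lit 0) (nat_lit 8037851597) (nat_lit 152) (nat_lit 2066885256) (nat_lit 228) (nat_lit 4489856245) (nat_lit 31) (nat_lit 5) (nat_lit 33) (nat_lit 5) (nat_lit 34) (nat_lit 4) (nat_lit 420) (nat_lit 310) (nat_lit 290)) (XT.lf (nat_lit 0) (nat_lit 3264498337) (nat_lit 228) (nat_lit 5975126056) (nat_lit 76) (nat_lit 5620372673) (nat_lit 28) (nat_lit 5) (nat_lit 31) (nat_lit 5) (nat_lit 29) (nat_lit 4) (nat_lit 421) (nat_lit 310) (nat_lit 289)))) (XT.nd (nat_lit 78) (nat_lit 304) (nat_lit 0) (XT.lf (nat_lit 0) (nat_lit 9587685075)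 (nat_lit 152) (nat_lit 1591844125) (nat_lit 228) (nat_lit 3953466757) (nat_lit 26) (nat_lit 5) (nat_lit 28) (nat_lit 5) (nat_lit 29) (nat_lit 4) (nat_lit 422) (nat_lit 310) (nat_lit 288)) (XT.nd (nat_lit 78) (nat_lit 76) (nat_lit 0) (XT.lf (nat_lit 0) (nat_lit 3883455456) (nat_lit 228) (nat_lit 5300636084) (nat_lit 76) (nat_lit 6229251205) (nat_lit 23) (nat_lit 5) (nat_lit 26) (nat_lit 5) (nat_lit 24) (nat_lit 4) (nat_lit 423) (nat_lit 310) (nat_lit 287)) (XT.lf (nat_lit 0) (nat_lit 10478346173) (nat_lit 76) (nat_lit 1411168658) (nat_lit 152) (nat_lit 3812314341) (nat_lit 22) (nat_lit 5) (nat_lit 23) (nat_lit 5) (nat_lit 24) (nat_lit 4) (nat_lit 424) (nat_lit 310) (nat_lit 286)))))) (XT.nd (nat_lit 51090) (nat_lit 0) (nat_lit 5548) (XT.nd (nat_lit 156) (nat_lit 304) (nat_lit 0) (XT.nd (nat_lit 78) (nat_lit 76) (nat_lit 0) (XT.lf (nat_lit 0) (nat_lit 4103385070) (nat_lit 228) (nat_lit 5358492901) (nat_lit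 76) (nat_lit 6536144357) (nat_lit 19) (nat_lit 5) (nat_lit 22) (nat_lit 5) (nat_lit 20) (nat_lit 4) (nat_lit 425) (nat_lit 310) (nat_lit 285)) (XT.lf (nat_lit 0) (nat_lit 10618988527) (nat_lit 76) (nat_lit 1573949123) (nat_lit 152) (nat_lit 4109902314) (nat_lit 18) (nat_lit 5) (nat_lit 19) (nat_lit 5) (nat_lit 20) (nat_lit 4) (nat_lit 426) (nat_lit 310) (nat_lit 284))) (XT.nd (nat_lit 78) (nat_lit 76) (nat_lit 0) (XT.lf (nat_lit 0) (nat_lit 3879209530) (nat_lit 228) (nat_lit 6245933430) (nat_lit 76) (nat_lit 6490715685) (nat_lit 15) (nat_lit 5) (nat_lit 18) (nat_lit 5) (nat_lit 16) (nat_lit 4) (nat_lit 427) (nat_lit 310) (nat_lit 283)) (XT.nd (nat_lit 50778) (nat_lit 0) (nat_lit 8132) (XT.lf (nat_lit 0) (nat_lit 9908723614) (nat_lit 76) (nat_lit 2134096610) (nat_lit 152) (nat_lit 4895096808) (nat_lit 14) (nat_lit 5) (nat_lit 15) (nat_lit 5) (nat_lit 16) (nat_lit 4) (nat_lit 428) (nat_lit 310) (nat_lit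 282)) (XT.lf (nat_lit 0) (nat_lit 2007194078) (nat_lit 380) (nat_lit 1125197066) (nat_lit 0) (nat_lit 2007194078) (nat_lit 121) (nat_lit 5) (nat_lit 126) (nat_lit 4) (nat_lit 121) (nat_lit 4) (nat_lit 398) (nat_lit 311) (nat_lit 311))))) (XT.nd (nat_lit 234) (nat_lit 1216) (nat_lit 0) (XT.nd (nat_lit 78) (nat_lit 684) (nat_lit 0) (XT.lf (nat_lit 0) (nat_lit 387365370) (nat_lit 304) (nat_lit 326581355) (nat_lit 380) (nat_lit 9710587857) (nat_lit 112) (nat_lit 5) (nat_lit 116) (nat_lit 5) (nat_lit 117) (nat_lit 4) (nat_lit 399) (nat_lit 311) (nat_lit 310)) (XT.nd (nat_lit 78) (nat_lit 380) (nat_lit 0) (XT.lf (nat_lit 0) (nat_lit 3019563337) (nat_lit 304) (nat_lit 4796020651) (nat_lit 304) (nat_lit 2757891732) (nat_lit 108) (nat_lit 4) (nat_lit 112) (nat_lit 5) (nat_lit 112) (nat_lit 4) (nat_lit 400) (nat_lit 311) (nat_lit 309)) (XT.lf (nat_lit 0) (nat_lit 4303716487) (nat_lit 380) (nat_lit 5073549505)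 (nat_lit 0) (nat_lit 1349902305) (nat_lit 103) (nat_lit 5) (nat_lit 108) (nat_lit 4) (nat_lit 103) (nat_lit 4) (nat_lit 401) (nat_lit 311) (nat_lit 308)))) (XT.nd (nat_lit 78) (nat_lit 836) (nat_lit 0) (XT.lf (nat_lit 0) (nat_lit 627495864) (nat_lit 380) (nat_lit 2614086686) (nat_lit 76) (nat_lit 7643825667) (nat_lit 98) (nat_lit 5) (nat_lit 103) (nat_lit 5) (nat_lit 99) (nat_lit 4) (nat_lit 402) (nat_lit 311) (nat_lit 307)) (XT.nd (nat_lit 78) (nat_lit 608) (nat_lit 0) (XT.lf (nat_lit 0) (nat_lit 7774699826) (nat_lit 304) (nat_lit 187367793) (nat_lit 0) (nat_lit 3086053972) (nat_lit 95) (nat_lit 5) (nat_lit 99) (nat_lit 4) (nat_lit 95) (nat_lit 4) (nat_lit 403) (nat_lit 311) (nat_lit 306)) (XT.lf (nat_lit 0) (nat_lit 2248399540) (nat_lit 228) (nat_lit 1610239619) (nat_lit 304) (nat_lit 7356793643) (nat_lit 87) (nat_lit 5) (nat_lit 90) (nat_lit 5) (nat_lit 91) (nat_lit 4) (nat_lit 404) (nat_lit 311)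 (nat_lit 305))))))) (XT.nd (nat_lit 858) (nat_lit 2204) (nat_lit 0) (XT.nd (nat_lit 390) (nat_lit 1368) (nat_lit 0) (XT.nd (nat_lit 156) (nat_lit 1064) (nat_lit 0) (XT.nd (nat_lit 78) (nat_lit 304) (nat_lit 0) (XT.lf (nat_lit 0) (nat_lit 4655455271) (nat_lit 304) (nat_lit 6492772372) (nat_lit 304) (nat_lit 239356401) (nat_lit 83) (nat_lit 4) (nat_lit 87) (nat_lit 5) (nat_lit 87) (nat_lit 4) (nat_lit 405) (nat_lit 311) (nat_lit 304)) (XT.lf (nat_lit 0) (nat_lit 6965900966) (nat_lit 304) (nat_lit 4540448655) (nat_lit 0) (nat_lit 58296772) (nat_lit 79) (nat_lit 5) (nat_lit 83) (nat_lit 4) (nat_lit 79) (nat_lit 4) (nat_lit 406) (nat_lit 311) (nat_lit 303))) (XT.nd (nat_lit 78) (nat_lit 760) (nat_lit 0) (XT.lf (nat_lit 0) (nat_lit 2604090295) (nat_lit 304) (nat_lit 2401520654) (nat_lit 76) (nat_lit 6741016448) (nat_lit 75) (nat_lit 5) (nat_lit 79) (nat_lit 5) (nat_lit 76) (nat_lit 4) (nat_lit 407) (nat_lit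 311) (nat_lit 302)) (XT.nd (nat_lit 78) (nat_lit 532) (nat_lit 0) (XT.lf (nat_lit 0) (nat_lit 9931851813) (nat_lit 304) (nat_lit 299749750) (nat_lit 0) (nat_lit 1702444426) (nat_lit 72) (nat_lit 5) (nat_lit 76) (nat_lit 4) (nat_lit 72) (nat_lit 4) (nat_lit 408) (nat_lit 311) (nat_lit 301)) (XT.lf (nat_lit 0) (nat_lit 1756973820) (nat_lit 228) (nat_lit 3531802502) (nat_lit 304) (nat_lit 6837495407) (nat_lit 65) (nat_lit 5) (nat_lit 68) (nat_lit 5) (nat_lit 69) (nat_lit 4) (nat_lit 409) (nat_lit 311) (nat_lit 300))))) (XT.nd (nat_lit 234) (nat_lit 608) (nat_lit 0) (XT.nd (nat_lit 78) (nat_lit 456) (nat_lit 0) (XT.lf (nat_lit 0) (nat_lit 427910827) (nat_lit 304) (nat_lit 8550327867) (nat_lit 76) (nat_lit 3345984056) (nat_lit 61) (nat_lit 5) (nat_lit 65) (nat_lit 5) (nat_lit 62) (nat_lit 4) (nat_lit 410) (nat_lit 311) (nat_lit 299)) (XT.nd (nat_lit 78) (nat_lit 304) (nat_lit 0) (XT.lf (nat_lit 0) (nat_lit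 5710401325) (nat_lit 152) (nat_lit 2096117120) (nat_lit 228) (nat_lit 4720938260) (nat_lit 59) (nat_lit 5) (nat_lit 61) (nat_lit 5) (nat_lit 62) (nat_lit 4) (nat_lit 411) (nat_lit 311) (nat_lit 298)) (XT.lf (nat_lit 0) (nat_lit 2632803089) (nat_lit 304) (nat_lit 5156311439) (nat_lit 76) (nat_lit 4947374548) (nat_lit 55) (nat_lit 5) (nat_lit 59) (nat_lit 5) (nat_lit 56) (nat_lit 4) (nat_lit 412) (nat_lit 311) (nat_lit 297)))) (XT.nd (nat_lit 78) (nat_lit 456) (nat_lit 0) (XT.lf (nat_lit 0) (nat_lit 9381725620) (nat_lit 152) (nat_lit 742770548) (nat_lit 228) (nat_lit 2827052735) (nat_lit 53) (nat_lit 5) (nat_lit 55) (nat_lit 5) (nat_lit 56) (nat_lit 4) (nat_lit 413) (nat_lit 311) (nat_lit 296)) (XT.nd (nat_lit 78) (nat_lit 152) (nat_lit 0) (XT.lf (nat_lit 0) (nat_lit 4617848175) (nat_lit 304) (nat_lit 2091166465) (nat_lit 76) (nat_lit 6463225644) (nat_lit 49) (nat_lit 5) (nat_lit 53) (nat_lit 5) (nat_lit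 50) (nat_lit 4) (nat_lit 414) (nat_lit 311) (nat_lit 295)) (XT.lf (nat_lit 0) (nat_lit 12226114414) (nat_lit 228) (nat_lit 681936259) (nat_lit 0) (nat_lit 491568854) (nat_lit 47) (nat_lit 5) (nat_lit 50) (nat_lit 4) (nat_lit 47) (nat_lit 4) (nat_lit 415) (nat_lit 311) (nat_lit 294)))))) (XT.nd (nat_lit 390) (nat_lit 988) (nat_lit 0) (XT.nd (nat_lit 156) (nat_lit 532) (nat_lit 0) (XT.nd (nat_lit 78) (nat_lit 228) (nat_lit 0) (XT.lf (nat_lit 0) (nat_lit 599359803) (nat_lit 152) (nat_lit 5765705357) (nat_lit 228) (nat_lit 7267517692) (nat_lit 41) (nat_lit 5) (nat_lit 43) (nat_lit 5) (nat_lit 44) (nat_lit 4) (nat_lit 416) (nat_lit 311) (nat_lit 293)) (XT.lf (nat_lit 0) (nat_lit 225258127) (nat_lit 228) (nat_lit 12061007744) (nat_lit 76) (nat_lit 1586352105) (nat_lit 38) (nat_lit 5) (nat_lit 41) (nat_lit 5) (nat_lit 39) (nat_lit 4) (nat_lit 417) (nat_lit 311) (nat_lit 292))) (XT.nd (nat_lit 78) (nat_lit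 380) (nat_lit 0) (XT.lf (nat_lit 0) (nat_lit 2869905413) (nat_lit 152) (nat_lit 4986397721) (nat_lit 228) (nat_lit 6262354057) (nat_lit 36) (nat_lit 5) (nat_lit 38) (nat_lit 5) (nat_lit 39) (nat_lit 4) (nat_lit 418) (nat_lit 311) (nat_lit 291)) (XT.nd (nat_lit 78) (nat_lit 152) (nat_lit 0) (XT.lf (nat_lit 0) (nat_lit 1317373992) (nat_lit 228) (nat_lit 10544329514) (nat_lit 76) (nat_lit 2510391360) (nat_lit 33) (nat_lit 5) (nat_lit 36) (nat_lit 5) (nat_lit 34) (nat_lit 4) (nat_lit 419) (nat_lit 311) (nat_lit 290)) (XT.lf (nat_lit 0) (nat_lit 4625899755) (nat_lit 152) (nat_lit 4422817492) (nat_lit 228) (nat_lit 5583412093) (nat_lit 31) (nat_lit 5) (nat_lit 33) (nat_lit 5) (nat_lit 34) (nat_lit 4) (nat_lit 420) (nat_lit 311) (nat_lit 289))))) (XT.nd (nat_lit 234) (nat_lit 380) (nat_lit 0) (XT.nd (nat_lit 78) (nat_lit 380) (nat_lit 0) (XT.lf (nat_lit 0) (nat_lit 2082070652) (nat_lit 228) (nat_lit 9604581325)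 (nat_lit 76) (nat_lit 3213091194) (nat_lit 28) (nat_lit 5) (nat_lit 31) (nat_lit 5) (nat_lit 29) (nat_lit 4) (nat_lit 421) (nat_lit 311) (nat_lit 288)) (XT.nd (nat_lit 78) (nat_lit 228) (nat_lit 0) (XT.lf (nat_lit 0) (nat_lit 5793239893) (nat_lit 152) (nat_lit 4116047460) (nat_lit 228) (nat_lit 5265214469) (nat_lit 26) (nat_lit 5) (nat_lit 28) (nat_lit 5) (nat_lit 29) (nat_lit 4) (nat_lit 422) (nat_lit 311) (nat_lit 287)) (XT.lf (nat_lit 0) (nat_lit 2483538836) (nat_lit 228) (nat_lit 9321137230) (nat_lit 76) (nat_lit 3652453640) (nat_lit 23) (nat_lit 5) (nat_lit 26) (nat_lit 5) (nat_lit 24) (nat_lit 4) (nat_lit 423) (nat_lit 311) (nat_lit 286)))) (XT.nd (nat_lit 78) (nat_lit 304) (nat_lit 0) (XT.lf (nat_lit 0) (nat_lit 6289672533) (nat_lit 76) (nat_lit 4111001617) (nat_lit 152) (nat_lit 5346723674) (nat_lit 22) (nat_lit 5) (nat_lit 23) (nat_lit 5) (nat_lit 24) (nat_lit 4) (nat_lit 424) (nat_lit 311)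 (nat_lit 285)) (XT.nd (nat_lit 78) (nat_lit 76) (nat_lit 0) (XT.lf (nat_lit 0) (nat_lit 2481395523) (nat_lit 228) (nat_lit 9782063719) (nat_lit 76) (nat_lit 3782488128) (nat_lit 19) (nat_lit 5) (nat_lit 22) (nat_lit 5) (nat_lit 20) (nat_lit 4) (nat_lit 425) (nat_lit 311) (nat_lit 284)) (XT.lf (nat_lit 0) (nat_lit 6023882281) (nat_lit 76) (nat_lit 4456907246) (nat_lit 152) (nat_lit 5871781620) (nat_lit 18) (nat_lit 5) (nat_lit 19) (nat_lit 5) (nat_lit 20) (nat_lit 4) (nat_lit 426) (nat_lit 311) (nat_lit 283))))))))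
noncomputable def xc6 : XT := (XT.nd (nat_lit 52260) (nat_lit 0) (nat_lit 76) (XT.nd (nat_lit 51402) (nat_lit 0) (nat_lit 2508) (XT.nd (nat_lit 50934) (nat_lit 0) (nat_lit 5548) (XT.nd (nat_lit 50700) (nat_lit 0) (nat_lit 8132) (XT.nd (nat_lit 78) (nat_lit 76) (nat_lit 0) (XT.lf (nat_lit 0) (nat_lit 2030227137) (nat_lit 228) (nat_lit 11085084176) (nat_lit 76) (nat_lit 3552714335) (nat_lit 15) (nat_lit 5) (nat_lit 18) (nat_lit 5) (nat_lit 16) (nat_lit 4) (nat_lit 427) (nat_lit 311) (nat_lit 282)) (XT.lf (nat_lit 0) (nat_lit 4894486692) (nat_lit 76) (nat_lit 5207832415) (nat_lit 152) (nat_lit 6889598045) (nat_lit 14) (nat_lit 5) (nat_lit 15) (nat_lit 5) (nat_lit 16) (nat_lit 4) (nat_lit 428) (nat_lit 311) (nat_lit 281))) (XT.nd (nat_lit 78) (nat_lit 760) (nat_lit 0) (XT.lf (nat_lit 0) (nat_lit 656534396) (nat_lit 380) (nat_lit 3687049722) (nat_lit 0) (nat_lit 656534396) (nat_lit 131) (nat_lit 5) (nat_lit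 136) (nat_lit 4) (nat_lit 131) (nat_lit 4) (nat_lit 396) (nat_lit 312) (nat_lit 312)) (XT.nd (nat_lit 78) (nat_lit 380) (nat_lit 0) (XT.lf (nat_lit 0) (nat_lit 5265039055) (nat_lit 380) (nat_lit 2990760101) (nat_lit 380) (nat_lit 1882579850) (nat_lit 126) (nat_lit 4) (nat_lit 131) (nat_lit 5) (nat_lit 131) (nat_lit 4) (nat_lit 397) (nat_lit 312) (nat_lit 311)) (XT.lf (nat_lit 0) (nat_lit 5022143306) (nat_lit 380) (nat_lit 2377725047) (nat_lit 0) (nat_lit 2880885064) (nat_lit 121) (nat_lit 5) (nat_lit 126) (nat_lit 4) (nat_lit 121) (nat_lit 4) (nat_lit 398) (nat_lit 312) (nat_lit 310))))) (XT.nd (nat_lit 234) (nat_lit 1216) (nat_lit 0) (XT.nd (nat_lit 78) (nat_lit 684) (nat_lit 0) (XT.lf (nat_lit 0) (nat_lit 120407352) (nat_lit 304) (nat_lit 1506201595) (nat_lit 380) (nat_lit 8800992842) (nat_lit 112) (nat_lit 5) (nat_lit 116) (nat_lit 5) (nat_lit 117) (nat_lit 4) (nat_lit 399) (nat_lit 312) (nat_lit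 309)) (XT.nd (nat_lit 78) (nat_lit 380) (nat_lit 0) (XT.lf (nat_lit 0) (nat_lit 2626562610) (nat_lit 304) (nat_lit 6014881723) (nat_lit 304) (nat_lit 1936842996) (nat_lit 108) (nat_lit 4) (nat_lit 112) (nat_lit 5) (nat_lit 112) (nat_lit 4) (nat_lit 400) (nat_lit 312) (nat_lit 308)) (XT.lf (nat_lit 0) (nat_lit 5026640025) (nat_lit 380) (nat_lit 5606239675) (nat_lit 0) (nat_lit 100748691) (nat_lit 103) (nat_lit 5) (nat_lit 108) (nat_lit 4) (nat_lit 103) (nat_lit 4) (nat_lit 401) (nat_lit 312) (nat_lit 307)))) (XT.nd (nat_lit 78) (nat_lit 836) (nat_lit 0) (XT.lf (nat_lit 0) (nat_lit 1255143192) (nat_lit 380) (nat_lit 3291292522) (nat_lit 76) (nat_lit 6346935531) (nat_lit 98) (nat_lit 5) (nat_lit 103) (nat_lit 5) (nat_lit 99) (nat_lit 4) (nat_lit 402) (nat_lit 312) (nat_lit 306)) (XT.nd (nat_lit 78) (nat_lit 608) (nat_lit 0) (XT.lf (nat_lit 0) (nat_lit 8314579467) (nat_lit 304) (nat_lit 998527213) (nat_lit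 0) (nat_lit 1744740649) (nat_lit 95) (nat_lit 5) (nat_lit 99) (nat_lit 4) (nat_lit 95) (nat_lit 4) (nat_lit 403) (nat_lit 312) (nat_lit 305)) (XT.lf (nat_lit 0) (nat_lit 1276111116) (nat_lit 228) (nat_lit 3020117924) (nat_lit 304) (nat_lit 6930579880) (nat_lit 87) (nat_lit 5) (nat_lit 90) (nat_lit 5) (nat_lit 91) (nat_lit 4) (nat_lit 404) (nat_lit 312) (nat_lit 304)))))) (XT.nd (nat_lit 390) (nat_lit 1596) (nat_lit 0) (XT.nd (nat_lit 156) (nat_lit 836) (nat_lit 0) (XT.nd (nat_lit 78) (nat_lit 228) (nat_lit 0) (XT.lf (nat_lit 0) (nat_lit 94540763) (nat_lit 380) (nat_lit 7858496932) (nat_lit 76) (nat_lit 3447702187) (nat_lit 82) (nat_lit 5) (nat_lit 87) (nat_lit 5) (nat_lit 83) (nat_lit 4) (nat_lit 405) (nat_lit 312) (nat_lit 303)) (XT.lf (nat_lit 0) (nat_lit 5757613993) (nat_lit 228) (nat_lit 1458398730) (nat_lit 304) (nat_lit 4363377821) (nat_lit 79) (nat_lit 5) (nat_lit 82) (nat_lit 5) (nat_lit 83)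 (nat_lit 4) (nat_lit 406) (nat_lit 312) (nat_lit 302))) (XT.nd (nat_lit 78) (nat_lit 532) (nat_lit 0) (XT.lf (nat_lit 0) (nat_lit 2746091476) (nat_lit 304) (nat_lit 3830923100) (nat_lit 76) (nat_lit 5186138159) (nat_lit 75) (nat_lit 5) (nat_lit 79) (nat_lit 5) (nat_lit 76) (nat_lit 4) (nat_lit 407) (nat_lit 312) (nat_lit 301)) (XT.nd (nat_lit 78) (nat_lit 304) (nat_lit 0) (XT.lf (nat_lit 0) (nat_lit 9982841015) (nat_lit 304) (nat_lit 1877807466) (nat_lit 0) (nat_lit 91749065) (nat_lit 72) (nat_lit 5) (nat_lit 76) (nat_lit 4) (nat_lit 72) (nat_lit 4) (nat_lit 408) (nat_lit 312) (nat_lit 300)) (XT.lf (nat_lit 0) (nat_lit 5228605941) (nat_lit 304) (nat_lit 5955488) (nat_lit 76) (nat_lit 6911910912) (nat_lit 68) (nat_lit 5) (nat_lit 72) (nat_lit 5) (nat_lit 69) (nat_lit 4) (nat_lit 409) (nat_lit 312) (nat_lit 299))))) (XT.nd (nat_lit 234) (nat_lit 608) (nat_lit 0) (XT.nd (nat_lit 78) (nat_lit 456) (nat_lit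 0) (XT.lf (nat_lit 0) (nat_lit 254841660) (nat_lit 304) (nat_lit 10489806952) (nat_lit 76) (nat_lit 1601665648) (nat_lit 61) (nat_lit 5) (nat_lit 65) (nat_lit 5) (nat_lit 62) (nat_lit 4) (nat_lit 410) (nat_lit 312) (nat_lit 298)) (XT.nd (nat_lit 78) (nat_lit 304) (nat_lit 0) (XT.lf (nat_lit 0) (nat_lit 3623365179) (nat_lit 152) (nat_lit 3927749427) (nat_lit 228) (nat_lit 5000085562) (nat_lit 59) (nat_lit 5) (nat_lit 61) (nat_lit 5) (nat_lit 62) (nat_lit 4) (nat_lit 411) (nat_lit 312) (nat_lit 297)) (XT.lf (nat_lit 0) (nat_lit 2262324053) (nat_lit 304) (nat_lit 7427137713) (nat_lit 76) (nat_lit 3072711884) (nat_lit 55) (nat_lit 5) (nat_lit 59) (nat_lit 5) (nat_lit 56) (nat_lit 4) (nat_lit 412) (nat_lit 312) (nat_lit 296)))) (XT.nd (nat_lit 78) (nat_lit 456) (nat_lit 0) (XT.lf (nat_lit 0) (nat_lit 6960925985) (nat_lit 152) (nat_lit 2710265015) (nat_lit 228) (nat_lit 3307703861) (nat_lit 53) (nat_lit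 5) (nat_lit 55) (nat_lit 5) (nat_lit 56) (nat_lit 4) (nat_lit 413) (nat_lit 312) (nat_lit 295)) (XT.nd (nat_lit 78) (nat_lit 152) (nat_lit 0) (XT.lf (nat_lit 0) (nat_lit 4047057150) (nat_lit 304) (nat_lit 4703274812) (nat_lit 76) (nat_lit 4451250197) (nat_lit 49) (nat_lit 5) (nat_lit 53) (nat_lit 5) (nat_lit 50) (nat_lit 4) (nat_lit 414) (nat_lit 312) (nat_lit 294)) (XT.lf (nat_lit 0) (nat_lit 9956341301) (nat_lit 152) (nat_lit 1612306393) (nat_lit 228) (nat_lit 1862051712) (nat_lit 47) (nat_lit 5) (nat_lit 49) (nat_lit 5) (nat_lit 50) (nat_lit 4) (nat_lit 415) (nat_lit 312) (nat_lit 293))))))) (XT.nd (nat_lit 858) (nat_lit 228) (nat_lit 0) (XT.nd (nat_lit 390) (nat_lit 988) (nat_lit 0) (XT.nd (nat_lit 156) (nat_lit 760) (nat_lit 0) (XT.nd (nat_lit 78) (nat_lit 152) (nat_lit 0) (XT.lf (nat_lit 0) (nat_lit 5586848140) (nat_lit 304) (nat_lit 2372184917) (nat_lit 76) (nat_lit 5706697376) (nat_lit 43)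 (nat_lit 5) (nat_lit 47) (nat_lit 5) (nat_lit 44) (nat_lit 4) (nat_lit 416) (nat_lit 312) (nat_lit 292)) (XT.lf (nat_lit 0) (nat_lit 12553857212) (nat_lit 152) (nat_lit 666414612) (nat_lit 228) (nat_lit 687575734) (nat_lit 41) (nat_lit 5) (nat_lit 43) (nat_lit 5) (nat_lit 44) (nat_lit 4) (nat_lit 417) (nat_lit 312) (nat_lit 291))) (XT.nd (nat_lit 78) (nat_lit 532) (nat_lit 0) (XT.lf (nat_lit 0) (nat_lit 6856265616) (nat_lit 228) (nat_lit 493669499) (nat_lit 76) (nat_lit 6805969319) (nat_lit 38) (nat_lit 5) (nat_lit 41) (nat_lit 5) (nat_lit 39) (nat_lit 4) (nat_lit 418) (nat_lit 312) (nat_lit 290)) (XT.nd (nat_lit 78) (nat_lit 152) (nat_lit 0) (XT.lf (nat_lit 0) (nat_lit 187815497) (nat_lit 228) (nat_lit 14129781158) (nat_lit 76) (nat_lit 94001469) (nat_lit 33) (nat_lit 5) (nat_lit 36) (nat_lit 5) (nat_lit 34) (nat_lit 4) (nat_lit 419) (nat_lit 312) (nat_lit 289)) (XT.lf (nat_lit 0) (nat_lit 877469237)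 (nat_lit 152) (nat_lit 6954560434) (nat_lit 228) (nat_lit 6841349158) (nat_lit 31) (nat_lit 5) (nat_lit 33) (nat_lit 5) (nat_lit 34) (nat_lit 4) (nat_lit 420) (nat_lit 312) (nat_lit 288))))) (XT.nd (nat_lit 234) (nat_lit 380) (nat_lit 0) (XT.nd (nat_lit 78) (nat_lit 380) (nat_lit 0) (XT.lf (nat_lit 0) (nat_lit 735918576) (nat_lit 228) (nat_lit 13576827170) (nat_lit 76) (nat_lit 630507998) (nat_lit 28) (nat_lit 5) (nat_lit 31) (nat_lit 5) (nat_lit 29) (nat_lit 4) (nat_lit 421) (nat_lit 312) (nat_lit 287)) (XT.nd (nat_lit 78) (nat_lit 228) (nat_lit 0) (XT.lf (nat_lit 0) (nat_lit 1654849297) (nat_lit 152) (nat_lit 6820078834) (nat_lit 228) (nat_lit 6744851782) (nat_lit 26) (nat_lit 5) (nat_lit 28) (nat_lit 5) (nat_lit 29) (nat_lit 4) (nat_lit 422) (nat_lit 312) (nat_lit 286)) (XT.lf (nat_lit 0) (nat_lit 916316040) (nat_lit 228) (nat_lit 13692125100) (nat_lit 76) (nat_lit 896301828) (nat_lit 23) (nat_lit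 5) (nat_lit 26) (nat_lit 5) (nat_lit 24) (nat_lit 4) (nat_lit 423) (nat_lit 312) (nat_lit 285)))) (XT.nd (nat_lit 78) (nat_lit 304) (nat_lit 0) (XT.lf (nat_lit 0) (nat_lit 1749196390) (nat_lit 76) (nat_lit 6994844684) (nat_lit 152) (nat_lit 7052761336) (nat_lit 22) (nat_lit 5) (nat_lit 23) (nat_lit 5) (nat_lit 24) (nat_lit 4) (nat_lit 424) (nat_lit 312) (nat_lit 284)) (XT.nd (nat_lit 78) (nat_lit 76) (nat_lit 0) (XT.lf (nat_lit 0) (nat_lit 688288370) (nat_lit 228) (nat_lit 14564219320) (nat_lit 76) (nat_lit 845257659) (nat_lit 19) (nat_lit 5) (nat_lit 22) (nat_lit 5) (nat_lit 20) (nat_lit 4) (nat_lit 425) (nat_lit 312) (nat_lit 283)) (XT.lf (nat_lit 0) (nat_lit 1068709787) (nat_lit 76) (nat_lit 7528233235) (nat_lit 152) (nat_lit 7809263773) (nat_lit 18) (nat_lit 5) (nat_lit 19) (nat_lit 5) (nat_lit 20) (nat_lit 4) (nat_lit 426) (nat_lit 312) (nat_lit 282)))))) (XT.nd (nat_lit 50778) (nat_lit 0) (nat_lit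 6308) (XT.nd (nat_lit 50544) (nat_lit 0) (nat_lit 8816) (XT.nd (nat_lit 78) (nat_lit 0) (nat_lit 0) (XT.lf (nat_lit 0) (nat_lit 6080439) (nat_lit 228) (nat_lit 16291336264) (nat_lit 76) (nat_lit 426740422) (nat_lit 15) (nat_lit 5) (nat_lit 18) (nat_lit 5) (nat_lit 16) (nat_lit 4) (nat_lit 427) (nat_lit 312) (nat_lit 281)) (XT.lf (nat_lit 0) (nat_lit 7989148551) (nat_lit 228) (nat_lit 482096844) (nat_lit 76) (nat_lit 8578586375) (nat_lit 15) (nat_lit 5) (nat_lit 18) (nat_lit 5) (nat_lit 16) (nat_lit 4) (nat_lit 428) (nat_lit 312) (nat_lit 280))) (XT.nd (nat_lit 78) (nat_lit 1216) (nat_lit 0) (XT.lf (nat_lit 0) (nat_lit 3617452177) (nat_lit 380) (nat_lit 624833674) (nat_lit 380) (nat_lit 624833674) (nat_lit 147) (nat_lit 4) (nat_lit 152) (nat_lit 5) (nat_lit 152) (nat_lit 4) (nat_lit 394) (nat_lit 313) (nat_lit 313)) (XT.nd (nat_lit 78) (nat_lit 760) (nat_lit 0) (XT.lf (nat_lit 0) (nat_lit 5502689865)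 (nat_lit 456) (nat_lit 24845920) (nat_lit 0) (nat_lit 4338435694) (nat_lit 141) (nat_lit 5) (nat_lit 147) (nat_lit 4) (nat_lit 141) (nat_lit 4) (nat_lit 395) (nat_lit 313) (nat_lit 312)) (XT.lf (nat_lit 0) (nat_lit 2375959355) (nat_lit 380) (nat_lit 7499504440) (nat_lit 0) (nat_lit 126353446) (nat_lit 131) (nat_lit 5) (nat_lit 136) (nat_lit 4) (nat_lit 131) (nat_lit 4) (nat_lit 396) (nat_lit 313) (nat_lit 311))))) (XT.nd (nat_lit 234) (nat_lit 1368) (nat_lit 0) (XT.nd (nat_lit 78) (nat_lit 760) (nat_lit 0) (XT.lf (nat_lit 0) (nat_lit 5014597045) (nat_lit 380) (nat_lit 4226218971) (nat_lit 380) (nat_lit 900709906) (nat_lit 126) (nat_lit 4) (nat_lit 131) (nat_lit 5) (nat_lit 131) (nat_lit 4) (nat_lit 397) (nat_lit 313) (nat_lit 310)) (XT.nd (nat_lit 78) (nat_lit 380) (nat_lit 0) (XT.lf (nat_lit 0) (nat_lit 5905031077) (nat_lit 380) (nat_lit 2759829050) (nat_lit 0) (nat_lit 1620643590) (nat_lit 121) (nat_lit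 5) (nat_lit 126) (nat_lit 4) (nat_lit 121) (nat_lit 4) (nat_lit 398) (nat_lit 313) (nat_lit 309)) (XT.lf (nat_lit 0) (nat_lit 2414444121) (nat_lit 380) (nat_lit 401467138) (nat_lit 76) (nat_lit 7617910871) (nat_lit 116) (nat_lit 5) (nat_lit 121) (nat_lit 5) (nat_lit 117) (nat_lit 4) (nat_lit 399) (nat_lit 313) (nat_lit 308)))) (XT.nd (nat_lit 78) (nat_lit 760) (nat_lit 0) (XT.lf (nat_lit 0) (nat_lit 1971179855) (nat_lit 304) (nat_lit 7368321682) (nat_lit 304) (nat_lit 1246809813) (nat_lit 108) (nat_lit 4) (nat_lit 112) (nat_lit 5) (nat_lit 112) (nat_lit 4) (nat_lit 400) (nat_lit 313) (nat_lit 307)) (XT.nd (nat_lit 78) (nat_lit 380) (nat_lit 0) (XT.lf (nat_lit 0) (nat_lit 4328863296) (nat_lit 304) (nat_lit 1299444333) (nat_lit 380) (nat_lit 5114849221) (nat_lit 103) (nat_lit 5) (nat_lit 107) (nat_lit 5) (nat_lit 108) (nat_lit 4) (nat_lit 401) (nat_lit 313) (nat_lit 306)) (XT.lf (nat_lit 0) (nat_lit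 1752046743) (nat_lit 380) (nat_lit 4237692063) (nat_lit 76) (nat_lit 4914840756) (nat_lit 98) (nat_lit 5) (nat_lit 103) (nat_lit 5) (nat_lit 99) (nat_lit 4) (nat_lit 402) (nat_lit 313) (nat_lit 305))))))))
noncomputable def xc7 : XT := (XT.nd (nat_lit 1716) (nat_lit 608) (nat_lit 0) (XT.nd (nat_lit 858) (nat_lit 2280) (nat_lit 0) (XT.nd (nat_lit 390) (nat_lit 1672) (nat_lit 0) (XT.nd (nat_lit 156) (nat_lit 912) (nat_lit 0) (XT.nd (nat_lit 78) (nat_lit 608) (nat_lit 0) (XT.lf (nat_lit 0) (nat_lit 8723212641) (nat_lit 304) (nat_lit 2081175333) (nat_lit 0) (nat_lit 266440222) (nat_lit 95) (nat_lit 5) (nat_lit 99) (nat_lit 4) (nat_lit 95) (nat_lit 4) (nat_lit 403) (nat_lit 313) (nat_lit 304)) (XT.lf (nat_lit 0) (nat_lit 26302660) (nat_lit 228) (nat_lit 4573332089) (nat_lit 304) (nat_lit 6641851611) (nat_lit 87) (nat_lit 5) (nat_lit 90) (nat_lit 5) (nat_lit 91) (nat_lit 4) (nat_lit 404) (nat_lit 313) (nat_lit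 303))) (XT.nd (nat_lit 78) (nat_lit 532) (nat_lit 0) (XT.lf (nat_lit 0) (nat_lit 288987101) (nat_lit 380) (nat_lit 9268802149) (nat_lit 76) (nat_lit 1859406954) (nat_lit 82) (nat_lit 5) (nat_lit 87) (nat_lit 5) (nat_lit 83) (nat_lit 4) (nat_lit 405) (nat_lit 313) (nat_lit 302)) (XT.nd (nat_lit 78) (nat_lit 304) (nat_lit 0) (XT.lf (nat_lit 0) (nat_lit 4208116819) (nat_lit 228) (nat_lit 3122343401) (nat_lit 304) (nat_lit 4266992905) (nat_lit 79) (nat_lit 5) (nat_lit 82) (nat_lit 5) (nat_lit 83) (nat_lit 4) (nat_lit 406) (nat_lit 313) (nat_lit 301)) (XT.lf (nat_lit 0) (nat_lit 2749809189) (nat_lit 304) (nat_lit 5547852546) (nat_lit 76) (nat_lit 3485375108) (nat_lit 75) (nat_lit 5) (nat_lit 79) (nat_lit 5) (nat_lit 76) (nat_lit 4) (nat_lit 407) (nat_lit 313) (nat_lit 300))))) (XT.nd (nat_lit 234) (nat_lit 912) (nat_lit 0) (XT.nd (nat_lit 78) (nat_lit 532) (nat_lit 0) (XT.lf (nat_lit 0) (nat_lit 8216899696)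 (nat_lit 228) (nat_lit 1688816786) (nat_lit 304) (nat_lit 2068187822) (nat_lit 72) (nat_lit 5) (nat_lit 75) (nat_lit 5) (nat_lit 76) (nat_lit 4) (nat_lit 408) (nat_lit 313) (nat_lit 299)) (XT.nd (nat_lit 78) (nat_lit 228) (nat_lit 0) (XT.lf (nat_lit 0) (nat_lit 5039390493) (nat_lit 304) (nat_lit 2038789777) (nat_lit 76) (nat_lit 5091654716) (nat_lit 68) (nat_lit 5) (nat_lit 72) (nat_lit 5) (nat_lit 69) (nat_lit 4) (nat_lit 409) (nat_lit 313) (nat_lit 298)) (XT.lf (nat_lit 0) (nat_lit 12014569217) (nat_lit 228) (nat_lit 297674839) (nat_lit 304) (nat_lit 59534081) (nat_lit 65) (nat_lit 5) (nat_lit 68) (nat_lit 5) (nat_lit 69) (nat_lit 4) (nat_lit 410) (nat_lit 313) (nat_lit 297)))) (XT.nd (nat_lit 78) (nat_lit 456) (nat_lit 0) (XT.lf (nat_lit 0) (nat_lit 1233700201) (nat_lit 152) (nat_lit 5917225025) (nat_lit 228) (nat_lit 5427483545) (nat_lit 59) (nat_lit 5) (nat_lit 61) (nat_lit 5) (nat_lit 62) (nat_lit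 4) (nat_lit 411) (nat_lit 313) (nat_lit 296)) (XT.nd (nat_lit 78) (nat_lit 152) (nat_lit 0) (XT.lf (nat_lit 0) (nat_lit 1744499995) (nat_lit 304) (nat_lit 10006083776) (nat_lit 76) (nat_lit 1040779472) (nat_lit 55) (nat_lit 5) (nat_lit 59) (nat_lit 5) (nat_lit 56) (nat_lit 4) (nat_lit 412) (nat_lit 313) (nat_lit 295)) (XT.lf (nat_lit 0) (nat_lit 4231400994) (nat_lit 152) (nat_lit 4839089988) (nat_lit 228) (nat_lit 3939255710) (nat_lit 53) (nat_lit 5) (nat_lit 55) (nat_lit 5) (nat_lit 56) (nat_lit 4) (nat_lit 413) (nat_lit 313) (nat_lit 294)))))) (XT.nd (nat_lit 390) (nat_lit 1140) (nat_lit 0) (XT.nd (nat_lit 156) (nat_lit 684) (nat_lit 0) (XT.nd (nat_lit 78) (nat_lit 152) (nat_lit 0) (XT.lf (nat_lit 0) (nat_lit 3326194025) (nat_lit 304) (nat_lit 7629781709) (nat_lit 76) (nat_lit 2278496640) (nat_lit 49) (nat_lit 5) (nat_lit 53) (nat_lit 5) (nat_lit 50) (nat_lit 4) (nat_lit 414) (nat_lit 313) (nat_lit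 293)) (XT.lf (nat_lit 0) (nat_lit 6876555520) (nat_lit 152) (nat_lit 3887648758) (nat_lit 228) (nat_lit 2701061310) (nat_lit 47) (nat_lit 5) (nat_lit 49) (nat_lit 5) (nat_lit 50) (nat_lit 4) (nat_lit 415) (nat_lit 313) (nat_lit 292))) (XT.nd (nat_lit 78) (nat_lit 380) (nat_lit 0) (XT.lf (nat_lit 0) (nat_lit 4659513968) (nat_lit 304) (nat_lit 5656880126) (nat_lit 76) (nat_lit 3386002187) (nat_lit 43) (nat_lit 5) (nat_lit 47) (nat_lit 5) (nat_lit 44) (nat_lit 4) (nat_lit 416) (nat_lit 313) (nat_lit 291)) (XT.nd (nat_lit 78) (nat_lit 228) (nat_lit 0) (XT.lf (nat_lit 0) (nat_lit 9113029776) (nat_lit 152) (nat_lit 3095499338) (nat_lit 228) (nat_lit 1737676494) (nat_lit 41) (nat_lit 5) (nat_lit 43) (nat_lit 5) (nat_lit 44) (nat_lit 4) (nat_lit 417) (nat_lit 313) (nat_lit 290)) (XT.lf (nat_lit 0) (nat_lit 5718703198) (nat_lit 228) (nat_lit 4147577713) (nat_lit 76) (nat_lit 4330146446) (nat_lit 38) (nat_lit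 5) (nat_lit 41) (nat_lit 5) (nat_lit 39) (nat_lit 4) (nat_lit 418) (nat_lit 313) (nat_lit 289))))) (XT.nd (nat_lit 234) (nat_lit 608) (nat_lit 0) (XT.nd (nat_lit 78) (nat_lit 380) (nat_lit 0) (XT.lf (nat_lit 0) (nat_lit 10878580360) (nat_lit 152) (nat_lit 2497994895) (nat_lit 228) (nat_lit 1077330161) (nat_lit 36) (nat_lit 5) (nat_lit 38) (nat_lit 5) (nat_lit 39) (nat_lit 4) (nat_lit 419) (nat_lit 313) (nat_lit 288)) (XT.nd (nat_lit 78) (nat_lit 152) (nat_lit 0) (XT.lf (nat_lit 0) (nat_lit 6474457095) (nat_lit 228) (nat_lit 3168606175) (nat_lit 76) (nat_lit 5074897418) (nat_lit 33) (nat_lit 5) (nat_lit 36) (nat_lit 5) (nat_lit 34) (nat_lit 4) (nat_lit 420) (nat_lit 313) (nat_lit 287)) (XT.lf (nat_lit 0) (nat_lit 12104152523) (nat_lit 152) (nat_lit 2133623377) (nat_lit 228) (nat_lit 752033988) (nat_lit 31) (nat_lit 5) (nat_lit 33) (nat_lit 5) (nat_lit 34) (nat_lit 4) (nat_lit 421) (nat_lit 313) (nat_lit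 286)))) (XT.nd (nat_lit 78) (nat_lit 380) (nat_lit 0) (XT.lf (nat_lit 0) (nat_lit 6893579609) (nat_lit 228) (nat_lit 2793972358) (nat_lit 76) (nat_lit 5580950199) (nat_lit 28) (nat_lit 5) (nat_lit 31) (nat_lit 5) (nat_lit 29) (nat_lit 4) (nat_lit 422) (nat_lit 313) (nat_lit 285)) (XT.nd (nat_lit 78) (nat_lit 228) (nat_lit 0) (XT.lf (nat_lit 0) (nat_lit 12713107357) (nat_lit 152) (nat_lit 2044420993) (nat_lit 228) (nat_lit 797950222) (nat_lit 26) (nat_lit 5) (nat_lit 28) (nat_lit 5) (nat_lit 29) (nat_lit 4) (nat_lit 423) (nat_lit 313) (nat_lit 284)) (XT.lf (nat_lit 0) (nat_lit 6938600794) (nat_lit 228) (nat_lit 3105775540) (nat_lit 76) (nat_lit 5805301111) (nat_lit 23) (nat_lit 5) (nat_lit 26) (nat_lit 5) (nat_lit 24) (nat_lit 4) (nat_lit 424) (nat_lit 313) (nat_lit 283))))))) (XT.nd (nat_lit 51090) (nat_lit 0) (nat_lit 4028) (XT.nd (nat_lit 50622) (nat_lit 0) (nat_lit 8056) (XT.nd (nat_lit 156) (nat_lit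 304) (nat_lit 0) (XT.nd (nat_lit 78) (nat_lit 228) (nat_lit 0) (XT.lf (nat_lit 0) (nat_lit 12620370496) (nat_lit 76) (nat_lit 2276423560) (nat_lit 152) (nat_lit 1255800969) (nat_lit 22) (nat_lit 5) (nat_lit 23) (nat_lit 5) (nat_lit 24) (nat_lit 4) (nat_lit 425) (nat_lit 313) (nat_lit 282)) (XT.lf (nat_lit 0) (nat_lit 6567351449) (nat_lit 228) (nat_lit 4195107941) (nat_lit 76) (nat_lit 5700782393) (nat_lit 19) (nat_lit 5) (nat_lit 22) (nat_lit 5) (nat_lit 20) (nat_lit 4) (nat_lit 426) (nat_lit 313) (nat_lit 281))) (XT.nd (nat_lit 78) (nat_lit 228) (nat_lit 0) (XT.lf (nat_lit 0) (nat_lit 11731493912) (nat_lit 76) (nat_lit 2880160103) (nat_lit 152) (nat_lit 2171323087) (nat_lit 18) (nat_lit 5) (nat_lit 19) (nat_lit 5) (nat_lit 20) (nat_lit 4) (nat_lit 427) (nat_lit 313) (nat_lit 280)) (XT.nd (nat_lit 50310) (nat_lit 0) (nat_lit 10868) (XT.lf (nat_lit 0) (nat_lit 5732490619) (nat_lit 228) (nat_lit 6163047364)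 (nat_lit 76) (nat_lit 5215552936) (nat_lit 15) (nat_lit 5) (nat_lit 18) (nat_lit 5) (nat_lit 16) (nat_lit 4) (nat_lit 428) (nat_lit 313) (nat_lit 279)) (XT.lf (nat_lit 0) (nat_lit 1070469441) (nat_lit 380) (nat_lit 1834933807) (nat_lit 380) (nat_lit 1834933807) (nat_lit 158) (nat_lit 4) (nat_lit 163) (nat_lit 5) (nat_lit 163) (nat_lit 4) (nat_lit 392) (nat_lit 314) (nat_lit 314))))) (XT.nd (nat_lit 234) (nat_lit 1520) (nat_lit 0) (XT.nd (nat_lit 78) (nat_lit 836) (nat_lit 0) (XT.lf (nat_lit 0) (nat_lit 2923192627) (nat_lit 456) (nat_lit 4983026030) (nat_lit 0) (nat_lit 1700027194) (nat_lit 152) (nat_lit 5) (nat_lit 158) (nat_lit 4) (nat_lit 152) (nat_lit 4) (nat_lit 393) (nat_lit 314) (nat_lit 313)) (XT.nd (nat_lit 78) (nat_lit 456) (nat_lit 0) (XT.lf (nat_lit 0) (nat_lit 7115365475) (nat_lit 380) (nat_lit 2515562320) (nat_lit 380) (nat_lit 104857632) (nat_lit 147) (nat_lit 4) (nat_lit 152) (nat_lit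 5) (nat_lit 152) (nat_lit 4) (nat_lit 394) (nat_lit 314) (nat_lit 312)) (XT.lf (nat_lit 0) (nat_lit 6547340602) (nat_lit 456) (nat_lit 268180408) (nat_lit 0) (nat_lit 3053560778) (nat_lit 141) (nat_lit 5) (nat_lit 147) (nat_lit 4) (nat_lit 141) (nat_lit 4) (nat_lit 395) (nat_lit 314) (nat_lit 311)))) (XT.nd (nat_lit 78) (nat_lit 760) (nat_lit 0) (XT.lf (nat_lit 0) (nat_lit 2122776774) (nat_lit 304) (nat_lit 1200974620) (nat_lit 380) (nat_lit 6682651908) (nat_lit 131) (nat_lit 5) (nat_lit 135) (nat_lit 5) (nat_lit 136) (nat_lit 4) (nat_lit 396) (nat_lit 314) (nat_lit 310)) (XT.nd (nat_lit 78) (nat_lit 380) (nat_lit 0) (XT.lf (nat_lit 0) (nat_lit 4513494191) (nat_lit 380) (nat_lit 5590035988) (nat_lit 380) (nat_lit 44292324) (nat_lit 126) (nat_lit 4) (nat_lit 131) (nat_lit 5) (nat_lit 131) (nat_lit 4) (nat_lit 397) (nat_lit 314) (nat_lit 309)) (XT.lf (nat_lit 0) (nat_lit 6663822922) (nat_lit 380) (nat_lit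 3397040020) (nat_lit 0) (nat_lit 232562552) (nat_lit 121) (nat_lit 5) (nat_lit 126) (nat_lit 4) (nat_lit 121) (nat_lit 4) (nat_lit 398) (nat_lit 314) (nat_lit 308)))))) (XT.nd (nat_lit 390) (nat_lit 2052) (nat_lit 0) (XT.nd (nat_lit 156) (nat_lit 988) (nat_lit 0) (XT.nd (nat_lit 78) (nat_lit 608) (nat_lit 0) (XT.lf (nat_lit 0) (nat_lit 3077971587) (nat_lit 380) (nat_lit 1179055606) (nat_lit 76) (nat_lit 6186177228) (nat_lit 116) (nat_lit 5) (nat_lit 121) (nat_lit 5) (nat_lit 117) (nat_lit 4) (nat_lit 399) (nat_lit 314) (nat_lit 307)) (XT.lf (nat_lit 0) (nat_lit 1052842408) (nat_lit 304) (nat_lit 8857523145) (nat_lit 304) (nat_lit 687189239) (nat_lit 108) (nat_lit 4) (nat_lit 112) (nat_lit 5) (nat_lit 112) (nat_lit 4) (nat_lit 400) (nat_lit 314) (nat_lit 306))) (XT.nd (nat_lit 78) (nat_lit 608) (nat_lit 0) (XT.lf (nat_lit 0) (nat_lit 3264374524) (nat_lit 304) (nat_lit 2837978609) (nat_lit 380) (nat_lit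 4653546706) (nat_lit 103) (nat_lit 5) (nat_lit 107) (nat_lit 5) (nat_lit 108) (nat_lit 4) (nat_lit 401) (nat_lit 314) (nat_lit 305)) (XT.nd (nat_lit 78) (nat_lit 228) (nat_lit 0) (XT.lf (nat_lit 0) (nat_lit 2118640704) (nat_lit 380) (nat_lit 5454112262) (nat_lit 76) (nat_lit 3346289996) (nat_lit 98) (nat_lit 5) (nat_lit 103) (nat_lit 5) (nat_lit 99) (nat_lit 4) (nat_lit 402) (nat_lit 314) (nat_lit 304)) (XT.lf (nat_lit 0) (nat_lit 7641757235) (nat_lit 228) (nat_lit 1368081663) (nat_lit 304) (nat_lit 2077058985) (nat_lit 95) (nat_lit 5) (nat_lit 98) (nat_lit 5) (nat_lit 99) (nat_lit 4) (nat_lit 403) (nat_lit 314) (nat_lit 303))))) (XT.nd (nat_lit 234) (nat_lit 836) (nat_lit 0) (XT.nd (nat_lit 78) (nat_lit 836) (nat_lit 0) (XT.lf (nat_lit 0) (nat_lit 4778874142) (nat_lit 380) (nat_lit 1482417348) (nat_lit 76) (nat_lit 4997991400) (nat_lit 90) (nat_lit 5) (nat_lit 95) (nat_lit 5) (nat_lit 91) (nat_lit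 4) (nat_lit 404) (nat_lit 314) (nat_lit 302)) (XT.nd (nat_lit 78) (nat_lit 228) (nat_lit 0) (XT.lf (nat_lit 0) (nat_lit 347291720) (nat_lit 380) (nat_lit 10962722669) (nat_lit 76) (nat_lit 126984083) (nat_lit 82) (nat_lit 5) (nat_lit 87) (nat_lit 5) (nat_lit 83) (nat_lit 4) (nat_lit 405) (nat_lit 314) (nat_lit 301)) (XT.lf (nat_lit 0) (nat_lit 2374743489) (nat_lit 228) (nat_lit 4934216440) (nat_lit 304) (nat_lit 4309897662) (nat_lit 79) (nat_lit 5) (nat_lit 82) (nat_lit 5) (nat_lit 83) (nat_lit 4) (nat_lit 406) (nat_lit 314) (nat_lit 300)))) (XT.nd (nat_lit 78) (nat_lit 532) (nat_lit 0) (XT.lf (nat_lit 0) (nat_lit 2615246680) (nat_lit 304) (nat_lit 7553809223) (nat_lit 76) (nat_lit 1637241191) (nat_lit 75) (nat_lit 5) (nat_lit 79) (nat_lit 5) (nat_lit 76) (nat_lit 4) (nat_lit 407) (nat_lit 314) (nat_lit 299)) (XT.nd (nat_lit 78) (nat_lit 304) (nat_lit 0) (XT.lf (nat_lit 0) (nat_lit 6069178568) (nat_lit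 228) (nat_lit 3621843329) (nat_lit 304) (nat_lit 2307750938) (nat_lit 72) (nat_lit 5) (nat_lit 75) (nat_lit 5) (nat_lit 76) (nat_lit 4) (nat_lit 408) (nat_lit 314) (nat_lit 298)) (XT.lf (nat_lit 0) (nat_lit 4709557205) (nat_lit 304) (nat_lit 4366348339) (nat_lit 76) (nat_lit 3120702688) (nat_lit 68) (nat_lit 5) (nat_lit 72) (nat_lit 5) (nat_lit 69) (nat_lit 4) (nat_lit 409) (nat_lit 314) (nat_lit 297))))))))
noncomputable def xc8 : XT := (XT.nd (nat_lit 51792) (nat_lit 0) (nat_lit 2812) (XT.nd (nat_lit 858) (nat_lit 1368) (nat_lit 0) (XT.nd (nat_lit 390) (nat_lit 1216) (nat_lit 0) (XT.nd (nat_lit 156) (nat_lit 912) (nat_lit 0) (XT.nd (nat_lit 78) (nat_lit 304) (nat_lit 0) (XT.lf (nat_lit 0) (nat_lit 9542804194) (nat_lit 228) (nat_lit 2359020777) (nat_lit 304) (nat_lit 498343337) (nat_lit 65) (nat_lit 5) (nat_lit 68) (nat_lit 5) (nat_lit 69) (nat_lit 4) (nat_lit 410) (nat_lit 314) (nat_lit 296)) (XT.lf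 (nat_lit 0) (nat_lit 6615084336) (nat_lit 304) (nat_lit 1441524564) (nat_lit 76) (nat_lit 4552307713) (nat_lit 61) (nat_lit 5) (nat_lit 65) (nat_lit 5) (nat_lit 62) (nat_lit 4) (nat_lit 411) (nat_lit 314) (nat_lit 295))) (XT.nd (nat_lit 78) (nat_lit 684) (nat_lit 0) (XT.lf (nat_lit 0) (nat_lit 1086958708) (nat_lit 228) (nat_lit 78001552) (nat_lit 76) (nat_lit 11658961493) (nat_lit 58) (nat_lit 5) (nat_lit 61) (nat_lit 5) (nat_lit 59) (nat_lit 5) (nat_lit 412) (nat_lit 314) (nat_lit 294)) (XT.nd (nat_lit 78) (nat_lit 304) (nat_lit 0) (XT.lf (nat_lit 0) (nat_lit 1190765625) (nat_lit 152) (nat_lit 7131105605) (nat_lit 228) (nat_lit 4722260123) (nat_lit 53) (nat_lit 5) (nat_lit 55) (nat_lit 5) (nat_lit 56) (nat_lit 4) (nat_lit 413) (nat_lit 314) (nat_lit 293)) (XT.lf (nat_lit 0) (nat_lit 2397313318) (nat_lit 228) (nat_lit 57690164) (nat_lit 304) (nat_lit 10815928697) (nat_lit 49) (nat_lit 5) (nat_lit 52)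 (nat_lit 5) (nat_lit 53) (nat_lit 5) (nat_lit 414) (nat_lit 314) (nat_lit 292))))) (XT.nd (nat_lit 234) (nat_lit 608) (nat_lit 0) (XT.nd (nat_lit 78) (nat_lit 456) (nat_lit 0) (XT.lf (nat_lit 0) (nat_lit 3478933537) (nat_lit 152) (nat_lit 6329913711) (nat_lit 228) (nat_lit 3694565710) (nat_lit 47) (nat_lit 5) (nat_lit 49) (nat_lit 5) (nat_lit 50) (nat_lit 4) (nat_lit 415) (nat_lit 314) (nat_lit 291)) (XT.nd (nat_lit 78) (nat_lit 152) (nat_lit 0) (XT.lf (nat_lit 0) (nat_lit 3578360910) (nat_lit 304) (nat_lit 9265456659) (nat_lit 76) (nat_lit 898872695) (nat_lit 43) (nat_lit 5) (nat_lit 47) (nat_lit 5) (nat_lit 44) (nat_lit 4) (nat_lit 416) (nat_lit 314) (nat_lit 290)) (XT.lf (nat_lit 0) (nat_lit 5347292931) (nat_lit 152) (nat_lit 5695372876) (nat_lit 228) (nat_lit 2945531900) (nat_lit 41) (nat_lit 5) (nat_lit 43) (nat_lit 5) (nat_lit 44) (nat_lit 4) (nat_lit 417) (nat_lit 314) (nat_lit 289)))) (XT.nd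 (nat_lit 78) (nat_lit 380) (nat_lit 0) (XT.lf (nat_lit 0) (nat_lit 4423988563) (nat_lit 228) (nat_lit 8132651290) (nat_lit 76) (nat_lit 1683994182) (nat_lit 38) (nat_lit 5) (nat_lit 41) (nat_lit 5) (nat_lit 39) (nat_lit 4) (nat_lit 418) (nat_lit 314) (nat_lit 288)) (XT.nd (nat_lit 78) (nat_lit 228) (nat_lit 0) (XT.lf (nat_lit 0) (nat_lit 6733180868) (nat_lit 152) (nat_lit 5262926605) (nat_lit 228) (nat_lit 2503723299) (nat_lit 36) (nat_lit 5) (nat_lit 38) (nat_lit 5) (nat_lit 39) (nat_lit 4) (nat_lit 419) (nat_lit 314) (nat_lit 287)) (XT.lf (nat_lit 0) (nat_lit 4961875193) (nat_lit 228) (nat_lit 7541996839) (nat_lit 76) (nat_lit 2262300599) (nat_lit 33) (nat_lit 5) (nat_lit 36) (nat_lit 5) (nat_lit 34) (nat_lit 4) (nat_lit 420) (nat_lit 314) (nat_lit 286)))))) (XT.nd (nat_lit 390) (nat_lit 532) (nat_lit 0) (XT.nd (nat_lit 156) (nat_lit 456) (nat_lit 0) (XT.nd (nat_lit 78) (nat_lit 228) (nat_lit 0)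 (XT.lf (nat_lit 0) (nat_lit 7567098412) (nat_lit 152) (nat_lit 5071174646) (nat_lit 228) (nat_lit 2401490534) (nat_lit 31) (nat_lit 5) (nat_lit 33) (nat_lit 5) (nat_lit 34) (nat_lit 4) (nat_lit 421) (nat_lit 314) (nat_lit 285)) (XT.lf (nat_lit 0) (nat_lit 5158488997) (nat_lit 228) (nat_lit 7567961875) (nat_lit 76) (nat_lit 2594367706) (nat_lit 28) (nat_lit 5) (nat_lit 31) (nat_lit 5) (nat_lit 29) (nat_lit 4) (nat_lit 422) (nat_lit 314) (nat_lit 284))) (XT.nd (nat_lit 78) (nat_lit 304) (nat_lit 0) (XT.lf (nat_lit 0) (nat_lit 7771937515) (nat_lit 152) (nat_lit 5162285940) (nat_lit 228) (nat_lit 2675338902) (nat_lit 26) (nat_lit 5) (nat_lit 28) (nat_lit 5) (nat_lit 29) (nat_lit 4) (nat_lit 423) (nat_lit 314) (nat_lit 283)) (XT.nd (nat_lit 78) (nat_lit 76) (nat_lit 0) (XT.lf (nat_lit 0) (nat_lit 4976019765) (nat_lit 228) (nat_lit 8293132531) (nat_lit 76) (nat_lit 2637051949) (nat_lit 23) (nat_lit 5) (nat_lit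 26) (nat_lit 5) (nat_lit 24) (nat_lit 4) (nat_lit 424) (nat_lit 314) (nat_lit 282)) (XT.lf (nat_lit 0) (nat_lit 7262129347) (nat_lit 76) (nat_lit 5582449531) (nat_lit 152) (nat_lit 3366338486) (nat_lit 22) (nat_lit 5) (nat_lit 23) (nat_lit 5) (nat_lit 24) (nat_lit 4) (nat_lit 425) (nat_lit 314) (nat_lit 281))))) (XT.nd (nat_lit 50310) (nat_lit 0) (nat_lit 10868) (XT.nd (nat_lit 78) (nat_lit 304) (nat_lit 0) (XT.lf (nat_lit 0) (nat_lit 4371952721) (nat_lit 228) (nat_lit 9809113446) (nat_lit 76) (nat_lit 2343025557) (nat_lit 19) (nat_lit 5) (nat_lit 22) (nat_lit 5) (nat_lit 20) (nat_lit 4) (nat_lit 426) (nat_lit 314) (nat_lit 280)) (XT.nd (nat_lit 78) (nat_lit 228) (nat_lit 0) (XT.lf (nat_lit 0) (nat_lit 5942705647) (nat_lit 76) (nat_lit 6382367805) (nat_lit 152) (nat_lit 4520579863) (nat_lit 18) (nat_lit 5) (nat_lit 19) (nat_lit 5) (nat_lit 20) (nat_lit 4) (nat_lit 427) (nat_lit 314) (nat_lit 279))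 (XT.lf (nat_lit 0) (nat_lit 3298595220) (nat_lit 228) (nat_lit 12217520879) (nat_lit 76) (nat_lit 1660267594) (nat_lit 15) (nat_lit 5) (nat_lit 18) (nat_lit 5) (nat_lit 16) (nat_lit 4) (nat_lit 428) (nat_lit 314) (nat_lit 278)))) (XT.nd (nat_lit 78) (nat_lit 1292) (nat_lit 0) (XT.lf (nat_lit 0) (nat_lit 1652310634) (nat_lit 456) (nat_lit 1315067929) (nat_lit 0) (nat_lit 1652310634) (nat_lit 175) (nat_lit 5) (nat_lit 181) (nat_lit 4) (nat_lit 175) (nat_lit 4) (nat_lit 390) (nat_lit 315) (nat_lit 315)) (XT.nd (nat_lit 78) (nat_lit 760) (nat_lit 0) (XT.lf (nat_lit 0) (nat_lit 494318835) (nat_lit 532) (nat_lit 312234706) (nat_lit 76) (nat_lit 8552664167) (nat_lit 168) (nat_lit 5) (nat_lit 175) (nat_lit 5) (nat_lit 169) (nat_lit 4) (nat_lit 391) (nat_lit 315) (nat_lit 314)) (XT.lf (nat_lit 0) (nat_lit 2023339985) (nat_lit 380) (nat_lit 4995782999) (nat_lit 380) (nat_lit 2463096654) (nat_lit 158) (nat_lit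 4) (nat_lit 163) (nat_lit 5) (nat_lit 163) (nat_lit 4) (nat_lit 392) (nat_lit 315) (nat_lit 313))))))) (XT.nd (nat_lit 858) (nat_lit 3268) (nat_lit 0) (XT.nd (nat_lit 390) (nat_lit 2280) (nat_lit 0) (XT.nd (nat_lit 156) (nat_lit 1596) (nat_lit 0) (XT.nd (nat_lit 78) (nat_lit 456) (nat_lit 0) (XT.lf (nat_lit 0) (nat_lit 4028705597) (nat_lit 456) (nat_lit 5222507374) (nat_lit 0) (nat_lit 358140514) (nat_lit 152) (nat_lit 5) (nat_lit 158) (nat_lit 4) (nat_lit 152) (nat_lit 4) (nat_lit 393) (nat_lit 315) (nat_lit 312)) (XT.lf (nat_lit 0) (nat_lit 907802923) (nat_lit 456) (nat_lit 2989753909) (nat_lit 76) (nat_lit 5842749626) (nat_lit 146) (nat_lit 5) (nat_lit 152) (nat_lit 5) (nat_lit 147) (nat_lit 4) (nat_lit 394) (nat_lit 315) (nat_lit 311))) (XT.nd (nat_lit 78) (nat_lit 1216) (nat_lit 0) (XT.lf (nat_lit 0) (nat_lit 7473300707) (nat_lit 456) (nat_lit 755062005) (nat_lit 0) (nat_lit 1646942413) (nat_lit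 141) (nat_lit 5) (nat_lit 147) (nat_lit 4) (nat_lit 141) (nat_lit 4) (nat_lit 395) (nat_lit 315) (nat_lit 310)) (XT.nd (nat_lit 78) (nat_lit 456) (nat_lit 0) (XT.lf (nat_lit 0) (nat_lit 1493464820) (nat_lit 304) (nat_lit 2657664193) (nat_lit 380) (nat_lit 5862993089) (nat_lit 131) (nat_lit 5) (nat_lit 135) (nat_lit 5) (nat_lit 136) (nat_lit 4) (nat_lit 396) (nat_lit 315) (nat_lit 309)) (XT.lf (nat_lit 0) (nat_lit 678405568) (nat_lit 456) (nat_lit 6400444810) (nat_lit 76) (nat_lit 3078334610) (nat_lit 125) (nat_lit 5) (nat_lit 131) (nat_lit 5) (nat_lit 126) (nat_lit 4) (nat_lit 397) (nat_lit 315) (nat_lit 308))))) (XT.nd (nat_lit 234) (nat_lit 1292) (nat_lit 0) (XT.nd (nat_lit 78) (nat_lit 684) (nat_lit 0) (XT.lf (nat_lit 0) (nat_lit 6005990783) (nat_lit 304) (nat_lit 1301642207) (nat_lit 380) (nat_lit 2996723659) (nat_lit 121) (nat_lit 5) (nat_lit 125) (nat_lit 5) (nat_lit 126) (nat_lit 4) (nat_lit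 398) (nat_lit 315) (nat_lit 307)) (XT.nd (nat_lit 78) (nat_lit 304) (nat_lit 0) (XT.lf (nat_lit 0) (nat_lit 3616989362) (nat_lit 380) (nat_lit 2214616660) (nat_lit 76) (nat_lit 4624166471) (nat_lit 116) (nat_lit 5) (nat_lit 121) (nat_lit 5) (nat_lit 117) (nat_lit 4) (nat_lit 399) (nat_lit 315) (nat_lit 306)) (XT.lf (nat_lit 0) (nat_lit 10355374386) (nat_lit 380) (nat_lit 127556996) (nat_lit 0) (nat_lit 129079316) (nat_lit 112) (nat_lit 5) (nat_lit 117) (nat_lit 4) (nat_lit 112) (nat_lit 4) (nat_lit 400) (nat_lit 315) (nat_lit 305)))) (XT.nd (nat_lit 78) (nat_lit 608) (nat_lit 0) (XT.lf (nat_lit 0) (nat_lit 1933668341) (nat_lit 304) (nat_lit 4514859589) (nat_lit 380) (nat_lit 4323353818) (nat_lit 103) (nat_lit 5) (nat_lit 107) (nat_lit 5) (nat_lit 108) (nat_lit 4) (nat_lit 401) (nat_lit 315) (nat_lit 304)) (XT.nd (nat_lit 78) (nat_lit 228) (nat_lit 0) (XT.lf (nat_lit 0) (nat_lit 2355245400) (nat_lit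 380) (nat_lit 6941616009) (nat_lit 76) (nat_lit 1639912673) (nat_lit 98) (nat_lit 5) (nat_lit 103) (nat_lit 5) (nat_lit 99) (nat_lit 4) (nat_lit 402) (nat_lit 315) (nat_lit 303)) (XT.lf (nat_lit 0) (nat_lit 6020798163) (nat_lit 228) (nat_lit 3147692192) (nat_lit 304) (nat_lit 1937704446) (nat_lit 95) (nat_lit 5) (nat_lit 98) (nat_lit 5) (nat_lit 99) (nat_lit 4) (nat_lit 403) (nat_lit 315) (nat_lit 302)))))) (XT.nd (nat_lit 390) (nat_lit 1520) (nat_lit 0) (XT.nd (nat_lit 156) (nat_lit 1064) (nat_lit 0) (XT.nd (nat_lit 78) (nat_lit 304) (nat_lit 0) (XT.lf (nat_lit 0) (nat_lit 4826330949) (nat_lit 380) (nat_lit 3267068441) (nat_lit 76) (nat_lit 3186970131) (nat_lit 90) (nat_lit 5) (nat_lit 95) (nat_lit 5) (nat_lit 91) (nat_lit 4) (nat_lit 404) (nat_lit 315) (nat_lit 301)) (XT.lf (nat_lit 0) (nat_lit 290721488) (nat_lit 304) (nat_lit 1473740067) (nat_lit 76) (nat_lit 9695278114) (nat_lit 86) (nat_lit 5)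 (nat_lit 90) (nat_lit 5) (nat_lit 87) (nat_lit 5) (nat_lit 405) (nat_lit 315) (nat_lit 300))) (XT.nd (nat_lit 78) (nat_lit 532) (nat_lit 0) (XT.lf (nat_lit 0) (nat_lit 255892027) (nat_lit 228) (nat_lit 6895601035) (nat_lit 304) (nat_lit 4492129581) (nat_lit 79) (nat_lit 5) (nat_lit 82) (nat_lit 5) (nat_lit 83) (nat_lit 4) (nat_lit 406) (nat_lit 315) (nat_lit 299)) (XT.nd (nat_lit 78) (nat_lit 228) (nat_lit 0) (XT.lf (nat_lit 0) (nat_lit 1979992934) (nat_lit 228) (nat_lit 364661060) (nat_lit 304) (nat_lit 9488252468) (nat_lit 75) (nat_lit 5) (nat_lit 78) (nat_lit 5) (nat_lit 79) (nat_lit 5) (nat_lit 407) (nat_lit 315) (nat_lit 298)) (XT.lf (nat_lit 0) (nat_lit 3630165731) (nat_lit 228) (nat_lit 5707800318) (nat_lit 304) (nat_lit 2689070889) (nat_lit 72) (nat_lit 5) (nat_lit 75) (nat_lit 5) (nat_lit 76) (nat_lit 4) (nat_lit 408) (nat_lit 315) (nat_lit 297))))) (XT.nd (nat_lit 234) (nat_lit 684) (nat_lit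 0) (XT.nd (nat_lit 78) (nat_lit 532) (nat_lit 0) (XT.lf (nat_lit 0) (nat_lit 4238817874) (nat_lit 304) (nat_lit 6990664960) (nat_lit 76) (nat_lit 997332634) (nat_lit 68) (nat_lit 5) (nat_lit 72) (nat_lit 5) (nat_lit 69) (nat_lit 4) (nat_lit 409) (nat_lit 315) (nat_lit 296)) (XT.nd (nat_lit 78) (nat_lit 304) (nat_lit 0) (XT.lf (nat_lit 0) (nat_lit 6773636607) (nat_lit 228) (nat_lit 4576812031) (nat_lit 304) (nat_lit 1081544703) (nat_lit 65) (nat_lit 5) (nat_lit 68) (nat_lit 5) (nat_lit 69) (nat_lit 4) (nat_lit 410) (nat_lit 315) (nat_lit 295)) (XT.lf (nat_lit 0) (nat_lit 5943635437) (nat_lit 304) (nat_lit 4403613039) (nat_lit 76) (nat_lit 2295491642) (nat_lit 61) (nat_lit 5) (nat_lit 65) (nat_lit 5) (nat_lit 62) (nat_lit 4) (nat_lit 411) (nat_lit 315) (nat_lit 294)))) (XT.nd (nat_lit 78) (nat_lit 456) (nat_lit 0) (XT.lf (nat_lit 0) (nat_lit 309089171) (nat_lit 228) (nat_lit 3217993405) (nat_lit 76)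 (nat_lit 9332395783) (nat_lit 58) (nat_lit 5) (nat_lit 61) (nat_lit 5) (nat_lit 59) (nat_lit 5) (nat_lit 412) (nat_lit 315) (nat_lit 293)) (XT.nd (nat_lit 78) (nat_lit 228) (nat_lit 0) (XT.lf (nat_lit 0) (nat_lit 7438725379) (nat_lit 304) (nat_lit 2135260498) (nat_lit 76) (nat_lit 3507812058) (nat_lit 55) (nat_lit 5) (nat_lit 59) (nat_lit 5) (nat_lit 56) (nat_lit 4) (nat_lit 413) (nat_lit 315) (nat_lit 292)) (XT.lf (nat_lit 0) (nat_lit 1455841953) (nat_lit 228) (nat_lit 1127654190) (nat_lit 76) (nat_lit 10727034937) (nat_lit 52) (nat_lit 5) (nat_lit 55) (nat_lit 5) (nat_lit 53) (nat_lit 5) (nat_lit 414) (nat_lit 315) (nat_lit 291))))))))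
noncomputable def xc9 : XT := (XT.nd (nat_lit 51636) (nat_lit 0) (nat_lit 1976) (XT.nd (nat_lit 858) (nat_lit 380) (nat_lit 0) (XT.nd (nat_lit 390) (nat_lit 1064) (nat_lit 0) (XT.nd (nat_lit 156) (nat_lit 532) (nat_lit 0) (XT.nd (nat_lit 78) (nat_lit 456) (nat_lit 0) (XT.lf (nat_lit 0) (nat_lit 8703296777) (nat_lit 304) (nat_lit 236352444) (nat_lit 76) (nat_lit 4605494527) (nat_lit 49) (nat_lit 5) (nat_lit 53) (nat_lit 5) (nat_lit 50) (nat_lit 4) (nat_lit 415) (nat_lit 315) (nat_lit 290)) (XT.lf (nat_lit 0) (nat_lit 573790466) (nat_lit 228) (nat_lit 1780212120) (nat_lit 304) (nat_lit 11432413836) (nat_lit 43) (nat_lit 5) (nat_lit 46) (nat_lit 5) (nat_lit 47) (nat_lit 5) (nat_lit 416) (nat_lit 315) (nat_lit 289))) (XT.nd (nat_lit 78) (nat_lit 380) (nat_lit 0) (XT.lf (nat_lit 0) (nat_lit 1253356229) (nat_lit 152) (nat_lit 8468306961) (nat_lit 228) (nat_lit 4312197361) (nat_lit 41) (nat_lit 5) (nat_lit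 43) (nat_lit 5) (nat_lit 44) (nat_lit 4) (nat_lit 417) (nat_lit 315) (nat_lit 288)) (XT.nd (nat_lit 78) (nat_lit 152) (nat_lit 0) (XT.lf (nat_lit 0) (nat_lit 1828575661) (nat_lit 152) (nat_lit 1149880534) (nat_lit 228) (nat_lit 11309957584) (nat_lit 38) (nat_lit 5) (nat_lit 40) (nat_lit 5) (nat_lit 41) (nat_lit 5) (nat_lit 418) (nat_lit 315) (nat_lit 287)) (XT.lf (nat_lit 0) (nat_lit 2251813799) (nat_lit 152) (nat_lit 8205074791) (nat_lit 228) (nat_lit 4092599168) (nat_lit 36) (nat_lit 5) (nat_lit 38) (nat_lit 5) (nat_lit 39) (nat_lit 4) (nat_lit 419) (nat_lit 315) (nat_lit 286))))) (XT.nd (nat_lit 234) (nat_lit 456) (nat_lit 0) (XT.nd (nat_lit 78) (nat_lit 380) (nat_lit 0) (XT.lf (nat_lit 0) (nat_lit 2555258996) (nat_lit 152) (nat_lit 736789915) (nat_lit 228) (nat_lit 11526026144) (nat_lit 33) (nat_lit 5) (nat_lit 35) (nat_lit 5) (nat_lit 36) (nat_lit 5) (nat_lit 420) (nat_lit 315) (nat_lit 285))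 (XT.nd (nat_lit 78) (nat_lit 228) (nat_lit 0) (XT.lf (nat_lit 0) (nat_lit 2685919983) (nat_lit 152) (nat_lit 8190261530) (nat_lit 228) (nat_lit 4217333052) (nat_lit 31) (nat_lit 5) (nat_lit 33) (nat_lit 5) (nat_lit 34) (nat_lit 4) (nat_lit 421) (nat_lit 315) (nat_lit 284)) (XT.lf (nat_lit 0) (nat_lit 2680147584) (nat_lit 152) (nat_lit 581020604) (nat_lit 228) (nat_lit 12115746112) (nat_lit 28) (nat_lit 5) (nat_lit 30) (nat_lit 5) (nat_lit 31) (nat_lit 5) (nat_lit 422) (nat_lit 315) (nat_lit 283)))) (XT.nd (nat_lit 78) (nat_lit 304) (nat_lit 0) (XT.lf (nat_lit 0) (nat_lit 2478080996) (nat_lit 152) (nat_lit 8466180060) (nat_lit 228) (nat_lit 4723252853) (nat_lit 26) (nat_lit 5) (nat_lit 28) (nat_lit 5) (nat_lit 29) (nat_lit 4) (nat_lit 423) (nat_lit 315) (nat_lit 282)) (XT.nd (nat_lit 78) (nat_lit 76) (nat_lit 0) (XT.lf (nat_lit 0) (nat_lit 2121500219) (nat_lit 152) (nat_lit 726442497) (nat_lit 228)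 (nat_lit 13118622301) (nat_lit 23) (nat_lit 5) (nat_lit 25) (nat_lit 5) (nat_lit 26) (nat_lit 5) (nat_lit 424) (nat_lit 315) (nat_lit 281)) (XT.lf (nat_lit 0) (nat_lit 1542216464) (nat_lit 76) (nat_lit 9079183879) (nat_lit 152) (nat_lit 5651782591) (nat_lit 22) (nat_lit 5) (nat_lit 23) (nat_lit 5) (nat_lit 24) (nat_lit 4) (nat_lit 425) (nat_lit 315) (nat_lit 280)))))) (XT.nd (nat_lit 50310) (nat_lit 0) (nat_lit 9424) (XT.nd (nat_lit 156) (nat_lit 152) (nat_lit 0) (XT.nd (nat_lit 78) (nat_lit 0) (nat_lit 0) (XT.lf (nat_lit 0) (nat_lit 788632750) (nat_lit 152) (nat_lit 1221185753) (nat_lit 228) (nat_lit 14578971484) (nat_lit 19) (nat_lit 5) (nat_lit 21) (nat_lit 5) (nat_lit 22) (nat_lit 5) (nat_lit 426) (nat_lit 315) (nat_lit 279)) (XT.lf (nat_lit 0) (nat_lit 9864390403) (nat_lit 228) (nat_lit 214331340) (nat_lit 76) (nat_lit 6833603372) (nat_lit 19) (nat_lit 5) (nat_lit 22) (nat_lit 5) (nat_lit 20)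 (nat_lit 4) (nat_lit 427) (nat_lit 315) (nat_lit 278))) (XT.nd (nat_lit 49998) (nat_lit 0) (nat_lit 12464) (XT.lf (nat_lit 0) (nat_lit 708301656) (nat_lit 152) (nat_lit 1400456752) (nat_lit 76) (nat_lit 15136549416) (nat_lit 17) (nat_lit 5) (nat_lit 19) (nat_lit 5) (nat_lit 18) (nat_lit 5) (nat_lit 428) (nat_lit 315) (nat_lit 277)) (XT.nd (nat_lit 78) (nat_lit 456) (nat_lit 0) (XT.lf (nat_lit 0) (nat_lit 481708213) (nat_lit 532) (nat_lit 3541580143) (nat_lit 0) (nat_lit 481708213) (nat_lit 187) (nat_lit 5) (nat_lit 194) (nat_lit 4) (nat_lit 187) (nat_lit 4) (nat_lit 388) (nat_lit 316) (nat_lit 316)) (XT.lf (nat_lit 0) (nat_lit 4200942399) (nat_lit 456) (nat_lit 3149845598) (nat_lit 456) (nat_lit 1772762449) (nat_lit 181) (nat_lit 4) (nat_lit 187) (nat_lit 5) (nat_lit 187) (nat_lit 4) (nat_lit 389) (nat_lit 316) (nat_lit 315))))) (XT.nd (nat_lit 234) (nat_lit 1292) (nat_lit 0) (XT.nd (nat_lit 78) (nat_lit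 1292) (nat_lit 0) (XT.lf (nat_lit 0) (nat_lit 4578744631) (nat_lit 456) (nat_lit 2744259817) (nat_lit 0) (nat_lit 1917904357) (nat_lit 175) (nat_lit 5) (nat_lit 181) (nat_lit 4) (nat_lit 175) (nat_lit 4) (nat_lit 390) (nat_lit 316) (nat_lit 314)) (XT.nd (nat_lit 78) (nat_lit 760) (nat_lit 0) (XT.lf (nat_lit 0) (nat_lit 1674487000) (nat_lit 532) (nat_lit 550957849) (nat_lit 76) (nat_lit 7136663415) (nat_lit 168) (nat_lit 5) (nat_lit 175) (nat_lit 5) (nat_lit 169) (nat_lit 4) (nat_lit 391) (nat_lit 316) (nat_lit 313)) (XT.lf (nat_lit 0) (nat_lit 1670440540) (nat_lit 380) (nat_lit 6442001373) (nat_lit 380) (nat_lit 1374415657) (nat_lit 158) (nat_lit 4) (nat_lit 163) (nat_lit 5) (nat_lit 163) (nat_lit 4) (nat_lit 392) (nat_lit 316) (nat_lit 312)))) (XT.nd (nat_lit 78) (nat_lit 836) (nat_lit 0) (XT.lf (nat_lit 0) (nat_lit 3906486144) (nat_lit 380) (nat_lit 1118306731) (nat_lit 456) (nat_lit 4590633375)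 (nat_lit 152) (nat_lit 5) (nat_lit 157) (nat_lit 5) (nat_lit 158) (nat_lit 4) (nat_lit 393) (nat_lit 316) (nat_lit 311)) (XT.nd (nat_lit 78) (nat_lit 380) (nat_lit 0) (XT.lf (nat_lit 0) (nat_lit 1801461900) (nat_lit 456) (nat_lit 3601588627) (nat_lit 76) (nat_lit 4344876982) (nat_lit 146) (nat_lit 5) (nat_lit 152) (nat_lit 5) (nat_lit 147) (nat_lit 4) (nat_lit 394) (nat_lit 316) (nat_lit 310)) (XT.lf (nat_lit 0) (nat_lit 8281379270) (nat_lit 456) (nat_lit 1485916142) (nat_lit 0) (nat_lit 117351514) (nat_lit 141) (nat_lit 5) (nat_lit 147) (nat_lit 4) (nat_lit 141) (nat_lit 4) (nat_lit 395) (nat_lit 316) (nat_lit 309))))))) (XT.nd (nat_lit 858) (nat_lit 2964) (nat_lit 0) (XT.nd (nat_lit 390) (nat_lit 2204) (nat_lit 0) (XT.nd (nat_lit 156) (nat_lit 1064) (nat_lit 0) (XT.nd (nat_lit 78) (nat_lit 456) (nat_lit 0) (XT.lf (nat_lit 0) (nat_lit 614674953) (nat_lit 304) (nat_lit 4243308937) (nat_lit 380) (nat_lit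 5167013122) (nat_lit 131) (nat_lit 5) (nat_lit 135) (nat_lit 5) (nat_lit 136) (nat_lit 4) (nat_lit 396) (nat_lit 316) (nat_lit 308)) (XT.lf (nat_lit 0) (nat_lit 1278085015) (nat_lit 456) (nat_lit 7420962762) (nat_lit 76) (nat_lit 1470673481) (nat_lit 125) (nat_lit 5) (nat_lit 131) (nat_lit 5) (nat_lit 126) (nat_lit 4) (nat_lit 397) (nat_lit 316) (nat_lit 307))) (XT.nd (nat_lit 78) (nat_lit 760) (nat_lit 0) (XT.lf (nat_lit 0) (nat_lit 4859904732) (nat_lit 304) (nat_lit 2971048358) (nat_lit 380) (nat_lit 2487475055) (nat_lit 121) (nat_lit 5) (nat_lit 125) (nat_lit 5) (nat_lit 126) (nat_lit 4) (nat_lit 398) (nat_lit 316) (nat_lit 306)) (XT.nd (nat_lit 78) (nat_lit 380) (nat_lit 0) (XT.lf (nat_lit 0) (nat_lit 4031968434) (nat_lit 380) (nat_lit 3509055159) (nat_lit 76) (nat_lit 2930513737) (nat_lit 116) (nat_lit 5) (nat_lit 121) (nat_lit 5) (nat_lit 117) (nat_lit 4) (nat_lit 399) (nat_lit 316) (nat_lit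 305)) (XT.lf (nat_lit 0) (nat_lit 63050868) (nat_lit 380) (nat_lit 1566462875) (nat_lit 76) (nat_lit 8999803705) (nat_lit 111) (nat_lit 5) (nat_lit 116) (nat_lit 5) (nat_lit 112) (nat_lit 5) (nat_lit 400) (nat_lit 316) (nat_lit 304))))) (XT.nd (nat_lit 234) (nat_lit 988) (nat_lit 0) (XT.nd (nat_lit 78) (nat_lit 608) (nat_lit 0) (XT.lf (nat_lit 0) (nat_lit 335581994) (nat_lit 304) (nat_lit 6331552509) (nat_lit 380) (nat_lit 4123982039) (nat_lit 103) (nat_lit 5) (nat_lit 107) (nat_lit 5) (nat_lit 108) (nat_lit 4) (nat_lit 401) (nat_lit 316) (nat_lit 303)) (XT.nd (nat_lit 78) (nat_lit 228) (nat_lit 0) (XT.lf (nat_lit 0) (nat_lit 2254904444) (nat_lit 304) (nat_lit 208516958) (nat_lit 380) (nat_lit 8494339936) (nat_lit 98) (nat_lit 5) (nat_lit 102) (nat_lit 5) (nat_lit 103) (nat_lit 5) (nat_lit 402) (nat_lit 316) (nat_lit 302)) (XT.lf (nat_lit 0) (nat_lit 4127147228) (nat_lit 228) (nat_lit 5070405511) (nat_lit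 304) (nat_lit 1931218127) (nat_lit 95) (nat_lit 5) (nat_lit 98) (nat_lit 5) (nat_lit 99) (nat_lit 4) (nat_lit 403) (nat_lit 316) (nat_lit 301)))) (XT.nd (nat_lit 78) (nat_lit 608) (nat_lit 0) (XT.lf (nat_lit 0) (nat_lit 4741875863) (nat_lit 380) (nat_lit 5329554987) (nat_lit 76) (nat_lit 1233337243) (nat_lit 90) (nat_lit 5) (nat_lit 95) (nat_lit 5) (nat_lit 91) (nat_lit 4) (nat_lit 404) (nat_lit 316) (nat_lit 300)) (XT.nd (nat_lit 78) (nat_lit 304) (nat_lit 0) (XT.lf (nat_lit 0) (nat_lit 104728450) (nat_lit 304) (nat_lit 3697075853) (nat_lit 76) (nat_lit 7683925335) (nat_lit 86) (nat_lit 5) (nat_lit 90) (nat_lit 5) (nat_lit 87) (nat_lit 5) (nat_lit 405) (nat_lit 316) (nat_lit 299)) (XT.lf (nat_lit 0) (nat_lit 6871883130) (nat_lit 380) (nat_lit 2122087564) (nat_lit 76) (nat_lit 2677520004) (nat_lit 82) (nat_lit 5) (nat_lit 87) (nat_lit 5) (nat_lit 83) (nat_lit 4) (nat_lit 406) (nat_lit 316) (nat_lit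 298)))))) (XT.nd (nat_lit 390) (nat_lit 1368) (nat_lit 0) (XT.nd (nat_lit 156) (nat_lit 836) (nat_lit 0) (XT.nd (nat_lit 78) (nat_lit 456) (nat_lit 0) (XT.lf (nat_lit 0) (nat_lit 1951043755) (nat_lit 304) (nat_lit 586078663) (nat_lit 76) (nat_lit 9325500798) (nat_lit 78) (nat_lit 5) (nat_lit 82) (nat_lit 5) (nat_lit 79) (nat_lit 5) (nat_lit 407) (nat_lit 316) (nat_lit 297)) (XT.lf (nat_lit 0) (nat_lit 897730008) (nat_lit 228) (nat_lit 7948510434) (nat_lit 304) (nat_lit 3212480869) (nat_lit 72) (nat_lit 5) (nat_lit 75) (nat_lit 5) (nat_lit 76) (nat_lit 4) (nat_lit 408) (nat_lit 316) (nat_lit 296))) (XT.nd (nat_lit 78) (nat_lit 532) (nat_lit 0) (XT.lf (nat_lit 0) (nat_lit 2337858800) (nat_lit 228) (nat_lit 1297325472) (nat_lit 304) (nat_lit 8625130360) (nat_lit 68) (nat_lit 5) (nat_lit 71) (nat_lit 5) (nat_lit 72) (nat_lit 5) (nat_lit 409) (nat_lit 316) (nat_lit 295)) (XT.nd (nat_lit 78) (nat_lit 304)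 (nat_lit 0) (XT.lf (nat_lit 0) (nat_lit 3704646795) (nat_lit 228) (nat_lit 6952986479) (nat_lit 304) (nat_lit 1809647774) (nat_lit 65) (nat_lit 5) (nat_lit 68) (nat_lit 5) (nat_lit 69) (nat_lit 4) (nat_lit 410) (nat_lit 316) (nat_lit 294)) (XT.lf (nat_lit 0) (nat_lit 5007935178) (nat_lit 228) (nat_lit 120831162) (nat_lit 304) (nat_lit 7551287010) (nat_lit 61) (nat_lit 5) (nat_lit 64) (nat_lit 5) (nat_lit 65) (nat_lit 5) (nat_lit 411) (nat_lit 316) (nat_lit 293))))) (XT.nd (nat_lit 234) (nat_lit 684) (nat_lit 0) (XT.nd (nat_lit 78) (nat_lit 532) (nat_lit 0) (XT.lf (nat_lit 0) (nat_lit 6227361629) (nat_lit 152) (nat_lit 6048186475) (nat_lit 228) (nat_lit 622934667) (nat_lit 59) (nat_lit 5) (nat_lit 61) (nat_lit 5) (nat_lit 62) (nat_lit 4) (nat_lit 412) (nat_lit 316) (nat_lit 292)) (XT.nd (nat_lit 78) (nat_lit 228) (nat_lit 0) (XT.lf (nat_lit 0) (nat_lit 6416009159) (nat_lit 304) (nat_lit 5758214237)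 (nat_lit 76) (nat_lit 948641404) (nat_lit 55) (nat_lit 5) (nat_lit 59) (nat_lit 5) (nat_lit 56) (nat_lit 4) (nat_lit 413) (nat_lit 316) (nat_lit 291)) (XT.lf (nat_lit 0) (nat_lit 323066075) (nat_lit 228) (nat_lit 4937358014) (nat_lit 76) (nat_lit 8092974994) (nat_lit 52) (nat_lit 5) (nat_lit 55) (nat_lit 5) (nat_lit 53) (nat_lit 5) (nat_lit 414) (nat_lit 316) (nat_lit 290)))) (XT.nd (nat_lit 78) (nat_lit 456) (nat_lit 0) (XT.lf (nat_lit 0) (nat_lit 7469722058) (nat_lit 304) (nat_lit 4225815669) (nat_lit 76) (nat_lit 1894493991) (nat_lit 49) (nat_lit 5) (nat_lit 53) (nat_lit 5) (nat_lit 50) (nat_lit 4) (nat_lit 415) (nat_lit 316) (nat_lit 289)) (XT.nd (nat_lit 78) (nat_lit 228) (nat_lit 0) (XT.lf (nat_lit 0) (nat_lit 1004625458) (nat_lit 228) (nat_lit 3615554365) (nat_lit 76) (nat_lit 9213048015) (nat_lit 46) (nat_lit 5) (nat_lit 49) (nat_lit 5) (nat_lit 47) (nat_lit 5) (nat_lit 416) (nat_lit 316) (nat_lit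 288)) (XT.lf (nat_lit 0) (nat_lit 8264964037) (nat_lit 304) (nat_lit 3130751517) (nat_lit 76) (nat_lit 2687106541) (nat_lit 43) (nat_lit 5) (nat_lit 47) (nat_lit 5) (nat_lit 44) (nat_lit 4) (nat_lit 417) (nat_lit 316) (nat_lit 287))))))))
noncomputable def xc10 : XT := (XT.nd (nat_lit 51480) (nat_lit 0) (nat_lit 1748) (XT.nd (nat_lit 50622) (nat_lit 0) (nat_lit 8892) (XT.nd (nat_lit 390) (nat_lit 912) (nat_lit 0) (XT.nd (nat_lit 156) (nat_lit 608) (nat_lit 0) (XT.nd (nat_lit 78) (nat_lit 152) (nat_lit 0) (XT.lf (nat_lit 0) (nat_lit 1403767854) (nat_lit 228) (nat_lit 2761268861) (nat_lit 76) (nat_lit 10174313128) (nat_lit 40) (nat_lit 5) (nat_lit 43) (nat_lit 5) (nat_lit 41) (nat_lit 5) (nat_lit 418) (nat_lit 316) (nat_lit 286)) (XT.lf (nat_lit 0) (nat_lit 8774256141) (nat_lit 228) (nat_lit 2535737982) (nat_lit 76) (nat_lit 3292591988) (nat_lit 38) (nat_lit 5) (nat_lit 41) (nat_lit 5) (nat_lit 39) (nat_lit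 4) (nat_lit 419) (nat_lit 316) (nat_lit 285))) (XT.nd (nat_lit 78) (nat_lit 380) (nat_lit 0) (XT.lf (nat_lit 0) (nat_lit 1490851575) (nat_lit 228) (nat_lit 2440543688) (nat_lit 76) (nat_lit 10941771399) (nat_lit 35) (nat_lit 5) (nat_lit 38) (nat_lit 5) (nat_lit 36) (nat_lit 5) (nat_lit 420) (nat_lit 316) (nat_lit 284)) (XT.nd (nat_lit 78) (nat_lit 228) (nat_lit 0) (XT.lf (nat_lit 0) (nat_lit 8966476623) (nat_lit 228) (nat_lit 2510287471) (nat_lit 76) (nat_lit 3674015378) (nat_lit 33) (nat_lit 5) (nat_lit 36) (nat_lit 5) (nat_lit 34) (nat_lit 4) (nat_lit 421) (nat_lit 316) (nat_lit 283)) (XT.lf (nat_lit 0) (nat_lit 1232400169) (nat_lit 228) (nat_lit 2726587913) (nat_lit 76) (nat_lit 11477201448) (nat_lit 30) (nat_lit 5) (nat_lit 33) (nat_lit 5) (nat_lit 31) (nat_lit 5) (nat_lit 422) (nat_lit 316) (nat_lit 282))))) (XT.nd (nat_lit 234) (nat_lit 380) (nat_lit 0) (XT.nd (nat_lit 78) (nat_lit 380) (nat_lit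 0) (XT.lf (nat_lit 0) (nat_lit 8806504141) (nat_lit 228) (nat_lit 3131472283) (nat_lit 76) (nat_lit 3790995404) (nat_lit 28) (nat_lit 5) (nat_lit 31) (nat_lit 5) (nat_lit 29) (nat_lit 4) (nat_lit 423) (nat_lit 316) (nat_lit 281)) (XT.nd (nat_lit 78) (nat_lit 152) (nat_lit 0) (XT.lf (nat_lit 0) (nat_lit 590725544) (nat_lit 228) (nat_lit 3700579150) (nat_lit 76) (nat_lit 11738743496) (nat_lit 25) (nat_lit 5) (nat_lit 28) (nat_lit 5) (nat_lit 26) (nat_lit 5) (nat_lit 424) (nat_lit 316) (nat_lit 280)) (XT.lf (nat_lit 0) (nat_lit 8254820909) (nat_lit 228) (nat_lit 4484765956) (nat_lit 76) (nat_lit 3599269178) (nat_lit 23) (nat_lit 5) (nat_lit 26) (nat_lit 5) (nat_lit 24) (nat_lit 4) (nat_lit 425) (nat_lit 316) (nat_lit 279)))) (XT.nd (nat_lit 78) (nat_lit 304) (nat_lit 0) (XT.lf (nat_lit 0) (nat_lit 11200756197) (nat_lit 76) (nat_lit 4972858473) (nat_lit 152) (nat_lit 482823252) (nat_lit 22) (nat_lit 5)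 (nat_lit 23) (nat_lit 5) (nat_lit 24) (nat_lit 4) (nat_lit 426) (nat_lit 316) (nat_lit 278)) (XT.nd (nat_lit 78) (nat_lit 76) (nat_lit 0) (XT.lf (nat_lit 0) (nat_lit 7267071788) (nat_lit 228) (nat_lit 6664970578) (nat_lit 76) (nat_lit 3050216050) (nat_lit 19) (nat_lit 5) (nat_lit 22) (nat_lit 5) (nat_lit 20) (nat_lit 4) (nat_lit 427) (nat_lit 316) (nat_lit 277)) (XT.lf (nat_lit 0) (nat_lit 9221564463) (nat_lit 76) (nat_lit 6052149913) (nat_lit 152) (nat_lit 2043464011) (nat_lit 18) (nat_lit 5) (nat_lit 19) (nat_lit 5) (nat_lit 20) (nat_lit 4) (nat_lit 428) (nat_lit 316) (nat_lit 276)))))) (XT.nd (nat_lit 390) (nat_lit 3040) (nat_lit 0) (XT.nd (nat_lit 156) (nat_lit 1900) (nat_lit 0) (XT.nd (nat_lit 78) (nat_lit 532) (nat_lit 0) (XT.lf (nat_lit 0) (nat_lit 3179424864) (nat_lit 532) (nat_lit 608219743) (nat_lit 532) (nat_lit 608219743) (nat_lit 207) (nat_lit 4) (nat_lit 214) (nat_lit 5) (nat_lit 214)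 (nat_lit 4) (nat_lit 386) (nat_lit 317) (nat_lit 317)) (XT.lf (nat_lit 0) (nat_lit 5004044513) (nat_lit 532) (nat_lit 338437388) (nat_lit 0) (nat_lit 3557280957) (nat_lit 200) (nat_lit 5) (nat_lit 207) (nat_lit 4) (nat_lit 200) (nat_lit 4) (nat_lit 387) (nat_lit 317) (nat_lit 316))) (XT.nd (nat_lit 78) (nat_lit 912) (nat_lit 0) (XT.lf (nat_lit 0) (nat_lit 1812906852) (nat_lit 456) (nat_lit 496150187) (nat_lit 532) (nat_lit 6702403018) (nat_lit 187) (nat_lit 5) (nat_lit 193) (nat_lit 5) (nat_lit 194) (nat_lit 4) (nat_lit 388) (nat_lit 317) (nat_lit 315)) (XT.nd (nat_lit 78) (nat_lit 456) (nat_lit 0) (XT.lf (nat_lit 0) (nat_lit 3976928384) (nat_lit 456) (nat_lit 4641060978) (nat_lit 456) (nat_lit 508608256) (nat_lit 181) (nat_lit 4) (nat_lit 187) (nat_lit 5) (nat_lit 187) (nat_lit 4) (nat_lit 389) (nat_lit 317) (nat_lit 314)) (XT.lf (nat_lit 0) (nat_lit 5741387756) (nat_lit 456) (nat_lit 3086731413)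 (nat_lit 0) (nat_lit 417382203) (nat_lit 175) (nat_lit 5) (nat_lit 181) (nat_lit 4) (nat_lit 175) (nat_lit 4) (nat_lit 390) (nat_lit 317) (nat_lit 313))))) (XT.nd (nat_lit 234) (nat_lit 1292) (nat_lit 0) (XT.nd (nat_lit 78) (nat_lit 1216) (nat_lit 0) (XT.lf (nat_lit 0) (nat_lit 2742286624) (nat_lit 532) (nat_lit 1020102412) (nat_lit 76) (nat_lit 5605673068) (nat_lit 168) (nat_lit 5) (nat_lit 175) (nat_lit 5) (nat_lit 169) (nat_lit 4) (nat_lit 391) (nat_lit 317) (nat_lit 312)) (XT.nd (nat_lit 78) (nat_lit 456) (nat_lit 0) (XT.lf (nat_lit 0) (nat_lit 1081932188) (nat_lit 380) (nat_lit 8009786423) (nat_lit 380) (nat_lit 402873348) (nat_lit 158) (nat_lit 4) (nat_lit 163) (nat_lit 5) (nat_lit 163) (nat_lit 4) (nat_lit 392) (nat_lit 317) (nat_lit 311)) (XT.lf (nat_lit 0) (nat_lit 3185916231) (nat_lit 380) (nat_lit 2722294829) (nat_lit 456) (nat_lit 3716340668) (nat_lit 152) (nat_lit 5) (nat_lit 157) (nat_lit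 5) (nat_lit 158) (nat_lit 4) (nat_lit 393) (nat_lit 317) (nat_lit 310)))) (XT.nd (nat_lit 78) (nat_lit 836) (nat_lit 0) (XT.lf (nat_lit 0) (nat_lit 2578275390) (nat_lit 456) (nat_lit 4455777915) (nat_lit 76) (nat_lit 2724615550) (nat_lit 146) (nat_lit 5) (nat_lit 152) (nat_lit 5) (nat_lit 147) (nat_lit 4) (nat_lit 394) (nat_lit 317) (nat_lit 309)) (XT.nd (nat_lit 78) (nat_lit 456) (nat_lit 0) (XT.lf (nat_lit 0) (nat_lit 7425422877) (nat_lit 380) (nat_lit 1556968374) (nat_lit 456) (nat_lit 914521926) (nat_lit 141) (nat_lit 5) (nat_lit 146) (nat_lit 5) (nat_lit 147) (nat_lit 4) (nat_lit 395) (nat_lit 317) (nat_lit 308)) (XT.lf (nat_lit 0) (nat_lit 5448273238) (nat_lit 456) (nat_lit 507614768) (nat_lit 76) (nat_lit 4083082738) (nat_lit 135) (nat_lit 5) (nat_lit 141) (nat_lit 5) (nat_lit 136) (nat_lit 4) (nat_lit 396) (nat_lit 317) (nat_lit 307))))))) (XT.nd (nat_lit 858) (nat_lit 2812) (nat_lit 0) (XT.nd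 (nat_lit 390) (nat_lit 2204) (nat_lit 0) (XT.nd (nat_lit 156) (nat_lit 1064) (nat_lit 0) (XT.nd (nat_lit 78) (nat_lit 304) (nat_lit 0) (XT.lf (nat_lit 0) (nat_lit 1487170743) (nat_lit 380) (nat_lit 270436016) (nat_lit 456) (nat_lit 8427806143) (nat_lit 125) (nat_lit 5) (nat_lit 130) (nat_lit 5) (nat_lit 131) (nat_lit 5) (nat_lit 397) (nat_lit 317) (nat_lit 306)) (XT.lf (nat_lit 0) (nat_lit 3458686507) (nat_lit 304) (nat_lit 4774023971) (nat_lit 380) (nat_lit 2102972405) (nat_lit 121) (nat_lit 5) (nat_lit 125) (nat_lit 5) (nat_lit 126) (nat_lit 4) (nat_lit 398) (nat_lit 317) (nat_lit 305))) (XT.nd (nat_lit 78) (nat_lit 684) (nat_lit 0) (XT.lf (nat_lit 0) (nat_lit 4323271405) (nat_lit 380) (nat_lit 5063502167) (nat_lit 76) (nat_lit 1103739135) (nat_lit 116) (nat_lit 5) (nat_lit 121) (nat_lit 5) (nat_lit 117) (nat_lit 4) (nat_lit 399) (nat_lit 317) (nat_lit 304)) (XT.nd (nat_lit 78) (nat_lit 304) (nat_lit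 0) (XT.lf (nat_lit 0) (nat_lit 255269916) (nat_lit 380) (nat_lit 3270521118) (nat_lit 76) (nat_lit 7124004240) (nat_lit 111) (nat_lit 5) (nat_lit 116) (nat_lit 5) (nat_lit 112) (nat_lit 5) (nat_lit 400) (nat_lit 317) (nat_lit 303)) (XT.lf (nat_lit 0) (nat_lit 6768305960) (nat_lit 380) (nat_lit 1511197877) (nat_lit 76) (nat_lit 2533918350) (nat_lit 107) (nat_lit 5) (nat_lit 112) (nat_lit 5) (nat_lit 108) (nat_lit 4) (nat_lit 401) (nat_lit 317) (nat_lit 302))))) (XT.nd (nat_lit 234) (nat_lit 912) (nat_lit 0) (XT.nd (nat_lit 78) (nat_lit 608) (nat_lit 0) (XT.lf (nat_lit 0) (nat_lit 232080922) (nat_lit 304) (nat_lit 2221543372) (nat_lit 380) (nat_lit 8528191556) (nat_lit 98) (nat_lit 5) (nat_lit 102) (nat_lit 5) (nat_lit 103) (nat_lit 5) (nat_lit 402) (nat_lit 317) (nat_lit 301)) (XT.nd (nat_lit 78) (nat_lit 380) (nat_lit 0) (XT.lf (nat_lit 0) (nat_lit 1959149784) (nat_lit 228) (nat_lit 7137901663) (nat_lit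 304) (nat_lit 2057594360) (nat_lit 95) (nat_lit 5) (nat_lit 98) (nat_lit 5) (nat_lit 99) (nat_lit 4) (nat_lit 403) (nat_lit 317) (nat_lit 300)) (XT.lf (nat_lit 0) (nat_lit 3655018750) (nat_lit 304) (nat_lit 876104591) (nat_lit 380) (nat_lit 6801262819) (nat_lit 90) (nat_lit 5) (nat_lit 94) (nat_lit 5) (nat_lit 95) (nat_lit 5) (nat_lit 404) (nat_lit 317) (nat_lit 299)))) (XT.nd (nat_lit 78) (nat_lit 684) (nat_lit 0) (XT.lf (nat_lit 0) (nat_lit 5310574740) (nat_lit 228) (nat_lit 5986842132) (nat_lit 304) (nat_lit 217624362) (nat_lit 87) (nat_lit 5) (nat_lit 90) (nat_lit 5) (nat_lit 91) (nat_lit 4) (nat_lit 405) (nat_lit 317) (nat_lit 298)) (XT.nd (nat_lit 78) (nat_lit 304) (nat_lit 0) (XT.lf (nat_lit 0) (nat_lit 6459453118) (nat_lit 380) (nat_lit 4782347178) (nat_lit 76) (nat_lit 460894468) (nat_lit 82) (nat_lit 5) (nat_lit 87) (nat_lit 5) (nat_lit 83) (nat_lit 4) (nat_lit 406) (nat_lit 317) (nat_lit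 297)) (XT.lf (nat_lit 0) (nat_lit 1434196916) (nat_lit 304) (nat_lit 3414972025) (nat_lit 76) (nat_lit 7046301881) (nat_lit 78) (nat_lit 5) (nat_lit 82) (nat_lit 5) (nat_lit 79) (nat_lit 5) (nat_lit 407) (nat_lit 317) (nat_lit 296)))))) (XT.nd (nat_lit 390) (nat_lit 1368) (nat_lit 0) (XT.nd (nat_lit 156) (nat_lit 912) (nat_lit 0) (XT.nd (nat_lit 78) (nat_lit 304) (nat_lit 0) (XT.lf (nat_lit 0) (nat_lit 8229248140) (nat_lit 304) (nat_lit 2102574061) (nat_lit 76) (nat_lit 1761754786) (nat_lit 75) (nat_lit 5) (nat_lit 79) (nat_lit 5) (nat_lit 76) (nat_lit 4) (nat_lit 408) (nat_lit 317) (nat_lit 295)) (XT.lf (nat_lit 0) (nat_lit 2902912471) (nat_lit 304) (nat_lit 854928345) (nat_lit 76) (nat_lit 8539198503) (nat_lit 71) (nat_lit 5) (nat_lit 75) (nat_lit 5) (nat_lit 72) (nat_lit 5) (nat_lit 409) (nat_lit 317) (nat_lit 294))) (XT.nd (nat_lit 78) (nat_lit 456) (nat_lit 0) (XT.lf (nat_lit 0) (nat_lit 333153118)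 (nat_lit 228) (nat_lit 9489620389) (nat_lit 304) (nat_lit 2683288756) (nat_lit 65) (nat_lit 5) (nat_lit 68) (nat_lit 5) (nat_lit 69) (nat_lit 4) (nat_lit 410) (nat_lit 317) (nat_lit 293)) (XT.nd (nat_lit 78) (nat_lit 152) (nat_lit 0) (XT.lf (nat_lit 0) (nat_lit 1455316023) (nat_lit 228) (nat_lit 2729818562) (nat_lit 304) (nat_lit 8535446936) (nat_lit 61) (nat_lit 5) (nat_lit 64) (nat_lit 5) (nat_lit 65) (nat_lit 5) (nat_lit 411) (nat_lit 317) (nat_lit 292)) (XT.lf (nat_lit 0) (nat_lit 2501636810) (nat_lit 152) (nat_lit 8731544659) (nat_lit 228) (nat_lit 1707808575) (nat_lit 59) (nat_lit 5) (nat_lit 61) (nat_lit 5) (nat_lit 62) (nat_lit 4) (nat_lit 412) (nat_lit 317) (nat_lit 291))))) (XT.nd (nat_lit 234) (nat_lit 608) (nat_lit 0) (XT.nd (nat_lit 78) (nat_lit 456) (nat_lit 0) (XT.lf (nat_lit 0) (nat_lit 3458736558) (nat_lit 228) (nat_lit 1798035175) (nat_lit 304) (nat_lit 7910517246) (nat_lit 55) (nat_lit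 5) (nat_lit 58) (nat_lit 5) (nat_lit 59) (nat_lit 5) (nat_lit 413) (nat_lit 317) (nat_lit 290)) (XT.nd (nat_lit 78) (nat_lit 304) (nat_lit 0) (XT.lf (nat_lit 0) (nat_lit 4326875435) (nat_lit 152) (nat_lit 8100248020) (nat_lit 228) (nat_lit 972635188) (nat_lit 53) (nat_lit 5) (nat_lit 55) (nat_lit 5) (nat_lit 56) (nat_lit 4) (nat_lit 414) (nat_lit 317) (nat_lit 289)) (XT.lf (nat_lit 0) (nat_lit 5093392691) (nat_lit 228) (nat_lit 997541677) (nat_lit 304) (nat_lit 7547503940) (nat_lit 49) (nat_lit 5) (nat_lit 52) (nat_lit 5) (nat_lit 53) (nat_lit 5) (nat_lit 415) (nat_lit 317) (nat_lit 288)))) (XT.nd (nat_lit 78) (nat_lit 456) (nat_lit 0) (XT.lf (nat_lit 0) (nat_lit 5755676215) (nat_lit 152) (nat_lit 7626533448) (nat_lit 228) (nat_lit 501367496) (nat_lit 47) (nat_lit 5) (nat_lit 49) (nat_lit 5) (nat_lit 50) (nat_lit 4) (nat_lit 416) (nat_lit 317) (nat_lit 287)) (XT.nd (nat_lit 78) (nat_lit 152) (nat_lit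 0) (XT.lf (nat_lit 0) (nat_lit 6303283188) (nat_lit 228) (nat_lit 360051808) (nat_lit 304) (nat_lit 7471949336) (nat_lit 43) (nat_lit 5) (nat_lit 46) (nat_lit 5) (nat_lit 47) (nat_lit 5) (nat_lit 417) (nat_lit 317) (nat_lit 286)) (XT.lf (nat_lit 0) (nat_lit 6729116461) (nat_lit 152) (nat_lit 7343789938) (nat_lit 228) (nat_lit 320842311) (nat_lit 41) (nat_lit 5) (nat_lit 43) (nat_lit 5) (nat_lit 44) (nat_lit 4) (nat_lit 418) (nat_lit 317) (nat_lit 285))))))))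
noncomputable def xc11 : XT := (XT.nd (nat_lit 51324) (nat_lit 0) (nat_lit 1900) (XT.nd (nat_lit 50466) (nat_lit 0) (nat_lit 9348) (XT.nd (nat_lit 390) (nat_lit 760) (nat_lit 0) (XT.nd (nat_lit 156) (nat_lit 608) (nat_lit 0) (XT.nd (nat_lit 78) (nat_lit 152) (nat_lit 0) (XT.lf (nat_lit 0) (nat_lit 6946897172) (nat_lit 228) (nat_lit 7633340017) (nat_lit 76) (nat_lit 78931894) (nat_lit 38) (nat_lit 5) (nat_lit 41) (nat_lit 5) (nat_lit 39) (nat_lit 4) (nat_lit 419) (nat_lit 317) (nat_lit 284)) (XT.lf (nat_lit 0) (nat_lit 7181887247) (nat_lit 152) (nat_lit 7288347391) (nat_lit 228) (nat_lit 461443042) (nat_lit 36) (nat_lit 5) (nat_lit 38) (nat_lit 5) (nat_lit 39) (nat_lit 4) (nat_lit 420) (nat_lit 317) (nat_lit 283))) (XT.nd (nat_lit 78) (nat_lit 380) (nat_lit 0) (XT.lf (nat_lit 0) (nat_lit 6910690650) (nat_lit 228) (nat_lit 8019598433) (nat_lit 76) (nat_lit 281255250) (nat_lit 33) (nat_lit 5) (nat_lit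 36) (nat_lit 5) (nat_lit 34) (nat_lit 4) (nat_lit 421) (nat_lit 317) (nat_lit 282)) (XT.nd (nat_lit 78) (nat_lit 228) (nat_lit 0) (XT.lf (nat_lit 0) (nat_lit 7041570934) (nat_lit 152) (nat_lit 7499863126) (nat_lit 228) (nat_lit 957443653) (nat_lit 31) (nat_lit 5) (nat_lit 33) (nat_lit 5) (nat_lit 34) (nat_lit 4) (nat_lit 422) (nat_lit 317) (nat_lit 281)) (XT.lf (nat_lit 0) (nat_lit 6516906290) (nat_lit 228) (nat_lit 9066024399) (nat_lit 76) (nat_lit 211102697) (nat_lit 28) (nat_lit 5) (nat_lit 31) (nat_lit 5) (nat_lit 29) (nat_lit 4) (nat_lit 423) (nat_lit 317) (nat_lit 280))))) (XT.nd (nat_lit 234) (nat_lit 304) (nat_lit 0) (XT.nd (nat_lit 78) (nat_lit 304) (nat_lit 0) (XT.lf (nat_lit 0) (nat_lit 6227845378) (nat_lit 152) (nat_lit 8021743757) (nat_lit 228) (nat_lit 1847391382) (nat_lit 26) (nat_lit 5) (nat_lit 28) (nat_lit 5) (nat_lit 29) (nat_lit 4) (nat_lit 424) (nat_lit 317) (nat_lit 279)) (XT.nd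 (nat_lit 78) (nat_lit 76) (nat_lit 0) (XT.lf (nat_lit 0) (nat_lit 5548523977) (nat_lit 152) (nat_lit 178303845) (nat_lit 228) (nat_lit 10681485150) (nat_lit 23) (nat_lit 5) (nat_lit 25) (nat_lit 5) (nat_lit 26) (nat_lit 5) (nat_lit 425) (nat_lit 317) (nat_lit 278)) (XT.lf (nat_lit 0) (nat_lit 4651606996) (nat_lit 76) (nat_lit 8901606521) (nat_lit 152) (nat_lit 3174532030) (nat_lit 22) (nat_lit 5) (nat_lit 23) (nat_lit 5) (nat_lit 24) (nat_lit 4) (nat_lit 426) (nat_lit 317) (nat_lit 277)))) (XT.nd (nat_lit 78) (nat_lit 76) (nat_lit 0) (XT.lf (nat_lit 0) (nat_lit 3557265294) (nat_lit 152) (nat_lit 941109129) (nat_lit 228) (nat_lit 12557789375) (nat_lit 19) (nat_lit 5) (nat_lit 21) (nat_lit 5) (nat_lit 22) (nat_lit 5) (nat_lit 427) (nat_lit 317) (nat_lit 276)) (XT.nd (nat_lit 49686) (nat_lit 0) (nat_lit 15428) (XT.lf (nat_lit 0) (nat_lit 2214004032) (nat_lit 76) (nat_lit 10191784544) (nat_lit 152) (nat_lit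 4987282105) (nat_lit 18) (nat_lit 5) (nat_lit 19) (nat_lit 5) (nat_lit 20) (nat_lit 4) (nat_lit 428) (nat_lit 317) (nat_lit 275)) (XT.lf (nat_lit 0) (nat_lit 1056346342) (nat_lit 532) (nat_lit 1617928132) (nat_lit 532) (nat_lit 1617928132) (nat_lit 221) (nat_lit 4) (nat_lit 228) (nat_lit 5) (nat_lit 228) (nat_lit 4) (nat_lit 384) (nat_lit 318) (nat_lit 318)))))) (XT.nd (nat_lit 390) (nat_lit 2964) (nat_lit 0) (XT.nd (nat_lit 156) (nat_lit 1976) (nat_lit 0) (XT.nd (nat_lit 78) (nat_lit 608) (nat_lit 0) (XT.lf (nat_lit 0) (nat_lit 2844877169) (nat_lit 532) (nat_lit 4517262049) (nat_lit 0) (nat_lit 1324907377) (nat_lit 214) (nat_lit 5) (nat_lit 221) (nat_lit 4) (nat_lit 214) (nat_lit 4) (nat_lit 385) (nat_lit 318) (nat_lit 317)) (XT.lf (nat_lit 0) (nat_lit 224437333) (nat_lit 608) (nat_lit 2542305205) (nat_lit 76) (nat_lit 6026461405) (nat_lit 206) (nat_lit 5) (nat_lit 214) (nat_lit 5) (nat_lit 207) (nat_lit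 4) (nat_lit 386) (nat_lit 318) (nat_lit 316))) (XT.nd (nat_lit 78) (nat_lit 1520) (nat_lit 0) (XT.lf (nat_lit 0) (nat_lit 6344358076) (nat_lit 532) (nat_lit 555623061) (nat_lit 0) (nat_lit 2002803246) (nat_lit 200) (nat_lit 5) (nat_lit 207) (nat_lit 4) (nat_lit 200) (nat_lit 4) (nat_lit 387) (nat_lit 318) (nat_lit 315)) (XT.nd (nat_lit 78) (nat_lit 532) (nat_lit 0) (XT.lf (nat_lit 0) (nat_lit 1470387690) (nat_lit 456) (nat_lit 2081917225) (nat_lit 532) (nat_lit 5463544592) (nat_lit 187) (nat_lit 5) (nat_lit 193) (nat_lit 5) (nat_lit 194) (nat_lit 4) (nat_lit 388) (nat_lit 318) (nat_lit 314)) (XT.lf (nat_lit 0) (nat_lit 635279057) (nat_lit 532) (nat_lit 5608169481) (nat_lit 76) (nat_lit 2889162500) (nat_lit 180) (nat_lit 5) (nat_lit 187) (nat_lit 5) (nat_lit 181) (nat_lit 4) (nat_lit 389) (nat_lit 318) (nat_lit 313))))) (XT.nd (nat_lit 234) (nat_lit 1216) (nat_lit 0) (XT.nd (nat_lit 78) (nat_lit 1368)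 (nat_lit 0) (XT.lf (nat_lit 0) (nat_lit 5587269286) (nat_lit 380) (nat_lit 1214180525) (nat_lit 456) (nat_lit 2451552632) (nat_lit 175) (nat_lit 5) (nat_lit 180) (nat_lit 5) (nat_lit 181) (nat_lit 4) (nat_lit 390) (nat_lit 318) (nat_lit 312)) (XT.nd (nat_lit 78) (nat_lit 836) (nat_lit 0) (XT.lf (nat_lit 0) (nat_lit 3698650738) (nat_lit 532) (nat_lit 1720078327) (nat_lit 76) (nat_lit 3958355369) (nat_lit 168) (nat_lit 5) (nat_lit 175) (nat_lit 5) (nat_lit 169) (nat_lit 4) (nat_lit 391) (nat_lit 318) (nat_lit 311)) (XT.lf (nat_lit 0) (nat_lit 253015439) (nat_lit 380) (nat_lit 194694805) (nat_lit 456) (nat_lit 9057635296) (nat_lit 157) (nat_lit 5) (nat_lit 162) (nat_lit 5) (nat_lit 163) (nat_lit 5) (nat_lit 392) (nat_lit 318) (nat_lit 310)))) (XT.nd (nat_lit 78) (nat_lit 836) (nat_lit 0) (XT.lf (nat_lit 0) (nat_lit 2226910061) (nat_lit 380) (nat_lit 4450465824) (nat_lit 456) (nat_lit 2959409134) (nat_lit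 152) (nat_lit 5) (nat_lit 157) (nat_lit 5) (nat_lit 158) (nat_lit 4) (nat_lit 393) (nat_lit 318) (nat_lit 309)) (XT.nd (nat_lit 78) (nat_lit 380) (nat_lit 0) (XT.lf (nat_lit 0) (nat_lit 3238922163) (nat_lit 456) (nat_lit 5553068150) (nat_lit 76) (nat_lit 980549568) (nat_lit 146) (nat_lit 5) (nat_lit 152) (nat_lit 5) (nat_lit 147) (nat_lit 4) (nat_lit 394) (nat_lit 318) (nat_lit 308)) (XT.lf (nat_lit 0) (nat_lit 6208157625) (nat_lit 380) (nat_lit 3360273236) (nat_lit 456) (nat_lit 343854102) (nat_lit 141) (nat_lit 5) (nat_lit 146) (nat_lit 5) (nat_lit 147) (nat_lit 4) (nat_lit 395) (nat_lit 318) (nat_lit 307))))))) (XT.nd (nat_lit 858) (nat_lit 2964) (nat_lit 0) (XT.nd (nat_lit 390) (nat_lit 2204) (nat_lit 0) (XT.nd (nat_lit 156) (nat_lit 1444) (nat_lit 0) (XT.nd (nat_lit 78) (nat_lit 380) (nat_lit 0) (XT.lf (nat_lit 0) (nat_lit 5924792396) (nat_lit 456) (nat_lit 1869780284) (nat_lit 76) (nat_lit 2261437233)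 (nat_lit 135) (nat_lit 5) (nat_lit 141) (nat_lit 5) (nat_lit 136) (nat_lit 4) (nat_lit 396) (nat_lit 318) (nat_lit 306)) (XT.lf (nat_lit 0) (nat_lit 2126419769) (nat_lit 380) (nat_lit 37584320) (nat_lit 76) (nat_lit 8040088940) (nat_lit 130) (nat_lit 5) (nat_lit 135) (nat_lit 5) (nat_lit 131) (nat_lit 5) (nat_lit 397) (nat_lit 318) (nat_lit 305))) (XT.nd (nat_lit 78) (nat_lit 760) (nat_lit 0) (XT.lf (nat_lit 0) (nat_lit 1801111741) (nat_lit 304) (nat_lit 6712144461) (nat_lit 380) (nat_lit 1842879735) (nat_lit 121) (nat_lit 5) (nat_lit 125) (nat_lit 5) (nat_lit 126) (nat_lit 4) (nat_lit 398) (nat_lit 318) (nat_lit 304)) (XT.nd (nat_lit 78) (nat_lit 380) (nat_lit 0) (XT.lf (nat_lit 0) (nat_lit 3627643290) (nat_lit 304) (nat_lit 869152638) (nat_lit 380) (nat_lit 6015806414) (nat_lit 116) (nat_lit 5) (nat_lit 120) (nat_lit 5) (nat_lit 121) (nat_lit 5) (nat_lit 399) (nat_lit 318) (nat_lit 303)) (XT.lf (nat_lit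 0) (nat_lit 322699789) (nat_lit 380) (nat_lit 5238699625) (nat_lit 76) (nat_lit 5112113075) (nat_lit 111) (nat_lit 5) (nat_lit 116) (nat_lit 5) (nat_lit 112) (nat_lit 5) (nat_lit 400) (nat_lit 318) (nat_lit 302))))) (XT.nd (nat_lit 234) (nat_lit 1216) (nat_lit 0) (XT.nd (nat_lit 78) (nat_lit 684) (nat_lit 0) (XT.lf (nat_lit 0) (nat_lit 6746114411) (nat_lit 380) (nat_lit 3620437873) (nat_lit 76) (nat_lit 472386213) (nat_lit 107) (nat_lit 5) (nat_lit 112) (nat_lit 5) (nat_lit 108) (nat_lit 4) (nat_lit 401) (nat_lit 318) (nat_lit 301)) (XT.nd (nat_lit 78) (nat_lit 304) (nat_lit 0) (XT.lf (nat_lit 0) (nat_lit 2328457962) (nat_lit 380) (nat_lit 2037004610) (nat_lit 76) (nat_lit 6643443813) (nat_lit 102) (nat_lit 5) (nat_lit 107) (nat_lit 5) (nat_lit 103) (nat_lit 5) (nat_lit 402) (nat_lit 318) (nat_lit 300)) (XT.lf (nat_lit 0) (nat_lit 8870048179) (nat_lit 380) (nat_lit 478726512) (nat_lit 76) (nat_lit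 1835004552) (nat_lit 98) (nat_lit 5) (nat_lit 103) (nat_lit 5) (nat_lit 99) (nat_lit 4) (nat_lit 403) (nat_lit 318) (nat_lit 299)))) (XT.nd (nat_lit 78) (nat_lit 608) (nat_lit 0) (XT.lf (nat_lit 0) (nat_lit 1047240646) (nat_lit 304) (nat_lit 3150030947) (nat_lit 380) (nat_lit 7165908613) (nat_lit 90) (nat_lit 5) (nat_lit 94) (nat_lit 5) (nat_lit 95) (nat_lit 5) (nat_lit 404) (nat_lit 318) (nat_lit 298)) (XT.nd (nat_lit 78) (nat_lit 380) (nat_lit 0) (XT.lf (nat_lit 0) (nat_lit 2549439085) (nat_lit 228) (nat_lit 8321326229) (nat_lit 304) (nat_lit 676931656) (nat_lit 87) (nat_lit 5) (nat_lit 90) (nat_lit 5) (nat_lit 91) (nat_lit 4) (nat_lit 405) (nat_lit 318) (nat_lit 297)) (XT.lf (nat_lit 0) (nat_lit 3993941357) (nat_lit 304) (nat_lit 1930775748) (nat_lit 380) (nat_lit 5812327509) (nat_lit 82) (nat_lit 5) (nat_lit 86) (nat_lit 5) (nat_lit 87) (nat_lit 5) (nat_lit 406) (nat_lit 318) (nat_lit 296))))))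 (XT.nd (nat_lit 390) (nat_lit 1596) (nat_lit 0) (XT.nd (nat_lit 156) (nat_lit 836) (nat_lit 0) (XT.nd (nat_lit 78) (nat_lit 228) (nat_lit 0) (XT.lf (nat_lit 0) (nat_lit 780806437) (nat_lit 304) (nat_lit 6535126964) (nat_lit 76) (nat_lit 4615801693) (nat_lit 78) (nat_lit 5) (nat_lit 82) (nat_lit 5) (nat_lit 79) (nat_lit 5) (nat_lit 407) (nat_lit 318) (nat_lit 295)) (XT.lf (nat_lit 0) (nat_lit 6741182281) (nat_lit 228) (nat_lit 744020035) (nat_lit 304) (nat_lit 4646457057) (nat_lit 75) (nat_lit 5) (nat_lit 78) (nat_lit 5) (nat_lit 79) (nat_lit 5) (nat_lit 408) (nat_lit 318) (nat_lit 294))) (XT.nd (nat_lit 78) (nat_lit 532) (nat_lit 0) (XT.lf (nat_lit 0) (nat_lit 2046311262) (nat_lit 304) (nat_lit 4315057837) (nat_lit 76) (nat_lit 5975553550) (nat_lit 71) (nat_lit 5) (nat_lit 75) (nat_lit 5) (nat_lit 72) (nat_lit 5) (nat_lit 409) (nat_lit 318) (nat_lit 293)) (XT.nd (nat_lit 78) (nat_lit 304) (nat_lit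 0) (XT.lf (nat_lit 0) (nat_lit 8866849952) (nat_lit 304) (nat_lit 3299935978) (nat_lit 76) (nat_lit 381150738) (nat_lit 68) (nat_lit 5) (nat_lit 72) (nat_lit 5) (nat_lit 69) (nat_lit 4) (nat_lit 410) (nat_lit 318) (nat_lit 292)) (XT.lf (nat_lit 0) (nat_lit 3112437863) (nat_lit 304) (nat_lit 2374869887) (nat_lit 76) (nat_lit 7277041850) (nat_lit 64) (nat_lit 5) (nat_lit 68) (nat_lit 5) (nat_lit 65) (nat_lit 5) (nat_lit 411) (nat_lit 318) (nat_lit 291))))) (XT.nd (nat_lit 234) (nat_lit 912) (nat_lit 0) (XT.nd (nat_lit 78) (nat_lit 456) (nat_lit 0) (XT.lf (nat_lit 0) (nat_lit 10054683510) (nat_lit 304) (nat_lit 1516714500) (nat_lit 76) (nat_lit 1415480416) (nat_lit 61) (nat_lit 5) (nat_lit 65) (nat_lit 5) (nat_lit 62) (nat_lit 4) (nat_lit 412) (nat_lit 318) (nat_lit 290)) (XT.nd (nat_lit 78) (nat_lit 228) (nat_lit 0) (XT.lf (nat_lit 0) (nat_lit 3960651632) (nat_lit 228) (nat_lit 760080393) (nat_lit 76)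 (nat_lit 8494364231) (nat_lit 58) (nat_lit 5) (nat_lit 61) (nat_lit 5) (nat_lit 59) (nat_lit 5) (nat_lit 413) (nat_lit 318) (nat_lit 289)) (XT.lf (nat_lit 0) (nat_lit 11024335167) (nat_lit 304) (nat_lit 83815464) (nat_lit 76) (nat_lit 2341552606) (nat_lit 55) (nat_lit 5) (nat_lit 59) (nat_lit 5) (nat_lit 56) (nat_lit 4) (nat_lit 414) (nat_lit 318) (nat_lit 288)))) (XT.nd (nat_lit 78) (nat_lit 456) (nat_lit 0) (XT.lf (nat_lit 0) (nat_lit 485344471) (nat_lit 228) (nat_lit 4087487385) (nat_lit 304) (nat_lit 9117431900) (nat_lit 49) (nat_lit 5) (nat_lit 52) (nat_lit 5) (nat_lit 53) (nat_lit 5) (nat_lit 415) (nat_lit 318) (nat_lit 287)) (XT.nd (nat_lit 78) (nat_lit 304) (nat_lit 0) (XT.lf (nat_lit 0) (nat_lit 958406434) (nat_lit 152) (nat_lit 10801240850) (nat_lit 228) (nat_lit 2177848172) (nat_lit 47) (nat_lit 5) (nat_lit 49) (nat_lit 5) (nat_lit 50) (nat_lit 4) (nat_lit 416) (nat_lit 318) (nat_lit 286))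 (XT.lf (nat_lit 0) (nat_lit 1303699056) (nat_lit 228) (nat_lit 3620028409) (nat_lit 304) (nat_lit 9267398622) (nat_lit 43) (nat_lit 5) (nat_lit 46) (nat_lit 5) (nat_lit 47) (nat_lit 5) (nat_lit 417) (nat_lit 318) (nat_lit 285))))))))
noncomputable def xc12 : XT := (XT.nd (nat_lit 51168) (nat_lit 0) (nat_lit 2736) (XT.nd (nat_lit 50310) (nat_lit 0) (nat_lit 10868) (XT.nd (nat_lit 390) (nat_lit 912) (nat_lit 0) (XT.nd (nat_lit 156) (nat_lit 532) (nat_lit 0) (XT.nd (nat_lit 78) (nat_lit 228) (nat_lit 0) (XT.lf (nat_lit 0) (nat_lit 1533753311) (nat_lit 152) (nat_lit 10692666571) (nat_lit 228) (nat_lit 2225311537) (nat_lit 41) (nat_lit 5) (nat_lit 43) (nat_lit 5) (nat_lit 44) (nat_lit 4) (nat_lit 418) (nat_lit 318) (nat_lit 284)) (XT.lf (nat_lit 0) (nat_lit 1622360402) (nat_lit 152) (nat_lit 3358036891) (nat_lit 228) (nat_lit 9738745176) (nat_lit 38) (nat_lit 5) (nat_lit 40) (nat_lit 5) (nat_lit 41) (nat_lit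 5) (nat_lit 419) (nat_lit 318) (nat_lit 283))) (XT.nd (nat_lit 78) (nat_lit 380) (nat_lit 0) (XT.lf (nat_lit 0) (nat_lit 1575316089) (nat_lit 152) (nat_lit 10819459914) (nat_lit 228) (nat_lit 2599057357) (nat_lit 36) (nat_lit 5) (nat_lit 38) (nat_lit 5) (nat_lit 39) (nat_lit 4) (nat_lit 420) (nat_lit 318) (nat_lit 282)) (XT.nd (nat_lit 78) (nat_lit 152) (nat_lit 0) (XT.lf (nat_lit 0) (nat_lit 1372043759) (nat_lit 152) (nat_lit 3339225209) (nat_lit 228) (nat_lit 10564508442) (nat_lit 33) (nat_lit 5) (nat_lit 35) (nat_lit 5) (nat_lit 36) (nat_lit 5) (nat_lit 421) (nat_lit 318) (nat_lit 281)) (XT.lf (nat_lit 0) (nat_lit 1010164590) (nat_lit 152) (nat_lit 11221439021) (nat_lit 228) (nat_lit 3333718237) (nat_lit 31) (nat_lit 5) (nat_lit 33) (nat_lit 5) (nat_lit 34) (nat_lit 4) (nat_lit 422) (nat_lit 318) (nat_lit 280))))) (XT.nd (nat_lit 234) (nat_lit 456) (nat_lit 0) (XT.nd (nat_lit 78) (nat_lit 228) (nat_lit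 0) (XT.lf (nat_lit 0) (nat_lit 475942748) (nat_lit 152) (nat_lit 3604839800) (nat_lit 228) (nat_lit 11781826571) (nat_lit 28) (nat_lit 5) (nat_lit 30) (nat_lit 5) (nat_lit 31) (nat_lit 5) (nat_lit 423) (nat_lit 318) (nat_lit 279)) (XT.nd (nat_lit 78) (nat_lit 228) (nat_lit 0) (XT.lf (nat_lit 0) (nat_lit 11701204320) (nat_lit 228) (nat_lit 239381327) (nat_lit 76) (nat_lit 4227218488) (nat_lit 28) (nat_lit 5) (nat_lit 31) (nat_lit 5) (nat_lit 29) (nat_lit 4) (nat_lit 424) (nat_lit 318) (nat_lit 278)) (XT.lf (nat_lit 0) (nat_lit 3056468645) (nat_lit 228) (nat_lit 1136009614) (nat_lit 76) (nat_lit 12288711022) (nat_lit 25) (nat_lit 5) (nat_lit 28) (nat_lit 5) (nat_lit 26) (nat_lit 5) (nat_lit 425) (nat_lit 318) (nat_lit 277)))) (XT.nd (nat_lit 78) (nat_lit 304) (nat_lit 0) (XT.lf (nat_lit 0) (nat_lit 10771757409) (nat_lit 228) (nat_lit 2242730784) (nat_lit 76) (nat_lit 3788358064) (nat_lit 23) (nat_lit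 5) (nat_lit 26) (nat_lit 5) (nat_lit 24) (nat_lit 4) (nat_lit 426) (nat_lit 318) (nat_lit 276)) (XT.nd (nat_lit 78) (nat_lit 152) (nat_lit 0) (XT.lf (nat_lit 0) (nat_lit 1594536929) (nat_lit 152) (nat_lit 3556285977) (nat_lit 76) (nat_lit 11982509777) (nat_lit 21) (nat_lit 5) (nat_lit 23) (nat_lit 5) (nat_lit 22) (nat_lit 5) (nat_lit 427) (nat_lit 318) (nat_lit 275)) (XT.lf (nat_lit 0) (nat_lit 9390459084) (nat_lit 228) (nat_lit 5111274110) (nat_lit 76) (nat_lit 2970738486) (nat_lit 19) (nat_lit 5) (nat_lit 22) (nat_lit 5) (nat_lit 20) (nat_lit 4) (nat_lit 428) (nat_lit 318) (nat_lit 274)))))) (XT.nd (nat_lit 390) (nat_lit 3344) (nat_lit 0) (XT.nd (nat_lit 156) (nat_lit 1672) (nat_lit 0) (XT.nd (nat_lit 78) (nat_lit 1216) (nat_lit 0) (XT.lf (nat_lit 0) (nat_lit 1650124413) (nat_lit 608) (nat_lit 893713422) (nat_lit 0) (nat_lit 1650124413) (nat_lit 244) (nat_lit 5) (nat_lit 252) (nat_lit 4) (nat_lit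 244) (nat_lit 4) (nat_lit 382) (nat_lit 319) (nat_lit 319)) (XT.lf (nat_lit 0) (nat_lit 93203162) (nat_lit 532) (nat_lit 759282496) (nat_lit 608) (nat_lit 7632982478) (nat_lit 228) (nat_lit 5) (nat_lit 235) (nat_lit 5) (nat_lit 236) (nat_lit 4) (nat_lit 383) (nat_lit 319) (nat_lit 318))) (XT.nd (nat_lit 78) (nat_lit 1140) (nat_lit 0) (XT.lf (nat_lit 0) (nat_lit 2008237670) (nat_lit 532) (nat_lit 4862462439) (nat_lit 532) (nat_lit 1715212988) (nat_lit 221) (nat_lit 4) (nat_lit 228) (nat_lit 5) (nat_lit 228) (nat_lit 4) (nat_lit 384) (nat_lit 319) (nat_lit 317)) (XT.nd (nat_lit 78) (nat_lit 608) (nat_lit 0) (XT.lf (nat_lit 0) (nat_lit 3957543225) (nat_lit 456) (nat_lit 304835724) (nat_lit 532) (nat_lit 4427654691) (nat_lit 214) (nat_lit 5) (nat_lit 220) (nat_lit 5) (nat_lit 221) (nat_lit 4) (nat_lit 385) (nat_lit 319) (nat_lit 316)) (XT.lf (nat_lit 0) (nat_lit 1544071519) (nat_lit 608) (nat_lit 2874930343)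 (nat_lit 76) (nat_lit 4378544078) (nat_lit 206) (nat_lit 5) (nat_lit 214) (nat_lit 5) (nat_lit 207) (nat_lit 4) (nat_lit 386) (nat_lit 319) (nat_lit 315))))) (XT.nd (nat_lit 234) (nat_lit 1368) (nat_lit 0) (XT.nd (nat_lit 78) (nat_lit 1520) (nat_lit 0) (XT.lf (nat_lit 0) (nat_lit 7579392793) (nat_lit 532) (nat_lit 990184179) (nat_lit 0) (nat_lit 339253097) (nat_lit 200) (nat_lit 5) (nat_lit 207) (nat_lit 4) (nat_lit 200) (nat_lit 4) (nat_lit 387) (nat_lit 319) (nat_lit 314)) (XT.nd (nat_lit 78) (nat_lit 532) (nat_lit 0) (XT.lf (nat_lit 0) (nat_lit 905441110) (nat_lit 456) (nat_lit 3782467011) (nat_lit 532) (nat_lit 4335383969) (nat_lit 187) (nat_lit 5) (nat_lit 193) (nat_lit 5) (nat_lit 194) (nat_lit 4) (nat_lit 388) (nat_lit 319) (nat_lit 313)) (XT.lf (nat_lit 0) (nat_lit 1663131808) (nat_lit 532) (nat_lit 6296909018) (nat_lit 76) (nat_lit 1181587138) (nat_lit 180) (nat_lit 5) (nat_lit 187) (nat_lit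 5) (nat_lit 181) (nat_lit 4) (nat_lit 389) (nat_lit 319) (nat_lit 312)))) (XT.nd (nat_lit 78) (nat_lit 988) (nat_lit 0) (XT.lf (nat_lit 0) (nat_lit 4786112734) (nat_lit 380) (nat_lit 2969366744) (nat_lit 456) (nat_lit 1508026645) (nat_lit 175) (nat_lit 5) (nat_lit 180) (nat_lit 5) (nat_lit 181) (nat_lit 4) (nat_lit 390) (nat_lit 319) (nat_lit 311)) (XT.nd (nat_lit 78) (nat_lit 456) (nat_lit 0) (XT.lf (nat_lit 0) (nat_lit 4544414999) (nat_lit 532) (nat_lit 2651497223) (nat_lit 76) (nat_lit 2193270912) (nat_lit 168) (nat_lit 5) (nat_lit 175) (nat_lit 5) (nat_lit 169) (nat_lit 4) (nat_lit 391) (nat_lit 319) (nat_lit 310)) (XT.lf (nat_lit 0) (nat_lit 1194896330) (nat_lit 456) (nat_lit 814587713) (nat_lit 76) (nat_lit 7509372185) (nat_lit 162) (nat_lit 5) (nat_lit 168) (nat_lit 5) (nat_lit 163) (nat_lit 5) (nat_lit 392) (nat_lit 319) (nat_lit 309))))))) (XT.nd (nat_lit 858) (nat_lit 3268) (nat_lit 0) (XT.nd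 (nat_lit 390) (nat_lit 2432) (nat_lit 0) (XT.nd (nat_lit 156) (nat_lit 1216) (nat_lit 0) (XT.nd (nat_lit 78) (nat_lit 456) (nat_lit 0) (XT.lf (nat_lit 0) (nat_lit 1028629667) (nat_lit 380) (nat_lit 6304329768) (nat_lit 456) (nat_lit 2319177376) (nat_lit 152) (nat_lit 5) (nat_lit 157) (nat_lit 5) (nat_lit 158) (nat_lit 4) (nat_lit 393) (nat_lit 319) (nat_lit 308)) (XT.lf (nat_lit 0) (nat_lit 2889169960) (nat_lit 380) (nat_lit 900657187) (nat_lit 456) (nat_lit 5999608607) (nat_lit 146) (nat_lit 5) (nat_lit 151) (nat_lit 5) (nat_lit 152) (nat_lit 5) (nat_lit 394) (nat_lit 319) (nat_lit 307))) (XT.nd (nat_lit 78) (nat_lit 760) (nat_lit 0) (XT.lf (nat_lit 0) (nat_lit 107024664) (nat_lit 456) (nat_lit 5184836377) (nat_lit 76) (nat_lit 4638916034) (nat_lit 140) (nat_lit 5) (nat_lit 146) (nat_lit 5) (nat_lit 141) (nat_lit 5) (nat_lit 395) (nat_lit 319) (nat_lit 306)) (XT.nd (nat_lit 78) (nat_lit 380) (nat_lit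 0) (XT.lf (nat_lit 0) (nat_lit 6283966865) (nat_lit 456) (nat_lit 3481073409) (nat_lit 76) (nat_lit 311168955) (nat_lit 135) (nat_lit 5) (nat_lit 141) (nat_lit 5) (nat_lit 136) (nat_lit 4) (nat_lit 396) (nat_lit 319) (nat_lit 305)) (XT.lf (nat_lit 0) (nat_lit 2386235519) (nat_lit 380) (nat_lit 1794619330) (nat_lit 76) (nat_lit 6044895332) (nat_lit 130) (nat_lit 5) (nat_lit 135) (nat_lit 5) (nat_lit 131) (nat_lit 5) (nat_lit 397) (nat_lit 319) (nat_lit 304))))) (XT.nd (nat_lit 234) (nat_lit 988) (nat_lit 0) (XT.nd (nat_lit 78) (nat_lit 1064) (nat_lit 0) (XT.lf (nat_lit 0) (nat_lit 8673577303) (nat_lit 456) (nat_lit 112769287) (nat_lit 76) (nat_lit 1593443751) (nat_lit 125) (nat_lit 5) (nat_lit 131) (nat_lit 5) (nat_lit 126) (nat_lit 4) (nat_lit 398) (nat_lit 319) (nat_lit 303)) (XT.nd (nat_lit 78) (nat_lit 380) (nat_lit 0) (XT.lf (nat_lit 0) (nat_lit 1560246961) (nat_lit 304) (nat_lit 2994957638) (nat_lit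 380) (nat_lit 5982570716) (nat_lit 116) (nat_lit 5) (nat_lit 120) (nat_lit 5) (nat_lit 121) (nat_lit 5) (nat_lit 399) (nat_lit 319) (nat_lit 302)) (XT.lf (nat_lit 0) (nat_lit 265399408) (nat_lit 380) (nat_lit 7472718163) (nat_lit 76) (nat_lit 2962372247) (nat_lit 111) (nat_lit 5) (nat_lit 116) (nat_lit 5) (nat_lit 112) (nat_lit 5) (nat_lit 400) (nat_lit 319) (nat_lit 301)))) (XT.nd (nat_lit 78) (nat_lit 684) (nat_lit 0) (XT.lf (nat_lit 0) (nat_lit 4857746526) (nat_lit 304) (nat_lit 1751990200) (nat_lit 380) (nat_lit 4257767119) (nat_lit 107) (nat_lit 5) (nat_lit 111) (nat_lit 5) (nat_lit 112) (nat_lit 5) (nat_lit 401) (nat_lit 319) (nat_lit 300)) (XT.nd (nat_lit 78) (nat_lit 304) (nat_lit 0) (XT.lf (nat_lit 0) (nat_lit 2077694487) (nat_lit 380) (nat_lit 4574774319) (nat_lit 76) (nat_lit 4386790180) (nat_lit 102) (nat_lit 5) (nat_lit 107) (nat_lit 5) (nat_lit 103) (nat_lit 5) (nat_lit 402) (nat_lit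 319) (nat_lit 299)) (XT.lf (nat_lit 0) (nat_lit 8047131757) (nat_lit 304) (nat_lit 483728748) (nat_lit 380) (nat_lit 2685045804) (nat_lit 98) (nat_lit 5) (nat_lit 102) (nat_lit 5) (nat_lit 103) (nat_lit 5) (nat_lit 403) (nat_lit 319) (nat_lit 298)))))) (XT.nd (nat_lit 390) (nat_lit 1520) (nat_lit 0) (XT.nd (nat_lit 156) (nat_lit 1140) (nat_lit 0) (XT.nd (nat_lit 78) (nat_lit 304) (nat_lit 0) (XT.lf (nat_lit 0) (nat_lit 3743875131) (nat_lit 304) (nat_lit 1817963723) (nat_lit 76) (nat_lit 5835261360) (nat_lit 94) (nat_lit 5) (nat_lit 98) (nat_lit 5) (nat_lit 95) (nat_lit 5) (nat_lit 404) (nat_lit 319) (nat_lit 297)) (XT.lf (nat_lit 0) (nat_lit 10314759547) (nat_lit 380) (nat_lit 489951835) (nat_lit 76) (nat_lit 778963310) (nat_lit 90) (nat_lit 5) (nat_lit 95) (nat_lit 5) (nat_lit 91) (nat_lit 4) (nat_lit 405) (nat_lit 319) (nat_lit 296))) (XT.nd (nat_lit 78) (nat_lit 532) (nat_lit 0) (XT.lf (nat_lit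 0) (nat_lit 776313724) (nat_lit 304) (nat_lit 4482378110) (nat_lit 380) (nat_lit 6516048750) (nat_lit 82) (nat_lit 5) (nat_lit 86) (nat_lit 5) (nat_lit 87) (nat_lit 5) (nat_lit 406) (nat_lit 319) (nat_lit 295)) (XT.nd (nat_lit 78) (nat_lit 304) (nat_lit 0) (XT.lf (nat_lit 0) (nat_lit 2022112807) (nat_lit 228) (nat_lit 9939506142) (nat_lit 304) (nat_lit 9827493) (nat_lit 79) (nat_lit 5) (nat_lit 82) (nat_lit 5) (nat_lit 83) (nat_lit 4) (nat_lit 407) (nat_lit 319) (nat_lit 294)) (XT.lf (nat_lit 0) (nat_lit 3184557749) (nat_lit 228) (nat_lit 3430845517) (nat_lit 304) (nat_lit 5557559473) (nat_lit 75) (nat_lit 5) (nat_lit 78) (nat_lit 5) (nat_lit 79) (nat_lit 5) (nat_lit 408) (nat_lit 319) (nat_lit 293))))) (XT.nd (nat_lit 234) (nat_lit 684) (nat_lit 0) (XT.nd (nat_lit 78) (nat_lit 532) (nat_lit 0) (XT.lf (nat_lit 0) (nat_lit 1049453227) (nat_lit 304) (nat_lit 8076214529) (nat_lit 76) (nat_lit 3254635294)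 (nat_lit 71) (nat_lit 5) (nat_lit 75) (nat_lit 5) (nat_lit 72) (nat_lit 5) (nat_lit 409) (nat_lit 319) (nat_lit 292)) (XT.nd (nat_lit 78) (nat_lit 304) (nat_lit 0) (XT.lf (nat_lit 0) (nat_lit 5343839800) (nat_lit 228) (nat_lit 2443490314) (nat_lit 304) (nat_lit 4805644685) (nat_lit 68) (nat_lit 5) (nat_lit 71) (nat_lit 5) (nat_lit 72) (nat_lit 5) (nat_lit 410) (nat_lit 319) (nat_lit 291)) (XT.lf (nat_lit 0) (nat_lit 1905578917) (nat_lit 304) (nat_lit 6494372417) (nat_lit 76) (nat_lit 4411527696) (nat_lit 64) (nat_lit 5) (nat_lit 68) (nat_lit 5) (nat_lit 65) (nat_lit 5) (nat_lit 411) (nat_lit 319) (nat_lit 290)))) (XT.nd (nat_lit 78) (nat_lit 456) (nat_lit 0) (XT.lf (nat_lit 0) (nat_lit 7211363839) (nat_lit 228) (nat_lit 1546007219) (nat_lit 304) (nat_lit 4278450020) (nat_lit 61) (nat_lit 5) (nat_lit 64) (nat_lit 5) (nat_lit 65) (nat_lit 5) (nat_lit 412) (nat_lit 319) (nat_lit 289)) (XT.nd (nat_lit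 78) (nat_lit 228) (nat_lit 0) (XT.lf (nat_lit 0) (nat_lit 2539806592) (nat_lit 228) (nat_lit 5249667467) (nat_lit 76) (nat_lit 5476588544) (nat_lit 58) (nat_lit 5) (nat_lit 61) (nat_lit 5) (nat_lit 59) (nat_lit 5) (nat_lit 413) (nat_lit 319) (nat_lit 288)) (XT.lf (nat_lit 0) (nat_lit 8739821996) (nat_lit 228) (nat_lit 766008669) (nat_lit 304) (nat_lit 3996795945) (nat_lit 55) (nat_lit 5) (nat_lit 58) (nat_lit 5) (nat_lit 59) (nat_lit 5) (nat_lit 414) (nat_lit 319) (nat_lit 287))))))))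
noncomputable def xc13 : XT := (XT.nd (nat_lit 51012) (nat_lit 0) (nat_lit 4028) (XT.nd (nat_lit 858) (nat_lit 456) (nat_lit 0) (XT.nd (nat_lit 390) (nat_lit 1140) (nat_lit 0) (XT.nd (nat_lit 156) (nat_lit 684) (nat_lit 0) (XT.nd (nat_lit 78) (nat_lit 228) (nat_lit 0) (XT.lf (nat_lit 0) (nat_lit 2930524664) (nat_lit 228) (nat_lit 4392863169) (nat_lit 76) (nat_lit 6421836781) (nat_lit 52) (nat_lit 5) (nat_lit 55) (nat_lit 5) (nat_lit 53) (nat_lit 5) (nat_lit 415) (nat_lit 319) (nat_lit 286)) (XT.lf (nat_lit 0) (nat_lit 9876862438) (nat_lit 228) (nat_lit 133319383) (nat_lit 304) (nat_lit 3984421205) (nat_lit 49) (nat_lit 5) (nat_lit 52) (nat_lit 5) (nat_lit 53) (nat_lit 5) (nat_lit 416) (nat_lit 319) (nat_lit 285))) (XT.nd (nat_lit 78) (nat_lit 456) (nat_lit 0) (XT.lf (nat_lit 0) (nat_lit 3053128097) (nat_lit 228) (nat_lit 3980124725) (nat_lit 76) (nat_lit 7216973197) (nat_lit 46) (nat_lit 5) (nat_lit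 49) (nat_lit 5) (nat_lit 47) (nat_lit 5) (nat_lit 417) (nat_lit 319) (nat_lit 284)) (XT.nd (nat_lit 78) (nat_lit 228) (nat_lit 0) (XT.lf (nat_lit 0) (nat_lit 10246875718) (nat_lit 304) (nat_lit 3950626337) (nat_lit 76) (nat_lit 315511468) (nat_lit 43) (nat_lit 5) (nat_lit 47) (nat_lit 5) (nat_lit 44) (nat_lit 4) (nat_lit 418) (nat_lit 319) (nat_lit 283)) (XT.lf (nat_lit 0) (nat_lit 2879734983) (nat_lit 228) (nat_lit 4073637305) (nat_lit 76) (nat_lit 7829052449) (nat_lit 40) (nat_lit 5) (nat_lit 43) (nat_lit 5) (nat_lit 41) (nat_lit 5) (nat_lit 419) (nat_lit 319) (nat_lit 282))))) (XT.nd (nat_lit 234) (nat_lit 608) (nat_lit 0) (XT.nd (nat_lit 78) (nat_lit 380) (nat_lit 0) (XT.lf (nat_lit 0) (nat_lit 10184288376) (nat_lit 228) (nat_lit 4324514524) (nat_lit 76) (nat_lit 550512262) (nat_lit 38) (nat_lit 5) (nat_lit 41) (nat_lit 5) (nat_lit 39) (nat_lit 4) (nat_lit 420) (nat_lit 319) (nat_lit 281)) (XT.nd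 (nat_lit 78) (nat_lit 152) (nat_lit 0) (XT.lf (nat_lit 0) (nat_lit 2378870561) (nat_lit 228) (nat_lit 4742286468) (nat_lit 76) (nat_lit 8222126184) (nat_lit 35) (nat_lit 5) (nat_lit 38) (nat_lit 5) (nat_lit 36) (nat_lit 5) (nat_lit 421) (nat_lit 319) (nat_lit 280)) (XT.lf (nat_lit 0) (nat_lit 9788561191) (nat_lit 228) (nat_lit 5311036640) (nat_lit 76) (nat_lit 535445497) (nat_lit 33) (nat_lit 5) (nat_lit 36) (nat_lit 5) (nat_lit 34) (nat_lit 4) (nat_lit 422) (nat_lit 319) (nat_lit 279)))) (XT.nd (nat_lit 78) (nat_lit 380) (nat_lit 0) (XT.lf (nat_lit 0) (nat_lit 1515115479) (nat_lit 228) (nat_lit 6062407432) (nat_lit 76) (nat_lit 8356853813) (nat_lit 30) (nat_lit 5) (nat_lit 33) (nat_lit 5) (nat_lit 31) (nat_lit 5) (nat_lit 423) (nat_lit 319) (nat_lit 278)) (XT.nd (nat_lit 78) (nat_lit 228) (nat_lit 0) (XT.lf (nat_lit 0) (nat_lit 9022585118) (nat_lit 228) (nat_lit 6990543858) (nat_lit 76) (nat_lit 228704393)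 (nat_lit 28) (nat_lit 5) (nat_lit 31) (nat_lit 5) (nat_lit 29) (nat_lit 4) (nat_lit 424) (nat_lit 319) (nat_lit 277)) (XT.lf (nat_lit 0) (nat_lit 248714790) (nat_lit 228) (nat_lit 8118610590) (nat_lit 76) (nat_lit 8190077174) (nat_lit 25) (nat_lit 5) (nat_lit 28) (nat_lit 5) (nat_lit 26) (nat_lit 5) (nat_lit 425) (nat_lit 319) (nat_lit 276)))))) (XT.nd (nat_lit 49686) (nat_lit 0) (nat_lit 13756) (XT.nd (nat_lit 156) (nat_lit 228) (nat_lit 0) (XT.nd (nat_lit 78) (nat_lit 76) (nat_lit 0) (XT.lf (nat_lit 0) (nat_lit 7426552114) (nat_lit 152) (nat_lit 420904225) (nat_lit 228) (nat_lit 9033936525) (nat_lit 23) (nat_lit 5) (nat_lit 25) (nat_lit 5) (nat_lit 26) (nat_lit 5) (nat_lit 426) (nat_lit 319) (nat_lit 275)) (XT.lf (nat_lit 0) (nat_lit 6199668713) (nat_lit 76) (nat_lit 9530005183) (nat_lit 152) (nat_lit 1484323422) (nat_lit 22) (nat_lit 5) (nat_lit 23) (nat_lit 5) (nat_lit 24) (nat_lit 4) (nat_lit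 427) (nat_lit 319) (nat_lit 274))) (XT.nd (nat_lit 49374) (nat_lit 0) (nat_lit 17708) (XT.lf (nat_lit 0) (nat_lit 4751598415) (nat_lit 152) (nat_lit 1466277167) (nat_lit 228) (nat_lit 11337719492) (nat_lit 19) (nat_lit 5) (nat_lit 21) (nat_lit 5) (nat_lit 22) (nat_lit 5) (nat_lit 428) (nat_lit 319) (nat_lit 273)) (XT.nd (nat_lit 78) (nat_lit 608) (nat_lit 0) (XT.lf (nat_lit 0) (nat_lit 715576448) (nat_lit 684) (nat_lit 2669823904) (nat_lit 0) (nat_lit 715576448) (nat_lit 260) (nat_lit 5) (nat_lit 269) (nat_lit 4) (nat_lit 260) (nat_lit 4) (nat_lit 380) (nat_lit 320) (nat_lit 320)) (XT.lf (nat_lit 0) (nat_lit 4667085155) (nat_lit 608) (nat_lit 2669086165) (nat_lit 608) (nat_lit 957850112) (nat_lit 252) (nat_lit 4) (nat_lit 260) (nat_lit 5) (nat_lit 260) (nat_lit 4) (nat_lit 381) (nat_lit 320) (nat_lit 319))))) (XT.nd (nat_lit 234) (nat_lit 1596) (nat_lit 0) (XT.nd (nat_lit 78) (nat_lit 1748) (nat_lit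 0) (XT.lf (nat_lit 0) (nat_lit 4903700915) (nat_lit 608) (nat_lit 1888521525) (nat_lit 0) (nat_lit 1597200642) (nat_lit 244) (nat_lit 5) (nat_lit 252) (nat_lit 4) (nat_lit 244) (nat_lit 4) (nat_lit 382) (nat_lit 320) (nat_lit 318)) (XT.nd (nat_lit 78) (nat_lit 1064) (nat_lit 0) (XT.lf (nat_lit 0) (nat_lit 2358945684) (nat_lit 684) (nat_lit 122806562) (nat_lit 76) (nat_lit 6006509427) (nat_lit 235) (nat_lit 5) (nat_lit 244) (nat_lit 5) (nat_lit 236) (nat_lit 4) (nat_lit 383) (nat_lit 320) (nat_lit 317)) (XT.lf (nat_lit 0) (nat_lit 1694781356) (nat_lit 532) (nat_lit 6596452818) (nat_lit 532) (nat_lit 299203893) (nat_lit 221) (nat_lit 4) (nat_lit 228) (nat_lit 5) (nat_lit 228) (nat_lit 4) (nat_lit 384) (nat_lit 320) (nat_lit 316)))) (XT.nd (nat_lit 78) (nat_lit 1064) (nat_lit 0) (XT.lf (nat_lit 0) (nat_lit 3525285505) (nat_lit 456) (nat_lit 2060806615) (nat_lit 532) (nat_lit 3109769406) (nat_lit 214)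 (nat_lit 5) (nat_lit 220) (nat_lit 5) (nat_lit 221) (nat_lit 4) (nat_lit 385) (nat_lit 320) (nat_lit 315)) (XT.nd (nat_lit 78) (nat_lit 456) (nat_lit 0) (XT.lf (nat_lit 0) (nat_lit 2759569971) (nat_lit 608) (nat_lit 3423147099) (nat_lit 76) (nat_lit 2622199375) (nat_lit 206) (nat_lit 5) (nat_lit 214) (nat_lit 5) (nat_lit 207) (nat_lit 4) (nat_lit 386) (nat_lit 320) (nat_lit 314)) (XT.lf (nat_lit 0) (nat_lit 7265776328) (nat_lit 456) (nat_lit 1453891118) (nat_lit 532) (nat_lit 198048964) (nat_lit 200) (nat_lit 5) (nat_lit 206) (nat_lit 5) (nat_lit 207) (nat_lit 4) (nat_lit 387) (nat_lit 320) (nat_lit 313))))))) (XT.nd (nat_lit 858) (nat_lit 4028) (nat_lit 0) (XT.nd (nat_lit 390) (nat_lit 2812) (nat_lit 0) (XT.nd (nat_lit 156) (nat_lit 1368) (nat_lit 0) (XT.nd (nat_lit 78) (nat_lit 532) (nat_lit 0) (XT.lf (nat_lit 0) (nat_lit 117573471) (nat_lit 456) (nat_lit 5599285463) (nat_lit 532) (nat_lit 3316935378)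 (nat_lit 187) (nat_lit 5) (nat_lit 193) (nat_lit 5) (nat_lit 194) (nat_lit 4) (nat_lit 388) (nat_lit 320) (nat_lit 312)) (XT.lf (nat_lit 0) (nat_lit 1936226838) (nat_lit 456) (nat_lit 650515348) (nat_lit 532) (nat_lit 6566895665) (nat_lit 180) (nat_lit 5) (nat_lit 186) (nat_lit 5) (nat_lit 187) (nat_lit 5) (nat_lit 389) (nat_lit 320) (nat_lit 311))) (XT.nd (nat_lit 78) (nat_lit 988) (nat_lit 0) (XT.lf (nat_lit 0) (nat_lit 3757401121) (nat_lit 380) (nat_lit 4844163319) (nat_lit 456) (nat_lit 675512071) (nat_lit 175) (nat_lit 5) (nat_lit 180) (nat_lit 5) (nat_lit 181) (nat_lit 4) (nat_lit 390) (nat_lit 320) (nat_lit 310)) (XT.nd (nat_lit 78) (nat_lit 456) (nat_lit 0) (XT.lf (nat_lit 0) (nat_lit 5280318425) (nat_lit 532) (nat_lit 3815172963) (nat_lit 76) (nat_lit 308877392) (nat_lit 168) (nat_lit 5) (nat_lit 175) (nat_lit 5) (nat_lit 169) (nat_lit 4) (nat_lit 391) (nat_lit 320) (nat_lit 309)) (XT.lf (nat_lit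 0) (nat_lit 1832693441) (nat_lit 456) (nat_lit 2113593065) (nat_lit 76) (nat_lit 5589140199) (nat_lit 162) (nat_lit 5) (nat_lit 168) (nat_lit 5) (nat_lit 163) (nat_lit 5) (nat_lit 392) (nat_lit 320) (nat_lit 308))))) (XT.nd (nat_lit 234) (nat_lit 1140) (nat_lit 0) (XT.nd (nat_lit 78) (nat_lit 1292) (nat_lit 0) (XT.lf (nat_lit 0) (nat_lit 7878196361) (nat_lit 456) (nat_lit 404595135) (nat_lit 76) (nat_lit 1387775785) (nat_lit 157) (nat_lit 5) (nat_lit 163) (nat_lit 5) (nat_lit 158) (nat_lit 4) (nat_lit 393) (nat_lit 320) (nat_lit 307)) (XT.nd (nat_lit 78) (nat_lit 456) (nat_lit 0) (XT.lf (nat_lit 0) (nat_lit 1309361071) (nat_lit 380) (nat_lit 2923544131) (nat_lit 456) (nat_lit 5576437366) (nat_lit 146) (nat_lit 5) (nat_lit 151) (nat_lit 5) (nat_lit 152) (nat_lit 5) (nat_lit 394) (nat_lit 320) (nat_lit 306)) (XT.lf (nat_lit 0) (nat_lit 436969400) (nat_lit 456) (nat_lit 6915673094) (nat_lit 76) (nat_lit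 2599747938) (nat_lit 140) (nat_lit 5) (nat_lit 146) (nat_lit 5) (nat_lit 141) (nat_lit 5) (nat_lit 395) (nat_lit 320) (nat_lit 305)))) (XT.nd (nat_lit 78) (nat_lit 760) (nat_lit 0) (XT.lf (nat_lit 0) (nat_lit 4744810491) (nat_lit 380) (nat_lit 1792940955) (nat_lit 456) (nat_lit 3561602075) (nat_lit 135) (nat_lit 5) (nat_lit 140) (nat_lit 5) (nat_lit 141) (nat_lit 5) (nat_lit 396) (nat_lit 320) (nat_lit 304)) (XT.nd (nat_lit 78) (nat_lit 380) (nat_lit 0) (XT.lf (nat_lit 0) (nat_lit 2527625334) (nat_lit 380) (nat_lit 3804974070) (nat_lit 76) (nat_lit 3917996990) (nat_lit 130) (nat_lit 5) (nat_lit 135) (nat_lit 5) (nat_lit 131) (nat_lit 5) (nat_lit 397) (nat_lit 320) (nat_lit 303)) (XT.lf (nat_lit 0) (nat_lit 8143423864) (nat_lit 380) (nat_lit 586836300) (nat_lit 456) (nat_lit 1676077674) (nat_lit 125) (nat_lit 5) (nat_lit 130) (nat_lit 5) (nat_lit 131) (nat_lit 5) (nat_lit 398) (nat_lit 320) (nat_lit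 302)))))) (XT.nd (nat_lit 390) (nat_lit 1976) (nat_lit 0) (XT.nd (nat_lit 156) (nat_lit 988) (nat_lit 0) (XT.nd (nat_lit 78) (nat_lit 684) (nat_lit 0) (XT.lf (nat_lit 0) (nat_lit 4496283627) (nat_lit 380) (nat_lit 759485079) (nat_lit 76) (nat_lit 5310330215) (nat_lit 120) (nat_lit 5) (nat_lit 125) (nat_lit 5) (nat_lit 121) (nat_lit 5) (nat_lit 399) (nat_lit 320) (nat_lit 301)) (XT.lf (nat_lit 0) (nat_lit 83318704) (nat_lit 380) (nat_lit 9974528788) (nat_lit 76) (nat_lit 672903342) (nat_lit 111) (nat_lit 5) (nat_lit 116) (nat_lit 5) (nat_lit 112) (nat_lit 5) (nat_lit 400) (nat_lit 320) (nat_lit 300))) (XT.nd (nat_lit 78) (nat_lit 684) (nat_lit 0) (XT.lf (nat_lit 0) (nat_lit 2225390495) (nat_lit 304) (nat_lit 4126318860) (nat_lit 380) (nat_lit 4547580723) (nat_lit 107) (nat_lit 5) (nat_lit 111) (nat_lit 5) (nat_lit 112) (nat_lit 5) (nat_lit 401) (nat_lit 320) (nat_lit 299)) (XT.nd (nat_lit 78) (nat_lit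 304) (nat_lit 0) (XT.lf (nat_lit 0) (nat_lit 1699607933) (nat_lit 380) (nat_lit 7386489457) (nat_lit 76) (nat_lit 1986832922) (nat_lit 102) (nat_lit 5) (nat_lit 107) (nat_lit 5) (nat_lit 103) (nat_lit 5) (nat_lit 402) (nat_lit 320) (nat_lit 298)) (XT.lf (nat_lit 0) (nat_lit 5102186825) (nat_lit 304) (nat_lit 2974170605) (nat_lit 380) (nat_lit 3174754343) (nat_lit 98) (nat_lit 5) (nat_lit 102) (nat_lit 5) (nat_lit 103) (nat_lit 5) (nat_lit 403) (nat_lit 320) (nat_lit 297))))) (XT.nd (nat_lit 234) (nat_lit 1064) (nat_lit 0) (XT.nd (nat_lit 78) (nat_lit 608) (nat_lit 0) (XT.lf (nat_lit 0) (nat_lit 3167211061) (nat_lit 304) (nat_lit 4949817914) (nat_lit 76) (nat_lit 3317213383) (nat_lit 94) (nat_lit 5) (nat_lit 98) (nat_lit 5) (nat_lit 95) (nat_lit 5) (nat_lit 404) (nat_lit 320) (nat_lit 296)) (XT.nd (nat_lit 78) (nat_lit 304) (nat_lit 0) (XT.lf (nat_lit 0) (nat_lit 7831051863) (nat_lit 304) (nat_lit 1824902995)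 (nat_lit 380) (nat_lit 1966510157) (nat_lit 90) (nat_lit 5) (nat_lit 94) (nat_lit 5) (nat_lit 95) (nat_lit 5) (nat_lit 405) (nat_lit 320) (nat_lit 295)) (XT.lf (nat_lit 0) (nat_lit 4475502747) (nat_lit 304) (nat_lit 2696419984) (nat_lit 76) (nat_lit 4643598733) (nat_lit 86) (nat_lit 5) (nat_lit 90) (nat_lit 5) (nat_lit 87) (nat_lit 5) (nat_lit 406) (nat_lit 320) (nat_lit 294)))) (XT.nd (nat_lit 78) (nat_lit 760) (nat_lit 0) (XT.lf (nat_lit 0) (nat_lit 10379301334) (nat_lit 304) (nat_lit 700015119) (nat_lit 380) (nat_lit 934898097) (nat_lit 82) (nat_lit 5) (nat_lit 86) (nat_lit 5) (nat_lit 87) (nat_lit 5) (nat_lit 407) (nat_lit 320) (nat_lit 293)) (XT.nd (nat_lit 78) (nat_lit 456) (nat_lit 0) (XT.lf (nat_lit 0) (nat_lit 5611851578) (nat_lit 304) (nat_lit 661366879) (nat_lit 76) (nat_lit 5944449505) (nat_lit 78) (nat_lit 5) (nat_lit 82) (nat_lit 5) (nat_lit 79) (nat_lit 5) (nat_lit 408) (nat_lit 320)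 (nat_lit 292)) (XT.lf (nat_lit 0) (nat_lit 284939459) (nat_lit 228) (nat_lit 12052558094) (nat_lit 304) (nat_lit 89709225) (nat_lit 72) (nat_lit 5) (nat_lit 75) (nat_lit 5) (nat_lit 76) (nat_lit 4) (nat_lit 409) (nat_lit 320) (nat_lit 291))))))))
noncomputable def xc14 : XT := (XT.nd (nat_lit 50856) (nat_lit 0) (nat_lit 6156) (XT.nd (nat_lit 858) (nat_lit 1292) (nat_lit 0) (XT.nd (nat_lit 390) (nat_lit 1292) (nat_lit 0) (XT.nd (nat_lit 156) (nat_lit 684) (nat_lit 0) (XT.nd (nat_lit 78) (nat_lit 304) (nat_lit 0) (XT.lf (nat_lit 0) (nat_lit 1131547201) (nat_lit 228) (nat_lit 5437254593) (nat_lit 304) (nat_lit 6072703592) (nat_lit 68) (nat_lit 5) (nat_lit 71) (nat_lit 5) (nat_lit 72) (nat_lit 5) (nat_lit 410) (nat_lit 320) (nat_lit 290)) (XT.lf (nat_lit 0) (nat_lit 554054332) (nat_lit 304) (nat_lit 10925877863) (nat_lit 76) (nat_lit 1382267774) (nat_lit 64) (nat_lit 5) (nat_lit 68) (nat_lit 5) (nat_lit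 65) (nat_lit 5) (nat_lit 411) (nat_lit 320) (nat_lit 289))) (XT.nd (nat_lit 78) (nat_lit 456) (nat_lit 0) (XT.lf (nat_lit 0) (nat_lit 2629655189) (nat_lit 228) (nat_lit 4694571456) (nat_lit 304) (nat_lit 5763951800) (nat_lit 61) (nat_lit 5) (nat_lit 64) (nat_lit 5) (nat_lit 65) (nat_lit 5) (nat_lit 412) (nat_lit 320) (nat_lit 288)) (XT.nd (nat_lit 78) (nat_lit 228) (nat_lit 0) (XT.lf (nat_lit 0) (nat_lit 970538686) (nat_lit 228) (nat_lit 10059309553) (nat_lit 76) (nat_lit 2290833441) (nat_lit 58) (nat_lit 5) (nat_lit 61) (nat_lit 5) (nat_lit 59) (nat_lit 5) (nat_lit 413) (nat_lit 320) (nat_lit 287)) (XT.lf (nat_lit 0) (nat_lit 3776429768) (nat_lit 228) (nat_lit 4077308325) (nat_lit 304) (nat_lit 5705167812) (nat_lit 55) (nat_lit 5) (nat_lit 58) (nat_lit 5) (nat_lit 59) (nat_lit 5) (nat_lit 414) (nat_lit 320) (nat_lit 286))))) (XT.nd (nat_lit 234) (nat_lit 608) (nat_lit 0) (XT.nd (nat_lit 78) (nat_lit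 456) (nat_lit 0) (XT.lf (nat_lit 0) (nat_lit 1138964370) (nat_lit 228) (nat_lit 9593191801) (nat_lit 76) (nat_lit 3071685003) (nat_lit 52) (nat_lit 5) (nat_lit 55) (nat_lit 5) (nat_lit 53) (nat_lit 5) (nat_lit 415) (nat_lit 320) (nat_lit 285)) (XT.nd (nat_lit 78) (nat_lit 228) (nat_lit 0) (XT.lf (nat_lit 0) (nat_lit 4519063092) (nat_lit 228) (nat_lit 3615401154) (nat_lit 304) (nat_lit 5920441928) (nat_lit 49) (nat_lit 5) (nat_lit 52) (nat_lit 5) (nat_lit 53) (nat_lit 5) (nat_lit 416) (nat_lit 320) (nat_lit 284)) (XT.lf (nat_lit 0) (nat_lit 1034378124) (nat_lit 228) (nat_lit 9584164098) (nat_lit 76) (nat_lit 3694404030) (nat_lit 46) (nat_lit 5) (nat_lit 49) (nat_lit 5) (nat_lit 47) (nat_lit 5) (nat_lit 417) (nat_lit 320) (nat_lit 283)))) (XT.nd (nat_lit 78) (nat_lit 380) (nat_lit 0) (XT.lf (nat_lit 0) (nat_lit 4799092323) (nat_lit 228) (nat_lit 3341339321) (nat_lit 304) (nat_lit 6437059176) (nat_lit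 43) (nat_lit 5) (nat_lit 46) (nat_lit 5) (nat_lit 47) (nat_lit 5) (nat_lit 418) (nat_lit 320) (nat_lit 282)) (XT.nd (nat_lit 78) (nat_lit 152) (nat_lit 0) (XT.lf (nat_lit 0) (nat_lit 628545162) (nat_lit 228) (nat_lit 10094912190) (nat_lit 76) (nat_lit 4125904422) (nat_lit 40) (nat_lit 5) (nat_lit 43) (nat_lit 5) (nat_lit 41) (nat_lit 5) (nat_lit 419) (nat_lit 320) (nat_lit 281)) (XT.lf (nat_lit 0) (nat_lit 4551755752) (nat_lit 152) (nat_lit 3290512048) (nat_lit 228) (nat_lit 7285803953) (nat_lit 38) (nat_lit 5) (nat_lit 40) (nat_lit 5) (nat_lit 41) (nat_lit 5) (nat_lit 420) (nat_lit 320) (nat_lit 280)))))) (XT.nd (nat_lit 390) (nat_lit 380) (nat_lit 0) (XT.nd (nat_lit 156) (nat_lit 532) (nat_lit 0) (XT.nd (nat_lit 78) (nat_lit 228) (nat_lit 0) (XT.lf (nat_lit 0) (nat_lit 4218967680) (nat_lit 152) (nat_lit 11083740642) (nat_lit 228) (nat_lit 111834382) (nat_lit 36) (nat_lit 5) (nat_lit 38) (nat_lit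 5) (nat_lit 39) (nat_lit 4) (nat_lit 421) (nat_lit 320) (nat_lit 279)) (XT.lf (nat_lit 0) (nat_lit 3705283944) (nat_lit 152) (nat_lit 3501585934) (nat_lit 228) (nat_lit 8501299242) (nat_lit 33) (nat_lit 5) (nat_lit 35) (nat_lit 5) (nat_lit 36) (nat_lit 5) (nat_lit 422) (nat_lit 320) (nat_lit 278))) (XT.nd (nat_lit 78) (nat_lit 380) (nat_lit 0) (XT.lf (nat_lit 0) (nat_lit 3041076658) (nat_lit 152) (nat_lit 11734545242) (nat_lit 228) (nat_lit 1234332880) (nat_lit 31) (nat_lit 5) (nat_lit 33) (nat_lit 5) (nat_lit 34) (nat_lit 4) (nat_lit 423) (nat_lit 320) (nat_lit 277)) (XT.nd (nat_lit 78) (nat_lit 152) (nat_lit 0) (XT.lf (nat_lit 0) (nat_lit 2180118909) (nat_lit 152) (nat_lit 4016917265) (nat_lit 228) (nat_lit 10122383826) (nat_lit 28) (nat_lit 5) (nat_lit 30) (nat_lit 5) (nat_lit 31) (nat_lit 5) (nat_lit 424) (nat_lit 320) (nat_lit 276)) (XT.lf (nat_lit 0) (nat_lit 1141237040) (nat_lit 152) (nat_lit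 12724885628) (nat_lit 228) (nat_lit 2771257356) (nat_lit 26) (nat_lit 5) (nat_lit 28) (nat_lit 5) (nat_lit 29) (nat_lit 4) (nat_lit 425) (nat_lit 320) (nat_lit 275))))) (XT.nd (nat_lit 49374) (nat_lit 0) (nat_lit 18164) (XT.nd (nat_lit 78) (nat_lit 304) (nat_lit 0) (XT.lf (nat_lit 0) (nat_lit 4771783547) (nat_lit 228) (nat_lit 110478179) (nat_lit 76) (nat_lit 12081311707) (nat_lit 25) (nat_lit 5) (nat_lit 28) (nat_lit 5) (nat_lit 26) (nat_lit 5) (nat_lit 426) (nat_lit 320) (nat_lit 274)) (XT.nd (nat_lit 78) (nat_lit 152) (nat_lit 0) (XT.lf (nat_lit 0) (nat_lit 12540755940) (nat_lit 228) (nat_lit 1552786102) (nat_lit 76) (nat_lit 3204903001) (nat_lit 23) (nat_lit 5) (nat_lit 26) (nat_lit 5) (nat_lit 24) (nat_lit 4) (nat_lit 427) (nat_lit 320) (nat_lit 273)) (XT.lf (nat_lit 0) (nat_lit 2903481570) (nat_lit 152) (nat_lit 3225846791) (nat_lit 76) (nat_lit 11512820822) (nat_lit 21) (nat_lit 5) (nat_lit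 23) (nat_lit 5) (nat_lit 22) (nat_lit 5) (nat_lit 428) (nat_lit 320) (nat_lit 272)))) (XT.nd (nat_lit 78) (nat_lit 1976) (nat_lit 0) (XT.lf (nat_lit 0) (nat_lit 3743222047) (nat_lit 684) (nat_lit 134968280) (nat_lit 684) (nat_lit 134968280) (nat_lit 286) (nat_lit 4) (nat_lit 295) (nat_lit 5) (nat_lit 295) (nat_lit 4) (nat_lit 378) (nat_lit 321) (nat_lit 321)) (XT.nd (nat_lit 78) (nat_lit 684) (nat_lit 0) (XT.lf (nat_lit 0) (nat_lit 1083831862) (nat_lit 608) (nat_lit 4413545825) (nat_lit 608) (nat_lit 2615721228) (nat_lit 269) (nat_lit 4) (nat_lit 277) (nat_lit 5) (nat_lit 277) (nat_lit 4) (nat_lit 379) (nat_lit 321) (nat_lit 320)) (XT.lf (nat_lit 0) (nat_lit 2762354815) (nat_lit 608) (nat_lit 359249236) (nat_lit 684) (nat_lit 5081806671) (nat_lit 260) (nat_lit 5) (nat_lit 268) (nat_lit 5) (nat_lit 269) (nat_lit 4) (nat_lit 380) (nat_lit 321) (nat_lit 319))))))) (XT.nd (nat_lit 858) (nat_lit 5016) (nat_lit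 0) (XT.nd (nat_lit 390) (nat_lit 3496) (nat_lit 0) (XT.nd (nat_lit 156) (nat_lit 2280) (nat_lit 0) (XT.nd (nat_lit 78) (nat_lit 532) (nat_lit 0) (XT.lf (nat_lit 0) (nat_lit 645135088) (nat_lit 684) (nat_lit 3832030533) (nat_lit 76) (nat_lit 3819760362) (nat_lit 251) (nat_lit 5) (nat_lit 260) (nat_lit 5) (nat_lit 252) (nat_lit 4) (nat_lit 381) (nat_lit 321) (nat_lit 318)) (XT.lf (nat_lit 0) (nat_lit 6200637617) (nat_lit 532) (nat_lit 209681755) (nat_lit 608) (nat_lit 1983573537) (nat_lit 244) (nat_lit 5) (nat_lit 251) (nat_lit 5) (nat_lit 252) (nat_lit 4) (nat_lit 382) (nat_lit 321) (nat_lit 317))) (XT.nd (nat_lit 78) (nat_lit 1596) (nat_lit 0) (XT.lf (nat_lit 0) (nat_lit 3766937232) (nat_lit 684) (nat_lit 541993570) (nat_lit 76) (nat_lit 4185107676) (nat_lit 235) (nat_lit 5) (nat_lit 244) (nat_lit 5) (nat_lit 236) (nat_lit 4) (nat_lit 383) (nat_lit 321) (nat_lit 316)) (XT.nd (nat_lit 78) (nat_lit 456)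 (nat_lit 0) (XT.lf (nat_lit 0) (nat_lit 1000117277) (nat_lit 608) (nat_lit 7432513950) (nat_lit 76) (nat_lit 165221258) (nat_lit 220) (nat_lit 5) (nat_lit 228) (nat_lit 5) (nat_lit 221) (nat_lit 4) (nat_lit 384) (nat_lit 321) (nat_lit 315)) (XT.lf (nat_lit 0) (nat_lit 2881524511) (nat_lit 456) (nat_lit 3926932316) (nat_lit 532) (nat_lit 1896252845) (nat_lit 214) (nat_lit 5) (nat_lit 220) (nat_lit 5) (nat_lit 221) (nat_lit 4) (nat_lit 385) (nat_lit 321) (nat_lit 314))))) (XT.nd (nat_lit 234) (nat_lit 1900) (nat_lit 0) (XT.nd (nat_lit 78) (nat_lit 988) (nat_lit 0) (XT.lf (nat_lit 0) (nat_lit 3871994776) (nat_lit 608) (nat_lit 4187434497) (nat_lit 76) (nat_lit 755892625) (nat_lit 206) (nat_lit 5) (nat_lit 214) (nat_lit 5) (nat_lit 207) (nat_lit 4) (nat_lit 386) (nat_lit 321) (nat_lit 313)) (XT.nd (nat_lit 78) (nat_lit 456) (nat_lit 0) (XT.lf (nat_lit 0) (nat_lit 819231887) (nat_lit 532) (nat_lit 2540380087)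 (nat_lit 76) (nat_lit 5569860974) (nat_lit 199) (nat_lit 5) (nat_lit 206) (nat_lit 5) (nat_lit 200) (nat_lit 5) (nat_lit 387) (nat_lit 321) (nat_lit 312)) (XT.lf (nat_lit 0) (nat_lit 6645860252) (nat_lit 532) (nat_lit 882179948) (nat_lit 76) (nat_lit 1519209073) (nat_lit 193) (nat_lit 5) (nat_lit 200) (nat_lit 5) (nat_lit 194) (nat_lit 4) (nat_lit 388) (nat_lit 321) (nat_lit 311)))) (XT.nd (nat_lit 78) (nat_lit 912) (nat_lit 0) (XT.lf (nat_lit 0) (nat_lit 793765062) (nat_lit 456) (nat_lit 2617472111) (nat_lit 532) (nat_lit 5757327619) (nat_lit 180) (nat_lit 5) (nat_lit 186) (nat_lit 5) (nat_lit 187) (nat_lit 5) (nat_lit 389) (nat_lit 321) (nat_lit 310)) (XT.nd (nat_lit 78) (nat_lit 456) (nat_lit 0) (XT.lf (nat_lit 0) (nat_lit 46105808) (nat_lit 456) (nat_lit 6793793221) (nat_lit 76) (nat_lit 2453820368) (nat_lit 174) (nat_lit 5) (nat_lit 180) (nat_lit 5) (nat_lit 175) (nat_lit 5) (nat_lit 390) (nat_lit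 321) (nat_lit 309)) (XT.lf (nat_lit 0) (nat_lit 4199148071) (nat_lit 456) (nat_lit 1719016964) (nat_lit 532) (nat_lit 3504266383) (nat_lit 168) (nat_lit 5) (nat_lit 174) (nat_lit 5) (nat_lit 175) (nat_lit 5) (nat_lit 391) (nat_lit 321) (nat_lit 308)))))) (XT.nd (nat_lit 390) (nat_lit 2508) (nat_lit 0) (XT.nd (nat_lit 156) (nat_lit 1672) (nat_lit 0) (XT.nd (nat_lit 78) (nat_lit 380) (nat_lit 0) (XT.lf (nat_lit 0) (nat_lit 2360016133) (nat_lit 456) (nat_lit 3648454010) (nat_lit 76) (nat_lit 3546634162) (nat_lit 162) (nat_lit 5) (nat_lit 168) (nat_lit 5) (nat_lit 163) (nat_lit 5) (nat_lit 392) (nat_lit 321) (nat_lit 307)) (XT.lf (nat_lit 0) (nat_lit 7624612028) (nat_lit 380) (nat_lit 699072795) (nat_lit 456) (nat_lit 1368205278) (nat_lit 157) (nat_lit 5) (nat_lit 162) (nat_lit 5) (nat_lit 163) (nat_lit 5) (nat_lit 393) (nat_lit 321) (nat_lit 306))) (XT.nd (nat_lit 78) (nat_lit 1216) (nat_lit 0) (XT.lf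 (nat_lit 0) (nat_lit 4565434632) (nat_lit 456) (nat_lit 508004239) (nat_lit 76) (nat_lit 4758901023) (nat_lit 151) (nat_lit 5) (nat_lit 157) (nat_lit 5) (nat_lit 152) (nat_lit 5) (nat_lit 394) (nat_lit 321) (nat_lit 305)) (XT.nd (nat_lit 78) (nat_lit 380) (nat_lit 0) (XT.lf (nat_lit 0) (nat_lit 650778115) (nat_lit 456) (nat_lit 8895917341) (nat_lit 76) (nat_lit 430493115) (nat_lit 140) (nat_lit 5) (nat_lit 146) (nat_lit 5) (nat_lit 141) (nat_lit 5) (nat_lit 395) (nat_lit 321) (nat_lit 304)) (XT.lf (nat_lit 0) (nat_lit 2642546139) (nat_lit 380) (nat_lit 4035087161) (nat_lit 456) (nat_lit 3448004404) (nat_lit 135) (nat_lit 5) (nat_lit 140) (nat_lit 5) (nat_lit 141) (nat_lit 5) (nat_lit 396) (nat_lit 321) (nat_lit 303))))) (XT.nd (nat_lit 234) (nat_lit 1368) (nat_lit 0) (XT.nd (nat_lit 78) (nat_lit 760) (nat_lit 0) (XT.lf (nat_lit 0) (nat_lit 2550712759) (nat_lit 380) (nat_lit 6070405161) (nat_lit 76)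 (nat_lit 1657535459) (nat_lit 130) (nat_lit 5) (nat_lit 135) (nat_lit 5) (nat_lit 131) (nat_lit 5) (nat_lit 397) (nat_lit 321) (nat_lit 302)) (XT.nd (nat_lit 78) (nat_lit 380) (nat_lit 0) (XT.lf (nat_lit 0) (nat_lit 5753499259) (nat_lit 380) (nat_lit 2925723057) (nat_lit 456) (nat_lit 1756661947) (nat_lit 125) (nat_lit 5) (nat_lit 130) (nat_lit 5) (nat_lit 131) (nat_lit 5) (nat_lit 398) (nat_lit 321) (nat_lit 301)) (XT.lf (nat_lit 0) (nat_lit 4326827787) (nat_lit 380) (nat_lit 3319750338) (nat_lit 76) (nat_lit 2950882858) (nat_lit 120) (nat_lit 5) (nat_lit 125) (nat_lit 5) (nat_lit 121) (nat_lit 5) (nat_lit 399) (nat_lit 321) (nat_lit 300)))) (XT.nd (nat_lit 78) (nat_lit 1064) (nat_lit 0) (XT.lf (nat_lit 0) (nat_lit 8794849387) (nat_lit 304) (nat_lit 1767120351) (nat_lit 380) (nat_lit 201835773) (nat_lit 116) (nat_lit 5) (nat_lit 120) (nat_lit 5) (nat_lit 121) (nat_lit 5) (nat_lit 400) (nat_lit 321)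 (nat_lit 299)) (XT.nd (nat_lit 78) (nat_lit 684) (nat_lit 0) (XT.lf (nat_lit 0) (nat_lit 5973099093) (nat_lit 380) (nat_lit 668809498) (nat_lit 76) (nat_lit 4292390533) (nat_lit 111) (nat_lit 5) (nat_lit 116) (nat_lit 5) (nat_lit 112) (nat_lit 5) (nat_lit 401) (nat_lit 321) (nat_lit 298)) (XT.lf (nat_lit 0) (nat_lit 631594926) (nat_lit 304) (nat_lit 565947513) (nat_lit 380) (nat_lit 9912333854) (nat_lit 102) (nat_lit 5) (nat_lit 106) (nat_lit 5) (nat_lit 107) (nat_lit 5) (nat_lit 402) (nat_lit 321) (nat_lit 297))))))))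
noncomputable def xc15 : XT := (XT.nd (nat_lit 1716) (nat_lit 608) (nat_lit 0) (XT.nd (nat_lit 858) (nat_lit 2356) (nat_lit 0) (XT.nd (nat_lit 390) (nat_lit 1596) (nat_lit 0) (XT.nd (nat_lit 156) (nat_lit 912) (nat_lit 0) (XT.nd (nat_lit 78) (nat_lit 304) (nat_lit 0) (XT.lf (nat_lit 0) (nat_lit 1879958530) (nat_lit 304) (nat_lit 5614110887) (nat_lit 380) (nat_lit 3795598426) (nat_lit 98) (nat_lit 5) (nat_lit 102) (nat_lit 5) (nat_lit 103) (nat_lit 5) (nat_lit 403) (nat_lit 321) (nat_lit 296)) (XT.lf (nat_lit 0) (nat_lit 2459976121) (nat_lit 304) (nat_lit 8364793248) (nat_lit 76) (nat_lit 650005712) (nat_lit 94) (nat_lit 5) (nat_lit 98) (nat_lit 5) (nat_lit 95) (nat_lit 5) (nat_lit 404) (nat_lit 321) (nat_lit 295))) (XT.nd (nat_lit 78) (nat_lit 608) (nat_lit 0) (XT.lf (nat_lit 0) (nat_lit 4279020138) (nat_lit 304) (nat_lit 4592464338) (nat_lit 380) (nat_lit 2793063182) (nat_lit 90) (nat_lit 5) (nat_lit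 94) (nat_lit 5) (nat_lit 95) (nat_lit 5) (nat_lit 405) (nat_lit 321) (nat_lit 294)) (XT.nd (nat_lit 78) (nat_lit 304) (nat_lit 0) (XT.lf (nat_lit 0) (nat_lit 3563659622) (nat_lit 304) (nat_lit 6449122075) (nat_lit 76) (nat_lit 1846857308) (nat_lit 86) (nat_lit 5) (nat_lit 90) (nat_lit 5) (nat_lit 87) (nat_lit 5) (nat_lit 406) (nat_lit 321) (nat_lit 293)) (XT.lf (nat_lit 0) (nat_lit 6486456256) (nat_lit 304) (nat_lit 3602965861) (nat_lit 380) (nat_lit 1970475813) (nat_lit 82) (nat_lit 5) (nat_lit 86) (nat_lit 5) (nat_lit 87) (nat_lit 5) (nat_lit 407) (nat_lit 321) (nat_lit 292))))) (XT.nd (nat_lit 234) (nat_lit 760) (nat_lit 0) (XT.nd (nat_lit 78) (nat_lit 532) (nat_lit 0) (XT.lf (nat_lit 0) (nat_lit 4491948983) (nat_lit 304) (nat_lit 4763029303) (nat_lit 76) (nat_lit 3010470246) (nat_lit 78) (nat_lit 5) (nat_lit 82) (nat_lit 5) (nat_lit 79) (nat_lit 5) (nat_lit 408) (nat_lit 321) (nat_lit 291)) (XT.nd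 (nat_lit 78) (nat_lit 304) (nat_lit 0) (XT.lf (nat_lit 0) (nat_lit 8465907570) (nat_lit 228) (nat_lit 2668390303) (nat_lit 304) (nat_lit 1342359867) (nat_lit 75) (nat_lit 5) (nat_lit 78) (nat_lit 5) (nat_lit 79) (nat_lit 5) (nat_lit 409) (nat_lit 321) (nat_lit 290)) (XT.lf (nat_lit 0) (nat_lit 5229702818) (nat_lit 304) (nat_lit 3345539567) (nat_lit 76) (nat_lit 4117938400) (nat_lit 71) (nat_lit 5) (nat_lit 75) (nat_lit 5) (nat_lit 72) (nat_lit 5) (nat_lit 410) (nat_lit 321) (nat_lit 289)))) (XT.nd (nat_lit 78) (nat_lit 532) (nat_lit 0) (XT.lf (nat_lit 0) (nat_lit 10177272923) (nat_lit 228) (nat_lit 1813017423) (nat_lit 304) (nat_lit 925548056) (nat_lit 68) (nat_lit 5) (nat_lit 71) (nat_lit 5) (nat_lit 72) (nat_lit 5) (nat_lit 411) (nat_lit 321) (nat_lit 288)) (XT.nd (nat_lit 78) (nat_lit 228) (nat_lit 0) (XT.lf (nat_lit 0) (nat_lit 5759420521) (nat_lit 304) (nat_lit 2239702374) (nat_lit 76) (nat_lit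 5144764931) (nat_lit 64) (nat_lit 5) (nat_lit 68) (nat_lit 5) (nat_lit 65) (nat_lit 5) (nat_lit 412) (nat_lit 321) (nat_lit 287)) (XT.lf (nat_lit 0) (nat_lit 11576256010) (nat_lit 228) (nat_lit 1062888573) (nat_lit 304) (nat_lit 739383886) (nat_lit 61) (nat_lit 5) (nat_lit 64) (nat_lit 5) (nat_lit 65) (nat_lit 5) (nat_lit 413) (nat_lit 321) (nat_lit 286)))))) (XT.nd (nat_lit 390) (nat_lit 1216) (nat_lit 0) (XT.nd (nat_lit 156) (nat_lit 684) (nat_lit 0) (XT.nd (nat_lit 78) (nat_lit 228) (nat_lit 0) (XT.lf (nat_lit 0) (nat_lit 6061031756) (nat_lit 228) (nat_lit 1493070680) (nat_lit 76) (nat_lit 6064599505) (nat_lit 58) (nat_lit 5) (nat_lit 61) (nat_lit 5) (nat_lit 59) (nat_lit 5) (nat_lit 414) (nat_lit 321) (nat_lit 285)) (XT.lf (nat_lit 0) (nat_lit 12613867762) (nat_lit 228) (nat_lit 446083576) (nat_lit 304) (nat_lit 805947927) (nat_lit 55) (nat_lit 5) (nat_lit 58) (nat_lit 5) (nat_lit 59) (nat_lit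 5) (nat_lit 415) (nat_lit 321) (nat_lit 284))) (XT.nd (nat_lit 78) (nat_lit 456) (nat_lit 0) (XT.lf (nat_lit 0) (nat_lit 6111660570) (nat_lit 228) (nat_lit 1158226554) (nat_lit 76) (nat_lit 6848954369) (nat_lit 52) (nat_lit 5) (nat_lit 55) (nat_lit 5) (nat_lit 53) (nat_lit 5) (nat_lit 416) (nat_lit 321) (nat_lit 283)) (XT.nd (nat_lit 78) (nat_lit 228) (nat_lit 0) (XT.lf (nat_lit 0) (nat_lit 13228945291) (nat_lit 304) (nat_lit 1143376747) (nat_lit 76) (nat_lit 6888039) (nat_lit 49) (nat_lit 5) (nat_lit 53) (nat_lit 5) (nat_lit 50) (nat_lit 4) (nat_lit 417) (nat_lit 321) (nat_lit 282)) (XT.lf (nat_lit 0) (nat_lit 5885361714) (nat_lit 228) (nat_lit 1293359088) (nat_lit 76) (nat_lit 7466896554) (nat_lit 46) (nat_lit 5) (nat_lit 49) (nat_lit 5) (nat_lit 47) (nat_lit 5) (nat_lit 418) (nat_lit 321) (nat_lit 281))))) (XT.nd (nat_lit 234) (nat_lit 608) (nat_lit 0) (XT.nd (nat_lit 78) (nat_lit 380) (nat_lit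 0) (XT.lf (nat_lit 0) (nat_lit 13120711480) (nat_lit 304) (nat_lit 1539306599) (nat_lit 76) (nat_lit 259767159) (nat_lit 43) (nat_lit 5) (nat_lit 47) (nat_lit 5) (nat_lit 44) (nat_lit 4) (nat_lit 419) (nat_lit 321) (nat_lit 280)) (XT.nd (nat_lit 78) (nat_lit 152) (nat_lit 0) (XT.lf (nat_lit 0) (nat_lit 5352826518) (nat_lit 228) (nat_lit 1962900252) (nat_lit 76) (nat_lit 7884713268) (nat_lit 40) (nat_lit 5) (nat_lit 43) (nat_lit 5) (nat_lit 41) (nat_lit 5) (nat_lit 420) (nat_lit 321) (nat_lit 279)) (XT.lf (nat_lit 0) (nat_lit 12701646216) (nat_lit 228) (nat_lit 2504721612) (nat_lit 76) (nat_lit 282778349) (nat_lit 38) (nat_lit 5) (nat_lit 41) (nat_lit 5) (nat_lit 39) (nat_lit 4) (nat_lit 421) (nat_lit 321) (nat_lit 278)))) (XT.nd (nat_lit 78) (nat_lit 380) (nat_lit 0) (XT.lf (nat_lit 0) (nat_lit 4481055335) (nat_lit 228) (nat_lit 3238224931) (nat_lit 76) (nat_lit 8065547225) (nat_lit 35) (nat_lit 5)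 (nat_lit 38) (nat_lit 5) (nat_lit 36) (nat_lit 5) (nat_lit 422) (nat_lit 321) (nat_lit 277)) (XT.nd (nat_lit 78) (nat_lit 228) (nat_lit 0) (XT.lf (nat_lit 0) (nat_lit 11937192510) (nat_lit 228) (nat_lit 4114739415) (nat_lit 76) (nat_lit 36936084) (nat_lit 33) (nat_lit 5) (nat_lit 36) (nat_lit 5) (nat_lit 34) (nat_lit 4) (nat_lit 423) (nat_lit 321) (nat_lit 276)) (XT.lf (nat_lit 0) (nat_lit 3232993279) (nat_lit 228) (nat_lit 5198422058) (nat_lit 76) (nat_lit 7968998390) (nat_lit 30) (nat_lit 5) (nat_lit 33) (nat_lit 5) (nat_lit 31) (nat_lit 5) (nat_lit 424) (nat_lit 321) (nat_lit 275))))))) (XT.nd (nat_lit 49842) (nat_lit 0) (nat_lit 10260) (XT.nd (nat_lit 49374) (nat_lit 0) (nat_lit 16872) (XT.nd (nat_lit 156) (nat_lit 228) (nat_lit 0) (XT.nd (nat_lit 78) (nat_lit 228) (nat_lit 0) (XT.lf (nat_lit 0) (nat_lit 10264545716) (nat_lit 152) (nat_lit 527439170) (nat_lit 228) (nat_lit 5928593130) (nat_lit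 28) (nat_lit 5) (nat_lit 30) (nat_lit 5) (nat_lit 31) (nat_lit 5) (nat_lit 425) (nat_lit 321) (nat_lit 274)) (XT.lf (nat_lit 0) (nat_lit 1567125598) (nat_lit 228) (nat_lit 7931144425) (nat_lit 76) (nat_lit 7550688269) (nat_lit 25) (nat_lit 5) (nat_lit 28) (nat_lit 5) (nat_lit 26) (nat_lit 5) (nat_lit 426) (nat_lit 321) (nat_lit 273))) (XT.nd (nat_lit 78) (nat_lit 76) (nat_lit 0) (XT.lf (nat_lit 0) (nat_lit 7766070815) (nat_lit 152) (nat_lit 1455681703) (nat_lit 228) (nat_lit 8164366481) (nat_lit 23) (nat_lit 5) (nat_lit 25) (nat_lit 5) (nat_lit 26) (nat_lit 5) (nat_lit 427) (nat_lit 321) (nat_lit 272)) (XT.nd (nat_lit 49062) (nat_lit 0) (nat_lit 21508) (XT.lf (nat_lit 0) (nat_lit 6195033308) (nat_lit 76) (nat_lit 10966796365) (nat_lit 152) (nat_lit 570452934) (nat_lit 22) (nat_lit 5) (nat_lit 23) (nat_lit 5) (nat_lit 24) (nat_lit 4) (nat_lit 428) (nat_lit 321) (nat_lit 271)) (XT.lf (nat_lit 0) (nat_lit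 2134231859) (nat_lit 684) (nat_lit 897938158) (nat_lit 684) (nat_lit 897938158) (nat_lit 305) (nat_lit 4) (nat_lit 314) (nat_lit 5) (nat_lit 314) (nat_lit 4) (nat_lit 376) (nat_lit 322) (nat_lit 322))))) (XT.nd (nat_lit 234) (nat_lit 1900) (nat_lit 0) (XT.nd (nat_lit 78) (nat_lit 1976) (nat_lit 0) (XT.lf (nat_lit 0) (nat_lit 3847098667) (nat_lit 760) (nat_lit 2136846198) (nat_lit 0) (nat_lit 1958304146) (nat_lit 295) (nat_lit 5) (nat_lit 305) (nat_lit 4) (nat_lit 295) (nat_lit 4) (nat_lit 377) (nat_lit 322) (nat_lit 321)) (XT.nd (nat_lit 78) (nat_lit 1216) (nat_lit 0) (XT.lf (nat_lit 0) (nat_lit 1523658929) (nat_lit 760) (nat_lit 644784573) (nat_lit 76) (nat_lit 5859158275) (nat_lit 285) (nat_lit 5) (nat_lit 295) (nat_lit 5) (nat_lit 286) (nat_lit 4) (nat_lit 378) (nat_lit 322) (nat_lit 320)) (XT.lf (nat_lit 0) (nat_lit 890065162) (nat_lit 608) (nat_lit 6310539751) (nat_lit 608) (nat_lit 915495046)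 (nat_lit 269) (nat_lit 4) (nat_lit 277) (nat_lit 5) (nat_lit 277) (nat_lit 4) (nat_lit 379) (nat_lit 322) (nat_lit 319)))) (XT.nd (nat_lit 78) (nat_lit 1216) (nat_lit 0) (XT.lf (nat_lit 0) (nat_lit 2456905877) (nat_lit 608) (nat_lit 2269120208) (nat_lit 684) (nat_lit 3481649265) (nat_lit 260) (nat_lit 5) (nat_lit 268) (nat_lit 5) (nat_lit 269) (nat_lit 4) (nat_lit 380) (nat_lit 322) (nat_lit 318)) (XT.nd (nat_lit 78) (nat_lit 532) (nat_lit 0) (XT.lf (nat_lit 0) (nat_lit 2138577543) (nat_lit 684) (nat_lit 4243731205) (nat_lit 76) (nat_lit 1920402216) (nat_lit 251) (nat_lit 5) (nat_lit 260) (nat_lit 5) (nat_lit 252) (nat_lit 4) (nat_lit 381) (nat_lit 322) (nat_lit 317)) (XT.lf (nat_lit 0) (nat_lit 5689426339) (nat_lit 532) (nat_lit 2141815038) (nat_lit 608) (nat_lit 569900095) (nat_lit 244) (nat_lit 5) (nat_lit 251) (nat_lit 5) (nat_lit 252) (nat_lit 4) (nat_lit 382) (nat_lit 322) (nat_lit 316))))))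 (XT.nd (nat_lit 390) (nat_lit 3192) (nat_lit 0) (XT.nd (nat_lit 156) (nat_lit 1596) (nat_lit 0) (XT.nd (nat_lit 78) (nat_lit 1140) (nat_lit 0) (XT.lf (nat_lit 0) (nat_lit 5077085451) (nat_lit 684) (nat_lit 1165946518) (nat_lit 76) (nat_lit 2259783735) (nat_lit 235) (nat_lit 5) (nat_lit 244) (nat_lit 5) (nat_lit 236) (nat_lit 4) (nat_lit 383) (nat_lit 322) (nat_lit 315)) (XT.lf (nat_lit 0) (nat_lit 412983508) (nat_lit 532) (nat_lit 1793264969) (nat_lit 608) (nat_lit 6401787622) (nat_lit 220) (nat_lit 5) (nat_lit 227) (nat_lit 5) (nat_lit 228) (nat_lit 5) (nat_lit 384) (nat_lit 322) (nat_lit 314))) (XT.nd (nat_lit 78) (nat_lit 1140) (nat_lit 0) (XT.lf (nat_lit 0) (nat_lit 2025697733) (nat_lit 456) (nat_lit 5904843423) (nat_lit 532) (nat_lit 786044656) (nat_lit 214) (nat_lit 5) (nat_lit 220) (nat_lit 5) (nat_lit 221) (nat_lit 4) (nat_lit 385) (nat_lit 322) (nat_lit 313)) (XT.nd (nat_lit 78) (nat_lit 532)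 (nat_lit 0) (XT.lf (nat_lit 0) (nat_lit 3652110720) (nat_lit 532) (nat_lit 1238246754) (nat_lit 608) (nat_lit 3938253127) (nat_lit 206) (nat_lit 5) (nat_lit 213) (nat_lit 5) (nat_lit 214) (nat_lit 5) (nat_lit 386) (nat_lit 322) (nat_lit 312)) (XT.lf (nat_lit 0) (nat_lit 1730688653) (nat_lit 532) (nat_lit 3649260918) (nat_lit 76) (nat_lit 3564300775) (nat_lit 199) (nat_lit 5) (nat_lit 206) (nat_lit 5) (nat_lit 200) (nat_lit 5) (nat_lit 387) (nat_lit 322) (nat_lit 311))))) (XT.nd (nat_lit 234) (nat_lit 1292) (nat_lit 0) (XT.nd (nat_lit 78) (nat_lit 1444) (nat_lit 0) (XT.lf (nat_lit 0) (nat_lit 6958375463) (nat_lit 456) (nat_lit 517117868) (nat_lit 532) (nat_lit 1588180006) (nat_lit 193) (nat_lit 5) (nat_lit 199) (nat_lit 5) (nat_lit 200) (nat_lit 5) (nat_lit 388) (nat_lit 322) (nat_lit 310)) (XT.nd (nat_lit 78) (nat_lit 912) (nat_lit 0) (XT.lf (nat_lit 0) (nat_lit 4133301660) (nat_lit 532) (nat_lit 568184701)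 (nat_lit 76) (nat_lit 4485016183) (nat_lit 186) (nat_lit 5) (nat_lit 193) (nat_lit 5) (nat_lit 187) (nat_lit 5) (nat_lit 389) (nat_lit 322) (nat_lit 309)) (XT.lf (nat_lit 0) (nat_lit 650649445) (nat_lit 456) (nat_lit 8304230528) (nat_lit 76) (nat_lit 358501943) (nat_lit 174) (nat_lit 5) (nat_lit 180) (nat_lit 5) (nat_lit 175) (nat_lit 5) (nat_lit 390) (nat_lit 322) (nat_lit 308)))) (XT.nd (nat_lit 78) (nat_lit 836) (nat_lit 0) (XT.lf (nat_lit 0) (nat_lit 2574826068) (nat_lit 456) (nat_lit 3875354731) (nat_lit 532) (nat_lit 2993372661) (nat_lit 168) (nat_lit 5) (nat_lit 174) (nat_lit 5) (nat_lit 175) (nat_lit 5) (nat_lit 391) (nat_lit 322) (nat_lit 307)) (XT.nd (nat_lit 78) (nat_lit 380) (nat_lit 0) (XT.lf (nat_lit 0) (nat_lit 2777325174) (nat_lit 456) (nat_lit 5420511691) (nat_lit 76) (nat_lit 1380069360) (nat_lit 162) (nat_lit 5) (nat_lit 168) (nat_lit 5) (nat_lit 163) (nat_lit 5) (nat_lit 392) (nat_lit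 322) (nat_lit 306)) (XT.lf (nat_lit 0) (nat_lit 5736369309) (nat_lit 380) (nat_lit 2932183409) (nat_lit 456) (nat_lit 1047596409) (nat_lit 157) (nat_lit 5) (nat_lit 162) (nat_lit 5) (nat_lit 163) (nat_lit 5) (nat_lit 393) (nat_lit 322) (nat_lit 305))))))))
noncomputable def xc16 : XT := (XT.nd (nat_lit 1716) (nat_lit 2432) (nat_lit 0) (XT.nd (nat_lit 858) (nat_lit 3192) (nat_lit 0) (XT.nd (nat_lit 390) (nat_lit 2128) (nat_lit 0) (XT.nd (nat_lit 156) (nat_lit 1520) (nat_lit 0) (XT.nd (nat_lit 78) (nat_lit 456) (nat_lit 0) (XT.lf (nat_lit 0) (nat_lit 4794458739) (nat_lit 456) (nat_lit 2550873420) (nat_lit 76) (nat_lit 2512980613) (nat_lit 151) (nat_lit 5) (nat_lit 157) (nat_lit 5) (nat_lit 152) (nat_lit 5) (nat_lit 394) (nat_lit 322) (nat_lit 304)) (XT.lf (nat_lit 0) (nat_lit 768312122) (nat_lit 456) (nat_lit 1119778674) (nat_lit 76) (nat_lit 8116708876) (nat_lit 145) (nat_lit 5) (nat_lit 151) (nat_lit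 5) (nat_lit 146) (nat_lit 5) (nat_lit 395) (nat_lit 322) (nat_lit 303))) (XT.nd (nat_lit 78) (nat_lit 760) (nat_lit 0) (XT.lf (nat_lit 0) (nat_lit 288593942) (nat_lit 380) (nat_lit 6413093547) (nat_lit 456) (nat_lit 3453438199) (nat_lit 135) (nat_lit 5) (nat_lit 140) (nat_lit 5) (nat_lit 141) (nat_lit 5) (nat_lit 396) (nat_lit 322) (nat_lit 302)) (XT.nd (nat_lit 78) (nat_lit 380) (nat_lit 0) (XT.lf (nat_lit 0) (nat_lit 1712098060) (nat_lit 304) (nat_lit 748278224) (nat_lit 380) (nat_lit 7849472200) (nat_lit 130) (nat_lit 5) (nat_lit 134) (nat_lit 5) (nat_lit 135) (nat_lit 5) (nat_lit 397) (nat_lit 322) (nat_lit 301)) (XT.lf (nat_lit 0) (nat_lit 3105851804) (nat_lit 380) (nat_lit 5404084179) (nat_lit 456) (nat_lit 1958729118) (nat_lit 125) (nat_lit 5) (nat_lit 130) (nat_lit 5) (nat_lit 131) (nat_lit 5) (nat_lit 398) (nat_lit 322) (nat_lit 300))))) (XT.nd (nat_lit 234) (nat_lit 1064) (nat_lit 0) (XT.nd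 (nat_lit 78) (nat_lit 684) (nat_lit 0) (XT.lf (nat_lit 0) (nat_lit 4036558852) (nat_lit 380) (nat_lit 6143248860) (nat_lit 76) (nat_lit 452283795) (nat_lit 120) (nat_lit 5) (nat_lit 125) (nat_lit 5) (nat_lit 121) (nat_lit 5) (nat_lit 399) (nat_lit 322) (nat_lit 299)) (XT.nd (nat_lit 78) (nat_lit 380) (nat_lit 0) (XT.lf (nat_lit 0) (nat_lit 5843482846) (nat_lit 304) (nat_lit 4353706634) (nat_lit 380) (nat_lit 602743005) (nat_lit 116) (nat_lit 5) (nat_lit 120) (nat_lit 5) (nat_lit 121) (nat_lit 5) (nat_lit 400) (nat_lit 322) (nat_lit 298)) (XT.lf (nat_lit 0) (nat_lit 5485394163) (nat_lit 380) (nat_lit 3803507895) (nat_lit 76) (nat_lit 1683423136) (nat_lit 111) (nat_lit 5) (nat_lit 116) (nat_lit 5) (nat_lit 112) (nat_lit 5) (nat_lit 401) (nat_lit 322) (nat_lit 297)))) (XT.nd (nat_lit 78) (nat_lit 684) (nat_lit 0) (XT.lf (nat_lit 0) (nat_lit 599040584) (nat_lit 380) (nat_lit 2677709121) (nat_lit 76) (nat_lit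 7872819884) (nat_lit 106) (nat_lit 5) (nat_lit 111) (nat_lit 5) (nat_lit 107) (nat_lit 5) (nat_lit 402) (nat_lit 322) (nat_lit 296)) (XT.nd (nat_lit 78) (nat_lit 380) (nat_lit 0) (XT.lf (nat_lit 0) (nat_lit 6794021163) (nat_lit 380) (nat_lit 1601091012) (nat_lit 76) (nat_lit 2936285364) (nat_lit 102) (nat_lit 5) (nat_lit 107) (nat_lit 5) (nat_lit 103) (nat_lit 5) (nat_lit 403) (nat_lit 322) (nat_lit 295)) (XT.lf (nat_lit 0) (nat_lit 1639466934) (nat_lit 380) (nat_lit 554326245) (nat_lit 76) (nat_lit 9324582326) (nat_lit 97) (nat_lit 5) (nat_lit 102) (nat_lit 5) (nat_lit 98) (nat_lit 5) (nat_lit 404) (nat_lit 322) (nat_lit 294)))))) (XT.nd (nat_lit 390) (nat_lit 1520) (nat_lit 0) (XT.nd (nat_lit 156) (nat_lit 836) (nat_lit 0) (XT.nd (nat_lit 78) (nat_lit 304) (nat_lit 0) (XT.lf (nat_lit 0) (nat_lit 439751217) (nat_lit 304) (nat_lit 7515786962) (nat_lit 380) (nat_lit 3754523704) (nat_lit 90) (nat_lit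 5) (nat_lit 94) (nat_lit 5) (nat_lit 95) (nat_lit 5) (nat_lit 405) (nat_lit 322) (nat_lit 293)) (XT.lf (nat_lit 0) (nat_lit 1404562008) (nat_lit 228) (nat_lit 1120035363) (nat_lit 304) (nat_lit 9382489754) (nat_lit 86) (nat_lit 5) (nat_lit 89) (nat_lit 5) (nat_lit 90) (nat_lit 5) (nat_lit 406) (nat_lit 322) (nat_lit 292))) (XT.nd (nat_lit 78) (nat_lit 532) (nat_lit 0) (XT.lf (nat_lit 0) (nat_lit 2298911993) (nat_lit 304) (nat_lit 6665748441) (nat_lit 380) (nat_lit 3144404278) (nat_lit 82) (nat_lit 5) (nat_lit 86) (nat_lit 5) (nat_lit 87) (nat_lit 5) (nat_lit 407) (nat_lit 322) (nat_lit 291)) (XT.nd (nat_lit 78) (nat_lit 228) (nat_lit 0) (XT.lf (nat_lit 0) (nat_lit 3150422800) (nat_lit 228) (nat_lit 84164316) (nat_lit 304) (nat_lit 9082161680) (nat_lit 78) (nat_lit 5) (nat_lit 81) (nat_lit 5) (nat_lit 82) (nat_lit 5) (nat_lit 408) (nat_lit 322) (nat_lit 290)) (XT.lf (nat_lit 0) (nat_lit 3918366555)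 (nat_lit 228) (nat_lit 5878562562) (nat_lit 304) (nat_lit 2732633345) (nat_lit 75) (nat_lit 5) (nat_lit 78) (nat_lit 5) (nat_lit 79) (nat_lit 5) (nat_lit 409) (nat_lit 322) (nat_lit 289))))) (XT.nd (nat_lit 234) (nat_lit 684) (nat_lit 0) (XT.nd (nat_lit 78) (nat_lit 532) (nat_lit 0) (XT.lf (nat_lit 0) (nat_lit 3756214030) (nat_lit 304) (nat_lit 8116883642) (nat_lit 76) (nat_lit 875201459) (nat_lit 71) (nat_lit 5) (nat_lit 75) (nat_lit 5) (nat_lit 72) (nat_lit 5) (nat_lit 410) (nat_lit 322) (nat_lit 288)) (XT.nd (nat_lit 78) (nat_lit 304) (nat_lit 0) (XT.lf (nat_lit 0) (nat_lit 5257600268) (nat_lit 228) (nat_lit 5178579996) (nat_lit 304) (nat_lit 2536392901) (nat_lit 68) (nat_lit 5) (nat_lit 71) (nat_lit 5) (nat_lit 72) (nat_lit 5) (nat_lit 411) (nat_lit 322) (nat_lit 287)) (XT.lf (nat_lit 0) (nat_lit 4065999737) (nat_lit 304) (nat_lit 7392046627) (nat_lit 76) (nat_lit 1744863248) (nat_lit 64) (nat_lit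 5) (nat_lit 68) (nat_lit 5) (nat_lit 65) (nat_lit 5) (nat_lit 412) (nat_lit 322) (nat_lit 286)))) (XT.nd (nat_lit 78) (nat_lit 456) (nat_lit 0) (XT.lf (nat_lit 0) (nat_lit 6271877469) (nat_lit 228) (nat_lit 4591936250) (nat_lit 304) (nat_lit 2575378427) (nat_lit 61) (nat_lit 5) (nat_lit 64) (nat_lit 5) (nat_lit 65) (nat_lit 5) (nat_lit 413) (nat_lit 322) (nat_lit 285)) (XT.nd (nat_lit 78) (nat_lit 228) (nat_lit 0) (XT.lf (nat_lit 0) (nat_lit 4142979175) (nat_lit 228) (nat_lit 7039279162) (nat_lit 76) (nat_lit 2499471952) (nat_lit 58) (nat_lit 5) (nat_lit 61) (nat_lit 5) (nat_lit 59) (nat_lit 5) (nat_lit 414) (nat_lit 322) (nat_lit 284)) (XT.lf (nat_lit 0) (nat_lit 6911743598) (nat_lit 228) (nat_lit 4146827904) (nat_lit 304) (nat_lit 2872026064) (nat_lit 55) (nat_lit 5) (nat_lit 58) (nat_lit 5) (nat_lit 59) (nat_lit 5) (nat_lit 415) (nat_lit 322) (nat_lit 283))))))) (XT.nd (nat_lit 858) (nat_lit 228)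 (nat_lit 0) (XT.nd (nat_lit 390) (nat_lit 1064) (nat_lit 0) (XT.nd (nat_lit 156) (nat_lit 684) (nat_lit 0) (XT.nd (nat_lit 78) (nat_lit 228) (nat_lit 0) (XT.lf (nat_lit 0) (nat_lit 3963924054) (nat_lit 228) (nat_lit 7111647303) (nat_lit 76) (nat_lit 3110415076) (nat_lit 52) (nat_lit 5) (nat_lit 55) (nat_lit 5) (nat_lit 53) (nat_lit 5) (nat_lit 416) (nat_lit 322) (nat_lit 282)) (XT.lf (nat_lit 0) (nat_lit 7122478066) (nat_lit 228) (nat_lit 3873811774) (nat_lit 304) (nat_lit 3451766706) (nat_lit 49) (nat_lit 5) (nat_lit 52) (nat_lit 5) (nat_lit 53) (nat_lit 5) (nat_lit 417) (nat_lit 322) (nat_lit 281))) (XT.nd (nat_lit 78) (nat_lit 456) (nat_lit 0) (XT.lf (nat_lit 0) (nat_lit 3502531873) (nat_lit 228) (nat_lit 7667850804) (nat_lit 76) (nat_lit 3546613257) (nat_lit 46) (nat_lit 5) (nat_lit 49) (nat_lit 5) (nat_lit 47) (nat_lit 5) (nat_lit 418) (nat_lit 322) (nat_lit 280)) (XT.nd (nat_lit 78) (nat_lit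 228) (nat_lit 0) (XT.lf (nat_lit 0) (nat_lit 6843492475) (nat_lit 228) (nat_lit 3806129853) (nat_lit 304) (nat_lit 4343309585) (nat_lit 43) (nat_lit 5) (nat_lit 46) (nat_lit 5) (nat_lit 47) (nat_lit 5) (nat_lit 419) (nat_lit 322) (nat_lit 279)) (XT.lf (nat_lit 0) (nat_lit 2729130940) (nat_lit 228) (nat_lit 8772859411) (nat_lit 76) (nat_lit 3774186068) (nat_lit 40) (nat_lit 5) (nat_lit 43) (nat_lit 5) (nat_lit 41) (nat_lit 5) (nat_lit 420) (nat_lit 322) (nat_lit 278))))) (XT.nd (nat_lit 234) (nat_lit 532) (nat_lit 0) (XT.nd (nat_lit 78) (nat_lit 380) (nat_lit 0) (XT.lf (nat_lit 0) (nat_lit 6007668262) (nat_lit 152) (nat_lit 3980063175) (nat_lit 228) (nat_lit 5578958194) (nat_lit 38) (nat_lit 5) (nat_lit 40) (nat_lit 5) (nat_lit 41) (nat_lit 5) (nat_lit 421) (nat_lit 322) (nat_lit 277)) (XT.nd (nat_lit 78) (nat_lit 152) (nat_lit 0) (XT.lf (nat_lit 0) (nat_lit 1610351988) (nat_lit 228) (nat_lit 10498613432)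 (nat_lit 76) (nat_lit 3756087679) (nat_lit 35) (nat_lit 5) (nat_lit 38) (nat_lit 5) (nat_lit 36) (nat_lit 5) (nat_lit 422) (nat_lit 322) (nat_lit 276)) (XT.lf (nat_lit 0) (nat_lit 4540627250) (nat_lit 152) (nat_lit 4435317999) (nat_lit 228) (nat_lit 7194961732) (nat_lit 33) (nat_lit 5) (nat_lit 35) (nat_lit 5) (nat_lit 36) (nat_lit 5) (nat_lit 423) (nat_lit 322) (nat_lit 275)))) (XT.nd (nat_lit 78) (nat_lit 304) (nat_lit 0) (XT.lf (nat_lit 0) (nat_lit 108763086) (nat_lit 228) (nat_lit 12924795450) (nat_lit 76) (nat_lit 3451708856) (nat_lit 30) (nat_lit 5) (nat_lit 33) (nat_lit 5) (nat_lit 31) (nat_lit 5) (nat_lit 424) (nat_lit 322) (nat_lit 274)) (XT.nd (nat_lit 78) (nat_lit 152) (nat_lit 0) (XT.lf (nat_lit 0) (nat_lit 2359927913) (nat_lit 152) (nat_lit 5215448069) (nat_lit 228) (nat_lit 9231905569) (nat_lit 28) (nat_lit 5) (nat_lit 30) (nat_lit 5) (nat_lit 31) (nat_lit 5) (nat_lit 425) (nat_lit 322)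 (nat_lit 273)) (XT.lf (nat_lit 0) (nat_lit 986709009) (nat_lit 152) (nat_lit 14309948363) (nat_lit 228) (nat_lit 1841689890) (nat_lit 26) (nat_lit 5) (nat_lit 28) (nat_lit 5) (nat_lit 29) (nat_lit 4) (nat_lit 426) (nat_lit 322) (nat_lit 272)))))) (XT.nd (nat_lit 49218) (nat_lit 0) (nat_lit 16720) (XT.nd (nat_lit 48984) (nat_lit 0) (nat_lit 21356) (XT.nd (nat_lit 78) (nat_lit 152) (nat_lit 0) (XT.lf (nat_lit 0) (nat_lit 5746559736) (nat_lit 228) (nat_lit 617612811) (nat_lit 76) (nat_lit 11113387321) (nat_lit 25) (nat_lit 5) (nat_lit 28) (nat_lit 5) (nat_lit 26) (nat_lit 5) (nat_lit 427) (nat_lit 322) (nat_lit 271)) (XT.lf (nat_lit 0) (nat_lit 13570834179) (nat_lit 228) (nat_lit 2410415795) (nat_lit 76) (nat_lit 1844791620) (nat_lit 23) (nat_lit 5) (nat_lit 26) (nat_lit 5) (nat_lit 24) (nat_lit 4) (nat_lit 428) (nat_lit 322) (nat_lit 270))) (XT.nd (nat_lit 78) (nat_lit 1520) (nat_lit 0) (XT.lf (nat_lit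 0) (nat_lit 696523538) (nat_lit 760) (nat_lit 1577773383) (nat_lit 760) (nat_lit 1577773383) (nat_lit 324) (nat_lit 4) (nat_lit 334) (nat_lit 5) (nat_lit 334) (nat_lit 4) (nat_lit 374) (nat_lit 323) (nat_lit 323)) (XT.nd (nat_lit 78) (nat_lit 760) (nat_lit 0) (XT.lf (nat_lit 0) (nat_lit 2376685231) (nat_lit 760) (nat_lit 5012383867) (nat_lit 0) (nat_lit 392317707) (nat_lit 314) (nat_lit 5) (nat_lit 324) (nat_lit 4) (nat_lit 314) (nat_lit 4) (nat_lit 375) (nat_lit 323) (nat_lit 322)) (XT.lf (nat_lit 0) (nat_lit 111702716) (nat_lit 760) (nat_lit 3685298448) (nat_lit 76) (nat_lit 4064693246) (nat_lit 304) (nat_lit 5) (nat_lit 314) (nat_lit 5) (nat_lit 305) (nat_lit 4) (nat_lit 376) (nat_lit 323) (nat_lit 321))))) (XT.nd (nat_lit 234) (nat_lit 1900) (nat_lit 0) (XT.nd (nat_lit 78) (nat_lit 2052) (nat_lit 0) (XT.lf (nat_lit 0) (nat_lit 5621115912) (nat_lit 684) (nat_lit 23691294) (nat_lit 760) (nat_lit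 2300428741) (nat_lit 295) (nat_lit 5) (nat_lit 304) (nat_lit 5) (nat_lit 305) (nat_lit 4) (nat_lit 377) (nat_lit 323) (nat_lit 320)) (XT.nd (nat_lit 78) (nat_lit 1292) (nat_lit 0) (XT.lf (nat_lit 0) (nat_lit 3221635365) (nat_lit 760) (nat_lit 940700519) (nat_lit 76) (nat_lit 3869498897) (nat_lit 285) (nat_lit 5) (nat_lit 295) (nat_lit 5) (nat_lit 286) (nat_lit 4) (nat_lit 378) (nat_lit 323) (nat_lit 319)) (XT.lf (nat_lit 0) (nat_lit 496582193) (nat_lit 608) (nat_lit 184200762) (nat_lit 684) (nat_lit 7441208376) (nat_lit 268) (nat_lit 5) (nat_lit 276) (nat_lit 5) (nat_lit 277) (nat_lit 5) (nat_lit 379) (nat_lit 323) (nat_lit 318)))) (XT.nd (nat_lit 78) (nat_lit 1292) (nat_lit 0) (XT.lf (nat_lit 0) (nat_lit 1955295869) (nat_lit 608) (nat_lit 4281109568) (nat_lit 684) (nat_lit 1978534080) (nat_lit 260) (nat_lit 5) (nat_lit 268) (nat_lit 5) (nat_lit 269) (nat_lit 4) (nat_lit 380) (nat_lit 323) (nat_lit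 317)) (XT.nd (nat_lit 78) (nat_lit 608) (nat_lit 0) (XT.lf (nat_lit 0) (nat_lit 3454783107) (nat_lit 608) (nat_lit 82094483) (nat_lit 684) (nat_lit 4774617562) (nat_lit 251) (nat_lit 5) (nat_lit 259) (nat_lit 5) (nat_lit 260) (nat_lit 5) (nat_lit 381) (nat_lit 323) (nat_lit 316)) (XT.lf (nat_lit 0) (nat_lit 736033845) (nat_lit 608) (nat_lit 3438688503) (nat_lit 76) (nat_lit 4236566070) (nat_lit 243) (nat_lit 5) (nat_lit 251) (nat_lit 5) (nat_lit 244) (nat_lit 5) (nat_lit 382) (nat_lit 323) (nat_lit 315))))))))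
noncomputable def xc17 : XT := (XT.nd (nat_lit 1716) (nat_lit 5244) (nat_lit 0) (XT.nd (nat_lit 858) (nat_lit 4560) (nat_lit 0) (XT.nd (nat_lit 390) (nat_lit 3192) (nat_lit 0) (XT.nd (nat_lit 156) (nat_lit 2128) (nat_lit 0) (XT.nd (nat_lit 78) (nat_lit 608) (nat_lit 0) (XT.lf (nat_lit 0) (nat_lit 6290535129) (nat_lit 684) (nat_lit 1995210608) (nat_lit 76) (nat_lit 228855281) (nat_lit 235) (nat_lit 5) (nat_lit 244) (nat_lit 5) (nat_lit 236) (nat_lit 4) (nat_lit 383) (nat_lit 323) (nat_lit 314)) (XT.lf (nat_lit 0) (nat_lit 3317901008) (nat_lit 608) (nat_lit 543693716) (nat_lit 76) (nat_lit 4759567274) (nat_lit 227) (nat_lit 5) (nat_lit 235) (nat_lit 5) (nat_lit 228) (nat_lit 5) (nat_lit 384) (nat_lit 323) (nat_lit 313))) (XT.nd (nat_lit 78) (nat_lit 1064) (nat_lit 0) (XT.lf (nat_lit 0) (nat_lit 218915969) (nat_lit 532) (nat_lit 7775883195) (nat_lit 76) (nat_lit 736672352) (nat_lit 213) (nat_lit 5) (nat_lit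 220) (nat_lit 5) (nat_lit 214) (nat_lit 5) (nat_lit 385) (nat_lit 323) (nat_lit 312)) (XT.nd (nat_lit 78) (nat_lit 532) (nat_lit 0) (XT.lf (nat_lit 0) (nat_lit 2455961276) (nat_lit 532) (nat_lit 3357258587) (nat_lit 608) (nat_lit 3031620862) (nat_lit 206) (nat_lit 5) (nat_lit 213) (nat_lit 5) (nat_lit 214) (nat_lit 5) (nat_lit 386) (nat_lit 323) (nat_lit 311)) (XT.lf (nat_lit 0) (nat_lit 2539715197) (nat_lit 532) (nat_lit 4978265638) (nat_lit 76) (nat_lit 1444106400) (nat_lit 199) (nat_lit 5) (nat_lit 206) (nat_lit 5) (nat_lit 200) (nat_lit 5) (nat_lit 387) (nat_lit 323) (nat_lit 310))))) (XT.nd (nat_lit 234) (nat_lit 1672) (nat_lit 0) (XT.nd (nat_lit 78) (nat_lit 1064) (nat_lit 0) (XT.lf (nat_lit 0) (nat_lit 5521154328) (nat_lit 456) (nat_lit 2691968095) (nat_lit 532) (nat_lit 869825648) (nat_lit 193) (nat_lit 5) (nat_lit 199) (nat_lit 5) (nat_lit 200) (nat_lit 5) (nat_lit 388) (nat_lit 323) (nat_lit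 309)) (XT.nd (nat_lit 78) (nat_lit 532) (nat_lit 0) (XT.lf (nat_lit 0) (nat_lit 4756460757) (nat_lit 532) (nat_lit 2144966259) (nat_lit 76) (nat_lit 2305981878) (nat_lit 186) (nat_lit 5) (nat_lit 193) (nat_lit 5) (nat_lit 187) (nat_lit 5) (nat_lit 389) (nat_lit 323) (nat_lit 308)) (XT.lf (nat_lit 0) (nat_lit 1164440686) (nat_lit 532) (nat_lit 714730483) (nat_lit 76) (nat_lit 7456659115) (nat_lit 179) (nat_lit 5) (nat_lit 186) (nat_lit 5) (nat_lit 180) (nat_lit 5) (nat_lit 390) (nat_lit 323) (nat_lit 307)))) (XT.nd (nat_lit 78) (nat_lit 836) (nat_lit 0) (XT.lf (nat_lit 0) (nat_lit 716883230) (nat_lit 456) (nat_lit 6157915267) (nat_lit 532) (nat_lit 2592995507) (nat_lit 168) (nat_lit 5) (nat_lit 174) (nat_lit 5) (nat_lit 175) (nat_lit 5) (nat_lit 391) (nat_lit 323) (nat_lit 306)) (XT.nd (nat_lit 78) (nat_lit 380) (nat_lit 0) (XT.lf (nat_lit 0) (nat_lit 2166414877) (nat_lit 380) (nat_lit 924573266) (nat_lit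 456) (nat_lit 6512744182) (nat_lit 162) (nat_lit 5) (nat_lit 167) (nat_lit 5) (nat_lit 168) (nat_lit 5) (nat_lit 392) (nat_lit 323) (nat_lit 305)) (XT.lf (nat_lit 0) (nat_lit 3608906773) (nat_lit 380) (nat_lit 5295064510) (nat_lit 456) (nat_lit 839576876) (nat_lit 157) (nat_lit 5) (nat_lit 162) (nat_lit 5) (nat_lit 163) (nat_lit 5) (nat_lit 393) (nat_lit 323) (nat_lit 304)))))) (XT.nd (nat_lit 390) (nat_lit 2128) (nat_lit 0) (XT.nd (nat_lit 156) (nat_lit 1520) (nat_lit 0) (XT.nd (nat_lit 78) (nat_lit 456) (nat_lit 0) (XT.lf (nat_lit 0) (nat_lit 4911676401) (nat_lit 456) (nat_lit 4838204008) (nat_lit 76) (nat_lit 137573512) (nat_lit 151) (nat_lit 5) (nat_lit 157) (nat_lit 5) (nat_lit 152) (nat_lit 5) (nat_lit 394) (nat_lit 323) (nat_lit 303)) (XT.lf (nat_lit 0) (nat_lit 782363324) (nat_lit 456) (nat_lit 3556965589) (nat_lit 76) (nat_lit 5696065163) (nat_lit 145) (nat_lit 5) (nat_lit 151) (nat_lit 5)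 (nat_lit 146) (nat_lit 5) (nat_lit 395) (nat_lit 323) (nat_lit 302))) (XT.nd (nat_lit 78) (nat_lit 1140) (nat_lit 0) (XT.lf (nat_lit 0) (nat_lit 6624992186) (nat_lit 456) (nat_lit 2288687498) (nat_lit 76) (nat_lit 1273862414) (nat_lit 140) (nat_lit 5) (nat_lit 146) (nat_lit 5) (nat_lit 141) (nat_lit 5) (nat_lit 396) (nat_lit 323) (nat_lit 301)) (XT.nd (nat_lit 78) (nat_lit 684) (nat_lit 0) (XT.lf (nat_lit 0) (nat_lit 2270315629) (nat_lit 456) (nat_lit 1038297527) (nat_lit 76) (nat_lit 7035320239) (nat_lit 134) (nat_lit 5) (nat_lit 140) (nat_lit 5) (nat_lit 135) (nat_lit 5) (nat_lit 397) (nat_lit 323) (nat_lit 300)) (XT.lf (nat_lit 0) (nat_lit 198168018) (nat_lit 380) (nat_lit 8024085223) (nat_lit 456) (nat_lit 2282455750) (nat_lit 125) (nat_lit 5) (nat_lit 130) (nat_lit 5) (nat_lit 131) (nat_lit 5) (nat_lit 398) (nat_lit 323) (nat_lit 299))))) (XT.nd (nat_lit 234) (nat_lit 1064) (nat_lit 0) (XT.nd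 (nat_lit 78) (nat_lit 684) (nat_lit 0) (XT.lf (nat_lit 0) (nat_lit 1422892690) (nat_lit 304) (nat_lit 2216722934) (nat_lit 380) (nat_lit 7030117280) (nat_lit 120) (nat_lit 5) (nat_lit 124) (nat_lit 5) (nat_lit 125) (nat_lit 5) (nat_lit 399) (nat_lit 323) (nat_lit 298)) (XT.nd (nat_lit 78) (nat_lit 380) (nat_lit 0) (XT.lf (nat_lit 0) (nat_lit 2625516303) (nat_lit 304) (nat_lit 7085707358) (nat_lit 380) (nat_lit 1128136716) (nat_lit 116) (nat_lit 5) (nat_lit 120) (nat_lit 5) (nat_lit 121) (nat_lit 5) (nat_lit 400) (nat_lit 323) (nat_lit 297)) (XT.lf (nat_lit 0) (nat_lit 3795875653) (nat_lit 304) (nat_lit 1084887861) (nat_lit 380) (nat_lit 6132786098) (nat_lit 111) (nat_lit 5) (nat_lit 115) (nat_lit 5) (nat_lit 116) (nat_lit 5) (nat_lit 401) (nat_lit 323) (nat_lit 296)))) (XT.nd (nat_lit 78) (nat_lit 760) (nat_lit 0) (XT.lf (nat_lit 0) (nat_lit 4937031520) (nat_lit 304) (nat_lit 6132674898) (nat_lit 380)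 (nat_lit 122818251) (nat_lit 107) (nat_lit 5) (nat_lit 111) (nat_lit 5) (nat_lit 112) (nat_lit 5) (nat_lit 402) (nat_lit 323) (nat_lit 295)) (XT.nd (nat_lit 78) (nat_lit 380) (nat_lit 0) (XT.lf (nat_lit 0) (nat_lit 5979102674) (nat_lit 380) (nat_lit 5336930065) (nat_lit 76) (nat_lit 60234552) (nat_lit 102) (nat_lit 5) (nat_lit 107) (nat_lit 5) (nat_lit 103) (nat_lit 5) (nat_lit 403) (nat_lit 323) (nat_lit 294)) (XT.lf (nat_lit 0) (nat_lit 714408686) (nat_lit 380) (nat_lit 4465295937) (nat_lit 76) (nat_lit 6385188265) (nat_lit 97) (nat_lit 5) (nat_lit 102) (nat_lit 5) (nat_lit 98) (nat_lit 5) (nat_lit 404) (nat_lit 323) (nat_lit 293))))))) (XT.nd (nat_lit 858) (nat_lit 2052) (nat_lit 0) (XT.nd (nat_lit 390) (nat_lit 1748) (nat_lit 0) (XT.nd (nat_lit 156) (nat_lit 836) (nat_lit 0) (XT.nd (nat_lit 78) (nat_lit 380) (nat_lit 0) (XT.lf (nat_lit 0) (nat_lit 6931274266) (nat_lit 304) (nat_lit 3641713148)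 (nat_lit 76) (nat_lit 1185580876) (nat_lit 94) (nat_lit 5) (nat_lit 98) (nat_lit 5) (nat_lit 95) (nat_lit 5) (nat_lit 405) (nat_lit 323) (nat_lit 292)) (XT.lf (nat_lit 0) (nat_lit 1382202404) (nat_lit 380) (nat_lit 2870150833) (nat_lit 76) (nat_lit 7705058157) (nat_lit 89) (nat_lit 5) (nat_lit 94) (nat_lit 5) (nat_lit 90) (nat_lit 5) (nat_lit 406) (nat_lit 323) (nat_lit 291))) (XT.nd (nat_lit 78) (nat_lit 608) (nat_lit 0) (XT.lf (nat_lit 0) (nat_lit 7718247995) (nat_lit 304) (nat_lit 2158307700) (nat_lit 76) (nat_lit 2284918174) (nat_lit 86) (nat_lit 5) (nat_lit 90) (nat_lit 5) (nat_lit 87) (nat_lit 5) (nat_lit 407) (nat_lit 323) (nat_lit 290)) (XT.nd (nat_lit 78) (nat_lit 228) (nat_lit 0) (XT.lf (nat_lit 0) (nat_lit 1868889845) (nat_lit 380) (nat_lit 1504233239) (nat_lit 76) (nat_lit 8997886045) (nat_lit 81) (nat_lit 5) (nat_lit 86) (nat_lit 5) (nat_lit 82) (nat_lit 5) (nat_lit 408) (nat_lit 323)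 (nat_lit 289)) (XT.lf (nat_lit 0) (nat_lit 8325994925) (nat_lit 304) (nat_lit 923377538) (nat_lit 76) (nat_lit 3336559264) (nat_lit 78) (nat_lit 5) (nat_lit 82) (nat_lit 5) (nat_lit 79) (nat_lit 5) (nat_lit 409) (nat_lit 323) (nat_lit 288))))) (XT.nd (nat_lit 234) (nat_lit 684) (nat_lit 0) (XT.nd (nat_lit 78) (nat_lit 760) (nat_lit 0) (XT.lf (nat_lit 0) (nat_lit 2159044506) (nat_lit 304) (nat_lit 406048328) (nat_lit 76) (nat_lit 10241575818) (nat_lit 74) (nat_lit 5) (nat_lit 78) (nat_lit 5) (nat_lit 75) (nat_lit 5) (nat_lit 410) (nat_lit 323) (nat_lit 287)) (XT.nd (nat_lit 78) (nat_lit 304) (nat_lit 0) (XT.lf (nat_lit 0) (nat_lit 22970971) (nat_lit 228) (nat_lit 8715448072) (nat_lit 304) (nat_lit 4294539353) (nat_lit 68) (nat_lit 5) (nat_lit 71) (nat_lit 5) (nat_lit 72) (nat_lit 5) (nat_lit 411) (nat_lit 323) (nat_lit 286)) (XT.lf (nat_lit 0) (nat_lit 387014451) (nat_lit 228) (nat_lit 1850410783) (nat_lit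 304) (nat_lit 11027971329) (nat_lit 64) (nat_lit 5) (nat_lit 67) (nat_lit 5) (nat_lit 68) (nat_lit 5) (nat_lit 412) (nat_lit 323) (nat_lit 285)))) (XT.nd (nat_lit 78) (nat_lit 456) (nat_lit 0) (XT.lf (nat_lit 0) (nat_lit 643676739) (nat_lit 228) (nat_lit 8296918472) (nat_lit 304) (nat_lit 4562980348) (nat_lit 61) (nat_lit 5) (nat_lit 64) (nat_lit 5) (nat_lit 65) (nat_lit 5) (nat_lit 413) (nat_lit 323) (nat_lit 284)) (XT.nd (nat_lit 78) (nat_lit 228) (nat_lit 0) (XT.lf (nat_lit 0) (nat_lit 823635392) (nat_lit 152) (nat_lit 1257917134) (nat_lit 228) (nat_lit 11666820532) (nat_lit 58) (nat_lit 5) (nat_lit 60) (nat_lit 5) (nat_lit 61) (nat_lit 5) (nat_lit 414) (nat_lit 323) (nat_lit 283)) (XT.lf (nat_lit 0) (nat_lit 876531180) (nat_lit 228) (nat_lit 8028305255) (nat_lit 304) (nat_lit 5094253378) (nat_lit 55) (nat_lit 5) (nat_lit 58) (nat_lit 5) (nat_lit 59) (nat_lit 5) (nat_lit 415) (nat_lit 323) (nat_lit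 282)))))) (XT.nd (nat_lit 390) (nat_lit 1140) (nat_lit 0) (XT.nd (nat_lit 156) (nat_lit 456) (nat_lit 0) (XT.nd (nat_lit 78) (nat_lit 228) (nat_lit 0) (XT.lf (nat_lit 0) (nat_lit 845890043) (nat_lit 152) (nat_lit 819467764) (nat_lit 228) (nat_lit 12591522263) (nat_lit 52) (nat_lit 5) (nat_lit 54) (nat_lit 5) (nat_lit 55) (nat_lit 5) (nat_lit 416) (nat_lit 323) (nat_lit 281)) (XT.lf (nat_lit 0) (nat_lit 666303950) (nat_lit 228) (nat_lit 7940315952) (nat_lit 304) (nat_lit 5914155414) (nat_lit 49) (nat_lit 5) (nat_lit 52) (nat_lit 5) (nat_lit 53) (nat_lit 5) (nat_lit 417) (nat_lit 323) (nat_lit 280))) (XT.nd (nat_lit 78) (nat_lit 228) (nat_lit 0) (XT.lf (nat_lit 0) (nat_lit 395665292) (nat_lit 152) (nat_lit 566715345) (nat_lit 228) (nat_lit 13829857872) (nat_lit 46) (nat_lit 5) (nat_lit 48) (nat_lit 5) (nat_lit 49) (nat_lit 5) (nat_lit 418) (nat_lit 323) (nat_lit 279)) (XT.nd (nat_lit 78) (nat_lit 228)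 (nat_lit 0) (XT.lf (nat_lit 0) (nat_lit 8018546926) (nat_lit 228) (nat_lit 47499238) (nat_lit 76) (nat_lit 7003949633) (nat_lit 46) (nat_lit 5) (nat_lit 49) (nat_lit 5) (nat_lit 47) (nat_lit 5) (nat_lit 419) (nat_lit 323) (nat_lit 278)) (XT.lf (nat_lit 0) (nat_lit 14771821135) (nat_lit 228) (nat_lit 529898000) (nat_lit 304) (nat_lit 54065823) (nat_lit 43) (nat_lit 5) (nat_lit 46) (nat_lit 5) (nat_lit 47) (nat_lit 5) (nat_lit 420) (nat_lit 323) (nat_lit 277))))) (XT.nd (nat_lit 234) (nat_lit 532) (nat_lit 0) (XT.nd (nat_lit 78) (nat_lit 380) (nat_lit 0) (XT.lf (nat_lit 0) (nat_lit 7117135312) (nat_lit 228) (nat_lit 1316954054) (nat_lit 76) (nat_lit 7213980605) (nat_lit 40) (nat_lit 5) (nat_lit 43) (nat_lit 5) (nat_lit 41) (nat_lit 5) (nat_lit 421) (nat_lit 323) (nat_lit 276)) (XT.nd (nat_lit 78) (nat_lit 228) (nat_lit 0) (XT.lf (nat_lit 0) (nat_lit 13781756366) (nat_lit 152) (nat_lit 735620547) (nat_lit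 228) (nat_lit 1431451844) (nat_lit 38) (nat_lit 5) (nat_lit 40) (nat_lit 5) (nat_lit 41) (nat_lit 5) (nat_lit 422) (nat_lit 323) (nat_lit 275)) (XT.lf (nat_lit 0) (nat_lit 5863495063) (nat_lit 228) (nat_lit 3224787576) (nat_lit 76) (nat_lit 7168376695) (nat_lit 35) (nat_lit 5) (nat_lit 38) (nat_lit 5) (nat_lit 36) (nat_lit 5) (nat_lit 423) (nat_lit 323) (nat_lit 274)))) (XT.nd (nat_lit 78) (nat_lit 380) (nat_lit 0) (XT.lf (nat_lit 0) (nat_lit 12142511319) (nat_lit 152) (nat_lit 1233546004) (nat_lit 228) (nat_lit 3197118729) (nat_lit 33) (nat_lit 5) (nat_lit 35) (nat_lit 5) (nat_lit 36) (nat_lit 5) (nat_lit 424) (nat_lit 323) (nat_lit 273)) (XT.nd (nat_lit 78) (nat_lit 152) (nat_lit 0) (XT.lf (nat_lit 0) (nat_lit 4218890724) (nat_lit 228) (nat_lit 5852974502) (nat_lit 76) (nat_lit 6825593056) (nat_lit 30) (nat_lit 5) (nat_lit 33) (nat_lit 5) (nat_lit 31) (nat_lit 5) (nat_lit 425) (nat_lit 323) (nat_lit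 272)) (XT.lf (nat_lit 0) (nat_lit 9769267984) (nat_lit 152) (nat_lit 2068263286) (nat_lit 228) (nat_lit 5393047705) (nat_lit 28) (nat_lit 5) (nat_lit 30) (nat_lit 5) (nat_lit 31) (nat_lit 5) (nat_lit 426) (nat_lit 323) (nat_lit 271))))))))
noncomputable def xc18 : XT := (XT.nd (nat_lit 50388) (nat_lit 0) (nat_lit 3116) (XT.nd (nat_lit 49530) (nat_lit 0) (nat_lit 11476) (XT.nd (nat_lit 49062) (nat_lit 0) (nat_lit 18012) (XT.nd (nat_lit 48828) (nat_lit 0) (nat_lit 22876) (XT.nd (nat_lit 78) (nat_lit 152) (nat_lit 0) (XT.lf (nat_lit 0) (nat_lit 2139996741) (nat_lit 228) (nat_lit 9292350868) (nat_lit 76) (nat_lit 6139942828) (nat_lit 25) (nat_lit 5) (nat_lit 28) (nat_lit 5) (nat_lit 26) (nat_lit 5) (nat_lit 427) (nat_lit 323) (nat_lit 270)) (XT.lf (nat_lit 0) (nat_lit 6567979950) (nat_lit 152) (nat_lit 3288822795) (nat_lit 228) (nat_lit 8066120787) (nat_lit 23) (nat_lit 5) (nat_lit 25) (nat_lit 5) (nat_lit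 26) (nat_lit 5) (nat_lit 428) (nat_lit 323) (nat_lit 269))) (XT.nd (nat_lit 78) (nat_lit 2356) (nat_lit 0) (XT.lf (nat_lit 0) (nat_lit 1608403323) (nat_lit 836) (nat_lit 562048313) (nat_lit 0) (nat_lit 1608403323) (nat_lit 355) (nat_lit 5) (nat_lit 366) (nat_lit 4) (nat_lit 355) (nat_lit 4) (nat_lit 372) (nat_lit 324) (nat_lit 324)) (XT.nd (nat_lit 78) (nat_lit 760) (nat_lit 0) (XT.lf (nat_lit 0) (nat_lit 67692411) (nat_lit 760) (nat_lit 1018527619) (nat_lit 836) (nat_lit 6544056614) (nat_lit 334) (nat_lit 5) (nat_lit 344) (nat_lit 5) (nat_lit 345) (nat_lit 4) (nat_lit 373) (nat_lit 324) (nat_lit 323)) (XT.lf (nat_lit 0) (nat_lit 1303850452) (nat_lit 760) (nat_lit 5255311543) (nat_lit 760) (nat_lit 1146480148) (nat_lit 324) (nat_lit 4) (nat_lit 334) (nat_lit 5) (nat_lit 334) (nat_lit 4) (nat_lit 374) (nat_lit 324) (nat_lit 322))))) (XT.nd (nat_lit 234) (nat_lit 2660) (nat_lit 0) (XT.nd (nat_lit 78)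 (nat_lit 1444) (nat_lit 0) (XT.lf (nat_lit 0) (nat_lit 2577771459) (nat_lit 684) (nat_lit 1705250656) (nat_lit 760) (nat_lit 3501149479) (nat_lit 314) (nat_lit 5) (nat_lit 323) (nat_lit 5) (nat_lit 324) (nat_lit 4) (nat_lit 375) (nat_lit 324) (nat_lit 321)) (XT.nd (nat_lit 78) (nat_lit 684) (nat_lit 0) (XT.lf (nat_lit 0) (nat_lit 1905781050) (nat_lit 760) (nat_lit 3975615474) (nat_lit 76) (nat_lit 1984541395) (nat_lit 304) (nat_lit 5) (nat_lit 314) (nat_lit 5) (nat_lit 305) (nat_lit 4) (nat_lit 376) (nat_lit 324) (nat_lit 320)) (XT.lf (nat_lit 0) (nat_lit 5238761902) (nat_lit 684) (nat_lit 2127590814) (nat_lit 760) (nat_lit 584592672) (nat_lit 295) (nat_lit 5) (nat_lit 304) (nat_lit 5) (nat_lit 305) (nat_lit 4) (nat_lit 377) (nat_lit 324) (nat_lit 319)))) (XT.nd (nat_lit 78) (nat_lit 1900) (nat_lit 0) (XT.lf (nat_lit 0) (nat_lit 4829016681) (nat_lit 760) (nat_lit 1426126919) (nat_lit 76) (nat_lit 1783911379)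 (nat_lit 285) (nat_lit 5) (nat_lit 295) (nat_lit 5) (nat_lit 286) (nat_lit 4) (nat_lit 378) (nat_lit 324) (nat_lit 318)) (XT.nd (nat_lit 78) (nat_lit 1216) (nat_lit 0) (XT.lf (nat_lit 0) (nat_lit 2184793788) (nat_lit 684) (nat_lit 107925559) (nat_lit 76) (nat_lit 5837801515) (nat_lit 276) (nat_lit 5) (nat_lit 285) (nat_lit 5) (nat_lit 277) (nat_lit 5) (nat_lit 379) (nat_lit 324) (nat_lit 317)) (XT.lf (nat_lit 0) (nat_lit 1257086492) (nat_lit 608) (nat_lit 6396975366) (nat_lit 684) (nat_lit 571147715) (nat_lit 260) (nat_lit 5) (nat_lit 268) (nat_lit 5) (nat_lit 269) (nat_lit 4) (nat_lit 380) (nat_lit 324) (nat_lit 316)))))) (XT.nd (nat_lit 390) (nat_lit 3420) (nat_lit 0) (XT.nd (nat_lit 156) (nat_lit 1824) (nat_lit 0) (XT.nd (nat_lit 78) (nat_lit 608) (nat_lit 0) (XT.lf (nat_lit 0) (nat_lit 2638738165) (nat_lit 608) (nat_lit 2215302591) (nat_lit 684) (nat_lit 3468989788) (nat_lit 251) (nat_lit 5) (nat_lit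 259) (nat_lit 5) (nat_lit 260) (nat_lit 5) (nat_lit 381) (nat_lit 324) (nat_lit 315)) (XT.lf (nat_lit 0) (nat_lit 1938954761) (nat_lit 608) (nat_lit 4373035685) (nat_lit 76) (nat_lit 2112387665) (nat_lit 243) (nat_lit 5) (nat_lit 251) (nat_lit 5) (nat_lit 244) (nat_lit 5) (nat_lit 382) (nat_lit 324) (nat_lit 314))) (XT.nd (nat_lit 78) (nat_lit 1216) (nat_lit 0) (XT.lf (nat_lit 0) (nat_lit 5486080851) (nat_lit 608) (nat_lit 1934827898) (nat_lit 684) (nat_lit 1108244727) (nat_lit 235) (nat_lit 5) (nat_lit 243) (nat_lit 5) (nat_lit 244) (nat_lit 5) (nat_lit 383) (nat_lit 324) (nat_lit 313)) (XT.nd (nat_lit 78) (nat_lit 608) (nat_lit 0) (XT.lf (nat_lit 0) (nat_lit 4335432313) (nat_lit 608) (nat_lit 1703464722) (nat_lit 76) (nat_lit 2598356889) (nat_lit 227) (nat_lit 5) (nat_lit 235) (nat_lit 5) (nat_lit 228) (nat_lit 5) (nat_lit 384) (nat_lit 324) (nat_lit 312)) (XT.lf (nat_lit 0) (nat_lit 1125179027)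 (nat_lit 608) (nat_lit 338015140) (nat_lit 76) (nat_lit 7285890790) (nat_lit 219) (nat_lit 5) (nat_lit 227) (nat_lit 5) (nat_lit 220) (nat_lit 5) (nat_lit 385) (nat_lit 324) (nat_lit 311))))) (XT.nd (nat_lit 234) (nat_lit 1444) (nat_lit 0) (XT.nd (nat_lit 78) (nat_lit 988) (nat_lit 0) (XT.lf (nat_lit 0) (nat_lit 1043466329) (nat_lit 532) (nat_lit 5592949023) (nat_lit 608) (nat_lit 2227710561) (nat_lit 206) (nat_lit 5) (nat_lit 213) (nat_lit 5) (nat_lit 214) (nat_lit 5) (nat_lit 386) (nat_lit 324) (nat_lit 310)) (XT.nd (nat_lit 78) (nat_lit 456) (nat_lit 0) (XT.lf (nat_lit 0) (nat_lit 2449125096) (nat_lit 456) (nat_lit 803107648) (nat_lit 532) (nat_lit 5730662171) (nat_lit 199) (nat_lit 5) (nat_lit 205) (nat_lit 5) (nat_lit 206) (nat_lit 5) (nat_lit 387) (nat_lit 324) (nat_lit 309)) (XT.lf (nat_lit 0) (nat_lit 3862344789) (nat_lit 456) (nat_lit 4987052471) (nat_lit 532) (nat_lit 255892952) (nat_lit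 193) (nat_lit 5) (nat_lit 199) (nat_lit 5) (nat_lit 200) (nat_lit 5) (nat_lit 388) (nat_lit 324) (nat_lit 308)))) (XT.nd (nat_lit 78) (nat_lit 912) (nat_lit 0) (XT.lf (nat_lit 0) (nat_lit 5276105324) (nat_lit 532) (nat_lit 3948367752) (nat_lit 76) (nat_lit 6932108) (nat_lit 186) (nat_lit 5) (nat_lit 193) (nat_lit 5) (nat_lit 187) (nat_lit 5) (nat_lit 389) (nat_lit 324) (nat_lit 307)) (XT.nd (nat_lit 78) (nat_lit 380) (nat_lit 0) (XT.lf (nat_lit 0) (nat_lit 1582233422) (nat_lit 532) (nat_lit 2657169719) (nat_lit 76) (nat_lit 5121794876) (nat_lit 179) (nat_lit 5) (nat_lit 186) (nat_lit 5) (nat_lit 180) (nat_lit 5) (nat_lit 390) (nat_lit 324) (nat_lit 306)) (XT.lf (nat_lit 0) (nat_lit 7201325030) (nat_lit 456) (nat_lit 1358253417) (nat_lit 76) (nat_lit 935417065) (nat_lit 174) (nat_lit 5) (nat_lit 180) (nat_lit 5) (nat_lit 175) (nat_lit 5) (nat_lit 391) (nat_lit 324) (nat_lit 305))))))) (XT.nd (nat_lit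 858) (nat_lit 3268) (nat_lit 0) (XT.nd (nat_lit 390) (nat_lit 2508) (nat_lit 0) (XT.nd (nat_lit 156) (nat_lit 1292) (nat_lit 0) (XT.nd (nat_lit 78) (nat_lit 760) (nat_lit 0) (XT.lf (nat_lit 0) (nat_lit 3305659742) (nat_lit 532) (nat_lit 71075100) (nat_lit 76) (nat_lit 6255782720) (nat_lit 167) (nat_lit 5) (nat_lit 174) (nat_lit 5) (nat_lit 168) (nat_lit 5) (nat_lit 392) (nat_lit 324) (nat_lit 304)) (XT.lf (nat_lit 0) (nat_lit 1240365475) (nat_lit 380) (nat_lit 7789780750) (nat_lit 456) (nat_lit 743964915) (nat_lit 157) (nat_lit 5) (nat_lit 162) (nat_lit 5) (nat_lit 163) (nat_lit 5) (nat_lit 393) (nat_lit 324) (nat_lit 303))) (XT.nd (nat_lit 78) (nat_lit 836) (nat_lit 0) (XT.lf (nat_lit 0) (nat_lit 2531894271) (nat_lit 380) (nat_lit 2400883901) (nat_lit 456) (nat_lit 4986698872) (nat_lit 151) (nat_lit 5) (nat_lit 156) (nat_lit 5) (nat_lit 157) (nat_lit 5) (nat_lit 394) (nat_lit 324) (nat_lit 302)) (XT.nd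 (nat_lit 78) (nat_lit 380) (nat_lit 0) (XT.lf (nat_lit 0) (nat_lit 683072719) (nat_lit 456) (nat_lit 6243749213) (nat_lit 76) (nat_lit 3142374010) (nat_lit 145) (nat_lit 5) (nat_lit 151) (nat_lit 5) (nat_lit 146) (nat_lit 5) (nat_lit 395) (nat_lit 324) (nat_lit 301)) (XT.lf (nat_lit 0) (nat_lit 5099387262) (nat_lit 380) (nat_lit 1345293354) (nat_lit 456) (nat_lit 3778290635) (nat_lit 140) (nat_lit 5) (nat_lit 145) (nat_lit 5) (nat_lit 146) (nat_lit 5) (nat_lit 396) (nat_lit 324) (nat_lit 300))))) (XT.nd (nat_lit 234) (nat_lit 1292) (nat_lit 0) (XT.nd (nat_lit 78) (nat_lit 760) (nat_lit 0) (XT.lf (nat_lit 0) (nat_lit 1975422869) (nat_lit 456) (nat_lit 4022173636) (nat_lit 76) (nat_lit 4383440227) (nat_lit 134) (nat_lit 5) (nat_lit 140) (nat_lit 5) (nat_lit 135) (nat_lit 5) (nat_lit 397) (nat_lit 324) (nat_lit 299)) (XT.nd (nat_lit 78) (nat_lit 456) (nat_lit 0) (XT.lf (nat_lit 0) (nat_lit 7609040574)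 (nat_lit 304) (nat_lit 227657044) (nat_lit 380) (nat_lit 2706934316) (nat_lit 130) (nat_lit 5) (nat_lit 134) (nat_lit 5) (nat_lit 135) (nat_lit 5) (nat_lit 398) (nat_lit 324) (nat_lit 298)) (XT.lf (nat_lit 0) (nat_lit 3137581591) (nat_lit 456) (nat_lit 1887046221) (nat_lit 76) (nat_lit 5685751648) (nat_lit 124) (nat_lit 5) (nat_lit 130) (nat_lit 5) (nat_lit 125) (nat_lit 5) (nat_lit 399) (nat_lit 324) (nat_lit 297)))) (XT.nd (nat_lit 78) (nat_lit 988) (nat_lit 0) (XT.lf (nat_lit 0) (nat_lit 9109243429) (nat_lit 380) (nat_lit 850558580) (nat_lit 76) (nat_lit 922209713) (nat_lit 120) (nat_lit 5) (nat_lit 125) (nat_lit 5) (nat_lit 121) (nat_lit 5) (nat_lit 400) (nat_lit 324) (nat_lit 296)) (XT.nd (nat_lit 78) (nat_lit 304) (nat_lit 0) (XT.lf (nat_lit 0) (nat_lit 138621820) (nat_lit 304) (nat_lit 4025052733) (nat_lit 380) (nat_lit 6894233933) (nat_lit 111) (nat_lit 5) (nat_lit 115) (nat_lit 5) (nat_lit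 116) (nat_lit 5) (nat_lit 401) (nat_lit 324) (nat_lit 295)) (XT.lf (nat_lit 0) (nat_lit 1121639702) (nat_lit 304) (nat_lit 9136346785) (nat_lit 380) (nat_lit 980795095) (nat_lit 107) (nat_lit 5) (nat_lit 111) (nat_lit 5) (nat_lit 112) (nat_lit 5) (nat_lit 402) (nat_lit 324) (nat_lit 294)))))) (XT.nd (nat_lit 390) (nat_lit 1672) (nat_lit 0) (XT.nd (nat_lit 156) (nat_lit 912) (nat_lit 0) (XT.nd (nat_lit 78) (nat_lit 304) (nat_lit 0) (XT.lf (nat_lit 0) (nat_lit 2049169233) (nat_lit 304) (nat_lit 3006748520) (nat_lit 380) (nat_lit 6368252235) (nat_lit 102) (nat_lit 5) (nat_lit 106) (nat_lit 5) (nat_lit 107) (nat_lit 5) (nat_lit 403) (nat_lit 324) (nat_lit 293)) (XT.lf (nat_lit 0) (nat_lit 2949744960) (nat_lit 304) (nat_lit 8320039267) (nat_lit 380) (nat_lit 345028780) (nat_lit 98) (nat_lit 5) (nat_lit 102) (nat_lit 5) (nat_lit 103) (nat_lit 5) (nat_lit 404) (nat_lit 324) (nat_lit 292))) (XT.nd (nat_lit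 78) (nat_lit 608) (nat_lit 0) (XT.lf (nat_lit 0) (nat_lit 3789482491) (nat_lit 228) (nat_lit 2002099947) (nat_lit 304) (nat_lit 6018651132) (nat_lit 94) (nat_lit 5) (nat_lit 97) (nat_lit 5) (nat_lit 98) (nat_lit 5) (nat_lit 405) (nat_lit 324) (nat_lit 291)) (XT.nd (nat_lit 78) (nat_lit 228) (nat_lit 0) (XT.lf (nat_lit 0) (nat_lit 115483017) (nat_lit 380) (nat_lit 7420806493) (nat_lit 76) (nat_lit 4474766146) (nat_lit 89) (nat_lit 5) (nat_lit 94) (nat_lit 5) (nat_lit 90) (nat_lit 5) (nat_lit 406) (nat_lit 324) (nat_lit 290)) (XT.lf (nat_lit 0) (nat_lit 5326593782) (nat_lit 228) (nat_lit 1031878409) (nat_lit 304) (nat_lit 5858511475) (nat_lit 86) (nat_lit 5) (nat_lit 89) (nat_lit 5) (nat_lit 90) (nat_lit 5) (nat_lit 407) (nat_lit 324) (nat_lit 289))))) (XT.nd (nat_lit 234) (nat_lit 760) (nat_lit 0) (XT.nd (nat_lit 78) (nat_lit 532) (nat_lit 0) (XT.lf (nat_lit 0) (nat_lit 386398046) (nat_lit 380) (nat_lit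 6420083564) (nat_lit 76) (nat_lit 5621940647) (nat_lit 81) (nat_lit 5) (nat_lit 86) (nat_lit 5) (nat_lit 82) (nat_lit 5) (nat_lit 408) (nat_lit 324) (nat_lit 288)) (XT.nd (nat_lit 78) (nat_lit 304) (nat_lit 0) (XT.lf (nat_lit 0) (nat_lit 6624232857) (nat_lit 228) (nat_lit 118121928) (nat_lit 304) (nat_lit 5903017110) (nat_lit 78) (nat_lit 5) (nat_lit 81) (nat_lit 5) (nat_lit 82) (nat_lit 5) (nat_lit 409) (nat_lit 324) (nat_lit 287)) (XT.lf (nat_lit 0) (nat_lit 456466572) (nat_lit 304) (nat_lit 5699591340) (nat_lit 76) (nat_lit 6711889082) (nat_lit 74) (nat_lit 5) (nat_lit 78) (nat_lit 5) (nat_lit 75) (nat_lit 5) (nat_lit 410) (nat_lit 324) (nat_lit 286)))) (XT.nd (nat_lit 78) (nat_lit 532) (nat_lit 0) (XT.lf (nat_lit 0) (nat_lit 6931435351) (nat_lit 304) (nat_lit 5458646377) (nat_lit 76) (nat_lit 706246888) (nat_lit 71) (nat_lit 5) (nat_lit 75) (nat_lit 5) (nat_lit 72) (nat_lit 5) (nat_lit 411) (nat_lit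 324) (nat_lit 285)) (XT.nd (nat_lit 78) (nat_lit 228) (nat_lit 0) (XT.lf (nat_lit 0) (nat_lit 307583426) (nat_lit 304) (nat_lit 5302248348) (nat_lit 76) (nat_lit 7720861820) (nat_lit 67) (nat_lit 5) (nat_lit 71) (nat_lit 5) (nat_lit 68) (nat_lit 5) (nat_lit 412) (nat_lit 324) (nat_lit 284)) (XT.lf (nat_lit 0) (nat_lit 6902305810) (nat_lit 304) (nat_lit 5243579612) (nat_lit 76) (nat_lit 1425159597) (nat_lit 64) (nat_lit 5) (nat_lit 68) (nat_lit 5) (nat_lit 65) (nat_lit 5) (nat_lit 413) (nat_lit 324) (nat_lit 283))))))))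
noncomputable def xc19 : XT := (XT.nd (nat_lit 50232) (nat_lit 0) (nat_lit 7980) (XT.nd (nat_lit 858) (nat_lit 608) (nat_lit 0) (XT.nd (nat_lit 390) (nat_lit 1216) (nat_lit 0) (XT.nd (nat_lit 156) (nat_lit 684) (nat_lit 0) (XT.nd (nat_lit 78) (nat_lit 228) (nat_lit 0) (XT.lf (nat_lit 0) (nat_lit 8541833556) (nat_lit 228) (nat_lit 5193990845) (nat_lit 304) (nat_lit 81970350) (nat_lit 61) (nat_lit 5) (nat_lit 64) (nat_lit 5) (nat_lit 65) (nat_lit 5) (nat_lit 414) (nat_lit 324) (nat_lit 282)) (XT.lf (nat_lit 0) (nat_lit 6632554681) (nat_lit 228) (nat_lit 5424948271) (nat_lit 76) (nat_lit 2013219090) (nat_lit 58) (nat_lit 5) (nat_lit 61) (nat_lit 5) (nat_lit 59) (nat_lit 5) (nat_lit 415) (nat_lit 324) (nat_lit 281))) (XT.nd (nat_lit 78) (nat_lit 456) (nat_lit 0) (XT.lf (nat_lit 0) (nat_lit 8654117041) (nat_lit 228) (nat_lit 4934179186) (nat_lit 304) (nat_lit 742118535) (nat_lit 55) (nat_lit 5) (nat_lit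 58) (nat_lit 5) (nat_lit 59) (nat_lit 5) (nat_lit 416) (nat_lit 324) (nat_lit 280)) (XT.nd (nat_lit 78) (nat_lit 228) (nat_lit 0) (XT.lf (nat_lit 0) (nat_lit 6097655912) (nat_lit 228) (nat_lit 6057779413) (nat_lit 76) (nat_lit 2441198431) (nat_lit 52) (nat_lit 5) (nat_lit 55) (nat_lit 5) (nat_lit 53) (nat_lit 5) (nat_lit 417) (nat_lit 324) (nat_lit 279)) (XT.lf (nat_lit 0) (nat_lit 8310617721) (nat_lit 228) (nat_lit 4863719955) (nat_lit 304) (nat_lit 1695573458) (nat_lit 49) (nat_lit 5) (nat_lit 52) (nat_lit 5) (nat_lit 53) (nat_lit 5) (nat_lit 418) (nat_lit 324) (nat_lit 278))))) (XT.nd (nat_lit 234) (nat_lit 532) (nat_lit 0) (XT.nd (nat_lit 78) (nat_lit 456) (nat_lit 0) (XT.lf (nat_lit 0) (nat_lit 5269927322) (nat_lit 228) (nat_lit 7202945499) (nat_lit 76) (nat_lit 2677276587) (nat_lit 46) (nat_lit 5) (nat_lit 49) (nat_lit 5) (nat_lit 47) (nat_lit 5) (nat_lit 419) (nat_lit 324) (nat_lit 277)) (XT.nd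 (nat_lit 78) (nat_lit 228) (nat_lit 0) (XT.lf (nat_lit 0) (nat_lit 7448507049) (nat_lit 228) (nat_lit 5016690081) (nat_lit 304) (nat_lit 2972502150) (nat_lit 43) (nat_lit 5) (nat_lit 46) (nat_lit 5) (nat_lit 47) (nat_lit 5) (nat_lit 420) (nat_lit 324) (nat_lit 276)) (XT.lf (nat_lit 0) (nat_lit 4118224733) (nat_lit 228) (nat_lit 8927819104) (nat_lit 76) (nat_lit 2686696963) (nat_lit 40) (nat_lit 5) (nat_lit 43) (nat_lit 5) (nat_lit 41) (nat_lit 5) (nat_lit 421) (nat_lit 324) (nat_lit 275)))) (XT.nd (nat_lit 78) (nat_lit 380) (nat_lit 0) (XT.lf (nat_lit 0) (nat_lit 5998188372) (nat_lit 152) (nat_lit 5430346156) (nat_lit 228) (nat_lit 4606766156) (nat_lit 38) (nat_lit 5) (nat_lit 40) (nat_lit 5) (nat_lit 41) (nat_lit 5) (nat_lit 422) (nat_lit 324) (nat_lit 274)) (XT.nd (nat_lit 78) (nat_lit 152) (nat_lit 0) (XT.lf (nat_lit 0) (nat_lit 2607601788) (nat_lit 228) (nat_lit 11306993976) (nat_lit 76) (nat_lit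 2431394641) (nat_lit 35) (nat_lit 5) (nat_lit 38) (nat_lit 5) (nat_lit 36) (nat_lit 5) (nat_lit 423) (nat_lit 324) (nat_lit 273)) (XT.lf (nat_lit 0) (nat_lit 3882546085) (nat_lit 152) (nat_lit 6145519821) (nat_lit 228) (nat_lit 6636285455) (nat_lit 33) (nat_lit 5) (nat_lit 35) (nat_lit 5) (nat_lit 36) (nat_lit 5) (nat_lit 424) (nat_lit 324) (nat_lit 272)))))) (XT.nd (nat_lit 48906) (nat_lit 0) (nat_lit 21204) (XT.nd (nat_lit 156) (nat_lit 228) (nat_lit 0) (XT.nd (nat_lit 78) (nat_lit 152) (nat_lit 0) (XT.lf (nat_lit 0) (nat_lit 698932061) (nat_lit 228) (nat_lit 14423079536) (nat_lit 76) (nat_lit 1869588692) (nat_lit 30) (nat_lit 5) (nat_lit 33) (nat_lit 5) (nat_lit 31) (nat_lit 5) (nat_lit 425) (nat_lit 324) (nat_lit 271)) (XT.lf (nat_lit 0) (nat_lit 1016118108) (nat_lit 152) (nat_lit 7207050559) (nat_lit 228) (nat_lit 9103442499) (nat_lit 28) (nat_lit 5) (nat_lit 30) (nat_lit 5) (nat_lit 31) (nat_lit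 5) (nat_lit 426) (nat_lit 324) (nat_lit 270))) (XT.nd (nat_lit 78) (nat_lit 228) (nat_lit 0) (XT.lf (nat_lit 0) (nat_lit 16002318591) (nat_lit 228) (nat_lit 697981405) (nat_lit 76) (nat_lit 970792790) (nat_lit 28) (nat_lit 5) (nat_lit 31) (nat_lit 5) (nat_lit 29) (nat_lit 4) (nat_lit 427) (nat_lit 324) (nat_lit 269)) (XT.nd (nat_lit 48594) (nat_lit 0) (nat_lit 26752) (XT.lf (nat_lit 0) (nat_lit 5985946678) (nat_lit 228) (nat_lit 2660460318) (nat_lit 76) (nat_lit 9377216953) (nat_lit 25) (nat_lit 5) (nat_lit 28) (nat_lit 5) (nat_lit 26) (nat_lit 5) (nat_lit 428) (nat_lit 324) (nat_lit 268)) (XT.lf (nat_lit 0) (nat_lit 1034344336) (nat_lit 912) (nat_lit 1641674831) (nat_lit 0) (nat_lit 1034344336) (nat_lit 377) (nat_lit 5) (nat_lit 389) (nat_lit 4) (nat_lit 377) (nat_lit 4) (nat_lit 370) (nat_lit 325) (nat_lit 325))))) (XT.nd (nat_lit 234) (nat_lit 3040) (nat_lit 0) (XT.nd (nat_lit 78) (nat_lit 1672)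 (nat_lit 0) (XT.lf (nat_lit 0) (nat_lit 5225966048) (nat_lit 836) (nat_lit 2248303409) (nat_lit 836) (nat_lit 14231872) (nat_lit 366) (nat_lit 4) (nat_lit 377) (nat_lit 5) (nat_lit 377) (nat_lit 4) (nat_lit 371) (nat_lit 325) (nat_lit 324)) (XT.nd (nat_lit 78) (nat_lit 836) (nat_lit 0) (XT.lf (nat_lit 0) (nat_lit 5332979018) (nat_lit 836) (nat_lit 1209990269) (nat_lit 0) (nat_lit 1016240754) (nat_lit 355) (nat_lit 5) (nat_lit 366) (nat_lit 4) (nat_lit 355) (nat_lit 4) (nat_lit 372) (nat_lit 325) (nat_lit 323)) (XT.lf (nat_lit 0) (nat_lit 3099167729) (nat_lit 836) (nat_lit 120955423) (nat_lit 76) (nat_lit 4412876189) (nat_lit 344) (nat_lit 5) (nat_lit 355) (nat_lit 5) (nat_lit 345) (nat_lit 4) (nat_lit 373) (nat_lit 325) (nat_lit 322)))) (XT.nd (nat_lit 78) (nat_lit 1444) (nat_lit 0) (XT.lf (nat_lit 0) (nat_lit 763497329) (nat_lit 836) (nat_lit 6678988426) (nat_lit 76) (nat_lit 267561842) (nat_lit 323)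 (nat_lit 5) (nat_lit 334) (nat_lit 5) (nat_lit 324) (nat_lit 4) (nat_lit 374) (nat_lit 325) (nat_lit 321)) (XT.nd (nat_lit 78) (nat_lit 760) (nat_lit 0) (XT.lf (nat_lit 0) (nat_lit 2203189939) (nat_lit 684) (nat_lit 3901913434) (nat_lit 760) (nat_lit 1684798048) (nat_lit 314) (nat_lit 5) (nat_lit 323) (nat_lit 5) (nat_lit 324) (nat_lit 4) (nat_lit 375) (nat_lit 325) (nat_lit 320)) (XT.lf (nat_lit 0) (nat_lit 3420614149) (nat_lit 684) (nat_lit 192112740) (nat_lit 760) (nat_lit 4260431950) (nat_lit 304) (nat_lit 5) (nat_lit 313) (nat_lit 5) (nat_lit 314) (nat_lit 5) (nat_lit 376) (nat_lit 325) (nat_lit 319))))))) (XT.nd (nat_lit 858) (nat_lit 5244) (nat_lit 0) (XT.nd (nat_lit 390) (nat_lit 3952) (nat_lit 0) (XT.nd (nat_lit 156) (nat_lit 2584) (nat_lit 0) (XT.nd (nat_lit 78) (nat_lit 684) (nat_lit 0) (XT.lf (nat_lit 0) (nat_lit 1027066707) (nat_lit 760) (nat_lit 3295249074) (nat_lit 76) (nat_lit 3637189072)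 (nat_lit 294) (nat_lit 5) (nat_lit 304) (nat_lit 5) (nat_lit 295) (nat_lit 5) (nat_lit 377) (nat_lit 325) (nat_lit 318)) (XT.lf (nat_lit 0) (nat_lit 5945100386) (nat_lit 684) (nat_lit 404734807) (nat_lit 760) (nat_lit 1699380933) (nat_lit 285) (nat_lit 5) (nat_lit 294) (nat_lit 5) (nat_lit 295) (nat_lit 5) (nat_lit 378) (nat_lit 325) (nat_lit 317))) (XT.nd (nat_lit 78) (nat_lit 1900) (nat_lit 0) (XT.lf (nat_lit 0) (nat_lit 3601797511) (nat_lit 684) (nat_lit 898214332) (nat_lit 76) (nat_lit 3641964260) (nat_lit 276) (nat_lit 5) (nat_lit 285) (nat_lit 5) (nat_lit 277) (nat_lit 5) (nat_lit 379) (nat_lit 325) (nat_lit 316)) (XT.nd (nat_lit 78) (nat_lit 608) (nat_lit 0) (XT.lf (nat_lit 0) (nat_lit 354237312) (nat_lit 608) (nat_lit 380243015) (nat_lit 684) (nat_lit 7503868470) (nat_lit 259) (nat_lit 5) (nat_lit 267) (nat_lit 5) (nat_lit 268) (nat_lit 5) (nat_lit 380) (nat_lit 325) (nat_lit 315)) (XT.lf (nat_lit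 0) (nat_lit 1623018795) (nat_lit 608) (nat_lit 4455564942) (nat_lit 684) (nat_lit 2258996170) (nat_lit 251) (nat_lit 5) (nat_lit 259) (nat_lit 5) (nat_lit 260) (nat_lit 5) (nat_lit 381) (nat_lit 325) (nat_lit 314))))) (XT.nd (nat_lit 234) (nat_lit 2128) (nat_lit 0) (XT.nd (nat_lit 78) (nat_lit 1216) (nat_lit 0) (XT.lf (nat_lit 0) (nat_lit 2927826085) (nat_lit 532) (nat_lit 120343351) (nat_lit 608) (nat_lit 5392310928) (nat_lit 243) (nat_lit 5) (nat_lit 250) (nat_lit 5) (nat_lit 251) (nat_lit 5) (nat_lit 382) (nat_lit 325) (nat_lit 313)) (XT.nd (nat_lit 78) (nat_lit 608) (nat_lit 0) (XT.lf (nat_lit 0) (nat_lit 4246593393) (nat_lit 608) (nat_lit 4212251821) (nat_lit 684) (nat_lit 87847554) (nat_lit 235) (nat_lit 5) (nat_lit 243) (nat_lit 5) (nat_lit 244) (nat_lit 5) (nat_lit 383) (nat_lit 325) (nat_lit 312)) (XT.lf (nat_lit 0) (nat_lit 5257050137) (nat_lit 608) (nat_lit 3072759255) (nat_lit 76) (nat_lit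 326570179) (nat_lit 227) (nat_lit 5) (nat_lit 235) (nat_lit 5) (nat_lit 228) (nat_lit 5) (nat_lit 384) (nat_lit 325) (nat_lit 311)))) (XT.nd (nat_lit 78) (nat_lit 1520) (nat_lit 0) (XT.lf (nat_lit 0) (nat_lit 1945331030) (nat_lit 608) (nat_lit 1836117092) (nat_lit 76) (nat_lit 4988065762) (nat_lit 219) (nat_lit 5) (nat_lit 227) (nat_lit 5) (nat_lit 220) (nat_lit 5) (nat_lit 385) (nat_lit 325) (nat_lit 310)) (XT.nd (nat_lit 78) (nat_lit 1064) (nat_lit 0) (XT.lf (nat_lit 0) (nat_lit 7364471887) (nat_lit 532) (nat_lit 578914867) (nat_lit 76) (nat_lit 943020088) (nat_lit 213) (nat_lit 5) (nat_lit 220) (nat_lit 5) (nat_lit 214) (nat_lit 5) (nat_lit 386) (nat_lit 325) (nat_lit 309)) (XT.lf (nat_lit 0) (nat_lit 684396651) (nat_lit 456) (nat_lit 3189528287) (nat_lit 532) (nat_lit 5132665409) (nat_lit 199) (nat_lit 5) (nat_lit 205) (nat_lit 5) (nat_lit 206) (nat_lit 5) (nat_lit 387) (nat_lit 325) (nat_lit 308))))))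 (XT.nd (nat_lit 390) (nat_lit 2812) (nat_lit 0) (XT.nd (nat_lit 156) (nat_lit 1444) (nat_lit 0) (XT.nd (nat_lit 78) (nat_lit 456) (nat_lit 0) (XT.lf (nat_lit 0) (nat_lit 250821246) (nat_lit 532) (nat_lit 7151872021) (nat_lit 76) (nat_lit 1727993013) (nat_lit 192) (nat_lit 5) (nat_lit 199) (nat_lit 5) (nat_lit 193) (nat_lit 5) (nat_lit 388) (nat_lit 325) (nat_lit 307)) (XT.lf (nat_lit 0) (nat_lit 3262347251) (nat_lit 456) (nat_lit 2446224681) (nat_lit 532) (nat_lit 3549622800) (nat_lit 186) (nat_lit 5) (nat_lit 192) (nat_lit 5) (nat_lit 193) (nat_lit 5) (nat_lit 389) (nat_lit 325) (nat_lit 306))) (XT.nd (nat_lit 78) (nat_lit 912) (nat_lit 0) (XT.lf (nat_lit 0) (nat_lit 1895466452) (nat_lit 532) (nat_lit 4830724612) (nat_lit 76) (nat_lit 2663494742) (nat_lit 179) (nat_lit 5) (nat_lit 186) (nat_lit 5) (nat_lit 180) (nat_lit 5) (nat_lit 390) (nat_lit 325) (nat_lit 305)) (XT.nd (nat_lit 78) (nat_lit 532)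 (nat_lit 0) (XT.lf (nat_lit 0) (nat_lit 5856816224) (nat_lit 380) (nat_lit 1580742752) (nat_lit 456) (nat_lit 2087472511) (nat_lit 174) (nat_lit 5) (nat_lit 179) (nat_lit 5) (nat_lit 180) (nat_lit 5) (nat_lit 391) (nat_lit 325) (nat_lit 304)) (XT.lf (nat_lit 0) (nat_lit 3427605149) (nat_lit 532) (nat_lit 2517152343) (nat_lit 76) (nat_lit 3719408045) (nat_lit 167) (nat_lit 5) (nat_lit 174) (nat_lit 5) (nat_lit 168) (nat_lit 5) (nat_lit 392) (nat_lit 325) (nat_lit 303))))) (XT.nd (nat_lit 234) (nat_lit 1140) (nat_lit 0) (XT.nd (nat_lit 78) (nat_lit 1292) (nat_lit 0) (XT.lf (nat_lit 0) (nat_lit 8450309662) (nat_lit 380) (nat_lit 609740515) (nat_lit 456) (nat_lit 747557347) (nat_lit 162) (nat_lit 5) (nat_lit 167) (nat_lit 5) (nat_lit 168) (nat_lit 5) (nat_lit 393) (nat_lit 325) (nat_lit 302)) (XT.nd (nat_lit 78) (nat_lit 836) (nat_lit 0) (XT.lf (nat_lit 0) (nat_lit 4845476845) (nat_lit 456) (nat_lit 229681814)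 (nat_lit 76) (nat_lit 4879497573) (nat_lit 156) (nat_lit 5) (nat_lit 162) (nat_lit 5) (nat_lit 157) (nat_lit 5) (nat_lit 394) (nat_lit 325) (nat_lit 301)) (XT.lf (nat_lit 0) (nat_lit 470353549) (nat_lit 456) (nat_lit 9182477220) (nat_lit 76) (nat_lit 453404034) (nat_lit 145) (nat_lit 5) (nat_lit 151) (nat_lit 5) (nat_lit 146) (nat_lit 5) (nat_lit 395) (nat_lit 325) (nat_lit 300)))) (XT.nd (nat_lit 78) (nat_lit 760) (nat_lit 0) (XT.lf (nat_lit 0) (nat_lit 2038570095) (nat_lit 380) (nat_lit 4120694426) (nat_lit 456) (nat_lit 4102206199) (nat_lit 140) (nat_lit 5) (nat_lit 145) (nat_lit 5) (nat_lit 146) (nat_lit 5) (nat_lit 396) (nat_lit 325) (nat_lit 299)) (XT.nd (nat_lit 78) (nat_lit 304) (nat_lit 0) (XT.lf (nat_lit 0) (nat_lit 1564324253) (nat_lit 456) (nat_lit 7264592011) (nat_lit 76) (nat_lit 1592496973) (nat_lit 134) (nat_lit 5) (nat_lit 140) (nat_lit 5) (nat_lit 135) (nat_lit 5) (nat_lit 397) (nat_lit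 325) (nat_lit 298)) (XT.lf (nat_lit 0) (nat_lit 4241618994) (nat_lit 304) (nat_lit 3110770606) (nat_lit 380) (nat_lit 3233089188) (nat_lit 130) (nat_lit 5) (nat_lit 134) (nat_lit 5) (nat_lit 135) (nat_lit 5) (nat_lit 398) (nat_lit 325) (nat_lit 297))))))))
noncomputable def xc20 : XT := (XT.nd (nat_lit 1716) (nat_lit 1596) (nat_lit 0) (XT.nd (nat_lit 858) (nat_lit 2432) (nat_lit 0) (XT.nd (nat_lit 390) (nat_lit 2128) (nat_lit 0) (XT.nd (nat_lit 156) (nat_lit 1064) (nat_lit 0) (XT.nd (nat_lit 78) (nat_lit 304) (nat_lit 0) (XT.lf (nat_lit 0) (nat_lit 2525601440) (nat_lit 456) (nat_lit 5443742204) (nat_lit 76) (nat_lit 2784811378) (nat_lit 124) (nat_lit 5) (nat_lit 130) (nat_lit 5) (nat_lit 125) (nat_lit 5) (nat_lit 399) (nat_lit 325) (nat_lit 296)) (XT.lf (nat_lit 0) (nat_lit 6352902675) (nat_lit 304) (nat_lit 2064438721) (nat_lit 380) (nat_lit 2510050021) (nat_lit 120) (nat_lit 5) (nat_lit 124) (nat_lit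 5) (nat_lit 125) (nat_lit 5) (nat_lit 400) (nat_lit 325) (nat_lit 295))) (XT.nd (nat_lit 78) (nat_lit 684) (nat_lit 0) (XT.lf (nat_lit 0) (nat_lit 3347064184) (nat_lit 380) (nat_lit 3745073152) (nat_lit 76) (nat_lit 4013031970) (nat_lit 115) (nat_lit 5) (nat_lit 120) (nat_lit 5) (nat_lit 116) (nat_lit 5) (nat_lit 401) (nat_lit 325) (nat_lit 294)) (XT.nd (nat_lit 78) (nat_lit 380) (nat_lit 0) (XT.lf (nat_lit 0) (nat_lit 8346823270) (nat_lit 304) (nat_lit 999755443) (nat_lit 380) (nat_lit 1941364899) (nat_lit 111) (nat_lit 5) (nat_lit 115) (nat_lit 5) (nat_lit 116) (nat_lit 5) (nat_lit 402) (nat_lit 325) (nat_lit 293)) (XT.lf (nat_lit 0) (nat_lit 4019978681) (nat_lit 380) (nat_lit 2196009151) (nat_lit 76) (nat_lit 5259233275) (nat_lit 106) (nat_lit 5) (nat_lit 111) (nat_lit 5) (nat_lit 107) (nat_lit 5) (nat_lit 403) (nat_lit 325) (nat_lit 292))))) (XT.nd (nat_lit 234) (nat_lit 1216) (nat_lit 0) (XT.nd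 (nat_lit 78) (nat_lit 608) (nat_lit 0) (XT.lf (nat_lit 0) (nat_lit 10131329352) (nat_lit 380) (nat_lit 1472942841) (nat_lit 76) (nat_lit 63647112) (nat_lit 102) (nat_lit 5) (nat_lit 107) (nat_lit 5) (nat_lit 103) (nat_lit 5) (nat_lit 404) (nat_lit 325) (nat_lit 291)) (XT.nd (nat_lit 78) (nat_lit 228) (nat_lit 0) (XT.lf (nat_lit 0) (nat_lit 4533880892) (nat_lit 380) (nat_lit 826559755) (nat_lit 76) (nat_lit 6504693937) (nat_lit 97) (nat_lit 5) (nat_lit 102) (nat_lit 5) (nat_lit 98) (nat_lit 5) (nat_lit 405) (nat_lit 325) (nat_lit 290)) (XT.lf (nat_lit 0) (nat_lit 10766570214) (nat_lit 304) (nat_lit 207424922) (nat_lit 76) (nat_lit 1094057560) (nat_lit 94) (nat_lit 5) (nat_lit 98) (nat_lit 5) (nat_lit 95) (nat_lit 5) (nat_lit 406) (nat_lit 325) (nat_lit 289)))) (XT.nd (nat_lit 78) (nat_lit 608) (nat_lit 0) (XT.lf (nat_lit 0) (nat_lit 334736042) (nat_lit 228) (nat_lit 4543879876) (nat_lit 304) (nat_lit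 7397137268) (nat_lit 86) (nat_lit 5) (nat_lit 89) (nat_lit 5) (nat_lit 90) (nat_lit 5) (nat_lit 407) (nat_lit 325) (nat_lit 288)) (XT.nd (nat_lit 78) (nat_lit 304) (nat_lit 0) (XT.lf (nat_lit 0) (nat_lit 838420431) (nat_lit 304) (nat_lit 10399818571) (nat_lit 380) (nat_lit 1251045987) (nat_lit 82) (nat_lit 5) (nat_lit 86) (nat_lit 5) (nat_lit 87) (nat_lit 5) (nat_lit 408) (nat_lit 325) (nat_lit 287)) (XT.lf (nat_lit 0) (nat_lit 1254952555) (nat_lit 228) (nat_lit 3786514865) (nat_lit 304) (nat_lit 7666530634) (nat_lit 78) (nat_lit 5) (nat_lit 81) (nat_lit 5) (nat_lit 82) (nat_lit 5) (nat_lit 409) (nat_lit 325) (nat_lit 286)))))) (XT.nd (nat_lit 390) (nat_lit 1140) (nat_lit 0) (XT.nd (nat_lit 156) (nat_lit 760) (nat_lit 0) (XT.nd (nat_lit 78) (nat_lit 304) (nat_lit 0) (XT.lf (nat_lit 0) (nat_lit 1614800170) (nat_lit 228) (nat_lit 9910590989) (nat_lit 304) (nat_lit 1407331120) (nat_lit 75) (nat_lit 5)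 (nat_lit 78) (nat_lit 5) (nat_lit 79) (nat_lit 5) (nat_lit 410) (nat_lit 325) (nat_lit 285)) (XT.lf (nat_lit 0) (nat_lit 1882675237) (nat_lit 228) (nat_lit 3117527820) (nat_lit 304) (nat_lit 8162805084) (nat_lit 71) (nat_lit 5) (nat_lit 74) (nat_lit 5) (nat_lit 75) (nat_lit 5) (nat_lit 411) (nat_lit 325) (nat_lit 284))) (XT.nd (nat_lit 78) (nat_lit 532) (nat_lit 0) (XT.lf (nat_lit 0) (nat_lit 2076515410) (nat_lit 228) (nat_lit 9532507955) (nat_lit 304) (nat_lit 1790436761) (nat_lit 68) (nat_lit 5) (nat_lit 71) (nat_lit 5) (nat_lit 72) (nat_lit 5) (nat_lit 412) (nat_lit 325) (nat_lit 283)) (XT.nd (nat_lit 78) (nat_lit 228) (nat_lit 0) (XT.lf (nat_lit 0) (nat_lit 2173294629) (nat_lit 228) (nat_lit 2562326171) (nat_lit 304) (nat_lit 8906269557) (nat_lit 64) (nat_lit 5) (nat_lit 67) (nat_lit 5) (nat_lit 68) (nat_lit 5) (nat_lit 413) (nat_lit 325) (nat_lit 282)) (XT.lf (nat_lit 0) (nat_lit 2176703601) (nat_lit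 228) (nat_lit 9292295866) (nat_lit 304) (nat_lit 2421646697) (nat_lit 61) (nat_lit 5) (nat_lit 64) (nat_lit 5) (nat_lit 65) (nat_lit 5) (nat_lit 414) (nat_lit 325) (nat_lit 281))))) (XT.nd (nat_lit 234) (nat_lit 456) (nat_lit 0) (XT.nd (nat_lit 78) (nat_lit 456) (nat_lit 0) (XT.lf (nat_lit 0) (nat_lit 2077533233) (nat_lit 152) (nat_lit 2148358501) (nat_lit 228) (nat_lit 9919942094) (nat_lit 58) (nat_lit 5) (nat_lit 60) (nat_lit 5) (nat_lit 61) (nat_lit 5) (nat_lit 415) (nat_lit 325) (nat_lit 280)) (XT.nd (nat_lit 78) (nat_lit 228) (nat_lit 0) (XT.lf (nat_lit 0) (nat_lit 1863569931) (nat_lit 228) (nat_lit 9218884402) (nat_lit 304) (nat_lit 3325058823) (nat_lit 55) (nat_lit 5) (nat_lit 58) (nat_lit 5) (nat_lit 59) (nat_lit 5) (nat_lit 416) (nat_lit 325) (nat_lit 279)) (XT.lf (nat_lit 0) (nat_lit 1540908510) (nat_lit 152) (nat_lit 1905406413) (nat_lit 228) (nat_lit 11229801042) (nat_lit 52) (nat_lit 5)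 (nat_lit 54) (nat_lit 5) (nat_lit 55) (nat_lit 5) (nat_lit 417) (nat_lit 325) (nat_lit 278)))) (XT.nd (nat_lit 78) (nat_lit 228) (nat_lit 0) (XT.lf (nat_lit 0) (nat_lit 1079824307) (nat_lit 228) (nat_lit 9343711056) (nat_lit 304) (nat_lit 4527850005) (nat_lit 49) (nat_lit 5) (nat_lit 52) (nat_lit 5) (nat_lit 53) (nat_lit 5) (nat_lit 418) (nat_lit 325) (nat_lit 277)) (XT.nd (nat_lit 78) (nat_lit 0) (nat_lit 0) (XT.lf (nat_lit 0) (nat_lit 503142195) (nat_lit 152) (nat_lit 1865901794) (nat_lit 228) (nat_lit 12865065150) (nat_lit 46) (nat_lit 5) (nat_lit 48) (nat_lit 5) (nat_lit 49) (nat_lit 5) (nat_lit 419) (nat_lit 325) (nat_lit 276)) (XT.lf (nat_lit 0) (nat_lit 9464659267) (nat_lit 228) (nat_lit 234817596) (nat_lit 76) (nat_lit 5824177826) (nat_lit 46) (nat_lit 5) (nat_lit 49) (nat_lit 5) (nat_lit 47) (nat_lit 5) (nat_lit 420) (nat_lit 325) (nat_lit 275))))))) (XT.nd (nat_lit 49218) (nat_lit 0) (nat_lit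 17176) (XT.nd (nat_lit 390) (nat_lit 608) (nat_lit 0) (XT.nd (nat_lit 156) (nat_lit 532) (nat_lit 0) (XT.nd (nat_lit 78) (nat_lit 152) (nat_lit 0) (XT.lf (nat_lit 0) (nat_lit 969940742) (nat_lit 304) (nat_lit 1088030534) (nat_lit 76) (nat_lit 13763173599) (nat_lit 42) (nat_lit 5) (nat_lit 46) (nat_lit 5) (nat_lit 43) (nat_lit 5) (nat_lit 421) (nat_lit 325) (nat_lit 274)) (XT.lf (nat_lit 0) (nat_lit 8182490835) (nat_lit 228) (nat_lit 2131591803) (nat_lit 76) (nat_lit 5811579705) (nat_lit 40) (nat_lit 5) (nat_lit 43) (nat_lit 5) (nat_lit 41) (nat_lit 5) (nat_lit 422) (nat_lit 325) (nat_lit 273))) (XT.nd (nat_lit 78) (nat_lit 380) (nat_lit 0) (XT.lf (nat_lit 0) (nat_lit 13127589886) (nat_lit 152) (nat_lit 2514862281) (nat_lit 228) (nat_lit 796247185) (nat_lit 38) (nat_lit 5) (nat_lit 40) (nat_lit 5) (nat_lit 41) (nat_lit 5) (nat_lit 423) (nat_lit 325) (nat_lit 272)) (XT.nd (nat_lit 78) (nat_lit 152) (nat_lit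 0) (XT.lf (nat_lit 0) (nat_lit 6533847247) (nat_lit 228) (nat_lit 4701391175) (nat_lit 76) (nat_lit 5523943743) (nat_lit 35) (nat_lit 5) (nat_lit 38) (nat_lit 5) (nat_lit 36) (nat_lit 5) (nat_lit 424) (nat_lit 325) (nat_lit 271)) (XT.lf (nat_lit 0) (nat_lit 10831163753) (nat_lit 152) (nat_lit 3278042151) (nat_lit 228) (nat_lit 2979249063) (nat_lit 33) (nat_lit 5) (nat_lit 35) (nat_lit 5) (nat_lit 36) (nat_lit 5) (nat_lit 425) (nat_lit 325) (nat_lit 270))))) (XT.nd (nat_lit 48594) (nat_lit 0) (nat_lit 26752) (XT.nd (nat_lit 78) (nat_lit 380) (nat_lit 0) (XT.lf (nat_lit 0) (nat_lit 4478263041) (nat_lit 228) (nat_lit 8029213404) (nat_lit 76) (nat_lit 4918494262) (nat_lit 30) (nat_lit 5) (nat_lit 33) (nat_lit 5) (nat_lit 31) (nat_lit 5) (nat_lit 426) (nat_lit 325) (nat_lit 269)) (XT.nd (nat_lit 78) (nat_lit 228) (nat_lit 0) (XT.lf (nat_lit 0) (nat_lit 7762407368) (nat_lit 152) (nat_lit 4399955958) (nat_lit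 228) (nat_lit 5609991977) (nat_lit 28) (nat_lit 5) (nat_lit 30) (nat_lit 5) (nat_lit 31) (nat_lit 5) (nat_lit 427) (nat_lit 325) (nat_lit 268)) (XT.lf (nat_lit 0) (nat_lit 1970546350) (nat_lit 228) (nat_lit 12209224251) (nat_lit 76) (nat_lit 3948146977) (nat_lit 25) (nat_lit 5) (nat_lit 28) (nat_lit 5) (nat_lit 26) (nat_lit 5) (nat_lit 428) (nat_lit 325) (nat_lit 267)))) (XT.nd (nat_lit 78) (nat_lit 1824) (nat_lit 0) (XT.lf (nat_lit 0) (nat_lit 547771955) (nat_lit 988) (nat_lit 2551049224) (nat_lit 0) (nat_lit 547771955) (nat_lit 401) (nat_lit 5) (nat_lit 414) (nat_lit 4) (nat_lit 401) (nat_lit 4) (nat_lit 368) (nat_lit 326) (nat_lit 326)) (XT.nd (nat_lit 78) (nat_lit 912) (nat_lit 0) (XT.lf (nat_lit 0) (nat_lit 3098297780) (nat_lit 912) (nat_lit 3302473840) (nat_lit 912) (nat_lit 955358283) (nat_lit 389) (nat_lit 4) (nat_lit 401) (nat_lit 5) (nat_lit 401) (nat_lit 4) (nat_lit 369) (nat_lit 326) (nat_lit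 325)) (XT.lf (nat_lit 0) (nat_lit 4053559897) (nat_lit 836) (nat_lit 243186846) (nat_lit 912) (nat_lit 3125460146) (nat_lit 377) (nat_lit 5) (nat_lit 388) (nat_lit 5) (nat_lit 389) (nat_lit 4) (nat_lit 370) (nat_lit 326) (nat_lit 324)))))) (XT.nd (nat_lit 390) (nat_lit 4712) (nat_lit 0) (XT.nd (nat_lit 156) (nat_lit 3192) (nat_lit 0) (XT.nd (nat_lit 78) (nat_lit 760) (nat_lit 0) (XT.lf (nat_lit 0) (nat_lit 2107709492) (nat_lit 912) (nat_lit 2446593538) (nat_lit 76) (nat_lit 2936921576) (nat_lit 365) (nat_lit 5) (nat_lit 377) (nat_lit 5) (nat_lit 366) (nat_lit 4) (nat_lit 371) (nat_lit 326) (nat_lit 323)) (XT.lf (nat_lit 0) (nat_lit 6087438800) (nat_lit 760) (nat_lit 1287527637) (nat_lit 836) (nat_lit 188578092) (nat_lit 355) (nat_lit 5) (nat_lit 365) (nat_lit 5) (nat_lit 366) (nat_lit 4) (nat_lit 372) (nat_lit 326) (nat_lit 322))) (XT.nd (nat_lit 78) (nat_lit 2356) (nat_lit 0) (XT.lf (nat_lit 0) (nat_lit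 5029118415) (nat_lit 836) (nat_lit 482833092) (nat_lit 76) (nat_lit 2126754148) (nat_lit 344) (nat_lit 5) (nat_lit 355) (nat_lit 5) (nat_lit 345) (nat_lit 4) (nat_lit 373) (nat_lit 326) (nat_lit 321)) (XT.nd (nat_lit 78) (nat_lit 760) (nat_lit 0) (XT.lf (nat_lit 0) (nat_lit 559128639) (nat_lit 760) (nat_lit 2026345865) (nat_lit 836) (nat_lit 5131586194) (nat_lit 323) (nat_lit 5) (nat_lit 333) (nat_lit 5) (nat_lit 334) (nat_lit 5) (nat_lit 374) (nat_lit 326) (nat_lit 320)) (XT.lf (nat_lit 0) (nat_lit 42739181) (nat_lit 760) (nat_lit 6151350361) (nat_lit 76) (nat_lit 1604537749) (nat_lit 313) (nat_lit 5) (nat_lit 323) (nat_lit 5) (nat_lit 314) (nat_lit 5) (nat_lit 375) (nat_lit 326) (nat_lit 319))))) (XT.nd (nat_lit 234) (nat_lit 2584) (nat_lit 0) (XT.nd (nat_lit 78) (nat_lit 1444) (nat_lit 0) (XT.lf (nat_lit 0) (nat_lit 2754173293) (nat_lit 684) (nat_lit 2492297032) (nat_lit 760) (nat_lit 2636644384)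 (nat_lit 304) (nat_lit 5) (nat_lit 313) (nat_lit 5) (nat_lit 314) (nat_lit 5) (nat_lit 376) (nat_lit 326) (nat_lit 318)) (XT.nd (nat_lit 78) (nat_lit 684) (nat_lit 0) (XT.lf (nat_lit 0) (nat_lit 2543120369) (nat_lit 760) (nat_lit 4070280368) (nat_lit 76) (nat_lit 1357592002) (nat_lit 294) (nat_lit 5) (nat_lit 304) (nat_lit 5) (nat_lit 295) (nat_lit 5) (nat_lit 377) (nat_lit 326) (nat_lit 317)) (XT.lf (nat_lit 0) (nat_lit 5077110660) (nat_lit 684) (nat_lit 2718070914) (nat_lit 760) (nat_lit 266950289) (nat_lit 285) (nat_lit 5) (nat_lit 294) (nat_lit 5) (nat_lit 295) (nat_lit 5) (nat_lit 378) (nat_lit 326) (nat_lit 316)))) (XT.nd (nat_lit 78) (nat_lit 1900) (nat_lit 0) (XT.lf (nat_lit 0) (nat_lit 4929808143) (nat_lit 684) (nat_lit 1881487435) (nat_lit 76) (nat_lit 1345135970) (nat_lit 276) (nat_lit 5) (nat_lit 285) (nat_lit 5) (nat_lit 277) (nat_lit 5) (nat_lit 379) (nat_lit 326) (nat_lit 315)) (XT.nd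 (nat_lit 78) (nat_lit 1216) (nat_lit 0) (XT.lf (nat_lit 0) (nat_lit 1958138048) (nat_lit 684) (nat_lit 752714544) (nat_lit 76) (nat_lit 5543246896) (nat_lit 267) (nat_lit 5) (nat_lit 276) (nat_lit 5) (nat_lit 268) (nat_lit 5) (nat_lit 380) (nat_lit 326) (nat_lit 314)) (XT.lf (nat_lit 0) (nat_lit 406737475) (nat_lit 608) (nat_lit 6804839046) (nat_lit 684) (nat_lit 1143579431) (nat_lit 251) (nat_lit 5) (nat_lit 259) (nat_lit 5) (nat_lit 260) (nat_lit 5) (nat_lit 381) (nat_lit 326) (nat_lit 313))))))))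
noncomputable def xc21 : XT := (XT.nd (nat_lit 1716) (nat_lit 5548) (nat_lit 0) (XT.nd (nat_lit 858) (nat_lit 4636) (nat_lit 0) (XT.nd (nat_lit 390) (nat_lit 3496) (nat_lit 0) (XT.nd (nat_lit 156) (nat_lit 1596) (nat_lit 0) (XT.nd (nat_lit 78) (nat_lit 684) (nat_lit 0) (XT.lf (nat_lit 0) (nat_lit 1586960683) (nat_lit 532) (nat_lit 2491518267) (nat_lit 608) (nat_lit 4380853662) (nat_lit 243) (nat_lit 5) (nat_lit 250) (nat_lit 5) (nat_lit 251) (nat_lit 5) (nat_lit 382) (nat_lit 326) (nat_lit 312)) (XT.lf (nat_lit 0) (nat_lit 825510891) (nat_lit 684) (nat_lit 5771314598) (nat_lit 76) (nat_lit 1970330225) (nat_lit 234) (nat_lit 5) (nat_lit 243) (nat_lit 5) (nat_lit 235) (nat_lit 5) (nat_lit 383) (nat_lit 326) (nat_lit 311))) (XT.nd (nat_lit 78) (nat_lit 1064) (nat_lit 0) (XT.lf (nat_lit 0) (nat_lit 4011973089) (nat_lit 532) (nat_lit 2085124699) (nat_lit 608) (nat_lit 2581187098) (nat_lit 227) (nat_lit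 5) (nat_lit 234) (nat_lit 5) (nat_lit 235) (nat_lit 5) (nat_lit 384) (nat_lit 326) (nat_lit 310)) (XT.nd (nat_lit 78) (nat_lit 456) (nat_lit 0) (XT.lf (nat_lit 0) (nat_lit 2669005677) (nat_lit 608) (nat_lit 3547680643) (nat_lit 76) (nat_lit 2576311487) (nat_lit 219) (nat_lit 5) (nat_lit 227) (nat_lit 5) (nat_lit 220) (nat_lit 5) (nat_lit 385) (nat_lit 326) (nat_lit 309)) (XT.lf (nat_lit 0) (nat_lit 6497843554) (nat_lit 456) (nat_lit 1514399382) (nat_lit 532) (nat_lit 899175701) (nat_lit 213) (nat_lit 5) (nat_lit 219) (nat_lit 5) (nat_lit 220) (nat_lit 5) (nat_lit 386) (nat_lit 326) (nat_lit 308))))) (XT.nd (nat_lit 234) (nat_lit 1444) (nat_lit 0) (XT.nd (nat_lit 78) (nat_lit 1444) (nat_lit 0) (XT.lf (nat_lit 0) (nat_lit 4404289146) (nat_lit 608) (nat_lit 1285136236) (nat_lit 76) (nat_lit 3343789767) (nat_lit 205) (nat_lit 5) (nat_lit 213) (nat_lit 5) (nat_lit 206) (nat_lit 5) (nat_lit 387) (nat_lit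 326) (nat_lit 307)) (XT.nd (nat_lit 78) (nat_lit 912) (nat_lit 0) (XT.lf (nat_lit 0) (nat_lit 658125294) (nat_lit 532) (nat_lit 133879900) (nat_lit 76) (nat_lit 8367045930) (nat_lit 198) (nat_lit 5) (nat_lit 205) (nat_lit 5) (nat_lit 199) (nat_lit 5) (nat_lit 388) (nat_lit 326) (nat_lit 306)) (XT.lf (nat_lit 0) (nat_lit 1013941196) (nat_lit 456) (nat_lit 5025263194) (nat_lit 532) (nat_lit 3248897238) (nat_lit 186) (nat_lit 5) (nat_lit 192) (nat_lit 5) (nat_lit 193) (nat_lit 5) (nat_lit 389) (nat_lit 326) (nat_lit 305)))) (XT.nd (nat_lit 78) (nat_lit 912) (nat_lit 0) (XT.lf (nat_lit 0) (nat_lit 2104413474) (nat_lit 532) (nat_lit 7237294386) (nat_lit 76) (nat_lit 79610685) (nat_lit 179) (nat_lit 5) (nat_lit 186) (nat_lit 5) (nat_lit 180) (nat_lit 5) (nat_lit 390) (nat_lit 326) (nat_lit 304)) (XT.nd (nat_lit 78) (nat_lit 532) (nat_lit 0) (XT.lf (nat_lit 0) (nat_lit 3336941377) (nat_lit 380) (nat_lit 4238833554)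 (nat_lit 456) (nat_lit 1982311880) (nat_lit 174) (nat_lit 5) (nat_lit 179) (nat_lit 5) (nat_lit 180) (nat_lit 5) (nat_lit 391) (nat_lit 326) (nat_lit 303)) (XT.lf (nat_lit 0) (nat_lit 3442865116) (nat_lit 532) (nat_lit 5202367121) (nat_lit 76) (nat_lit 1053752980) (nat_lit 167) (nat_lit 5) (nat_lit 174) (nat_lit 5) (nat_lit 168) (nat_lit 5) (nat_lit 392) (nat_lit 326) (nat_lit 302)))))) (XT.nd (nat_lit 390) (nat_lit 2508) (nat_lit 0) (XT.nd (nat_lit 156) (nat_lit 1292) (nat_lit 0) (XT.nd (nat_lit 78) (nat_lit 456) (nat_lit 0) (XT.lf (nat_lit 0) (nat_lit 5649081696) (nat_lit 380) (nat_lit 3355267666) (nat_lit 456) (nat_lit 839504419) (nat_lit 162) (nat_lit 5) (nat_lit 167) (nat_lit 5) (nat_lit 168) (nat_lit 5) (nat_lit 393) (nat_lit 326) (nat_lit 301)) (XT.lf (nat_lit 0) (nat_lit 4665332550) (nat_lit 456) (nat_lit 3203554345) (nat_lit 76) (nat_lit 2123822603) (nat_lit 156) (nat_lit 5) (nat_lit 162)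 (nat_lit 5) (nat_lit 157) (nat_lit 5) (nat_lit 394) (nat_lit 326) (nat_lit 300))) (XT.nd (nat_lit 78) (nat_lit 836) (nat_lit 0) (XT.lf (nat_lit 0) (nat_lit 174209741) (nat_lit 456) (nat_lit 2215654899) (nat_lit 76) (nat_lit 7756074590) (nat_lit 150) (nat_lit 5) (nat_lit 156) (nat_lit 5) (nat_lit 151) (nat_lit 5) (nat_lit 395) (nat_lit 326) (nat_lit 299)) (XT.nd (nat_lit 78) (nat_lit 456) (nat_lit 0) (XT.lf (nat_lit 0) (nat_lit 5768409662) (nat_lit 456) (nat_lit 1260965545) (nat_lit 76) (nat_lit 3273700636) (nat_lit 145) (nat_lit 5) (nat_lit 151) (nat_lit 5) (nat_lit 146) (nat_lit 5) (nat_lit 396) (nat_lit 326) (nat_lit 298)) (XT.lf (nat_lit 0) (nat_lit 1047503542) (nat_lit 456) (nat_lit 308183800) (nat_lit 76) (nat_lit 9109193987) (nat_lit 139) (nat_lit 5) (nat_lit 145) (nat_lit 5) (nat_lit 140) (nat_lit 5) (nat_lit 397) (nat_lit 326) (nat_lit 297))))) (XT.nd (nat_lit 234) (nat_lit 1064) (nat_lit 0)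 (XT.nd (nat_lit 78) (nat_lit 760) (nat_lit 0) (XT.lf (nat_lit 0) (nat_lit 611734247) (nat_lit 304) (nat_lit 6139573694) (nat_lit 380) (nat_lit 3879330143) (nat_lit 130) (nat_lit 5) (nat_lit 134) (nat_lit 5) (nat_lit 135) (nat_lit 5) (nat_lit 398) (nat_lit 326) (nat_lit 296)) (XT.nd (nat_lit 78) (nat_lit 304) (nat_lit 0) (XT.lf (nat_lit 0) (nat_lit 1530562700) (nat_lit 380) (nat_lit 265060317) (nat_lit 456) (nat_lit 9005625173) (nat_lit 124) (nat_lit 5) (nat_lit 129) (nat_lit 5) (nat_lit 130) (nat_lit 5) (nat_lit 399) (nat_lit 326) (nat_lit 295)) (XT.lf (nat_lit 0) (nat_lit 2398421474) (nat_lit 304) (nat_lit 5213068793) (nat_lit 380) (nat_lit 3364517302) (nat_lit 120) (nat_lit 5) (nat_lit 124) (nat_lit 5) (nat_lit 125) (nat_lit 5) (nat_lit 400) (nat_lit 326) (nat_lit 294)))) (XT.nd (nat_lit 78) (nat_lit 684) (nat_lit 0) (XT.lf (nat_lit 0) (nat_lit 2408274379) (nat_lit 380) (nat_lit 7902930637) (nat_lit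 76) (nat_lit 844607239) (nat_lit 115) (nat_lit 5) (nat_lit 120) (nat_lit 5) (nat_lit 116) (nat_lit 5) (nat_lit 401) (nat_lit 326) (nat_lit 293)) (XT.nd (nat_lit 78) (nat_lit 380) (nat_lit 0) (XT.lf (nat_lit 0) (nat_lit 4056401593) (nat_lit 304) (nat_lit 4276370429) (nat_lit 380) (nat_lit 3007319987) (nat_lit 111) (nat_lit 5) (nat_lit 115) (nat_lit 5) (nat_lit 116) (nat_lit 5) (nat_lit 402) (nat_lit 326) (nat_lit 292)) (XT.lf (nat_lit 0) (nat_lit 2870695304) (nat_lit 380) (nat_lit 6698066242) (nat_lit 76) (nat_lit 1960697408) (nat_lit 106) (nat_lit 5) (nat_lit 111) (nat_lit 5) (nat_lit 107) (nat_lit 5) (nat_lit 403) (nat_lit 326) (nat_lit 291))))))) (XT.nd (nat_lit 858) (nat_lit 2356) (nat_lit 0) (XT.nd (nat_lit 390) (nat_lit 1672) (nat_lit 0) (XT.nd (nat_lit 156) (nat_lit 836) (nat_lit 0) (XT.nd (nat_lit 78) (nat_lit 380) (nat_lit 0) (XT.lf (nat_lit 0) (nat_lit 5557332089) (nat_lit 304) (nat_lit 3348282901)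 (nat_lit 380) (nat_lit 2818075504) (nat_lit 102) (nat_lit 5) (nat_lit 106) (nat_lit 5) (nat_lit 107) (nat_lit 5) (nat_lit 404) (nat_lit 326) (nat_lit 290)) (XT.lf (nat_lit 0) (nat_lit 3170352129) (nat_lit 380) (nat_lit 5684764857) (nat_lit 76) (nat_lit 3067936690) (nat_lit 97) (nat_lit 5) (nat_lit 102) (nat_lit 5) (nat_lit 98) (nat_lit 5) (nat_lit 405) (nat_lit 326) (nat_lit 289))) (XT.nd (nat_lit 78) (nat_lit 608) (nat_lit 0) (XT.lf (nat_lit 0) (nat_lit 6870147343) (nat_lit 228) (nat_lit 2448559194) (nat_lit 304) (nat_lit 2808956314) (nat_lit 94) (nat_lit 5) (nat_lit 97) (nat_lit 5) (nat_lit 98) (nat_lit 5) (nat_lit 406) (nat_lit 326) (nat_lit 288)) (XT.nd (nat_lit 78) (nat_lit 228) (nat_lit 0) (XT.lf (nat_lit 0) (nat_lit 3294566674) (nat_lit 380) (nat_lit 4896365740) (nat_lit 76) (nat_lit 4146557754) (nat_lit 89) (nat_lit 5) (nat_lit 94) (nat_lit 5) (nat_lit 90) (nat_lit 5) (nat_lit 407) (nat_lit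 326) (nat_lit 287)) (XT.lf (nat_lit 0) (nat_lit 7960711671) (nat_lit 228) (nat_lit 1598105819) (nat_lit 304) (nat_lit 2994115959) (nat_lit 86) (nat_lit 5) (nat_lit 89) (nat_lit 5) (nat_lit 90) (nat_lit 5) (nat_lit 408) (nat_lit 326) (nat_lit 286))))) (XT.nd (nat_lit 234) (nat_lit 760) (nat_lit 0) (XT.nd (nat_lit 78) (nat_lit 532) (nat_lit 0) (XT.lf (nat_lit 0) (nat_lit 3228642409) (nat_lit 380) (nat_lit 4369519636) (nat_lit 76) (nat_lit 5175566965) (nat_lit 81) (nat_lit 5) (nat_lit 86) (nat_lit 5) (nat_lit 82) (nat_lit 5) (nat_lit 409) (nat_lit 326) (nat_lit 285)) (XT.nd (nat_lit 78) (nat_lit 304) (nat_lit 0) (XT.lf (nat_lit 0) (nat_lit 8791439612) (nat_lit 228) (nat_lit 819201840) (nat_lit 304) (nat_lit 3389854003) (nat_lit 78) (nat_lit 5) (nat_lit 81) (nat_lit 5) (nat_lit 82) (nat_lit 5) (nat_lit 410) (nat_lit 326) (nat_lit 284)) (XT.lf (nat_lit 0) (nat_lit 2955692021) (nat_lit 304) (nat_lit 4144589400)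 (nat_lit 76) (nat_lit 6132520666) (nat_lit 74) (nat_lit 5) (nat_lit 78) (nat_lit 5) (nat_lit 75) (nat_lit 5) (nat_lit 411) (nat_lit 326) (nat_lit 283)))) (XT.nd (nat_lit 78) (nat_lit 532) (nat_lit 0) (XT.lf (nat_lit 0) (nat_lit 9320879713) (nat_lit 228) (nat_lit 135734109) (nat_lit 304) (nat_lit 4014801665) (nat_lit 71) (nat_lit 5) (nat_lit 74) (nat_lit 5) (nat_lit 75) (nat_lit 5) (nat_lit 412) (nat_lit 326) (nat_lit 282)) (XT.nd (nat_lit 78) (nat_lit 228) (nat_lit 0) (XT.lf (nat_lit 0) (nat_lit 2456443678) (nat_lit 304) (nat_lit 4266089441) (nat_lit 76) (nat_lit 6993284420) (nat_lit 67) (nat_lit 5) (nat_lit 71) (nat_lit 5) (nat_lit 68) (nat_lit 5) (nat_lit 413) (nat_lit 326) (nat_lit 281)) (XT.lf (nat_lit 0) (nat_lit 9079478169) (nat_lit 304) (nat_lit 4466350477) (nat_lit 76) (nat_lit 420954767) (nat_lit 64) (nat_lit 5) (nat_lit 68) (nat_lit 5) (nat_lit 65) (nat_lit 5) (nat_lit 414) (nat_lit 326)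 (nat_lit 280)))))) (XT.nd (nat_lit 390) (nat_lit 1216) (nat_lit 0) (XT.nd (nat_lit 156) (nat_lit 684) (nat_lit 0) (XT.nd (nat_lit 78) (nat_lit 152) (nat_lit 0) (XT.lf (nat_lit 0) (nat_lit 1709023999) (nat_lit 304) (nat_lit 4783168283) (nat_lit 76) (nat_lit 7731772932) (nat_lit 60) (nat_lit 5) (nat_lit 64) (nat_lit 5) (nat_lit 61) (nat_lit 5) (nat_lit 415) (nat_lit 326) (nat_lit 279)) (XT.lf (nat_lit 0) (nat_lit 8453664062) (nat_lit 228) (nat_lit 5205472300) (nat_lit 76) (nat_lit 828749571) (nat_lit 58) (nat_lit 5) (nat_lit 61) (nat_lit 5) (nat_lit 59) (nat_lit 5) (nat_lit 416) (nat_lit 326) (nat_lit 278))) (XT.nd (nat_lit 78) (nat_lit 380) (nat_lit 0) (XT.lf (nat_lit 0) (nat_lit 688715551) (nat_lit 304) (nat_lit 5750138975) (nat_lit 76) (nat_lit 8319668159) (nat_lit 54) (nat_lit 5) (nat_lit 58) (nat_lit 5) (nat_lit 55) (nat_lit 5) (nat_lit 417) (nat_lit 326) (nat_lit 277)) (XT.nd (nat_lit 78) (nat_lit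 228) (nat_lit 0) (XT.lf (nat_lit 0) (nat_lit 7552436675) (nat_lit 228) (nat_lit 6424118456) (nat_lit 76) (nat_lit 1059509662) (nat_lit 52) (nat_lit 5) (nat_lit 55) (nat_lit 5) (nat_lit 53) (nat_lit 5) (nat_lit 418) (nat_lit 326) (nat_lit 276)) (XT.lf (nat_lit 0) (nat_lit 8089556151) (nat_lit 228) (nat_lit 6590505804) (nat_lit 304) (nat_lit 640716714) (nat_lit 49) (nat_lit 5) (nat_lit 52) (nat_lit 5) (nat_lit 53) (nat_lit 5) (nat_lit 419) (nat_lit 326) (nat_lit 275))))) (XT.nd (nat_lit 234) (nat_lit 532) (nat_lit 0) (XT.nd (nat_lit 78) (nat_lit 456) (nat_lit 0) (XT.lf (nat_lit 0) (nat_lit 6346699454) (nat_lit 228) (nat_lit 8185450590) (nat_lit 76) (nat_lit 1080591930) (nat_lit 46) (nat_lit 5) (nat_lit 49) (nat_lit 5) (nat_lit 47) (nat_lit 5) (nat_lit 420) (nat_lit 326) (nat_lit 274)) (XT.nd (nat_lit 78) (nat_lit 228) (nat_lit 0) (XT.lf (nat_lit 0) (nat_lit 6616730348) (nat_lit 228) (nat_lit 6979743711)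 (nat_lit 304) (nat_lit 2315681551) (nat_lit 43) (nat_lit 5) (nat_lit 46) (nat_lit 5) (nat_lit 47) (nat_lit 5) (nat_lit 421) (nat_lit 326) (nat_lit 273)) (XT.lf (nat_lit 0) (nat_lit 4803795859) (nat_lit 228) (nat_lit 10559367372) (nat_lit 76) (nat_lit 856281732) (nat_lit 40) (nat_lit 5) (nat_lit 43) (nat_lit 5) (nat_lit 41) (nat_lit 5) (nat_lit 422) (nat_lit 326) (nat_lit 272)))) (XT.nd (nat_lit 78) (nat_lit 380) (nat_lit 0) (XT.lf (nat_lit 0) (nat_lit 4522327403) (nat_lit 152) (nat_lit 7649506053) (nat_lit 228) (nat_lit 4362489244) (nat_lit 38) (nat_lit 5) (nat_lit 40) (nat_lit 5) (nat_lit 41) (nat_lit 5) (nat_lit 423) (nat_lit 326) (nat_lit 271)) (XT.nd (nat_lit 78) (nat_lit 152) (nat_lit 0) (XT.lf (nat_lit 0) (nat_lit 2887157127) (nat_lit 228) (nat_lit 13623246846) (nat_lit 76) (nat_lit 347411172) (nat_lit 35) (nat_lit 5) (nat_lit 38) (nat_lit 5) (nat_lit 36) (nat_lit 5) (nat_lit 424) (nat_lit 326)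 (nat_lit 270)) (XT.lf (nat_lit 0) (nat_lit 1726360584) (nat_lit 152) (nat_lit 8641836223) (nat_lit 228) (nat_lit 6820779602) (nat_lit 33) (nat_lit 5) (nat_lit 35) (nat_lit 5) (nat_lit 36) (nat_lit 5) (nat_lit 425) (nat_lit 326) (nat_lit 269))))))))
noncomputable def xc22 : XT := (XT.nd (nat_lit 49920) (nat_lit 0) (nat_lit 5016) (XT.nd (nat_lit 49062) (nat_lit 0) (nat_lit 15124) (XT.nd (nat_lit 48594) (nat_lit 0) (nat_lit 24016) (XT.nd (nat_lit 156) (nat_lit 152) (nat_lit 0) (XT.nd (nat_lit 78) (nat_lit 0) (nat_lit 0) (XT.lf (nat_lit 0) (nat_lit 63570610) (nat_lit 152) (nat_lit 495558163) (nat_lit 228) (nat_lit 16970423915) (nat_lit 30) (nat_lit 5) (nat_lit 32) (nat_lit 5) (nat_lit 33) (nat_lit 5) (nat_lit 426) (nat_lit 326) (nat_lit 268)) (XT.lf (nat_lit 0) (nat_lit 8155228538) (nat_lit 228) (nat_lit 1835403672) (nat_lit 76) (nat_lit 7887067008) (nat_lit 30) (nat_lit 5) (nat_lit 33) (nat_lit 5) (nat_lit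 31) (nat_lit 5) (nat_lit 427) (nat_lit 326) (nat_lit 267))) (XT.nd (nat_lit 48282) (nat_lit 0) (nat_lit 29336) (XT.lf (nat_lit 0) (nat_lit 14325570585) (nat_lit 152) (nat_lit 1682198658) (nat_lit 228) (nat_lit 2227953536) (nat_lit 28) (nat_lit 5) (nat_lit 30) (nat_lit 5) (nat_lit 31) (nat_lit 5) (nat_lit 428) (nat_lit 326) (nat_lit 266)) (XT.nd (nat_lit 78) (nat_lit 912) (nat_lit 0) (XT.lf (nat_lit 0) (nat_lit 148904611) (nat_lit 1520) (nat_lit 3289652213) (nat_lit 0) (nat_lit 148904611) (nat_lit 426) (nat_lit 5) (nat_lit 446) (nat_lit 4) (nat_lit 426) (nat_lit 4) (nat_lit 366) (nat_lit 327) (nat_lit 327)) (XT.lf (nat_lit 0) (nat_lit 1322153280) (nat_lit 912) (nat_lit 4188432416) (nat_lit 912) (nat_lit 1722552812) (nat_lit 414) (nat_lit 4) (nat_lit 426) (nat_lit 5) (nat_lit 426) (nat_lit 4) (nat_lit 367) (nat_lit 327) (nat_lit 326))))) (XT.nd (nat_lit 234) (nat_lit 2508) (nat_lit 0) (XT.nd (nat_lit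 78) (nat_lit 1824) (nat_lit 0) (XT.lf (nat_lit 0) (nat_lit 2102210263) (nat_lit 912) (nat_lit 1344397526) (nat_lit 988) (nat_lit 3847927921) (nat_lit 401) (nat_lit 5) (nat_lit 413) (nat_lit 5) (nat_lit 414) (nat_lit 4) (nat_lit 368) (nat_lit 327) (nat_lit 325)) (XT.nd (nat_lit 78) (nat_lit 836) (nat_lit 0) (XT.lf (nat_lit 0) (nat_lit 1292712152) (nat_lit 988) (nat_lit 4432119001) (nat_lit 76) (nat_lit 1634153434) (nat_lit 388) (nat_lit 5) (nat_lit 401) (nat_lit 5) (nat_lit 389) (nat_lit 4) (nat_lit 369) (nat_lit 327) (nat_lit 324)) (XT.lf (nat_lit 0) (nat_lit 3790809560) (nat_lit 836) (nat_lit 2667897682) (nat_lit 912) (nat_lit 967720489) (nat_lit 377) (nat_lit 5) (nat_lit 388) (nat_lit 5) (nat_lit 389) (nat_lit 4) (nat_lit 370) (nat_lit 327) (nat_lit 323)))) (XT.nd (nat_lit 78) (nat_lit 1596) (nat_lit 0) (XT.lf (nat_lit 0) (nat_lit 4148301587) (nat_lit 912) (nat_lit 2800550691) (nat_lit 76) (nat_lit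 548107664) (nat_lit 365) (nat_lit 5) (nat_lit 377) (nat_lit 5) (nat_lit 366) (nat_lit 4) (nat_lit 371) (nat_lit 327) (nat_lit 322)) (XT.nd (nat_lit 78) (nat_lit 760) (nat_lit 0) (XT.lf (nat_lit 0) (nat_lit 1749464553) (nat_lit 836) (nat_lit 1933085198) (nat_lit 76) (nat_lit 3887959226) (nat_lit 354) (nat_lit 5) (nat_lit 365) (nat_lit 5) (nat_lit 355) (nat_lit 5) (nat_lit 372) (nat_lit 327) (nat_lit 321)) (XT.lf (nat_lit 0) (nat_lit 6626593482) (nat_lit 760) (nat_lit 252363983) (nat_lit 836) (nat_lit 768419129) (nat_lit 344) (nat_lit 5) (nat_lit 354) (nat_lit 5) (nat_lit 355) (nat_lit 5) (nat_lit 373) (nat_lit 327) (nat_lit 320)))))) (XT.nd (nat_lit 390) (nat_lit 4332) (nat_lit 0) (XT.nd (nat_lit 156) (nat_lit 2204) (nat_lit 0) (XT.nd (nat_lit 78) (nat_lit 1520) (nat_lit 0) (XT.lf (nat_lit 0) (nat_lit 4325899155) (nat_lit 836) (nat_lit 92526255) (nat_lit 76) (nat_lit 3308614650) (nat_lit 333) (nat_lit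 5) (nat_lit 344) (nat_lit 5) (nat_lit 334) (nat_lit 5) (nat_lit 374) (nat_lit 327) (nat_lit 319)) (XT.lf (nat_lit 0) (nat_lit 894128193) (nat_lit 684) (nat_lit 773475037) (nat_lit 760) (nat_lit 6142451272) (nat_lit 313) (nat_lit 5) (nat_lit 322) (nat_lit 5) (nat_lit 323) (nat_lit 5) (nat_lit 375) (nat_lit 327) (nat_lit 318))) (XT.nd (nat_lit 78) (nat_lit 1520) (nat_lit 0) (XT.lf (nat_lit 0) (nat_lit 1903734867) (nat_lit 684) (nat_lit 4891647841) (nat_lit 760) (nat_lit 1100692645) (nat_lit 304) (nat_lit 5) (nat_lit 313) (nat_lit 5) (nat_lit 314) (nat_lit 5) (nat_lit 376) (nat_lit 327) (nat_lit 317)) (XT.nd (nat_lit 78) (nat_lit 760) (nat_lit 0) (XT.lf (nat_lit 0) (nat_lit 2944483026) (nat_lit 684) (nat_lit 1034795610) (nat_lit 760) (nat_lit 4006081987) (nat_lit 294) (nat_lit 5) (nat_lit 303) (nat_lit 5) (nat_lit 304) (nat_lit 5) (nat_lit 377) (nat_lit 327) (nat_lit 316)) (XT.lf (nat_lit 0) (nat_lit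 1062415345) (nat_lit 760) (nat_lit 4064866346) (nat_lit 76) (nat_lit 2950626719) (nat_lit 284) (nat_lit 5) (nat_lit 294) (nat_lit 5) (nat_lit 285) (nat_lit 5) (nat_lit 378) (nat_lit 327) (nat_lit 315))))) (XT.nd (nat_lit 234) (nat_lit 2432) (nat_lit 0) (XT.nd (nat_lit 78) (nat_lit 1292) (nat_lit 0) (XT.lf (nat_lit 0) (nat_lit 5108218264) (nat_lit 608) (nat_lit 1068706569) (nat_lit 684) (nat_lit 1996836220) (nat_lit 276) (nat_lit 5) (nat_lit 284) (nat_lit 5) (nat_lit 285) (nat_lit 5) (nat_lit 379) (nat_lit 327) (nat_lit 314)) (XT.nd (nat_lit 78) (nat_lit 608) (nat_lit 0) (XT.lf (nat_lit 0) (nat_lit 3095017858) (nat_lit 684) (nat_lit 2051465733) (nat_lit 76) (nat_lit 3126333335) (nat_lit 267) (nat_lit 5) (nat_lit 276) (nat_lit 5) (nat_lit 268) (nat_lit 5) (nat_lit 380) (nat_lit 327) (nat_lit 313)) (XT.lf (nat_lit 0) (nat_lit 7371811521) (nat_lit 608) (nat_lit 894570907) (nat_lit 684) (nat_lit 109144145)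 (nat_lit 259) (nat_lit 5) (nat_lit 267) (nat_lit 5) (nat_lit 268) (nat_lit 5) (nat_lit 381) (nat_lit 327) (nat_lit 312)))) (XT.nd (nat_lit 78) (nat_lit 1216) (nat_lit 0) (XT.lf (nat_lit 0) (nat_lit 41749822) (nat_lit 532) (nat_lit 4975136462) (nat_lit 608) (nat_lit 3464342987) (nat_lit 243) (nat_lit 5) (nat_lit 250) (nat_lit 5) (nat_lit 251) (nat_lit 5) (nat_lit 382) (nat_lit 327) (nat_lit 311)) (XT.nd (nat_lit 78) (nat_lit 532) (nat_lit 0) (XT.lf (nat_lit 0) (nat_lit 1134757371) (nat_lit 608) (nat_lit 512274761) (nat_lit 684) (nat_lit 6943571217) (nat_lit 234) (nat_lit 5) (nat_lit 242) (nat_lit 5) (nat_lit 243) (nat_lit 5) (nat_lit 383) (nat_lit 327) (nat_lit 310)) (XT.lf (nat_lit 0) (nat_lit 2228334291) (nat_lit 532) (nat_lit 4617327886) (nat_lit 608) (nat_lit 1857539777) (nat_lit 227) (nat_lit 5) (nat_lit 234) (nat_lit 5) (nat_lit 235) (nat_lit 5) (nat_lit 384) (nat_lit 327) (nat_lit 309)))))))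 (XT.nd (nat_lit 858) (nat_lit 4332) (nat_lit 0) (XT.nd (nat_lit 390) (nat_lit 3116) (nat_lit 0) (XT.nd (nat_lit 156) (nat_lit 1596) (nat_lit 0) (XT.nd (nat_lit 78) (nat_lit 456) (nat_lit 0) (XT.lf (nat_lit 0) (nat_lit 3296835306) (nat_lit 608) (nat_lit 5474201332) (nat_lit 76) (nat_lit 48520607) (nat_lit 219) (nat_lit 5) (nat_lit 227) (nat_lit 5) (nat_lit 220) (nat_lit 5) (nat_lit 385) (nat_lit 327) (nat_lit 308)) (XT.lf (nat_lit 0) (nat_lit 4466431822) (nat_lit 456) (nat_lit 4104229146) (nat_lit 532) (nat_lit 368714853) (nat_lit 213) (nat_lit 5) (nat_lit 219) (nat_lit 5) (nat_lit 220) (nat_lit 5) (nat_lit 386) (nat_lit 327) (nat_lit 307))) (XT.nd (nat_lit 78) (nat_lit 988) (nat_lit 0) (XT.lf (nat_lit 0) (nat_lit 4841222004) (nat_lit 608) (nat_lit 3466379433) (nat_lit 76) (nat_lit 755242487) (nat_lit 205) (nat_lit 5) (nat_lit 213) (nat_lit 5) (nat_lit 206) (nat_lit 5) (nat_lit 387) (nat_lit 327) (nat_lit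 306)) (XT.nd (nat_lit 78) (nat_lit 456) (nat_lit 0) (XT.lf (nat_lit 0) (nat_lit 990276704) (nat_lit 532) (nat_lit 2455765351) (nat_lit 76) (nat_lit 5743989790) (nat_lit 198) (nat_lit 5) (nat_lit 205) (nat_lit 5) (nat_lit 199) (nat_lit 5) (nat_lit 388) (nat_lit 327) (nat_lit 305)) (XT.lf (nat_lit 0) (nat_lit 6277751893) (nat_lit 532) (nat_lit 1444896921) (nat_lit 76) (nat_lit 1598313980) (nat_lit 192) (nat_lit 5) (nat_lit 199) (nat_lit 5) (nat_lit 193) (nat_lit 5) (nat_lit 389) (nat_lit 327) (nat_lit 304))))) (XT.nd (nat_lit 234) (nat_lit 1216) (nat_lit 0) (XT.nd (nat_lit 78) (nat_lit 1368) (nat_lit 0) (XT.lf (nat_lit 0) (nat_lit 2229433762) (nat_lit 532) (nat_lit 434743362) (nat_lit 76) (nat_lit 6791543213) (nat_lit 185) (nat_lit 5) (nat_lit 192) (nat_lit 5) (nat_lit 186) (nat_lit 5) (nat_lit 390) (nat_lit 327) (nat_lit 303)) (XT.nd (nat_lit 78) (nat_lit 532) (nat_lit 0) (XT.lf (nat_lit 0) (nat_lit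 581192864) (nat_lit 380) (nat_lit 7028746746) (nat_lit 456) (nat_lit 1984373841) (nat_lit 174) (nat_lit 5) (nat_lit 179) (nat_lit 5) (nat_lit 180) (nat_lit 5) (nat_lit 391) (nat_lit 327) (nat_lit 302)) (XT.lf (nat_lit 0) (nat_lit 1596241411) (nat_lit 456) (nat_lit 1766682038) (nat_lit 532) (nat_lit 6373854171) (nat_lit 167) (nat_lit 5) (nat_lit 173) (nat_lit 5) (nat_lit 174) (nat_lit 5) (nat_lit 392) (nat_lit 327) (nat_lit 301)))) (XT.nd (nat_lit 78) (nat_lit 836) (nat_lit 0) (XT.lf (nat_lit 0) (nat_lit 2605500352) (nat_lit 380) (nat_lit 6236439658) (nat_lit 456) (nat_lit 1041362674) (nat_lit 162) (nat_lit 5) (nat_lit 167) (nat_lit 5) (nat_lit 168) (nat_lit 5) (nat_lit 393) (nat_lit 327) (nat_lit 300)) (XT.nd (nat_lit 78) (nat_lit 380) (nat_lit 0) (XT.lf (nat_lit 0) (nat_lit 3603321925) (nat_lit 380) (nat_lit 777475102) (nat_lit 456) (nat_lit 5653100883) (nat_lit 156) (nat_lit 5) (nat_lit 161) (nat_lit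 5) (nat_lit 162) (nat_lit 5) (nat_lit 394) (nat_lit 327) (nat_lit 299)) (XT.lf (nat_lit 0) (nat_lit 4589662597) (nat_lit 380) (nat_lit 5371787941) (nat_lit 456) (nat_lit 227236649) (nat_lit 151) (nat_lit 5) (nat_lit 156) (nat_lit 5) (nat_lit 157) (nat_lit 5) (nat_lit 395) (nat_lit 327) (nat_lit 298)))))) (XT.nd (nat_lit 390) (nat_lit 2280) (nat_lit 0) (XT.nd (nat_lit 156) (nat_lit 1140) (nat_lit 0) (XT.nd (nat_lit 78) (nat_lit 456) (nat_lit 0) (XT.lf (nat_lit 0) (nat_lit 5278384723) (nat_lit 456) (nat_lit 4788750128) (nat_lit 76) (nat_lit 280555919) (nat_lit 145) (nat_lit 5) (nat_lit 151) (nat_lit 5) (nat_lit 146) (nat_lit 5) (nat_lit 396) (nat_lit 327) (nat_lit 297)) (XT.lf (nat_lit 0) (nat_lit 447348454) (nat_lit 456) (nat_lit 4000953101) (nat_lit 76) (nat_lit 6062720651) (nat_lit 139) (nat_lit 5) (nat_lit 145) (nat_lit 5) (nat_lit 140) (nat_lit 5) (nat_lit 397) (nat_lit 327) (nat_lit 296))) (XT.nd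 (nat_lit 78) (nat_lit 760) (nat_lit 0) (XT.lf (nat_lit 0) (nat_lit 6054247936) (nat_lit 456) (nat_lit 3240717976) (nat_lit 76) (nat_lit 1383756956) (nat_lit 134) (nat_lit 5) (nat_lit 140) (nat_lit 5) (nat_lit 135) (nat_lit 5) (nat_lit 398) (nat_lit 327) (nat_lit 295)) (XT.nd (nat_lit 78) (nat_lit 380) (nat_lit 0) (XT.lf (nat_lit 0) (nat_lit 981056380) (nat_lit 380) (nat_lit 2504165450) (nat_lit 76) (nat_lit 7365797324) (nat_lit 129) (nat_lit 5) (nat_lit 134) (nat_lit 5) (nat_lit 130) (nat_lit 5) (nat_lit 399) (nat_lit 327) (nat_lit 294)) (XT.lf (nat_lit 0) (nat_lit 6696795482) (nat_lit 456) (nat_lit 1805266279) (nat_lit 76) (nat_lit 2525724703) (nat_lit 124) (nat_lit 5) (nat_lit 130) (nat_lit 5) (nat_lit 125) (nat_lit 5) (nat_lit 400) (nat_lit 327) (nat_lit 293))))) (XT.nd (nat_lit 234) (nat_lit 912) (nat_lit 0) (XT.nd (nat_lit 78) (nat_lit 988) (nat_lit 0) (XT.lf (nat_lit 0) (nat_lit 1369322712) (nat_lit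 380) (nat_lit 1132073362) (nat_lit 76) (nat_lit 8708028754) (nat_lit 119) (nat_lit 5) (nat_lit 124) (nat_lit 5) (nat_lit 120) (nat_lit 5) (nat_lit 401) (nat_lit 327) (nat_lit 292)) (XT.nd (nat_lit 78) (nat_lit 684) (nat_lit 0) (XT.lf (nat_lit 0) (nat_lit 7197958595) (nat_lit 380) (nat_lit 508342339) (nat_lit 76) (nat_lit 3689325846) (nat_lit 115) (nat_lit 5) (nat_lit 120) (nat_lit 5) (nat_lit 116) (nat_lit 5) (nat_lit 402) (nat_lit 327) (nat_lit 291)) (XT.lf (nat_lit 0) (nat_lit 89357888) (nat_lit 304) (nat_lit 1514232341) (nat_lit 380) (nat_lit 9983410159) (nat_lit 106) (nat_lit 5) (nat_lit 110) (nat_lit 5) (nat_lit 111) (nat_lit 5) (nat_lit 403) (nat_lit 327) (nat_lit 290)))) (XT.nd (nat_lit 78) (nat_lit 608) (nat_lit 0) (XT.lf (nat_lit 0) (nat_lit 629968587) (nat_lit 304) (nat_lit 6922156258) (nat_lit 380) (nat_lit 4230839369) (nat_lit 102) (nat_lit 5) (nat_lit 106) (nat_lit 5) (nat_lit 107) (nat_lit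 5) (nat_lit 404) (nat_lit 327) (nat_lit 289)) (XT.nd (nat_lit 78) (nat_lit 228) (nat_lit 0) (XT.lf (nat_lit 0) (nat_lit 1141901071) (nat_lit 304) (nat_lit 536784974) (nat_lit 380) (nat_lit 10305777782) (nat_lit 97) (nat_lit 5) (nat_lit 101) (nat_lit 5) (nat_lit 102) (nat_lit 5) (nat_lit 405) (nat_lit 327) (nat_lit 288)) (XT.lf (nat_lit 0) (nat_lit 1574468501) (nat_lit 228) (nat_lit 6171317330) (nat_lit 304) (nat_lit 4444916500) (nat_lit 94) (nat_lit 5) (nat_lit 97) (nat_lit 5) (nat_lit 98) (nat_lit 5) (nat_lit 406) (nat_lit 327) (nat_lit 287))))))))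
noncomputable def xc23 : XT := (XT.nd (nat_lit 49764) (nat_lit 0) (nat_lit 14516) (XT.nd (nat_lit 858) (nat_lit 2052) (nat_lit 0) (XT.nd (nat_lit 390) (nat_lit 1444) (nat_lit 0) (XT.nd (nat_lit 156) (nat_lit 912) (nat_lit 0) (XT.nd (nat_lit 78) (nat_lit 228) (nat_lit 0) (XT.lf (nat_lit 0) (nat_lit 1576878442) (nat_lit 380) (nat_lit 10427967460) (nat_lit 76) (nat_lit 397963893) (nat_lit 89) (nat_lit 5) (nat_lit 94) (nat_lit 5) (nat_lit 90) (nat_lit 5) (nat_lit 407) (nat_lit 327) (nat_lit 286)) (XT.lf (nat_lit 0) (nat_lit 2283831300) (nat_lit 228) (nat_lit 5478182465) (nat_lit 304) (nat_lit 4857825537) (nat_lit 86) (nat_lit 5) (nat_lit 89) (nat_lit 5) (nat_lit 90) (nat_lit 5) (nat_lit 408) (nat_lit 327) (nat_lit 285))) (XT.nd (nat_lit 78) (nat_lit 532) (nat_lit 0) (XT.lf (nat_lit 0) (nat_lit 1283737888) (nat_lit 380) (nat_lit 10291585142) (nat_lit 76) (nat_lit 1267670323) (nat_lit 81) (nat_lit 5) (nat_lit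 86) (nat_lit 5) (nat_lit 82) (nat_lit 5) (nat_lit 409) (nat_lit 327) (nat_lit 284)) (XT.nd (nat_lit 78) (nat_lit 304) (nat_lit 0) (XT.lf (nat_lit 0) (nat_lit 2720009808) (nat_lit 228) (nat_lit 4865135063) (nat_lit 304) (nat_lit 5486230386) (nat_lit 78) (nat_lit 5) (nat_lit 81) (nat_lit 5) (nat_lit 82) (nat_lit 5) (nat_lit 410) (nat_lit 327) (nat_lit 283)) (XT.lf (nat_lit 0) (nat_lit 778531158) (nat_lit 304) (nat_lit 10470774210) (nat_lit 76) (nat_lit 2056817765) (nat_lit 74) (nat_lit 5) (nat_lit 78) (nat_lit 5) (nat_lit 75) (nat_lit 5) (nat_lit 411) (nat_lit 327) (nat_lit 282))))) (XT.nd (nat_lit 234) (nat_lit 684) (nat_lit 0) (XT.nd (nat_lit 78) (nat_lit 532) (nat_lit 0) (XT.lf (nat_lit 0) (nat_lit 2841063666) (nat_lit 228) (nat_lit 4356189481) (nat_lit 304) (nat_lit 6349130725) (nat_lit 71) (nat_lit 5) (nat_lit 74) (nat_lit 5) (nat_lit 75) (nat_lit 5) (nat_lit 412) (nat_lit 327) (nat_lit 281)) (XT.nd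 (nat_lit 78) (nat_lit 228) (nat_lit 0) (XT.lf (nat_lit 0) (nat_lit 41621097) (nat_lit 304) (nat_lit 11010557158) (nat_lit 76) (nat_lit 2741136145) (nat_lit 67) (nat_lit 5) (nat_lit 71) (nat_lit 5) (nat_lit 68) (nat_lit 5) (nat_lit 413) (nat_lit 327) (nat_lit 280)) (XT.lf (nat_lit 0) (nat_lit 2600702188) (nat_lit 228) (nat_lit 3977244202) (nat_lit 304) (nat_lit 7468071156) (nat_lit 64) (nat_lit 5) (nat_lit 67) (nat_lit 5) (nat_lit 68) (nat_lit 5) (nat_lit 414) (nat_lit 327) (nat_lit 279)))) (XT.nd (nat_lit 78) (nat_lit 456) (nat_lit 0) (XT.lf (nat_lit 0) (nat_lit 2338775978) (nat_lit 228) (nat_lit 11005012070) (nat_lit 304) (nat_lit 961851298) (nat_lit 61) (nat_lit 5) (nat_lit 64) (nat_lit 5) (nat_lit 65) (nat_lit 5) (nat_lit 415) (nat_lit 327) (nat_lit 278)) (XT.nd (nat_lit 78) (nat_lit 228) (nat_lit 0) (XT.lf (nat_lit 0) (nat_lit 1947782108) (nat_lit 152) (nat_lit 3756355959) (nat_lit 228) (nat_lit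 8867375063) (nat_lit 58) (nat_lit 5) (nat_lit 60) (nat_lit 5) (nat_lit 61) (nat_lit 5) (nat_lit 416) (nat_lit 327) (nat_lit 277)) (XT.lf (nat_lit 0) (nat_lit 1454030907) (nat_lit 228) (nat_lit 11141807562) (nat_lit 304) (nat_lit 2248627147) (nat_lit 55) (nat_lit 5) (nat_lit 58) (nat_lit 5) (nat_lit 59) (nat_lit 5) (nat_lit 417) (nat_lit 327) (nat_lit 276)))))) (XT.nd (nat_lit 390) (nat_lit 1064) (nat_lit 0) (XT.nd (nat_lit 156) (nat_lit 532) (nat_lit 0) (XT.nd (nat_lit 78) (nat_lit 228) (nat_lit 0) (XT.lf (nat_lit 0) (nat_lit 825755267) (nat_lit 152) (nat_lit 3724037425) (nat_lit 228) (nat_lit 10574405510) (nat_lit 52) (nat_lit 5) (nat_lit 54) (nat_lit 5) (nat_lit 55) (nat_lit 5) (nat_lit 418) (nat_lit 327) (nat_lit 275)) (XT.lf (nat_lit 0) (nat_lit 69337345) (nat_lit 228) (nat_lit 11495092546) (nat_lit 304) (nat_lit 3846744512) (nat_lit 49) (nat_lit 5) (nat_lit 52) (nat_lit 5) (nat_lit 53) (nat_lit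 5) (nat_lit 419) (nat_lit 327) (nat_lit 274))) (XT.nd (nat_lit 78) (nat_lit 456) (nat_lit 0) (XT.lf (nat_lit 0) (nat_lit 3091017710) (nat_lit 304) (nat_lit 817080590) (nat_lit 76) (nat_lit 11797292190) (nat_lit 48) (nat_lit 5) (nat_lit 52) (nat_lit 5) (nat_lit 49) (nat_lit 5) (nat_lit 420) (nat_lit 327) (nat_lit 273)) (XT.nd (nat_lit 78) (nat_lit 304) (nat_lit 0) (XT.lf (nat_lit 0) (nat_lit 10231192489) (nat_lit 228) (nat_lit 1856438512) (nat_lit 76) (nat_lit 3919367489) (nat_lit 46) (nat_lit 5) (nat_lit 49) (nat_lit 5) (nat_lit 47) (nat_lit 5) (nat_lit 421) (nat_lit 327) (nat_lit 272)) (XT.lf (nat_lit 0) (nat_lit 1298884240) (nat_lit 304) (nat_lit 3042115772) (nat_lit 76) (nat_lit 11975542739) (nat_lit 42) (nat_lit 5) (nat_lit 46) (nat_lit 5) (nat_lit 43) (nat_lit 5) (nat_lit 422) (nat_lit 327) (nat_lit 271))))) (XT.nd (nat_lit 234) (nat_lit 532) (nat_lit 0) (XT.nd (nat_lit 78) (nat_lit 380) (nat_lit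 0) (XT.lf (nat_lit 0) (nat_lit 8554226188) (nat_lit 228) (nat_lit 4411531088) (nat_lit 76) (nat_lit 3667919313) (nat_lit 40) (nat_lit 5) (nat_lit 43) (nat_lit 5) (nat_lit 41) (nat_lit 5) (nat_lit 423) (nat_lit 327) (nat_lit 270)) (XT.nd (nat_lit 78) (nat_lit 228) (nat_lit 0) (XT.lf (nat_lit 0) (nat_lit 11017733794) (nat_lit 152) (nat_lit 5061824404) (nat_lit 228) (nat_lit 879723959) (nat_lit 38) (nat_lit 5) (nat_lit 40) (nat_lit 5) (nat_lit 41) (nat_lit 5) (nat_lit 424) (nat_lit 327) (nat_lit 269)) (XT.lf (nat_lit 0) (nat_lit 6495252875) (nat_lit 228) (nat_lit 7676456906) (nat_lit 76) (nat_lit 3121201908) (nat_lit 35) (nat_lit 5) (nat_lit 38) (nat_lit 5) (nat_lit 36) (nat_lit 5) (nat_lit 425) (nat_lit 327) (nat_lit 268)))) (XT.nd (nat_lit 78) (nat_lit 380) (nat_lit 0) (XT.lf (nat_lit 0) (nat_lit 8030528514) (nat_lit 152) (nat_lit 6108222401) (nat_lit 228) (nat_lit 3496502399) (nat_lit 33) (nat_lit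 5) (nat_lit 35) (nat_lit 5) (nat_lit 36) (nat_lit 5) (nat_lit 426) (nat_lit 327) (nat_lit 267)) (XT.nd (nat_lit 78) (nat_lit 152) (nat_lit 0) (XT.lf (nat_lit 0) (nat_lit 4012023189) (nat_lit 228) (nat_lit 11739379433) (nat_lit 76) (nat_lit 2235121753) (nat_lit 30) (nat_lit 5) (nat_lit 33) (nat_lit 5) (nat_lit 31) (nat_lit 5) (nat_lit 427) (nat_lit 327) (nat_lit 266)) (XT.lf (nat_lit 0) (nat_lit 4230324509) (nat_lit 152) (nat_lit 7536283820) (nat_lit 228) (nat_lit 6579900530) (nat_lit 28) (nat_lit 5) (nat_lit 30) (nat_lit 5) (nat_lit 31) (nat_lit 5) (nat_lit 428) (nat_lit 327) (nat_lit 265))))))) (XT.nd (nat_lit 858) (nat_lit 8664) (nat_lit 0) (XT.nd (nat_lit 390) (nat_lit 5168) (nat_lit 0) (XT.nd (nat_lit 156) (nat_lit 5168) (nat_lit 0) (XT.nd (nat_lit 78) (nat_lit 1748) (nat_lit 0) (XT.lf (nat_lit 0) (nat_lit 3210980848) (nat_lit 1596) (nat_lit 160915625) (nat_lit 1596) (nat_lit 160915625) (nat_lit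 492) (nat_lit 4) (nat_lit 513) (nat_lit 5) (nat_lit 513) (nat_lit 4) (nat_lit 364) (nat_lit 328) (nat_lit 328)) (XT.lf (nat_lit 0) (nat_lit 4804931864) (nat_lit 1748) (nat_lit 100149203) (nat_lit 0) (nat_lit 2214278752) (nat_lit 469) (nat_lit 5) (nat_lit 492) (nat_lit 4) (nat_lit 469) (nat_lit 4) (nat_lit 365) (nat_lit 328) (nat_lit 327))) (XT.nd (nat_lit 78) (nat_lit 1900) (nat_lit 0) (XT.lf (nat_lit 0) (nat_lit 502868152) (nat_lit 1444) (nat_lit 2273725145) (nat_lit 1520) (nat_lit 4399572172) (nat_lit 426) (nat_lit 5) (nat_lit 445) (nat_lit 5) (nat_lit 446) (nat_lit 4) (nat_lit 366) (nat_lit 328) (nat_lit 326)) (XT.nd (nat_lit 78) (nat_lit 912) (nat_lit 0) (XT.lf (nat_lit 0) (nat_lit 655058891) (nat_lit 988) (nat_lit 6076574503) (nat_lit 76) (nat_lit 504470371) (nat_lit 413) (nat_lit 5) (nat_lit 426) (nat_lit 5) (nat_lit 414) (nat_lit 4) (nat_lit 367) (nat_lit 328) (nat_lit 325)) (XT.lf (nat_lit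 0) (nat_lit 1845411750) (nat_lit 912) (nat_lit 3882079953) (nat_lit 988) (nat_lit 1571287860) (nat_lit 401) (nat_lit 5) (nat_lit 413) (nat_lit 5) (nat_lit 414) (nat_lit 4) (nat_lit 368) (nat_lit 328) (nat_lit 324))))) (XT.nd (nat_lit 234) (nat_lit 2432) (nat_lit 0) (XT.nd (nat_lit 78) (nat_lit 1748) (nat_lit 0) (XT.lf (nat_lit 0) (nat_lit 2580946910) (nat_lit 912) (nat_lit 874142907) (nat_lit 988) (nat_lit 3909549681) (nat_lit 388) (nat_lit 5) (nat_lit 400) (nat_lit 5) (nat_lit 401) (nat_lit 5) (nat_lit 369) (nat_lit 328) (nat_lit 323)) (XT.nd (nat_lit 78) (nat_lit 836) (nat_lit 0) (XT.lf (nat_lit 0) (nat_lit 1094636898) (nat_lit 912) (nat_lit 4078088244) (nat_lit 76) (nat_lit 2260796247) (nat_lit 376) (nat_lit 5) (nat_lit 388) (nat_lit 5) (nat_lit 377) (nat_lit 5) (nat_lit 370) (nat_lit 328) (nat_lit 322)) (XT.lf (nat_lit 0) (nat_lit 4168149840) (nat_lit 836) (nat_lit 1954051265) (nat_lit 912) (nat_lit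 1383259352) (nat_lit 365) (nat_lit 5) (nat_lit 376) (nat_lit 5) (nat_lit 377) (nat_lit 5) (nat_lit 371) (nat_lit 328) (nat_lit 321)))) (XT.nd (nat_lit 78) (nat_lit 1596) (nat_lit 0) (XT.lf (nat_lit 0) (nat_lit 3604635831) (nat_lit 836) (nat_lit 2563817927) (nat_lit 76) (nat_lit 1412005914) (nat_lit 354) (nat_lit 5) (nat_lit 365) (nat_lit 5) (nat_lit 355) (nat_lit 5) (nat_lit 372) (nat_lit 328) (nat_lit 320)) (XT.nd (nat_lit 78) (nat_lit 760) (nat_lit 0) (XT.lf (nat_lit 0) (nat_lit 991322030) (nat_lit 836) (nat_lit 1754752947) (nat_lit 76) (nat_lit 4912555206) (nat_lit 343) (nat_lit 5) (nat_lit 354) (nat_lit 5) (nat_lit 344) (nat_lit 5) (nat_lit 373) (nat_lit 328) (nat_lit 319)) (XT.lf (nat_lit 0) (nat_lit 5988719661) (nat_lit 836) (nat_lit 914219889) (nat_lit 76) (nat_lit 837006299) (nat_lit 333) (nat_lit 5) (nat_lit 344) (nat_lit 5) (nat_lit 334) (nat_lit 5) (nat_lit 374) (nat_lit 328) (nat_lit 318))))))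 (XT.nd (nat_lit 390) (nat_lit 4332) (nat_lit 0) (XT.nd (nat_lit 156) (nat_lit 2052) (nat_lit 0) (XT.nd (nat_lit 78) (nat_lit 1444) (nat_lit 0) (XT.lf (nat_lit 0) (nat_lit 3219819093) (nat_lit 836) (nat_lit 51368346) (nat_lit 76) (nat_lit 4553094203) (nat_lit 322) (nat_lit 5) (nat_lit 333) (nat_lit 5) (nat_lit 323) (nat_lit 5) (nat_lit 375) (nat_lit 328) (nat_lit 317)) (XT.lf (nat_lit 0) (nat_lit 344191240) (nat_lit 760) (nat_lit 7045760742) (nat_lit 76) (nat_lit 522054826) (nat_lit 303) (nat_lit 5) (nat_lit 313) (nat_lit 5) (nat_lit 304) (nat_lit 5) (nat_lit 376) (nat_lit 328) (nat_lit 316))) (XT.nd (nat_lit 78) (nat_lit 1368) (nat_lit 0) (XT.lf (nat_lit 0) (nat_lit 1791801226) (nat_lit 684) (nat_lit 3547868688) (nat_lit 760) (nat_lit 2662893678) (nat_lit 294) (nat_lit 5) (nat_lit 303) (nat_lit 5) (nat_lit 304) (nat_lit 5) (nat_lit 377) (nat_lit 328) (nat_lit 315)) (XT.nd (nat_lit 78) (nat_lit 608)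 (nat_lit 0) (XT.lf (nat_lit 0) (nat_lit 2301658879) (nat_lit 760) (nat_lit 5338762383) (nat_lit 76) (nat_lit 456254937) (nat_lit 284) (nat_lit 5) (nat_lit 294) (nat_lit 5) (nat_lit 285) (nat_lit 5) (nat_lit 378) (nat_lit 328) (nat_lit 314)) (XT.lf (nat_lit 0) (nat_lit 3739916652) (nat_lit 608) (nat_lit 3606916820) (nat_lit 684) (nat_lit 847094363) (nat_lit 276) (nat_lit 5) (nat_lit 284) (nat_lit 5) (nat_lit 285) (nat_lit 5) (nat_lit 379) (nat_lit 328) (nat_lit 313))))) (XT.nd (nat_lit 234) (nat_lit 2356) (nat_lit 0) (XT.nd (nat_lit 78) (nat_lit 1292) (nat_lit 0) (XT.lf (nat_lit 0) (nat_lit 4143813203) (nat_lit 684) (nat_lit 3547796973) (nat_lit 76) (nat_lit 602953289) (nat_lit 267) (nat_lit 5) (nat_lit 276) (nat_lit 5) (nat_lit 268) (nat_lit 5) (nat_lit 380) (nat_lit 328) (nat_lit 312)) (XT.nd (nat_lit 78) (nat_lit 608) (nat_lit 0) (XT.lf (nat_lit 0) (nat_lit 836616716) (nat_lit 684) (nat_lit 2625438392)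 (nat_lit 76) (nat_lit 4936494940) (nat_lit 258) (nat_lit 5) (nat_lit 267) (nat_lit 5) (nat_lit 259) (nat_lit 5) (nat_lit 381) (nat_lit 328) (nat_lit 311)) (XT.lf (nat_lit 0) (nat_lit 5875308385) (nat_lit 684) (nat_lit 1686740784) (nat_lit 76) (nat_lit 943918366) (nat_lit 250) (nat_lit 5) (nat_lit 259) (nat_lit 5) (nat_lit 251) (nat_lit 5) (nat_lit 382) (nat_lit 328) (nat_lit 310)))) (XT.nd (nat_lit 78) (nat_lit 1748) (nat_lit 0) (XT.lf (nat_lit 0) (nat_lit 2393830563) (nat_lit 608) (nat_lit 738310603) (nat_lit 76) (nat_lit 5484621517) (nat_lit 242) (nat_lit 5) (nat_lit 250) (nat_lit 5) (nat_lit 243) (nat_lit 5) (nat_lit 383) (nat_lit 328) (nat_lit 309)) (XT.nd (nat_lit 78) (nat_lit 608) (nat_lit 0) (XT.lf (nat_lit 0) (nat_lit 233336862) (nat_lit 532) (nat_lit 7267912040) (nat_lit 608) (nat_lit 1229946615) (nat_lit 227) (nat_lit 5) (nat_lit 234) (nat_lit 5) (nat_lit 235) (nat_lit 5) (nat_lit 384) (nat_lit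 328) (nat_lit 308)) (XT.lf (nat_lit 0) (nat_lit 1214422181) (nat_lit 532) (nat_lit 2632035242) (nat_lit 608) (nat_lit 5002416204) (nat_lit 219) (nat_lit 5) (nat_lit 226) (nat_lit 5) (nat_lit 227) (nat_lit 5) (nat_lit 385) (nat_lit 328) (nat_lit 307))))))))
noncomputable def xc24 : XT := (XT.nd (nat_lit 1716) (nat_lit 4636) (nat_lit 0) (XT.nd (nat_lit 858) (nat_lit 3876) (nat_lit 0) (XT.nd (nat_lit 390) (nat_lit 3040) (nat_lit 0) (XT.nd (nat_lit 156) (nat_lit 1520) (nat_lit 0) (XT.nd (nat_lit 78) (nat_lit 532) (nat_lit 0) (XT.lf (nat_lit 0) (nat_lit 62749034) (nat_lit 532) (nat_lit 6753029806) (nat_lit 76) (nat_lit 2154639809) (nat_lit 212) (nat_lit 5) (nat_lit 219) (nat_lit 5) (nat_lit 213) (nat_lit 5) (nat_lit 386) (nat_lit 328) (nat_lit 306)) (XT.lf (nat_lit 0) (nat_lit 3212255574) (nat_lit 532) (nat_lit 1981269884) (nat_lit 608) (nat_lit 3901808700) (nat_lit 205) (nat_lit 5) (nat_lit 212) (nat_lit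 5) (nat_lit 213) (nat_lit 5) (nat_lit 387) (nat_lit 328) (nat_lit 305))) (XT.nd (nat_lit 78) (nat_lit 988) (nat_lit 0) (XT.lf (nat_lit 0) (nat_lit 1223274267) (nat_lit 532) (nat_lit 5003379767) (nat_lit 76) (nat_lit 2997487309) (nat_lit 198) (nat_lit 5) (nat_lit 205) (nat_lit 5) (nat_lit 199) (nat_lit 5) (nat_lit 388) (nat_lit 328) (nat_lit 304)) (XT.nd (nat_lit 78) (nat_lit 532) (nat_lit 0) (XT.lf (nat_lit 0) (nat_lit 5229684909) (nat_lit 456) (nat_lit 1201110344) (nat_lit 532) (nat_lit 2925884249) (nat_lit 192) (nat_lit 5) (nat_lit 198) (nat_lit 5) (nat_lit 199) (nat_lit 5) (nat_lit 389) (nat_lit 328) (nat_lit 303)) (XT.lf (nat_lit 0) (nat_lit 2267532642) (nat_lit 532) (nat_lit 3257407665) (nat_lit 76) (nat_lit 3968043017) (nat_lit 185) (nat_lit 5) (nat_lit 192) (nat_lit 5) (nat_lit 186) (nat_lit 5) (nat_lit 390) (nat_lit 328) (nat_lit 302))))) (XT.nd (nat_lit 234) (nat_lit 1672) (nat_lit 0) (XT.nd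 (nat_lit 78) (nat_lit 912) (nat_lit 0) (XT.lf (nat_lit 0) (nat_lit 7250200565) (nat_lit 456) (nat_lit 307544821) (nat_lit 532) (nat_lit 2075644421) (nat_lit 179) (nat_lit 5) (nat_lit 185) (nat_lit 5) (nat_lit 186) (nat_lit 5) (nat_lit 391) (nat_lit 328) (nat_lit 301)) (XT.nd (nat_lit 78) (nat_lit 456) (nat_lit 0) (XT.lf (nat_lit 0) (nat_lit 3194126854) (nat_lit 456) (nat_lit 1532545159) (nat_lit 76) (nat_lit 5050775423) (nat_lit 173) (nat_lit 5) (nat_lit 179) (nat_lit 5) (nat_lit 174) (nat_lit 5) (nat_lit 392) (nat_lit 328) (nat_lit 300)) (XT.lf (nat_lit 0) (nat_lit 8577115309) (nat_lit 532) (nat_lit 674134912) (nat_lit 76) (nat_lit 674649779) (nat_lit 167) (nat_lit 5) (nat_lit 174) (nat_lit 5) (nat_lit 168) (nat_lit 5) (nat_lit 393) (nat_lit 328) (nat_lit 299)))) (XT.nd (nat_lit 78) (nat_lit 836) (nat_lit 0) (XT.lf (nat_lit 0) (nat_lit 154666636) (nat_lit 380) (nat_lit 3846782817) (nat_lit 456) (nat_lit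 6076611445) (nat_lit 156) (nat_lit 5) (nat_lit 161) (nat_lit 5) (nat_lit 162) (nat_lit 5) (nat_lit 394) (nat_lit 328) (nat_lit 298)) (XT.nd (nat_lit 78) (nat_lit 456) (nat_lit 0) (XT.lf (nat_lit 0) (nat_lit 995863414) (nat_lit 380) (nat_lit 8494671463) (nat_lit 456) (nat_lit 744153073) (nat_lit 151) (nat_lit 5) (nat_lit 156) (nat_lit 5) (nat_lit 157) (nat_lit 5) (nat_lit 395) (nat_lit 328) (nat_lit 297)) (XT.lf (nat_lit 0) (nat_lit 1801861545) (nat_lit 380) (nat_lit 2892443896) (nat_lit 456) (nat_lit 5700938164) (nat_lit 145) (nat_lit 5) (nat_lit 150) (nat_lit 5) (nat_lit 151) (nat_lit 5) (nat_lit 396) (nat_lit 328) (nat_lit 296)))))) (XT.nd (nat_lit 390) (nat_lit 1900) (nat_lit 0) (XT.nd (nat_lit 156) (nat_lit 1140) (nat_lit 0) (XT.nd (nat_lit 78) (nat_lit 456) (nat_lit 0) (XT.lf (nat_lit 0) (nat_lit 2603131264) (nat_lit 380) (nat_lit 7686064914) (nat_lit 456) (nat_lit 271265632) (nat_lit 140) (nat_lit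 5) (nat_lit 145) (nat_lit 5) (nat_lit 146) (nat_lit 5) (nat_lit 397) (nat_lit 328) (nat_lit 295)) (XT.lf (nat_lit 0) (nat_lit 3366911280) (nat_lit 380) (nat_lit 1890341996) (nat_lit 456) (nat_lit 5472588826) (nat_lit 134) (nat_lit 5) (nat_lit 139) (nat_lit 5) (nat_lit 140) (nat_lit 5) (nat_lit 398) (nat_lit 328) (nat_lit 294))) (XT.nd (nat_lit 78) (nat_lit 760) (nat_lit 0) (XT.lf (nat_lit 0) (nat_lit 58089557) (nat_lit 380) (nat_lit 6788263328) (nat_lit 76) (nat_lit 4057620524) (nat_lit 129) (nat_lit 5) (nat_lit 134) (nat_lit 5) (nat_lit 130) (nat_lit 5) (nat_lit 399) (nat_lit 328) (nat_lit 293)) (XT.nd (nat_lit 78) (nat_lit 380) (nat_lit 0) (XT.lf (nat_lit 0) (nat_lit 4826227850) (nat_lit 380) (nat_lit 857278743) (nat_lit 456) (nat_lit 5399045779) (nat_lit 124) (nat_lit 5) (nat_lit 129) (nat_lit 5) (nat_lit 130) (nat_lit 5) (nat_lit 400) (nat_lit 328) (nat_lit 292)) (XT.lf (nat_lit 0) (nat_lit 235101576)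 (nat_lit 380) (nat_lit 5757314423) (nat_lit 76) (nat_lit 5273521870) (nat_lit 119) (nat_lit 5) (nat_lit 124) (nat_lit 5) (nat_lit 120) (nat_lit 5) (nat_lit 401) (nat_lit 328) (nat_lit 291))))) (XT.nd (nat_lit 234) (nat_lit 912) (nat_lit 0) (XT.nd (nat_lit 78) (nat_lit 684) (nat_lit 0) (XT.lf (nat_lit 0) (nat_lit 5965987295) (nat_lit 380) (nat_lit 5301219431) (nat_lit 76) (nat_lit 186892914) (nat_lit 115) (nat_lit 5) (nat_lit 120) (nat_lit 5) (nat_lit 116) (nat_lit 5) (nat_lit 402) (nat_lit 328) (nat_lit 290)) (XT.nd (nat_lit 78) (nat_lit 304) (nat_lit 0) (XT.lf (nat_lit 0) (nat_lit 253837927) (nat_lit 380) (nat_lit 4890238555) (nat_lit 76) (nat_lit 6503093570) (nat_lit 110) (nat_lit 5) (nat_lit 115) (nat_lit 5) (nat_lit 111) (nat_lit 5) (nat_lit 403) (nat_lit 328) (nat_lit 289)) (XT.lf (nat_lit 0) (nat_lit 6099065291) (nat_lit 380) (nat_lit 4530780708) (nat_lit 76) (nat_lit 1215358475) (nat_lit 106)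 (nat_lit 5) (nat_lit 111) (nat_lit 5) (nat_lit 107) (nat_lit 5) (nat_lit 404) (nat_lit 328) (nat_lit 288)))) (XT.nd (nat_lit 78) (nat_lit 532) (nat_lit 0) (XT.lf (nat_lit 0) (nat_lit 103098493) (nat_lit 380) (nat_lit 4217128627) (nat_lit 76) (nat_lit 7728281195) (nat_lit 101) (nat_lit 5) (nat_lit 106) (nat_lit 5) (nat_lit 102) (nat_lit 5) (nat_lit 405) (nat_lit 328) (nat_lit 287)) (XT.nd (nat_lit 78) (nat_lit 228) (nat_lit 0) (XT.lf (nat_lit 0) (nat_lit 6065360447) (nat_lit 380) (nat_lit 3970922866) (nat_lit 76) (nat_lit 2220564374) (nat_lit 97) (nat_lit 5) (nat_lit 102) (nat_lit 5) (nat_lit 98) (nat_lit 5) (nat_lit 406) (nat_lit 328) (nat_lit 286)) (XT.lf (nat_lit 0) (nat_lit 8698326425) (nat_lit 228) (nat_lit 3539277698) (nat_lit 304) (nat_lit 233218947) (nat_lit 94) (nat_lit 5) (nat_lit 97) (nat_lit 5) (nat_lit 98) (nat_lit 5) (nat_lit 407) (nat_lit 328) (nat_lit 285))))))) (XT.nd (nat_lit 858)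 (nat_lit 1596) (nat_lit 0) (XT.nd (nat_lit 390) (nat_lit 1520) (nat_lit 0) (XT.nd (nat_lit 156) (nat_lit 912) (nat_lit 0) (XT.nd (nat_lit 78) (nat_lit 228) (nat_lit 0) (XT.lf (nat_lit 0) (nat_lit 5851157556) (nat_lit 380) (nat_lit 3656209246) (nat_lit 76) (nat_lit 3182596212) (nat_lit 89) (nat_lit 5) (nat_lit 94) (nat_lit 5) (nat_lit 90) (nat_lit 5) (nat_lit 408) (nat_lit 328) (nat_lit 284)) (XT.lf (nat_lit 0) (nat_lit 9322004304) (nat_lit 228) (nat_lit 2821978568) (nat_lit 304) (nat_lit 771089222) (nat_lit 86) (nat_lit 5) (nat_lit 89) (nat_lit 5) (nat_lit 90) (nat_lit 5) (nat_lit 409) (nat_lit 328) (nat_lit 283))) (XT.nd (nat_lit 78) (nat_lit 532) (nat_lit 0) (XT.lf (nat_lit 0) (nat_lit 5440680203) (nat_lit 380) (nat_lit 3624661224) (nat_lit 76) (nat_lit 4080211223) (nat_lit 81) (nat_lit 5) (nat_lit 86) (nat_lit 5) (nat_lit 82) (nat_lit 5) (nat_lit 410) (nat_lit 328) (nat_lit 282)) (XT.nd (nat_lit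 78) (nat_lit 304) (nat_lit 0) (XT.lf (nat_lit 0) (nat_lit 9664109593) (nat_lit 228) (nat_lit 2191621424) (nat_lit 304) (nat_lit 1526573502) (nat_lit 78) (nat_lit 5) (nat_lit 81) (nat_lit 5) (nat_lit 82) (nat_lit 5) (nat_lit 411) (nat_lit 328) (nat_lit 281)) (XT.lf (nat_lit 0) (nat_lit 4815910680) (nat_lit 304) (nat_lit 3918169584) (nat_lit 76) (nat_lit 4890611653) (nat_lit 74) (nat_lit 5) (nat_lit 78) (nat_lit 5) (nat_lit 75) (nat_lit 5) (nat_lit 412) (nat_lit 328) (nat_lit 280))))) (XT.nd (nat_lit 234) (nat_lit 760) (nat_lit 0) (XT.nd (nat_lit 78) (nat_lit 532) (nat_lit 0) (XT.lf (nat_lit 0) (nat_lit 9681618926) (nat_lit 228) (nat_lit 1672522134) (nat_lit 304) (nat_lit 2519490224) (nat_lit 71) (nat_lit 5) (nat_lit 74) (nat_lit 5) (nat_lit 75) (nat_lit 5) (nat_lit 413) (nat_lit 328) (nat_lit 279)) (XT.nd (nat_lit 78) (nat_lit 228) (nat_lit 0) (XT.lf (nat_lit 0) (nat_lit 3956388098) (nat_lit 304) (nat_lit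 4582946070) (nat_lit 76) (nat_lit 5589200238) (nat_lit 67) (nat_lit 5) (nat_lit 71) (nat_lit 5) (nat_lit 68) (nat_lit 5) (nat_lit 414) (nat_lit 328) (nat_lit 278)) (XT.lf (nat_lit 0) (nat_lit 9327011707) (nat_lit 228) (nat_lit 1290970570) (nat_lit 304) (nat_lit 3772261790) (nat_lit 64) (nat_lit 5) (nat_lit 67) (nat_lit 5) (nat_lit 68) (nat_lit 5) (nat_lit 415) (nat_lit 328) (nat_lit 277)))) (XT.nd (nat_lit 78) (nat_lit 456) (nat_lit 0) (XT.lf (nat_lit 0) (nat_lit 2838982631) (nat_lit 304) (nat_lit 5670019537) (nat_lit 76) (nat_lit 6149315475) (nat_lit 60) (nat_lit 5) (nat_lit 64) (nat_lit 5) (nat_lit 61) (nat_lit 5) (nat_lit 416) (nat_lit 328) (nat_lit 276)) (XT.nd (nat_lit 78) (nat_lit 304) (nat_lit 0) (XT.lf (nat_lit 0) (nat_lit 8547754079) (nat_lit 152) (nat_lit 1075510399) (nat_lit 228) (nat_lit 5310156713) (nat_lit 58) (nat_lit 5) (nat_lit 60) (nat_lit 5) (nat_lit 61) (nat_lit 5) (nat_lit 417)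 (nat_lit 328) (nat_lit 275)) (XT.lf (nat_lit 0) (nat_lit 1437643634) (nat_lit 304) (nat_lit 7235781560) (nat_lit 76) (nat_lit 6541944136) (nat_lit 54) (nat_lit 5) (nat_lit 58) (nat_lit 5) (nat_lit 55) (nat_lit 5) (nat_lit 418) (nat_lit 328) (nat_lit 274)))))) (XT.nd (nat_lit 390) (nat_lit 532) (nat_lit 0) (XT.nd (nat_lit 156) (nat_lit 684) (nat_lit 0) (XT.nd (nat_lit 78) (nat_lit 228) (nat_lit 0) (XT.lf (nat_lit 0) (nat_lit 7285731264) (nat_lit 152) (nat_lit 1057243334) (nat_lit 228) (nat_lit 7161559543) (nat_lit 52) (nat_lit 5) (nat_lit 54) (nat_lit 5) (nat_lit 55) (nat_lit 5) (nat_lit 419) (nat_lit 328) (nat_lit 273)) (XT.lf (nat_lit 0) (nat_lit 6456669330) (nat_lit 228) (nat_lit 9063847922) (nat_lit 304) (nat_lit 280560512) (nat_lit 49) (nat_lit 5) (nat_lit 52) (nat_lit 5) (nat_lit 53) (nat_lit 5) (nat_lit 420) (nat_lit 328) (nat_lit 272))) (XT.nd (nat_lit 78) (nat_lit 456) (nat_lit 0) (XT.lf (nat_lit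 0) (nat_lit 5476622654) (nat_lit 152) (nat_lit 1270160801) (nat_lit 228) (nat_lit 9358271247) (nat_lit 46) (nat_lit 5) (nat_lit 48) (nat_lit 5) (nat_lit 49) (nat_lit 5) (nat_lit 421) (nat_lit 328) (nat_lit 271)) (XT.nd (nat_lit 78) (nat_lit 228) (nat_lit 0) (XT.lf (nat_lit 0) (nat_lit 4341982272) (nat_lit 228) (nat_lit 9706373075) (nat_lit 304) (nat_lit 2368418654) (nat_lit 43) (nat_lit 5) (nat_lit 46) (nat_lit 5) (nat_lit 47) (nat_lit 5) (nat_lit 422) (nat_lit 328) (nat_lit 270)) (XT.lf (nat_lit 0) (nat_lit 3049213547) (nat_lit 152) (nat_lit 1751506223) (nat_lit 228) (nat_lit 11935843054) (nat_lit 40) (nat_lit 5) (nat_lit 42) (nat_lit 5) (nat_lit 43) (nat_lit 5) (nat_lit 423) (nat_lit 328) (nat_lit 269))))) (XT.nd (nat_lit 234) (nat_lit 152) (nat_lit 0) (XT.nd (nat_lit 78) (nat_lit 228) (nat_lit 0) (XT.lf (nat_lit 0) (nat_lit 1570238768) (nat_lit 152) (nat_lit 10650108373) (nat_lit 228) (nat_lit 4843937406)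 (nat_lit 38) (nat_lit 5) (nat_lit 40) (nat_lit 5) (nat_lit 41) (nat_lit 5) (nat_lit 424) (nat_lit 328) (nat_lit 268)) (XT.nd (nat_lit 78) (nat_lit 152) (nat_lit 0) (XT.lf (nat_lit 0) (nat_lit 2467297482) (nat_lit 228) (nat_lit 74374859) (nat_lit 76) (nat_lit 14859073135) (nat_lit 37) (nat_lit 5) (nat_lit 40) (nat_lit 5) (nat_lit 38) (nat_lit 5) (nat_lit 425) (nat_lit 328) (nat_lit 267)) (XT.lf (nat_lit 0) (nat_lit 10009444077) (nat_lit 228) (nat_lit 1916094242) (nat_lit 76) (nat_lit 5819577716) (nat_lit 35) (nat_lit 5) (nat_lit 38) (nat_lit 5) (nat_lit 36) (nat_lit 5) (nat_lit 426) (nat_lit 328) (nat_lit 266)))) (XT.nd (nat_lit 48048) (nat_lit 0) (nat_lit 36480) (XT.lf (nat_lit 0) (nat_lit 14164909459) (nat_lit 152) (nat_lit 3658922264) (nat_lit 228) (nat_lit 275070210) (nat_lit 33) (nat_lit 5) (nat_lit 35) (nat_lit 5) (nat_lit 36) (nat_lit 5) (nat_lit 427) (nat_lit 328) (nat_lit 265)) (XT.nd (nat_lit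 78) (nat_lit 1596) (nat_lit 0) (XT.lf (nat_lit 0) (nat_lit 2718618991) (nat_lit 1444) (nat_lit 382008671) (nat_lit 1444) (nat_lit 382008671) (nat_lit 534) (nat_lit 4) (nat_lit 553) (nat_lit 5) (nat_lit 553) (nat_lit 4) (nat_lit 362) (nat_lit 329) (nat_lit 329)) (XT.lf (nat_lit 0) (nat_lit 4290147180) (nat_lit 1596) (nat_lit 1155993695) (nat_lit 0) (nat_lit 1568407020) (nat_lit 513) (nat_lit 5) (nat_lit 534) (nat_lit 4) (nat_lit 513) (nat_lit 4) (nat_lit 363) (nat_lit 329) (nat_lit 328))))))))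
noncomputable def xc25 : XT := (XT.nd (nat_lit 1716) (nat_lit 10032) (nat_lit 0) (XT.nd (nat_lit 858) (nat_lit 8132) (nat_lit 0) (XT.nd (nat_lit 390) (nat_lit 5092) (nat_lit 0) (XT.nd (nat_lit 156) (nat_lit 5168) (nat_lit 0) (XT.nd (nat_lit 78) (nat_lit 1748) (nat_lit 0) (XT.lf (nat_lit 0) (nat_lit 2292376052) (nat_lit 1672) (nat_lit 733606708) (nat_lit 76) (nat_lit 4040873183) (nat_lit 491) (nat_lit 5) (nat_lit 513) (nat_lit 5) (nat_lit 492) (nat_lit 4) (nat_lit 364) (nat_lit 329) (nat_lit 327)) (XT.lf (nat_lit 0) (nat_lit 200403439) (nat_lit 1748) (nat_lit 256022805) (nat_lit 76) (nat_lit 6665908550) (nat_lit 468) (nat_lit 5) (nat_lit 491) (nat_lit 5) (nat_lit 469) (nat_lit 5) (nat_lit 365) (nat_lit 329) (nat_lit 326))) (XT.nd (nat_lit 78) (nat_lit 1976) (nat_lit 0) (XT.lf (nat_lit 0) (nat_lit 252130230) (nat_lit 1444) (nat_lit 4930192675) (nat_lit 1520) (nat_lit 1998112496) (nat_lit 426) (nat_lit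 5) (nat_lit 445) (nat_lit 5) (nat_lit 446) (nat_lit 4) (nat_lit 366) (nat_lit 329) (nat_lit 325)) (XT.nd (nat_lit 78) (nat_lit 988) (nat_lit 0) (XT.lf (nat_lit 0) (nat_lit 813512028) (nat_lit 912) (nat_lit 2133960815) (nat_lit 988) (nat_lit 4294159573) (nat_lit 413) (nat_lit 5) (nat_lit 425) (nat_lit 5) (nat_lit 426) (nat_lit 5) (nat_lit 367) (nat_lit 329) (nat_lit 324)) (XT.lf (nat_lit 0) (nat_lit 618693335) (nat_lit 988) (nat_lit 5882316468) (nat_lit 76) (nat_lit 804974478) (nat_lit 400) (nat_lit 5) (nat_lit 413) (nat_lit 5) (nat_lit 401) (nat_lit 5) (nat_lit 368) (nat_lit 329) (nat_lit 323))))) (XT.nd (nat_lit 234) (nat_lit 2356) (nat_lit 0) (XT.nd (nat_lit 78) (nat_lit 1824) (nat_lit 0) (XT.lf (nat_lit 0) (nat_lit 2060819239) (nat_lit 912) (nat_lit 3491009068) (nat_lit 988) (nat_lit 1821282639) (nat_lit 388) (nat_lit 5) (nat_lit 400) (nat_lit 5) (nat_lit 401) (nat_lit 5) (nat_lit 369) (nat_lit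 329) (nat_lit 322)) (XT.nd (nat_lit 78) (nat_lit 912) (nat_lit 0) (XT.lf (nat_lit 0) (nat_lit 2746384188) (nat_lit 836) (nat_lit 322025087) (nat_lit 912) (nat_lit 4375071725) (nat_lit 376) (nat_lit 5) (nat_lit 387) (nat_lit 5) (nat_lit 388) (nat_lit 5) (nat_lit 370) (nat_lit 329) (nat_lit 321)) (XT.lf (nat_lit 0) (nat_lit 499095711) (nat_lit 912) (nat_lit 4052125067) (nat_lit 76) (nat_lit 2965617145) (nat_lit 364) (nat_lit 5) (nat_lit 376) (nat_lit 5) (nat_lit 365) (nat_lit 5) (nat_lit 371) (nat_lit 329) (nat_lit 320)))) (XT.nd (nat_lit 78) (nat_lit 1596) (nat_lit 0) (XT.lf (nat_lit 0) (nat_lit 4218046920) (nat_lit 760) (nat_lit 1170583283) (nat_lit 836) (nat_lit 2204647588) (nat_lit 354) (nat_lit 5) (nat_lit 364) (nat_lit 5) (nat_lit 365) (nat_lit 5) (nat_lit 372) (nat_lit 329) (nat_lit 319)) (XT.nd (nat_lit 78) (nat_lit 760) (nat_lit 0) (XT.lf (nat_lit 0) (nat_lit 2661071945) (nat_lit 836) (nat_lit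 2669327915) (nat_lit 76) (nat_lit 2342397518) (nat_lit 343) (nat_lit 5) (nat_lit 354) (nat_lit 5) (nat_lit 344) (nat_lit 5) (nat_lit 373) (nat_lit 329) (nat_lit 318)) (XT.lf (nat_lit 0) (nat_lit 5830250089) (nat_lit 760) (nat_lit 1752889571) (nat_lit 836) (nat_lit 172494669) (nat_lit 333) (nat_lit 5) (nat_lit 343) (nat_lit 5) (nat_lit 344) (nat_lit 5) (nat_lit 374) (nat_lit 329) (nat_lit 317)))))) (XT.nd (nat_lit 390) (nat_lit 3724) (nat_lit 0) (XT.nd (nat_lit 156) (nat_lit 2812) (nat_lit 0) (XT.nd (nat_lit 78) (nat_lit 760) (nat_lit 0) (XT.lf (nat_lit 0) (nat_lit 4696842674) (nat_lit 836) (nat_lit 1165826905) (nat_lit 76) (nat_lit 1978729571) (nat_lit 322) (nat_lit 5) (nat_lit 333) (nat_lit 5) (nat_lit 323) (nat_lit 5) (nat_lit 375) (nat_lit 329) (nat_lit 316)) (XT.lf (nat_lit 0) (nat_lit 1706494308) (nat_lit 760) (nat_lit 372447615) (nat_lit 76) (nat_lit 5851575247) (nat_lit 312) (nat_lit 5) (nat_lit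 322) (nat_lit 5) (nat_lit 313) (nat_lit 5) (nat_lit 376) (nat_lit 329) (nat_lit 315))) (XT.nd (nat_lit 78) (nat_lit 1444) (nat_lit 0) (XT.lf (nat_lit 0) (nat_lit 450769930) (nat_lit 684) (nat_lit 6165781435) (nat_lit 760) (nat_lit 1406243940) (nat_lit 294) (nat_lit 5) (nat_lit 303) (nat_lit 5) (nat_lit 304) (nat_lit 5) (nat_lit 377) (nat_lit 329) (nat_lit 314)) (XT.nd (nat_lit 78) (nat_lit 684) (nat_lit 0) (XT.lf (nat_lit 0) (nat_lit 1298016645) (nat_lit 684) (nat_lit 2171446067) (nat_lit 760) (nat_lit 4648741610) (nat_lit 284) (nat_lit 5) (nat_lit 293) (nat_lit 5) (nat_lit 294) (nat_lit 5) (nat_lit 378) (nat_lit 329) (nat_lit 313)) (XT.lf (nat_lit 0) (nat_lit 211765965) (nat_lit 684) (nat_lit 6040649463) (nat_lit 76) (nat_lit 1964683218) (nat_lit 275) (nat_lit 5) (nat_lit 284) (nat_lit 5) (nat_lit 276) (nat_lit 5) (nat_lit 379) (nat_lit 329) (nat_lit 312))))) (XT.nd (nat_lit 234) (nat_lit 1824) (nat_lit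 0) (XT.nd (nat_lit 78) (nat_lit 1292) (nat_lit 0) (XT.lf (nat_lit 0) (nat_lit 3062726053) (nat_lit 608) (nat_lit 2056063782) (nat_lit 684) (nat_lit 3200301283) (nat_lit 267) (nat_lit 5) (nat_lit 275) (nat_lit 5) (nat_lit 276) (nat_lit 5) (nat_lit 380) (nat_lit 329) (nat_lit 311)) (XT.nd (nat_lit 78) (nat_lit 608) (nat_lit 0) (XT.lf (nat_lit 0) (nat_lit 1692324405) (nat_lit 684) (nat_lit 4449618667) (nat_lit 76) (nat_lit 2282667547) (nat_lit 258) (nat_lit 5) (nat_lit 267) (nat_lit 5) (nat_lit 259) (nat_lit 5) (nat_lit 381) (nat_lit 329) (nat_lit 310)) (XT.lf (nat_lit 0) (nat_lit 4902955080) (nat_lit 608) (nat_lit 1753434548) (nat_lit 684) (nat_lit 1877141508) (nat_lit 250) (nat_lit 5) (nat_lit 258) (nat_lit 5) (nat_lit 259) (nat_lit 5) (nat_lit 382) (nat_lit 329) (nat_lit 309)))) (XT.nd (nat_lit 78) (nat_lit 1216) (nat_lit 0) (XT.lf (nat_lit 0) (nat_lit 3057466955) (nat_lit 608) (nat_lit 2803958238)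 (nat_lit 76) (nat_lit 2784413213) (nat_lit 242) (nat_lit 5) (nat_lit 250) (nat_lit 5) (nat_lit 243) (nat_lit 5) (nat_lit 383) (nat_lit 329) (nat_lit 308)) (XT.nd (nat_lit 78) (nat_lit 608) (nat_lit 0) (XT.lf (nat_lit 0) (nat_lit 6804687916) (nat_lit 608) (nat_lit 1280880683) (nat_lit 684) (nat_lit 676298679) (nat_lit 234) (nat_lit 5) (nat_lit 242) (nat_lit 5) (nat_lit 243) (nat_lit 5) (nat_lit 384) (nat_lit 329) (nat_lit 307)) (XT.lf (nat_lit 0) (nat_lit 4309717199) (nat_lit 608) (nat_lit 1118174733) (nat_lit 76) (nat_lit 3453253339) (nat_lit 226) (nat_lit 5) (nat_lit 234) (nat_lit 5) (nat_lit 227) (nat_lit 5) (nat_lit 385) (nat_lit 329) (nat_lit 306))))))) (XT.nd (nat_lit 858) (nat_lit 4256) (nat_lit 0) (XT.nd (nat_lit 390) (nat_lit 2660) (nat_lit 0) (XT.nd (nat_lit 156) (nat_lit 1520) (nat_lit 0) (XT.nd (nat_lit 78) (nat_lit 988) (nat_lit 0) (XT.lf (nat_lit 0) (nat_lit 398789326) (nat_lit 608) (nat_lit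 253584973) (nat_lit 76) (nat_lit 8352054728) (nat_lit 218) (nat_lit 5) (nat_lit 226) (nat_lit 5) (nat_lit 219) (nat_lit 5) (nat_lit 386) (nat_lit 329) (nat_lit 305)) (XT.lf (nat_lit 0) (nat_lit 600598809) (nat_lit 532) (nat_lit 4853820365) (nat_lit 608) (nat_lit 3676436830) (nat_lit 205) (nat_lit 5) (nat_lit 212) (nat_lit 5) (nat_lit 213) (nat_lit 5) (nat_lit 387) (nat_lit 329) (nat_lit 304))) (XT.nd (nat_lit 78) (nat_lit 988) (nat_lit 0) (XT.lf (nat_lit 0) (nat_lit 1357321576) (nat_lit 532) (nat_lit 7778949220) (nat_lit 76) (nat_lit 125138629) (nat_lit 198) (nat_lit 5) (nat_lit 205) (nat_lit 5) (nat_lit 199) (nat_lit 5) (nat_lit 388) (nat_lit 329) (nat_lit 303)) (XT.nd (nat_lit 78) (nat_lit 532) (nat_lit 0) (XT.lf (nat_lit 0) (nat_lit 2343796957) (nat_lit 456) (nat_lit 4151641242) (nat_lit 532) (nat_lit 2899905360) (nat_lit 192) (nat_lit 5) (nat_lit 198) (nat_lit 5) (nat_lit 199) (nat_lit 5) (nat_lit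 389) (nat_lit 329) (nat_lit 302)) (XT.lf (nat_lit 0) (nat_lit 2204036046) (nat_lit 532) (nat_lit 6314551800) (nat_lit 76) (nat_lit 1014846364) (nat_lit 185) (nat_lit 5) (nat_lit 192) (nat_lit 5) (nat_lit 186) (nat_lit 5) (nat_lit 390) (nat_lit 329) (nat_lit 301))))) (XT.nd (nat_lit 234) (nat_lit 1292) (nat_lit 0) (XT.nd (nat_lit 78) (nat_lit 912) (nat_lit 0) (XT.lf (nat_lit 0) (nat_lit 4079832743) (nat_lit 456) (nat_lit 3344695927) (nat_lit 532) (nat_lit 2250713716) (nat_lit 179) (nat_lit 5) (nat_lit 185) (nat_lit 5) (nat_lit 186) (nat_lit 5) (nat_lit 391) (nat_lit 329) (nat_lit 300)) (XT.nd (nat_lit 78) (nat_lit 456) (nat_lit 0) (XT.lf (nat_lit 0) (nat_lit 2931254944) (nat_lit 456) (nat_lit 4881647691) (nat_lit 76) (nat_lit 2008229024) (nat_lit 173) (nat_lit 5) (nat_lit 179) (nat_lit 5) (nat_lit 174) (nat_lit 5) (nat_lit 392) (nat_lit 329) (nat_lit 299)) (XT.lf (nat_lit 0) (nat_lit 5790950950) (nat_lit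 456) (nat_lit 2448678457) (nat_lit 532) (nat_lit 1731453833) (nat_lit 167) (nat_lit 5) (nat_lit 173) (nat_lit 5) (nat_lit 174) (nat_lit 5) (nat_lit 393) (nat_lit 329) (nat_lit 298)))) (XT.nd (nat_lit 78) (nat_lit 836) (nat_lit 0) (XT.lf (nat_lit 0) (nat_lit 3536006052) (nat_lit 456) (nat_lit 3499071316) (nat_lit 76) (nat_lit 3089978733) (nat_lit 161) (nat_lit 5) (nat_lit 167) (nat_lit 5) (nat_lit 162) (nat_lit 5) (nat_lit 394) (nat_lit 329) (nat_lit 297)) (XT.nd (nat_lit 78) (nat_lit 456) (nat_lit 0) (XT.lf (nat_lit 0) (nat_lit 7458171886) (nat_lit 380) (nat_lit 1479285318) (nat_lit 456) (nat_lit 1345984860) (nat_lit 156) (nat_lit 5) (nat_lit 161) (nat_lit 5) (nat_lit 162) (nat_lit 5) (nat_lit 395) (nat_lit 329) (nat_lit 296)) (XT.lf (nat_lit 0) (nat_lit 4014051189) (nat_lit 456) (nat_lit 2187026865) (nat_lit 76) (nat_lit 4244730052) (nat_lit 150) (nat_lit 5) (nat_lit 156) (nat_lit 5) (nat_lit 151)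 (nat_lit 5) (nat_lit 396) (nat_lit 329) (nat_lit 295)))))) (XT.nd (nat_lit 390) (nat_lit 1976) (nat_lit 0) (XT.nd (nat_lit 156) (nat_lit 1444) (nat_lit 0) (XT.nd (nat_lit 78) (nat_lit 456) (nat_lit 0) (XT.lf (nat_lit 0) (nat_lit 9061080348) (nat_lit 380) (nat_lit 452365403) (nat_lit 456) (nat_lit 1099496236) (nat_lit 145) (nat_lit 5) (nat_lit 150) (nat_lit 5) (nat_lit 151) (nat_lit 5) (nat_lit 397) (nat_lit 329) (nat_lit 294)) (XT.lf (nat_lit 0) (nat_lit 4359818252) (nat_lit 456) (nat_lit 967308886) (nat_lit 76) (nat_lit 5456909502) (nat_lit 139) (nat_lit 5) (nat_lit 145) (nat_lit 5) (nat_lit 140) (nat_lit 5) (nat_lit 398) (nat_lit 329) (nat_lit 293))) (XT.nd (nat_lit 78) (nat_lit 1064) (nat_lit 0) (XT.lf (nat_lit 0) (nat_lit 9965671812) (nat_lit 456) (nat_lit 386656785) (nat_lit 76) (nat_lit 607847024) (nat_lit 134) (nat_lit 5) (nat_lit 140) (nat_lit 5) (nat_lit 135) (nat_lit 5) (nat_lit 399) (nat_lit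 329) (nat_lit 292)) (XT.nd (nat_lit 78) (nat_lit 304) (nat_lit 0) (XT.lf (nat_lit 0) (nat_lit 138272550) (nat_lit 380) (nat_lit 4428946237) (nat_lit 456) (nat_lit 6573204747) (nat_lit 124) (nat_lit 5) (nat_lit 129) (nat_lit 5) (nat_lit 130) (nat_lit 5) (nat_lit 400) (nat_lit 329) (nat_lit 291)) (XT.lf (nat_lit 0) (nat_lit 655124501) (nat_lit 304) (nat_lit 9634999567) (nat_lit 380) (nat_lit 1035676468) (nat_lit 120) (nat_lit 5) (nat_lit 124) (nat_lit 5) (nat_lit 125) (nat_lit 5) (nat_lit 401) (nat_lit 329) (nat_lit 290))))) (XT.nd (nat_lit 234) (nat_lit 912) (nat_lit 0) (XT.nd (nat_lit 78) (nat_lit 684) (nat_lit 0) (XT.lf (nat_lit 0) (nat_lit 1113164864) (nat_lit 304) (nat_lit 3519128446) (nat_lit 380) (nat_lit 6883338139) (nat_lit 115) (nat_lit 5) (nat_lit 119) (nat_lit 5) (nat_lit 120) (nat_lit 5) (nat_lit 402) (nat_lit 329) (nat_lit 289)) (XT.nd (nat_lit 78) (nat_lit 380) (nat_lit 0) (XT.lf (nat_lit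 0) (nat_lit 1544059440) (nat_lit 304) (nat_lit 8928054726) (nat_lit 380) (nat_lit 1238597768) (nat_lit 111) (nat_lit 5) (nat_lit 115) (nat_lit 5) (nat_lit 116) (nat_lit 5) (nat_lit 403) (nat_lit 329) (nat_lit 288)) (XT.lf (nat_lit 0) (nat_lit 1916058490) (nat_lit 304) (nat_lit 2622326265) (nat_lit 380) (nat_lit 7372216544) (nat_lit 106) (nat_lit 5) (nat_lit 110) (nat_lit 5) (nat_lit 111) (nat_lit 5) (nat_lit 404) (nat_lit 329) (nat_lit 287)))) (XT.nd (nat_lit 78) (nat_lit 608) (nat_lit 0) (XT.lf (nat_lit 0) (nat_lit 2245262186) (nat_lit 304) (nat_lit 8252968119) (nat_lit 380) (nat_lit 1617574188) (nat_lit 102) (nat_lit 5) (nat_lit 106) (nat_lit 5) (nat_lit 107) (nat_lit 5) (nat_lit 405) (nat_lit 329) (nat_lit 286)) (XT.nd (nat_lit 78) (nat_lit 228) (nat_lit 0) (XT.lf (nat_lit 0) (nat_lit 2515786067) (nat_lit 304) (nat_lit 1757658730) (nat_lit 380) (nat_lit 8052762264) (nat_lit 97) (nat_lit 5) (nat_lit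 101) (nat_lit 5) (nat_lit 102) (nat_lit 5) (nat_lit 406) (nat_lit 329) (nat_lit 285)) (XT.lf (nat_lit 0) (nat_lit 2726103439) (nat_lit 228) (nat_lit 7629692815) (nat_lit 304) (nat_lit 2186187912) (nat_lit 94) (nat_lit 5) (nat_lit 97) (nat_lit 5) (nat_lit 98) (nat_lit 5) (nat_lit 407) (nat_lit 329) (nat_lit 284))))))))
noncomputable def xc26 : XT := (XT.nd (nat_lit 49530) (nat_lit 0) (nat_lit 15884) (XT.nd (nat_lit 858) (nat_lit 1900) (nat_lit 0) (XT.nd (nat_lit 390) (nat_lit 1216) (nat_lit 0) (XT.nd (nat_lit 156) (nat_lit 912) (nat_lit 0) (XT.nd (nat_lit 78) (nat_lit 228) (nat_lit 0) (XT.lf (nat_lit 0) (nat_lit 2878126983) (nat_lit 304) (nat_lit 945401551) (nat_lit 380) (nat_lit 8939858337) (nat_lit 89) (nat_lit 5) (nat_lit 93) (nat_lit 5) (nat_lit 94) (nat_lit 5) (nat_lit 408) (nat_lit 329) (nat_lit 283)) (XT.lf (nat_lit 0) (nat_lit 2950716022) (nat_lit 228) (nat_lit 7079461500) (nat_lit 304) (nat_lit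 2960045539) (nat_lit 86) (nat_lit 5) (nat_lit 89) (nat_lit 5) (nat_lit 90) (nat_lit 5) (nat_lit 409) (nat_lit 329) (nat_lit 282))) (XT.nd (nat_lit 78) (nat_lit 532) (nat_lit 0) (XT.lf (nat_lit 0) (nat_lit 2965434680) (nat_lit 304) (nat_lit 207200138) (nat_lit 380) (nat_lit 10050512404) (nat_lit 81) (nat_lit 5) (nat_lit 85) (nat_lit 5) (nat_lit 86) (nat_lit 5) (nat_lit 410) (nat_lit 329) (nat_lit 281)) (XT.nd (nat_lit 78) (nat_lit 304) (nat_lit 0) (XT.lf (nat_lit 0) (nat_lit 2879604867) (nat_lit 228) (nat_lit 6625007483) (nat_lit 304) (nat_lit 3956951517) (nat_lit 78) (nat_lit 5) (nat_lit 81) (nat_lit 5) (nat_lit 82) (nat_lit 5) (nat_lit 411) (nat_lit 329) (nat_lit 280)) (XT.lf (nat_lit 0) (nat_lit 2305342630) (nat_lit 304) (nat_lit 10973155437) (nat_lit 76) (nat_lit 428013239) (nat_lit 74) (nat_lit 5) (nat_lit 78) (nat_lit 5) (nat_lit 75) (nat_lit 5) (nat_lit 412) (nat_lit 329) (nat_lit 279))))) (XT.nd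 (nat_lit 234) (nat_lit 456) (nat_lit 0) (XT.nd (nat_lit 78) (nat_lit 532) (nat_lit 0) (XT.lf (nat_lit 0) (nat_lit 2469219163) (nat_lit 228) (nat_lit 6290802858) (nat_lit 304) (nat_lit 5197102733) (nat_lit 71) (nat_lit 5) (nat_lit 74) (nat_lit 5) (nat_lit 75) (nat_lit 5) (nat_lit 413) (nat_lit 329) (nat_lit 278)) (XT.nd (nat_lit 78) (nat_lit 228) (nat_lit 0) (XT.lf (nat_lit 0) (nat_lit 1198712920) (nat_lit 304) (nat_lit 12076245088) (nat_lit 76) (nat_lit 939724077) (nat_lit 67) (nat_lit 5) (nat_lit 71) (nat_lit 5) (nat_lit 68) (nat_lit 5) (nat_lit 414) (nat_lit 329) (nat_lit 277)) (XT.lf (nat_lit 0) (nat_lit 1671482440) (nat_lit 228) (nat_lit 6103316077) (nat_lit 304) (nat_lit 6703306228) (nat_lit 64) (nat_lit 5) (nat_lit 67) (nat_lit 5) (nat_lit 68) (nat_lit 5) (nat_lit 415) (nat_lit 329) (nat_lit 276)))) (XT.nd (nat_lit 78) (nat_lit 228) (nat_lit 0) (XT.lf (nat_lit 0) (nat_lit 1130535588) (nat_lit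 228) (nat_lit 13443974088) (nat_lit 304) (nat_lit 174399121) (nat_lit 61) (nat_lit 5) (nat_lit 64) (nat_lit 5) (nat_lit 65) (nat_lit 5) (nat_lit 416) (nat_lit 329) (nat_lit 275)) (XT.nd (nat_lit 78) (nat_lit 0) (nat_lit 0) (XT.lf (nat_lit 0) (nat_lit 433276013) (nat_lit 152) (nat_lit 6091291409) (nat_lit 228) (nat_lit 8501222235) (nat_lit 58) (nat_lit 5) (nat_lit 60) (nat_lit 5) (nat_lit 61) (nat_lit 5) (nat_lit 417) (nat_lit 329) (nat_lit 274)) (XT.lf (nat_lit 0) (nat_lit 13454717930) (nat_lit 228) (nat_lit 350195197) (nat_lit 76) (nat_lit 1505394221) (nat_lit 58) (nat_lit 5) (nat_lit 61) (nat_lit 5) (nat_lit 59) (nat_lit 5) (nat_lit 418) (nat_lit 329) (nat_lit 273)))))) (XT.nd (nat_lit 390) (nat_lit 684) (nat_lit 0) (XT.nd (nat_lit 156) (nat_lit 760) (nat_lit 0) (XT.nd (nat_lit 78) (nat_lit 152) (nat_lit 0) (XT.lf (nat_lit 0) (nat_lit 4990390921) (nat_lit 304) (nat_lit 1287025404) (nat_lit 76) (nat_lit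 9323972944) (nat_lit 54) (nat_lit 5) (nat_lit 58) (nat_lit 5) (nat_lit 55) (nat_lit 5) (nat_lit 419) (nat_lit 329) (nat_lit 272)) (XT.lf (nat_lit 0) (nat_lit 12049977246) (nat_lit 228) (nat_lit 2340327643) (nat_lit 76) (nat_lit 1509989473) (nat_lit 52) (nat_lit 5) (nat_lit 55) (nat_lit 5) (nat_lit 53) (nat_lit 5) (nat_lit 420) (nat_lit 329) (nat_lit 271))) (XT.nd (nat_lit 78) (nat_lit 456) (nat_lit 0) (XT.lf (nat_lit 0) (nat_lit 3139547950) (nat_lit 304) (nat_lit 3558409337) (nat_lit 76) (nat_lit 9508465727) (nat_lit 48) (nat_lit 5) (nat_lit 52) (nat_lit 5) (nat_lit 49) (nat_lit 5) (nat_lit 421) (nat_lit 329) (nat_lit 270)) (XT.nd (nat_lit 78) (nat_lit 304) (nat_lit 0) (XT.lf (nat_lit 0) (nat_lit 10321310360) (nat_lit 228) (nat_lit 4922122861) (nat_lit 76) (nat_lit 1277107448) (nat_lit 46) (nat_lit 5) (nat_lit 49) (nat_lit 5) (nat_lit 47) (nat_lit 5) (nat_lit 422) (nat_lit 329) (nat_lit 269)) (XT.lf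 (nat_lit 0) (nat_lit 935310741) (nat_lit 304) (nat_lit 6457505740) (nat_lit 76) (nat_lit 9449709301) (nat_lit 42) (nat_lit 5) (nat_lit 46) (nat_lit 5) (nat_lit 43) (nat_lit 5) (nat_lit 423) (nat_lit 329) (nat_lit 268))))) (XT.nd (nat_lit 234) (nat_lit 152) (nat_lit 0) (XT.nd (nat_lit 78) (nat_lit 380) (nat_lit 0) (XT.lf (nat_lit 0) (nat_lit 8233318689) (nat_lit 228) (nat_lit 8170216050) (nat_lit 76) (nat_lit 769147156) (nat_lit 40) (nat_lit 5) (nat_lit 43) (nat_lit 5) (nat_lit 41) (nat_lit 5) (nat_lit 424) (nat_lit 329) (nat_lit 267)) (XT.nd (nat_lit 78) (nat_lit 228) (nat_lit 0) (XT.lf (nat_lit 0) (nat_lit 7437405808) (nat_lit 152) (nat_lit 8391504896) (nat_lit 228) (nat_lit 1682263057) (nat_lit 38) (nat_lit 5) (nat_lit 40) (nat_lit 5) (nat_lit 41) (nat_lit 5) (nat_lit 425) (nat_lit 329) (nat_lit 266)) (XT.lf (nat_lit 0) (nat_lit 5690873453) (nat_lit 152) (nat_lit 55955636) (nat_lit 228) (nat_lit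 12111637882) (nat_lit 35) (nat_lit 5) (nat_lit 37) (nat_lit 5) (nat_lit 38) (nat_lit 5) (nat_lit 426) (nat_lit 329) (nat_lit 265)))) (XT.nd (nat_lit 47892) (nat_lit 0) (nat_lit 39520) (XT.lf (nat_lit 0) (nat_lit 3722005896) (nat_lit 152) (nat_lit 9740677522) (nat_lit 228) (nat_lit 4751541915) (nat_lit 33) (nat_lit 5) (nat_lit 35) (nat_lit 5) (nat_lit 36) (nat_lit 5) (nat_lit 427) (nat_lit 329) (nat_lit 264)) (XT.nd (nat_lit 78) (nat_lit 1444) (nat_lit 0) (XT.lf (nat_lit 0) (nat_lit 2407106484) (nat_lit 1292) (nat_lit 514926936) (nat_lit 1292) (nat_lit 514926936) (nat_lit 572) (nat_lit 4) (nat_lit 589) (nat_lit 5) (nat_lit 589) (nat_lit 4) (nat_lit 360) (nat_lit 330) (nat_lit 330)) (XT.lf (nat_lit 0) (nat_lit 3958517920) (nat_lit 1444) (nat_lit 1861185921) (nat_lit 0) (nat_lit 1099057708) (nat_lit 553) (nat_lit 5) (nat_lit 572) (nat_lit 4) (nat_lit 553) (nat_lit 4) (nat_lit 361) (nat_lit 330) (nat_lit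 329))))))) (XT.nd (nat_lit 858) (nat_lit 8512) (nat_lit 0) (XT.nd (nat_lit 390) (nat_lit 6840) (nat_lit 0) (XT.nd (nat_lit 156) (nat_lit 5244) (nat_lit 0) (XT.nd (nat_lit 78) (nat_lit 1520) (nat_lit 0) (XT.lf (nat_lit 0) (nat_lit 1991095094) (nat_lit 1520) (nat_lit 1613623083) (nat_lit 76) (nat_lit 3361843058) (nat_lit 533) (nat_lit 5) (nat_lit 553) (nat_lit 5) (nat_lit 534) (nat_lit 4) (nat_lit 362) (nat_lit 330) (nat_lit 328)) (XT.lf (nat_lit 0) (nat_lit 5706511240) (nat_lit 1520) (nat_lit 1242727330) (nat_lit 1596) (nat_lit 68241371) (nat_lit 513) (nat_lit 5) (nat_lit 533) (nat_lit 5) (nat_lit 534) (nat_lit 4) (nat_lit 363) (nat_lit 330) (nat_lit 327))) (XT.nd (nat_lit 78) (nat_lit 3572) (nat_lit 0) (XT.lf (nat_lit 0) (nat_lit 4830762106) (nat_lit 1672) (nat_lit 974960382) (nat_lit 76) (nat_lit 1265400915) (nat_lit 491) (nat_lit 5) (nat_lit 513) (nat_lit 5) (nat_lit 492) (nat_lit 4) (nat_lit 364)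 (nat_lit 330) (nat_lit 326)) (XT.nd (nat_lit 78) (nat_lit 1824) (nat_lit 0) (XT.lf (nat_lit 0) (nat_lit 2627036989) (nat_lit 1748) (nat_lit 593337069) (nat_lit 76) (nat_lit 3907404666) (nat_lit 468) (nat_lit 5) (nat_lit 491) (nat_lit 5) (nat_lit 469) (nat_lit 5) (nat_lit 365) (nat_lit 330) (nat_lit 325)) (XT.lf (nat_lit 0) (nat_lit 327270249) (nat_lit 1824) (nat_lit 158104241) (nat_lit 76) (nat_lit 6702274619) (nat_lit 444) (nat_lit 5) (nat_lit 468) (nat_lit 5) (nat_lit 445) (nat_lit 5) (nat_lit 366) (nat_lit 330) (nat_lit 324))))) (XT.nd (nat_lit 234) (nat_lit 2508) (nat_lit 0) (XT.nd (nat_lit 78) (nat_lit 1976) (nat_lit 0) (XT.lf (nat_lit 0) (nat_lit 305404654) (nat_lit 912) (nat_lit 4863881229) (nat_lit 988) (nat_lit 2080867044) (nat_lit 413) (nat_lit 5) (nat_lit 425) (nat_lit 5) (nat_lit 426) (nat_lit 5) (nat_lit 367) (nat_lit 330) (nat_lit 323)) (XT.nd (nat_lit 78) (nat_lit 988) (nat_lit 0) (XT.lf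 (nat_lit 0) (nat_lit 818239054) (nat_lit 912) (nat_lit 1906694806) (nat_lit 988) (nat_lit 4590862082) (nat_lit 400) (nat_lit 5) (nat_lit 412) (nat_lit 5) (nat_lit 413) (nat_lit 5) (nat_lit 368) (nat_lit 330) (nat_lit 322)) (XT.lf (nat_lit 0) (nat_lit 186903508) (nat_lit 988) (nat_lit 6008856861) (nat_lit 76) (nat_lit 1188836391) (nat_lit 387) (nat_lit 5) (nat_lit 400) (nat_lit 5) (nat_lit 388) (nat_lit 5) (nat_lit 369) (nat_lit 330) (nat_lit 321)))) (XT.nd (nat_lit 78) (nat_lit 1672) (nat_lit 0) (XT.lf (nat_lit 0) (nat_lit 1955902679) (nat_lit 836) (nat_lit 3025479640) (nat_lit 912) (nat_lit 2474791226) (nat_lit 376) (nat_lit 5) (nat_lit 387) (nat_lit 5) (nat_lit 388) (nat_lit 5) (nat_lit 370) (nat_lit 330) (nat_lit 320)) (XT.nd (nat_lit 78) (nat_lit 760) (nat_lit 0) (XT.lf (nat_lit 0) (nat_lit 2285899079) (nat_lit 912) (nat_lit 4947198031) (nat_lit 76) (nat_lit 297973586) (nat_lit 364) (nat_lit 5)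 (nat_lit 376) (nat_lit 5) (nat_lit 365) (nat_lit 5) (nat_lit 371) (nat_lit 330) (nat_lit 319)) (XT.lf (nat_lit 0) (nat_lit 3238597566) (nat_lit 760) (nat_lit 3866706909) (nat_lit 836) (nat_lit 503624101) (nat_lit 354) (nat_lit 5) (nat_lit 364) (nat_lit 5) (nat_lit 365) (nat_lit 5) (nat_lit 372) (nat_lit 330) (nat_lit 318)))))) (XT.nd (nat_lit 390) (nat_lit 4636) (nat_lit 0) (XT.nd (nat_lit 156) (nat_lit 2204) (nat_lit 0) (XT.nd (nat_lit 78) (nat_lit 836) (nat_lit 0) (XT.lf (nat_lit 0) (nat_lit 3927506812) (nat_lit 760) (nat_lit 326983758) (nat_lit 836) (nat_lit 3435457308) (nat_lit 343) (nat_lit 5) (nat_lit 353) (nat_lit 5) (nat_lit 354) (nat_lit 5) (nat_lit 373) (nat_lit 330) (nat_lit 317)) (XT.lf (nat_lit 0) (nat_lit 1313628317) (nat_lit 836) (nat_lit 3130302615) (nat_lit 76) (nat_lit 3330120280) (nat_lit 332) (nat_lit 5) (nat_lit 343) (nat_lit 5) (nat_lit 333) (nat_lit 5) (nat_lit 374) (nat_lit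 330) (nat_lit 316))) (XT.nd (nat_lit 78) (nat_lit 1444) (nat_lit 0) (XT.lf (nat_lit 0) (nat_lit 5394929231) (nat_lit 760) (nat_lit 703799605) (nat_lit 836) (nat_lit 1762717862) (nat_lit 322) (nat_lit 5) (nat_lit 332) (nat_lit 5) (nat_lit 333) (nat_lit 5) (nat_lit 375) (nat_lit 330) (nat_lit 315)) (XT.nd (nat_lit 78) (nat_lit 684) (nat_lit 0) (XT.lf (nat_lit 0) (nat_lit 2996838139) (nat_lit 760) (nat_lit 1787635182) (nat_lit 76) (nat_lit 3167392312) (nat_lit 312) (nat_lit 5) (nat_lit 322) (nat_lit 5) (nat_lit 313) (nat_lit 5) (nat_lit 376) (nat_lit 330) (nat_lit 314)) (XT.lf (nat_lit 0) (nat_lit 6974690478) (nat_lit 684) (nat_lit 848870328) (nat_lit 760) (nat_lit 222262193) (nat_lit 303) (nat_lit 5) (nat_lit 312) (nat_lit 5) (nat_lit 313) (nat_lit 5) (nat_lit 377) (nat_lit 330) (nat_lit 313))))) (XT.nd (nat_lit 234) (nat_lit 1900) (nat_lit 0) (XT.nd (nat_lit 78) (nat_lit 1976) (nat_lit 0) (XT.lf (nat_lit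 0) (nat_lit 4558762806) (nat_lit 760) (nat_lit 352626415) (nat_lit 76) (nat_lit 3231284060) (nat_lit 293) (nat_lit 5) (nat_lit 303) (nat_lit 5) (nat_lit 294) (nat_lit 5) (nat_lit 378) (nat_lit 330) (nat_lit 312)) (XT.nd (nat_lit 78) (nat_lit 608) (nat_lit 0) (XT.lf (nat_lit 0) (nat_lit 407734643) (nat_lit 608) (nat_lit 770789590) (nat_lit 684) (nat_lit 7064598612) (nat_lit 275) (nat_lit 5) (nat_lit 283) (nat_lit 5) (nat_lit 284) (nat_lit 5) (nat_lit 379) (nat_lit 330) (nat_lit 311)) (XT.lf (nat_lit 0) (nat_lit 1176595788) (nat_lit 608) (nat_lit 4835539766) (nat_lit 684) (nat_lit 2334459046) (nat_lit 267) (nat_lit 5) (nat_lit 275) (nat_lit 5) (nat_lit 276) (nat_lit 5) (nat_lit 380) (nat_lit 330) (nat_lit 310)))) (XT.nd (nat_lit 78) (nat_lit 1216) (nat_lit 0) (XT.lf (nat_lit 0) (nat_lit 1973359141) (nat_lit 608) (nat_lit 489980203) (nat_lit 684) (nat_lit 5990342258) (nat_lit 258) (nat_lit 5) (nat_lit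 266) (nat_lit 5) (nat_lit 267) (nat_lit 5) (nat_lit 381) (nat_lit 330) (nat_lit 309)) (XT.nd (nat_lit 78) (nat_lit 608) (nat_lit 0) (XT.lf (nat_lit 0) (nat_lit 2776465340) (nat_lit 608) (nat_lit 4579646882) (nat_lit 684) (nat_lit 1207925940) (nat_lit 250) (nat_lit 5) (nat_lit 258) (nat_lit 5) (nat_lit 259) (nat_lit 5) (nat_lit 382) (nat_lit 330) (nat_lit 308)) (XT.lf (nat_lit 0) (nat_lit 3598915370) (nat_lit 532) (nat_lit 32448897) (nat_lit 608) (nat_lit 5046634797) (nat_lit 242) (nat_lit 5) (nat_lit 249) (nat_lit 5) (nat_lit 250) (nat_lit 5) (nat_lit 383) (nat_lit 330) (nat_lit 307))))))))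
noncomputable def xc27 : XT := (XT.nd (nat_lit 1716) (nat_lit 5396) (nat_lit 0) (XT.nd (nat_lit 858) (nat_lit 4180) (nat_lit 0) (XT.nd (nat_lit 390) (nat_lit 3268) (nat_lit 0) (XT.nd (nat_lit 156) (nat_lit 1672) (nat_lit 0) (XT.nd (nat_lit 78) (nat_lit 608) (nat_lit 0) (XT.lf (nat_lit 0) (nat_lit 4428157476) (nat_lit 608) (nat_lit 4163126326) (nat_lit 684) (nat_lit 204117198) (nat_lit 234) (nat_lit 5) (nat_lit 242) (nat_lit 5) (nat_lit 243) (nat_lit 5) (nat_lit 384) (nat_lit 330) (nat_lit 306)) (XT.lf (nat_lit 0) (nat_lit 4688639219) (nat_lit 608) (nat_lit 3650230625) (nat_lit 76) (nat_lit 577498137) (nat_lit 226) (nat_lit 5) (nat_lit 234) (nat_lit 5) (nat_lit 227) (nat_lit 5) (nat_lit 385) (nat_lit 330) (nat_lit 305))) (XT.nd (nat_lit 78) (nat_lit 1064) (nat_lit 0) (XT.lf (nat_lit 0) (nat_lit 669538274) (nat_lit 608) (nat_lit 2928362116) (nat_lit 76) (nat_lit 5443084105) (nat_lit 218) (nat_lit 5)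 (nat_lit 226) (nat_lit 5) (nat_lit 219) (nat_lit 5) (nat_lit 386) (nat_lit 330) (nat_lit 304)) (XT.nd (nat_lit 78) (nat_lit 608) (nat_lit 0) (XT.lf (nat_lit 0) (nat_lit 5633678192) (nat_lit 532) (nat_lit 2206397892) (nat_lit 76) (nat_lit 1329173474) (nat_lit 212) (nat_lit 5) (nat_lit 219) (nat_lit 5) (nat_lit 213) (nat_lit 5) (nat_lit 387) (nat_lit 330) (nat_lit 303)) (XT.lf (nat_lit 0) (nat_lit 1421208057) (nat_lit 608) (nat_lit 1482623585) (nat_lit 76) (nat_lit 6397463562) (nat_lit 204) (nat_lit 5) (nat_lit 212) (nat_lit 5) (nat_lit 205) (nat_lit 5) (nat_lit 388) (nat_lit 330) (nat_lit 302))))) (XT.nd (nat_lit 234) (nat_lit 1368) (nat_lit 0) (XT.nd (nat_lit 78) (nat_lit 1444) (nat_lit 0) (XT.lf (nat_lit 0) (nat_lit 6466243378) (nat_lit 532) (nat_lit 763250901) (nat_lit 76) (nat_lit 2207604345) (nat_lit 198) (nat_lit 5) (nat_lit 205) (nat_lit 5) (nat_lit 199) (nat_lit 5) (nat_lit 389) (nat_lit 330)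 (nat_lit 301)) (XT.nd (nat_lit 78) (nat_lit 912) (nat_lit 0) (XT.lf (nat_lit 0) (nat_lit 2052807324) (nat_lit 532) (nat_lit 45035219) (nat_lit 76) (nat_lit 7478987422) (nat_lit 191) (nat_lit 5) (nat_lit 198) (nat_lit 5) (nat_lit 192) (nat_lit 5) (nat_lit 390) (nat_lit 330) (nat_lit 300)) (XT.lf (nat_lit 0) (nat_lit 671276625) (nat_lit 456) (nat_lit 6518269038) (nat_lit 532) (nat_lit 2530774640) (nat_lit 179) (nat_lit 5) (nat_lit 185) (nat_lit 5) (nat_lit 186) (nat_lit 5) (nat_lit 391) (nat_lit 330) (nat_lit 299)))) (XT.nd (nat_lit 78) (nat_lit 912) (nat_lit 0) (XT.lf (nat_lit 0) (nat_lit 1385293046) (nat_lit 380) (nat_lit 1186122214) (nat_lit 456) (nat_lit 7296506457) (nat_lit 173) (nat_lit 5) (nat_lit 178) (nat_lit 5) (nat_lit 179) (nat_lit 5) (nat_lit 392) (nat_lit 330) (nat_lit 298)) (XT.nd (nat_lit 78) (nat_lit 456) (nat_lit 0) (XT.lf (nat_lit 0) (nat_lit 2080276467) (nat_lit 456) (nat_lit 5721432421)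 (nat_lit 532) (nat_lit 2217732566) (nat_lit 167) (nat_lit 5) (nat_lit 173) (nat_lit 5) (nat_lit 174) (nat_lit 5) (nat_lit 393) (nat_lit 330) (nat_lit 297)) (XT.lf (nat_lit 0) (nat_lit 2771797658) (nat_lit 380) (nat_lit 193134740) (nat_lit 456) (nat_lit 7210374738) (nat_lit 161) (nat_lit 5) (nat_lit 166) (nat_lit 5) (nat_lit 167) (nat_lit 5) (nat_lit 394) (nat_lit 330) (nat_lit 296)))))) (XT.nd (nat_lit 390) (nat_lit 2128) (nat_lit 0) (XT.nd (nat_lit 156) (nat_lit 1216) (nat_lit 0) (XT.nd (nat_lit 78) (nat_lit 456) (nat_lit 0) (XT.lf (nat_lit 0) (nat_lit 3434337646) (nat_lit 380) (nat_lit 4859731238) (nat_lit 456) (nat_lit 2041076552) (nat_lit 156) (nat_lit 5) (nat_lit 161) (nat_lit 5) (nat_lit 162) (nat_lit 5) (nat_lit 395) (nat_lit 330) (nat_lit 295)) (XT.lf (nat_lit 0) (nat_lit 3234184115) (nat_lit 456) (nat_lit 6411342684) (nat_lit 76) (nat_lit 853958525) (nat_lit 150) (nat_lit 5) (nat_lit 156)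 (nat_lit 5) (nat_lit 151) (nat_lit 5) (nat_lit 396) (nat_lit 330) (nat_lit 294))) (XT.nd (nat_lit 78) (nat_lit 836) (nat_lit 0) (XT.lf (nat_lit 0) (nat_lit 4712729800) (nat_lit 380) (nat_lit 3948972596) (nat_lit 456) (nat_lit 2006359919) (nat_lit 145) (nat_lit 5) (nat_lit 150) (nat_lit 5) (nat_lit 151) (nat_lit 5) (nat_lit 397) (nat_lit 330) (nat_lit 293)) (XT.nd (nat_lit 78) (nat_lit 380) (nat_lit 0) (XT.lf (nat_lit 0) (nat_lit 3369302046) (nat_lit 456) (nat_lit 5524318083) (nat_lit 76) (nat_lit 1947570838) (nat_lit 139) (nat_lit 5) (nat_lit 145) (nat_lit 5) (nat_lit 140) (nat_lit 5) (nat_lit 398) (nat_lit 330) (nat_lit 292)) (XT.lf (nat_lit 0) (nat_lit 5893032326) (nat_lit 380) (nat_lit 3005299414) (nat_lit 456) (nat_lit 2120539847) (nat_lit 134) (nat_lit 5) (nat_lit 139) (nat_lit 5) (nat_lit 140) (nat_lit 5) (nat_lit 399) (nat_lit 330) (nat_lit 291))))) (XT.nd (nat_lit 234) (nat_lit 988) (nat_lit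 0) (XT.nd (nat_lit 78) (nat_lit 760) (nat_lit 0) (XT.lf (nat_lit 0) (nat_lit 3361689836) (nat_lit 380) (nat_lit 4765166489) (nat_lit 76) (nat_lit 3074299530) (nat_lit 129) (nat_lit 5) (nat_lit 134) (nat_lit 5) (nat_lit 130) (nat_lit 5) (nat_lit 400) (nat_lit 330) (nat_lit 290)) (XT.nd (nat_lit 78) (nat_lit 380) (nat_lit 0) (XT.lf (nat_lit 0) (nat_lit 6950887687) (nat_lit 380) (nat_lit 2045350642) (nat_lit 456) (nat_lit 2392066433) (nat_lit 124) (nat_lit 5) (nat_lit 129) (nat_lit 5) (nat_lit 130) (nat_lit 5) (nat_lit 401) (nat_lit 330) (nat_lit 289)) (XT.lf (nat_lit 0) (nat_lit 3202497485) (nat_lit 380) (nat_lit 4159987412) (nat_lit 76) (nat_lit 4217655353) (nat_lit 119) (nat_lit 5) (nat_lit 124) (nat_lit 5) (nat_lit 120) (nat_lit 5) (nat_lit 402) (nat_lit 330) (nat_lit 288)))) (XT.nd (nat_lit 78) (nat_lit 684) (nat_lit 0) (XT.lf (nat_lit 0) (nat_lit 7859733295) (nat_lit 304) (nat_lit 1086429434) (nat_lit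 380) (nat_lit 2830985525) (nat_lit 115) (nat_lit 5) (nat_lit 119) (nat_lit 5) (nat_lit 120) (nat_lit 5) (nat_lit 403) (nat_lit 330) (nat_lit 287)) (XT.nd (nat_lit 78) (nat_lit 304) (nat_lit 0) (XT.lf (nat_lit 0) (nat_lit 2881258944) (nat_lit 380) (nat_lit 3737277027) (nat_lit 76) (nat_lit 5360425070) (nat_lit 110) (nat_lit 5) (nat_lit 115) (nat_lit 5) (nat_lit 111) (nat_lit 5) (nat_lit 404) (nat_lit 330) (nat_lit 286)) (XT.lf (nat_lit 0) (nat_lit 8590509383) (nat_lit 304) (nat_lit 146680783) (nat_lit 380) (nat_lit 3449056429) (nat_lit 106) (nat_lit 5) (nat_lit 110) (nat_lit 5) (nat_lit 111) (nat_lit 5) (nat_lit 405) (nat_lit 330) (nat_lit 285))))))) (XT.nd (nat_lit 858) (nat_lit 2204) (nat_lit 0) (XT.nd (nat_lit 390) (nat_lit 1596) (nat_lit 0) (XT.nd (nat_lit 156) (nat_lit 912) (nat_lit 0) (XT.nd (nat_lit 78) (nat_lit 304) (nat_lit 0) (XT.lf (nat_lit 0) (nat_lit 2385768444) (nat_lit 380) (nat_lit 3528235737)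 (nat_lit 76) (nat_lit 6484490971) (nat_lit 101) (nat_lit 5) (nat_lit 106) (nat_lit 5) (nat_lit 102) (nat_lit 5) (nat_lit 406) (nat_lit 330) (nat_lit 284)) (XT.lf (nat_lit 0) (nat_lit 8361520425) (nat_lit 380) (nat_lit 3510066124) (nat_lit 76) (nat_lit 744821461) (nat_lit 97) (nat_lit 5) (nat_lit 102) (nat_lit 5) (nat_lit 98) (nat_lit 5) (nat_lit 407) (nat_lit 330) (nat_lit 283))) (XT.nd (nat_lit 78) (nat_lit 608) (nat_lit 0) (XT.lf (nat_lit 0) (nat_lit 1701940294) (nat_lit 304) (nat_lit 3567104386) (nat_lit 76) (nat_lit 7570638644) (nat_lit 93) (nat_lit 5) (nat_lit 97) (nat_lit 5) (nat_lit 94) (nat_lit 5) (nat_lit 408) (nat_lit 330) (nat_lit 282)) (XT.nd (nat_lit 78) (nat_lit 304) (nat_lit 0) (XT.lf (nat_lit 0) (nat_lit 7800190939) (nat_lit 380) (nat_lit 3692085293) (nat_lit 76) (nat_lit 1576414727) (nat_lit 89) (nat_lit 5) (nat_lit 94) (nat_lit 5) (nat_lit 90) (nat_lit 5) (nat_lit 409) (nat_lit 330)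 (nat_lit 281)) (XT.lf (nat_lit 0) (nat_lit 813650712) (nat_lit 304) (nat_lit 3891532376) (nat_lit 76) (nat_lit 8598351212) (nat_lit 85) (nat_lit 5) (nat_lit 89) (nat_lit 5) (nat_lit 86) (nat_lit 5) (nat_lit 410) (nat_lit 330) (nat_lit 280))))) (XT.nd (nat_lit 234) (nat_lit 760) (nat_lit 0) (XT.nd (nat_lit 78) (nat_lit 532) (nat_lit 0) (XT.lf (nat_lit 0) (nat_lit 7035375250) (nat_lit 380) (nat_lit 4180330713) (nat_lit 76) (nat_lit 2328453256) (nat_lit 81) (nat_lit 5) (nat_lit 86) (nat_lit 5) (nat_lit 82) (nat_lit 5) (nat_lit 411) (nat_lit 330) (nat_lit 279)) (XT.nd (nat_lit 78) (nat_lit 304) (nat_lit 0) (XT.lf (nat_lit 0) (nat_lit 9246152184) (nat_lit 228) (nat_lit 4243545367) (nat_lit 304) (nat_lit 301392752) (nat_lit 78) (nat_lit 5) (nat_lit 81) (nat_lit 5) (nat_lit 82) (nat_lit 5) (nat_lit 412) (nat_lit 330) (nat_lit 278)) (XT.lf (nat_lit 0) (nat_lit 6047903116) (nat_lit 304) (nat_lit 5018321380)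 (nat_lit 76) (nat_lit 2977708089) (nat_lit 74) (nat_lit 5) (nat_lit 78) (nat_lit 5) (nat_lit 75) (nat_lit 5) (nat_lit 413) (nat_lit 330) (nat_lit 277)))) (XT.nd (nat_lit 78) (nat_lit 532) (nat_lit 0) (XT.lf (nat_lit 0) (nat_lit 8725373559) (nat_lit 228) (nat_lit 3903995240) (nat_lit 304) (nat_lit 1674041632) (nat_lit 71) (nat_lit 5) (nat_lit 74) (nat_lit 5) (nat_lit 75) (nat_lit 5) (nat_lit 414) (nat_lit 330) (nat_lit 276)) (XT.nd (nat_lit 78) (nat_lit 228) (nat_lit 0) (XT.lf (nat_lit 0) (nat_lit 4816098001) (nat_lit 304) (nat_lit 6254071178) (nat_lit 76) (nat_lit 3499042062) (nat_lit 67) (nat_lit 5) (nat_lit 71) (nat_lit 5) (nat_lit 68) (nat_lit 5) (nat_lit 415) (nat_lit 330) (nat_lit 275)) (XT.lf (nat_lit 0) (nat_lit 7805752640) (nat_lit 228) (nat_lit 3718902394) (nat_lit 304) (nat_lit 3317186008) (nat_lit 64) (nat_lit 5) (nat_lit 67) (nat_lit 5) (nat_lit 68) (nat_lit 5) (nat_lit 416) (nat_lit 330)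 (nat_lit 274)))))) (XT.nd (nat_lit 390) (nat_lit 1064) (nat_lit 0) (XT.nd (nat_lit 156) (nat_lit 684) (nat_lit 0) (XT.nd (nat_lit 78) (nat_lit 152) (nat_lit 0) (XT.lf (nat_lit 0) (nat_lit 3315542465) (nat_lit 304) (nat_lit 7940599243) (nat_lit 76) (nat_lit 3865139956) (nat_lit 60) (nat_lit 5) (nat_lit 64) (nat_lit 5) (nat_lit 61) (nat_lit 5) (nat_lit 417) (nat_lit 330) (nat_lit 273)) (XT.lf (nat_lit 0) (nat_lit 6432708698) (nat_lit 152) (nat_lit 3717548762) (nat_lit 228) (nat_lit 5257453069) (nat_lit 58) (nat_lit 5) (nat_lit 60) (nat_lit 5) (nat_lit 61) (nat_lit 5) (nat_lit 418) (nat_lit 330) (nat_lit 272))) (XT.nd (nat_lit 78) (nat_lit 380) (nat_lit 0) (XT.lf (nat_lit 0) (nat_lit 1518816724) (nat_lit 304) (nat_lit 10136491415) (nat_lit 76) (nat_lit 4046214931) (nat_lit 54) (nat_lit 5) (nat_lit 58) (nat_lit 5) (nat_lit 55) (nat_lit 5) (nat_lit 419) (nat_lit 330) (nat_lit 271)) (XT.nd (nat_lit 78) (nat_lit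 228) (nat_lit 0) (XT.lf (nat_lit 0) (nat_lit 4545869488) (nat_lit 152) (nat_lit 3931899509) (nat_lit 228) (nat_lit 7524674124) (nat_lit 52) (nat_lit 5) (nat_lit 54) (nat_lit 5) (nat_lit 55) (nat_lit 5) (nat_lit 420) (nat_lit 330) (nat_lit 270)) (XT.lf (nat_lit 0) (nat_lit 3400837739) (nat_lit 228) (nat_lit 12297667631) (nat_lit 304) (nat_lit 612829578) (nat_lit 49) (nat_lit 5) (nat_lit 52) (nat_lit 5) (nat_lit 53) (nat_lit 5) (nat_lit 421) (nat_lit 330) (nat_lit 269))))) (XT.nd (nat_lit 234) (nat_lit 532) (nat_lit 0) (XT.nd (nat_lit 78) (nat_lit 304) (nat_lit 0) (XT.lf (nat_lit 0) (nat_lit 2078427923) (nat_lit 152) (nat_lit 4396942471) (nat_lit 228) (nat_lit 10152195887) (nat_lit 46) (nat_lit 5) (nat_lit 48) (nat_lit 5) (nat_lit 49) (nat_lit 5) (nat_lit 422) (nat_lit 330) (nat_lit 268)) (XT.nd (nat_lit 78) (nat_lit 76) (nat_lit 0) (XT.lf (nat_lit 0) (nat_lit 609493735) (nat_lit 228) (nat_lit 13211969427)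 (nat_lit 304) (nat_lit 3130673065) (nat_lit 43) (nat_lit 5) (nat_lit 46) (nat_lit 5) (nat_lit 47) (nat_lit 5) (nat_lit 423) (nat_lit 330) (nat_lit 267)) (XT.lf (nat_lit 0) (nat_lit 4114268217) (nat_lit 304) (nat_lit 1029880099) (nat_lit 76) (nat_lit 12140435016) (nat_lit 42) (nat_lit 5) (nat_lit 46) (nat_lit 5) (nat_lit 43) (nat_lit 5) (nat_lit 424) (nat_lit 330) (nat_lit 266)))) (XT.nd (nat_lit 78) (nat_lit 380) (nat_lit 0) (XT.lf (nat_lit 0) (nat_lit 11591158502) (nat_lit 228) (nat_lit 2838886857) (nat_lit 76) (nat_lit 3195405761) (nat_lit 40) (nat_lit 5) (nat_lit 43) (nat_lit 5) (nat_lit 41) (nat_lit 5) (nat_lit 425) (nat_lit 330) (nat_lit 265)) (XT.nd (nat_lit 78) (nat_lit 152) (nat_lit 0) (XT.lf (nat_lit 0) (nat_lit 1366269621) (nat_lit 228) (nat_lit 4837699178) (nat_lit 76) (nat_lit 11771054603) (nat_lit 37) (nat_lit 5) (nat_lit 40) (nat_lit 5) (nat_lit 38) (nat_lit 5) (nat_lit 426) (nat_lit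 330) (nat_lit 264)) (XT.lf (nat_lit 0) (nat_lit 8956520235) (nat_lit 228) (nat_lit 7049947912) (nat_lit 76) (nat_lit 2326827435) (nat_lit 35) (nat_lit 5) (nat_lit 38) (nat_lit 5) (nat_lit 36) (nat_lit 5) (nat_lit 427) (nat_lit 330) (nat_lit 263))))))))
noncomputable def xc28 : XT := (XT.nd (nat_lit 1716) (nat_lit 12084) (nat_lit 0) (XT.nd (nat_lit 858) (nat_lit 8892) (nat_lit 0) (XT.nd (nat_lit 390) (nat_lit 10108) (nat_lit 0) (XT.nd (nat_lit 156) (nat_lit 4256) (nat_lit 0) (XT.nd (nat_lit 78) (nat_lit 1292) (nat_lit 0) (XT.lf (nat_lit 0) (nat_lit 2277443264) (nat_lit 1140) (nat_lit 559149699) (nat_lit 1140) (nat_lit 559149699) (nat_lit 606) (nat_lit 4) (nat_lit 621) (nat_lit 5) (nat_lit 621) (nat_lit 4) (nat_lit 358) (nat_lit 331) (nat_lit 331)) (XT.lf (nat_lit 0) (nat_lit 3811108076) (nat_lit 1292) (nat_lit 2213840572) (nat_lit 0) (nat_lit 806959178) (nat_lit 589) (nat_lit 5) (nat_lit 606) (nat_lit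 4) (nat_lit 589) (nat_lit 4) (nat_lit 359) (nat_lit 331) (nat_lit 330))) (XT.nd (nat_lit 78) (nat_lit 2888) (nat_lit 0) (XT.lf (nat_lit 0) (nat_lit 1870656802) (nat_lit 1368) (nat_lit 2142071573) (nat_lit 76) (nat_lit 2862515405) (nat_lit 571) (nat_lit 5) (nat_lit 589) (nat_lit 5) (nat_lit 572) (nat_lit 4) (nat_lit 360) (nat_lit 331) (nat_lit 329)) (XT.nd (nat_lit 78) (nat_lit 1520) (nat_lit 0) (XT.lf (nat_lit 0) (nat_lit 4906300030) (nat_lit 1368) (nat_lit 1855480566) (nat_lit 1444) (nat_lit 159868934) (nat_lit 553) (nat_lit 5) (nat_lit 571) (nat_lit 5) (nat_lit 572) (nat_lit 4) (nat_lit 361) (nat_lit 331) (nat_lit 328)) (XT.lf (nat_lit 0) (nat_lit 4667047553) (nat_lit 1520) (nat_lit 1848758633) (nat_lit 76) (nat_lit 455055963) (nat_lit 533) (nat_lit 5) (nat_lit 553) (nat_lit 5) (nat_lit 534) (nat_lit 4) (nat_lit 362) (nat_lit 331) (nat_lit 327))))) (XT.nd (nat_lit 234) (nat_lit 5168) (nat_lit 0)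 (XT.nd (nat_lit 78) (nat_lit 3344) (nat_lit 0) (XT.lf (nat_lit 0) (nat_lit 2494304639) (nat_lit 1596) (nat_lit 1640203792) (nat_lit 76) (nat_lit 2888455168) (nat_lit 512) (nat_lit 5) (nat_lit 533) (nat_lit 5) (nat_lit 513) (nat_lit 5) (nat_lit 363) (nat_lit 331) (nat_lit 326)) (XT.nd (nat_lit 78) (nat_lit 1672) (nat_lit 0) (XT.lf (nat_lit 0) (nat_lit 228902236) (nat_lit 1672) (nat_lit 1377792512) (nat_lit 76) (nat_lit 5471538399) (nat_lit 490) (nat_lit 5) (nat_lit 512) (nat_lit 5) (nat_lit 491) (nat_lit 5) (nat_lit 364) (nat_lit 331) (nat_lit 325)) (XT.lf (nat_lit 0) (nat_lit 4983283095) (nat_lit 1748) (nat_lit 1082695838) (nat_lit 76) (nat_lit 1070311254) (nat_lit 468) (nat_lit 5) (nat_lit 491) (nat_lit 5) (nat_lit 469) (nat_lit 5) (nat_lit 365) (nat_lit 331) (nat_lit 324)))) (XT.nd (nat_lit 78) (nat_lit 3344) (nat_lit 0) (XT.lf (nat_lit 0) (nat_lit 2571570225) (nat_lit 1824) (nat_lit 747484784) (nat_lit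 76) (nat_lit 3878272558) (nat_lit 444) (nat_lit 5) (nat_lit 468) (nat_lit 5) (nat_lit 445) (nat_lit 5) (nat_lit 366) (nat_lit 331) (nat_lit 323)) (XT.nd (nat_lit 78) (nat_lit 1824) (nat_lit 0) (XT.lf (nat_lit 0) (nat_lit 61754584) (nat_lit 1520) (nat_lit 360254761) (nat_lit 76) (nat_lit 6839619811) (nat_lit 424) (nat_lit 5) (nat_lit 444) (nat_lit 5) (nat_lit 425) (nat_lit 5) (nat_lit 367) (nat_lit 331) (nat_lit 322)) (XT.lf (nat_lit 0) (nat_lit 45651603) (nat_lit 912) (nat_lit 4717711351) (nat_lit 988) (nat_lit 2565194583) (nat_lit 400) (nat_lit 5) (nat_lit 412) (nat_lit 5) (nat_lit 413) (nat_lit 5) (nat_lit 368) (nat_lit 331) (nat_lit 321)))))) (XT.nd (nat_lit 390) (nat_lit 4560) (nat_lit 0) (XT.nd (nat_lit 156) (nat_lit 2508) (nat_lit 0) (XT.nd (nat_lit 78) (nat_lit 836) (nat_lit 0) (XT.lf (nat_lit 0) (nat_lit 504193334) (nat_lit 912) (nat_lit 1602569326) (nat_lit 988) (nat_lit 5291934180) (nat_lit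 387) (nat_lit 5) (nat_lit 399) (nat_lit 5) (nat_lit 400) (nat_lit 5) (nat_lit 369) (nat_lit 331) (nat_lit 320)) (XT.lf (nat_lit 0) (nat_lit 998469038) (nat_lit 836) (nat_lit 5821884860) (nat_lit 912) (nat_lit 651553689) (nat_lit 376) (nat_lit 5) (nat_lit 387) (nat_lit 5) (nat_lit 388) (nat_lit 5) (nat_lit 370) (nat_lit 331) (nat_lit 319))) (XT.nd (nat_lit 78) (nat_lit 1596) (nat_lit 0) (XT.lf (nat_lit 0) (nat_lit 1517493346) (nat_lit 836) (nat_lit 2495563235) (nat_lit 912) (nat_lit 3534970193) (nat_lit 364) (nat_lit 5) (nat_lit 375) (nat_lit 5) (nat_lit 376) (nat_lit 5) (nat_lit 371) (nat_lit 331) (nat_lit 318)) (XT.nd (nat_lit 78) (nat_lit 760) (nat_lit 0) (XT.lf (nat_lit 0) (nat_lit 1104578383) (nat_lit 836) (nat_lit 5547965297) (nat_lit 76) (nat_lit 974922471) (nat_lit 353) (nat_lit 5) (nat_lit 364) (nat_lit 5) (nat_lit 354) (nat_lit 5) (nat_lit 372) (nat_lit 331) (nat_lit 317)) (XT.lf (nat_lit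 0) (nat_lit 2660845058) (nat_lit 760) (nat_lit 3126050710) (nat_lit 836) (nat_lit 1922922392) (nat_lit 343) (nat_lit 5) (nat_lit 353) (nat_lit 5) (nat_lit 354) (nat_lit 5) (nat_lit 373) (nat_lit 331) (nat_lit 316))))) (XT.nd (nat_lit 234) (nat_lit 2204) (nat_lit 0) (XT.nd (nat_lit 78) (nat_lit 1520) (nat_lit 0) (XT.lf (nat_lit 0) (nat_lit 2719077013) (nat_lit 836) (nat_lit 4516475471) (nat_lit 76) (nat_lit 559931156) (nat_lit 332) (nat_lit 5) (nat_lit 343) (nat_lit 5) (nat_lit 333) (nat_lit 5) (nat_lit 374) (nat_lit 331) (nat_lit 315)) (XT.nd (nat_lit 78) (nat_lit 760) (nat_lit 0) (XT.lf (nat_lit 0) (nat_lit 3920572351) (nat_lit 760) (nat_lit 3515240860) (nat_lit 836) (nat_lit 448446378) (nat_lit 322) (nat_lit 5) (nat_lit 332) (nat_lit 5) (nat_lit 333) (nat_lit 5) (nat_lit 375) (nat_lit 331) (nat_lit 314)) (XT.lf (nat_lit 0) (nat_lit 4207268658) (nat_lit 760) (nat_lit 3388456864) (nat_lit 76) (nat_lit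 380526964) (nat_lit 312) (nat_lit 5) (nat_lit 322) (nat_lit 5) (nat_lit 313) (nat_lit 5) (nat_lit 376) (nat_lit 331) (nat_lit 313)))) (XT.nd (nat_lit 78) (nat_lit 1444) (nat_lit 0) (XT.lf (nat_lit 0) (nat_lit 882965327) (nat_lit 760) (nat_lit 2794177591) (nat_lit 76) (nat_lit 4394317241) (nat_lit 302) (nat_lit 5) (nat_lit 312) (nat_lit 5) (nat_lit 303) (nat_lit 5) (nat_lit 377) (nat_lit 331) (nat_lit 312)) (XT.nd (nat_lit 78) (nat_lit 760) (nat_lit 0) (XT.lf (nat_lit 0) (nat_lit 5574873332) (nat_lit 760) (nat_lit 2177520616) (nat_lit 76) (nat_lit 417623263) (nat_lit 293) (nat_lit 5) (nat_lit 303) (nat_lit 5) (nat_lit 294) (nat_lit 5) (nat_lit 378) (nat_lit 331) (nat_lit 311)) (XT.lf (nat_lit 0) (nat_lit 2083981250) (nat_lit 760) (nat_lit 1550378182) (nat_lit 76) (nat_lit 4637396814) (nat_lit 283) (nat_lit 5) (nat_lit 293) (nat_lit 5) (nat_lit 284) (nat_lit 5) (nat_lit 379) (nat_lit 331) (nat_lit 310)))))))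 (XT.nd (nat_lit 858) (nat_lit 5092) (nat_lit 0) (XT.nd (nat_lit 390) (nat_lit 3192) (nat_lit 0) (XT.nd (nat_lit 156) (nat_lit 2508) (nat_lit 0) (XT.nd (nat_lit 78) (nat_lit 684) (nat_lit 0) (XT.lf (nat_lit 0) (nat_lit 6826567457) (nat_lit 684) (nat_lit 897301576) (nat_lit 76) (nat_lit 653190183) (nat_lit 275) (nat_lit 5) (nat_lit 284) (nat_lit 5) (nat_lit 276) (nat_lit 5) (nat_lit 380) (nat_lit 331) (nat_lit 309)) (XT.lf (nat_lit 0) (nat_lit 3164523710) (nat_lit 684) (nat_lit 243145112) (nat_lit 76) (nat_lit 5077835811) (nat_lit 266) (nat_lit 5) (nat_lit 275) (nat_lit 5) (nat_lit 267) (nat_lit 5) (nat_lit 381) (nat_lit 331) (nat_lit 308))) (XT.nd (nat_lit 78) (nat_lit 1292) (nat_lit 0) (XT.lf (nat_lit 0) (nat_lit 444233622) (nat_lit 608) (nat_lit 7524643963) (nat_lit 684) (nat_lit 628761885) (nat_lit 250) (nat_lit 5) (nat_lit 258) (nat_lit 5) (nat_lit 259) (nat_lit 5) (nat_lit 382) (nat_lit 331) (nat_lit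 307)) (XT.nd (nat_lit 78) (nat_lit 684) (nat_lit 0) (XT.lf (nat_lit 0) (nat_lit 1128331548) (nat_lit 532) (nat_lit 3006580910) (nat_lit 608) (nat_lit 4577982531) (nat_lit 242) (nat_lit 5) (nat_lit 249) (nat_lit 5) (nat_lit 250) (nat_lit 5) (nat_lit 383) (nat_lit 331) (nat_lit 306)) (XT.lf (nat_lit 0) (nat_lit 173352141) (nat_lit 684) (nat_lit 6993545334) (nat_lit 76) (nat_lit 1665128336) (nat_lit 233) (nat_lit 5) (nat_lit 242) (nat_lit 5) (nat_lit 234) (nat_lit 5) (nat_lit 384) (nat_lit 331) (nat_lit 305))))) (XT.nd (nat_lit 234) (nat_lit 1596) (nat_lit 0) (XT.nd (nat_lit 78) (nat_lit 1064) (nat_lit 0) (XT.lf (nat_lit 0) (nat_lit 2538599885) (nat_lit 532) (nat_lit 2452996339) (nat_lit 608) (nat_lit 3962815476) (nat_lit 226) (nat_lit 5) (nat_lit 233) (nat_lit 5) (nat_lit 234) (nat_lit 5) (nat_lit 385) (nat_lit 331) (nat_lit 304)) (XT.nd (nat_lit 78) (nat_lit 456) (nat_lit 0) (XT.lf (nat_lit 0) (nat_lit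 846566557) (nat_lit 608) (nat_lit 5824092086) (nat_lit 76) (nat_lit 2410031670) (nat_lit 218) (nat_lit 5) (nat_lit 226) (nat_lit 5) (nat_lit 219) (nat_lit 5) (nat_lit 386) (nat_lit 331) (nat_lit 303)) (XT.lf (nat_lit 0) (nat_lit 3969367947) (nat_lit 456) (nat_lit 1764392576) (nat_lit 532) (nat_lit 3476741819) (nat_lit 212) (nat_lit 5) (nat_lit 218) (nat_lit 5) (nat_lit 219) (nat_lit 5) (nat_lit 387) (nat_lit 331) (nat_lit 302)))) (XT.nd (nat_lit 78) (nat_lit 988) (nat_lit 0) (XT.lf (nat_lit 0) (nat_lit 1399105320) (nat_lit 608) (nat_lit 4656727521) (nat_lit 76) (nat_lit 3288318382) (nat_lit 204) (nat_lit 5) (nat_lit 212) (nat_lit 5) (nat_lit 205) (nat_lit 5) (nat_lit 388) (nat_lit 331) (nat_lit 301)) (XT.nd (nat_lit 78) (nat_lit 532) (nat_lit 0) (XT.lf (nat_lit 0) (nat_lit 5404897457) (nat_lit 456) (nat_lit 956207321) (nat_lit 532) (nat_lit 3120518016) (nat_lit 198) (nat_lit 5) (nat_lit 204) (nat_lit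 5) (nat_lit 205) (nat_lit 5) (nat_lit 389) (nat_lit 331) (nat_lit 300)) (XT.lf (nat_lit 0) (nat_lit 1829834413) (nat_lit 532) (nat_lit 3508014294) (nat_lit 76) (nat_lit 4285037398) (nat_lit 191) (nat_lit 5) (nat_lit 198) (nat_lit 5) (nat_lit 192) (nat_lit 5) (nat_lit 390) (nat_lit 331) (nat_lit 299)))))) (XT.nd (nat_lit 390) (nat_lit 2812) (nat_lit 0) (XT.nd (nat_lit 156) (nat_lit 1292) (nat_lit 0) (XT.nd (nat_lit 78) (nat_lit 532) (nat_lit 0) (XT.lf (nat_lit 0) (nat_lit 6828604114) (nat_lit 456) (nat_lit 43608110) (nat_lit 532) (nat_lit 2896058301) (nat_lit 185) (nat_lit 5) (nat_lit 191) (nat_lit 5) (nat_lit 192) (nat_lit 5) (nat_lit 391) (nat_lit 331) (nat_lit 298)) (XT.lf (nat_lit 0) (nat_lit 2136472030) (nat_lit 532) (nat_lit 2395488547) (nat_lit 76) (nat_lit 5385454342) (nat_lit 178) (nat_lit 5) (nat_lit 185) (nat_lit 5) (nat_lit 179) (nat_lit 5) (nat_lit 392) (nat_lit 331) (nat_lit 297))) (XT.nd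 (nat_lit 78) (nat_lit 912) (nat_lit 0) (XT.lf (nat_lit 0) (nat_lit 7270732157) (nat_lit 456) (nat_lit 1854330368) (nat_lit 76) (nat_lit 945799151) (nat_lit 173) (nat_lit 5) (nat_lit 179) (nat_lit 5) (nat_lit 174) (nat_lit 5) (nat_lit 393) (nat_lit 331) (nat_lit 296)) (XT.nd (nat_lit 78) (nat_lit 380) (nat_lit 0) (XT.lf (nat_lit 0) (nat_lit 2315542461) (nat_lit 532) (nat_lit 1337846555) (nat_lit 76) (nat_lit 6574912636) (nat_lit 166) (nat_lit 5) (nat_lit 173) (nat_lit 5) (nat_lit 167) (nat_lit 5) (nat_lit 394) (nat_lit 331) (nat_lit 295)) (XT.lf (nat_lit 0) (nat_lit 7547428262) (nat_lit 456) (nat_lit 834673528) (nat_lit 76) (nat_lit 2007989044) (nat_lit 161) (nat_lit 5) (nat_lit 167) (nat_lit 5) (nat_lit 162) (nat_lit 5) (nat_lit 395) (nat_lit 331) (nat_lit 294))))) (XT.nd (nat_lit 234) (nat_lit 1140) (nat_lit 0) (XT.nd (nat_lit 78) (nat_lit 1216) (nat_lit 0) (XT.lf (nat_lit 0) (nat_lit 2362319440)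 (nat_lit 456) (nat_lit 355145202) (nat_lit 76) (nat_lit 7838691586) (nat_lit 155) (nat_lit 5) (nat_lit 161) (nat_lit 5) (nat_lit 156) (nat_lit 5) (nat_lit 396) (nat_lit 331) (nat_lit 293)) (XT.nd (nat_lit 78) (nat_lit 456) (nat_lit 0) (XT.lf (nat_lit 0) (nat_lit 100114691) (nat_lit 380) (nat_lit 7597406612) (nat_lit 456) (nat_lit 3029063666) (nat_lit 145) (nat_lit 5) (nat_lit 150) (nat_lit 5) (nat_lit 151) (nat_lit 5) (nat_lit 397) (nat_lit 331) (nat_lit 292)) (XT.lf (nat_lit 0) (nat_lit 538038319) (nat_lit 380) (nat_lit 1736213265) (nat_lit 456) (nat_lit 8627315194) (nat_lit 139) (nat_lit 5) (nat_lit 144) (nat_lit 5) (nat_lit 145) (nat_lit 5) (nat_lit 398) (nat_lit 331) (nat_lit 291)))) (XT.nd (nat_lit 78) (nat_lit 760) (nat_lit 0) (XT.lf (nat_lit 0) (nat_lit 935889155) (nat_lit 380) (nat_lit 6782760079) (nat_lit 456) (nat_lit 3362295816) (nat_lit 134) (nat_lit 5) (nat_lit 139) (nat_lit 5) (nat_lit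 140) (nat_lit 5) (nat_lit 399) (nat_lit 331) (nat_lit 290)) (XT.nd (nat_lit 78) (nat_lit 380) (nat_lit 0) (XT.lf (nat_lit 0) (nat_lit 1314327855) (nat_lit 304) (nat_lit 727621695) (nat_lit 380) (nat_lit 9223331187) (nat_lit 129) (nat_lit 5) (nat_lit 133) (nat_lit 5) (nat_lit 134) (nat_lit 5) (nat_lit 400) (nat_lit 331) (nat_lit 289)) (XT.lf (nat_lit 0) (nat_lit 1636814262) (nat_lit 380) (nat_lit 5960429178) (nat_lit 456) (nat_lit 3856775927) (nat_lit 124) (nat_lit 5) (nat_lit 129) (nat_lit 5) (nat_lit 130) (nat_lit 5) (nat_lit 401) (nat_lit 331) (nat_lit 288))))))))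
noncomputable def xc29 : XT := (XT.nd (nat_lit 1716) (nat_lit 836) (nat_lit 0) (XT.nd (nat_lit 858) (nat_lit 2432) (nat_lit 0) (XT.nd (nat_lit 390) (nat_lit 1748) (nat_lit 0) (XT.nd (nat_lit 156) (nat_lit 1064) (nat_lit 0) (XT.nd (nat_lit 78) (nat_lit 304) (nat_lit 0) (XT.lf (nat_lit 0) (nat_lit 1655852730) (nat_lit 380) (nat_lit 9706831831) (nat_lit 76) (nat_lit 285387802) (nat_lit 119) (nat_lit 5) (nat_lit 124) (nat_lit 5) (nat_lit 120) (nat_lit 5) (nat_lit 402) (nat_lit 331) (nat_lit 287)) (XT.lf (nat_lit 0) (nat_lit 2175914560) (nat_lit 304) (nat_lit 5147770033) (nat_lit 380) (nat_lit 4522916721) (nat_lit 115) (nat_lit 5) (nat_lit 119) (nat_lit 5) (nat_lit 120) (nat_lit 5) (nat_lit 403) (nat_lit 331) (nat_lit 286))) (XT.nd (nat_lit 78) (nat_lit 684) (nat_lit 0) (XT.lf (nat_lit 0) (nat_lit 1108032902) (nat_lit 380) (nat_lit 9662993531) (nat_lit 76) (nat_lit 1279681141) (nat_lit 110) (nat_lit 5)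 (nat_lit 115) (nat_lit 5) (nat_lit 111) (nat_lit 5) (nat_lit 404) (nat_lit 331) (nat_lit 285)) (XT.nd (nat_lit 78) (nat_lit 380) (nat_lit 0) (XT.lf (nat_lit 0) (nat_lit 2523690106) (nat_lit 304) (nat_lit 4363005782) (nat_lit 380) (nat_lit 5372846559) (nat_lit 106) (nat_lit 5) (nat_lit 110) (nat_lit 5) (nat_lit 111) (nat_lit 5) (nat_lit 405) (nat_lit 331) (nat_lit 284)) (XT.lf (nat_lit 0) (nat_lit 381195245) (nat_lit 380) (nat_lit 9846373654) (nat_lit 76) (nat_lit 2246595958) (nat_lit 101) (nat_lit 5) (nat_lit 106) (nat_lit 5) (nat_lit 102) (nat_lit 5) (nat_lit 406) (nat_lit 331) (nat_lit 283))))) (XT.nd (nat_lit 234) (nat_lit 836) (nat_lit 0) (XT.nd (nat_lit 78) (nat_lit 608) (nat_lit 0) (XT.lf (nat_lit 0) (nat_lit 2647797270) (nat_lit 304) (nat_lit 3625414566) (nat_lit 380) (nat_lit 6420544241) (nat_lit 97) (nat_lit 5) (nat_lit 101) (nat_lit 5) (nat_lit 102) (nat_lit 5) (nat_lit 407) (nat_lit 331)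 (nat_lit 282)) (XT.nd (nat_lit 78) (nat_lit 380) (nat_lit 0) (XT.lf (nat_lit 0) (nat_lit 2624074203) (nat_lit 228) (nat_lit 9748967981) (nat_lit 304) (nat_lit 546278988) (nat_lit 94) (nat_lit 5) (nat_lit 97) (nat_lit 5) (nat_lit 98) (nat_lit 5) (nat_lit 408) (nat_lit 331) (nat_lit 281)) (XT.lf (nat_lit 0) (nat_lit 2512699515) (nat_lit 304) (nat_lit 2955530460) (nat_lit 380) (nat_lit 7681991269) (nat_lit 89) (nat_lit 5) (nat_lit 93) (nat_lit 5) (nat_lit 94) (nat_lit 5) (nat_lit 409) (nat_lit 331) (nat_lit 280)))) (XT.nd (nat_lit 78) (nat_lit 608) (nat_lit 0) (XT.lf (nat_lit 0) (nat_lit 2339065220) (nat_lit 228) (nat_lit 9356542045) (nat_lit 304) (nat_lit 1691578396) (nat_lit 86) (nat_lit 5) (nat_lit 89) (nat_lit 5) (nat_lit 90) (nat_lit 5) (nat_lit 410) (nat_lit 331) (nat_lit 279)) (XT.nd (nat_lit 78) (nat_lit 228) (nat_lit 0) (XT.lf (nat_lit 0) (nat_lit 2079284746) (nat_lit 304) (nat_lit 2375359231)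 (nat_lit 380) (nat_lit 9175343132) (nat_lit 81) (nat_lit 5) (nat_lit 85) (nat_lit 5) (nat_lit 86) (nat_lit 5) (nat_lit 411) (nat_lit 331) (nat_lit 278)) (XT.lf (nat_lit 0) (nat_lit 1734280251) (nat_lit 228) (nat_lit 9076010403) (nat_lit 304) (nat_lit 3068604081) (nat_lit 78) (nat_lit 5) (nat_lit 81) (nat_lit 5) (nat_lit 82) (nat_lit 5) (nat_lit 412) (nat_lit 331) (nat_lit 277)))))) (XT.nd (nat_lit 390) (nat_lit 1368) (nat_lit 0) (XT.nd (nat_lit 156) (nat_lit 532) (nat_lit 0) (XT.nd (nat_lit 78) (nat_lit 228) (nat_lit 0) (XT.lf (nat_lit 0) (nat_lit 1304445488) (nat_lit 228) (nat_lit 1908610952) (nat_lit 304) (nat_lit 10921121347) (nat_lit 74) (nat_lit 5) (nat_lit 77) (nat_lit 5) (nat_lit 78) (nat_lit 5) (nat_lit 413) (nat_lit 331) (nat_lit 276)) (XT.lf (nat_lit 0) (nat_lit 764454704) (nat_lit 228) (nat_lit 8932380859) (nat_lit 304) (nat_lit 4698776603) (nat_lit 71) (nat_lit 5) (nat_lit 74) (nat_lit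 5) (nat_lit 75) (nat_lit 5) (nat_lit 414) (nat_lit 331) (nat_lit 275))) (XT.nd (nat_lit 78) (nat_lit 228) (nat_lit 0) (XT.lf (nat_lit 0) (nat_lit 140617802) (nat_lit 228) (nat_lit 1580951696) (nat_lit 304) (nat_lit 12942428186) (nat_lit 67) (nat_lit 5) (nat_lit 70) (nat_lit 5) (nat_lit 71) (nat_lit 5) (nat_lit 415) (nat_lit 331) (nat_lit 274)) (XT.nd (nat_lit 78) (nat_lit 228) (nat_lit 0) (XT.lf (nat_lit 0) (nat_lit 8336416264) (nat_lit 304) (nat_lit 612245427) (nat_lit 76) (nat_lit 5989842585) (nat_lit 67) (nat_lit 5) (nat_lit 71) (nat_lit 5) (nat_lit 68) (nat_lit 5) (nat_lit 416) (nat_lit 331) (nat_lit 273)) (XT.lf (nat_lit 0) (nat_lit 13774797239) (nat_lit 228) (nat_lit 1410342061) (nat_lit 304) (nat_lit 35403249) (nat_lit 64) (nat_lit 5) (nat_lit 67) (nat_lit 5) (nat_lit 68) (nat_lit 5) (nat_lit 417) (nat_lit 331) (nat_lit 272))))) (XT.nd (nat_lit 234) (nat_lit 608) (nat_lit 0) (XT.nd (nat_lit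 78) (nat_lit 456) (nat_lit 0) (XT.lf (nat_lit 0) (nat_lit 6707324383) (nat_lit 304) (nat_lit 2442971356) (nat_lit 76) (nat_lit 6358531698) (nat_lit 60) (nat_lit 5) (nat_lit 64) (nat_lit 5) (nat_lit 61) (nat_lit 5) (nat_lit 418) (nat_lit 331) (nat_lit 271)) (XT.nd (nat_lit 78) (nat_lit 304) (nat_lit 0) (XT.lf (nat_lit 0) (nat_lit 12268478539) (nat_lit 152) (nat_lit 1419346326) (nat_lit 228) (nat_lit 2117216597) (nat_lit 58) (nat_lit 5) (nat_lit 60) (nat_lit 5) (nat_lit 61) (nat_lit 5) (nat_lit 419) (nat_lit 331) (nat_lit 270)) (XT.lf (nat_lit 0) (nat_lit 4776178846) (nat_lit 304) (nat_lit 4797978624) (nat_lit 76) (nat_lit 6533947670) (nat_lit 54) (nat_lit 5) (nat_lit 58) (nat_lit 5) (nat_lit 55) (nat_lit 5) (nat_lit 420) (nat_lit 331) (nat_lit 269)))) (XT.nd (nat_lit 78) (nat_lit 456) (nat_lit 0) (XT.lf (nat_lit 0) (nat_lit 10233308502) (nat_lit 152) (nat_lit 1653084863) (nat_lit 228) (nat_lit 4532816184)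 (nat_lit 52) (nat_lit 5) (nat_lit 54) (nat_lit 5) (nat_lit 55) (nat_lit 5) (nat_lit 421) (nat_lit 331) (nat_lit 268)) (XT.nd (nat_lit 78) (nat_lit 152) (nat_lit 0) (XT.lf (nat_lit 0) (nat_lit 2511181960) (nat_lit 304) (nat_lit 7743878343) (nat_lit 76) (nat_lit 6482803907) (nat_lit 48) (nat_lit 5) (nat_lit 52) (nat_lit 5) (nat_lit 49) (nat_lit 5) (nat_lit 422) (nat_lit 331) (nat_lit 267)) (XT.lf (nat_lit 0) (nat_lit 7600576792) (nat_lit 152) (nat_lit 2147336277) (nat_lit 228) (nat_lit 7316710303) (nat_lit 46) (nat_lit 5) (nat_lit 48) (nat_lit 5) (nat_lit 49) (nat_lit 5) (nat_lit 423) (nat_lit 331) (nat_lit 266))))))) (XT.nd (nat_lit 48360) (nat_lit 0) (nat_lit 23408) (XT.nd (nat_lit 47892) (nat_lit 0) (nat_lit 37772) (XT.nd (nat_lit 156) (nat_lit 380) (nat_lit 0) (XT.nd (nat_lit 78) (nat_lit 228) (nat_lit 0) (XT.lf (nat_lit 0) (nat_lit 6044552115) (nat_lit 228) (nat_lit 11230359118) (nat_lit 304) (nat_lit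 124814682) (nat_lit 43) (nat_lit 5) (nat_lit 46) (nat_lit 5) (nat_lit 47) (nat_lit 5) (nat_lit 424) (nat_lit 331) (nat_lit 265)) (XT.lf (nat_lit 0) (nat_lit 4294205048) (nat_lit 152) (nat_lit 2941395752) (nat_lit 228) (nat_lit 10507373178) (nat_lit 40) (nat_lit 5) (nat_lit 42) (nat_lit 5) (nat_lit 43) (nat_lit 5) (nat_lit 425) (nat_lit 331) (nat_lit 264))) (XT.nd (nat_lit 78) (nat_lit 228) (nat_lit 0) (XT.lf (nat_lit 0) (nat_lit 2363266658) (nat_lit 152) (nat_lit 12523235789) (nat_lit 228) (nat_lit 3208576757) (nat_lit 38) (nat_lit 5) (nat_lit 40) (nat_lit 5) (nat_lit 41) (nat_lit 5) (nat_lit 426) (nat_lit 331) (nat_lit 263)) (XT.nd (nat_lit 47580) (nat_lit 0) (nat_lit 45676) (XT.lf (nat_lit 0) (nat_lit 229943133) (nat_lit 152) (nat_lit 4078492215) (nat_lit 228) (nat_lit 14147640765) (nat_lit 35) (nat_lit 5) (nat_lit 37) (nat_lit 5) (nat_lit 38) (nat_lit 5) (nat_lit 427) (nat_lit 331) (nat_lit 262))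 (XT.lf (nat_lit 0) (nat_lit 2330847193) (nat_lit 988) (nat_lit 514052143) (nat_lit 988) (nat_lit 514052143) (nat_lit 636) (nat_lit 4) (nat_lit 649) (nat_lit 5) (nat_lit 649) (nat_lit 4) (nat_lit 356) (nat_lit 332) (nat_lit 332))))) (XT.nd (nat_lit 234) (nat_lit 4332) (nat_lit 0) (XT.nd (nat_lit 78) (nat_lit 2432) (nat_lit 0) (XT.lf (nat_lit 0) (nat_lit 3849197013) (nat_lit 1140) (nat_lit 2211678163) (nat_lit 0) (nat_lit 693038180) (nat_lit 621) (nat_lit 5) (nat_lit 636) (nat_lit 4) (nat_lit 621) (nat_lit 4) (nat_lit 357) (nat_lit 332) (nat_lit 331)) (XT.nd (nat_lit 78) (nat_lit 1216) (nat_lit 0) (XT.lf (nat_lit 0) (nat_lit 1932433645) (nat_lit 1216) (nat_lit 2316874745) (nat_lit 76) (nat_lit 2543512067) (nat_lit 605) (nat_lit 5) (nat_lit 621) (nat_lit 5) (nat_lit 606) (nat_lit 4) (nat_lit 358) (nat_lit 332) (nat_lit 330)) (XT.lf (nat_lit 0) (nat_lit 4468825280) (nat_lit 1216) (nat_lit 2295629370) (nat_lit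 1292) (nat_lit 70322515) (nat_lit 589) (nat_lit 5) (nat_lit 605) (nat_lit 5) (nat_lit 606) (nat_lit 4) (nat_lit 359) (nat_lit 332) (nat_lit 329)))) (XT.nd (nat_lit 78) (nat_lit 2964) (nat_lit 0) (XT.lf (nat_lit 0) (nat_lit 4507499589) (nat_lit 1292) (nat_lit 184745218) (nat_lit 1368) (nat_lit 2187312865) (nat_lit 571) (nat_lit 5) (nat_lit 588) (nat_lit 5) (nat_lit 589) (nat_lit 5) (nat_lit 360) (nat_lit 332) (nat_lit 328)) (XT.nd (nat_lit 78) (nat_lit 1520) (nat_lit 0) (XT.lf (nat_lit 0) (nat_lit 2545605884) (nat_lit 1444) (nat_lit 2336214140) (nat_lit 76) (nat_lit 2045359938) (nat_lit 552) (nat_lit 5) (nat_lit 571) (nat_lit 5) (nat_lit 553) (nat_lit 5) (nat_lit 361) (nat_lit 332) (nat_lit 327)) (XT.lf (nat_lit 0) (nat_lit 310745306) (nat_lit 1520) (nat_lit 2247353074) (nat_lit 76) (nat_lit 4419806660) (nat_lit 532) (nat_lit 5) (nat_lit 552) (nat_lit 5) (nat_lit 533) (nat_lit 5) (nat_lit 362) (nat_lit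 332) (nat_lit 326)))))) (XT.nd (nat_lit 390) (nat_lit 6156) (nat_lit 0) (XT.nd (nat_lit 156) (nat_lit 5016) (nat_lit 0) (XT.nd (nat_lit 78) (nat_lit 1672) (nat_lit 0) (XT.lf (nat_lit 0) (nat_lit 4913802273) (nat_lit 1520) (nat_lit 74818361) (nat_lit 1596) (nat_lit 2042908233) (nat_lit 512) (nat_lit 5) (nat_lit 532) (nat_lit 5) (nat_lit 533) (nat_lit 5) (nat_lit 363) (nat_lit 332) (nat_lit 325)) (XT.lf (nat_lit 0) (nat_lit 2608299574) (nat_lit 1672) (nat_lit 1953493430) (nat_lit 76) (nat_lit 2526177616) (nat_lit 490) (nat_lit 5) (nat_lit 512) (nat_lit 5) (nat_lit 491) (nat_lit 5) (nat_lit 364) (nat_lit 332) (nat_lit 324))) (XT.nd (nat_lit 78) (nat_lit 3268) (nat_lit 0) (XT.lf (nat_lit 0) (nat_lit 133943997) (nat_lit 1748) (nat_lit 1737564829) (nat_lit 76) (nat_lit 5276107031) (nat_lit 467) (nat_lit 5) (nat_lit 490) (nat_lit 5) (nat_lit 468) (nat_lit 5) (nat_lit 365) (nat_lit 332) (nat_lit 323)) (XT.nd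 (nat_lit 78) (nat_lit 1520) (nat_lit 0) (XT.lf (nat_lit 0) (nat_lit 4746414810) (nat_lit 1824) (nat_lit 1491957784) (nat_lit 76) (nat_lit 971696885) (nat_lit 444) (nat_lit 5) (nat_lit 468) (nat_lit 5) (nat_lit 445) (nat_lit 5) (nat_lit 366) (nat_lit 332) (nat_lit 322)) (XT.lf (nat_lit 0) (nat_lit 2124265581) (nat_lit 1520) (nat_lit 1208957329) (nat_lit 76) (nat_lit 3942309650) (nat_lit 424) (nat_lit 5) (nat_lit 444) (nat_lit 5) (nat_lit 425) (nat_lit 5) (nat_lit 367) (nat_lit 332) (nat_lit 321))))) (XT.nd (nat_lit 234) (nat_lit 3268) (nat_lit 0) (XT.nd (nat_lit 78) (nat_lit 1976) (nat_lit 0) (XT.lf (nat_lit 0) (nat_lit 6464757405) (nat_lit 912) (nat_lit 273257012) (nat_lit 988) (nat_lit 606220747) (nat_lit 412) (nat_lit 5) (nat_lit 424) (nat_lit 5) (nat_lit 425) (nat_lit 5) (nat_lit 368) (nat_lit 332) (nat_lit 320)) (XT.nd (nat_lit 78) (nat_lit 988) (nat_lit 0) (XT.lf (nat_lit 0) (nat_lit 3965376388)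 (nat_lit 988) (nat_lit 533400447) (nat_lit 76) (nat_lit 2916852820) (nat_lit 399) (nat_lit 5) (nat_lit 412) (nat_lit 5) (nat_lit 400) (nat_lit 5) (nat_lit 369) (nat_lit 332) (nat_lit 319)) (XT.lf (nat_lit 0) (nat_lit 1090778919) (nat_lit 988) (nat_lit 140307666) (nat_lit 76) (nat_lit 6259289496) (nat_lit 386) (nat_lit 5) (nat_lit 399) (nat_lit 5) (nat_lit 387) (nat_lit 5) (nat_lit 370) (nat_lit 332) (nat_lit 318)))) (XT.nd (nat_lit 78) (nat_lit 1596) (nat_lit 0) (XT.lf (nat_lit 0) (nat_lit 278543539) (nat_lit 836) (nat_lit 5389905978) (nat_lit 912) (nat_lit 1899544014) (nat_lit 364) (nat_lit 5) (nat_lit 375) (nat_lit 5) (nat_lit 376) (nat_lit 5) (nat_lit 371) (nat_lit 332) (nat_lit 317)) (XT.nd (nat_lit 78) (nat_lit 760) (nat_lit 0) (XT.lf (nat_lit 0) (nat_lit 731678732) (nat_lit 760) (nat_lit 1911188276) (nat_lit 836) (nat_lit 5005881568) (nat_lit 353) (nat_lit 5) (nat_lit 363) (nat_lit 5) (nat_lit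 364) (nat_lit 5) (nat_lit 372) (nat_lit 332) (nat_lit 316)) (XT.lf (nat_lit 0) (nat_lit 1218096127) (nat_lit 760) (nat_lit 6026119894) (nat_lit 836) (nat_lit 488517774) (nat_lit 343) (nat_lit 5) (nat_lit 353) (nat_lit 5) (nat_lit 354) (nat_lit 5) (nat_lit 373) (nat_lit 332) (nat_lit 315))))))))
noncomputable def xc30 : XT := (XT.nd (nat_lit 1716) (nat_lit 7372) (nat_lit 0) (XT.nd (nat_lit 858) (nat_lit 6080) (nat_lit 0) (XT.nd (nat_lit 390) (nat_lit 3952) (nat_lit 0) (XT.nd (nat_lit 156) (nat_lit 2128) (nat_lit 0) (XT.nd (nat_lit 78) (nat_lit 836) (nat_lit 0) (XT.lf (nat_lit 0) (nat_lit 1720468198) (nat_lit 760) (nat_lit 2342079916) (nat_lit 836) (nat_lit 3757120497) (nat_lit 332) (nat_lit 5) (nat_lit 342) (nat_lit 5) (nat_lit 343) (nat_lit 5) (nat_lit 374) (nat_lit 332) (nat_lit 314)) (XT.lf (nat_lit 0) (nat_lit 775817837) (nat_lit 836) (nat_lit 5650730533) (nat_lit 76) (nat_lit 1483467664) (nat_lit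 321) (nat_lit 5) (nat_lit 332) (nat_lit 5) (nat_lit 322) (nat_lit 5) (nat_lit 375) (nat_lit 332) (nat_lit 313))) (XT.nd (nat_lit 78) (nat_lit 1444) (nat_lit 0) (XT.lf (nat_lit 0) (nat_lit 2810534408) (nat_lit 684) (nat_lit 2544831850) (nat_lit 760) (nat_lit 2648002322) (nat_lit 312) (nat_lit 5) (nat_lit 321) (nat_lit 5) (nat_lit 322) (nat_lit 5) (nat_lit 376) (nat_lit 332) (nat_lit 312)) (XT.nd (nat_lit 78) (nat_lit 684) (nat_lit 0) (XT.lf (nat_lit 0) (nat_lit 1904875122) (nat_lit 760) (nat_lit 4708684889) (nat_lit 76) (nat_lit 1486569667) (nat_lit 302) (nat_lit 5) (nat_lit 312) (nat_lit 5) (nat_lit 303) (nat_lit 5) (nat_lit 377) (nat_lit 332) (nat_lit 311)) (XT.lf (nat_lit 0) (nat_lit 3988333701) (nat_lit 684) (nat_lit 2538401856) (nat_lit 760) (nat_lit 1673363377) (nat_lit 293) (nat_lit 5) (nat_lit 302) (nat_lit 5) (nat_lit 303) (nat_lit 5) (nat_lit 378) (nat_lit 332) (nat_lit 310))))) (XT.nd (nat_lit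 234) (nat_lit 1900) (nat_lit 0) (XT.nd (nat_lit 78) (nat_lit 1292) (nat_lit 0) (XT.lf (nat_lit 0) (nat_lit 2909730257) (nat_lit 760) (nat_lit 3699086431) (nat_lit 76) (nat_lit 1694591139) (nat_lit 283) (nat_lit 5) (nat_lit 293) (nat_lit 5) (nat_lit 284) (nat_lit 5) (nat_lit 379) (nat_lit 332) (nat_lit 309)) (XT.nd (nat_lit 78) (nat_lit 684) (nat_lit 0) (XT.lf (nat_lit 0) (nat_lit 5240310211) (nat_lit 608) (nat_lit 2340723646) (nat_lit 684) (nat_lit 829112991) (nat_lit 275) (nat_lit 5) (nat_lit 283) (nat_lit 5) (nat_lit 284) (nat_lit 5) (nat_lit 380) (nat_lit 332) (nat_lit 308)) (XT.lf (nat_lit 0) (nat_lit 3794013162) (nat_lit 684) (nat_lit 2635807796) (nat_lit 76) (nat_lit 2090336099) (nat_lit 266) (nat_lit 5) (nat_lit 275) (nat_lit 5) (nat_lit 267) (nat_lit 5) (nat_lit 381) (nat_lit 332) (nat_lit 307)))) (XT.nd (nat_lit 78) (nat_lit 1292) (nat_lit 0) (XT.lf (nat_lit 0) (nat_lit 6552762102) (nat_lit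 608) (nat_lit 1968849298) (nat_lit 684) (nat_lit 112225217) (nat_lit 258) (nat_lit 5) (nat_lit 266) (nat_lit 5) (nat_lit 267) (nat_lit 5) (nat_lit 382) (nat_lit 332) (nat_lit 306)) (XT.nd (nat_lit 78) (nat_lit 608) (nat_lit 0) (XT.lf (nat_lit 0) (nat_lit 4560318360) (nat_lit 684) (nat_lit 1532972779) (nat_lit 76) (nat_lit 2657430194) (nat_lit 249) (nat_lit 5) (nat_lit 258) (nat_lit 5) (nat_lit 250) (nat_lit 5) (nat_lit 383) (nat_lit 332) (nat_lit 305)) (XT.lf (nat_lit 0) (nat_lit 472975492) (nat_lit 608) (nat_lit 962938804) (nat_lit 76) (nat_lit 7435553700) (nat_lit 241) (nat_lit 5) (nat_lit 249) (nat_lit 5) (nat_lit 242) (nat_lit 5) (nat_lit 384) (nat_lit 332) (nat_lit 304)))))) (XT.nd (nat_lit 390) (nat_lit 2812) (nat_lit 0) (XT.nd (nat_lit 156) (nat_lit 1520) (nat_lit 0) (XT.nd (nat_lit 78) (nat_lit 1140) (nat_lit 0) (XT.lf (nat_lit 0) (nat_lit 5210200589) (nat_lit 684) (nat_lit 405097811) (nat_lit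 76) (nat_lit 3380184317) (nat_lit 233) (nat_lit 5) (nat_lit 242) (nat_lit 5) (nat_lit 234) (nat_lit 5) (nat_lit 385) (nat_lit 332) (nat_lit 303)) (XT.lf (nat_lit 0) (nat_lit 175244809) (nat_lit 532) (nat_lit 759716636) (nat_lit 608) (nat_lit 8188521080) (nat_lit 218) (nat_lit 5) (nat_lit 225) (nat_lit 5) (nat_lit 226) (nat_lit 5) (nat_lit 386) (nat_lit 332) (nat_lit 302))) (XT.nd (nat_lit 78) (nat_lit 1064) (nat_lit 0) (XT.lf (nat_lit 0) (nat_lit 742497855) (nat_lit 456) (nat_lit 5006484867) (nat_lit 532) (nat_lit 3505783096) (nat_lit 212) (nat_lit 5) (nat_lit 218) (nat_lit 5) (nat_lit 219) (nat_lit 5) (nat_lit 387) (nat_lit 332) (nat_lit 301)) (XT.nd (nat_lit 78) (nat_lit 456) (nat_lit 0) (XT.lf (nat_lit 0) (nat_lit 1280540203) (nat_lit 608) (nat_lit 8061239088) (nat_lit 76) (nat_lit 48444708) (nat_lit 204) (nat_lit 5) (nat_lit 212) (nat_lit 5) (nat_lit 205) (nat_lit 5) (nat_lit 388) (nat_lit 332)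 (nat_lit 300)) (XT.lf (nat_lit 0) (nat_lit 1889628764) (nat_lit 456) (nat_lit 4284270186) (nat_lit 532) (nat_lit 3355176654) (nat_lit 198) (nat_lit 5) (nat_lit 204) (nat_lit 5) (nat_lit 205) (nat_lit 5) (nat_lit 389) (nat_lit 332) (nat_lit 299))))) (XT.nd (nat_lit 234) (nat_lit 1292) (nat_lit 0) (XT.nd (nat_lit 78) (nat_lit 988) (nat_lit 0) (XT.lf (nat_lit 0) (nat_lit 1507302528) (nat_lit 532) (nat_lit 7208576103) (nat_lit 76) (nat_lit 956316644) (nat_lit 191) (nat_lit 5) (nat_lit 198) (nat_lit 5) (nat_lit 192) (nat_lit 5) (nat_lit 390) (nat_lit 332) (nat_lit 298)) (XT.nd (nat_lit 78) (nat_lit 532) (nat_lit 0) (XT.lf (nat_lit 0) (nat_lit 3014073468) (nat_lit 456) (nat_lit 3466424228) (nat_lit 532) (nat_lit 3338472322) (nat_lit 185) (nat_lit 5) (nat_lit 191) (nat_lit 5) (nat_lit 192) (nat_lit 5) (nat_lit 391) (nat_lit 332) (nat_lit 297)) (XT.lf (nat_lit 0) (nat_lit 1607665854) (nat_lit 532) (nat_lit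 6403126119) (nat_lit 76) (nat_lit 1959230128) (nat_lit 178) (nat_lit 5) (nat_lit 185) (nat_lit 5) (nat_lit 179) (nat_lit 5) (nat_lit 392) (nat_lit 332) (nat_lit 296)))) (XT.nd (nat_lit 78) (nat_lit 912) (nat_lit 0) (XT.lf (nat_lit 0) (nat_lit 4097940739) (nat_lit 380) (nat_lit 2567899735) (nat_lit 456) (nat_lit 3459156258) (nat_lit 173) (nat_lit 5) (nat_lit 178) (nat_lit 5) (nat_lit 179) (nat_lit 5) (nat_lit 393) (nat_lit 332) (nat_lit 295)) (XT.nd (nat_lit 78) (nat_lit 380) (nat_lit 0) (XT.lf (nat_lit 0) (nat_lit 1577789862) (nat_lit 532) (nat_lit 5663886716) (nat_lit 76) (nat_lit 3042598958) (nat_lit 166) (nat_lit 5) (nat_lit 173) (nat_lit 5) (nat_lit 167) (nat_lit 5) (nat_lit 394) (nat_lit 332) (nat_lit 294)) (XT.lf (nat_lit 0) (nat_lit 5122094112) (nat_lit 380) (nat_lit 1603691124) (nat_lit 456) (nat_lit 3721962986) (nat_lit 161) (nat_lit 5) (nat_lit 166) (nat_lit 5) (nat_lit 167) (nat_lit 5) (nat_lit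 395) (nat_lit 332) (nat_lit 293))))))) (XT.nd (nat_lit 858) (nat_lit 3192) (nat_lit 0) (XT.nd (nat_lit 390) (nat_lit 2052) (nat_lit 0) (XT.nd (nat_lit 156) (nat_lit 1292) (nat_lit 0) (XT.nd (nat_lit 78) (nat_lit 380) (nat_lit 0) (XT.lf (nat_lit 0) (nat_lit 1412586058) (nat_lit 456) (nat_lit 5011243356) (nat_lit 76) (nat_lit 4191743107) (nat_lit 155) (nat_lit 5) (nat_lit 161) (nat_lit 5) (nat_lit 156) (nat_lit 5) (nat_lit 396) (nat_lit 332) (nat_lit 292)) (XT.lf (nat_lit 0) (nat_lit 6065945338) (nat_lit 380) (nat_lit 588978782) (nat_lit 456) (nat_lit 4132939684) (nat_lit 150) (nat_lit 5) (nat_lit 155) (nat_lit 5) (nat_lit 156) (nat_lit 5) (nat_lit 397) (nat_lit 332) (nat_lit 291))) (XT.nd (nat_lit 78) (nat_lit 836) (nat_lit 0) (XT.lf (nat_lit 0) (nat_lit 1105648779) (nat_lit 456) (nat_lit 4467185441) (nat_lit 76) (nat_lit 5391743832) (nat_lit 144) (nat_lit 5) (nat_lit 150) (nat_lit 5) (nat_lit 145)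 (nat_lit 5) (nat_lit 398) (nat_lit 332) (nat_lit 290)) (XT.nd (nat_lit 78) (nat_lit 456) (nat_lit 0) (XT.lf (nat_lit 0) (nat_lit 6449501036) (nat_lit 456) (nat_lit 4241792003) (nat_lit 76) (nat_lit 454679057) (nat_lit 139) (nat_lit 5) (nat_lit 145) (nat_lit 5) (nat_lit 140) (nat_lit 5) (nat_lit 399) (nat_lit 332) (nat_lit 289)) (XT.lf (nat_lit 0) (nat_lit 649174274) (nat_lit 456) (nat_lit 4055540216) (nat_lit 76) (nat_lit 6627293130) (nat_lit 133) (nat_lit 5) (nat_lit 139) (nat_lit 5) (nat_lit 134) (nat_lit 5) (nat_lit 400) (nat_lit 332) (nat_lit 288))))) (XT.nd (nat_lit 234) (nat_lit 988) (nat_lit 0) (XT.nd (nat_lit 78) (nat_lit 760) (nat_lit 0) (XT.lf (nat_lit 0) (nat_lit 6102299026) (nat_lit 380) (nat_lit 3911150848) (nat_lit 76) (nat_lit 1509344256) (nat_lit 129) (nat_lit 5) (nat_lit 134) (nat_lit 5) (nat_lit 130) (nat_lit 5) (nat_lit 401) (nat_lit 332) (nat_lit 287)) (XT.nd (nat_lit 78) (nat_lit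 304) (nat_lit 0) (XT.lf (nat_lit 0) (nat_lit 33866980) (nat_lit 456) (nat_lit 3802226783) (nat_lit 76) (nat_lit 7882536197) (nat_lit 123) (nat_lit 5) (nat_lit 129) (nat_lit 5) (nat_lit 124) (nat_lit 5) (nat_lit 402) (nat_lit 332) (nat_lit 286)) (XT.lf (nat_lit 0) (nat_lit 5599688219) (nat_lit 380) (nat_lit 3753217286) (nat_lit 76) (nat_lit 2566297774) (nat_lit 119) (nat_lit 5) (nat_lit 124) (nat_lit 5) (nat_lit 120) (nat_lit 5) (nat_lit 403) (nat_lit 332) (nat_lit 285)))) (XT.nd (nat_lit 78) (nat_lit 684) (nat_lit 0) (XT.lf (nat_lit 0) (nat_lit 8384696720) (nat_lit 304) (nat_lit 2979323893) (nat_lit 380) (nat_lit 761150642) (nat_lit 115) (nat_lit 5) (nat_lit 119) (nat_lit 5) (nat_lit 120) (nat_lit 5) (nat_lit 404) (nat_lit 332) (nat_lit 284)) (XT.nd (nat_lit 78) (nat_lit 304) (nat_lit 0) (XT.lf (nat_lit 0) (nat_lit 4930219234) (nat_lit 380) (nat_lit 3797556352) (nat_lit 76) (nat_lit 3608278734) (nat_lit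 110) (nat_lit 5) (nat_lit 115) (nat_lit 5) (nat_lit 111) (nat_lit 5) (nat_lit 405) (nat_lit 332) (nat_lit 283)) (XT.lf (nat_lit 0) (nat_lit 8654864926) (nat_lit 304) (nat_lit 2156335642) (nat_lit 380) (nat_lit 1741386024) (nat_lit 106) (nat_lit 5) (nat_lit 110) (nat_lit 5) (nat_lit 111) (nat_lit 5) (nat_lit 406) (nat_lit 332) (nat_lit 282)))))) (XT.nd (nat_lit 390) (nat_lit 1596) (nat_lit 0) (XT.nd (nat_lit 156) (nat_lit 912) (nat_lit 0) (XT.nd (nat_lit 78) (nat_lit 304) (nat_lit 0) (XT.lf (nat_lit 0) (nat_lit 4080669047) (nat_lit 380) (nat_lit 4076567055) (nat_lit 76) (nat_lit 4617027386) (nat_lit 101) (nat_lit 5) (nat_lit 106) (nat_lit 5) (nat_lit 102) (nat_lit 5) (nat_lit 407) (nat_lit 332) (nat_lit 281)) (XT.lf (nat_lit 0) (nat_lit 8694028367) (nat_lit 304) (nat_lit 1386739593) (nat_lit 380) (nat_lit 2921058696) (nat_lit 97) (nat_lit 5) (nat_lit 101) (nat_lit 5) (nat_lit 102) (nat_lit 5) (nat_lit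 408) (nat_lit 332) (nat_lit 280))) (XT.nd (nat_lit 78) (nat_lit 608) (nat_lit 0) (XT.lf (nat_lit 0) (nat_lit 3035894029) (nat_lit 304) (nat_lit 4625827356) (nat_lit 76) (nat_lit 5573091033) (nat_lit 93) (nat_lit 5) (nat_lit 97) (nat_lit 5) (nat_lit 94) (nat_lit 5) (nat_lit 409) (nat_lit 332) (nat_lit 279)) (XT.nd (nat_lit 78) (nat_lit 304) (nat_lit 0) (XT.lf (nat_lit 0) (nat_lit 8465773141) (nat_lit 304) (nat_lit 691249987) (nat_lit 380) (nat_lit 4316881854) (nat_lit 89) (nat_lit 5) (nat_lit 93) (nat_lit 5) (nat_lit 94) (nat_lit 5) (nat_lit 410) (nat_lit 332) (nat_lit 278)) (XT.lf (nat_lit 0) (nat_lit 1778664631) (nat_lit 304) (nat_lit 5484472205) (nat_lit 76) (nat_lit 6455615673) (nat_lit 85) (nat_lit 5) (nat_lit 89) (nat_lit 5) (nat_lit 86) (nat_lit 5) (nat_lit 411) (nat_lit 332) (nat_lit 277))))) (XT.nd (nat_lit 234) (nat_lit 760) (nat_lit 0) (XT.nd (nat_lit 78) (nat_lit 532) (nat_lit 0) (XT.lf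 (nat_lit 0) (nat_lit 7929985471) (nat_lit 304) (nat_lit 92131359) (nat_lit 380) (nat_lit 5947790135) (nat_lit 81) (nat_lit 5) (nat_lit 85) (nat_lit 5) (nat_lit 86) (nat_lit 5) (nat_lit 412) (nat_lit 332) (nat_lit 276)) (XT.nd (nat_lit 78) (nat_lit 228) (nat_lit 0) (XT.lf (nat_lit 0) (nat_lit 289480009) (nat_lit 304) (nat_lit 6695608340) (nat_lit 76) (nat_lit 7242121370) (nat_lit 77) (nat_lit 5) (nat_lit 81) (nat_lit 5) (nat_lit 78) (nat_lit 5) (nat_lit 413) (nat_lit 332) (nat_lit 275)) (XT.lf (nat_lit 0) (nat_lit 6658365967) (nat_lit 304) (nat_lit 7451084071) (nat_lit 76) (nat_lit 381494640) (nat_lit 74) (nat_lit 5) (nat_lit 78) (nat_lit 5) (nat_lit 75) (nat_lit 5) (nat_lit 414) (nat_lit 332) (nat_lit 274)))) (XT.nd (nat_lit 78) (nat_lit 532) (nat_lit 0) (XT.lf (nat_lit 0) (nat_lit 6444865300) (nat_lit 228) (nat_lit 6843375928) (nat_lit 304) (nat_lit 1472957362) (nat_lit 71) (nat_lit 5) (nat_lit 74)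 (nat_lit 5) (nat_lit 75) (nat_lit 5) (nat_lit 415) (nat_lit 332) (nat_lit 273)) (XT.nd (nat_lit 78) (nat_lit 228) (nat_lit 0) (XT.lf (nat_lit 0) (nat_lit 5040154080) (nat_lit 304) (nat_lit 9288850611) (nat_lit 76) (nat_lit 709315341) (nat_lit 67) (nat_lit 5) (nat_lit 71) (nat_lit 5) (nat_lit 68) (nat_lit 5) (nat_lit 416) (nat_lit 332) (nat_lit 272)) (XT.lf (nat_lit 0) (nat_lit 4928843610) (nat_lit 228) (nat_lit 6871715028) (nat_lit 304) (nat_lit 3521568476) (nat_lit 64) (nat_lit 5) (nat_lit 67) (nat_lit 5) (nat_lit 68) (nat_lit 5) (nat_lit 417) (nat_lit 332) (nat_lit 271))))))))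
noncomputable def xc31 : XT := (XT.nd (nat_lit 49062) (nat_lit 0) (nat_lit 13148) (XT.nd (nat_lit 48204) (nat_lit 0) (nat_lit 32604) (XT.nd (nat_lit 390) (nat_lit 1064) (nat_lit 0) (XT.nd (nat_lit 156) (nat_lit 456) (nat_lit 0) (XT.nd (nat_lit 78) (nat_lit 152) (nat_lit 0) (XT.lf (nat_lit 0) (nat_lit 3141142568) (nat_lit 304) (nat_lit 11607746411) (nat_lit 76) (nat_lit 864492798) (nat_lit 60) (nat_lit 5) (nat_lit 64) (nat_lit 5) (nat_lit 61) (nat_lit 5) (nat_lit 418) (nat_lit 332) (nat_lit 270)) (XT.lf (nat_lit 0) (nat_lit 2928735240) (nat_lit 152) (nat_lit 7102147423) (nat_lit 228) (nat_lit 5880530602) (nat_lit 58) (nat_lit 5) (nat_lit 60) (nat_lit 5) (nat_lit 61) (nat_lit 5) (nat_lit 419) (nat_lit 332) (nat_lit 269))) (XT.nd (nat_lit 78) (nat_lit 152) (nat_lit 0) (XT.lf (nat_lit 0) (nat_lit 932502355) (nat_lit 304) (nat_lit 14468671835) (nat_lit 76) (nat_lit 816387958) (nat_lit 54) (nat_lit 5) (nat_lit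 58) (nat_lit 5) (nat_lit 55) (nat_lit 5) (nat_lit 420) (nat_lit 332) (nat_lit 268)) (XT.nd (nat_lit 78) (nat_lit 0) (nat_lit 0) (XT.lf (nat_lit 0) (nat_lit 381788012) (nat_lit 152) (nat_lit 7567582317) (nat_lit 228) (nat_lit 8581165242) (nat_lit 52) (nat_lit 5) (nat_lit 54) (nat_lit 5) (nat_lit 55) (nat_lit 5) (nat_lit 421) (nat_lit 332) (nat_lit 267)) (XT.lf (nat_lit 0) (nat_lit 15219820472) (nat_lit 228) (nat_lit 1083009309) (nat_lit 76) (nat_lit 549210999) (nat_lit 52) (nat_lit 5) (nat_lit 55) (nat_lit 5) (nat_lit 53) (nat_lit 5) (nat_lit 422) (nat_lit 332) (nat_lit 266))))) (XT.nd (nat_lit 234) (nat_lit 304) (nat_lit 0) (XT.nd (nat_lit 78) (nat_lit 456) (nat_lit 0) (XT.lf (nat_lit 0) (nat_lit 5540724163) (nat_lit 304) (nat_lit 2744942436) (nat_lit 76) (nat_lit 8895051087) (nat_lit 48) (nat_lit 5) (nat_lit 52) (nat_lit 5) (nat_lit 49) (nat_lit 5) (nat_lit 423) (nat_lit 332) (nat_lit 265)) (XT.nd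 (nat_lit 78) (nat_lit 304) (nat_lit 0) (XT.lf (nat_lit 0) (nat_lit 12942140650) (nat_lit 228) (nat_lit 4543577101) (nat_lit 76) (nat_lit 32615979) (nat_lit 46) (nat_lit 5) (nat_lit 49) (nat_lit 5) (nat_lit 47) (nat_lit 5) (nat_lit 424) (nat_lit 332) (nat_lit 264)) (XT.lf (nat_lit 0) (nat_lit 2756645117) (nat_lit 304) (nat_lit 6550662013) (nat_lit 76) (nat_lit 8556573626) (nat_lit 42) (nat_lit 5) (nat_lit 46) (nat_lit 5) (nat_lit 43) (nat_lit 5) (nat_lit 425) (nat_lit 332) (nat_lit 263)))) (XT.nd (nat_lit 78) (nat_lit 152) (nat_lit 0) (XT.lf (nat_lit 0) (nat_lit 9483902829) (nat_lit 152) (nat_lit 801156729) (nat_lit 228) (nat_lit 7933377896) (nat_lit 40) (nat_lit 5) (nat_lit 42) (nat_lit 5) (nat_lit 43) (nat_lit 5) (nat_lit 426) (nat_lit 332) (nat_lit 262)) (XT.nd (nat_lit 47424) (nat_lit 0) (nat_lit 47424) (XT.lf (nat_lit 0) (nat_lit 7454599433) (nat_lit 152) (nat_lit 10675035352) (nat_lit 228) (nat_lit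 452193304) (nat_lit 38) (nat_lit 5) (nat_lit 40) (nat_lit 5) (nat_lit 41) (nat_lit 5) (nat_lit 427) (nat_lit 332) (nat_lit 261)) (XT.lf (nat_lit 0) (nat_lit 2568774113) (nat_lit 836) (nat_lit 378895267) (nat_lit 836) (nat_lit 378895267) (nat_lit 662) (nat_lit 4) (nat_lit 673) (nat_lit 5) (nat_lit 673) (nat_lit 4) (nat_lit 354) (nat_lit 333) (nat_lit 333)))))) (XT.nd (nat_lit 390) (nat_lit 9196) (nat_lit 0) (XT.nd (nat_lit 156) (nat_lit 3572) (nat_lit 0) (XT.nd (nat_lit 78) (nat_lit 1064) (nat_lit 0) (XT.lf (nat_lit 0) (nat_lit 4074300359) (nat_lit 988) (nat_lit 1851983828) (nat_lit 0) (nat_lit 758439889) (nat_lit 649) (nat_lit 5) (nat_lit 662) (nat_lit 4) (nat_lit 649) (nat_lit 4) (nat_lit 355) (nat_lit 333) (nat_lit 332)) (XT.lf (nat_lit 0) (nat_lit 2178020990) (nat_lit 1064) (nat_lit 2135540078) (nat_lit 76) (nat_lit 2405666515) (nat_lit 635) (nat_lit 5) (nat_lit 649) (nat_lit 5) (nat_lit 636) (nat_lit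 4) (nat_lit 356) (nat_lit 333) (nat_lit 331))) (XT.nd (nat_lit 78) (nat_lit 2432) (nat_lit 0) (XT.lf (nat_lit 0) (nat_lit 199452475) (nat_lit 1140) (nat_lit 2361797450) (nat_lit 76) (nat_lit 4195513516) (nat_lit 620) (nat_lit 5) (nat_lit 635) (nat_lit 5) (nat_lit 621) (nat_lit 5) (nat_lit 357) (nat_lit 333) (nat_lit 330)) (XT.nd (nat_lit 78) (nat_lit 1292) (nat_lit 0) (XT.lf (nat_lit 0) (nat_lit 4253686554) (nat_lit 1140) (nat_lit 655042809) (nat_lit 1216) (nat_lit 1888384561) (nat_lit 605) (nat_lit 5) (nat_lit 620) (nat_lit 5) (nat_lit 621) (nat_lit 5) (nat_lit 358) (nat_lit 333) (nat_lit 329)) (XT.lf (nat_lit 0) (nat_lit 2782755344) (nat_lit 1292) (nat_lit 2679473409) (nat_lit 76) (nat_lit 1378106273) (nat_lit 588) (nat_lit 5) (nat_lit 605) (nat_lit 5) (nat_lit 589) (nat_lit 5) (nat_lit 359) (nat_lit 333) (nat_lit 328))))) (XT.nd (nat_lit 234) (nat_lit 4940) (nat_lit 0) (XT.nd (nat_lit 78) (nat_lit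 2888) (nat_lit 0) (XT.lf (nat_lit 0) (nat_lit 574716599) (nat_lit 1368) (nat_lit 2765072427) (nat_lit 76) (nat_lit 3546773051) (nat_lit 570) (nat_lit 5) (nat_lit 588) (nat_lit 5) (nat_lit 571) (nat_lit 5) (nat_lit 360) (nat_lit 333) (nat_lit 327)) (XT.nd (nat_lit 78) (nat_lit 1520) (nat_lit 0) (XT.lf (nat_lit 0) (nat_lit 4128111711) (nat_lit 1368) (nat_lit 1062585772) (nat_lit 1444) (nat_lit 1744989883) (nat_lit 552) (nat_lit 5) (nat_lit 570) (nat_lit 5) (nat_lit 571) (nat_lit 5) (nat_lit 361) (nat_lit 333) (nat_lit 326)) (XT.lf (nat_lit 0) (nat_lit 2831860658) (nat_lit 1520) (nat_lit 2809117033) (nat_lit 76) (nat_lit 1346731129) (nat_lit 532) (nat_lit 5) (nat_lit 552) (nat_lit 5) (nat_lit 533) (nat_lit 5) (nat_lit 362) (nat_lit 333) (nat_lit 325)))) (XT.nd (nat_lit 78) (nat_lit 3344) (nat_lit 0) (XT.lf (nat_lit 0) (nat_lit 388839000) (nat_lit 1596) (nat_lit 2765106152) (nat_lit 76) (nat_lit 3888815035)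 (nat_lit 511) (nat_lit 5) (nat_lit 532) (nat_lit 5) (nat_lit 512) (nat_lit 5) (nat_lit 363) (nat_lit 333) (nat_lit 324)) (XT.nd (nat_lit 78) (nat_lit 1748) (nat_lit 0) (XT.lf (nat_lit 0) (nat_lit 4417809144) (nat_lit 1596) (nat_lit 506391087) (nat_lit 1672) (nat_lit 2176536865) (nat_lit 490) (nat_lit 5) (nat_lit 511) (nat_lit 5) (nat_lit 512) (nat_lit 5) (nat_lit 364) (nat_lit 333) (nat_lit 323)) (XT.lf (nat_lit 0) (nat_lit 2331795785) (nat_lit 1748) (nat_lit 2566636725) (nat_lit 76) (nat_lit 2263170709) (nat_lit 467) (nat_lit 5) (nat_lit 490) (nat_lit 5) (nat_lit 468) (nat_lit 5) (nat_lit 365) (nat_lit 333) (nat_lit 322))))))) (XT.nd (nat_lit 858) (nat_lit 7676) (nat_lit 0) (XT.nd (nat_lit 390) (nat_lit 5624) (nat_lit 0) (XT.nd (nat_lit 156) (nat_lit 2888) (nat_lit 0) (XT.nd (nat_lit 78) (nat_lit 1520) (nat_lit 0) (XT.lf (nat_lit 0) (nat_lit 4820157019) (nat_lit 1748) (nat_lit 2046836756) (nat_lit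 1824) (nat_lit 358626417) (nat_lit 444) (nat_lit 5) (nat_lit 467) (nat_lit 5) (nat_lit 468) (nat_lit 5) (nat_lit 366) (nat_lit 333) (nat_lit 321)) (XT.lf (nat_lit 0) (nat_lit 4117973073) (nat_lit 1520) (nat_lit 2216136579) (nat_lit 76) (nat_lit 958391565) (nat_lit 424) (nat_lit 5) (nat_lit 444) (nat_lit 5) (nat_lit 425) (nat_lit 5) (nat_lit 367) (nat_lit 333) (nat_lit 320))) (XT.nd (nat_lit 78) (nat_lit 1900) (nat_lit 0) (XT.lf (nat_lit 0) (nat_lit 1282523071) (nat_lit 988) (nat_lit 1991317470) (nat_lit 76) (nat_lit 4088601933) (nat_lit 411) (nat_lit 5) (nat_lit 424) (nat_lit 5) (nat_lit 412) (nat_lit 5) (nat_lit 368) (nat_lit 333) (nat_lit 319)) (XT.nd (nat_lit 78) (nat_lit 988) (nat_lit 0) (XT.lf (nat_lit 0) (nat_lit 5706938827) (nat_lit 912) (nat_lit 50777807) (nat_lit 988) (nat_lit 1677826408) (nat_lit 399) (nat_lit 5) (nat_lit 411) (nat_lit 5) (nat_lit 412) (nat_lit 5) (nat_lit 369) (nat_lit 333)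 (nat_lit 318)) (XT.lf (nat_lit 0) (nat_lit 2770747092) (nat_lit 988) (nat_lit 1447853531) (nat_lit 76) (nat_lit 3292857930) (nat_lit 386) (nat_lit 5) (nat_lit 399) (nat_lit 5) (nat_lit 387) (nat_lit 5) (nat_lit 370) (nat_lit 333) (nat_lit 317))))) (XT.nd (nat_lit 234) (nat_lit 3040) (nat_lit 0) (XT.nd (nat_lit 78) (nat_lit 1748) (nat_lit 0) (XT.lf (nat_lit 0) (nat_lit 6468398600) (nat_lit 836) (nat_lit 795681570) (nat_lit 912) (nat_lit 326697128) (nat_lit 375) (nat_lit 5) (nat_lit 386) (nat_lit 5) (nat_lit 387) (nat_lit 5) (nat_lit 371) (nat_lit 333) (nat_lit 316)) (XT.nd (nat_lit 78) (nat_lit 836) (nat_lit 0) (XT.lf (nat_lit 0) (nat_lit 4119016457) (nat_lit 912) (nat_lit 786797241) (nat_lit 76) (nat_lit 2767049634) (nat_lit 363) (nat_lit 5) (nat_lit 375) (nat_lit 5) (nat_lit 364) (nat_lit 5) (nat_lit 372) (nat_lit 333) (nat_lit 315)) (XT.lf (nat_lit 0) (nat_lit 868640032) (nat_lit 836) (nat_lit 410787798)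 (nat_lit 76) (nat_lit 6478953586) (nat_lit 352) (nat_lit 5) (nat_lit 363) (nat_lit 5) (nat_lit 353) (nat_lit 5) (nat_lit 373) (nat_lit 333) (nat_lit 314)))) (XT.nd (nat_lit 78) (nat_lit 2280) (nat_lit 0) (XT.lf (nat_lit 0) (nat_lit 5334505223) (nat_lit 836) (nat_lit 21871212) (nat_lit 76) (nat_lit 2490465030) (nat_lit 342) (nat_lit 5) (nat_lit 353) (nat_lit 5) (nat_lit 343) (nat_lit 5) (nat_lit 374) (nat_lit 333) (nat_lit 313)) (XT.nd (nat_lit 78) (nat_lit 684) (nat_lit 0) (XT.lf (nat_lit 0) (nat_lit 402284370) (nat_lit 760) (nat_lit 1524225301) (nat_lit 836) (nat_lit 6012085091) (nat_lit 321) (nat_lit 5) (nat_lit 331) (nat_lit 5) (nat_lit 332) (nat_lit 5) (nat_lit 375) (nat_lit 333) (nat_lit 312)) (XT.lf (nat_lit 0) (nat_lit 844485892) (nat_lit 684) (nat_lit 5584322721) (nat_lit 760) (nat_lit 1604695507) (nat_lit 312) (nat_lit 5) (nat_lit 321) (nat_lit 5) (nat_lit 322) (nat_lit 5) (nat_lit 376) (nat_lit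 333) (nat_lit 311)))))) (XT.nd (nat_lit 468) (nat_lit 3496) (nat_lit 0) (XT.nd (nat_lit 234) (nat_lit 1976) (nat_lit 0) (XT.nd (nat_lit 78) (nat_lit 1444) (nat_lit 0) (XT.lf (nat_lit 0) (nat_lit 1306732314) (nat_lit 684) (nat_lit 1550610407) (nat_lit 760) (nat_lit 5274341395) (nat_lit 302) (nat_lit 5) (nat_lit 311) (nat_lit 5) (nat_lit 312) (nat_lit 5) (nat_lit 377) (nat_lit 333) (nat_lit 310)) (XT.nd (nat_lit 78) (nat_lit 760) (nat_lit 0) (XT.lf (nat_lit 0) (nat_lit 1789080725) (nat_lit 684) (nat_lit 5613086998) (nat_lit 760) (nat_lit 831037283) (nat_lit 293) (nat_lit 5) (nat_lit 302) (nat_lit 5) (nat_lit 303) (nat_lit 5) (nat_lit 378) (nat_lit 333) (nat_lit 309)) (XT.lf (nat_lit 0) (nat_lit 2283408008) (nat_lit 684) (nat_lit 1379393427) (nat_lit 760) (nat_lit 4675177638) (nat_lit 283) (nat_lit 5) (nat_lit 292) (nat_lit 5) (nat_lit 293) (nat_lit 5) (nat_lit 379) (nat_lit 333) (nat_lit 308)))) (XT.nd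 (nat_lit 78) (nat_lit 1368) (nat_lit 0) (XT.lf (nat_lit 0) (nat_lit 2797969005) (nat_lit 608) (nat_lit 5460432634) (nat_lit 684) (nat_lit 187840618) (nat_lit 275) (nat_lit 5) (nat_lit 283) (nat_lit 5) (nat_lit 284) (nat_lit 5) (nat_lit 380) (nat_lit 333) (nat_lit 307)) (XT.nd (nat_lit 78) (nat_lit 684) (nat_lit 0) (XT.lf (nat_lit 0) (nat_lit 3318518900) (nat_lit 608) (nat_lit 1027698986) (nat_lit 684) (nat_lit 4211574063) (nat_lit 266) (nat_lit 5) (nat_lit 274) (nat_lit 5) (nat_lit 275) (nat_lit 5) (nat_lit 381) (nat_lit 333) (nat_lit 306)) (XT.lf (nat_lit 0) (nat_lit 323214187) (nat_lit 684) (nat_lit 4817754469) (nat_lit 76) (nat_lit 3531936827) (nat_lit 257) (nat_lit 5) (nat_lit 266) (nat_lit 5) (nat_lit 258) (nat_lit 5) (nat_lit 382) (nat_lit 333) (nat_lit 305))))) (XT.nd (nat_lit 234) (nat_lit 1672) (nat_lit 0) (XT.nd (nat_lit 78) (nat_lit 1216) (nat_lit 0) (XT.lf (nat_lit 0) (nat_lit 4398033290)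 (nat_lit 608) (nat_lit 511861225) (nat_lit 684) (nat_lit 3881577821) (nat_lit 249) (nat_lit 5) (nat_lit 257) (nat_lit 5) (nat_lit 258) (nat_lit 5) (nat_lit 383) (nat_lit 333) (nat_lit 304)) (XT.nd (nat_lit 78) (nat_lit 608) (nat_lit 0) (XT.lf (nat_lit 0) (nat_lit 707175833) (nat_lit 608) (nat_lit 3965356295) (nat_lit 76) (nat_lit 4241066711) (nat_lit 241) (nat_lit 5) (nat_lit 249) (nat_lit 5) (nat_lit 242) (nat_lit 5) (nat_lit 384) (nat_lit 333) (nat_lit 303)) (XT.lf (nat_lit 0) (nat_lit 5356088804) (nat_lit 684) (nat_lit 3532858070) (nat_lit 76) (nat_lit 150441136) (nat_lit 233) (nat_lit 5) (nat_lit 242) (nat_lit 5) (nat_lit 234) (nat_lit 5) (nat_lit 385) (nat_lit 333) (nat_lit 302)))) (XT.nd (nat_lit 78) (nat_lit 1064) (nat_lit 0) (XT.lf (nat_lit 0) (nat_lit 966997485) (nat_lit 608) (nat_lit 3104874095) (nat_lit 76) (nat_lit 5096882994) (nat_lit 225) (nat_lit 5) (nat_lit 233) (nat_lit 5) (nat_lit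 226) (nat_lit 5) (nat_lit 386) (nat_lit 333) (nat_lit 301)) (XT.nd (nat_lit 78) (nat_lit 532) (nat_lit 0) (XT.lf (nat_lit 0) (nat_lit 5688219417) (nat_lit 608) (nat_lit 2676094857) (nat_lit 76) (nat_lit 937587164) (nat_lit 218) (nat_lit 5) (nat_lit 226) (nat_lit 5) (nat_lit 219) (nat_lit 5) (nat_lit 387) (nat_lit 333) (nat_lit 300)) (XT.lf (nat_lit 0) (nat_lit 1102099583) (nat_lit 532) (nat_lit 2251964310) (nat_lit 76) (nat_lit 6084756091) (nat_lit 211) (nat_lit 5) (nat_lit 218) (nat_lit 5) (nat_lit 212) (nat_lit 5) (nat_lit 388) (nat_lit 333) (nat_lit 299))))))))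
noncomputable def xc32 : XT := (XT.nd (nat_lit 1716) (nat_lit 3724) (nat_lit 0) (XT.nd (nat_lit 858) (nat_lit 3800) (nat_lit 0) (XT.nd (nat_lit 390) (nat_lit 2964) (nat_lit 0) (XT.nd (nat_lit 156) (nat_lit 1444) (nat_lit 0) (XT.nd (nat_lit 78) (nat_lit 532) (nat_lit 0) (XT.lf (nat_lit 0) (nat_lit 5902016357) (nat_lit 608) (nat_lit 1835818698) (nat_lit 76) (nat_lit 1841712381) (nat_lit 204) (nat_lit 5) (nat_lit 212) (nat_lit 5) (nat_lit 205) (nat_lit 5) (nat_lit 389) (nat_lit 333) (nat_lit 298)) (XT.lf (nat_lit 0) (nat_lit 1110805954) (nat_lit 532) (nat_lit 1423085510) (nat_lit 76) (nat_lit 7190391572) (nat_lit 197) (nat_lit 5) (nat_lit 204) (nat_lit 5) (nat_lit 198) (nat_lit 5) (nat_lit 390) (nat_lit 333) (nat_lit 297))) (XT.nd (nat_lit 78) (nat_lit 988) (nat_lit 0) (XT.lf (nat_lit 0) (nat_lit 5995433145) (nat_lit 532) (nat_lit 1028912923) (nat_lit 76) (nat_lit 2848489547) (nat_lit 191) (nat_lit 5)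 (nat_lit 198) (nat_lit 5) (nat_lit 192) (nat_lit 5) (nat_lit 391) (nat_lit 333) (nat_lit 296)) (XT.nd (nat_lit 78) (nat_lit 456) (nat_lit 0) (XT.lf (nat_lit 0) (nat_lit 990307073) (nat_lit 532) (nat_lit 635669337) (nat_lit 76) (nat_lit 8399697369) (nat_lit 184) (nat_lit 5) (nat_lit 191) (nat_lit 5) (nat_lit 185) (nat_lit 5) (nat_lit 392) (nat_lit 333) (nat_lit 295)) (XT.lf (nat_lit 0) (nat_lit 5965281978) (nat_lit 532) (nat_lit 273327948) (nat_lit 76) (nat_lit 3943708465) (nat_lit 178) (nat_lit 5) (nat_lit 185) (nat_lit 5) (nat_lit 179) (nat_lit 5) (nat_lit 393) (nat_lit 333) (nat_lit 294))))) (XT.nd (nat_lit 234) (nat_lit 1216) (nat_lit 0) (XT.nd (nat_lit 78) (nat_lit 836) (nat_lit 0) (XT.lf (nat_lit 0) (nat_lit 92915242) (nat_lit 456) (nat_lit 644301603) (nat_lit 532) (nat_lit 9606337112) (nat_lit 166) (nat_lit 5) (nat_lit 172) (nat_lit 5) (nat_lit 173) (nat_lit 5) (nat_lit 394) (nat_lit 333) (nat_lit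 293)) (XT.nd (nat_lit 78) (nat_lit 456) (nat_lit 0) (XT.lf (nat_lit 0) (nat_lit 417201244) (nat_lit 380) (nat_lit 5392689768) (nat_lit 456) (nat_lit 4698647587) (nat_lit 161) (nat_lit 5) (nat_lit 166) (nat_lit 5) (nat_lit 167) (nat_lit 5) (nat_lit 395) (nat_lit 333) (nat_lit 292)) (XT.lf (nat_lit 0) (nat_lit 351955818) (nat_lit 456) (nat_lit 9932181628) (nat_lit 76) (nat_lit 394292643) (nat_lit 155) (nat_lit 5) (nat_lit 161) (nat_lit 5) (nat_lit 156) (nat_lit 5) (nat_lit 396) (nat_lit 333) (nat_lit 291)))) (XT.nd (nat_lit 78) (nat_lit 836) (nat_lit 0) (XT.lf (nat_lit 0) (nat_lit 1018956866) (nat_lit 380) (nat_lit 4503157427) (nat_lit 456) (nat_lit 5330055781) (nat_lit 150) (nat_lit 5) (nat_lit 155) (nat_lit 5) (nat_lit 156) (nat_lit 5) (nat_lit 397) (nat_lit 333) (nat_lit 290)) (XT.nd (nat_lit 78) (nat_lit 456) (nat_lit 0) (XT.lf (nat_lit 0) (nat_lit 1291017578) (nat_lit 380) (nat_lit 9563196497) (nat_lit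 456) (nat_lit 176781527) (nat_lit 145) (nat_lit 5) (nat_lit 150) (nat_lit 5) (nat_lit 151) (nat_lit 5) (nat_lit 398) (nat_lit 333) (nat_lit 289)) (XT.lf (nat_lit 0) (nat_lit 1505662875) (nat_lit 380) (nat_lit 3587380032) (nat_lit 456) (nat_lit 6120901346) (nat_lit 139) (nat_lit 5) (nat_lit 144) (nat_lit 5) (nat_lit 145) (nat_lit 5) (nat_lit 399) (nat_lit 333) (nat_lit 288)))))) (XT.nd (nat_lit 390) (nat_lit 1976) (nat_lit 0) (XT.nd (nat_lit 156) (nat_lit 1064) (nat_lit 0) (XT.nd (nat_lit 78) (nat_lit 380) (nat_lit 0) (XT.lf (nat_lit 0) (nat_lit 1705763641) (nat_lit 380) (nat_lit 8830503739) (nat_lit 456) (nat_lit 865745779) (nat_lit 134) (nat_lit 5) (nat_lit 139) (nat_lit 5) (nat_lit 140) (nat_lit 5) (nat_lit 400) (nat_lit 333) (nat_lit 287)) (XT.lf (nat_lit 0) (nat_lit 1852731271) (nat_lit 304) (nat_lit 2661408545) (nat_lit 380) (nat_lit 7080468509) (nat_lit 129) (nat_lit 5) (nat_lit 133) (nat_lit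 5) (nat_lit 134) (nat_lit 5) (nat_lit 401) (nat_lit 333) (nat_lit 286))) (XT.nd (nat_lit 78) (nat_lit 684) (nat_lit 0) (XT.lf (nat_lit 0) (nat_lit 1967212886) (nat_lit 380) (nat_lit 8105040972) (nat_lit 456) (nat_lit 1720049759) (nat_lit 124) (nat_lit 5) (nat_lit 129) (nat_lit 5) (nat_lit 130) (nat_lit 5) (nat_lit 402) (nat_lit 333) (nat_lit 285)) (XT.nd (nat_lit 78) (nat_lit 304) (nat_lit 0) (XT.lf (nat_lit 0) (nat_lit 2033366657) (nat_lit 304) (nat_lit 1741974782) (nat_lit 380) (nat_lit 8219622660) (nat_lit 119) (nat_lit 5) (nat_lit 123) (nat_lit 5) (nat_lit 124) (nat_lit 5) (nat_lit 403) (nat_lit 333) (nat_lit 284)) (XT.lf (nat_lit 0) (nat_lit 2047379256) (nat_lit 304) (nat_lit 7404211751) (nat_lit 380) (nat_lit 2751106642) (nat_lit 115) (nat_lit 5) (nat_lit 119) (nat_lit 5) (nat_lit 120) (nat_lit 5) (nat_lit 404) (nat_lit 333) (nat_lit 283))))) (XT.nd (nat_lit 234) (nat_lit 912) (nat_lit 0) (XT.nd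 (nat_lit 78) (nat_lit 684) (nat_lit 0) (XT.lf (nat_lit 0) (nat_lit 2018279498) (nat_lit 304) (nat_lit 846663707) (nat_lit 380) (nat_lit 9550928011) (nat_lit 110) (nat_lit 5) (nat_lit 114) (nat_lit 5) (nat_lit 115) (nat_lit 5) (nat_lit 405) (nat_lit 333) (nat_lit 282)) (XT.nd (nat_lit 78) (nat_lit 380) (nat_lit 0) (XT.lf (nat_lit 0) (nat_lit 1915626782) (nat_lit 304) (nat_lit 6746380931) (nat_lit 380) (nat_lit 3972077732) (nat_lit 106) (nat_lit 5) (nat_lit 110) (nat_lit 5) (nat_lit 111) (nat_lit 5) (nat_lit 406) (nat_lit 333) (nat_lit 281)) (XT.lf (nat_lit 0) (nat_lit 1769508027) (nat_lit 380) (nat_lit 11082916113) (nat_lit 76) (nat_lit 5825813) (nat_lit 101) (nat_lit 5) (nat_lit 106) (nat_lit 5) (nat_lit 102) (nat_lit 5) (nat_lit 407) (nat_lit 333) (nat_lit 280)))) (XT.nd (nat_lit 78) (nat_lit 608) (nat_lit 0) (XT.lf (nat_lit 0) (nat_lit 1538342208) (nat_lit 304) (nat_lit 6151064327) (nat_lit 380)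 (nat_lit 5398013938) (nat_lit 97) (nat_lit 5) (nat_lit 101) (nat_lit 5) (nat_lit 102) (nat_lit 5) (nat_lit 408) (nat_lit 333) (nat_lit 279)) (XT.nd (nat_lit 78) (nat_lit 304) (nat_lit 0) (XT.lf (nat_lit 0) (nat_lit 478695370) (nat_lit 304) (nat_lit 12058856221) (nat_lit 76) (nat_lit 785434051) (nat_lit 93) (nat_lit 5) (nat_lit 97) (nat_lit 5) (nat_lit 94) (nat_lit 5) (nat_lit 409) (nat_lit 333) (nat_lit 278)) (XT.lf (nat_lit 0) (nat_lit 878576476) (nat_lit 304) (nat_lit 5639132047) (nat_lit 380) (nat_lit 7046015092) (nat_lit 89) (nat_lit 5) (nat_lit 93) (nat_lit 5) (nat_lit 94) (nat_lit 5) (nat_lit 410) (nat_lit 333) (nat_lit 277))))))) (XT.nd (nat_lit 858) (nat_lit 1064) (nat_lit 0) (XT.nd (nat_lit 390) (nat_lit 1520) (nat_lit 0) (XT.nd (nat_lit 156) (nat_lit 836) (nat_lit 0) (XT.nd (nat_lit 78) (nat_lit 76) (nat_lit 0) (XT.lf (nat_lit 0) (nat_lit 444726041) (nat_lit 228) (nat_lit 12322083874) (nat_lit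 304) (nat_lit 1044301547) (nat_lit 86) (nat_lit 5) (nat_lit 89) (nat_lit 5) (nat_lit 90) (nat_lit 5) (nat_lit 411) (nat_lit 333) (nat_lit 276)) (XT.lf (nat_lit 0) (nat_lit 5129356519) (nat_lit 304) (nat_lit 102979870) (nat_lit 76) (nat_lit 8831737798) (nat_lit 85) (nat_lit 5) (nat_lit 89) (nat_lit 5) (nat_lit 86) (nat_lit 5) (nat_lit 412) (nat_lit 333) (nat_lit 275))) (XT.nd (nat_lit 78) (nat_lit 532) (nat_lit 0) (XT.lf (nat_lit 0) (nat_lit 11513291026) (nat_lit 380) (nat_lit 713843540) (nat_lit 76) (nat_lit 2096573706) (nat_lit 81) (nat_lit 5) (nat_lit 86) (nat_lit 5) (nat_lit 82) (nat_lit 5) (nat_lit 413) (nat_lit 333) (nat_lit 274)) (XT.nd (nat_lit 78) (nat_lit 228) (nat_lit 0) (XT.lf (nat_lit 0) (nat_lit 3511181243) (nat_lit 304) (nat_lit 1436184891) (nat_lit 76) (nat_lit 9642127611) (nat_lit 77) (nat_lit 5) (nat_lit 81) (nat_lit 5) (nat_lit 78) (nat_lit 5) (nat_lit 414) (nat_lit 333) (nat_lit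 273)) (XT.lf (nat_lit 0) (nat_lit 10026824233) (nat_lit 304) (nat_lit 2253958217) (nat_lit 76) (nat_lit 2581252415) (nat_lit 74) (nat_lit 5) (nat_lit 78) (nat_lit 5) (nat_lit 75) (nat_lit 5) (nat_lit 415) (nat_lit 333) (nat_lit 272))))) (XT.nd (nat_lit 234) (nat_lit 760) (nat_lit 0) (XT.nd (nat_lit 78) (nat_lit 456) (nat_lit 0) (XT.lf (nat_lit 0) (nat_lit 1634645782) (nat_lit 304) (nat_lit 3181385818) (nat_lit 76) (nat_lit 10325310777) (nat_lit 70) (nat_lit 5) (nat_lit 74) (nat_lit 5) (nat_lit 71) (nat_lit 5) (nat_lit 416) (nat_lit 333) (nat_lit 271)) (XT.nd (nat_lit 78) (nat_lit 228) (nat_lit 0) (XT.lf (nat_lit 0) (nat_lit 8280726241) (nat_lit 304) (nat_lit 4232745518) (nat_lit 76) (nat_lit 2913966550) (nat_lit 67) (nat_lit 5) (nat_lit 71) (nat_lit 5) (nat_lit 68) (nat_lit 5) (nat_lit 417) (nat_lit 333) (nat_lit 270)) (XT.lf (nat_lit 0) (nat_lit 10324929215) (nat_lit 228) (nat_lit 4863107069) (nat_lit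 304) (nat_lit 532848558) (nat_lit 64) (nat_lit 5) (nat_lit 67) (nat_lit 5) (nat_lit 68) (nat_lit 5) (nat_lit 418) (nat_lit 333) (nat_lit 269)))) (XT.nd (nat_lit 78) (nat_lit 456) (nat_lit 0) (XT.lf (nat_lit 0) (nat_lit 6248312046) (nat_lit 304) (nat_lit 6706867301) (nat_lit 76) (nat_lit 3066119720) (nat_lit 60) (nat_lit 5) (nat_lit 64) (nat_lit 5) (nat_lit 61) (nat_lit 5) (nat_lit 419) (nat_lit 333) (nat_lit 268)) (XT.nd (nat_lit 78) (nat_lit 304) (nat_lit 0) (XT.lf (nat_lit 0) (nat_lit 8180548202) (nat_lit 152) (nat_lit 5109968543) (nat_lit 228) (nat_lit 3038845874) (nat_lit 58) (nat_lit 5) (nat_lit 60) (nat_lit 5) (nat_lit 61) (nat_lit 5) (nat_lit 420) (nat_lit 333) (nat_lit 267)) (XT.lf (nat_lit 0) (nat_lit 3899727229) (nat_lit 304) (nat_lit 9738946769) (nat_lit 76) (nat_lit 3006421668) (nat_lit 54) (nat_lit 5) (nat_lit 58) (nat_lit 5) (nat_lit 55) (nat_lit 5) (nat_lit 421) (nat_lit 333) (nat_lit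 266)))))) (XT.nd (nat_lit 390) (nat_lit 152) (nat_lit 0) (XT.nd (nat_lit 156) (nat_lit 456) (nat_lit 0) (XT.nd (nat_lit 78) (nat_lit 304) (nat_lit 0) (XT.lf (nat_lit 0) (nat_lit 5473250593) (nat_lit 152) (nat_lit 5601224219) (nat_lit 228) (nat_lit 5894042076) (nat_lit 52) (nat_lit 5) (nat_lit 54) (nat_lit 5) (nat_lit 55) (nat_lit 5) (nat_lit 422) (nat_lit 333) (nat_lit 265)) (XT.lf (nat_lit 0) (nat_lit 1201636623) (nat_lit 304) (nat_lit 13398223104) (nat_lit 76) (nat_lit 2700552556) (nat_lit 48) (nat_lit 5) (nat_lit 52) (nat_lit 5) (nat_lit 49) (nat_lit 5) (nat_lit 423) (nat_lit 333) (nat_lit 264))) (XT.nd (nat_lit 78) (nat_lit 304) (nat_lit 0) (XT.lf (nat_lit 0) (nat_lit 2131622884) (nat_lit 152) (nat_lit 6373786105) (nat_lit 228) (nat_lit 9134574035) (nat_lit 46) (nat_lit 5) (nat_lit 48) (nat_lit 5) (nat_lit 49) (nat_lit 5) (nat_lit 424) (nat_lit 333) (nat_lit 263)) (XT.nd (nat_lit 78) (nat_lit 76)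 (nat_lit 0) (XT.lf (nat_lit 0) (nat_lit 215037535) (nat_lit 228) (nat_lit 15865514917) (nat_lit 304) (nat_lit 1908146853) (nat_lit 43) (nat_lit 5) (nat_lit 46) (nat_lit 5) (nat_lit 47) (nat_lit 5) (nat_lit 425) (nat_lit 333) (nat_lit 262)) (XT.lf (nat_lit 0) (nat_lit 5557336897) (nat_lit 304) (nat_lit 1898155283) (nat_lit 76) (nat_lit 10889772406) (nat_lit 42) (nat_lit 5) (nat_lit 46) (nat_lit 5) (nat_lit 43) (nat_lit 5) (nat_lit 426) (nat_lit 333) (nat_lit 261))))) (XT.nd (nat_lit 47424) (nat_lit 0) (nat_lit 45220) (XT.nd (nat_lit 47268) (nat_lit 0) (nat_lit 48108) (XT.lf (nat_lit 0) (nat_lit 13271691784) (nat_lit 228) (nat_lit 4180930576) (nat_lit 76) (nat_lit 1258638896) (nat_lit 40) (nat_lit 5) (nat_lit 43) (nat_lit 5) (nat_lit 41) (nat_lit 5) (nat_lit 427) (nat_lit 333) (nat_lit 260)) (XT.nd (nat_lit 78) (nat_lit 836) (nat_lit 0) (XT.lf (nat_lit 0) (nat_lit 2992937107) (nat_lit 684) (nat_lit 152816220)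 (nat_lit 684) (nat_lit 152816220) (nat_lit 684) (nat_lit 4) (nat_lit 693) (nat_lit 5) (nat_lit 693) (nat_lit 4) (nat_lit 352) (nat_lit 334) (nat_lit 334)) (XT.lf (nat_lit 0) (nat_lit 4488190032) (nat_lit 836) (nat_lit 1131567980) (nat_lit 0) (nat_lit 1004547022) (nat_lit 673) (nat_lit 5) (nat_lit 684) (nat_lit 4) (nat_lit 673) (nat_lit 4) (nat_lit 353) (nat_lit 334) (nat_lit 333)))) (XT.nd (nat_lit 78) (nat_lit 1976) (nat_lit 0) (XT.lf (nat_lit 0) (nat_lit 2609257897) (nat_lit 912) (nat_lit 1595119736) (nat_lit 76) (nat_lit 2450043046) (nat_lit 661) (nat_lit 5) (nat_lit 673) (nat_lit 5) (nat_lit 662) (nat_lit 4) (nat_lit 354) (nat_lit 334) (nat_lit 332)) (XT.nd (nat_lit 78) (nat_lit 988) (nat_lit 0) (XT.lf (nat_lit 0) (nat_lit 650699281) (nat_lit 988) (nat_lit 2000502906) (nat_lit 76) (nat_lit 4036345476) (nat_lit 648) (nat_lit 5) (nat_lit 661) (nat_lit 5) (nat_lit 649) (nat_lit 5) (nat_lit 355) (nat_lit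 334) (nat_lit 331)) (XT.lf (nat_lit 0) (nat_lit 4366159129) (nat_lit 988) (nat_lit 949306678) (nat_lit 1064) (nat_lit 1408061522) (nat_lit 635) (nat_lit 5) (nat_lit 648) (nat_lit 5) (nat_lit 649) (nat_lit 5) (nat_lit 356) (nat_lit 334) (nat_lit 330))))))))
noncomputable def xc33 : XT := (XT.nd (nat_lit 1716) (nat_lit 12388) (nat_lit 0) (XT.nd (nat_lit 858) (nat_lit 9272) (nat_lit 0) (XT.nd (nat_lit 390) (nat_lit 9652) (nat_lit 0) (XT.nd (nat_lit 156) (nat_lit 4028) (nat_lit 0) (XT.nd (nat_lit 78) (nat_lit 1216) (nat_lit 0) (XT.lf (nat_lit 0) (nat_lit 3207793820) (nat_lit 1140) (nat_lit 2667692100) (nat_lit 76) (nat_lit 886869683) (nat_lit 620) (nat_lit 5) (nat_lit 635) (nat_lit 5) (nat_lit 621) (nat_lit 5) (nat_lit 357) (nat_lit 334) (nat_lit 329)) (XT.lf (nat_lit 0) (nat_lit 1022944499) (nat_lit 1216) (nat_lit 2928863485) (nat_lit 76) (nat_lit 2852313319) (nat_lit 604) (nat_lit 5) (nat_lit 620) (nat_lit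 5) (nat_lit 605) (nat_lit 5) (nat_lit 358) (nat_lit 334) (nat_lit 328))) (XT.nd (nat_lit 78) (nat_lit 2812) (nat_lit 0) (XT.lf (nat_lit 0) (nat_lit 3705521457) (nat_lit 1216) (nat_lit 1879112342) (nat_lit 1292) (nat_lit 1264180202) (nat_lit 588) (nat_lit 5) (nat_lit 604) (nat_lit 5) (nat_lit 605) (nat_lit 5) (nat_lit 359) (nat_lit 334) (nat_lit 327)) (XT.nd (nat_lit 78) (nat_lit 1444) (nat_lit 0) (XT.lf (nat_lit 0) (nat_lit 3244507772) (nat_lit 1368) (nat_lit 3312624725) (nat_lit 76) (nat_lit 339307282) (nat_lit 570) (nat_lit 5) (nat_lit 588) (nat_lit 5) (nat_lit 571) (nat_lit 5) (nat_lit 360) (nat_lit 334) (nat_lit 326)) (XT.lf (nat_lit 0) (nat_lit 828798212) (nat_lit 1444) (nat_lit 3441318036) (nat_lit 76) (nat_lit 2676833486) (nat_lit 551) (nat_lit 5) (nat_lit 570) (nat_lit 5) (nat_lit 552) (nat_lit 5) (nat_lit 361) (nat_lit 334) (nat_lit 325))))) (XT.nd (nat_lit 234) (nat_lit 4940) (nat_lit 0)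 (XT.nd (nat_lit 78) (nat_lit 3268) (nat_lit 0) (XT.lf (nat_lit 0) (nat_lit 3471960031) (nat_lit 1444) (nat_lit 1828849774) (nat_lit 1520) (nat_lit 1699594194) (nat_lit 532) (nat_lit 5) (nat_lit 551) (nat_lit 5) (nat_lit 552) (nat_lit 5) (nat_lit 362) (nat_lit 334) (nat_lit 324)) (XT.nd (nat_lit 78) (nat_lit 1672) (nat_lit 0) (XT.lf (nat_lit 0) (nat_lit 2728570164) (nat_lit 1596) (nat_lit 3574179573) (nat_lit 76) (nat_lit 754092212) (nat_lit 511) (nat_lit 5) (nat_lit 532) (nat_lit 5) (nat_lit 512) (nat_lit 5) (nat_lit 363) (nat_lit 334) (nat_lit 323)) (XT.lf (nat_lit 0) (nat_lit 75238059) (nat_lit 1672) (nat_lit 3581104763) (nat_lit 76) (nat_lit 3459913479) (nat_lit 489) (nat_lit 5) (nat_lit 511) (nat_lit 5) (nat_lit 490) (nat_lit 5) (nat_lit 364) (nat_lit 334) (nat_lit 322)))) (XT.nd (nat_lit 78) (nat_lit 3268) (nat_lit 0) (XT.lf (nat_lit 0) (nat_lit 3623516841) (nat_lit 1672) (nat_lit 845590939) (nat_lit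 1748) (nat_lit 2709468251) (nat_lit 467) (nat_lit 5) (nat_lit 489) (nat_lit 5) (nat_lit 490) (nat_lit 5) (nat_lit 365) (nat_lit 334) (nat_lit 321)) (XT.nd (nat_lit 78) (nat_lit 1444) (nat_lit 0) (XT.lf (nat_lit 0) (nat_lit 1662613739) (nat_lit 1824) (nat_lit 3493406270) (nat_lit 76) (nat_lit 2087881139) (nat_lit 443) (nat_lit 5) (nat_lit 467) (nat_lit 5) (nat_lit 444) (nat_lit 5) (nat_lit 366) (nat_lit 334) (nat_lit 320)) (XT.lf (nat_lit 0) (nat_lit 3915686354) (nat_lit 1444) (nat_lit 2142845554) (nat_lit 1520) (nat_lit 1253739789) (nat_lit 424) (nat_lit 5) (nat_lit 443) (nat_lit 5) (nat_lit 444) (nat_lit 5) (nat_lit 367) (nat_lit 334) (nat_lit 319)))))) (XT.nd (nat_lit 390) (nat_lit 4636) (nat_lit 0) (XT.nd (nat_lit 156) (nat_lit 2660) (nat_lit 0) (XT.nd (nat_lit 78) (nat_lit 988) (nat_lit 0) (XT.lf (nat_lit 0) (nat_lit 3094884417) (nat_lit 988) (nat_lit 3269303852) (nat_lit 76) (nat_lit 1019455715)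 (nat_lit 411) (nat_lit 5) (nat_lit 424) (nat_lit 5) (nat_lit 412) (nat_lit 5) (nat_lit 368) (nat_lit 334) (nat_lit 318)) (XT.lf (nat_lit 0) (nat_lit 42851474) (nat_lit 988) (nat_lit 3108832175) (nat_lit 76) (nat_lit 4306441076) (nat_lit 398) (nat_lit 5) (nat_lit 411) (nat_lit 5) (nat_lit 399) (nat_lit 5) (nat_lit 369) (nat_lit 334) (nat_lit 317))) (XT.nd (nat_lit 78) (nat_lit 1748) (nat_lit 0) (XT.lf (nat_lit 0) (nat_lit 4380953978) (nat_lit 988) (nat_lit 2923248553) (nat_lit 76) (nat_lit 231403700) (nat_lit 386) (nat_lit 5) (nat_lit 399) (nat_lit 5) (nat_lit 387) (nat_lit 5) (nat_lit 370) (nat_lit 334) (nat_lit 316)) (XT.nd (nat_lit 78) (nat_lit 836) (nat_lit 0) (XT.lf (nat_lit 0) (nat_lit 1174804350) (nat_lit 912) (nat_lit 2712956325) (nat_lit 76) (nat_lit 3728375431) (nat_lit 374) (nat_lit 5) (nat_lit 386) (nat_lit 5) (nat_lit 375) (nat_lit 5) (nat_lit 371) (nat_lit 334) (nat_lit 315)) (XT.lf (nat_lit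 0) (nat_lit 5228672387) (nat_lit 836) (nat_lit 301902173) (nat_lit 912) (nat_lit 2169331773) (nat_lit 363) (nat_lit 5) (nat_lit 374) (nat_lit 5) (nat_lit 375) (nat_lit 5) (nat_lit 372) (nat_lit 334) (nat_lit 314))))) (XT.nd (nat_lit 234) (nat_lit 2204) (nat_lit 0) (XT.nd (nat_lit 78) (nat_lit 1596) (nat_lit 0) (XT.lf (nat_lit 0) (nat_lit 2165746812) (nat_lit 836) (nat_lit 2214780135) (nat_lit 76) (nat_lit 3406115482) (nat_lit 352) (nat_lit 5) (nat_lit 363) (nat_lit 5) (nat_lit 353) (nat_lit 5) (nat_lit 373) (nat_lit 334) (nat_lit 313)) (XT.nd (nat_lit 78) (nat_lit 836) (nat_lit 0) (XT.lf (nat_lit 0) (nat_lit 5951787363) (nat_lit 760) (nat_lit 596669742) (nat_lit 836) (nat_lit 1328320891) (nat_lit 342) (nat_lit 5) (nat_lit 352) (nat_lit 5) (nat_lit 353) (nat_lit 5) (nat_lit 374) (nat_lit 334) (nat_lit 312)) (XT.lf (nat_lit 0) (nat_lit 3021789821) (nat_lit 836) (nat_lit 1628022627) (nat_lit 76) (nat_lit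 3320041054) (nat_lit 331) (nat_lit 5) (nat_lit 342) (nat_lit 5) (nat_lit 332) (nat_lit 5) (nat_lit 375) (nat_lit 334) (nat_lit 311)))) (XT.nd (nat_lit 78) (nat_lit 1444) (nat_lit 0) (XT.lf (nat_lit 0) (nat_lit 6769794678) (nat_lit 760) (nat_lit 669081896) (nat_lit 836) (nat_lit 627602006) (nat_lit 321) (nat_lit 5) (nat_lit 331) (nat_lit 5) (nat_lit 332) (nat_lit 5) (nat_lit 376) (nat_lit 334) (nat_lit 310)) (XT.nd (nat_lit 78) (nat_lit 684) (nat_lit 0) (XT.lf (nat_lit 0) (nat_lit 3747996255) (nat_lit 760) (nat_lit 966282593) (nat_lit 76) (nat_lit 3451736278) (nat_lit 311) (nat_lit 5) (nat_lit 321) (nat_lit 5) (nat_lit 312) (nat_lit 5) (nat_lit 377) (nat_lit 334) (nat_lit 309)) (XT.lf (nat_lit 0) (nat_lit 7669327767) (nat_lit 684) (nat_lit 537271853) (nat_lit 760) (nat_lit 62671436) (nat_lit 302) (nat_lit 5) (nat_lit 311) (nat_lit 5) (nat_lit 312) (nat_lit 5) (nat_lit 378) (nat_lit 334) (nat_lit 308)))))))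 (XT.nd (nat_lit 858) (nat_lit 4940) (nat_lit 0) (XT.nd (nat_lit 390) (nat_lit 3420) (nat_lit 0) (XT.nd (nat_lit 156) (nat_lit 1900) (nat_lit 0) (XT.nd (nat_lit 78) (nat_lit 1368) (nat_lit 0) (XT.lf (nat_lit 0) (nat_lit 4348399001) (nat_lit 760) (nat_lit 243163922) (nat_lit 76) (nat_lit 3783846343) (nat_lit 292) (nat_lit 5) (nat_lit 302) (nat_lit 5) (nat_lit 293) (nat_lit 5) (nat_lit 379) (nat_lit 334) (nat_lit 307)) (XT.lf (nat_lit 0) (nat_lit 151112714) (nat_lit 608) (nat_lit 214939165) (nat_lit 684) (nat_lit 8119335159) (nat_lit 274) (nat_lit 5) (nat_lit 282) (nat_lit 5) (nat_lit 283) (nat_lit 5) (nat_lit 380) (nat_lit 334) (nat_lit 306))) (XT.nd (nat_lit 78) (nat_lit 1292) (nat_lit 0) (XT.lf (nat_lit 0) (nat_lit 534607378) (nat_lit 608) (nat_lit 4294874850) (nat_lit 684) (nat_lit 3768802732) (nat_lit 266) (nat_lit 5) (nat_lit 274) (nat_lit 5) (nat_lit 275) (nat_lit 5) (nat_lit 381) (nat_lit 334)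 (nat_lit 305)) (XT.nd (nat_lit 78) (nat_lit 608) (nat_lit 0) (XT.lf (nat_lit 0) (nat_lit 671776097) (nat_lit 684) (nat_lit 7765022002) (nat_lit 76) (nat_lit 278319828) (nat_lit 257) (nat_lit 5) (nat_lit 266) (nat_lit 5) (nat_lit 258) (nat_lit 5) (nat_lit 382) (nat_lit 334) (nat_lit 304)) (XT.lf (nat_lit 0) (nat_lit 1349694524) (nat_lit 608) (nat_lit 3841897192) (nat_lit 684) (nat_lit 3643438980) (nat_lit 249) (nat_lit 5) (nat_lit 257) (nat_lit 5) (nat_lit 258) (nat_lit 5) (nat_lit 383) (nat_lit 334) (nat_lit 303))))) (XT.nd (nat_lit 234) (nat_lit 1596) (nat_lit 0) (XT.nd (nat_lit 78) (nat_lit 1216) (nat_lit 0) (XT.lf (nat_lit 0) (nat_lit 853193831) (nat_lit 608) (nat_lit 7184480127) (nat_lit 76) (nat_lit 921240476) (nat_lit 241) (nat_lit 5) (nat_lit 249) (nat_lit 5) (nat_lit 242) (nat_lit 5) (nat_lit 384) (nat_lit 334) (nat_lit 302)) (XT.nd (nat_lit 78) (nat_lit 608) (nat_lit 0) (XT.lf (nat_lit 0)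 (nat_lit 2184266055) (nat_lit 608) (nat_lit 3249739478) (nat_lit 684) (nat_lit 3652068065) (nat_lit 233) (nat_lit 5) (nat_lit 241) (nat_lit 5) (nat_lit 242) (nat_lit 5) (nat_lit 385) (nat_lit 334) (nat_lit 301)) (XT.lf (nat_lit 0) (nat_lit 909012608) (nat_lit 608) (nat_lit 6606477894) (nat_lit 76) (nat_lit 1701729315) (nat_lit 225) (nat_lit 5) (nat_lit 233) (nat_lit 5) (nat_lit 226) (nat_lit 5) (nat_lit 386) (nat_lit 334) (nat_lit 300)))) (XT.nd (nat_lit 78) (nat_lit 1064) (nat_lit 0) (XT.lf (nat_lit 0) (nat_lit 3023165239) (nat_lit 532) (nat_lit 2533395563) (nat_lit 608) (nat_lit 3795286718) (nat_lit 218) (nat_lit 5) (nat_lit 225) (nat_lit 5) (nat_lit 226) (nat_lit 5) (nat_lit 387) (nat_lit 334) (nat_lit 299)) (XT.nd (nat_lit 78) (nat_lit 532) (nat_lit 0) (XT.lf (nat_lit 0) (nat_lit 838272988) (nat_lit 532) (nat_lit 6046910311) (nat_lit 76) (nat_lit 2605305432) (nat_lit 211) (nat_lit 5) (nat_lit 218)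 (nat_lit 5) (nat_lit 212) (nat_lit 5) (nat_lit 388) (nat_lit 334) (nat_lit 298)) (XT.lf (nat_lit 0) (nat_lit 3850523650) (nat_lit 532) (nat_lit 1707506760) (nat_lit 608) (nat_lit 4074795766) (nat_lit 204) (nat_lit 5) (nat_lit 211) (nat_lit 5) (nat_lit 212) (nat_lit 5) (nat_lit 389) (nat_lit 334) (nat_lit 297)))))) (XT.nd (nat_lit 390) (nat_lit 2584) (nat_lit 0) (XT.nd (nat_lit 156) (nat_lit 1368) (nat_lit 0) (XT.nd (nat_lit 78) (nat_lit 456) (nat_lit 0) (XT.lf (nat_lit 0) (nat_lit 638924233) (nat_lit 532) (nat_lit 5522502843) (nat_lit 76) (nat_lit 3617789306) (nat_lit 197) (nat_lit 5) (nat_lit 204) (nat_lit 5) (nat_lit 198) (nat_lit 5) (nat_lit 390) (nat_lit 334) (nat_lit 296)) (XT.lf (nat_lit 0) (nat_lit 4649596776) (nat_lit 456) (nat_lit 786493751) (nat_lit 532) (nat_lit 4493433940) (nat_lit 191) (nat_lit 5) (nat_lit 197) (nat_lit 5) (nat_lit 198) (nat_lit 5) (nat_lit 391) (nat_lit 334) (nat_lit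 295))) (XT.nd (nat_lit 78) (nat_lit 836) (nat_lit 0) (XT.lf (nat_lit 0) (nat_lit 307786292) (nat_lit 532) (nat_lit 5050982004) (nat_lit 76) (nat_lit 4725171688) (nat_lit 184) (nat_lit 5) (nat_lit 191) (nat_lit 5) (nat_lit 185) (nat_lit 5) (nat_lit 392) (nat_lit 334) (nat_lit 294)) (XT.nd (nat_lit 78) (nat_lit 380) (nat_lit 0) (XT.lf (nat_lit 0) (nat_lit 5188676685) (nat_lit 532) (nat_lit 4841309373) (nat_lit 76) (nat_lit 212486038) (nat_lit 178) (nat_lit 5) (nat_lit 185) (nat_lit 5) (nat_lit 179) (nat_lit 5) (nat_lit 393) (nat_lit 334) (nat_lit 293)) (XT.lf (nat_lit 0) (nat_lit 5752912185) (nat_lit 380) (nat_lit 4490689729) (nat_lit 456) (nat_lit 161617548) (nat_lit 173) (nat_lit 5) (nat_lit 178) (nat_lit 5) (nat_lit 179) (nat_lit 5) (nat_lit 394) (nat_lit 334) (nat_lit 292))))) (XT.nd (nat_lit 234) (nat_lit 1216) (nat_lit 0) (XT.nd (nat_lit 78) (nat_lit 836) (nat_lit 0) (XT.lf (nat_lit 0) (nat_lit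 4815275793) (nat_lit 532) (nat_lit 4490224978) (nat_lit 76) (nat_lit 1266687699) (nat_lit 166) (nat_lit 5) (nat_lit 173) (nat_lit 5) (nat_lit 167) (nat_lit 5) (nat_lit 395) (nat_lit 334) (nat_lit 291)) (XT.nd (nat_lit 78) (nat_lit 456) (nat_lit 0) (XT.lf (nat_lit 0) (nat_lit 6394966351) (nat_lit 380) (nat_lit 3569943175) (nat_lit 456) (nat_lit 778733653) (nat_lit 161) (nat_lit 5) (nat_lit 166) (nat_lit 5) (nat_lit 167) (nat_lit 5) (nat_lit 396) (nat_lit 334) (nat_lit 290)) (XT.lf (nat_lit 0) (nat_lit 4304781395) (nat_lit 456) (nat_lit 4242599775) (nat_lit 76) (nat_lit 2372045212) (nat_lit 155) (nat_lit 5) (nat_lit 161) (nat_lit 5) (nat_lit 156) (nat_lit 5) (nat_lit 397) (nat_lit 334) (nat_lit 289)))) (XT.nd (nat_lit 78) (nat_lit 836) (nat_lit 0) (XT.lf (nat_lit 0) (nat_lit 6939932033) (nat_lit 380) (nat_lit 2613533710) (nat_lit 456) (nat_lit 1546459293) (nat_lit 150) (nat_lit 5) (nat_lit 155) (nat_lit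 5) (nat_lit 156) (nat_lit 5) (nat_lit 398) (nat_lit 334) (nat_lit 288)) (XT.nd (nat_lit 78) (nat_lit 380) (nat_lit 0) (XT.lf (nat_lit 0) (nat_lit 3649865144) (nat_lit 456) (nat_lit 4121172974) (nat_lit 76) (nat_lit 3513847282) (nat_lit 144) (nat_lit 5) (nat_lit 150) (nat_lit 5) (nat_lit 145) (nat_lit 5) (nat_lit 399) (nat_lit 334) (nat_lit 287)) (XT.lf (nat_lit 0) (nat_lit 7364775092) (nat_lit 380) (nat_lit 1636828471) (nat_lit 456) (nat_lit 2473184919) (nat_lit 139) (nat_lit 5) (nat_lit 144) (nat_lit 5) (nat_lit 145) (nat_lit 5) (nat_lit 400) (nat_lit 334) (nat_lit 286))))))))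
noncomputable def xc34 : XT := (XT.nd (nat_lit 1716) (nat_lit 1064) (nat_lit 0) (XT.nd (nat_lit 858) (nat_lit 2660) (nat_lit 0) (XT.nd (nat_lit 390) (nat_lit 1900) (nat_lit 0) (XT.nd (nat_lit 156) (nat_lit 1140) (nat_lit 0) (XT.nd (nat_lit 78) (nat_lit 304) (nat_lit 0) (XT.lf (nat_lit 0) (nat_lit 2841783836) (nat_lit 456) (nat_lit 4150630106) (nat_lit 76) (nat_lit 4676902648) (nat_lit 133) (nat_lit 5) (nat_lit 139) (nat_lit 5) (nat_lit 134) (nat_lit 5) (nat_lit 401) (nat_lit 334) (nat_lit 285)) (XT.lf (nat_lit 0) (nat_lit 7644434021) (nat_lit 304) (nat_lit 655777492) (nat_lit 380) (nat_lit 3568798210) (nat_lit 129) (nat_lit 5) (nat_lit 133) (nat_lit 5) (nat_lit 134) (nat_lit 5) (nat_lit 402) (nat_lit 334) (nat_lit 284))) (XT.nd (nat_lit 78) (nat_lit 684) (nat_lit 0) (XT.lf (nat_lit 0) (nat_lit 1870279889) (nat_lit 456) (nat_lit 4357862781) (nat_lit 76) (nat_lit 5845382712) (nat_lit 123) (nat_lit 5)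 (nat_lit 129) (nat_lit 5) (nat_lit 124) (nat_lit 5) (nat_lit 403) (nat_lit 334) (nat_lit 283)) (XT.nd (nat_lit 78) (nat_lit 380) (nat_lit 0) (XT.lf (nat_lit 0) (nat_lit 7440660284) (nat_lit 380) (nat_lit 4533901530) (nat_lit 76) (nat_lit 308818303) (nat_lit 119) (nat_lit 5) (nat_lit 124) (nat_lit 5) (nat_lit 120) (nat_lit 5) (nat_lit 404) (nat_lit 334) (nat_lit 282)) (XT.lf (nat_lit 0) (nat_lit 723467789) (nat_lit 380) (nat_lit 4772251901) (nat_lit 76) (nat_lit 7002655100) (nat_lit 114) (nat_lit 5) (nat_lit 119) (nat_lit 5) (nat_lit 115) (nat_lit 5) (nat_lit 405) (nat_lit 334) (nat_lit 281))))) (XT.nd (nat_lit 234) (nat_lit 912) (nat_lit 0) (XT.nd (nat_lit 78) (nat_lit 684) (nat_lit 0) (XT.lf (nat_lit 0) (nat_lit 6412651218) (nat_lit 380) (nat_lit 5070861305) (nat_lit 76) (nat_lit 1235237631) (nat_lit 110) (nat_lit 5) (nat_lit 115) (nat_lit 5) (nat_lit 111) (nat_lit 5) (nat_lit 406) (nat_lit 334) (nat_lit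 280)) (XT.nd (nat_lit 78) (nat_lit 380) (nat_lit 0) (XT.lf (nat_lit 0) (nat_lit 7514703066) (nat_lit 304) (nat_lit 4809573535) (nat_lit 380) (nat_lit 620431772) (nat_lit 106) (nat_lit 5) (nat_lit 110) (nat_lit 5) (nat_lit 111) (nat_lit 5) (nat_lit 407) (nat_lit 334) (nat_lit 279)) (XT.lf (nat_lit 0) (nat_lit 5197670432) (nat_lit 380) (nat_lit 5864888410) (nat_lit 76) (nat_lit 2113602531) (nat_lit 101) (nat_lit 5) (nat_lit 106) (nat_lit 5) (nat_lit 102) (nat_lit 5) (nat_lit 408) (nat_lit 334) (nat_lit 278)))) (XT.nd (nat_lit 78) (nat_lit 608) (nat_lit 0) (XT.lf (nat_lit 0) (nat_lit 7044957146) (nat_lit 304) (nat_lit 4187358490) (nat_lit 380) (nat_lit 2181158123) (nat_lit 97) (nat_lit 5) (nat_lit 101) (nat_lit 5) (nat_lit 102) (nat_lit 5) (nat_lit 409) (nat_lit 334) (nat_lit 277)) (XT.nd (nat_lit 78) (nat_lit 304) (nat_lit 0) (XT.lf (nat_lit 0) (nat_lit 3779496399) (nat_lit 304) (nat_lit 6952994757)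 (nat_lit 76) (nat_lit 2924146105) (nat_lit 93) (nat_lit 5) (nat_lit 97) (nat_lit 5) (nat_lit 94) (nat_lit 5) (nat_lit 410) (nat_lit 334) (nat_lit 276)) (XT.lf (nat_lit 0) (nat_lit 6283855166) (nat_lit 304) (nat_lit 3655026747) (nat_lit 380) (nat_lit 3966940423) (nat_lit 89) (nat_lit 5) (nat_lit 93) (nat_lit 5) (nat_lit 94) (nat_lit 5) (nat_lit 411) (nat_lit 334) (nat_lit 275)))))) (XT.nd (nat_lit 390) (nat_lit 1292) (nat_lit 0) (XT.nd (nat_lit 156) (nat_lit 760) (nat_lit 0) (XT.nd (nat_lit 78) (nat_lit 304) (nat_lit 0) (XT.lf (nat_lit 0) (nat_lit 2139769649) (nat_lit 304) (nat_lit 8375901527) (nat_lit 76) (nat_lit 3645601752) (nat_lit 85) (nat_lit 5) (nat_lit 89) (nat_lit 5) (nat_lit 86) (nat_lit 5) (nat_lit 412) (nat_lit 334) (nat_lit 274)) (XT.lf (nat_lit 0) (nat_lit 5189655895) (nat_lit 304) (nat_lit 3235327613) (nat_lit 380) (nat_lit 5997900611) (nat_lit 81) (nat_lit 5) (nat_lit 85) (nat_lit 5)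 (nat_lit 86) (nat_lit 5) (nat_lit 413) (nat_lit 334) (nat_lit 273))) (XT.nd (nat_lit 78) (nat_lit 456) (nat_lit 0) (XT.lf (nat_lit 0) (nat_lit 257799691) (nat_lit 304) (nat_lit 10178465699) (nat_lit 76) (nat_lit 4254974721) (nat_lit 77) (nat_lit 5) (nat_lit 81) (nat_lit 5) (nat_lit 78) (nat_lit 5) (nat_lit 414) (nat_lit 334) (nat_lit 272)) (XT.nd (nat_lit 78) (nat_lit 228) (nat_lit 0) (XT.lf (nat_lit 0) (nat_lit 3716318363) (nat_lit 228) (nat_lit 2952903644) (nat_lit 304) (nat_lit 8296646125) (nat_lit 74) (nat_lit 5) (nat_lit 77) (nat_lit 5) (nat_lit 78) (nat_lit 5) (nat_lit 415) (nat_lit 334) (nat_lit 271)) (XT.lf (nat_lit 0) (nat_lit 2824963348) (nat_lit 228) (nat_lit 10507817673) (nat_lit 304) (nat_lit 1914762995) (nat_lit 71) (nat_lit 5) (nat_lit 74) (nat_lit 5) (nat_lit 75) (nat_lit 5) (nat_lit 416) (nat_lit 334) (nat_lit 270))))) (XT.nd (nat_lit 234) (nat_lit 684) (nat_lit 0) (XT.nd (nat_lit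 78) (nat_lit 304) (nat_lit 0) (XT.lf (nat_lit 0) (nat_lit 1813014481) (nat_lit 228) (nat_lit 2834552649) (nat_lit 304) (nat_lit 10888501012) (nat_lit 67) (nat_lit 5) (nat_lit 70) (nat_lit 5) (nat_lit 71) (nat_lit 5) (nat_lit 417) (nat_lit 334) (nat_lit 269)) (XT.nd (nat_lit 78) (nat_lit 76) (nat_lit 0) (XT.lf (nat_lit 0) (nat_lit 677693138) (nat_lit 228) (nat_lit 10767880126) (nat_lit 304) (nat_lit 4386129720) (nat_lit 64) (nat_lit 5) (nat_lit 67) (nat_lit 5) (nat_lit 68) (nat_lit 5) (nat_lit 418) (nat_lit 334) (nat_lit 268)) (XT.lf (nat_lit 0) (nat_lit 2336848152) (nat_lit 304) (nat_lit 568847489) (nat_lit 76) (nat_lit 13229098440) (nat_lit 63) (nat_lit 5) (nat_lit 67) (nat_lit 5) (nat_lit 64) (nat_lit 5) (nat_lit 419) (nat_lit 334) (nat_lit 267)))) (XT.nd (nat_lit 78) (nat_lit 456) (nat_lit 0) (XT.lf (nat_lit 0) (nat_lit 9275741803) (nat_lit 304) (nat_lit 1960282291) (nat_lit 76) (nat_lit 5208901821)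 (nat_lit 60) (nat_lit 5) (nat_lit 64) (nat_lit 5) (nat_lit 61) (nat_lit 5) (nat_lit 420) (nat_lit 334) (nat_lit 266)) (XT.nd (nat_lit 78) (nat_lit 304) (nat_lit 0) (XT.lf (nat_lit 0) (nat_lit 13293483646) (nat_lit 152) (nat_lit 3184614283) (nat_lit 228) (nat_lit 285161928) (nat_lit 58) (nat_lit 5) (nat_lit 60) (nat_lit 5) (nat_lit 61) (nat_lit 5) (nat_lit 421) (nat_lit 334) (nat_lit 265)) (XT.lf (nat_lit 0) (nat_lit 6787243887) (nat_lit 304) (nat_lit 5163752347) (nat_lit 76) (nat_lit 5137845416) (nat_lit 54) (nat_lit 5) (nat_lit 58) (nat_lit 5) (nat_lit 55) (nat_lit 5) (nat_lit 422) (nat_lit 334) (nat_lit 264))))))) (XT.nd (nat_lit 47892) (nat_lit 0) (nat_lit 30628) (XT.nd (nat_lit 47424) (nat_lit 0) (nat_lit 46208) (XT.nd (nat_lit 156) (nat_lit 608) (nat_lit 0) (XT.nd (nat_lit 78) (nat_lit 304) (nat_lit 0) (XT.lf (nat_lit 0) (nat_lit 10425843757) (nat_lit 152) (nat_lit 3701784683) (nat_lit 228) (nat_lit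 3295334898) (nat_lit 52) (nat_lit 5) (nat_lit 54) (nat_lit 5) (nat_lit 55) (nat_lit 5) (nat_lit 423) (nat_lit 334) (nat_lit 263)) (XT.lf (nat_lit 0) (nat_lit 3941203384) (nat_lit 304) (nat_lit 9012832926) (nat_lit 76) (nat_lit 4811136502) (nat_lit 48) (nat_lit 5) (nat_lit 52) (nat_lit 5) (nat_lit 49) (nat_lit 5) (nat_lit 424) (nat_lit 334) (nat_lit 262))) (XT.nd (nat_lit 78) (nat_lit 456) (nat_lit 0) (XT.lf (nat_lit 0) (nat_lit 6905239589) (nat_lit 152) (nat_lit 4510684388) (nat_lit 228) (nat_lit 6699975283) (nat_lit 46) (nat_lit 5) (nat_lit 48) (nat_lit 5) (nat_lit 49) (nat_lit 5) (nat_lit 425) (nat_lit 334) (nat_lit 261)) (XT.nd (nat_lit 78) (nat_lit 152) (nat_lit 0) (XT.lf (nat_lit 0) (nat_lit 699212798) (nat_lit 304) (nat_lit 13586318193) (nat_lit 76) (nat_lit 4190140238) (nat_lit 42) (nat_lit 5) (nat_lit 46) (nat_lit 5) (nat_lit 43) (nat_lit 5) (nat_lit 426) (nat_lit 334) (nat_lit 260)) (XT.lf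 (nat_lit 0) (nat_lit 2650332270) (nat_lit 152) (nat_lit 5652900990) (nat_lit 228) (nat_lit 10540642908) (nat_lit 40) (nat_lit 5) (nat_lit 42) (nat_lit 5) (nat_lit 43) (nat_lit 5) (nat_lit 427) (nat_lit 334) (nat_lit 259))))) (XT.nd (nat_lit 234) (nat_lit 2660) (nat_lit 0) (XT.nd (nat_lit 78) (nat_lit 760) (nat_lit 0) (XT.lf (nat_lit 0) (nat_lit 166274958) (nat_lit 684) (nat_lit 2942326452) (nat_lit 0) (nat_lit 166274958) (nat_lit 693) (nat_lit 5) (nat_lit 702) (nat_lit 4) (nat_lit 693) (nat_lit 4) (nat_lit 350) (nat_lit 335) (nat_lit 335)) (XT.nd (nat_lit 78) (nat_lit 760) (nat_lit 0) (XT.lf (nat_lit 0) (nat_lit 5092913567) (nat_lit 684) (nat_lit 46728453) (nat_lit 0) (nat_lit 1432998221) (nat_lit 693) (nat_lit 5) (nat_lit 702) (nat_lit 4) (nat_lit 693) (nat_lit 4) (nat_lit 351) (nat_lit 335) (nat_lit 334)) (XT.lf (nat_lit 0) (nat_lit 3228247131) (nat_lit 760) (nat_lit 692172009) (nat_lit 76) (nat_lit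 2677955155) (nat_lit 683) (nat_lit 5) (nat_lit 693) (nat_lit 5) (nat_lit 684) (nat_lit 4) (nat_lit 352) (nat_lit 335) (nat_lit 333)))) (XT.nd (nat_lit 78) (nat_lit 1824) (nat_lit 0) (XT.lf (nat_lit 0) (nat_lit 1286504915) (nat_lit 836) (nat_lit 1278421727) (nat_lit 76) (nat_lit 4062177368) (nat_lit 672) (nat_lit 5) (nat_lit 683) (nat_lit 5) (nat_lit 673) (nat_lit 5) (nat_lit 353) (nat_lit 335) (nat_lit 332)) (XT.nd (nat_lit 78) (nat_lit 988) (nat_lit 0) (XT.lf (nat_lit 0) (nat_lit 4847834748) (nat_lit 836) (nat_lit 1066838575) (nat_lit 912) (nat_lit 744080351) (nat_lit 661) (nat_lit 5) (nat_lit 672) (nat_lit 5) (nat_lit 673) (nat_lit 5) (nat_lit 354) (nat_lit 335) (nat_lit 331)) (XT.lf (nat_lit 0) (nat_lit 3823010783) (nat_lit 988) (nat_lit 2298144694) (nat_lit 76) (nat_lit 572032350) (nat_lit 648) (nat_lit 5) (nat_lit 661) (nat_lit 5) (nat_lit 649) (nat_lit 5) (nat_lit 355) (nat_lit 335) (nat_lit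 330)))))) (XT.nd (nat_lit 390) (nat_lit 9652) (nat_lit 0) (XT.nd (nat_lit 156) (nat_lit 3800) (nat_lit 0) (XT.nd (nat_lit 78) (nat_lit 1064) (nat_lit 0) (XT.lf (nat_lit 0) (nat_lit 1657791974) (nat_lit 1064) (nat_lit 2736223282) (nat_lit 76) (nat_lit 2336503968) (nat_lit 634) (nat_lit 5) (nat_lit 648) (nat_lit 5) (nat_lit 635) (nat_lit 5) (nat_lit 356) (nat_lit 335) (nat_lit 329)) (XT.lf (nat_lit 0) (nat_lit 3648264309) (nat_lit 1064) (nat_lit 2524569428) (nat_lit 1140) (nat_lit 598002148) (nat_lit 620) (nat_lit 5) (nat_lit 634) (nat_lit 5) (nat_lit 635) (nat_lit 5) (nat_lit 357) (nat_lit 335) (nat_lit 328))) (XT.nd (nat_lit 78) (nat_lit 2584) (nat_lit 0) (XT.lf (nat_lit 0) (nat_lit 3348837535) (nat_lit 1140) (nat_lit 503152763) (nat_lit 1216) (nat_lit 2962025255) (nat_lit 604) (nat_lit 5) (nat_lit 619) (nat_lit 5) (nat_lit 620) (nat_lit 5) (nat_lit 358) (nat_lit 335) (nat_lit 327)) (XT.nd (nat_lit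 78) (nat_lit 1292) (nat_lit 0) (XT.lf (nat_lit 0) (nat_lit 1456392596) (nat_lit 1292) (nat_lit 3764287095) (nat_lit 76) (nat_lit 1639412355) (nat_lit 587) (nat_lit 5) (nat_lit 604) (nat_lit 5) (nat_lit 588) (nat_lit 5) (nat_lit 359) (nat_lit 335) (nat_lit 326)) (XT.lf (nat_lit 0) (nat_lit 2888731762) (nat_lit 1292) (nat_lit 2983721014) (nat_lit 1368) (nat_lit 1036643219) (nat_lit 570) (nat_lit 5) (nat_lit 587) (nat_lit 5) (nat_lit 588) (nat_lit 5) (nat_lit 360) (nat_lit 335) (nat_lit 325))))) (XT.nd (nat_lit 234) (nat_lit 5168) (nat_lit 0) (XT.nd (nat_lit 78) (nat_lit 3040) (nat_lit 0) (XT.lf (nat_lit 0) (nat_lit 2727203146) (nat_lit 1368) (nat_lit 593934355) (nat_lit 1444) (nat_lit 3639922177) (nat_lit 551) (nat_lit 5) (nat_lit 569) (nat_lit 5) (nat_lit 570) (nat_lit 5) (nat_lit 361) (nat_lit 335) (nat_lit 324)) (XT.nd (nat_lit 78) (nat_lit 1520) (nat_lit 0) (XT.lf (nat_lit 0) (nat_lit 692012421)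 (nat_lit 1520) (nat_lit 4408025420) (nat_lit 76) (nat_lit 1915922572) (nat_lit 531) (nat_lit 5) (nat_lit 551) (nat_lit 5) (nat_lit 532) (nat_lit 5) (nat_lit 362) (nat_lit 335) (nat_lit 323)) (XT.lf (nat_lit 0) (nat_lit 2525130714) (nat_lit 1520) (nat_lit 2496199058) (nat_lit 1596) (nat_lit 2052397822) (nat_lit 511) (nat_lit 5) (nat_lit 531) (nat_lit 5) (nat_lit 532) (nat_lit 5) (nat_lit 363) (nat_lit 335) (nat_lit 322)))) (XT.nd (nat_lit 78) (nat_lit 3496) (nat_lit 0) (XT.lf (nat_lit 0) (nat_lit 2233981376) (nat_lit 1672) (nat_lit 4645400939) (nat_lit 76) (nat_lit 255227636) (nat_lit 489) (nat_lit 5) (nat_lit 511) (nat_lit 5) (nat_lit 490) (nat_lit 5) (nat_lit 364) (nat_lit 335) (nat_lit 321)) (XT.nd (nat_lit 78) (nat_lit 1824) (nat_lit 0) (XT.lf (nat_lit 0) (nat_lit 2484684214) (nat_lit 1672) (nat_lit 4073032948) (nat_lit 1748) (nat_lit 640632572) (nat_lit 467) (nat_lit 5) (nat_lit 489) (nat_lit 5)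 (nat_lit 490) (nat_lit 5) (nat_lit 365) (nat_lit 335) (nat_lit 320)) (XT.lf (nat_lit 0) (nat_lit 2516630759) (nat_lit 1748) (nat_lit 1104131665) (nat_lit 1824) (nat_lit 3644331394) (nat_lit 443) (nat_lit 5) (nat_lit 466) (nat_lit 5) (nat_lit 467) (nat_lit 5) (nat_lit 366) (nat_lit 335) (nat_lit 319))))))))
noncomputable def xc35 : XT := (XT.nd (nat_lit 1716) (nat_lit 9196) (nat_lit 0) (XT.nd (nat_lit 858) (nat_lit 7144) (nat_lit 0) (XT.nd (nat_lit 390) (nat_lit 4788) (nat_lit 0) (XT.nd (nat_lit 156) (nat_lit 2812) (nat_lit 0) (XT.nd (nat_lit 78) (nat_lit 912) (nat_lit 0) (XT.lf (nat_lit 0) (nat_lit 597678197) (nat_lit 1520) (nat_lit 4748252063) (nat_lit 76) (nat_lit 1988992677) (nat_lit 423) (nat_lit 5) (nat_lit 443) (nat_lit 5) (nat_lit 424) (nat_lit 5) (nat_lit 367) (nat_lit 335) (nat_lit 318)) (XT.lf (nat_lit 0) (nat_lit 2682938150) (nat_lit 912) (nat_lit 2171558651) (nat_lit 988) (nat_lit 2553158152)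 (nat_lit 411) (nat_lit 5) (nat_lit 423) (nat_lit 5) (nat_lit 424) (nat_lit 5) (nat_lit 368) (nat_lit 335) (nat_lit 317))) (XT.nd (nat_lit 78) (nat_lit 1824) (nat_lit 0) (XT.lf (nat_lit 0) (nat_lit 1673183459) (nat_lit 988) (nat_lit 4666262318) (nat_lit 76) (nat_lit 1144129223) (nat_lit 398) (nat_lit 5) (nat_lit 411) (nat_lit 5) (nat_lit 399) (nat_lit 5) (nat_lit 369) (nat_lit 335) (nat_lit 316)) (XT.nd (nat_lit 78) (nat_lit 912) (nat_lit 0) (XT.lf (nat_lit 0) (nat_lit 2975411573) (nat_lit 912) (nat_lit 2966656483) (nat_lit 988) (nat_lit 1620386927) (nat_lit 386) (nat_lit 5) (nat_lit 398) (nat_lit 5) (nat_lit 399) (nat_lit 5) (nat_lit 370) (nat_lit 335) (nat_lit 315)) (XT.lf (nat_lit 0) (nat_lit 2602094547) (nat_lit 912) (nat_lit 4477840052) (nat_lit 76) (nat_lit 564601532) (nat_lit 374) (nat_lit 5) (nat_lit 386) (nat_lit 5) (nat_lit 375) (nat_lit 5) (nat_lit 371) (nat_lit 335) (nat_lit 314))))) (XT.nd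 (nat_lit 234) (nat_lit 2356) (nat_lit 0) (XT.nd (nat_lit 78) (nat_lit 1596) (nat_lit 0) (XT.lf (nat_lit 0) (nat_lit 3380045765) (nat_lit 836) (nat_lit 3510891284) (nat_lit 912) (nat_lit 838720911) (nat_lit 363) (nat_lit 5) (nat_lit 374) (nat_lit 5) (nat_lit 375) (nat_lit 5) (nat_lit 372) (nat_lit 335) (nat_lit 313)) (XT.nd (nat_lit 78) (nat_lit 760) (nat_lit 0) (XT.lf (nat_lit 0) (nat_lit 3391132191) (nat_lit 836) (nat_lit 4196958876) (nat_lit 76) (nat_lit 229898112) (nat_lit 352) (nat_lit 5) (nat_lit 363) (nat_lit 5) (nat_lit 353) (nat_lit 5) (nat_lit 373) (nat_lit 335) (nat_lit 312)) (XT.lf (nat_lit 0) (nat_lit 3883141486) (nat_lit 760) (nat_lit 3824357545) (nat_lit 836) (nat_lit 201964643) (nat_lit 342) (nat_lit 5) (nat_lit 352) (nat_lit 5) (nat_lit 353) (nat_lit 5) (nat_lit 374) (nat_lit 335) (nat_lit 311)))) (XT.nd (nat_lit 78) (nat_lit 1520) (nat_lit 0) (XT.lf (nat_lit 0) (nat_lit 4045960227)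 (nat_lit 836) (nat_lit 3837383486) (nat_lit 76) (nat_lit 120808953) (nat_lit 331) (nat_lit 5) (nat_lit 342) (nat_lit 5) (nat_lit 332) (nat_lit 5) (nat_lit 375) (nat_lit 335) (nat_lit 310)) (XT.nd (nat_lit 78) (nat_lit 684) (nat_lit 0) (XT.lf (nat_lit 0) (nat_lit 291135490) (nat_lit 836) (nat_lit 3632839066) (nat_lit 76) (nat_lit 4178094722) (nat_lit 320) (nat_lit 5) (nat_lit 331) (nat_lit 5) (nat_lit 321) (nat_lit 5) (nat_lit 376) (nat_lit 335) (nat_lit 309)) (XT.lf (nat_lit 0) (nat_lit 4571209555) (nat_lit 760) (nat_lit 3412791577) (nat_lit 76) (nat_lit 219279664) (nat_lit 311) (nat_lit 5) (nat_lit 321) (nat_lit 5) (nat_lit 312) (nat_lit 5) (nat_lit 377) (nat_lit 335) (nat_lit 308)))))) (XT.nd (nat_lit 390) (nat_lit 3648) (nat_lit 0) (XT.nd (nat_lit 156) (nat_lit 2052) (nat_lit 0) (XT.nd (nat_lit 78) (nat_lit 684) (nat_lit 0) (XT.lf (nat_lit 0) (nat_lit 647650178) (nat_lit 760) (nat_lit 3181402506)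 (nat_lit 76) (nat_lit 4478723021) (nat_lit 301) (nat_lit 5) (nat_lit 311) (nat_lit 5) (nat_lit 302) (nat_lit 5) (nat_lit 378) (nat_lit 335) (nat_lit 307)) (XT.lf (nat_lit 0) (nat_lit 4970494405) (nat_lit 760) (nat_lit 2936898036) (nat_lit 76) (nat_lit 508271223) (nat_lit 292) (nat_lit 5) (nat_lit 302) (nat_lit 5) (nat_lit 293) (nat_lit 5) (nat_lit 379) (nat_lit 335) (nat_lit 306))) (XT.nd (nat_lit 78) (nat_lit 1292) (nat_lit 0) (XT.lf (nat_lit 0) (nat_lit 873219640) (nat_lit 760) (nat_lit 2684546552) (nat_lit 76) (nat_lit 4969149866) (nat_lit 282) (nat_lit 5) (nat_lit 292) (nat_lit 5) (nat_lit 283) (nat_lit 5) (nat_lit 380) (nat_lit 335) (nat_lit 305)) (XT.nd (nat_lit 78) (nat_lit 684) (nat_lit 0) (XT.lf (nat_lit 0) (nat_lit 5246420868) (nat_lit 684) (nat_lit 2423582457) (nat_lit 76) (nat_lit 971624296) (nat_lit 274) (nat_lit 5) (nat_lit 283) (nat_lit 5) (nat_lit 275) (nat_lit 5) (nat_lit 381) (nat_lit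 335) (nat_lit 304)) (XT.lf (nat_lit 0) (nat_lit 969814406) (nat_lit 684) (nat_lit 2156340562) (nat_lit 76) (nat_lit 5633678887) (nat_lit 265) (nat_lit 5) (nat_lit 274) (nat_lit 5) (nat_lit 266) (nat_lit 5) (nat_lit 382) (nat_lit 335) (nat_lit 303))))) (XT.nd (nat_lit 234) (nat_lit 1824) (nat_lit 0) (XT.nd (nat_lit 78) (nat_lit 1216) (nat_lit 0) (XT.lf (nat_lit 0) (nat_lit 5400587624) (nat_lit 684) (nat_lit 1887021069) (nat_lit 76) (nat_lit 1593927151) (nat_lit 257) (nat_lit 5) (nat_lit 266) (nat_lit 5) (nat_lit 258) (nat_lit 5) (nat_lit 383) (nat_lit 335) (nat_lit 302)) (XT.nd (nat_lit 78) (nat_lit 532) (nat_lit 0) (XT.lf (nat_lit 0) (nat_lit 938381013) (nat_lit 684) (nat_lit 1611212908) (nat_lit 76) (nat_lit 6457315979) (nat_lit 248) (nat_lit 5) (nat_lit 257) (nat_lit 5) (nat_lit 249) (nat_lit 5) (nat_lit 384) (nat_lit 335) (nat_lit 301)) (XT.lf (nat_lit 0) (nat_lit 5433578696) (nat_lit 608) (nat_lit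 1341824242) (nat_lit 76) (nat_lit 2360386141) (nat_lit 241) (nat_lit 5) (nat_lit 249) (nat_lit 5) (nat_lit 242) (nat_lit 5) (nat_lit 385) (nat_lit 335) (nat_lit 300)))) (XT.nd (nat_lit 78) (nat_lit 1140) (nat_lit 0) (XT.lf (nat_lit 0) (nat_lit 778830790) (nat_lit 684) (nat_lit 1064092096) (nat_lit 76) (nat_lit 7425640230) (nat_lit 232) (nat_lit 5) (nat_lit 241) (nat_lit 5) (nat_lit 233) (nat_lit 5) (nat_lit 386) (nat_lit 335) (nat_lit 299)) (XT.nd (nat_lit 78) (nat_lit 608) (nat_lit 0) (XT.lf (nat_lit 0) (nat_lit 5344948035) (nat_lit 608) (nat_lit 803180773) (nat_lit 76) (nat_lit 3256697778) (nat_lit 225) (nat_lit 5) (nat_lit 233) (nat_lit 5) (nat_lit 226) (nat_lit 5) (nat_lit 387) (nat_lit 335) (nat_lit 298)) (XT.lf (nat_lit 0) (nat_lit 490020277) (nat_lit 608) (nat_lit 530555290) (nat_lit 76) (nat_lit 8524676014) (nat_lit 217) (nat_lit 5) (nat_lit 225) (nat_lit 5) (nat_lit 218) (nat_lit 5) (nat_lit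 388) (nat_lit 335) (nat_lit 297))))))) (XT.nd (nat_lit 858) (nat_lit 3648) (nat_lit 0) (XT.nd (nat_lit 390) (nat_lit 2584) (nat_lit 0) (XT.nd (nat_lit 156) (nat_lit 1900) (nat_lit 0) (XT.nd (nat_lit 78) (nat_lit 608) (nat_lit 0) (XT.lf (nat_lit 0) (nat_lit 5133195630) (nat_lit 532) (nat_lit 287010261) (nat_lit 76) (nat_lit 4268921381) (nat_lit 211) (nat_lit 5) (nat_lit 218) (nat_lit 5) (nat_lit 212) (nat_lit 5) (nat_lit 389) (nat_lit 335) (nat_lit 296)) (XT.lf (nat_lit 0) (nat_lit 69722976) (nat_lit 608) (nat_lit 26985567) (nat_lit 76) (nat_lit 9740765211) (nat_lit 203) (nat_lit 5) (nat_lit 211) (nat_lit 5) (nat_lit 204) (nat_lit 5) (nat_lit 390) (nat_lit 335) (nat_lit 295))) (XT.nd (nat_lit 78) (nat_lit 988) (nat_lit 0) (XT.lf (nat_lit 0) (nat_lit 192398375) (nat_lit 456) (nat_lit 4604585605) (nat_lit 532) (nat_lit 5192202070) (nat_lit 191) (nat_lit 5) (nat_lit 197) (nat_lit 5) (nat_lit 198) (nat_lit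 5) (nat_lit 391) (nat_lit 335) (nat_lit 294)) (XT.nd (nat_lit 78) (nat_lit 532) (nat_lit 0) (XT.lf (nat_lit 0) (nat_lit 425690380) (nat_lit 456) (nat_lit 9236880535) (nat_lit 532) (nat_lit 482960670) (nat_lit 185) (nat_lit 5) (nat_lit 191) (nat_lit 5) (nat_lit 192) (nat_lit 5) (nat_lit 392) (nat_lit 335) (nat_lit 293)) (XT.lf (nat_lit 0) (nat_lit 617698612) (nat_lit 456) (nat_lit 3715162143) (nat_lit 532) (nat_lit 5972699360) (nat_lit 178) (nat_lit 5) (nat_lit 184) (nat_lit 5) (nat_lit 185) (nat_lit 5) (nat_lit 393) (nat_lit 335) (nat_lit 292))))) (XT.nd (nat_lit 234) (nat_lit 1292) (nat_lit 0) (XT.nd (nat_lit 78) (nat_lit 912) (nat_lit 0) (XT.lf (nat_lit 0) (nat_lit 809494707) (nat_lit 380) (nat_lit 8483796847) (nat_lit 456) (nat_lit 1176911293) (nat_lit 173) (nat_lit 5) (nat_lit 178) (nat_lit 5) (nat_lit 179) (nat_lit 5) (nat_lit 394) (nat_lit 335) (nat_lit 291)) (XT.nd (nat_lit 78) (nat_lit 380)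 (nat_lit 0) (XT.lf (nat_lit 0) (nat_lit 965693405) (nat_lit 456) (nat_lit 2768222806) (nat_lit 532) (nat_lit 6904980328) (nat_lit 166) (nat_lit 5) (nat_lit 172) (nat_lit 5) (nat_lit 173) (nat_lit 5) (nat_lit 395) (nat_lit 335) (nat_lit 290)) (XT.lf (nat_lit 0) (nat_lit 1105109314) (nat_lit 380) (nat_lit 7688976000) (nat_lit 456) (nat_lit 2018060288) (nat_lit 161) (nat_lit 5) (nat_lit 166) (nat_lit 5) (nat_lit 167) (nat_lit 5) (nat_lit 396) (nat_lit 335) (nat_lit 289)))) (XT.nd (nat_lit 78) (nat_lit 836) (nat_lit 0) (XT.lf (nat_lit 0) (nat_lit 1215530044) (nat_lit 380) (nat_lit 1778346771) (nat_lit 456) (nat_lit 7995974377) (nat_lit 155) (nat_lit 5) (nat_lit 160) (nat_lit 5) (nat_lit 161) (nat_lit 5) (nat_lit 397) (nat_lit 335) (nat_lit 288)) (XT.nd (nat_lit 78) (nat_lit 456) (nat_lit 0) (XT.lf (nat_lit 0) (nat_lit 1290890080) (nat_lit 380) (nat_lit 6867380727) (nat_lit 456) (nat_lit 3013769524) (nat_lit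 150) (nat_lit 5) (nat_lit 155) (nat_lit 5) (nat_lit 156) (nat_lit 5) (nat_lit 398) (nat_lit 335) (nat_lit 287)) (XT.lf (nat_lit 0) (nat_lit 1344667126) (nat_lit 380) (nat_lit 760475295) (nat_lit 456) (nat_lit 9253986393) (nat_lit 144) (nat_lit 5) (nat_lit 149) (nat_lit 5) (nat_lit 150) (nat_lit 5) (nat_lit 399) (nat_lit 335) (nat_lit 286)))))) (XT.nd (nat_lit 390) (nat_lit 1748) (nat_lit 0) (XT.nd (nat_lit 156) (nat_lit 1064) (nat_lit 0) (XT.nd (nat_lit 78) (nat_lit 456) (nat_lit 0) (XT.lf (nat_lit 0) (nat_lit 1343384774) (nat_lit 380) (nat_lit 6034427982) (nat_lit 456) (nat_lit 4172804822) (nat_lit 139) (nat_lit 5) (nat_lit 144) (nat_lit 5) (nat_lit 145) (nat_lit 5) (nat_lit 400) (nat_lit 335) (nat_lit 285)) (XT.lf (nat_lit 0) (nat_lit 1060452299) (nat_lit 456) (nat_lit 10420600976) (nat_lit 76) (nat_lit 266397276) (nat_lit 133) (nat_lit 5) (nat_lit 139) (nat_lit 5) (nat_lit 134) (nat_lit 5) (nat_lit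 401) (nat_lit 335) (nat_lit 284))) (XT.nd (nat_lit 78) (nat_lit 760) (nat_lit 0) (XT.lf (nat_lit 0) (nat_lit 1237085842) (nat_lit 304) (nat_lit 5206143492) (nat_lit 380) (nat_lit 5505431359) (nat_lit 129) (nat_lit 5) (nat_lit 133) (nat_lit 5) (nat_lit 134) (nat_lit 5) (nat_lit 402) (nat_lit 335) (nat_lit 283)) (XT.nd (nat_lit 78) (nat_lit 380) (nat_lit 0) (XT.lf (nat_lit 0) (nat_lit 1131210813) (nat_lit 380) (nat_lit 10874814552) (nat_lit 456) (nat_lit 149518932) (nat_lit 124) (nat_lit 5) (nat_lit 129) (nat_lit 5) (nat_lit 130) (nat_lit 5) (nat_lit 403) (nat_lit 335) (nat_lit 282)) (XT.lf (nat_lit 0) (nat_lit 944161157) (nat_lit 304) (nat_lit 4399324934) (nat_lit 380) (nat_lit 7023522773) (nat_lit 119) (nat_lit 5) (nat_lit 123) (nat_lit 5) (nat_lit 124) (nat_lit 5) (nat_lit 404) (nat_lit 335) (nat_lit 281))))) (XT.nd (nat_lit 234) (nat_lit 760) (nat_lit 0) (XT.nd (nat_lit 78) (nat_lit 684) (nat_lit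 0) (XT.lf (nat_lit 0) (nat_lit 726445038) (nat_lit 304) (nat_lit 10301288160) (nat_lit 380) (nat_lit 1556502014) (nat_lit 115) (nat_lit 5) (nat_lit 119) (nat_lit 5) (nat_lit 120) (nat_lit 5) (nat_lit 405) (nat_lit 335) (nat_lit 280)) (XT.nd (nat_lit 78) (nat_lit 304) (nat_lit 0) (XT.lf (nat_lit 0) (nat_lit 434160175) (nat_lit 304) (nat_lit 3631715256) (nat_lit 380) (nat_lit 8740685068) (nat_lit 110) (nat_lit 5) (nat_lit 114) (nat_lit 5) (nat_lit 115) (nat_lit 5) (nat_lit 406) (nat_lit 335) (nat_lit 279)) (XT.lf (nat_lit 0) (nat_lit 87803543) (nat_lit 304) (nat_lit 9786174828) (nat_lit 380) (nat_lit 3160614109) (nat_lit 106) (nat_lit 5) (nat_lit 110) (nat_lit 5) (nat_lit 111) (nat_lit 5) (nat_lit 407) (nat_lit 335) (nat_lit 278)))) (XT.nd (nat_lit 78) (nat_lit 684) (nat_lit 0) (XT.lf (nat_lit 0) (nat_lit 2597998932) (nat_lit 380) (nat_lit 322027807) (nat_lit 76) (nat_lit 10348207826) (nat_lit 105) (nat_lit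 5) (nat_lit 110) (nat_lit 5) (nat_lit 106) (nat_lit 5) (nat_lit 408) (nat_lit 335) (nat_lit 277)) (XT.nd (nat_lit 78) (nat_lit 380) (nat_lit 0) (XT.lf (nat_lit 0) (nat_lit 8534934473) (nat_lit 380) (nat_lit 808942155) (nat_lit 76) (nat_lit 4163627577) (nat_lit 101) (nat_lit 5) (nat_lit 106) (nat_lit 5) (nat_lit 102) (nat_lit 5) (nat_lit 409) (nat_lit 335) (nat_lit 276)) (XT.lf (nat_lit 0) (nat_lit 925941367) (nat_lit 380) (nat_lit 1355904192) (nat_lit 76) (nat_lit 11471162600) (nat_lit 96) (nat_lit 5) (nat_lit 101) (nat_lit 5) (nat_lit 97) (nat_lit 5) (nat_lit 410) (nat_lit 335) (nat_lit 275))))))))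
noncomputable def xc36 : XT := (XT.nd (nat_lit 48594) (nat_lit 0) (nat_lit 22724) (XT.nd (nat_lit 858) (nat_lit 1216) (nat_lit 0) (XT.nd (nat_lit 390) (nat_lit 1444) (nat_lit 0) (XT.nd (nat_lit 156) (nat_lit 912) (nat_lit 0) (XT.nd (nat_lit 78) (nat_lit 304) (nat_lit 0) (XT.lf (nat_lit 0) (nat_lit 6990666348) (nat_lit 304) (nat_lit 2007821615) (nat_lit 76) (nat_lit 5005601312) (nat_lit 93) (nat_lit 5) (nat_lit 97) (nat_lit 5) (nat_lit 94) (nat_lit 5) (nat_lit 411) (nat_lit 335) (nat_lit 274)) (XT.lf (nat_lit 0) (nat_lit 11542520124) (nat_lit 304) (nat_lit 1735005327) (nat_lit 380) (nat_lit 984379100) (nat_lit 89) (nat_lit 5) (nat_lit 93) (nat_lit 5) (nat_lit 94) (nat_lit 5) (nat_lit 412) (nat_lit 335) (nat_lit 273))) (XT.nd (nat_lit 78) (nat_lit 608) (nat_lit 0) (XT.lf (nat_lit 0) (nat_lit 5221488569) (nat_lit 304) (nat_lit 3551778678) (nat_lit 76) (nat_lit 5752224063) (nat_lit 85) (nat_lit 5) (nat_lit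 89) (nat_lit 5) (nat_lit 86) (nat_lit 5) (nat_lit 413) (nat_lit 335) (nat_lit 272)) (XT.nd (nat_lit 78) (nat_lit 304) (nat_lit 0) (XT.lf (nat_lit 0) (nat_lit 10338403134) (nat_lit 304) (nat_lit 1301384850) (nat_lit 380) (nat_lit 3156280114) (nat_lit 81) (nat_lit 5) (nat_lit 85) (nat_lit 5) (nat_lit 86) (nat_lit 5) (nat_lit 414) (nat_lit 335) (nat_lit 271)) (XT.lf (nat_lit 0) (nat_lit 3205899239) (nat_lit 304) (nat_lit 5486879264) (nat_lit 76) (nat_lit 6380142647) (nat_lit 77) (nat_lit 5) (nat_lit 81) (nat_lit 5) (nat_lit 78) (nat_lit 5) (nat_lit 415) (nat_lit 335) (nat_lit 270))))) (XT.nd (nat_lit 234) (nat_lit 684) (nat_lit 0) (XT.nd (nat_lit 78) (nat_lit 532) (nat_lit 0) (XT.lf (nat_lit 0) (nat_lit 8743678899) (nat_lit 228) (nat_lit 1012260706) (nat_lit 304) (nat_lit 5600930148) (nat_lit 74) (nat_lit 5) (nat_lit 77) (nat_lit 5) (nat_lit 78) (nat_lit 5) (nat_lit 416) (nat_lit 335) (nat_lit 269)) (XT.nd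 (nat_lit 78) (nat_lit 228) (nat_lit 0) (XT.lf (nat_lit 0) (nat_lit 919786824) (nat_lit 304) (nat_lit 7863944616) (nat_lit 76) (nat_lit 6863942489) (nat_lit 70) (nat_lit 5) (nat_lit 74) (nat_lit 5) (nat_lit 71) (nat_lit 5) (nat_lit 417) (nat_lit 335) (nat_lit 268)) (XT.lf (nat_lit 0) (nat_lit 6706116561) (nat_lit 228) (nat_lit 894941159) (nat_lit 304) (nat_lit 8344587923) (nat_lit 67) (nat_lit 5) (nat_lit 70) (nat_lit 5) (nat_lit 71) (nat_lit 5) (nat_lit 418) (nat_lit 335) (nat_lit 267)))) (XT.nd (nat_lit 78) (nat_lit 456) (nat_lit 0) (XT.lf (nat_lit 0) (nat_lit 5500888963) (nat_lit 228) (nat_lit 9064097928) (nat_lit 304) (nat_lit 1685929486) (nat_lit 64) (nat_lit 5) (nat_lit 67) (nat_lit 5) (nat_lit 68) (nat_lit 5) (nat_lit 419) (nat_lit 335) (nat_lit 266)) (XT.nd (nat_lit 78) (nat_lit 152) (nat_lit 0) (XT.lf (nat_lit 0) (nat_lit 4167990749) (nat_lit 228) (nat_lit 979271555) (nat_lit 304) (nat_lit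 11416563098) (nat_lit 60) (nat_lit 5) (nat_lit 63) (nat_lit 5) (nat_lit 64) (nat_lit 5) (nat_lit 420) (nat_lit 335) (nat_lit 265)) (XT.lf (nat_lit 0) (nat_lit 2679823186) (nat_lit 152) (nat_lit 9568543963) (nat_lit 228) (nat_lit 4635819164) (nat_lit 58) (nat_lit 5) (nat_lit 60) (nat_lit 5) (nat_lit 61) (nat_lit 5) (nat_lit 421) (nat_lit 335) (nat_lit 264)))))) (XT.nd (nat_lit 390) (nat_lit 304) (nat_lit 0) (XT.nd (nat_lit 156) (nat_lit 608) (nat_lit 0) (XT.nd (nat_lit 78) (nat_lit 0) (nat_lit 0) (XT.lf (nat_lit 0) (nat_lit 1065474483) (nat_lit 228) (nat_lit 1297953056) (nat_lit 304) (nat_lit 14849511739) (nat_lit 54) (nat_lit 5) (nat_lit 57) (nat_lit 5) (nat_lit 58) (nat_lit 5) (nat_lit 422) (nat_lit 335) (nat_lit 263)) (XT.lf (nat_lit 0) (nat_lit 9602346584) (nat_lit 304) (nat_lit 730708630) (nat_lit 76) (nat_lit 7216036861) (nat_lit 54) (nat_lit 5) (nat_lit 58) (nat_lit 5) (nat_lit 55) (nat_lit 5)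 (nat_lit 423) (nat_lit 335) (nat_lit 262))) (XT.nd (nat_lit 78) (nat_lit 456) (nat_lit 0) (XT.lf (nat_lit 0) (nat_lit 15252141217) (nat_lit 152) (nat_lit 1864043556) (nat_lit 228) (nat_lit 777993192) (nat_lit 52) (nat_lit 5) (nat_lit 54) (nat_lit 5) (nat_lit 55) (nat_lit 5) (nat_lit 424) (nat_lit 335) (nat_lit 261)) (XT.nd (nat_lit 78) (nat_lit 152) (nat_lit 0) (XT.lf (nat_lit 0) (nat_lit 6607764174) (nat_lit 304) (nat_lit 4770693763) (nat_lit 76) (nat_lit 6868532496) (nat_lit 48) (nat_lit 5) (nat_lit 52) (nat_lit 5) (nat_lit 49) (nat_lit 5) (nat_lit 425) (nat_lit 335) (nat_lit 260)) (XT.lf (nat_lit 0) (nat_lit 11551710584) (nat_lit 152) (nat_lit 2709615721) (nat_lit 228) (nat_lit 4347825354) (nat_lit 46) (nat_lit 5) (nat_lit 48) (nat_lit 5) (nat_lit 49) (nat_lit 5) (nat_lit 426) (nat_lit 335) (nat_lit 259))))) (XT.nd (nat_lit 47112) (nat_lit 0) (nat_lit 48640) (XT.nd (nat_lit 46956) (nat_lit 0) (nat_lit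 50160) (XT.lf (nat_lit 0) (nat_lit 3207537281) (nat_lit 304) (nat_lit 9556361498) (nat_lit 76) (nat_lit 6216137538) (nat_lit 42) (nat_lit 5) (nat_lit 46) (nat_lit 5) (nat_lit 43) (nat_lit 5) (nat_lit 427) (nat_lit 335) (nat_lit 258)) (XT.nd (nat_lit 78) (nat_lit 532) (nat_lit 0) (XT.lf (nat_lit 0) (nat_lit 580050963) (nat_lit 532) (nat_lit 2095347160) (nat_lit 0) (nat_lit 580050963) (nat_lit 709) (nat_lit 5) (nat_lit 716) (nat_lit 4) (nat_lit 709) (nat_lit 4) (nat_lit 348) (nat_lit 336) (nat_lit 336)) (XT.lf (nat_lit 0) (nat_lit 1425481614) (nat_lit 532) (nat_lit 4474586471) (nat_lit 532) (nat_lit 629479409) (nat_lit 702) (nat_lit 4) (nat_lit 709) (nat_lit 5) (nat_lit 709) (nat_lit 4) (nat_lit 349) (nat_lit 336) (nat_lit 335)))) (XT.nd (nat_lit 78) (nat_lit 836) (nat_lit 0) (XT.lf (nat_lit 0) (nat_lit 584947605) (nat_lit 608) (nat_lit 3456224830) (nat_lit 684) (nat_lit 2509833512) (nat_lit 693) (nat_lit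 5) (nat_lit 701) (nat_lit 5) (nat_lit 702) (nat_lit 4) (nat_lit 350) (nat_lit 336) (nat_lit 334)) (XT.nd (nat_lit 78) (nat_lit 760) (nat_lit 0) (XT.lf (nat_lit 0) (nat_lit 2109305451) (nat_lit 684) (nat_lit 191851229) (nat_lit 76) (nat_lit 4274259819) (nat_lit 692) (nat_lit 5) (nat_lit 701) (nat_lit 5) (nat_lit 693) (nat_lit 5) (nat_lit 351) (nat_lit 336) (nat_lit 333)) (XT.lf (nat_lit 0) (nat_lit 104693604) (nat_lit 760) (nat_lit 901310833) (nat_lit 76) (nat_lit 5596749604) (nat_lit 682) (nat_lit 5) (nat_lit 692) (nat_lit 5) (nat_lit 683) (nat_lit 5) (nat_lit 352) (nat_lit 336) (nat_lit 332))))))) (XT.nd (nat_lit 858) (nat_lit 12844) (nat_lit 0) (XT.nd (nat_lit 390) (nat_lit 8284) (nat_lit 0) (XT.nd (nat_lit 156) (nat_lit 3116) (nat_lit 0) (XT.nd (nat_lit 78) (nat_lit 912) (nat_lit 0) (XT.lf (nat_lit 0) (nat_lit 4630966028) (nat_lit 836) (nat_lit 1567630278) (nat_lit 76) (nat_lit 434200647) (nat_lit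 672) (nat_lit 5) (nat_lit 683) (nat_lit 5) (nat_lit 673) (nat_lit 5) (nat_lit 353) (nat_lit 336) (nat_lit 331)) (XT.lf (nat_lit 0) (nat_lit 2481878981) (nat_lit 912) (nat_lit 2184192721) (nat_lit 76) (nat_lit 1999639859) (nat_lit 660) (nat_lit 5) (nat_lit 672) (nat_lit 5) (nat_lit 661) (nat_lit 5) (nat_lit 354) (nat_lit 336) (nat_lit 330))) (XT.nd (nat_lit 78) (nat_lit 2128) (nat_lit 0) (XT.lf (nat_lit 0) (nat_lit 252906691) (nat_lit 988) (nat_lit 2744332830) (nat_lit 76) (nat_lit 3704426704) (nat_lit 647) (nat_lit 5) (nat_lit 660) (nat_lit 5) (nat_lit 648) (nat_lit 5) (nat_lit 355) (nat_lit 336) (nat_lit 329)) (XT.nd (nat_lit 78) (nat_lit 1140) (nat_lit 0) (XT.lf (nat_lit 0) (nat_lit 3478322770) (nat_lit 988) (nat_lit 1176559129) (nat_lit 1064) (nat_lit 2085534336) (nat_lit 634) (nat_lit 5) (nat_lit 647) (nat_lit 5) (nat_lit 648) (nat_lit 5) (nat_lit 356) (nat_lit 336) (nat_lit 328)) (XT.lf (nat_lit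 0) (nat_lit 2274430540) (nat_lit 1140) (nat_lit 3731703748) (nat_lit 76) (nat_lit 775980001) (nat_lit 619) (nat_lit 5) (nat_lit 634) (nat_lit 5) (nat_lit 620) (nat_lit 5) (nat_lit 357) (nat_lit 336) (nat_lit 327))))) (XT.nd (nat_lit 234) (nat_lit 4484) (nat_lit 0) (XT.nd (nat_lit 78) (nat_lit 2660) (nat_lit 0) (XT.lf (nat_lit 0) (nat_lit 2670167539) (nat_lit 1140) (nat_lit 3971808135) (nat_lit 1216) (nat_lit 184755172) (nat_lit 604) (nat_lit 5) (nat_lit 619) (nat_lit 5) (nat_lit 620) (nat_lit 5) (nat_lit 358) (nat_lit 336) (nat_lit 326)) (XT.nd (nat_lit 78) (nat_lit 1368) (nat_lit 0) (XT.lf (nat_lit 0) (nat_lit 2330435080) (nat_lit 1216) (nat_lit 1781985680) (nat_lit 1292) (nat_lit 2761743663) (nat_lit 587) (nat_lit 5) (nat_lit 603) (nat_lit 5) (nat_lit 604) (nat_lit 5) (nat_lit 359) (nat_lit 336) (nat_lit 325)) (XT.lf (nat_lit 0) (nat_lit 1499411766) (nat_lit 1368) (nat_lit 4882138685) (nat_lit 76)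 (nat_lit 543126743) (nat_lit 569) (nat_lit 5) (nat_lit 587) (nat_lit 5) (nat_lit 570) (nat_lit 5) (nat_lit 360) (nat_lit 336) (nat_lit 324)))) (XT.nd (nat_lit 78) (nat_lit 3116) (nat_lit 0) (XT.lf (nat_lit 0) (nat_lit 1789133092) (nat_lit 1368) (nat_lit 3982241859) (nat_lit 1444) (nat_lit 1206595502) (nat_lit 551) (nat_lit 5) (nat_lit 569) (nat_lit 5) (nat_lit 570) (nat_lit 5) (nat_lit 361) (nat_lit 336) (nat_lit 323)) (XT.nd (nat_lit 78) (nat_lit 1596) (nat_lit 0) (XT.lf (nat_lit 0) (nat_lit 1579134820) (nat_lit 1444) (nat_lit 1429905533) (nat_lit 1520) (nat_lit 4025221362) (nat_lit 531) (nat_lit 5) (nat_lit 550) (nat_lit 5) (nat_lit 551) (nat_lit 5) (nat_lit 362) (nat_lit 336) (nat_lit 322)) (XT.lf (nat_lit 0) (nat_lit 162617719) (nat_lit 1596) (nat_lit 5679582782) (nat_lit 76) (nat_lit 1251423909) (nat_lit 510) (nat_lit 5) (nat_lit 531) (nat_lit 5) (nat_lit 511) (nat_lit 5) (nat_lit 363) (nat_lit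 336) (nat_lit 321)))))) (XT.nd (nat_lit 390) (nat_lit 5320) (nat_lit 0) (XT.nd (nat_lit 156) (nat_lit 4180) (nat_lit 0) (XT.nd (nat_lit 78) (nat_lit 1748) (nat_lit 0) (XT.lf (nat_lit 0) (nat_lit 1273104314) (nat_lit 1596) (nat_lit 3076998639) (nat_lit 1672) (nat_lit 2805594204) (nat_lit 489) (nat_lit 5) (nat_lit 510) (nat_lit 5) (nat_lit 511) (nat_lit 5) (nat_lit 364) (nat_lit 336) (nat_lit 320)) (XT.lf (nat_lit 0) (nat_lit 1182546153) (nat_lit 1672) (nat_lit 163958439) (nat_lit 1748) (nat_lit 5874536472) (nat_lit 466) (nat_lit 5) (nat_lit 488) (nat_lit 5) (nat_lit 489) (nat_lit 5) (nat_lit 365) (nat_lit 336) (nat_lit 319))) (XT.nd (nat_lit 78) (nat_lit 2432) (nat_lit 0) (XT.lf (nat_lit 0) (nat_lit 1112553686) (nat_lit 1748) (nat_lit 4416844960) (nat_lit 1824) (nat_lit 1759721346) (nat_lit 443) (nat_lit 5) (nat_lit 466) (nat_lit 5) (nat_lit 467) (nat_lit 5) (nat_lit 366) (nat_lit 336) (nat_lit 318))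 (XT.nd (nat_lit 78) (nat_lit 912) (nat_lit 0) (XT.lf (nat_lit 0) (nat_lit 1082171883) (nat_lit 1444) (nat_lit 1293514137) (nat_lit 1520) (nat_lit 4984671355) (nat_lit 423) (nat_lit 5) (nat_lit 442) (nat_lit 5) (nat_lit 443) (nat_lit 5) (nat_lit 367) (nat_lit 336) (nat_lit 317)) (XT.lf (nat_lit 0) (nat_lit 1082575759) (nat_lit 912) (nat_lit 5473549989) (nat_lit 988) (nat_lit 878506055) (nat_lit 411) (nat_lit 5) (nat_lit 423) (nat_lit 5) (nat_lit 424) (nat_lit 5) (nat_lit 368) (nat_lit 336) (nat_lit 316))))) (XT.nd (nat_lit 234) (nat_lit 2508) (nat_lit 0) (XT.nd (nat_lit 78) (nat_lit 1824) (nat_lit 0) (XT.lf (nat_lit 0) (nat_lit 1106573719) (nat_lit 912) (nat_lit 2143945298) (nat_lit 988) (nat_lit 4261336559) (nat_lit 398) (nat_lit 5) (nat_lit 410) (nat_lit 5) (nat_lit 411) (nat_lit 5) (nat_lit 369) (nat_lit 336) (nat_lit 315)) (XT.nd (nat_lit 78) (nat_lit 912) (nat_lit 0) (XT.lf (nat_lit 0) (nat_lit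 1168773296) (nat_lit 912) (nat_lit 6269585082) (nat_lit 988) (nat_lit 154011796) (nat_lit 386) (nat_lit 5) (nat_lit 398) (nat_lit 5) (nat_lit 399) (nat_lit 5) (nat_lit 370) (nat_lit 336) (nat_lit 314)) (XT.lf (nat_lit 0) (nat_lit 1241467855) (nat_lit 836) (nat_lit 2737007914) (nat_lit 912) (nat_lit 3697213430) (nat_lit 374) (nat_lit 5) (nat_lit 385) (nat_lit 5) (nat_lit 386) (nat_lit 5) (nat_lit 371) (nat_lit 336) (nat_lit 313)))) (XT.nd (nat_lit 78) (nat_lit 1596) (nat_lit 0) (XT.lf (nat_lit 0) (nat_lit 415064036) (nat_lit 912) (nat_lit 6408099698) (nat_lit 76) (nat_lit 939289948) (nat_lit 362) (nat_lit 5) (nat_lit 374) (nat_lit 5) (nat_lit 363) (nat_lit 5) (nat_lit 372) (nat_lit 336) (nat_lit 312)) (XT.nd (nat_lit 78) (nat_lit 836) (nat_lit 0) (XT.lf (nat_lit 0) (nat_lit 1472909328) (nat_lit 760) (nat_lit 3093039630) (nat_lit 836) (nat_lit 3286098456) (nat_lit 352) (nat_lit 5) (nat_lit 362) (nat_lit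 5) (nat_lit 363) (nat_lit 5) (nat_lit 373) (nat_lit 336) (nat_lit 311)) (XT.lf (nat_lit 0) (nat_lit 839843289) (nat_lit 836) (nat_lit 6316842638) (nat_lit 76) (nat_lit 788458317) (nat_lit 341) (nat_lit 5) (nat_lit 352) (nat_lit 5) (nat_lit 342) (nat_lit 5) (nat_lit 374) (nat_lit 336) (nat_lit 310))))))))
noncomputable def xc37 : XT := (XT.nd (nat_lit 1716) (nat_lit 7296) (nat_lit 0) (XT.nd (nat_lit 858) (nat_lit 5700) (nat_lit 0) (XT.nd (nat_lit 390) (nat_lit 3876) (nat_lit 0) (XT.nd (nat_lit 156) (nat_lit 2128) (nat_lit 0) (XT.nd (nat_lit 78) (nat_lit 836) (nat_lit 0) (XT.lf (nat_lit 0) (nat_lit 1787171631) (nat_lit 760) (nat_lit 3231110783) (nat_lit 836) (nat_lit 3022872479) (nat_lit 331) (nat_lit 5) (nat_lit 341) (nat_lit 5) (nat_lit 342) (nat_lit 5) (nat_lit 375) (nat_lit 336) (nat_lit 309)) (XT.lf (nat_lit 0) (nat_lit 1126962394) (nat_lit 836) (nat_lit 6162685977) (nat_lit 76) (nat_lit 851056811)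 (nat_lit 320) (nat_lit 5) (nat_lit 331) (nat_lit 5) (nat_lit 321) (nat_lit 5) (nat_lit 376) (nat_lit 336) (nat_lit 308))) (XT.nd (nat_lit 78) (nat_lit 1444) (nat_lit 0) (XT.lf (nat_lit 0) (nat_lit 2170625107) (nat_lit 684) (nat_lit 3169169002) (nat_lit 760) (nat_lit 2903477737) (nat_lit 311) (nat_lit 5) (nat_lit 320) (nat_lit 5) (nat_lit 321) (nat_lit 5) (nat_lit 377) (nat_lit 336) (nat_lit 307)) (XT.nd (nat_lit 78) (nat_lit 684) (nat_lit 0) (XT.lf (nat_lit 0) (nat_lit 1280013203) (nat_lit 760) (nat_lit 5959490332) (nat_lit 76) (nat_lit 1109911908) (nat_lit 301) (nat_lit 5) (nat_lit 311) (nat_lit 5) (nat_lit 302) (nat_lit 5) (nat_lit 378) (nat_lit 336) (nat_lit 306)) (XT.lf (nat_lit 0) (nat_lit 2609613142) (nat_lit 684) (nat_lit 2924178390) (nat_lit 760) (nat_lit 2924902705) (nat_lit 292) (nat_lit 5) (nat_lit 301) (nat_lit 5) (nat_lit 302) (nat_lit 5) (nat_lit 379) (nat_lit 336) (nat_lit 305))))) (XT.nd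 (nat_lit 234) (nat_lit 1824) (nat_lit 0) (XT.nd (nat_lit 78) (nat_lit 1292) (nat_lit 0) (XT.lf (nat_lit 0) (nat_lit 1301573769) (nat_lit 760) (nat_lit 5721241921) (nat_lit 76) (nat_lit 1548774222) (nat_lit 282) (nat_lit 5) (nat_lit 292) (nat_lit 5) (nat_lit 283) (nat_lit 5) (nat_lit 380) (nat_lit 336) (nat_lit 304)) (XT.nd (nat_lit 78) (nat_lit 684) (nat_lit 0) (XT.lf (nat_lit 0) (nat_lit 3090325096) (nat_lit 608) (nat_lit 2512254329) (nat_lit 684) (nat_lit 3085174755) (nat_lit 274) (nat_lit 5) (nat_lit 282) (nat_lit 5) (nat_lit 283) (nat_lit 5) (nat_lit 381) (nat_lit 336) (nat_lit 303)) (XT.lf (nat_lit 0) (nat_lit 1193211522) (nat_lit 684) (nat_lit 5462181718) (nat_lit 76) (nat_lit 2152186661) (nat_lit 265) (nat_lit 5) (nat_lit 274) (nat_lit 5) (nat_lit 266) (nat_lit 5) (nat_lit 382) (nat_lit 336) (nat_lit 302)))) (XT.nd (nat_lit 78) (nat_lit 1216) (nat_lit 0) (XT.lf (nat_lit 0) (nat_lit 3598664890)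 (nat_lit 608) (nat_lit 1948794879) (nat_lit 684) (nat_lit 3383360748) (nat_lit 257) (nat_lit 5) (nat_lit 265) (nat_lit 5) (nat_lit 266) (nat_lit 5) (nat_lit 383) (nat_lit 336) (nat_lit 301)) (XT.nd (nat_lit 78) (nat_lit 532) (nat_lit 0) (XT.lf (nat_lit 0) (nat_lit 955478610) (nat_lit 684) (nat_lit 5196939705) (nat_lit 76) (nat_lit 2905355521) (nat_lit 248) (nat_lit 5) (nat_lit 257) (nat_lit 5) (nat_lit 249) (nat_lit 5) (nat_lit 384) (nat_lit 336) (nat_lit 300)) (XT.lf (nat_lit 0) (nat_lit 4120114094) (nat_lit 532) (nat_lit 1248609786) (nat_lit 608) (nat_lit 3819575694) (nat_lit 241) (nat_lit 5) (nat_lit 248) (nat_lit 5) (nat_lit 249) (nat_lit 5) (nat_lit 385) (nat_lit 336) (nat_lit 299)))))) (XT.nd (nat_lit 390) (nat_lit 2888) (nat_lit 0) (XT.nd (nat_lit 156) (nat_lit 1596) (nat_lit 0) (XT.nd (nat_lit 78) (nat_lit 532) (nat_lit 0) (XT.lf (nat_lit 0) (nat_lit 587899207) (nat_lit 684) (nat_lit 4940675367)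 (nat_lit 76) (nat_lit 3794023537) (nat_lit 232) (nat_lit 5) (nat_lit 241) (nat_lit 5) (nat_lit 233) (nat_lit 5) (nat_lit 386) (nat_lit 336) (nat_lit 298)) (XT.lf (nat_lit 0) (nat_lit 4639588324) (nat_lit 532) (nat_lit 426048086) (nat_lit 608) (nat_lit 4394999713) (nat_lit 225) (nat_lit 5) (nat_lit 232) (nat_lit 5) (nat_lit 233) (nat_lit 5) (nat_lit 387) (nat_lit 336) (nat_lit 297))) (XT.nd (nat_lit 78) (nat_lit 988) (nat_lit 0) (XT.lf (nat_lit 0) (nat_lit 88948552) (nat_lit 608) (nat_lit 4709225708) (nat_lit 76) (nat_lit 4804343895) (nat_lit 217) (nat_lit 5) (nat_lit 225) (nat_lit 5) (nat_lit 218) (nat_lit 5) (nat_lit 388) (nat_lit 336) (nat_lit 296)) (XT.nd (nat_lit 78) (nat_lit 532) (nat_lit 0) (XT.lf (nat_lit 0) (nat_lit 4639688915) (nat_lit 532) (nat_lit 4610306884) (nat_lit 76) (nat_lit 498253160) (nat_lit 211) (nat_lit 5) (nat_lit 218) (nat_lit 5) (nat_lit 212) (nat_lit 5) (nat_lit 389) (nat_lit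 336) (nat_lit 295)) (XT.lf (nat_lit 0) (nat_lit 5375127202) (nat_lit 532) (nat_lit 3971635119) (nat_lit 608) (nat_lit 551205790) (nat_lit 204) (nat_lit 5) (nat_lit 211) (nat_lit 5) (nat_lit 212) (nat_lit 5) (nat_lit 390) (nat_lit 336) (nat_lit 294))))) (XT.nd (nat_lit 234) (nat_lit 1368) (nat_lit 0) (XT.nd (nat_lit 78) (nat_lit 988) (nat_lit 0) (XT.lf (nat_lit 0) (nat_lit 4088112833) (nat_lit 532) (nat_lit 4453270660) (nat_lit 76) (nat_lit 1510277849) (nat_lit 197) (nat_lit 5) (nat_lit 204) (nat_lit 5) (nat_lit 198) (nat_lit 5) (nat_lit 391) (nat_lit 336) (nat_lit 293)) (XT.nd (nat_lit 78) (nat_lit 532) (nat_lit 0) (XT.lf (nat_lit 0) (nat_lit 5812431044) (nat_lit 456) (nat_lit 3065039178) (nat_lit 532) (nat_lit 1332066999) (nat_lit 191) (nat_lit 5) (nat_lit 197) (nat_lit 5) (nat_lit 198) (nat_lit 5) (nat_lit 392) (nat_lit 336) (nat_lit 292)) (XT.lf (nat_lit 0) (nat_lit 3404055586) (nat_lit 532) (nat_lit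 4365382545) (nat_lit 76) (nat_lit 2602060057) (nat_lit 184) (nat_lit 5) (nat_lit 191) (nat_lit 5) (nat_lit 185) (nat_lit 5) (nat_lit 393) (nat_lit 336) (nat_lit 291)))) (XT.nd (nat_lit 78) (nat_lit 912) (nat_lit 0) (XT.lf (nat_lit 0) (nat_lit 6187505578) (nat_lit 456) (nat_lit 2092918458) (nat_lit 532) (nat_lit 2257403449) (nat_lit 178) (nat_lit 5) (nat_lit 184) (nat_lit 5) (nat_lit 185) (nat_lit 5) (nat_lit 394) (nat_lit 336) (nat_lit 290)) (XT.nd (nat_lit 78) (nat_lit 456) (nat_lit 0) (XT.lf (nat_lit 0) (nat_lit 2582251805) (nat_lit 456) (nat_lit 4366130846) (nat_lit 76) (nat_lit 3759990754) (nat_lit 172) (nat_lit 5) (nat_lit 178) (nat_lit 5) (nat_lit 173) (nat_lit 5) (nat_lit 395) (nat_lit 336) (nat_lit 289)) (XT.lf (nat_lit 0) (nat_lit 6480719676) (nat_lit 456) (nat_lit 1069349611) (nat_lit 532) (nat_lit 3333405129) (nat_lit 166) (nat_lit 5) (nat_lit 172) (nat_lit 5) (nat_lit 173) (nat_lit 5) (nat_lit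 396) (nat_lit 336) (nat_lit 288))))))) (XT.nd (nat_lit 858) (nat_lit 3040) (nat_lit 0) (XT.nd (nat_lit 390) (nat_lit 2204) (nat_lit 0) (XT.nd (nat_lit 156) (nat_lit 1216) (nat_lit 0) (XT.nd (nat_lit 78) (nat_lit 380) (nat_lit 0) (XT.lf (nat_lit 0) (nat_lit 1616193922) (nat_lit 456) (nat_lit 4476482252) (nat_lit 76) (nat_lit 4970271091) (nat_lit 160) (nat_lit 5) (nat_lit 166) (nat_lit 5) (nat_lit 161) (nat_lit 5) (nat_lit 397) (nat_lit 336) (nat_lit 287)) (XT.lf (nat_lit 0) (nat_lit 6670900279) (nat_lit 380) (nat_lit 8689339) (nat_lit 456) (nat_lit 4567571294) (nat_lit 155) (nat_lit 5) (nat_lit 160) (nat_lit 5) (nat_lit 161) (nat_lit 5) (nat_lit 398) (nat_lit 336) (nat_lit 286))) (XT.nd (nat_lit 78) (nat_lit 760) (nat_lit 0) (XT.lf (nat_lit 0) (nat_lit 498057913) (nat_lit 456) (nat_lit 4719097812) (nat_lit 76) (nat_lit 6218772981) (nat_lit 149) (nat_lit 5) (nat_lit 155) (nat_lit 5) (nat_lit 150) (nat_lit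 5) (nat_lit 399) (nat_lit 336) (nat_lit 285)) (XT.nd (nat_lit 78) (nat_lit 380) (nat_lit 0) (XT.lf (nat_lit 0) (nat_lit 5667802819) (nat_lit 456) (nat_lit 4901485432) (nat_lit 76) (nat_lit 1060191924) (nat_lit 144) (nat_lit 5) (nat_lit 150) (nat_lit 5) (nat_lit 145) (nat_lit 5) (nat_lit 400) (nat_lit 336) (nat_lit 284)) (XT.lf (nat_lit 0) (nat_lit 6704267150) (nat_lit 380) (nat_lit 4331941002) (nat_lit 456) (nat_lit 791766947) (nat_lit 139) (nat_lit 5) (nat_lit 144) (nat_lit 5) (nat_lit 145) (nat_lit 5) (nat_lit 401) (nat_lit 336) (nat_lit 283))))) (XT.nd (nat_lit 234) (nat_lit 988) (nat_lit 0) (XT.nd (nat_lit 78) (nat_lit 760) (nat_lit 0) (XT.lf (nat_lit 0) (nat_lit 4498246452) (nat_lit 456) (nat_lit 5397286726) (nat_lit 76) (nat_lit 2135821711) (nat_lit 133) (nat_lit 5) (nat_lit 139) (nat_lit 5) (nat_lit 134) (nat_lit 5) (nat_lit 402) (nat_lit 336) (nat_lit 282)) (XT.nd (nat_lit 78) (nat_lit 456)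 (nat_lit 0) (XT.lf (nat_lit 0) (nat_lit 6523561535) (nat_lit 304) (nat_lit 3453824291) (nat_lit 380) (nat_lit 2262529564) (nat_lit 129) (nat_lit 5) (nat_lit 133) (nat_lit 5) (nat_lit 134) (nat_lit 5) (nat_lit 403) (nat_lit 336) (nat_lit 281)) (XT.lf (nat_lit 0) (nat_lit 3159634407) (nat_lit 456) (nat_lit 6091561668) (nat_lit 76) (nat_lit 3202432920) (nat_lit 123) (nat_lit 5) (nat_lit 129) (nat_lit 5) (nat_lit 124) (nat_lit 5) (nat_lit 404) (nat_lit 336) (nat_lit 280)))) (XT.nd (nat_lit 78) (nat_lit 684) (nat_lit 0) (XT.lf (nat_lit 0) (nat_lit 6149610072) (nat_lit 304) (nat_lit 2602958112) (nat_lit 380) (nat_lit 3920116905) (nat_lit 119) (nat_lit 5) (nat_lit 123) (nat_lit 5) (nat_lit 124) (nat_lit 5) (nat_lit 405) (nat_lit 336) (nat_lit 279)) (XT.nd (nat_lit 78) (nat_lit 304) (nat_lit 0) (XT.lf (nat_lit 0) (nat_lit 1639076476) (nat_lit 380) (nat_lit 7014876468) (nat_lit 76) (nat_lit 4243251333) (nat_lit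 114) (nat_lit 5) (nat_lit 119) (nat_lit 5) (nat_lit 115) (nat_lit 5) (nat_lit 406) (nat_lit 336) (nat_lit 278)) (XT.lf (nat_lit 0) (nat_lit 5551250369) (nat_lit 304) (nat_lit 1797164898) (nat_lit 380) (nat_lit 5778799488) (nat_lit 110) (nat_lit 5) (nat_lit 114) (nat_lit 5) (nat_lit 115) (nat_lit 5) (nat_lit 407) (nat_lit 336) (nat_lit 277)))))) (XT.nd (nat_lit 390) (nat_lit 1444) (nat_lit 0) (XT.nd (nat_lit 156) (nat_lit 912) (nat_lit 0) (XT.nd (nat_lit 78) (nat_lit 380) (nat_lit 0) (XT.lf (nat_lit 0) (nat_lit 5161793514) (nat_lit 304) (nat_lit 8122090111) (nat_lit 380) (nat_lit 79151273) (nat_lit 106) (nat_lit 5) (nat_lit 110) (nat_lit 5) (nat_lit 111) (nat_lit 5) (nat_lit 408) (nat_lit 336) (nat_lit 276)) (XT.lf (nat_lit 0) (nat_lit 4694274403) (nat_lit 304) (nat_lit 1055466878) (nat_lit 380) (nat_lit 7854758127) (nat_lit 101) (nat_lit 5) (nat_lit 105) (nat_lit 5) (nat_lit 106) (nat_lit 5) (nat_lit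 409) (nat_lit 336) (nat_lit 275))) (XT.nd (nat_lit 78) (nat_lit 608) (nat_lit 0) (XT.lf (nat_lit 0) (nat_lit 4152815352) (nat_lit 304) (nat_lit 7663842333) (nat_lit 380) (nat_lit 2035260912) (nat_lit 97) (nat_lit 5) (nat_lit 101) (nat_lit 5) (nat_lit 102) (nat_lit 5) (nat_lit 410) (nat_lit 336) (nat_lit 274)) (XT.nd (nat_lit 78) (nat_lit 304) (nat_lit 0) (XT.lf (nat_lit 0) (nat_lit 3541067457) (nat_lit 228) (nat_lit 398287812) (nat_lit 304) (nat_lit 10166247508) (nat_lit 93) (nat_lit 5) (nat_lit 96) (nat_lit 5) (nat_lit 97) (nat_lit 5) (nat_lit 411) (nat_lit 336) (nat_lit 273)) (XT.lf (nat_lit 0) (nat_lit 2826935408) (nat_lit 304) (nat_lit 7311764792) (nat_lit 380) (nat_lit 4226470802) (nat_lit 89) (nat_lit 5) (nat_lit 93) (nat_lit 5) (nat_lit 94) (nat_lit 5) (nat_lit 412) (nat_lit 336) (nat_lit 272))))) (XT.nd (nat_lit 234) (nat_lit 608) (nat_lit 0) (XT.nd (nat_lit 78) (nat_lit 532) (nat_lit 0) (XT.lf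 (nat_lit 0) (nat_lit 1898871680) (nat_lit 304) (nat_lit 12582439082) (nat_lit 76) (nat_lit 150331449) (nat_lit 85) (nat_lit 5) (nat_lit 89) (nat_lit 5) (nat_lit 86) (nat_lit 5) (nat_lit 413) (nat_lit 336) (nat_lit 271)) (XT.nd (nat_lit 78) (nat_lit 228) (nat_lit 0) (XT.lf (nat_lit 0) (nat_lit 1140679354) (nat_lit 304) (nat_lit 7089167423) (nat_lit 380) (nat_lit 6674121172) (nat_lit 81) (nat_lit 5) (nat_lit 85) (nat_lit 5) (nat_lit 86) (nat_lit 5) (nat_lit 414) (nat_lit 336) (nat_lit 270)) (XT.lf (nat_lit 0) (nat_lit 169625528) (nat_lit 228) (nat_lit 14616205028) (nat_lit 304) (nat_lit 397936169) (nat_lit 78) (nat_lit 5) (nat_lit 81) (nat_lit 5) (nat_lit 82) (nat_lit 5) (nat_lit 415) (nat_lit 336) (nat_lit 269)))) (XT.nd (nat_lit 78) (nat_lit 532) (nat_lit 0) (XT.lf (nat_lit 0) (nat_lit 6073652762) (nat_lit 304) (nat_lit 941390057) (nat_lit 76) (nat_lit 8454399867) (nat_lit 77) (nat_lit 5) (nat_lit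 81) (nat_lit 5) (nat_lit 78) (nat_lit 5) (nat_lit 416) (nat_lit 336) (nat_lit 268)) (XT.nd (nat_lit 78) (nat_lit 304) (nat_lit 0) (XT.lf (nat_lit 0) (nat_lit 12775203098) (nat_lit 304) (nat_lit 2128909612) (nat_lit 76) (nat_lit 858703693) (nat_lit 74) (nat_lit 5) (nat_lit 78) (nat_lit 5) (nat_lit 75) (nat_lit 5) (nat_lit 417) (nat_lit 336) (nat_lit 267)) (XT.lf (nat_lit 0) (nat_lit 3648979897) (nat_lit 304) (nat_lit 3463696864) (nat_lit 76) (nat_lit 8950178629) (nat_lit 70) (nat_lit 5) (nat_lit 74) (nat_lit 5) (nat_lit 71) (nat_lit 5) (nat_lit 418) (nat_lit 336) (nat_lit 266))))))))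
noncomputable def xc38 : XT := (XT.nd (nat_lit 48438) (nat_lit 0) (nat_lit 18620) (XT.nd (nat_lit 47580) (nat_lit 0) (nat_lit 42332) (XT.nd (nat_lit 390) (nat_lit 608) (nat_lit 0) (XT.nd (nat_lit 156) (nat_lit 684) (nat_lit 0) (XT.nd (nat_lit 78) (nat_lit 304) (nat_lit 0) (XT.lf (nat_lit 0) (nat_lit 10488020161) (nat_lit 304) (nat_lit 4908910094) (nat_lit 76) (nat_lit 973695689) (nat_lit 67) (nat_lit 5) (nat_lit 71) (nat_lit 5) (nat_lit 68) (nat_lit 5) (nat_lit 419) (nat_lit 336) (nat_lit 265)) (XT.lf (nat_lit 0) (nat_lit 920487960) (nat_lit 304) (nat_lit 6498885025) (nat_lit 76) (nat_lit 9266411643) (nat_lit 63) (nat_lit 5) (nat_lit 67) (nat_lit 5) (nat_lit 64) (nat_lit 5) (nat_lit 420) (nat_lit 336) (nat_lit 264))) (XT.nd (nat_lit 78) (nat_lit 456) (nat_lit 0) (XT.lf (nat_lit 0) (nat_lit 7894115722) (nat_lit 304) (nat_lit 8233231177) (nat_lit 76) (nat_lit 881350070) (nat_lit 60) (nat_lit 5) (nat_lit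 64) (nat_lit 5) (nat_lit 61) (nat_lit 5) (nat_lit 421) (nat_lit 336) (nat_lit 263)) (XT.nd (nat_lit 78) (nat_lit 304) (nat_lit 0) (XT.lf (nat_lit 0) (nat_lit 7214687294) (nat_lit 152) (nat_lit 7953338037) (nat_lit 228) (nat_lit 2171453609) (nat_lit 58) (nat_lit 5) (nat_lit 60) (nat_lit 5) (nat_lit 61) (nat_lit 5) (nat_lit 422) (nat_lit 336) (nat_lit 262)) (XT.lf (nat_lit 0) (nat_lit 4961073078) (nat_lit 304) (nat_lit 12168882260) (nat_lit 76) (nat_lit 548657540) (nat_lit 54) (nat_lit 5) (nat_lit 58) (nat_lit 5) (nat_lit 55) (nat_lit 5) (nat_lit 423) (nat_lit 336) (nat_lit 261))))) (XT.nd (nat_lit 234) (nat_lit 152) (nat_lit 0) (XT.nd (nat_lit 78) (nat_lit 304) (nat_lit 0) (XT.lf (nat_lit 0) (nat_lit 3619428392) (nat_lit 152) (nat_lit 8756063756) (nat_lit 228) (nat_lit 5650196696) (nat_lit 52) (nat_lit 5) (nat_lit 54) (nat_lit 5) (nat_lit 55) (nat_lit 5) (nat_lit 424) (nat_lit 336) (nat_lit 260)) (XT.nd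 (nat_lit 78) (nat_lit 0) (nat_lit 0) (XT.lf (nat_lit 0) (nat_lit 1591716489) (nat_lit 228) (nat_lit 61473388) (nat_lit 304) (nat_lit 16728871131) (nat_lit 48) (nat_lit 5) (nat_lit 51) (nat_lit 5) (nat_lit 52) (nat_lit 5) (nat_lit 425) (nat_lit 336) (nat_lit 259)) (XT.lf (nat_lit 0) (nat_lit 9208037526) (nat_lit 304) (nat_lit 660327772) (nat_lit 76) (nat_lit 8877832792) (nat_lit 48) (nat_lit 5) (nat_lit 52) (nat_lit 5) (nat_lit 49) (nat_lit 5) (nat_lit 426) (nat_lit 336) (nat_lit 258)))) (XT.nd (nat_lit 46800) (nat_lit 0) (nat_lit 50844) (XT.lf (nat_lit 0) (nat_lit 16082740935) (nat_lit 152) (nat_lit 965671656) (nat_lit 228) (nat_lit 2071672136) (nat_lit 46) (nat_lit 5) (nat_lit 48) (nat_lit 5) (nat_lit 49) (nat_lit 5) (nat_lit 427) (nat_lit 336) (nat_lit 257)) (XT.nd (nat_lit 78) (nat_lit 456) (nat_lit 0) (XT.lf (nat_lit 0) (nat_lit 1088797785) (nat_lit 380) (nat_lit 1062787382) (nat_lit 0) (nat_lit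 1088797785) (nat_lit 721) (nat_lit 5) (nat_lit 726) (nat_lit 4) (nat_lit 721) (nat_lit 4) (nat_lit 346) (nat_lit 337) (nat_lit 337)) (XT.lf (nat_lit 0) (nat_lit 405253950) (nat_lit 456) (nat_lit 3221056499) (nat_lit 76) (nat_lit 2868814596) (nat_lit 715) (nat_lit 5) (nat_lit 721) (nat_lit 5) (nat_lit 716) (nat_lit 4) (nat_lit 347) (nat_lit 337) (nat_lit 336)))))) (XT.nd (nat_lit 390) (nat_lit 6004) (nat_lit 0) (XT.nd (nat_lit 156) (nat_lit 1444) (nat_lit 0) (XT.nd (nat_lit 78) (nat_lit 608) (nat_lit 0) (XT.lf (nat_lit 0) (nat_lit 2247237060) (nat_lit 456) (nat_lit 2806681624) (nat_lit 532) (nat_lit 1458345352) (nat_lit 709) (nat_lit 5) (nat_lit 715) (nat_lit 5) (nat_lit 716) (nat_lit 4) (nat_lit 348) (nat_lit 337) (nat_lit 335)) (XT.lf (nat_lit 0) (nat_lit 1280251419) (nat_lit 532) (nat_lit 1849888650) (nat_lit 608) (nat_lit 3402181722) (nat_lit 701) (nat_lit 5) (nat_lit 708) (nat_lit 5) (nat_lit 709)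 (nat_lit 5) (nat_lit 349) (nat_lit 337) (nat_lit 334))) (XT.nd (nat_lit 78) (nat_lit 760) (nat_lit 0) (XT.lf (nat_lit 0) (nat_lit 374995540) (nat_lit 608) (nat_lit 757662356) (nat_lit 684) (nat_lit 5422708274) (nat_lit 692) (nat_lit 5) (nat_lit 700) (nat_lit 5) (nat_lit 701) (nat_lit 5) (nat_lit 350) (nat_lit 337) (nat_lit 333)) (XT.nd (nat_lit 78) (nat_lit 760) (nat_lit 0) (XT.lf (nat_lit 0) (nat_lit 5634510684) (nat_lit 684) (nat_lit 472434670) (nat_lit 76) (nat_lit 474221863) (nat_lit 692) (nat_lit 5) (nat_lit 701) (nat_lit 5) (nat_lit 693) (nat_lit 5) (nat_lit 351) (nat_lit 337) (nat_lit 332)) (XT.lf (nat_lit 0) (nat_lit 3498104144) (nat_lit 760) (nat_lit 1269317984) (nat_lit 76) (nat_lit 1842250956) (nat_lit 682) (nat_lit 5) (nat_lit 692) (nat_lit 5) (nat_lit 683) (nat_lit 5) (nat_lit 352) (nat_lit 337) (nat_lit 331))))) (XT.nd (nat_lit 234) (nat_lit 3344) (nat_lit 0) (XT.nd (nat_lit 78) (nat_lit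 1824) (nat_lit 0) (XT.lf (nat_lit 0) (nat_lit 1284550758) (nat_lit 836) (nat_lit 2008814303) (nat_lit 76) (nat_lit 3347836417) (nat_lit 671) (nat_lit 5) (nat_lit 682) (nat_lit 5) (nat_lit 672) (nat_lit 5) (nat_lit 353) (nat_lit 337) (nat_lit 330)) (XT.nd (nat_lit 78) (nat_lit 988) (nat_lit 0) (XT.lf (nat_lit 0) (nat_lit 3977482386) (nat_lit 836) (nat_lit 1676479263) (nat_lit 912) (nat_lit 1021680912) (nat_lit 660) (nat_lit 5) (nat_lit 671) (nat_lit 5) (nat_lit 672) (nat_lit 5) (nat_lit 354) (nat_lit 337) (nat_lit 329)) (XT.lf (nat_lit 0) (nat_lit 3285981958) (nat_lit 988) (nat_lit 3340820952) (nat_lit 76) (nat_lit 86160080) (nat_lit 647) (nat_lit 5) (nat_lit 660) (nat_lit 5) (nat_lit 648) (nat_lit 5) (nat_lit 355) (nat_lit 337) (nat_lit 328)))) (XT.nd (nat_lit 78) (nat_lit 2280) (nat_lit 0) (XT.lf (nat_lit 0) (nat_lit 847979499) (nat_lit 1064) (nat_lit 3940075487) (nat_lit 76) (nat_lit 1965079280)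 (nat_lit 633) (nat_lit 5) (nat_lit 647) (nat_lit 5) (nat_lit 634) (nat_lit 5) (nat_lit 356) (nat_lit 337) (nat_lit 327)) (XT.nd (nat_lit 78) (nat_lit 1216) (nat_lit 0) (XT.lf (nat_lit 0) (nat_lit 2299676992) (nat_lit 1064) (nat_lit 2800964742) (nat_lit 1140) (nat_lit 1695541235) (nat_lit 619) (nat_lit 5) (nat_lit 633) (nat_lit 5) (nat_lit 634) (nat_lit 5) (nat_lit 357) (nat_lit 337) (nat_lit 326)) (XT.lf (nat_lit 0) (nat_lit 1836587669) (nat_lit 1140) (nat_lit 668439130) (nat_lit 1216) (nat_lit 4337210960) (nat_lit 603) (nat_lit 5) (nat_lit 618) (nat_lit 5) (nat_lit 619) (nat_lit 5) (nat_lit 358) (nat_lit 337) (nat_lit 325))))))) (XT.nd (nat_lit 858) (nat_lit 9044) (nat_lit 0) (XT.nd (nat_lit 390) (nat_lit 7600) (nat_lit 0) (XT.nd (nat_lit 156) (nat_lit 4484) (nat_lit 0) (XT.nd (nat_lit 78) (nat_lit 1368) (nat_lit 0) (XT.lf (nat_lit 0) (nat_lit 1417395791) (nat_lit 1216) (nat_lit 5305134092) (nat_lit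 1292) (nat_lit 168683206) (nat_lit 587) (nat_lit 5) (nat_lit 603) (nat_lit 5) (nat_lit 604) (nat_lit 5) (nat_lit 359) (nat_lit 337) (nat_lit 324)) (XT.lf (nat_lit 0) (nat_lit 1030824063) (nat_lit 1292) (nat_lit 2951638360) (nat_lit 1368) (nat_lit 2960466497) (nat_lit 569) (nat_lit 5) (nat_lit 586) (nat_lit 5) (nat_lit 587) (nat_lit 5) (nat_lit 360) (nat_lit 337) (nat_lit 323))) (XT.nd (nat_lit 78) (nat_lit 3040) (nat_lit 0) (XT.lf (nat_lit 0) (nat_lit 697824251) (nat_lit 1368) (nat_lit 455834889) (nat_lit 1444) (nat_lit 5844179308) (nat_lit 550) (nat_lit 5) (nat_lit 568) (nat_lit 5) (nat_lit 569) (nat_lit 5) (nat_lit 361) (nat_lit 337) (nat_lit 322)) (XT.nd (nat_lit 78) (nat_lit 1596) (nat_lit 0) (XT.lf (nat_lit 0) (nat_lit 391964168) (nat_lit 1444) (nat_lit 4887714993) (nat_lit 1520) (nat_lit 1775787942) (nat_lit 531) (nat_lit 5) (nat_lit 550) (nat_lit 5) (nat_lit 551) (nat_lit 5) (nat_lit 362) (nat_lit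 337) (nat_lit 321)) (XT.lf (nat_lit 0) (nat_lit 126977887) (nat_lit 1520) (nat_lit 2176861886) (nat_lit 1596) (nat_lit 4812289494) (nat_lit 510) (nat_lit 5) (nat_lit 530) (nat_lit 5) (nat_lit 531) (nat_lit 5) (nat_lit 363) (nat_lit 337) (nat_lit 320))))) (XT.nd (nat_lit 234) (nat_lit 4180) (nat_lit 0) (XT.nd (nat_lit 78) (nat_lit 3420) (nat_lit 0) (XT.lf (nat_lit 0) (nat_lit 6408352347) (nat_lit 1596) (nat_lit 94885979) (nat_lit 76) (nat_lit 676640008) (nat_lit 510) (nat_lit 5) (nat_lit 531) (nat_lit 5) (nat_lit 511) (nat_lit 5) (nat_lit 364) (nat_lit 337) (nat_lit 319)) (XT.nd (nat_lit 78) (nat_lit 1748) (nat_lit 0) (XT.lf (nat_lit 0) (nat_lit 3286015685) (nat_lit 1672) (nat_lit 295370334) (nat_lit 76) (nat_lit 3664945744) (nat_lit 488) (nat_lit 5) (nat_lit 510) (nat_lit 5) (nat_lit 489) (nat_lit 5) (nat_lit 365) (nat_lit 337) (nat_lit 318)) (XT.lf (nat_lit 0) (nat_lit 65676069) (nat_lit 1748) (nat_lit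 446826778) (nat_lit 76) (nat_lit 6803638996) (nat_lit 465) (nat_lit 5) (nat_lit 488) (nat_lit 5) (nat_lit 466) (nat_lit 5) (nat_lit 366) (nat_lit 337) (nat_lit 317)))) (XT.nd (nat_lit 78) (nat_lit 2432) (nat_lit 0) (XT.lf (nat_lit 0) (nat_lit 4107463529) (nat_lit 1824) (nat_lit 588420797) (nat_lit 76) (nat_lit 2692692046) (nat_lit 442) (nat_lit 5) (nat_lit 466) (nat_lit 5) (nat_lit 443) (nat_lit 5) (nat_lit 367) (nat_lit 337) (nat_lit 316)) (XT.nd (nat_lit 78) (nat_lit 912) (nat_lit 0) (XT.lf (nat_lit 0) (nat_lit 734015888) (nat_lit 1520) (nat_lit 686452558) (nat_lit 76) (nat_lit 6043893657) (nat_lit 422) (nat_lit 5) (nat_lit 442) (nat_lit 5) (nat_lit 423) (nat_lit 5) (nat_lit 368) (nat_lit 337) (nat_lit 315)) (XT.lf (nat_lit 0) (nat_lit 4775547561) (nat_lit 988) (nat_lit 768349550) (nat_lit 76) (nat_lit 1999107830) (nat_lit 410) (nat_lit 5) (nat_lit 423) (nat_lit 5) (nat_lit 411) (nat_lit 5) (nat_lit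 369) (nat_lit 337) (nat_lit 314)))))) (XT.nd (nat_lit 390) (nat_lit 4560) (nat_lit 0) (XT.nd (nat_lit 156) (nat_lit 2584) (nat_lit 0) (XT.nd (nat_lit 78) (nat_lit 912) (nat_lit 0) (XT.lf (nat_lit 0) (nat_lit 1246715012) (nat_lit 988) (nat_lit 818657491) (nat_lit 76) (nat_lit 5559497694) (nat_lit 397) (nat_lit 5) (nat_lit 410) (nat_lit 5) (nat_lit 398) (nat_lit 5) (nat_lit 370) (nat_lit 337) (nat_lit 313)) (XT.lf (nat_lit 0) (nat_lit 5297355772) (nat_lit 988) (nat_lit 849251296) (nat_lit 76) (nat_lit 1563171361) (nat_lit 385) (nat_lit 5) (nat_lit 398) (nat_lit 5) (nat_lit 386) (nat_lit 5) (nat_lit 371) (nat_lit 337) (nat_lit 312))) (XT.nd (nat_lit 78) (nat_lit 1672) (nat_lit 0) (XT.lf (nat_lit 0) (nat_lit 1610260874) (nat_lit 912) (nat_lit 857460159) (nat_lit 76) (nat_lit 5330121979) (nat_lit 373) (nat_lit 5) (nat_lit 385) (nat_lit 5) (nat_lit 374) (nat_lit 5) (nat_lit 372) (nat_lit 337) (nat_lit 311))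 (XT.nd (nat_lit 78) (nat_lit 836) (nat_lit 0) (XT.lf (nat_lit 0) (nat_lit 5678912480) (nat_lit 912) (nat_lit 844921795) (nat_lit 76) (nat_lit 1365258842) (nat_lit 362) (nat_lit 5) (nat_lit 374) (nat_lit 5) (nat_lit 363) (nat_lit 5) (nat_lit 373) (nat_lit 337) (nat_lit 310)) (XT.lf (nat_lit 0) (nat_lit 1830078012) (nat_lit 836) (nat_lit 816630976) (nat_lit 76) (nat_lit 5336783837) (nat_lit 351) (nat_lit 5) (nat_lit 362) (nat_lit 5) (nat_lit 352) (nat_lit 5) (nat_lit 374) (nat_lit 337) (nat_lit 309))))) (XT.nd (nat_lit 234) (nat_lit 2204) (nat_lit 0) (XT.nd (nat_lit 78) (nat_lit 1596) (nat_lit 0) (XT.lf (nat_lit 0) (nat_lit 5925207741) (nat_lit 836) (nat_lit 768975314) (nat_lit 76) (nat_lit 1386997426) (nat_lit 341) (nat_lit 5) (nat_lit 352) (nat_lit 5) (nat_lit 342) (nat_lit 5) (nat_lit 375) (nat_lit 337) (nat_lit 308)) (XT.nd (nat_lit 78) (nat_lit 760) (nat_lit 0) (XT.lf (nat_lit 0) (nat_lit 1910554034)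 (nat_lit 836) (nat_lit 709810764) (nat_lit 76) (nat_lit 5561702472) (nat_lit 330) (nat_lit 5) (nat_lit 341) (nat_lit 5) (nat_lit 331) (nat_lit 5) (nat_lit 376) (nat_lit 337) (nat_lit 307)) (XT.lf (nat_lit 0) (nat_lit 6040219243) (nat_lit 836) (nat_lit 634963442) (nat_lit 76) (nat_lit 1611124577) (nat_lit 320) (nat_lit 5) (nat_lit 331) (nat_lit 5) (nat_lit 321) (nat_lit 5) (nat_lit 377) (nat_lit 337) (nat_lit 306)))) (XT.nd (nat_lit 78) (nat_lit 1444) (nat_lit 0) (XT.lf (nat_lit 0) (nat_lit 1855058026) (nat_lit 760) (nat_lit 550631114) (nat_lit 76) (nat_lit 5988160333) (nat_lit 310) (nat_lit 5) (nat_lit 320) (nat_lit 5) (nat_lit 311) (nat_lit 5) (nat_lit 378) (nat_lit 337) (nat_lit 305)) (XT.nd (nat_lit 78) (nat_lit 760) (nat_lit 0) (XT.lf (nat_lit 0) (nat_lit 6026926714) (nat_lit 760) (nat_lit 456496228) (nat_lit 76) (nat_lit 2021352757) (nat_lit 301) (nat_lit 5) (nat_lit 311) (nat_lit 5) (nat_lit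 302) (nat_lit 5) (nat_lit 379) (nat_lit 337) (nat_lit 304)) (XT.lf (nat_lit 0) (nat_lit 1665951420) (nat_lit 760) (nat_lit 352837546) (nat_lit 76) (nat_lit 6600369409) (nat_lit 291) (nat_lit 5) (nat_lit 301) (nat_lit 5) (nat_lit 292) (nat_lit 5) (nat_lit 380) (nat_lit 337) (nat_lit 303))))))))
noncomputable def xc39 : XT := (XT.nd (nat_lit 1716) (nat_lit 6384) (nat_lit 0) (XT.nd (nat_lit 858) (nat_lit 4484) (nat_lit 0) (XT.nd (nat_lit 390) (nat_lit 3344) (nat_lit 0) (XT.nd (nat_lit 156) (nat_lit 2432) (nat_lit 0) (XT.nd (nat_lit 78) (nat_lit 684) (nat_lit 0) (XT.lf (nat_lit 0) (nat_lit 5887318803) (nat_lit 760) (nat_lit 247366677) (nat_lit 76) (nat_lit 2602238468) (nat_lit 282) (nat_lit 5) (nat_lit 292) (nat_lit 5) (nat_lit 283) (nat_lit 5) (nat_lit 381) (nat_lit 337) (nat_lit 302)) (XT.lf (nat_lit 0) (nat_lit 1344591230) (nat_lit 684) (nat_lit 130416511) (nat_lit 76) (nat_lit 7383341472) (nat_lit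 273) (nat_lit 5) (nat_lit 282) (nat_lit 5) (nat_lit 274) (nat_lit 5) (nat_lit 382) (nat_lit 337) (nat_lit 301))) (XT.nd (nat_lit 78) (nat_lit 1824) (nat_lit 0) (XT.lf (nat_lit 0) (nat_lit 5622392345) (nat_lit 684) (nat_lit 21679663) (nat_lit 76) (nat_lit 3339054654) (nat_lit 265) (nat_lit 5) (nat_lit 274) (nat_lit 5) (nat_lit 266) (nat_lit 5) (nat_lit 383) (nat_lit 337) (nat_lit 300)) (XT.nd (nat_lit 78) (nat_lit 532) (nat_lit 0) (XT.lf (nat_lit 0) (nat_lit 103631815) (nat_lit 608) (nat_lit 788366608) (nat_lit 684) (nat_lit 8219802327) (nat_lit 248) (nat_lit 5) (nat_lit 256) (nat_lit 5) (nat_lit 257) (nat_lit 5) (nat_lit 384) (nat_lit 337) (nat_lit 299)) (XT.lf (nat_lit 0) (nat_lit 208751423) (nat_lit 532) (nat_lit 5024747794) (nat_lit 608) (nat_lit 4010269454) (nat_lit 241) (nat_lit 5) (nat_lit 248) (nat_lit 5) (nat_lit 249) (nat_lit 5) (nat_lit 385) (nat_lit 337) (nat_lit 298))))) (XT.nd (nat_lit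 234) (nat_lit 1596) (nat_lit 0) (XT.nd (nat_lit 78) (nat_lit 1064) (nat_lit 0) (XT.lf (nat_lit 0) (nat_lit 307830627) (nat_lit 684) (nat_lit 9045365812) (nat_lit 76) (nat_lit 26739987) (nat_lit 232) (nat_lit 5) (nat_lit 241) (nat_lit 5) (nat_lit 233) (nat_lit 5) (nat_lit 386) (nat_lit 337) (nat_lit 297)) (XT.nd (nat_lit 78) (nat_lit 532) (nat_lit 0) (XT.lf (nat_lit 0) (nat_lit 426163631) (nat_lit 532) (nat_lit 4292156394) (nat_lit 608) (nat_lit 4801006107) (nat_lit 225) (nat_lit 5) (nat_lit 232) (nat_lit 5) (nat_lit 233) (nat_lit 5) (nat_lit 387) (nat_lit 337) (nat_lit 296)) (XT.lf (nat_lit 0) (nat_lit 536420035) (nat_lit 532) (nat_lit 8716372138) (nat_lit 608) (nat_lit 410285275) (nat_lit 218) (nat_lit 5) (nat_lit 225) (nat_lit 5) (nat_lit 226) (nat_lit 5) (nat_lit 388) (nat_lit 337) (nat_lit 295)))) (XT.nd (nat_lit 78) (nat_lit 1064) (nat_lit 0) (XT.lf (nat_lit 0) (nat_lit 614182419) (nat_lit 456)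 (nat_lit 3460363445) (nat_lit 532) (nat_lit 5735747696) (nat_lit 211) (nat_lit 5) (nat_lit 217) (nat_lit 5) (nat_lit 218) (nat_lit 5) (nat_lit 389) (nat_lit 337) (nat_lit 294)) (XT.nd (nat_lit 78) (nat_lit 532) (nat_lit 0) (XT.lf (nat_lit 0) (nat_lit 697671876) (nat_lit 532) (nat_lit 7993185931) (nat_lit 608) (nat_lit 1270976180) (nat_lit 204) (nat_lit 5) (nat_lit 211) (nat_lit 5) (nat_lit 212) (nat_lit 5) (nat_lit 390) (nat_lit 337) (nat_lit 293)) (XT.lf (nat_lit 0) (nat_lit 755814169) (nat_lit 456) (nat_lit 2543115463) (nat_lit 532) (nat_lit 6818273860) (nat_lit 197) (nat_lit 5) (nat_lit 203) (nat_lit 5) (nat_lit 204) (nat_lit 5) (nat_lit 391) (nat_lit 337) (nat_lit 292)))))) (XT.nd (nat_lit 390) (nat_lit 2128) (nat_lit 0) (XT.nd (nat_lit 156) (nat_lit 1368) (nat_lit 0) (XT.nd (nat_lit 78) (nat_lit 532) (nat_lit 0) (XT.lf (nat_lit 0) (nat_lit 802912708) (nat_lit 456) (nat_lit 7199585889) (nat_lit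 532) (nat_lit 2274302130) (nat_lit 191) (nat_lit 5) (nat_lit 197) (nat_lit 5) (nat_lit 198) (nat_lit 5) (nat_lit 392) (nat_lit 337) (nat_lit 291)) (XT.lf (nat_lit 0) (nat_lit 832986430) (nat_lit 456) (nat_lit 1554113412) (nat_lit 532) (nat_lit 8053531086) (nat_lit 184) (nat_lit 5) (nat_lit 190) (nat_lit 5) (nat_lit 191) (nat_lit 5) (nat_lit 393) (nat_lit 337) (nat_lit 290))) (XT.nd (nat_lit 78) (nat_lit 912) (nat_lit 0) (XT.lf (nat_lit 0) (nat_lit 833490288) (nat_lit 456) (nat_lit 6349491635) (nat_lit 532) (nat_lit 3425593190) (nat_lit 178) (nat_lit 5) (nat_lit 184) (nat_lit 5) (nat_lit 185) (nat_lit 5) (nat_lit 394) (nat_lit 337) (nat_lit 289)) (XT.nd (nat_lit 78) (nat_lit 456) (nat_lit 0) (XT.lf (nat_lit 0) (nat_lit 826363713) (nat_lit 380) (nat_lit 507143710) (nat_lit 456) (nat_lit 9447687733) (nat_lit 172) (nat_lit 5) (nat_lit 177) (nat_lit 5) (nat_lit 178) (nat_lit 5) (nat_lit 395) (nat_lit 337)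 (nat_lit 288)) (XT.lf (nat_lit 0) (nat_lit 769388384) (nat_lit 456) (nat_lit 5456992839) (nat_lit 532) (nat_lit 4731418587) (nat_lit 166) (nat_lit 5) (nat_lit 172) (nat_lit 5) (nat_lit 173) (nat_lit 5) (nat_lit 396) (nat_lit 337) (nat_lit 287))))) (XT.nd (nat_lit 234) (nat_lit 912) (nat_lit 0) (XT.nd (nat_lit 78) (nat_lit 760) (nat_lit 0) (XT.lf (nat_lit 0) (nat_lit 135152598) (nat_lit 456) (nat_lit 10428203143) (nat_lit 76) (nat_lit 576130258) (nat_lit 160) (nat_lit 5) (nat_lit 166) (nat_lit 5) (nat_lit 161) (nat_lit 5) (nat_lit 397) (nat_lit 337) (nat_lit 286)) (XT.nd (nat_lit 78) (nat_lit 380) (nat_lit 0) (XT.lf (nat_lit 0) (nat_lit 589020652) (nat_lit 380) (nat_lit 4536486679) (nat_lit 456) (nat_lit 6199657542) (nat_lit 155) (nat_lit 5) (nat_lit 160) (nat_lit 5) (nat_lit 161) (nat_lit 5) (nat_lit 398) (nat_lit 337) (nat_lit 285)) (XT.lf (nat_lit 0) (nat_lit 457419697) (nat_lit 380) (nat_lit 9826103432)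 (nat_lit 456) (nat_lit 1232540665) (nat_lit 150) (nat_lit 5) (nat_lit 155) (nat_lit 5) (nat_lit 156) (nat_lit 5) (nat_lit 399) (nat_lit 337) (nat_lit 284)))) (XT.nd (nat_lit 78) (nat_lit 456) (nat_lit 0) (XT.lf (nat_lit 0) (nat_lit 269007332) (nat_lit 380) (nat_lit 3602821190) (nat_lit 456) (nat_lit 7839581681) (nat_lit 144) (nat_lit 5) (nat_lit 149) (nat_lit 5) (nat_lit 150) (nat_lit 5) (nat_lit 400) (nat_lit 337) (nat_lit 283)) (XT.nd (nat_lit 78) (nat_lit 76) (nat_lit 0) (XT.lf (nat_lit 0) (nat_lit 49990156) (nat_lit 380) (nat_lit 9091585173) (nat_lit 456) (nat_lit 2770306923) (nat_lit 139) (nat_lit 5) (nat_lit 144) (nat_lit 5) (nat_lit 145) (nat_lit 5) (nat_lit 401) (nat_lit 337) (nat_lit 282)) (XT.lf (nat_lit 0) (nat_lit 2456781245) (nat_lit 456) (nat_lit 213233614) (nat_lit 76) (nat_lit 9447285350) (nat_lit 138) (nat_lit 5) (nat_lit 144) (nat_lit 5) (nat_lit 139) (nat_lit 5) (nat_lit 402) (nat_lit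 337) (nat_lit 281))))))) (XT.nd (nat_lit 858) (nat_lit 2660) (nat_lit 0) (XT.nd (nat_lit 390) (nat_lit 1900) (nat_lit 0) (XT.nd (nat_lit 156) (nat_lit 1064) (nat_lit 0) (XT.nd (nat_lit 78) (nat_lit 380) (nat_lit 0) (XT.lf (nat_lit 0) (nat_lit 7843657210) (nat_lit 456) (nat_lit 529577389) (nat_lit 76) (nat_lit 3954475037) (nat_lit 133) (nat_lit 5) (nat_lit 139) (nat_lit 5) (nat_lit 134) (nat_lit 5) (nat_lit 403) (nat_lit 337) (nat_lit 280)) (XT.lf (nat_lit 0) (nat_lit 870454543) (nat_lit 380) (nat_lit 882195672) (nat_lit 76) (nat_lit 10791000831) (nat_lit 128) (nat_lit 5) (nat_lit 133) (nat_lit 5) (nat_lit 129) (nat_lit 5) (nat_lit 404) (nat_lit 337) (nat_lit 279))) (XT.nd (nat_lit 78) (nat_lit 684) (nat_lit 0) (XT.lf (nat_lit 0) (nat_lit 6375942067) (nat_lit 456) (nat_lit 1313895735) (nat_lit 76) (nat_lit 5074621640) (nat_lit 123) (nat_lit 5) (nat_lit 129) (nat_lit 5) (nat_lit 124) (nat_lit 5) (nat_lit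 405) (nat_lit 337) (nat_lit 278)) (XT.nd (nat_lit 78) (nat_lit 380) (nat_lit 0) (XT.lf (nat_lit 0) (nat_lit 11214034353) (nat_lit 304) (nat_lit 863395267) (nat_lit 380) (nat_lit 913852421) (nat_lit 119) (nat_lit 5) (nat_lit 123) (nat_lit 5) (nat_lit 124) (nat_lit 5) (nat_lit 406) (nat_lit 337) (nat_lit 277)) (XT.lf (nat_lit 0) (nat_lit 4724583329) (nat_lit 380) (nat_lit 2334910477) (nat_lit 76) (nat_lit 6163578270) (nat_lit 114) (nat_lit 5) (nat_lit 119) (nat_lit 5) (nat_lit 115) (nat_lit 5) (nat_lit 407) (nat_lit 337) (nat_lit 276))))) (XT.nd (nat_lit 234) (nat_lit 912) (nat_lit 0) (XT.nd (nat_lit 78) (nat_lit 684) (nat_lit 0) (XT.lf (nat_lit 0) (nat_lit 10528859036) (nat_lit 304) (nat_lit 19142984) (nat_lit 380) (nat_lit 2913134223) (nat_lit 110) (nat_lit 5) (nat_lit 114) (nat_lit 5) (nat_lit 115) (nat_lit 5) (nat_lit 408) (nat_lit 337) (nat_lit 275)) (XT.nd (nat_lit 78) (nat_lit 304) (nat_lit 0)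 (XT.lf (nat_lit 0) (nat_lit 2874226946) (nat_lit 380) (nat_lit 3626946595) (nat_lit 76) (nat_lit 7203372090) (nat_lit 105) (nat_lit 5) (nat_lit 110) (nat_lit 5) (nat_lit 106) (nat_lit 5) (nat_lit 409) (nat_lit 337) (nat_lit 274)) (XT.lf (nat_lit 0) (nat_lit 8826546355) (nat_lit 380) (nat_lit 4382550223) (nat_lit 76) (nat_lit 745162982) (nat_lit 101) (nat_lit 5) (nat_lit 106) (nat_lit 5) (nat_lit 102) (nat_lit 5) (nat_lit 410) (nat_lit 337) (nat_lit 273)))) (XT.nd (nat_lit 78) (nat_lit 532) (nat_lit 0) (XT.lf (nat_lit 0) (nat_lit 807528937) (nat_lit 380) (nat_lit 5227720953) (nat_lit 76) (nat_lit 8174696724) (nat_lit 96) (nat_lit 5) (nat_lit 101) (nat_lit 5) (nat_lit 97) (nat_lit 5) (nat_lit 411) (nat_lit 337) (nat_lit 272)) (XT.nd (nat_lit 78) (nat_lit 304) (nat_lit 0) (XT.lf (nat_lit 0) (nat_lit 6889784558) (nat_lit 304) (nat_lit 6162384642) (nat_lit 76) (nat_lit 1419690013) (nat_lit 93) (nat_lit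 5) (nat_lit 97) (nat_lit 5) (nat_lit 94) (nat_lit 5) (nat_lit 412) (nat_lit 337) (nat_lit 271)) (XT.lf (nat_lit 0) (nat_lit 7551648317) (nat_lit 304) (nat_lit 5673680130) (nat_lit 380) (nat_lit 1514889434) (nat_lit 89) (nat_lit 5) (nat_lit 93) (nat_lit 5) (nat_lit 94) (nat_lit 5) (nat_lit 413) (nat_lit 337) (nat_lit 270)))))) (XT.nd (nat_lit 390) (nat_lit 1292) (nat_lit 0) (XT.nd (nat_lit 156) (nat_lit 760) (nat_lit 0) (XT.nd (nat_lit 78) (nat_lit 304) (nat_lit 0) (XT.lf (nat_lit 0) (nat_lit 4717301427) (nat_lit 304) (nat_lit 8315202373) (nat_lit 76) (nat_lit 1982611969) (nat_lit 85) (nat_lit 5) (nat_lit 89) (nat_lit 5) (nat_lit 86) (nat_lit 5) (nat_lit 414) (nat_lit 337) (nat_lit 269)) (XT.lf (nat_lit 0) (nat_lit 5744254717) (nat_lit 304) (nat_lit 5443187364) (nat_lit 380) (nat_lit 4109191649) (nat_lit 81) (nat_lit 5) (nat_lit 85) (nat_lit 5) (nat_lit 86) (nat_lit 5) (nat_lit 415) (nat_lit 337) (nat_lit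 268))) (XT.nd (nat_lit 78) (nat_lit 456) (nat_lit 0) (XT.lf (nat_lit 0) (nat_lit 2286352334) (nat_lit 304) (nat_lit 10888995923) (nat_lit 76) (nat_lit 2409939937) (nat_lit 77) (nat_lit 5) (nat_lit 81) (nat_lit 5) (nat_lit 78) (nat_lit 5) (nat_lit 416) (nat_lit 337) (nat_lit 267)) (XT.nd (nat_lit 78) (nat_lit 228) (nat_lit 0) (XT.lf (nat_lit 0) (nat_lit 3516200674) (nat_lit 228) (nat_lit 5374967891) (nat_lit 304) (nat_lit 6989430175) (nat_lit 74) (nat_lit 5) (nat_lit 77) (nat_lit 5) (nat_lit 78) (nat_lit 5) (nat_lit 417) (nat_lit 337) (nat_lit 266)) (XT.lf (nat_lit 0) (nat_lit 2244146799) (nat_lit 228) (nat_lit 13505331878) (nat_lit 304) (nat_lit 434187166) (nat_lit 71) (nat_lit 5) (nat_lit 74) (nat_lit 5) (nat_lit 75) (nat_lit 5) (nat_lit 418) (nat_lit 337) (nat_lit 265))))) (XT.nd (nat_lit 234) (nat_lit 684) (nat_lit 0) (XT.nd (nat_lit 78) (nat_lit 304) (nat_lit 0) (XT.lf (nat_lit 0) (nat_lit 813087205)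 (nat_lit 228) (nat_lit 5497157796) (nat_lit 304) (nat_lit 10183255812) (nat_lit 67) (nat_lit 5) (nat_lit 70) (nat_lit 5) (nat_lit 71) (nat_lit 5) (nat_lit 419) (nat_lit 337) (nat_lit 264)) (XT.nd (nat_lit 78) (nat_lit 304) (nat_lit 0) (XT.lf (nat_lit 0) (nat_lit 13314599287) (nat_lit 304) (nat_lit 718520698) (nat_lit 76) (nat_lit 2778187595) (nat_lit 67) (nat_lit 5) (nat_lit 71) (nat_lit 5) (nat_lit 68) (nat_lit 5) (nat_lit 420) (nat_lit 337) (nat_lit 263)) (XT.lf (nat_lit 0) (nat_lit 3431108278) (nat_lit 304) (nat_lit 2393381545) (nat_lit 76) (nat_lit 11312019411) (nat_lit 63) (nat_lit 5) (nat_lit 67) (nat_lit 5) (nat_lit 64) (nat_lit 5) (nat_lit 421) (nat_lit 337) (nat_lit 262)))) (XT.nd (nat_lit 78) (nat_lit 456) (nat_lit 0) (XT.lf (nat_lit 0) (nat_lit 10580731230) (nat_lit 304) (nat_lit 4212220108) (nat_lit 76) (nat_lit 2676827381) (nat_lit 60) (nat_lit 5) (nat_lit 64) (nat_lit 5) (nat_lit 61)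 (nat_lit 5) (nat_lit 422) (nat_lit 337) (nat_lit 261)) (XT.nd (nat_lit 78) (nat_lit 228) (nat_lit 0) (XT.lf (nat_lit 0) (nat_lit 214543626) (nat_lit 228) (nat_lit 6182890241) (nat_lit 76) (nat_lit 11413909231) (nat_lit 57) (nat_lit 5) (nat_lit 60) (nat_lit 5) (nat_lit 58) (nat_lit 5) (nat_lit 423) (nat_lit 337) (nat_lit 260)) (XT.lf (nat_lit 0) (nat_lit 7499784336) (nat_lit 304) (nat_lit 8335318798) (nat_lit 76) (nat_lit 2325901142) (nat_lit 54) (nat_lit 5) (nat_lit 58) (nat_lit 5) (nat_lit 55) (nat_lit 5) (nat_lit 424) (nat_lit 337) (nat_lit 259))))))))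
noncomputable def xc40 : XT := (XT.nd (nat_lit 48282) (nat_lit 0) (nat_lit 15960) (XT.nd (nat_lit 47424) (nat_lit 0) (nat_lit 38228) (XT.nd (nat_lit 46956) (nat_lit 0) (nat_lit 49020) (XT.nd (nat_lit 156) (nat_lit 152) (nat_lit 0) (XT.nd (nat_lit 78) (nat_lit 304) (nat_lit 0) (XT.lf (nat_lit 0) (nat_lit 7858523391) (nat_lit 152) (nat_lit 7235322483) (nat_lit 228) (nat_lit 3425507383) (nat_lit 52) (nat_lit 5) (nat_lit 54) (nat_lit 5) (nat_lit 55) (nat_lit 5) (nat_lit 425) (nat_lit 337) (nat_lit 258)) (XT.lf (nat_lit 0) (nat_lit 4034452558) (nat_lit 304) (nat_lit 13164044917) (nat_lit 76) (nat_lit 1688235472) (nat_lit 48) (nat_lit 5) (nat_lit 52) (nat_lit 5) (nat_lit 49) (nat_lit 5) (nat_lit 426) (nat_lit 337) (nat_lit 257))) (XT.nd (nat_lit 46644) (nat_lit 0) (nat_lit 51604) (XT.lf (nat_lit 0) (nat_lit 3373424727) (nat_lit 152) (nat_lit 8396909915) (nat_lit 228) (nat_lit 7492376278) (nat_lit 46) (nat_lit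 5) (nat_lit 48) (nat_lit 5) (nat_lit 49) (nat_lit 5) (nat_lit 427) (nat_lit 337) (nat_lit 256)) (XT.nd (nat_lit 78) (nat_lit 76) (nat_lit 0) (XT.lf (nat_lit 0) (nat_lit 160349448) (nat_lit 228) (nat_lit 1534666094) (nat_lit 228) (nat_lit 1534666094) (nat_lit 726) (nat_lit 4) (nat_lit 729) (nat_lit 5) (nat_lit 729) (nat_lit 4) (nat_lit 344) (nat_lit 338) (nat_lit 338)) (XT.lf (nat_lit 0) (nat_lit 1621746241) (nat_lit 304) (nat_lit 968149346) (nat_lit 76) (nat_lit 3879469982) (nat_lit 725) (nat_lit 5) (nat_lit 729) (nat_lit 5) (nat_lit 726) (nat_lit 4) (nat_lit 345) (nat_lit 338) (nat_lit 337))))) (XT.nd (nat_lit 234) (nat_lit 1292) (nat_lit 0) (XT.nd (nat_lit 78) (nat_lit 988) (nat_lit 0) (XT.lf (nat_lit 0) (nat_lit 4290708991) (nat_lit 304) (nat_lit 1974265570) (nat_lit 380) (nat_lit 217295616) (nat_lit 721) (nat_lit 5) (nat_lit 725) (nat_lit 5) (nat_lit 726) (nat_lit 4) (nat_lit 346) (nat_lit 338)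 (nat_lit 336)) (XT.nd (nat_lit 78) (nat_lit 532) (nat_lit 0) (XT.lf (nat_lit 0) (nat_lit 3133447083) (nat_lit 380) (nat_lit 1214006314) (nat_lit 456) (nat_lit 2150480115) (nat_lit 715) (nat_lit 5) (nat_lit 720) (nat_lit 5) (nat_lit 721) (nat_lit 5) (nat_lit 347) (nat_lit 338) (nat_lit 335)) (XT.lf (nat_lit 0) (nat_lit 2039363492) (nat_lit 456) (nat_lit 319215526) (nat_lit 532) (nat_lit 4158001259) (nat_lit 708) (nat_lit 5) (nat_lit 714) (nat_lit 5) (nat_lit 715) (nat_lit 5) (nat_lit 348) (nat_lit 338) (nat_lit 334)))) (XT.nd (nat_lit 78) (nat_lit 684) (nat_lit 0) (XT.lf (nat_lit 0) (nat_lit 301158609) (nat_lit 608) (nat_lit 5535267031) (nat_lit 76) (nat_lit 701706002) (nat_lit 700) (nat_lit 5) (nat_lit 708) (nat_lit 5) (nat_lit 701) (nat_lit 5) (nat_lit 349) (nat_lit 338) (nat_lit 333)) (XT.nd (nat_lit 78) (nat_lit 76) (nat_lit 0) (XT.lf (nat_lit 0) (nat_lit 12551333) (nat_lit 608) (nat_lit 4697196006)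 (nat_lit 684) (nat_lit 1852648530) (nat_lit 692) (nat_lit 5) (nat_lit 700) (nat_lit 5) (nat_lit 701) (nat_lit 5) (nat_lit 350) (nat_lit 338) (nat_lit 332)) (XT.lf (nat_lit 0) (nat_lit 2508013406) (nat_lit 684) (nat_lit 908417621) (nat_lit 76) (nat_lit 3173072521) (nat_lit 691) (nat_lit 5) (nat_lit 700) (nat_lit 5) (nat_lit 692) (nat_lit 5) (nat_lit 351) (nat_lit 338) (nat_lit 331)))))) (XT.nd (nat_lit 390) (nat_lit 6384) (nat_lit 0) (XT.nd (nat_lit 156) (nat_lit 2888) (nat_lit 0) (XT.nd (nat_lit 78) (nat_lit 760) (nat_lit 0) (XT.lf (nat_lit 0) (nat_lit 229814080) (nat_lit 760) (nat_lit 1771414367) (nat_lit 76) (nat_lit 4618411032) (nat_lit 681) (nat_lit 5) (nat_lit 691) (nat_lit 5) (nat_lit 682) (nat_lit 5) (nat_lit 352) (nat_lit 338) (nat_lit 330)) (XT.lf (nat_lit 0) (nat_lit 4061302099) (nat_lit 760) (nat_lit 435929837) (nat_lit 836) (nat_lit 2155315277) (nat_lit 671) (nat_lit 5) (nat_lit 681) (nat_lit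 5) (nat_lit 682) (nat_lit 5) (nat_lit 353) (nat_lit 338) (nat_lit 329))) (XT.nd (nat_lit 78) (nat_lit 1976) (nat_lit 0) (XT.lf (nat_lit 0) (nat_lit 2071295085) (nat_lit 912) (nat_lit 3364787207) (nat_lit 76) (nat_lit 1252242723) (nat_lit 659) (nat_lit 5) (nat_lit 671) (nat_lit 5) (nat_lit 660) (nat_lit 5) (nat_lit 354) (nat_lit 338) (nat_lit 328)) (XT.nd (nat_lit 78) (nat_lit 1064) (nat_lit 0) (XT.lf (nat_lit 0) (nat_lit 2637646700) (nat_lit 912) (nat_lit 3651615619) (nat_lit 988) (nat_lit 437799969) (nat_lit 647) (nat_lit 5) (nat_lit 659) (nat_lit 5) (nat_lit 660) (nat_lit 5) (nat_lit 355) (nat_lit 338) (nat_lit 327)) (XT.lf (nat_lit 0) (nat_lit 1994489097) (nat_lit 988) (nat_lit 1716005691) (nat_lit 1064) (nat_lit 3058122315) (nat_lit 633) (nat_lit 5) (nat_lit 646) (nat_lit 5) (nat_lit 647) (nat_lit 5) (nat_lit 356) (nat_lit 338) (nat_lit 326))))) (XT.nd (nat_lit 234) (nat_lit 2812) (nat_lit 0) (XT.nd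 (nat_lit 78) (nat_lit 2432) (nat_lit 0) (XT.lf (nat_lit 0) (nat_lit 1051002330) (nat_lit 1140) (nat_lit 5408087837) (nat_lit 76) (nat_lit 354155223) (nat_lit 618) (nat_lit 5) (nat_lit 633) (nat_lit 5) (nat_lit 619) (nat_lit 5) (nat_lit 357) (nat_lit 338) (nat_lit 325)) (XT.nd (nat_lit 78) (nat_lit 1292) (nat_lit 0) (XT.lf (nat_lit 0) (nat_lit 848067385) (nat_lit 1140) (nat_lit 4308127233) (nat_lit 1216) (nat_lit 1704368908) (nat_lit 603) (nat_lit 5) (nat_lit 618) (nat_lit 5) (nat_lit 619) (nat_lit 5) (nat_lit 358) (nat_lit 338) (nat_lit 324)) (XT.lf (nat_lit 0) (nat_lit 337899817) (nat_lit 1216) (nat_lit 2010862109) (nat_lit 1292) (nat_lit 4562138279) (nat_lit 586) (nat_lit 5) (nat_lit 602) (nat_lit 5) (nat_lit 603) (nat_lit 5) (nat_lit 359) (nat_lit 338) (nat_lit 323)))) (XT.nd (nat_lit 78) (nat_lit 2812) (nat_lit 0) (XT.lf (nat_lit 0) (nat_lit 6414028390) (nat_lit 1292) (nat_lit 123431098) (nat_lit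 76) (nat_lit 426827157) (nat_lit 586) (nat_lit 5) (nat_lit 603) (nat_lit 5) (nat_lit 587) (nat_lit 5) (nat_lit 360) (nat_lit 338) (nat_lit 322)) (XT.nd (nat_lit 78) (nat_lit 1444) (nat_lit 0) (XT.lf (nat_lit 0) (nat_lit 3464078976) (nat_lit 1368) (nat_lit 557738906) (nat_lit 76) (nat_lit 2998447131) (nat_lit 568) (nat_lit 5) (nat_lit 586) (nat_lit 5) (nat_lit 569) (nat_lit 5) (nat_lit 361) (nat_lit 338) (nat_lit 321)) (XT.lf (nat_lit 0) (nat_lit 423127797) (nat_lit 1444) (nat_lit 941065546) (nat_lit 76) (nat_lit 5715298383) (nat_lit 549) (nat_lit 5) (nat_lit 568) (nat_lit 5) (nat_lit 550) (nat_lit 5) (nat_lit 362) (nat_lit 338) (nat_lit 320))))))) (XT.nd (nat_lit 858) (nat_lit 8056) (nat_lit 0) (XT.nd (nat_lit 390) (nat_lit 6080) (nat_lit 0) (XT.nd (nat_lit 156) (nat_lit 5092) (nat_lit 0) (XT.nd (nat_lit 78) (nat_lit 1596) (nat_lit 0) (XT.lf (nat_lit 0) (nat_lit 4403293983) (nat_lit 1520) (nat_lit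 1300877385) (nat_lit 76) (nat_lit 1437292230) (nat_lit 530) (nat_lit 5) (nat_lit 550) (nat_lit 5) (nat_lit 531) (nat_lit 5) (nat_lit 363) (nat_lit 338) (nat_lit 319)) (XT.lf (nat_lit 0) (nat_lit 1213161234) (nat_lit 1596) (nat_lit 1623257904) (nat_lit 76) (nat_lit 4370087412) (nat_lit 509) (nat_lit 5) (nat_lit 530) (nat_lit 5) (nat_lit 510) (nat_lit 5) (nat_lit 364) (nat_lit 338) (nat_lit 318))) (XT.nd (nat_lit 78) (nat_lit 3496) (nat_lit 0) (XT.lf (nat_lit 0) (nat_lit 5174208083) (nat_lit 1672) (nat_lit 1911545373) (nat_lit 76) (nat_lit 188849448) (nat_lit 488) (nat_lit 5) (nat_lit 510) (nat_lit 5) (nat_lit 489) (nat_lit 5) (nat_lit 365) (nat_lit 338) (nat_lit 317)) (XT.nd (nat_lit 78) (nat_lit 1748) (nat_lit 0) (XT.lf (nat_lit 0) (nat_lit 1833612170) (nat_lit 1748) (nat_lit 2178997505) (nat_lit 76) (nat_lit 3332928465) (nat_lit 465) (nat_lit 5) (nat_lit 488) (nat_lit 5) (nat_lit 466) (nat_lit 5)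 (nat_lit 366) (nat_lit 338) (nat_lit 316)) (XT.lf (nat_lit 0) (nat_lit 5009882785) (nat_lit 1748) (nat_lit 780828954) (nat_lit 1824) (nat_lit 1628969091) (nat_lit 442) (nat_lit 5) (nat_lit 465) (nat_lit 5) (nat_lit 466) (nat_lit 5) (nat_lit 367) (nat_lit 338) (nat_lit 315))))) (XT.nd (nat_lit 234) (nat_lit 2660) (nat_lit 0) (XT.nd (nat_lit 78) (nat_lit 1900) (nat_lit 0) (XT.lf (nat_lit 0) (nat_lit 2292696675) (nat_lit 1520) (nat_lit 2623109661) (nat_lit 76) (nat_lit 2580895294) (nat_lit 422) (nat_lit 5) (nat_lit 442) (nat_lit 5) (nat_lit 423) (nat_lit 5) (nat_lit 368) (nat_lit 338) (nat_lit 314)) (XT.nd (nat_lit 78) (nat_lit 988) (nat_lit 0) (XT.lf (nat_lit 0) (nat_lit 4772401966) (nat_lit 912) (nat_lit 1482516385) (nat_lit 988) (nat_lit 1322025628) (nat_lit 410) (nat_lit 5) (nat_lit 422) (nat_lit 5) (nat_lit 423) (nat_lit 5) (nat_lit 369) (nat_lit 338) (nat_lit 313)) (XT.lf (nat_lit 0) (nat_lit 2597513699)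 (nat_lit 988) (nat_lit 2969973517) (nat_lit 76) (nat_lit 2092660513) (nat_lit 397) (nat_lit 5) (nat_lit 410) (nat_lit 5) (nat_lit 398) (nat_lit 5) (nat_lit 370) (nat_lit 338) (nat_lit 312)))) (XT.nd (nat_lit 78) (nat_lit 1748) (nat_lit 0) (XT.lf (nat_lit 0) (nat_lit 4637803887) (nat_lit 912) (nat_lit 1934532322) (nat_lit 988) (nat_lit 1174248419) (nat_lit 385) (nat_lit 5) (nat_lit 397) (nat_lit 5) (nat_lit 398) (nat_lit 5) (nat_lit 371) (nat_lit 338) (nat_lit 311)) (XT.nd (nat_lit 78) (nat_lit 836) (nat_lit 0) (XT.lf (nat_lit 0) (nat_lit 2754084176) (nat_lit 912) (nat_lit 3233638360) (nat_lit 76) (nat_lit 1848339841) (nat_lit 373) (nat_lit 5) (nat_lit 385) (nat_lit 5) (nat_lit 374) (nat_lit 5) (nat_lit 372) (nat_lit 338) (nat_lit 310)) (XT.lf (nat_lit 0) (nat_lit 4592317918) (nat_lit 836) (nat_lit 2156342772) (nat_lit 912) (nat_lit 1180144661) (nat_lit 362) (nat_lit 5) (nat_lit 373) (nat_lit 5) (nat_lit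 374) (nat_lit 5) (nat_lit 373) (nat_lit 338) (nat_lit 309)))))) (XT.nd (nat_lit 390) (nat_lit 4104) (nat_lit 0) (XT.nd (nat_lit 156) (nat_lit 2356) (nat_lit 0) (XT.nd (nat_lit 78) (nat_lit 760) (nat_lit 0) (XT.lf (nat_lit 0) (nat_lit 2767382546) (nat_lit 836) (nat_lit 3427939972) (nat_lit 76) (nat_lit 1829344053) (nat_lit 351) (nat_lit 5) (nat_lit 362) (nat_lit 5) (nat_lit 352) (nat_lit 5) (nat_lit 374) (nat_lit 338) (nat_lit 308)) (XT.lf (nat_lit 0) (nat_lit 4622364052) (nat_lit 760) (nat_lit 2166196155) (nat_lit 836) (nat_lit 1335283565) (nat_lit 341) (nat_lit 5) (nat_lit 351) (nat_lit 5) (nat_lit 352) (nat_lit 5) (nat_lit 375) (nat_lit 338) (nat_lit 307))) (XT.nd (nat_lit 78) (nat_lit 1520) (nat_lit 0) (XT.lf (nat_lit 0) (nat_lit 2641360789) (nat_lit 836) (nat_lit 3566617983) (nat_lit 76) (nat_lit 2018237596) (nat_lit 330) (nat_lit 5) (nat_lit 341) (nat_lit 5) (nat_lit 331) (nat_lit 5) (nat_lit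 376) (nat_lit 338) (nat_lit 306)) (XT.nd (nat_lit 78) (nat_lit 760) (nat_lit 0) (XT.lf (nat_lit 0) (nat_lit 4714434407) (nat_lit 760) (nat_lit 1981262756) (nat_lit 836) (nat_lit 1636275481) (nat_lit 320) (nat_lit 5) (nat_lit 330) (nat_lit 5) (nat_lit 331) (nat_lit 5) (nat_lit 377) (nat_lit 338) (nat_lit 305)) (XT.lf (nat_lit 0) (nat_lit 2378965031) (nat_lit 760) (nat_lit 3663435158) (nat_lit 76) (nat_lit 2398602875) (nat_lit 310) (nat_lit 5) (nat_lit 320) (nat_lit 5) (nat_lit 311) (nat_lit 5) (nat_lit 378) (nat_lit 338) (nat_lit 304))))) (XT.nd (nat_lit 234) (nat_lit 1976) (nat_lit 0) (XT.nd (nat_lit 78) (nat_lit 1444) (nat_lit 0) (XT.lf (nat_lit 0) (nat_lit 4854972450) (nat_lit 684) (nat_lit 1617769033) (nat_lit 760) (nat_lit 2080758622) (nat_lit 301) (nat_lit 5) (nat_lit 310) (nat_lit 5) (nat_lit 311) (nat_lit 5) (nat_lit 379) (nat_lit 338) (nat_lit 303)) (XT.nd (nat_lit 78) (nat_lit 684) (nat_lit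 0) (XT.lf (nat_lit 0) (nat_lit 1982144697) (nat_lit 760) (nat_lit 3732299624) (nat_lit 76) (nat_lit 2954909218) (nat_lit 291) (nat_lit 5) (nat_lit 301) (nat_lit 5) (nat_lit 292) (nat_lit 5) (nat_lit 380) (nat_lit 338) (nat_lit 302)) (XT.lf (nat_lit 0) (nat_lit 5030248938) (nat_lit 684) (nat_lit 1091127769) (nat_lit 760) (nat_lit 2667393402) (nat_lit 282) (nat_lit 5) (nat_lit 291) (nat_lit 5) (nat_lit 292) (nat_lit 5) (nat_lit 381) (nat_lit 338) (nat_lit 301)))) (XT.nd (nat_lit 78) (nat_lit 1292) (nat_lit 0) (XT.lf (nat_lit 0) (nat_lit 1451854153) (nat_lit 684) (nat_lit 3787391079) (nat_lit 76) (nat_lit 3672385555) (nat_lit 273) (nat_lit 5) (nat_lit 282) (nat_lit 5) (nat_lit 274) (nat_lit 5) (nat_lit 382) (nat_lit 338) (nat_lit 300)) (XT.nd (nat_lit 78) (nat_lit 684) (nat_lit 0) (XT.lf (nat_lit 0) (nat_lit 5226233510) (nat_lit 608) (nat_lit 416065022) (nat_lit 684) (nat_lit 3395864498) (nat_lit 265)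 (nat_lit 5) (nat_lit 273) (nat_lit 5) (nat_lit 274) (nat_lit 5) (nat_lit 383) (nat_lit 338) (nat_lit 299)) (XT.lf (nat_lit 0) (nat_lit 788046708) (nat_lit 684) (nat_lit 3843292059) (nat_lit 76) (nat_lit 4536895850) (nat_lit 256) (nat_lit 5) (nat_lit 265) (nat_lit 5) (nat_lit 257) (nat_lit 5) (nat_lit 384) (nat_lit 338) (nat_lit 298))))))))
noncomputable def xc41 : XT := (XT.nd (nat_lit 1716) (nat_lit 5396) (nat_lit 0) (XT.nd (nat_lit 858) (nat_lit 4408) (nat_lit 0) (XT.nd (nat_lit 390) (nat_lit 3040) (nat_lit 0) (XT.nd (nat_lit 156) (nat_lit 1824) (nat_lit 0) (XT.nd (nat_lit 78) (nat_lit 532) (nat_lit 0) (XT.lf (nat_lit 0) (nat_lit 5037758935) (nat_lit 684) (nat_lit 3876188927) (nat_lit 76) (nat_lit 388097526) (nat_lit 248) (nat_lit 5) (nat_lit 257) (nat_lit 5) (nat_lit 249) (nat_lit 5) (nat_lit 385) (nat_lit 338) (nat_lit 297)) (XT.lf (nat_lit 0) (nat_lit 5524407737) (nat_lit 532) (nat_lit 3904716830)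 (nat_lit 608) (nat_lit 10476626) (nat_lit 241) (nat_lit 5) (nat_lit 248) (nat_lit 5) (nat_lit 249) (nat_lit 5) (nat_lit 386) (nat_lit 338) (nat_lit 296))) (XT.nd (nat_lit 78) (nat_lit 1140) (nat_lit 0) (XT.lf (nat_lit 0) (nat_lit 4307373221) (nat_lit 684) (nat_lit 3967726740) (nat_lit 76) (nat_lit 1305754379) (nat_lit 232) (nat_lit 5) (nat_lit 241) (nat_lit 5) (nat_lit 233) (nat_lit 5) (nat_lit 387) (nat_lit 338) (nat_lit 295)) (XT.nd (nat_lit 78) (nat_lit 608) (nat_lit 0) (XT.lf (nat_lit 0) (nat_lit 5701167415) (nat_lit 532) (nat_lit 3066953147) (nat_lit 608) (nat_lit 957965942) (nat_lit 225) (nat_lit 5) (nat_lit 232) (nat_lit 5) (nat_lit 233) (nat_lit 5) (nat_lit 388) (nat_lit 338) (nat_lit 294)) (XT.lf (nat_lit 0) (nat_lit 3445998245) (nat_lit 608) (nat_lit 4100014555) (nat_lit 76) (nat_lit 2329127978) (nat_lit 217) (nat_lit 5) (nat_lit 225) (nat_lit 5) (nat_lit 218) (nat_lit 5) (nat_lit 389) (nat_lit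 338) (nat_lit 293))))) (XT.nd (nat_lit 234) (nat_lit 1520) (nat_lit 0) (XT.nd (nat_lit 78) (nat_lit 1064) (nat_lit 0) (XT.lf (nat_lit 0) (nat_lit 5844357845) (nat_lit 456) (nat_lit 2136796208) (nat_lit 532) (nat_lit 2047156145) (nat_lit 211) (nat_lit 5) (nat_lit 217) (nat_lit 5) (nat_lit 218) (nat_lit 5) (nat_lit 390) (nat_lit 338) (nat_lit 292)) (XT.nd (nat_lit 78) (nat_lit 456) (nat_lit 0) (XT.lf (nat_lit 0) (nat_lit 2450120301) (nat_lit 608) (nat_lit 4290149034) (nat_lit 76) (nat_lit 3445172924) (nat_lit 203) (nat_lit 5) (nat_lit 211) (nat_lit 5) (nat_lit 204) (nat_lit 5) (nat_lit 391) (nat_lit 338) (nat_lit 291)) (XT.lf (nat_lit 0) (nat_lit 5936858397) (nat_lit 456) (nat_lit 1127595356) (nat_lit 532) (nat_lit 3282375876) (nat_lit 197) (nat_lit 5) (nat_lit 203) (nat_lit 5) (nat_lit 204) (nat_lit 5) (nat_lit 392) (nat_lit 338) (nat_lit 290)))) (XT.nd (nat_lit 78) (nat_lit 988) (nat_lit 0) (XT.lf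 (nat_lit 0) (nat_lit 1315110110) (nat_lit 532) (nat_lit 4556319758) (nat_lit 76) (nat_lit 4640908767) (nat_lit 190) (nat_lit 5) (nat_lit 197) (nat_lit 5) (nat_lit 191) (nat_lit 5) (nat_lit 393) (nat_lit 338) (nat_lit 289)) (XT.nd (nat_lit 78) (nat_lit 532) (nat_lit 0) (XT.lf (nat_lit 0) (nat_lit 5960405630) (nat_lit 456) (nat_lit 52715746) (nat_lit 532) (nat_lit 4669123874) (nat_lit 184) (nat_lit 5) (nat_lit 190) (nat_lit 5) (nat_lit 191) (nat_lit 5) (nat_lit 394) (nat_lit 338) (nat_lit 288)) (XT.lf (nat_lit 0) (nat_lit 35169671) (nat_lit 532) (nat_lit 4917990937) (nat_lit 76) (nat_lit 5903293255) (nat_lit 177) (nat_lit 5) (nat_lit 184) (nat_lit 5) (nat_lit 178) (nat_lit 5) (nat_lit 395) (nat_lit 338) (nat_lit 287)))))) (XT.nd (nat_lit 390) (nat_lit 2280) (nat_lit 0) (XT.nd (nat_lit 156) (nat_lit 1292) (nat_lit 0) (XT.nd (nat_lit 78) (nat_lit 456) (nat_lit 0) (XT.lf (nat_lit 0) (nat_lit 4828049777)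 (nat_lit 456) (nat_lit 5146771795) (nat_lit 76) (nat_lit 1060241452) (nat_lit 172) (nat_lit 5) (nat_lit 178) (nat_lit 5) (nat_lit 173) (nat_lit 5) (nat_lit 396) (nat_lit 338) (nat_lit 286)) (XT.lf (nat_lit 0) (nat_lit 5812987941) (nat_lit 456) (nat_lit 3989993509) (nat_lit 532) (nat_lit 1415292835) (nat_lit 166) (nat_lit 5) (nat_lit 172) (nat_lit 5) (nat_lit 173) (nat_lit 5) (nat_lit 397) (nat_lit 338) (nat_lit 285))) (XT.nd (nat_lit 78) (nat_lit 836) (nat_lit 0) (XT.lf (nat_lit 0) (nat_lit 3495521039) (nat_lit 456) (nat_lit 5700202382) (nat_lit 76) (nat_lit 2210379853) (nat_lit 160) (nat_lit 5) (nat_lit 166) (nat_lit 5) (nat_lit 161) (nat_lit 5) (nat_lit 398) (nat_lit 338) (nat_lit 284)) (XT.nd (nat_lit 78) (nat_lit 456) (nat_lit 0) (XT.lf (nat_lit 0) (nat_lit 5565756375) (nat_lit 380) (nat_lit 3004270865) (nat_lit 456) (nat_lit 3028649303) (nat_lit 155) (nat_lit 5) (nat_lit 160) (nat_lit 5) (nat_lit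 161) (nat_lit 5) (nat_lit 399) (nat_lit 338) (nat_lit 283)) (XT.lf (nat_lit 0) (nat_lit 2006436259) (nat_lit 456) (nat_lit 6405316215) (nat_lit 76) (nat_lit 3384364462) (nat_lit 149) (nat_lit 5) (nat_lit 155) (nat_lit 5) (nat_lit 150) (nat_lit 5) (nat_lit 400) (nat_lit 338) (nat_lit 282))))) (XT.nd (nat_lit 234) (nat_lit 1064) (nat_lit 0) (XT.nd (nat_lit 78) (nat_lit 836) (nat_lit 0) (XT.lf (nat_lit 0) (nat_lit 5173178820) (nat_lit 380) (nat_lit 2010965336) (nat_lit 456) (nat_lit 4814289449) (nat_lit 144) (nat_lit 5) (nat_lit 149) (nat_lit 5) (nat_lit 150) (nat_lit 5) (nat_lit 401) (nat_lit 338) (nat_lit 281)) (XT.nd (nat_lit 78) (nat_lit 380) (nat_lit 0) (XT.lf (nat_lit 0) (nat_lit 350614226) (nat_lit 456) (nat_lit 7287678243) (nat_lit 76) (nat_lit 4567608000) (nat_lit 138) (nat_lit 5) (nat_lit 144) (nat_lit 5) (nat_lit 139) (nat_lit 5) (nat_lit 402) (nat_lit 338) (nat_lit 280)) (XT.lf (nat_lit 0)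 (nat_lit 4609310976) (nat_lit 380) (nat_lit 1025476422) (nat_lit 456) (nat_lit 6783580102) (nat_lit 133) (nat_lit 5) (nat_lit 138) (nat_lit 5) (nat_lit 139) (nat_lit 5) (nat_lit 403) (nat_lit 338) (nat_lit 279)))) (XT.nd (nat_lit 78) (nat_lit 760) (nat_lit 0) (XT.lf (nat_lit 0) (nat_lit 4251197224) (nat_lit 304) (nat_lit 6881540928) (nat_lit 380) (nat_lit 1503372338) (nat_lit 129) (nat_lit 5) (nat_lit 133) (nat_lit 5) (nat_lit 134) (nat_lit 5) (nat_lit 404) (nat_lit 338) (nat_lit 278)) (XT.nd (nat_lit 78) (nat_lit 304) (nat_lit 0) (XT.lf (nat_lit 0) (nat_lit 3845819165) (nat_lit 380) (nat_lit 64026954) (nat_lit 456) (nat_lit 8949510987) (nat_lit 123) (nat_lit 5) (nat_lit 128) (nat_lit 5) (nat_lit 129) (nat_lit 5) (nat_lit 405) (nat_lit 338) (nat_lit 277)) (XT.lf (nat_lit 0) (nat_lit 3366504501) (nat_lit 304) (nat_lit 6164904096) (nat_lit 380) (nat_lit 3556372792) (nat_lit 119) (nat_lit 5) (nat_lit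 123) (nat_lit 5) (nat_lit 124) (nat_lit 5) (nat_lit 406) (nat_lit 338) (nat_lit 276))))))) (XT.nd (nat_lit 858) (nat_lit 2204) (nat_lit 0) (XT.nd (nat_lit 390) (nat_lit 1824) (nat_lit 0) (XT.nd (nat_lit 156) (nat_lit 684) (nat_lit 0) (XT.nd (nat_lit 78) (nat_lit 304) (nat_lit 0) (XT.lf (nat_lit 0) (nat_lit 2001077680) (nat_lit 380) (nat_lit 10476215642) (nat_lit 76) (nat_lit 844937122) (nat_lit 114) (nat_lit 5) (nat_lit 119) (nat_lit 5) (nat_lit 115) (nat_lit 5) (nat_lit 407) (nat_lit 338) (nat_lit 275)) (XT.lf (nat_lit 0) (nat_lit 2234024455) (nat_lit 304) (nat_lit 5508837676) (nat_lit 380) (nat_lit 5819068107) (nat_lit 110) (nat_lit 5) (nat_lit 114) (nat_lit 5) (nat_lit 115) (nat_lit 5) (nat_lit 408) (nat_lit 338) (nat_lit 274))) (XT.nd (nat_lit 78) (nat_lit 380) (nat_lit 0) (XT.lf (nat_lit 0) (nat_lit 1580755743) (nat_lit 304) (nat_lit 12113152811) (nat_lit 380) (nat_lit 114178103) (nat_lit 106)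 (nat_lit 5) (nat_lit 110) (nat_lit 5) (nat_lit 111) (nat_lit 5) (nat_lit 409) (nat_lit 338) (nat_lit 273)) (XT.nd (nat_lit 78) (nat_lit 0) (nat_lit 0) (XT.lf (nat_lit 0) (nat_lit 818100865) (nat_lit 304) (nat_lit 4932737153) (nat_lit 380) (nat_lit 8308756129) (nat_lit 101) (nat_lit 5) (nat_lit 105) (nat_lit 5) (nat_lit 106) (nat_lit 5) (nat_lit 410) (nat_lit 338) (nat_lit 272)) (XT.lf (nat_lit 0) (nat_lit 11835589338) (nat_lit 380) (nat_lit 949949) (nat_lit 76) (nat_lit 2481191121) (nat_lit 101) (nat_lit 5) (nat_lit 106) (nat_lit 5) (nat_lit 102) (nat_lit 5) (nat_lit 411) (nat_lit 338) (nat_lit 271))))) (XT.nd (nat_lit 234) (nat_lit 836) (nat_lit 0) (XT.nd (nat_lit 78) (nat_lit 608) (nat_lit 0) (XT.lf (nat_lit 0) (nat_lit 3542994394) (nat_lit 380) (nat_lit 908405255) (nat_lit 76) (nat_lit 10130361664) (nat_lit 96) (nat_lit 5) (nat_lit 101) (nat_lit 5) (nat_lit 97) (nat_lit 5) (nat_lit 412) (nat_lit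 338) (nat_lit 270)) (XT.nd (nat_lit 78) (nat_lit 380) (nat_lit 0) (XT.lf (nat_lit 0) (nat_lit 9768654697) (nat_lit 304) (nat_lit 1901574958) (nat_lit 76) (nat_lit 3182090436) (nat_lit 93) (nat_lit 5) (nat_lit 97) (nat_lit 5) (nat_lit 94) (nat_lit 5) (nat_lit 413) (nat_lit 338) (nat_lit 269)) (XT.lf (nat_lit 0) (nat_lit 1100480207) (nat_lit 380) (nat_lit 2985212436) (nat_lit 76) (nat_lit 11043888085) (nat_lit 88) (nat_lit 5) (nat_lit 93) (nat_lit 5) (nat_lit 89) (nat_lit 5) (nat_lit 414) (nat_lit 338) (nat_lit 268)))) (XT.nd (nat_lit 78) (nat_lit 608) (nat_lit 0) (XT.lf (nat_lit 0) (nat_lit 7461764759) (nat_lit 304) (nat_lit 4186573910) (nat_lit 76) (nat_lit 3764939397) (nat_lit 85) (nat_lit 5) (nat_lit 89) (nat_lit 5) (nat_lit 86) (nat_lit 5) (nat_lit 415) (nat_lit 338) (nat_lit 267)) (XT.nd (nat_lit 78) (nat_lit 304) (nat_lit 0) (XT.lf (nat_lit 0) (nat_lit 10223637672) (nat_lit 304) (nat_lit 3854522309)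 (nat_lit 380) (nat_lit 1626045343) (nat_lit 81) (nat_lit 5) (nat_lit 85) (nat_lit 5) (nat_lit 86) (nat_lit 5) (nat_lit 416) (nat_lit 338) (nat_lit 266)) (XT.lf (nat_lit 0) (nat_lit 4891328063) (nat_lit 304) (nat_lit 6905261111) (nat_lit 76) (nat_lit 4205315300) (nat_lit 77) (nat_lit 5) (nat_lit 81) (nat_lit 5) (nat_lit 78) (nat_lit 5) (nat_lit 417) (nat_lit 338) (nat_lit 265)))))) (XT.nd (nat_lit 390) (nat_lit 912) (nat_lit 0) (XT.nd (nat_lit 156) (nat_lit 760) (nat_lit 0) (XT.nd (nat_lit 78) (nat_lit 304) (nat_lit 0) (XT.lf (nat_lit 0) (nat_lit 7862160189) (nat_lit 228) (nat_lit 3785785263) (nat_lit 304) (nat_lit 4659062003) (nat_lit 74) (nat_lit 5) (nat_lit 77) (nat_lit 5) (nat_lit 78) (nat_lit 5) (nat_lit 418) (nat_lit 338) (nat_lit 264)) (XT.lf (nat_lit 0) (nat_lit 2030998714) (nat_lit 304) (nat_lit 10112052285) (nat_lit 76) (nat_lit 4476537594) (nat_lit 70) (nat_lit 5) (nat_lit 74) (nat_lit 5)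 (nat_lit 71) (nat_lit 5) (nat_lit 419) (nat_lit 338) (nat_lit 263))) (XT.nd (nat_lit 78) (nat_lit 532) (nat_lit 0) (XT.lf (nat_lit 0) (nat_lit 5011394992) (nat_lit 228) (nat_lit 3915593321) (nat_lit 304) (nat_lit 8012576210) (nat_lit 67) (nat_lit 5) (nat_lit 70) (nat_lit 5) (nat_lit 71) (nat_lit 5) (nat_lit 420) (nat_lit 338) (nat_lit 262)) (XT.nd (nat_lit 78) (nat_lit 304) (nat_lit 0) (XT.lf (nat_lit 0) (nat_lit 3393082022) (nat_lit 228) (nat_lit 12710728357) (nat_lit 304) (nat_lit 1163853981) (nat_lit 64) (nat_lit 5) (nat_lit 67) (nat_lit 5) (nat_lit 68) (nat_lit 5) (nat_lit 421) (nat_lit 338) (nat_lit 261)) (XT.lf (nat_lit 0) (nat_lit 1609531764) (nat_lit 228) (nat_lit 4275430906) (nat_lit 304) (nat_lit 11718445440) (nat_lit 60) (nat_lit 5) (nat_lit 63) (nat_lit 5) (nat_lit 64) (nat_lit 5) (nat_lit 422) (nat_lit 338) (nat_lit 260))))) (XT.nd (nat_lit 234) (nat_lit 456) (nat_lit 0) (XT.nd (nat_lit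 78) (nat_lit 456) (nat_lit 0) (XT.lf (nat_lit 0) (nat_lit 13207317118) (nat_lit 304) (nat_lit 315579825) (nat_lit 76) (nat_lit 4424619061) (nat_lit 60) (nat_lit 5) (nat_lit 64) (nat_lit 5) (nat_lit 61) (nat_lit 5) (nat_lit 423) (nat_lit 338) (nat_lit 259)) (XT.nd (nat_lit 78) (nat_lit 228) (nat_lit 0) (XT.lf (nat_lit 0) (nat_lit 2503765748) (nat_lit 228) (nat_lit 2380137075) (nat_lit 76) (nat_lit 13415960379) (nat_lit 57) (nat_lit 5) (nat_lit 60) (nat_lit 5) (nat_lit 58) (nat_lit 5) (nat_lit 424) (nat_lit 338) (nat_lit 258)) (XT.lf (nat_lit 0) (nat_lit 9977468096) (nat_lit 304) (nat_lit 4627766966) (nat_lit 76) (nat_lit 4055385854) (nat_lit 54) (nat_lit 5) (nat_lit 58) (nat_lit 5) (nat_lit 55) (nat_lit 5) (nat_lit 425) (nat_lit 338) (nat_lit 257)))) (XT.nd (nat_lit 78) (nat_lit 304) (nat_lit 0) (XT.lf (nat_lit 0) (nat_lit 11987682945) (nat_lit 152) (nat_lit 5771334758) (nat_lit 228) (nat_lit 1271513990)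 (nat_lit 52) (nat_lit 5) (nat_lit 54) (nat_lit 5) (nat_lit 55) (nat_lit 5) (nat_lit 426) (nat_lit 338) (nat_lit 256)) (XT.nd (nat_lit 46488) (nat_lit 0) (nat_lit 51984) (XT.lf (nat_lit 0) (nat_lit 6353693397) (nat_lit 304) (nat_lit 9666423292) (nat_lit 76) (nat_lit 3389106536) (nat_lit 48) (nat_lit 5) (nat_lit 52) (nat_lit 5) (nat_lit 49) (nat_lit 5) (nat_lit 427) (nat_lit 338) (nat_lit 255)) (XT.lf (nat_lit 0) (nat_lit 1591855444) (nat_lit 76) (nat_lit 815689704) (nat_lit 76) (nat_lit 815689704) (nat_lit 732) (nat_lit 4) (nat_lit 733) (nat_lit 5) (nat_lit 733) (nat_lit 4) (nat_lit 342) (nat_lit 339) (nat_lit 339))))))))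
noncomputable def xc42 : XT := (XT.nd (nat_lit 1716) (nat_lit 20368) (nat_lit 0) (XT.nd (nat_lit 858) (nat_lit 12236) (nat_lit 0) (XT.nd (nat_lit 390) (nat_lit 3344) (nat_lit 0) (XT.nd (nat_lit 156) (nat_lit 836) (nat_lit 0) (XT.nd (nat_lit 78) (nat_lit 304) (nat_lit 0) (XT.lf (nat_lit 0) (nat_lit 1686980330) (nat_lit 152) (nat_lit 1355498565) (nat_lit 228) (nat_lit 3409711279) (nat_lit 729) (nat_lit 5) (nat_lit 731) (nat_lit 5) (nat_lit 732) (nat_lit 4) (nat_lit 343) (nat_lit 339) (nat_lit 338)) (XT.lf (nat_lit 0) (nat_lit 255600055) (nat_lit 228) (nat_lit 946754940) (nat_lit 304) (nat_lit 5258527602) (nat_lit 725) (nat_lit 5) (nat_lit 728) (nat_lit 5) (nat_lit 729) (nat_lit 5) (nat_lit 344) (nat_lit 339) (nat_lit 337))) (XT.nd (nat_lit 78) (nat_lit 836) (nat_lit 0) (XT.lf (nat_lit 0) (nat_lit 5370716453) (nat_lit 228) (nat_lit 392668522) (nat_lit 304) (nat_lit 708931889) (nat_lit 725) (nat_lit 5)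 (nat_lit 728) (nat_lit 5) (nat_lit 729) (nat_lit 5) (nat_lit 345) (nat_lit 339) (nat_lit 336)) (XT.nd (nat_lit 78) (nat_lit 456) (nat_lit 0) (XT.lf (nat_lit 0) (nat_lit 3781931145) (nat_lit 380) (nat_lit 2403499765) (nat_lit 76) (nat_lit 301074967) (nat_lit 720) (nat_lit 5) (nat_lit 725) (nat_lit 5) (nat_lit 721) (nat_lit 5) (nat_lit 346) (nat_lit 339) (nat_lit 335)) (XT.lf (nat_lit 0) (nat_lit 1733086208) (nat_lit 456) (nat_lit 3648005117) (nat_lit 76) (nat_lit 1122530902) (nat_lit 714) (nat_lit 5) (nat_lit 720) (nat_lit 5) (nat_lit 715) (nat_lit 5) (nat_lit 347) (nat_lit 339) (nat_lit 334))))) (XT.nd (nat_lit 234) (nat_lit 2204) (nat_lit 0) (XT.nd (nat_lit 78) (nat_lit 684) (nat_lit 0) (XT.lf (nat_lit 0) (nat_lit 1687608692) (nat_lit 456) (nat_lit 4443431328) (nat_lit 532) (nat_lit 392638241) (nat_lit 708) (nat_lit 5) (nat_lit 714) (nat_lit 5) (nat_lit 715) (nat_lit 5) (nat_lit 348) (nat_lit 339)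 (nat_lit 333)) (XT.nd (nat_lit 78) (nat_lit 76) (nat_lit 0) (XT.lf (nat_lit 0) (nat_lit 568580479) (nat_lit 532) (nat_lit 3361954685) (nat_lit 608) (nat_lit 2615966598) (nat_lit 700) (nat_lit 5) (nat_lit 707) (nat_lit 5) (nat_lit 708) (nat_lit 5) (nat_lit 349) (nat_lit 339) (nat_lit 332)) (XT.lf (nat_lit 0) (nat_lit 1659689748) (nat_lit 608) (nat_lit 484229011) (nat_lit 76) (nat_lit 4428354742) (nat_lit 699) (nat_lit 5) (nat_lit 707) (nat_lit 5) (nat_lit 700) (nat_lit 5) (nat_lit 350) (nat_lit 339) (nat_lit 331)))) (XT.nd (nat_lit 78) (nat_lit 1596) (nat_lit 0) (XT.lf (nat_lit 0) (nat_lit 5125087284) (nat_lit 608) (nat_lit 783350466) (nat_lit 684) (nat_lit 692481998) (nat_lit 691) (nat_lit 5) (nat_lit 699) (nat_lit 5) (nat_lit 700) (nat_lit 5) (nat_lit 351) (nat_lit 339) (nat_lit 330)) (XT.nd (nat_lit 78) (nat_lit 836) (nat_lit 0) (XT.lf (nat_lit 0) (nat_lit 3491316600) (nat_lit 760) (nat_lit 2426020855)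 (nat_lit 76) (nat_lit 714964839) (nat_lit 681) (nat_lit 5) (nat_lit 691) (nat_lit 5) (nat_lit 682) (nat_lit 5) (nat_lit 352) (nat_lit 339) (nat_lit 329)) (XT.lf (nat_lit 0) (nat_lit 1001963413) (nat_lit 836) (nat_lit 3325799635) (nat_lit 76) (nat_lit 2338873664) (nat_lit 670) (nat_lit 5) (nat_lit 681) (nat_lit 5) (nat_lit 671) (nat_lit 5) (nat_lit 353) (nat_lit 339) (nat_lit 328)))))) (XT.nd (nat_lit 390) (nat_lit 8208) (nat_lit 0) (XT.nd (nat_lit 156) (nat_lit 2204) (nat_lit 0) (XT.nd (nat_lit 78) (nat_lit 988) (nat_lit 0) (XT.lf (nat_lit 0) (nat_lit 2522850968) (nat_lit 836) (nat_lit 2593202610) (nat_lit 912) (nat_lit 1587789708) (nat_lit 659) (nat_lit 5) (nat_lit 670) (nat_lit 5) (nat_lit 671) (nat_lit 5) (nat_lit 354) (nat_lit 339) (nat_lit 327)) (XT.lf (nat_lit 0) (nat_lit 1755048580) (nat_lit 912) (nat_lit 715100998) (nat_lit 988) (nat_lit 4273862994) (nat_lit 646) (nat_lit 5) (nat_lit 658) (nat_lit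 5) (nat_lit 659) (nat_lit 5) (nat_lit 355) (nat_lit 339) (nat_lit 326))) (XT.nd (nat_lit 78) (nat_lit 1216) (nat_lit 0) (XT.lf (nat_lit 0) (nat_lit 1033383828) (nat_lit 988) (nat_lit 5500761604) (nat_lit 1064) (nat_lit 252958047) (nat_lit 633) (nat_lit 5) (nat_lit 646) (nat_lit 5) (nat_lit 647) (nat_lit 5) (nat_lit 356) (nat_lit 339) (nat_lit 325)) (XT.nd (nat_lit 78) (nat_lit 76) (nat_lit 0) (XT.lf (nat_lit 0) (nat_lit 344960518) (nat_lit 1064) (nat_lit 3398701675) (nat_lit 1140) (nat_lit 3089240346) (nat_lit 618) (nat_lit 5) (nat_lit 632) (nat_lit 5) (nat_lit 633) (nat_lit 5) (nat_lit 357) (nat_lit 339) (nat_lit 324)) (XT.lf (nat_lit 0) (nat_lit 870542630) (nat_lit 1140) (nat_lit 285536493) (nat_lit 76) (nat_lit 5725743268) (nat_lit 617) (nat_lit 5) (nat_lit 632) (nat_lit 5) (nat_lit 618) (nat_lit 5) (nat_lit 358) (nat_lit 339) (nat_lit 323))))) (XT.nd (nat_lit 234) (nat_lit 4484) (nat_lit 0) (XT.nd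 (nat_lit 78) (nat_lit 2584) (nat_lit 0) (XT.lf (nat_lit 0) (nat_lit 4826072796) (nat_lit 1216) (nat_lit 880227580) (nat_lit 76) (nat_lit 1227161503) (nat_lit 602) (nat_lit 5) (nat_lit 618) (nat_lit 5) (nat_lit 603) (nat_lit 5) (nat_lit 359) (nat_lit 339) (nat_lit 322)) (XT.nd (nat_lit 78) (nat_lit 1292) (nat_lit 0) (XT.lf (nat_lit 0) (nat_lit 1808296106) (nat_lit 1292) (nat_lit 1436902248) (nat_lit 76) (nat_lit 3742845252) (nat_lit 585) (nat_lit 5) (nat_lit 602) (nat_lit 5) (nat_lit 586) (nat_lit 5) (nat_lit 360) (nat_lit 339) (nat_lit 321)) (XT.lf (nat_lit 0) (nat_lit 5094603130) (nat_lit 1292) (nat_lit 634162479) (nat_lit 1368) (nat_lit 1316935650) (nat_lit 568) (nat_lit 5) (nat_lit 585) (nat_lit 5) (nat_lit 586) (nat_lit 5) (nat_lit 361) (nat_lit 339) (nat_lit 320)))) (XT.nd (nat_lit 78) (nat_lit 3040) (nat_lit 0) (XT.lf (nat_lit 0) (nat_lit 2559698690) (nat_lit 1444) (nat_lit 2440833183) (nat_lit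 76) (nat_lit 2105588418) (nat_lit 549) (nat_lit 5) (nat_lit 568) (nat_lit 5) (nat_lit 550) (nat_lit 5) (nat_lit 362) (nat_lit 339) (nat_lit 319)) (XT.nd (nat_lit 78) (nat_lit 1596) (nat_lit 0) (XT.lf (nat_lit 0) (nat_lit 4279463410) (nat_lit 1444) (nat_lit 2182527349) (nat_lit 1520) (nat_lit 707675262) (nat_lit 530) (nat_lit 5) (nat_lit 549) (nat_lit 5) (nat_lit 550) (nat_lit 5) (nat_lit 363) (nat_lit 339) (nat_lit 318)) (XT.lf (nat_lit 0) (nat_lit 3134802589) (nat_lit 1596) (nat_lit 3313296142) (nat_lit 76) (nat_lit 788006615) (nat_lit 509) (nat_lit 5) (nat_lit 530) (nat_lit 5) (nat_lit 510) (nat_lit 5) (nat_lit 364) (nat_lit 339) (nat_lit 317))))))) (XT.nd (nat_lit 858) (nat_lit 7600) (nat_lit 0) (XT.nd (nat_lit 390) (nat_lit 5168) (nat_lit 0) (XT.nd (nat_lit 156) (nat_lit 4256) (nat_lit 0) (XT.nd (nat_lit 78) (nat_lit 1748) (nat_lit 0) (XT.lf (nat_lit 0) (nat_lit 3600437813) (nat_lit 1596) (nat_lit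 3426865459) (nat_lit 1672) (nat_lit 278284482) (nat_lit 488) (nat_lit 5) (nat_lit 509) (nat_lit 5) (nat_lit 510) (nat_lit 5) (nat_lit 365) (nat_lit 339) (nat_lit 316)) (XT.lf (nat_lit 0) (nat_lit 3306901337) (nat_lit 1672) (nat_lit 237103787) (nat_lit 1748) (nat_lit 3834052065) (nat_lit 465) (nat_lit 5) (nat_lit 487) (nat_lit 5) (nat_lit 488) (nat_lit 5) (nat_lit 366) (nat_lit 339) (nat_lit 315))) (XT.nd (nat_lit 78) (nat_lit 2508) (nat_lit 0) (XT.lf (nat_lit 0) (nat_lit 3042534847) (nat_lit 1748) (nat_lit 4390633926) (nat_lit 1824) (nat_lit 20403809) (nat_lit 442) (nat_lit 5) (nat_lit 465) (nat_lit 5) (nat_lit 466) (nat_lit 5) (nat_lit 367) (nat_lit 339) (nat_lit 314)) (XT.nd (nat_lit 78) (nat_lit 988) (nat_lit 0) (XT.lf (nat_lit 0) (nat_lit 2801003089) (nat_lit 1444) (nat_lit 995866665) (nat_lit 1520) (nat_lit 3735193971) (nat_lit 422) (nat_lit 5) (nat_lit 441) (nat_lit 5) (nat_lit 442) (nat_lit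 5) (nat_lit 368) (nat_lit 339) (nat_lit 313)) (XT.lf (nat_lit 0) (nat_lit 72217291) (nat_lit 988) (nat_lit 5022970530) (nat_lit 76) (nat_lit 2518564719) (nat_lit 409) (nat_lit 5) (nat_lit 422) (nat_lit 5) (nat_lit 410) (nat_lit 5) (nat_lit 369) (nat_lit 339) (nat_lit 312))))) (XT.nd (nat_lit 234) (nat_lit 2432) (nat_lit 0) (XT.nd (nat_lit 78) (nat_lit 1824) (nat_lit 0) (XT.lf (nat_lit 0) (nat_lit 2396030699) (nat_lit 912) (nat_lit 1498937243) (nat_lit 988) (nat_lit 3803417982) (nat_lit 397) (nat_lit 5) (nat_lit 409) (nat_lit 5) (nat_lit 410) (nat_lit 5) (nat_lit 370) (nat_lit 339) (nat_lit 311)) (XT.nd (nat_lit 78) (nat_lit 836) (nat_lit 0) (XT.lf (nat_lit 0) (nat_lit 8448483) (nat_lit 988) (nat_lit 5553855237) (nat_lit 76) (nat_lit 2224027872) (nat_lit 384) (nat_lit 5) (nat_lit 397) (nat_lit 5) (nat_lit 385) (nat_lit 5) (nat_lit 371) (nat_lit 339) (nat_lit 310)) (XT.lf (nat_lit 0) (nat_lit 2077950832)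 (nat_lit 836) (nat_lit 1766035009) (nat_lit 912) (nat_lit 4033230283) (nat_lit 373) (nat_lit 5) (nat_lit 384) (nat_lit 5) (nat_lit 385) (nat_lit 5) (nat_lit 372) (nat_lit 339) (nat_lit 309)))) (XT.nd (nat_lit 78) (nat_lit 1596) (nat_lit 0) (XT.lf (nat_lit 0) (nat_lit 1952506375) (nat_lit 836) (nat_lit 5809766239) (nat_lit 912) (nat_lit 209223314) (nat_lit 362) (nat_lit 5) (nat_lit 373) (nat_lit 5) (nat_lit 374) (nat_lit 5) (nat_lit 373) (nat_lit 339) (nat_lit 308)) (XT.nd (nat_lit 78) (nat_lit 760) (nat_lit 0) (XT.lf (nat_lit 0) (nat_lit 1832952374) (nat_lit 760) (nat_lit 1815618124) (nat_lit 836) (nat_lit 4420211069) (nat_lit 351) (nat_lit 5) (nat_lit 361) (nat_lit 5) (nat_lit 362) (nat_lit 5) (nat_lit 374) (nat_lit 339) (nat_lit 307)) (XT.lf (nat_lit 0) (nat_lit 1737515307) (nat_lit 760) (nat_lit 5855789624) (nat_lit 836) (nat_lit 576192900) (nat_lit 341) (nat_lit 5) (nat_lit 351) (nat_lit 5) (nat_lit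 352) (nat_lit 5) (nat_lit 375) (nat_lit 339) (nat_lit 306)))))) (XT.nd (nat_lit 390) (nat_lit 3800) (nat_lit 0) (XT.nd (nat_lit 156) (nat_lit 2204) (nat_lit 0) (XT.nd (nat_lit 78) (nat_lit 760) (nat_lit 0) (XT.lf (nat_lit 0) (nat_lit 1647329356) (nat_lit 760) (nat_lit 1665023560) (nat_lit 836) (nat_lit 4960991506) (nat_lit 330) (nat_lit 5) (nat_lit 340) (nat_lit 5) (nat_lit 341) (nat_lit 5) (nat_lit 376) (nat_lit 339) (nat_lit 305)) (XT.lf (nat_lit 0) (nat_lit 1573927606) (nat_lit 760) (nat_lit 5717298108) (nat_lit 836) (nat_lit 1089393680) (nat_lit 320) (nat_lit 5) (nat_lit 330) (nat_lit 5) (nat_lit 331) (nat_lit 5) (nat_lit 377) (nat_lit 339) (nat_lit 304))) (XT.nd (nat_lit 78) (nat_lit 1444) (nat_lit 0) (XT.lf (nat_lit 0) (nat_lit 1507362002) (nat_lit 684) (nat_lit 1330601759) (nat_lit 760) (nat_lit 5653238222) (nat_lit 310) (nat_lit 5) (nat_lit 319) (nat_lit 5) (nat_lit 320) (nat_lit 5) (nat_lit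 378) (nat_lit 339) (nat_lit 303)) (XT.nd (nat_lit 78) (nat_lit 760) (nat_lit 0) (XT.lf (nat_lit 0) (nat_lit 1448030305) (nat_lit 684) (nat_lit 5410258662) (nat_lit 760) (nat_lit 1746887790) (nat_lit 301) (nat_lit 5) (nat_lit 310) (nat_lit 5) (nat_lit 311) (nat_lit 5) (nat_lit 379) (nat_lit 339) (nat_lit 302)) (XT.lf (nat_lit 0) (nat_lit 1399194886) (nat_lit 684) (nat_lit 827846798) (nat_lit 760) (nat_lit 6495645344) (nat_lit 291) (nat_lit 5) (nat_lit 300) (nat_lit 5) (nat_lit 301) (nat_lit 5) (nat_lit 380) (nat_lit 339) (nat_lit 301))))) (XT.nd (nat_lit 234) (nat_lit 1824) (nat_lit 0) (XT.nd (nat_lit 78) (nat_lit 1292) (nat_lit 0) (XT.lf (nat_lit 0) (nat_lit 1345906485) (nat_lit 684) (nat_lit 4949865373) (nat_lit 760) (nat_lit 2547749824) (nat_lit 282) (nat_lit 5) (nat_lit 291) (nat_lit 5) (nat_lit 292) (nat_lit 5) (nat_lit 381) (nat_lit 339) (nat_lit 300)) (XT.nd (nat_lit 78) (nat_lit 608) (nat_lit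 0) (XT.lf (nat_lit 0) (nat_lit 1308711192) (nat_lit 608) (nat_lit 171523030) (nat_lit 684) (nat_lit 7487934150) (nat_lit 273) (nat_lit 5) (nat_lit 281) (nat_lit 5) (nat_lit 282) (nat_lit 5) (nat_lit 382) (nat_lit 339) (nat_lit 299)) (XT.lf (nat_lit 0) (nat_lit 1253307577) (nat_lit 608) (nat_lit 4350664156) (nat_lit 684) (nat_lit 3492070457) (nat_lit 265) (nat_lit 5) (nat_lit 273) (nat_lit 5) (nat_lit 274) (nat_lit 5) (nat_lit 383) (nat_lit 339) (nat_lit 298)))) (XT.nd (nat_lit 78) (nat_lit 1140) (nat_lit 0) (XT.lf (nat_lit 0) (nat_lit 601243896) (nat_lit 684) (nat_lit 8010702395) (nat_lit 76) (nat_lit 616024231) (nat_lit 256) (nat_lit 5) (nat_lit 265) (nat_lit 5) (nat_lit 257) (nat_lit 5) (nat_lit 384) (nat_lit 339) (nat_lit 297)) (XT.nd (nat_lit 78) (nat_lit 532) (nat_lit 0) (XT.lf (nat_lit 0) (nat_lit 1155520065) (nat_lit 608) (nat_lit 3626675445) (nat_lit 684) (nat_lit 4580967868) (nat_lit 248)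 (nat_lit 5) (nat_lit 256) (nat_lit 5) (nat_lit 257) (nat_lit 5) (nat_lit 385) (nat_lit 339) (nat_lit 296)) (XT.lf (nat_lit 0) (nat_lit 1109218752) (nat_lit 532) (nat_lit 7974397324) (nat_lit 608) (nat_lit 418908681) (nat_lit 241) (nat_lit 5) (nat_lit 248) (nat_lit 5) (nat_lit 249) (nat_lit 5) (nat_lit 386) (nat_lit 339) (nat_lit 295))))))))
noncomputable def xc43 : XT := (XT.nd (nat_lit 1716) (nat_lit 4788) (nat_lit 0) (XT.nd (nat_lit 858) (nat_lit 4408) (nat_lit 0) (XT.nd (nat_lit 390) (nat_lit 2356) (nat_lit 0) (XT.nd (nat_lit 156) (nat_lit 1672) (nat_lit 0) (XT.nd (nat_lit 78) (nat_lit 532) (nat_lit 0) (XT.lf (nat_lit 0) (nat_lit 1037225425) (nat_lit 608) (nat_lit 2791515808) (nat_lit 684) (nat_lit 5816607191) (nat_lit 232) (nat_lit 5) (nat_lit 240) (nat_lit 5) (nat_lit 241) (nat_lit 5) (nat_lit 387) (nat_lit 339) (nat_lit 294)) (XT.lf (nat_lit 0) (nat_lit 967880950) (nat_lit 532) (nat_lit 7236245282)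 (nat_lit 608) (nat_lit 1588167769) (nat_lit 225) (nat_lit 5) (nat_lit 232) (nat_lit 5) (nat_lit 233) (nat_lit 5) (nat_lit 388) (nat_lit 339) (nat_lit 293))) (XT.nd (nat_lit 78) (nat_lit 1064) (nat_lit 0) (XT.lf (nat_lit 0) (nat_lit 882352022) (nat_lit 532) (nat_lit 1858519464) (nat_lit 608) (nat_lit 7202228295) (nat_lit 217) (nat_lit 5) (nat_lit 224) (nat_lit 5) (nat_lit 225) (nat_lit 5) (nat_lit 389) (nat_lit 339) (nat_lit 292)) (XT.nd (nat_lit 78) (nat_lit 608) (nat_lit 0) (XT.lf (nat_lit 0) (nat_lit 780814771) (nat_lit 456) (nat_lit 6414927818) (nat_lit 532) (nat_lit 2902138004) (nat_lit 211) (nat_lit 5) (nat_lit 217) (nat_lit 5) (nat_lit 218) (nat_lit 5) (nat_lit 390) (nat_lit 339) (nat_lit 291)) (XT.lf (nat_lit 0) (nat_lit 673917638) (nat_lit 532) (nat_lit 840860671) (nat_lit 608) (nat_lit 8742182260) (nat_lit 203) (nat_lit 5) (nat_lit 210) (nat_lit 5) (nat_lit 211) (nat_lit 5) (nat_lit 391) (nat_lit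 339) (nat_lit 290))))) (XT.nd (nat_lit 234) (nat_lit 912) (nat_lit 0) (XT.nd (nat_lit 78) (nat_lit 988) (nat_lit 0) (XT.lf (nat_lit 0) (nat_lit 530548278) (nat_lit 456) (nat_lit 5523767558) (nat_lit 532) (nat_lit 4365533286) (nat_lit 197) (nat_lit 5) (nat_lit 203) (nat_lit 5) (nat_lit 204) (nat_lit 5) (nat_lit 392) (nat_lit 339) (nat_lit 289)) (XT.nd (nat_lit 78) (nat_lit 456) (nat_lit 0) (XT.lf (nat_lit 0) (nat_lit 147151456) (nat_lit 532) (nat_lit 10195267278) (nat_lit 76) (nat_lit 245065200) (nat_lit 190) (nat_lit 5) (nat_lit 197) (nat_lit 5) (nat_lit 191) (nat_lit 5) (nat_lit 393) (nat_lit 339) (nat_lit 288)) (XT.lf (nat_lit 0) (nat_lit 198438177) (nat_lit 456) (nat_lit 4576132251) (nat_lit 532) (nat_lit 5984236833) (nat_lit 184) (nat_lit 5) (nat_lit 190) (nat_lit 5) (nat_lit 191) (nat_lit 5) (nat_lit 394) (nat_lit 339) (nat_lit 287)))) (XT.nd (nat_lit 78) (nat_lit 456) (nat_lit 0) (XT.lf (nat_lit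 0) (nat_lit 4465954) (nat_lit 456) (nat_lit 9548570298) (nat_lit 532) (nat_lit 1381999143) (nat_lit 178) (nat_lit 5) (nat_lit 184) (nat_lit 5) (nat_lit 185) (nat_lit 5) (nat_lit 395) (nat_lit 339) (nat_lit 286)) (XT.nd (nat_lit 78) (nat_lit 380) (nat_lit 0) (XT.lf (nat_lit 0) (nat_lit 3351575472) (nat_lit 532) (nat_lit 232428608) (nat_lit 76) (nat_lit 7531373042) (nat_lit 177) (nat_lit 5) (nat_lit 184) (nat_lit 5) (nat_lit 178) (nat_lit 5) (nat_lit 396) (nat_lit 339) (nat_lit 285)) (XT.lf (nat_lit 0) (nat_lit 8232320647) (nat_lit 456) (nat_lit 490812900) (nat_lit 76) (nat_lit 2577342932) (nat_lit 172) (nat_lit 5) (nat_lit 178) (nat_lit 5) (nat_lit 173) (nat_lit 5) (nat_lit 397) (nat_lit 339) (nat_lit 284)))))) (XT.nd (nat_lit 390) (nat_lit 2280) (nat_lit 0) (XT.nd (nat_lit 156) (nat_lit 1216) (nat_lit 0) (XT.nd (nat_lit 78) (nat_lit 380) (nat_lit 0) (XT.lf (nat_lit 0) (nat_lit 1778178366) (nat_lit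 532) (nat_lit 782482694) (nat_lit 76) (nat_lit 8929586339) (nat_lit 165) (nat_lit 5) (nat_lit 172) (nat_lit 5) (nat_lit 166) (nat_lit 5) (nat_lit 398) (nat_lit 339) (nat_lit 283)) (XT.lf (nat_lit 0) (nat_lit 6764034388) (nat_lit 456) (nat_lit 1119726829) (nat_lit 76) (nat_lit 3800836490) (nat_lit 160) (nat_lit 5) (nat_lit 166) (nat_lit 5) (nat_lit 161) (nat_lit 5) (nat_lit 399) (nat_lit 339) (nat_lit 282))) (XT.nd (nat_lit 78) (nat_lit 760) (nat_lit 0) (XT.lf (nat_lit 0) (nat_lit 44196418) (nat_lit 456) (nat_lit 1477363419) (nat_lit 76) (nat_lit 10362630547) (nat_lit 154) (nat_lit 5) (nat_lit 160) (nat_lit 5) (nat_lit 155) (nat_lit 5) (nat_lit 400) (nat_lit 339) (nat_lit 281)) (XT.nd (nat_lit 78) (nat_lit 380) (nat_lit 0) (XT.lf (nat_lit 0) (nat_lit 5138835211) (nat_lit 456) (nat_lit 1906322285) (nat_lit 76) (nat_lit 5043014667) (nat_lit 149) (nat_lit 5) (nat_lit 155) (nat_lit 5) (nat_lit 150) (nat_lit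 5) (nat_lit 401) (nat_lit 339) (nat_lit 280)) (XT.lf (nat_lit 0) (nat_lit 9943419210) (nat_lit 380) (nat_lit 468937345) (nat_lit 456) (nat_lit 1885403322) (nat_lit 144) (nat_lit 5) (nat_lit 149) (nat_lit 5) (nat_lit 150) (nat_lit 5) (nat_lit 402) (nat_lit 339) (nat_lit 279))))) (XT.nd (nat_lit 234) (nat_lit 1064) (nat_lit 0) (XT.nd (nat_lit 78) (nat_lit 760) (nat_lit 0) (XT.lf (nat_lit 0) (nat_lit 3345963732) (nat_lit 456) (nat_lit 2876706981) (nat_lit 76) (nat_lit 6289355137) (nat_lit 138) (nat_lit 5) (nat_lit 144) (nat_lit 5) (nat_lit 139) (nat_lit 5) (nat_lit 403) (nat_lit 339) (nat_lit 278)) (XT.nd (nat_lit 78) (nat_lit 380) (nat_lit 0) (XT.lf (nat_lit 0) (nat_lit 8735001976) (nat_lit 456) (nat_lit 3433648347) (nat_lit 76) (nat_lit 563300112) (nat_lit 133) (nat_lit 5) (nat_lit 139) (nat_lit 5) (nat_lit 134) (nat_lit 5) (nat_lit 404) (nat_lit 339) (nat_lit 277)) (XT.lf (nat_lit 0) (nat_lit 1373105224)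 (nat_lit 380) (nat_lit 4059375784) (nat_lit 76) (nat_lit 7524560396) (nat_lit 128) (nat_lit 5) (nat_lit 133) (nat_lit 5) (nat_lit 129) (nat_lit 5) (nat_lit 405) (nat_lit 339) (nat_lit 276)))) (XT.nd (nat_lit 78) (nat_lit 684) (nat_lit 0) (XT.lf (nat_lit 0) (nat_lit 6883345062) (nat_lit 456) (nat_lit 4744035517) (nat_lit 76) (nat_lit 1560314653) (nat_lit 123) (nat_lit 5) (nat_lit 129) (nat_lit 5) (nat_lit 124) (nat_lit 5) (nat_lit 406) (nat_lit 339) (nat_lit 275)) (XT.nd (nat_lit 78) (nat_lit 380) (nat_lit 0) (XT.lf (nat_lit 0) (nat_lit 7933332345) (nat_lit 304) (nat_lit 4686442528) (nat_lit 380) (nat_lit 804282239) (nat_lit 119) (nat_lit 5) (nat_lit 123) (nat_lit 5) (nat_lit 124) (nat_lit 5) (nat_lit 407) (nat_lit 339) (nat_lit 274)) (XT.lf (nat_lit 0) (nat_lit 4839786256) (nat_lit 380) (nat_lit 6315082098) (nat_lit 76) (nat_lit 2511161134) (nat_lit 114) (nat_lit 5) (nat_lit 119) (nat_lit 5) (nat_lit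 115) (nat_lit 5) (nat_lit 408) (nat_lit 339) (nat_lit 273))))))) (XT.nd (nat_lit 858) (nat_lit 1748) (nat_lit 0) (XT.nd (nat_lit 390) (nat_lit 1444) (nat_lit 0) (XT.nd (nat_lit 156) (nat_lit 912) (nat_lit 0) (XT.nd (nat_lit 78) (nat_lit 380) (nat_lit 0) (XT.lf (nat_lit 0) (nat_lit 6703856829) (nat_lit 304) (nat_lit 3997621068) (nat_lit 380) (nat_lit 3212497879) (nat_lit 110) (nat_lit 5) (nat_lit 114) (nat_lit 5) (nat_lit 115) (nat_lit 5) (nat_lit 409) (nat_lit 339) (nat_lit 272)) (XT.lf (nat_lit 0) (nat_lit 2587892934) (nat_lit 380) (nat_lit 8182585031) (nat_lit 76) (nat_lit 3397515475) (nat_lit 105) (nat_lit 5) (nat_lit 110) (nat_lit 5) (nat_lit 106) (nat_lit 5) (nat_lit 410) (nat_lit 339) (nat_lit 271))) (XT.nd (nat_lit 78) (nat_lit 608) (nat_lit 0) (XT.lf (nat_lit 0) (nat_lit 5181886115) (nat_lit 304) (nat_lit 3394848331) (nat_lit 380) (nat_lit 5851316015) (nat_lit 101) (nat_lit 5) (nat_lit 105)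 (nat_lit 5) (nat_lit 106) (nat_lit 5) (nat_lit 411) (nat_lit 339) (nat_lit 270)) (XT.nd (nat_lit 78) (nat_lit 228) (nat_lit 0) (XT.lf (nat_lit 0) (nat_lit 109190001) (nat_lit 380) (nat_lit 10385880578) (nat_lit 76) (nat_lit 4199627061) (nat_lit 96) (nat_lit 5) (nat_lit 101) (nat_lit 5) (nat_lit 97) (nat_lit 5) (nat_lit 412) (nat_lit 339) (nat_lit 269)) (XT.lf (nat_lit 0) (nat_lit 3327177273) (nat_lit 228) (nat_lit 2899312540) (nat_lit 304) (nat_lit 8740936184) (nat_lit 93) (nat_lit 5) (nat_lit 96) (nat_lit 5) (nat_lit 97) (nat_lit 5) (nat_lit 413) (nat_lit 339) (nat_lit 268))))) (XT.nd (nat_lit 234) (nat_lit 836) (nat_lit 0) (XT.nd (nat_lit 78) (nat_lit 304) (nat_lit 0) (XT.lf (nat_lit 0) (nat_lit 2261518954) (nat_lit 304) (nat_lit 10333661399) (nat_lit 380) (nat_lit 2651803085) (nat_lit 89) (nat_lit 5) (nat_lit 93) (nat_lit 5) (nat_lit 94) (nat_lit 5) (nat_lit 414) (nat_lit 339) (nat_lit 267)) (XT.nd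 (nat_lit 78) (nat_lit 0) (nat_lit 0) (XT.lf (nat_lit 0) (nat_lit 1095392996) (nat_lit 228) (nat_lit 2533998850) (nat_lit 304) (nat_lit 11903932833) (nat_lit 85) (nat_lit 5) (nat_lit 88) (nat_lit 5) (nat_lit 89) (nat_lit 5) (nat_lit 415) (nat_lit 339) (nat_lit 266)) (XT.lf (nat_lit 0) (nat_lit 10139142340) (nat_lit 304) (nat_lit 185406556) (nat_lit 76) (nat_lit 5501838063) (nat_lit 85) (nat_lit 5) (nat_lit 89) (nat_lit 5) (nat_lit 86) (nat_lit 5) (nat_lit 416) (nat_lit 339) (nat_lit 265)))) (XT.nd (nat_lit 78) (nat_lit 456) (nat_lit 0) (XT.lf (nat_lit 0) (nat_lit 771720305) (nat_lit 380) (nat_lit 1541868057) (nat_lit 76) (nat_lit 13813260566) (nat_lit 80) (nat_lit 5) (nat_lit 85) (nat_lit 5) (nat_lit 81) (nat_lit 5) (nat_lit 417) (nat_lit 339) (nat_lit 264)) (XT.nd (nat_lit 78) (nat_lit 228) (nat_lit 0) (XT.lf (nat_lit 0) (nat_lit 7428854180) (nat_lit 304) (nat_lit 3049449118) (nat_lit 76) (nat_lit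 5955640245) (nat_lit 77) (nat_lit 5) (nat_lit 81) (nat_lit 5) (nat_lit 78) (nat_lit 5) (nat_lit 418) (nat_lit 339) (nat_lit 263)) (XT.lf (nat_lit 0) (nat_lit 12095077963) (nat_lit 228) (nat_lit 2249409094) (nat_lit 304) (nat_lit 2404592109) (nat_lit 74) (nat_lit 5) (nat_lit 77) (nat_lit 5) (nat_lit 78) (nat_lit 5) (nat_lit 419) (nat_lit 339) (nat_lit 262)))))) (XT.nd (nat_lit 390) (nat_lit 532) (nat_lit 0) (XT.nd (nat_lit 156) (nat_lit 684) (nat_lit 0) (XT.nd (nat_lit 78) (nat_lit 228) (nat_lit 0) (XT.lf (nat_lit 0) (nat_lit 4422352108) (nat_lit 304) (nat_lit 6416216258) (nat_lit 76) (nat_lit 6232812430) (nat_lit 70) (nat_lit 5) (nat_lit 74) (nat_lit 5) (nat_lit 71) (nat_lit 5) (nat_lit 420) (nat_lit 339) (nat_lit 261)) (XT.lf (nat_lit 0) (nat_lit 9096052207) (nat_lit 228) (nat_lit 2386836962) (nat_lit 304) (nat_lit 5918918926) (nat_lit 67) (nat_lit 5) (nat_lit 70) (nat_lit 5) (nat_lit 71) (nat_lit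 5) (nat_lit 421) (nat_lit 339) (nat_lit 260))) (XT.nd (nat_lit 78) (nat_lit 380) (nat_lit 0) (XT.lf (nat_lit 0) (nat_lit 1089254415) (nat_lit 304) (nat_lit 10347497322) (nat_lit 76) (nat_lit 6303479383) (nat_lit 63) (nat_lit 5) (nat_lit 67) (nat_lit 5) (nat_lit 64) (nat_lit 5) (nat_lit 422) (nat_lit 339) (nat_lit 259)) (XT.nd (nat_lit 78) (nat_lit 152) (nat_lit 0) (XT.lf (nat_lit 0) (nat_lit 5529507547) (nat_lit 228) (nat_lit 2763259968) (nat_lit 304) (nat_lit 9793949956) (nat_lit 60) (nat_lit 5) (nat_lit 63) (nat_lit 5) (nat_lit 64) (nat_lit 5) (nat_lit 423) (nat_lit 339) (nat_lit 258)) (XT.lf (nat_lit 0) (nat_lit 3513097518) (nat_lit 152) (nat_lit 12289856968) (nat_lit 228) (nat_lit 2638835766) (nat_lit 58) (nat_lit 5) (nat_lit 60) (nat_lit 5) (nat_lit 61) (nat_lit 5) (nat_lit 424) (nat_lit 339) (nat_lit 257))))) (XT.nd (nat_lit 46488) (nat_lit 0) (nat_lit 51680) (XT.nd (nat_lit 78) (nat_lit 228)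 (nat_lit 0) (XT.lf (nat_lit 0) (nat_lit 1325136810) (nat_lit 228) (nat_lit 3414090146) (nat_lit 304) (nat_lit 14066270145) (nat_lit 54) (nat_lit 5) (nat_lit 57) (nat_lit 5) (nat_lit 58) (nat_lit 5) (nat_lit 425) (nat_lit 339) (nat_lit 256)) (XT.nd (nat_lit 78) (nat_lit 228) (nat_lit 0) (XT.lf (nat_lit 0) (nat_lit 12400168734) (nat_lit 304) (nat_lit 1036171664) (nat_lit 76) (nat_lit 5741481098) (nat_lit 54) (nat_lit 5) (nat_lit 58) (nat_lit 5) (nat_lit 55) (nat_lit 5) (nat_lit 426) (nat_lit 339) (nat_lit 255)) (XT.lf (nat_lit 0) (nat_lit 806829686) (nat_lit 228) (nat_lit 3547682461) (nat_lit 76) (nat_lit 15204976040) (nat_lit 51) (nat_lit 5) (nat_lit 54) (nat_lit 5) (nat_lit 52) (nat_lit 5) (nat_lit 427) (nat_lit 339) (nat_lit 254)))) (XT.nd (nat_lit 78) (nat_lit 228) (nat_lit 0) (XT.lf (nat_lit 0) (nat_lit 1073741823) (nat_lit 0) (nat_lit 0) (nat_lit 0) (nat_lit 0) (nat_lit 734) (nat_lit 0) (nat_lit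 1) (nat_lit 0) (nat_lit 1) (nat_lit 0) (nat_lit 340) (nat_lit 340) (nat_lit 340)) (XT.nd (nat_lit 78) (nat_lit 152) (nat_lit 0) (XT.lf (nat_lit 0) (nat_lit 4669540574) (nat_lit 76) (nat_lit 1697217631) (nat_lit 0) (nat_lit 76948724) (nat_lit 733) (nat_lit 5) (nat_lit 734) (nat_lit 0) (nat_lit 733) (nat_lit 4) (nat_lit 341) (nat_lit 340) (nat_lit 339)) (XT.lf (nat_lit 0) (nat_lit 2831962194) (nat_lit 152) (nat_lit 3330855255) (nat_lit 76) (nat_lit 285113507) (nat_lit 731) (nat_lit 5) (nat_lit 733) (nat_lit 5) (nat_lit 732) (nat_lit 4) (nat_lit 342) (nat_lit 340) (nat_lit 338))))))))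
noncomputable def xc44 : XT := (XT.nd (nat_lit 1716) (nat_lit 19836) (nat_lit 0) (XT.nd (nat_lit 858) (nat_lit 12236) (nat_lit 0) (XT.nd (nat_lit 390) (nat_lit 3344) (nat_lit 0) (XT.nd (nat_lit 156) (nat_lit 836) (nat_lit 0) (XT.nd (nat_lit 78) (nat_lit 228) (nat_lit 0) (XT.lf (nat_lit 0) (nat_lit 928230913) (nat_lit 228) (nat_lit 4902186237) (nat_lit 76) (nat_lit 624708913) (nat_lit 728) (nat_lit 5) (nat_lit 731) (nat_lit 5) (nat_lit 729) (nat_lit 5) (nat_lit 343) (nat_lit 340) (nat_lit 337)) (XT.lf (nat_lit 0) (nat_lit 45878661) (nat_lit 228) (nat_lit 5362210238) (nat_lit 304) (nat_lit 1057071273) (nat_lit 725) (nat_lit 5) (nat_lit 728) (nat_lit 5) (nat_lit 729) (nat_lit 5) (nat_lit 344) (nat_lit 340) (nat_lit 336))) (XT.nd (nat_lit 78) (nat_lit 760) (nat_lit 0) (XT.lf (nat_lit 0) (nat_lit 3362205586) (nat_lit 304) (nat_lit 1386511249) (nat_lit 76) (nat_lit 1729147355) (nat_lit 724) (nat_lit 5) (nat_lit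 728) (nat_lit 5) (nat_lit 725) (nat_lit 5) (nat_lit 345) (nat_lit 340) (nat_lit 335)) (XT.nd (nat_lit 78) (nat_lit 380) (nat_lit 0) (XT.lf (nat_lit 0) (nat_lit 1247231949) (nat_lit 380) (nat_lit 2757711769) (nat_lit 76) (nat_lit 2488610263) (nat_lit 719) (nat_lit 5) (nat_lit 724) (nat_lit 5) (nat_lit 720) (nat_lit 5) (nat_lit 346) (nat_lit 340) (nat_lit 334)) (XT.lf (nat_lit 0) (nat_lit 2436618124) (nat_lit 380) (nat_lit 3124121564) (nat_lit 456) (nat_lit 951383579) (nat_lit 714) (nat_lit 5) (nat_lit 719) (nat_lit 5) (nat_lit 720) (nat_lit 5) (nat_lit 347) (nat_lit 340) (nat_lit 333))))) (XT.nd (nat_lit 234) (nat_lit 2204) (nat_lit 0) (XT.nd (nat_lit 78) (nat_lit 608) (nat_lit 0) (XT.lf (nat_lit 0) (nat_lit 1190194394) (nat_lit 456) (nat_lit 2102781784) (nat_lit 532) (nat_lit 3240559172) (nat_lit 707) (nat_lit 5) (nat_lit 713) (nat_lit 5) (nat_lit 714) (nat_lit 5) (nat_lit 348) (nat_lit 340) (nat_lit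 332)) (XT.nd (nat_lit 78) (nat_lit 0) (nat_lit 0) (XT.lf (nat_lit 0) (nat_lit 4064549) (nat_lit 532) (nat_lit 948233707) (nat_lit 608) (nat_lit 5605671506) (nat_lit 699) (nat_lit 5) (nat_lit 706) (nat_lit 5) (nat_lit 707) (nat_lit 5) (nat_lit 349) (nat_lit 340) (nat_lit 331)) (XT.lf (nat_lit 0) (nat_lit 5112062882) (nat_lit 608) (nat_lit 1119764643) (nat_lit 76) (nat_lit 353232759) (nat_lit 699) (nat_lit 5) (nat_lit 707) (nat_lit 5) (nat_lit 700) (nat_lit 5) (nat_lit 350) (nat_lit 340) (nat_lit 330)))) (XT.nd (nat_lit 78) (nat_lit 1520) (nat_lit 0) (XT.lf (nat_lit 0) (nat_lit 2632813403) (nat_lit 684) (nat_lit 2199435615) (nat_lit 76) (nat_lit 1782691561) (nat_lit 690) (nat_lit 5) (nat_lit 699) (nat_lit 5) (nat_lit 691) (nat_lit 5) (nat_lit 351) (nat_lit 340) (nat_lit 329)) (XT.nd (nat_lit 78) (nat_lit 760) (nat_lit 0) (XT.lf (nat_lit 0) (nat_lit 76912896) (nat_lit 760) (nat_lit 3223242886) (nat_lit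 76) (nat_lit 3347726142) (nat_lit 680) (nat_lit 5) (nat_lit 690) (nat_lit 5) (nat_lit 681) (nat_lit 5) (nat_lit 352) (nat_lit 340) (nat_lit 328)) (XT.lf (nat_lit 0) (nat_lit 2474911114) (nat_lit 760) (nat_lit 1616785866) (nat_lit 836) (nat_lit 2591874493) (nat_lit 670) (nat_lit 5) (nat_lit 680) (nat_lit 5) (nat_lit 681) (nat_lit 5) (nat_lit 353) (nat_lit 340) (nat_lit 327)))))) (XT.nd (nat_lit 390) (nat_lit 8208) (nat_lit 0) (XT.nd (nat_lit 156) (nat_lit 2204) (nat_lit 0) (XT.nd (nat_lit 78) (nat_lit 912) (nat_lit 0) (XT.lf (nat_lit 0) (nat_lit 1379690071) (nat_lit 912) (nat_lit 5141809100) (nat_lit 76) (nat_lit 200825351) (nat_lit 658) (nat_lit 5) (nat_lit 670) (nat_lit 5) (nat_lit 659) (nat_lit 5) (nat_lit 354) (nat_lit 340) (nat_lit 326)) (XT.lf (nat_lit 0) (nat_lit 721762908) (nat_lit 912) (nat_lit 4620858905) (nat_lit 988) (nat_lit 1421171283) (nat_lit 646) (nat_lit 5) (nat_lit 658) (nat_lit 5)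 (nat_lit 659) (nat_lit 5) (nat_lit 355) (nat_lit 340) (nat_lit 325))) (XT.nd (nat_lit 78) (nat_lit 2128) (nat_lit 0) (XT.lf (nat_lit 0) (nat_lit 2484132859) (nat_lit 988) (nat_lit 90316857) (nat_lit 76) (nat_lit 4233747548) (nat_lit 645) (nat_lit 5) (nat_lit 658) (nat_lit 5) (nat_lit 646) (nat_lit 5) (nat_lit 356) (nat_lit 340) (nat_lit 324)) (XT.nd (nat_lit 78) (nat_lit 1140) (nat_lit 0) (XT.lf (nat_lit 0) (nat_lit 6013286063) (nat_lit 988) (nat_lit 382531415) (nat_lit 1064) (nat_lit 459798504) (nat_lit 632) (nat_lit 5) (nat_lit 645) (nat_lit 5) (nat_lit 646) (nat_lit 5) (nat_lit 357) (nat_lit 340) (nat_lit 323)) (XT.lf (nat_lit 0) (nat_lit 3394016490) (nat_lit 1140) (nat_lit 1570810924) (nat_lit 76) (nat_lit 1940815802) (nat_lit 617) (nat_lit 5) (nat_lit 632) (nat_lit 5) (nat_lit 618) (nat_lit 5) (nat_lit 358) (nat_lit 340) (nat_lit 322))))) (XT.nd (nat_lit 234) (nat_lit 4408) (nat_lit 0) (XT.nd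 (nat_lit 78) (nat_lit 2584) (nat_lit 0) (XT.lf (nat_lit 0) (nat_lit 308163644) (nat_lit 1216) (nat_lit 2250395105) (nat_lit 76) (nat_lit 4400270381) (nat_lit 601) (nat_lit 5) (nat_lit 617) (nat_lit 5) (nat_lit 602) (nat_lit 5) (nat_lit 359) (nat_lit 340) (nat_lit 321)) (XT.nd (nat_lit 78) (nat_lit 1368) (nat_lit 0) (XT.lf (nat_lit 0) (nat_lit 4109785296) (nat_lit 1292) (nat_lit 2897806351) (nat_lit 76) (nat_lit 7291774) (nat_lit 585) (nat_lit 5) (nat_lit 602) (nat_lit 5) (nat_lit 586) (nat_lit 5) (nat_lit 360) (nat_lit 340) (nat_lit 320)) (XT.lf (nat_lit 0) (nat_lit 875779647) (nat_lit 1368) (nat_lit 3514572143) (nat_lit 76) (nat_lit 2683469258) (nat_lit 567) (nat_lit 5) (nat_lit 585) (nat_lit 5) (nat_lit 568) (nat_lit 5) (nat_lit 361) (nat_lit 340) (nat_lit 319)))) (XT.nd (nat_lit 78) (nat_lit 3040) (nat_lit 0) (XT.lf (nat_lit 0) (nat_lit 3037342826) (nat_lit 1368) (nat_lit 1615325493) (nat_lit 1444)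 (nat_lit 2483066603) (nat_lit 549) (nat_lit 5) (nat_lit 567) (nat_lit 5) (nat_lit 568) (nat_lit 5) (nat_lit 362) (nat_lit 340) (nat_lit 318)) (XT.nd (nat_lit 78) (nat_lit 1520) (nat_lit 0) (XT.lf (nat_lit 0) (nat_lit 1259196648) (nat_lit 1520) (nat_lit 4648222165) (nat_lit 76) (nat_lit 1293275447) (nat_lit 529) (nat_lit 5) (nat_lit 549) (nat_lit 5) (nat_lit 530) (nat_lit 5) (nat_lit 363) (nat_lit 340) (nat_lit 317)) (XT.lf (nat_lit 0) (nat_lit 2092517838) (nat_lit 1520) (nat_lit 2927202322) (nat_lit 1596) (nat_lit 2248790124) (nat_lit 509) (nat_lit 5) (nat_lit 529) (nat_lit 5) (nat_lit 530) (nat_lit 5) (nat_lit 364) (nat_lit 340) (nat_lit 316))))))) (XT.nd (nat_lit 858) (nat_lit 7752) (nat_lit 0) (XT.nd (nat_lit 390) (nat_lit 4484) (nat_lit 0) (XT.nd (nat_lit 156) (nat_lit 4256) (nat_lit 0) (XT.nd (nat_lit 78) (nat_lit 1672) (nat_lit 0) (XT.lf (nat_lit 0) (nat_lit 1467316438) (nat_lit 1672) (nat_lit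 5667021560) (nat_lit 76) (nat_lit 205189988) (nat_lit 487) (nat_lit 5) (nat_lit 509) (nat_lit 5) (nat_lit 488) (nat_lit 5) (nat_lit 365) (nat_lit 340) (nat_lit 315)) (XT.lf (nat_lit 0) (nat_lit 1267311586) (nat_lit 1672) (nat_lit 3952077726) (nat_lit 1748) (nat_lit 2193917296) (nat_lit 465) (nat_lit 5) (nat_lit 487) (nat_lit 5) (nat_lit 488) (nat_lit 5) (nat_lit 366) (nat_lit 340) (nat_lit 314))) (XT.nd (nat_lit 78) (nat_lit 2432) (nat_lit 0) (XT.lf (nat_lit 0) (nat_lit 900293381) (nat_lit 1748) (nat_lit 611557485) (nat_lit 1824) (nat_lit 5978506858) (nat_lit 441) (nat_lit 5) (nat_lit 464) (nat_lit 5) (nat_lit 465) (nat_lit 5) (nat_lit 367) (nat_lit 340) (nat_lit 313)) (XT.nd (nat_lit 78) (nat_lit 988) (nat_lit 0) (XT.lf (nat_lit 0) (nat_lit 546916980) (nat_lit 1444) (nat_lit 4712123573) (nat_lit 1520) (nat_lit 2311214912) (nat_lit 422) (nat_lit 5) (nat_lit 441) (nat_lit 5) (nat_lit 442) (nat_lit 5)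 (nat_lit 368) (nat_lit 340) (nat_lit 312)) (XT.lf (nat_lit 0) (nat_lit 225703237) (nat_lit 912) (nat_lit 1169404577) (nat_lit 988) (nat_lit 6258312115) (nat_lit 409) (nat_lit 5) (nat_lit 421) (nat_lit 5) (nat_lit 422) (nat_lit 5) (nat_lit 369) (nat_lit 340) (nat_lit 311))))) (XT.nd (nat_lit 234) (nat_lit 2584) (nat_lit 0) (XT.nd (nat_lit 78) (nat_lit 1900) (nat_lit 0) (XT.lf (nat_lit 0) (nat_lit 5145489595) (nat_lit 988) (nat_lit 81966803) (nat_lit 76) (nat_lit 2512056234) (nat_lit 409) (nat_lit 5) (nat_lit 422) (nat_lit 5) (nat_lit 410) (nat_lit 5) (nat_lit 370) (nat_lit 340) (nat_lit 310)) (XT.nd (nat_lit 78) (nat_lit 912) (nat_lit 0) (XT.lf (nat_lit 0) (nat_lit 1123784017) (nat_lit 988) (nat_lit 359419969) (nat_lit 76) (nat_lit 6345672596) (nat_lit 396) (nat_lit 5) (nat_lit 409) (nat_lit 5) (nat_lit 397) (nat_lit 5) (nat_lit 371) (nat_lit 340) (nat_lit 309)) (XT.lf (nat_lit 0) (nat_lit 4886476487)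 (nat_lit 988) (nat_lit 628345091) (nat_lit 76) (nat_lit 2406407470) (nat_lit 384) (nat_lit 5) (nat_lit 397) (nat_lit 5) (nat_lit 385) (nat_lit 5) (nat_lit 372) (nat_lit 340) (nat_lit 308)))) (XT.nd (nat_lit 78) (nat_lit 1672) (nat_lit 0) (XT.lf (nat_lit 0) (nat_lit 701151845) (nat_lit 912) (nat_lit 871875524) (nat_lit 76) (nat_lit 6443944526) (nat_lit 372) (nat_lit 5) (nat_lit 384) (nat_lit 5) (nat_lit 373) (nat_lit 5) (nat_lit 373) (nat_lit 340) (nat_lit 307)) (XT.nd (nat_lit 78) (nat_lit 836) (nat_lit 0) (XT.lf (nat_lit 0) (nat_lit 4482740496) (nat_lit 912) (nat_lit 1113108827) (nat_lit 76) (nat_lit 2519860464) (nat_lit 361) (nat_lit 5) (nat_lit 373) (nat_lit 5) (nat_lit 362) (nat_lit 5) (nat_lit 374) (nat_lit 340) (nat_lit 306)) (XT.lf (nat_lit 0) (nat_lit 129439658) (nat_lit 836) (nat_lit 1328360513) (nat_lit 76) (nat_lit 6760185008) (nat_lit 350) (nat_lit 5) (nat_lit 361) (nat_lit 5) (nat_lit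 351) (nat_lit 5) (nat_lit 375) (nat_lit 340) (nat_lit 305)))))) (XT.nd (nat_lit 390) (nat_lit 3952) (nat_lit 0) (XT.nd (nat_lit 156) (nat_lit 2280) (nat_lit 0) (XT.nd (nat_lit 78) (nat_lit 760) (nat_lit 0) (XT.lf (nat_lit 0) (nat_lit 3937568559) (nat_lit 836) (nat_lit 1549905427) (nat_lit 76) (nat_lit 2835749589) (nat_lit 340) (nat_lit 5) (nat_lit 351) (nat_lit 5) (nat_lit 341) (nat_lit 5) (nat_lit 376) (nat_lit 340) (nat_lit 304)) (XT.lf (nat_lit 0) (nat_lit 6685658629) (nat_lit 760) (nat_lit 1149974307) (nat_lit 836) (nat_lit 596490928) (nat_lit 330) (nat_lit 5) (nat_lit 340) (nat_lit 5) (nat_lit 341) (nat_lit 5) (nat_lit 377) (nat_lit 340) (nat_lit 303))) (XT.nd (nat_lit 78) (nat_lit 1444) (nat_lit 0) (XT.lf (nat_lit 0) (nat_lit 3253259047) (nat_lit 836) (nat_lit 1952428095) (nat_lit 76) (nat_lit 3338386875) (nat_lit 319) (nat_lit 5) (nat_lit 330) (nat_lit 5) (nat_lit 320) (nat_lit 5) (nat_lit 378)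 (nat_lit 340) (nat_lit 302)) (XT.nd (nat_lit 78) (nat_lit 760) (nat_lit 0) (XT.lf (nat_lit 0) (nat_lit 6521812670) (nat_lit 684) (nat_lit 667163555) (nat_lit 760) (nat_lit 1470773183) (nat_lit 310) (nat_lit 5) (nat_lit 319) (nat_lit 5) (nat_lit 320) (nat_lit 5) (nat_lit 379) (nat_lit 340) (nat_lit 301)) (XT.lf (nat_lit 0) (nat_lit 2431129233) (nat_lit 760) (nat_lit 2334535211) (nat_lit 76) (nat_lit 4012935542) (nat_lit 300) (nat_lit 5) (nat_lit 310) (nat_lit 5) (nat_lit 301) (nat_lit 5) (nat_lit 380) (nat_lit 340) (nat_lit 300))))) (XT.nd (nat_lit 234) (nat_lit 1900) (nat_lit 0) (XT.nd (nat_lit 78) (nat_lit 1368) (nat_lit 0) (XT.lf (nat_lit 0) (nat_lit 6385279061) (nat_lit 684) (nat_lit 24970992) (nat_lit 760) (nat_lit 2490984590) (nat_lit 291) (nat_lit 5) (nat_lit 300) (nat_lit 5) (nat_lit 301) (nat_lit 5) (nat_lit 381) (nat_lit 340) (nat_lit 299)) (XT.nd (nat_lit 78) (nat_lit 608) (nat_lit 0) (XT.lf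 (nat_lit 0) (nat_lit 1471515431) (nat_lit 760) (nat_lit 2710373707) (nat_lit 76) (nat_lit 4845287050) (nat_lit 281) (nat_lit 5) (nat_lit 291) (nat_lit 5) (nat_lit 282) (nat_lit 5) (nat_lit 382) (nat_lit 340) (nat_lit 298)) (XT.lf (nat_lit 0) (nat_lit 5504489006) (nat_lit 684) (nat_lit 2899857890) (nat_lit 76) (nat_lit 752525611) (nat_lit 273) (nat_lit 5) (nat_lit 282) (nat_lit 5) (nat_lit 274) (nat_lit 5) (nat_lit 383) (nat_lit 340) (nat_lit 297)))) (XT.nd (nat_lit 78) (nat_lit 1216) (nat_lit 0) (XT.lf (nat_lit 0) (nat_lit 373765672) (nat_lit 684) (nat_lit 3094507490) (nat_lit 76) (nat_lit 5821940721) (nat_lit 264) (nat_lit 5) (nat_lit 273) (nat_lit 5) (nat_lit 265) (nat_lit 5) (nat_lit 384) (nat_lit 340) (nat_lit 296)) (XT.nd (nat_lit 78) (nat_lit 608) (nat_lit 0) (XT.lf (nat_lit 0) (nat_lit 4466858881) (nat_lit 684) (nat_lit 3300580716) (nat_lit 76) (nat_lit 1659730982) (nat_lit 256) (nat_lit 5)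 (nat_lit 265) (nat_lit 5) (nat_lit 257) (nat_lit 5) (nat_lit 385) (nat_lit 340) (nat_lit 295)) (XT.lf (nat_lit 0) (nat_lit 6060313366) (nat_lit 608) (nat_lit 2632480408) (nat_lit 684) (nat_lit 875254376) (nat_lit 248) (nat_lit 5) (nat_lit 256) (nat_lit 5) (nat_lit 257) (nat_lit 5) (nat_lit 386) (nat_lit 340) (nat_lit 294))))))))
noncomputable def xc45 : XT := (XT.nd (nat_lit 1716) (nat_lit 5016) (nat_lit 0) (XT.nd (nat_lit 858) (nat_lit 4104) (nat_lit 0) (XT.nd (nat_lit 390) (nat_lit 2888) (nat_lit 0) (XT.nd (nat_lit 156) (nat_lit 1672) (nat_lit 0) (XT.nd (nat_lit 78) (nat_lit 608) (nat_lit 0) (XT.lf (nat_lit 0) (nat_lit 3295208456) (nat_lit 608) (nat_lit 3733370528) (nat_lit 76) (nat_lit 2684021700) (nat_lit 240) (nat_lit 5) (nat_lit 248) (nat_lit 5) (nat_lit 241) (nat_lit 5) (nat_lit 387) (nat_lit 340) (nat_lit 293)) (XT.lf (nat_lit 0) (nat_lit 5897633808) (nat_lit 608) (nat_lit 1689970757) (nat_lit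 684) (nat_lit 2273607462) (nat_lit 232) (nat_lit 5) (nat_lit 240) (nat_lit 5) (nat_lit 241) (nat_lit 5) (nat_lit 388) (nat_lit 340) (nat_lit 292))) (XT.nd (nat_lit 78) (nat_lit 1064) (nat_lit 0) (XT.lf (nat_lit 0) (nat_lit 1986521546) (nat_lit 608) (nat_lit 4214408023) (nat_lit 76) (nat_lit 3812740941) (nat_lit 224) (nat_lit 5) (nat_lit 232) (nat_lit 5) (nat_lit 225) (nat_lit 5) (nat_lit 389) (nat_lit 340) (nat_lit 291)) (XT.nd (nat_lit 78) (nat_lit 532) (nat_lit 0) (XT.lf (nat_lit 0) (nat_lit 5694024707) (nat_lit 532) (nat_lit 656141988) (nat_lit 608) (nat_lit 3820114678) (nat_lit 217) (nat_lit 5) (nat_lit 224) (nat_lit 5) (nat_lit 225) (nat_lit 5) (nat_lit 390) (nat_lit 340) (nat_lit 290)) (XT.lf (nat_lit 0) (nat_lit 536719578) (nat_lit 532) (nat_lit 4760801204) (nat_lit 76) (nat_lit 5033407465) (nat_lit 210) (nat_lit 5) (nat_lit 217) (nat_lit 5) (nat_lit 211) (nat_lit 5) (nat_lit 391) (nat_lit 340)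 (nat_lit 289))))) (XT.nd (nat_lit 234) (nat_lit 1368) (nat_lit 0) (XT.nd (nat_lit 78) (nat_lit 988) (nat_lit 0) (XT.lf (nat_lit 0) (nat_lit 4979110349) (nat_lit 608) (nat_lit 5066422129) (nat_lit 76) (nat_lit 450232371) (nat_lit 203) (nat_lit 5) (nat_lit 211) (nat_lit 5) (nat_lit 204) (nat_lit 5) (nat_lit 392) (nat_lit 340) (nat_lit 288)) (XT.nd (nat_lit 78) (nat_lit 532) (nat_lit 0) (XT.lf (nat_lit 0) (nat_lit 5267103827) (nat_lit 456) (nat_lit 4324259839) (nat_lit 532) (nat_lit 1073461143) (nat_lit 197) (nat_lit 5) (nat_lit 203) (nat_lit 5) (nat_lit 204) (nat_lit 5) (nat_lit 393) (nat_lit 340) (nat_lit 287)) (XT.lf (nat_lit 0) (nat_lit 3470710294) (nat_lit 532) (nat_lit 5754673863) (nat_lit 76) (nat_lit 1612854621) (nat_lit 190) (nat_lit 5) (nat_lit 197) (nat_lit 5) (nat_lit 191) (nat_lit 5) (nat_lit 394) (nat_lit 340) (nat_lit 286)))) (XT.nd (nat_lit 78) (nat_lit 912) (nat_lit 0) (XT.lf (nat_lit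 0) (nat_lit 4873837220) (nat_lit 456) (nat_lit 3296757650) (nat_lit 532) (nat_lit 2845448253) (nat_lit 184) (nat_lit 5) (nat_lit 190) (nat_lit 5) (nat_lit 191) (nat_lit 5) (nat_lit 395) (nat_lit 340) (nat_lit 285)) (XT.nd (nat_lit 78) (nat_lit 380) (nat_lit 0) (XT.lf (nat_lit 0) (nat_lit 1813996902) (nat_lit 532) (nat_lit 6556912389) (nat_lit 76) (nat_lit 2827536416) (nat_lit 177) (nat_lit 5) (nat_lit 184) (nat_lit 5) (nat_lit 178) (nat_lit 5) (nat_lit 396) (nat_lit 340) (nat_lit 284)) (XT.lf (nat_lit 0) (nat_lit 4373621595) (nat_lit 380) (nat_lit 2231933611) (nat_lit 456) (nat_lit 4779777835) (nat_lit 172) (nat_lit 5) (nat_lit 177) (nat_lit 5) (nat_lit 178) (nat_lit 5) (nat_lit 397) (nat_lit 340) (nat_lit 283)))))) (XT.nd (nat_lit 390) (nat_lit 1976) (nat_lit 0) (XT.nd (nat_lit 156) (nat_lit 1216) (nat_lit 0) (XT.nd (nat_lit 78) (nat_lit 380) (nat_lit 0) (XT.lf (nat_lit 0) (nat_lit 1015939) (nat_lit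 532) (nat_lit 7494867373) (nat_lit 76) (nat_lit 4081206716) (nat_lit 165) (nat_lit 5) (nat_lit 172) (nat_lit 5) (nat_lit 166) (nat_lit 5) (nat_lit 398) (nat_lit 340) (nat_lit 282)) (XT.lf (nat_lit 0) (nat_lit 3744517297) (nat_lit 380) (nat_lit 1143471493) (nat_lit 456) (nat_lit 6885433127) (nat_lit 160) (nat_lit 5) (nat_lit 165) (nat_lit 5) (nat_lit 166) (nat_lit 5) (nat_lit 399) (nat_lit 340) (nat_lit 281))) (XT.nd (nat_lit 78) (nat_lit 836) (nat_lit 0) (XT.lf (nat_lit 0) (nat_lit 3369601435) (nat_lit 380) (nat_lit 6601273068) (nat_lit 456) (nat_lit 2003790907) (nat_lit 155) (nat_lit 5) (nat_lit 160) (nat_lit 5) (nat_lit 161) (nat_lit 5) (nat_lit 400) (nat_lit 340) (nat_lit 280)) (XT.nd (nat_lit 78) (nat_lit 380) (nat_lit 0) (XT.lf (nat_lit 0) (nat_lit 2962728464) (nat_lit 380) (nat_lit 45561075) (nat_lit 456) (nat_lit 9172798237) (nat_lit 149) (nat_lit 5) (nat_lit 154) (nat_lit 5) (nat_lit 155) (nat_lit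 5) (nat_lit 401) (nat_lit 340) (nat_lit 279)) (XT.lf (nat_lit 0) (nat_lit 2491020244) (nat_lit 380) (nat_lit 5714002060) (nat_lit 456) (nat_lit 4187192472) (nat_lit 144) (nat_lit 5) (nat_lit 149) (nat_lit 5) (nat_lit 150) (nat_lit 5) (nat_lit 402) (nat_lit 340) (nat_lit 278))))) (XT.nd (nat_lit 234) (nat_lit 836) (nat_lit 0) (XT.nd (nat_lit 78) (nat_lit 684) (nat_lit 0) (XT.lf (nat_lit 0) (nat_lit 962202653) (nat_lit 456) (nat_lit 10613600206) (nat_lit 76) (nat_lit 1033223336) (nat_lit 138) (nat_lit 5) (nat_lit 144) (nat_lit 5) (nat_lit 139) (nat_lit 5) (nat_lit 403) (nat_lit 340) (nat_lit 277)) (XT.nd (nat_lit 78) (nat_lit 304) (nat_lit 0) (XT.lf (nat_lit 0) (nat_lit 1419451711) (nat_lit 380) (nat_lit 4849596520) (nat_lit 456) (nat_lit 6561549651) (nat_lit 133) (nat_lit 5) (nat_lit 138) (nat_lit 5) (nat_lit 139) (nat_lit 5) (nat_lit 404) (nat_lit 340) (nat_lit 276)) (XT.lf (nat_lit 0) (nat_lit 812600850)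 (nat_lit 304) (nat_lit 10959101029) (nat_lit 380) (nat_lit 1286389187) (nat_lit 129) (nat_lit 5) (nat_lit 133) (nat_lit 5) (nat_lit 134) (nat_lit 5) (nat_lit 405) (nat_lit 340) (nat_lit 275)))) (XT.nd (nat_lit 78) (nat_lit 380) (nat_lit 0) (XT.lf (nat_lit 0) (nat_lit 125351845) (nat_lit 380) (nat_lit 4024485847) (nat_lit 456) (nat_lit 9140894929) (nat_lit 123) (nat_lit 5) (nat_lit 128) (nat_lit 5) (nat_lit 129) (nat_lit 5) (nat_lit 406) (nat_lit 340) (nat_lit 274)) (XT.nd (nat_lit 78) (nat_lit 380) (nat_lit 0) (XT.lf (nat_lit 0) (nat_lit 9782494803) (nat_lit 456) (nat_lit 607460942) (nat_lit 76) (nat_lit 3139217126) (nat_lit 123) (nat_lit 5) (nat_lit 129) (nat_lit 5) (nat_lit 124) (nat_lit 5) (nat_lit 407) (nat_lit 340) (nat_lit 273)) (XT.lf (nat_lit 0) (nat_lit 1841788858) (nat_lit 380) (nat_lit 1404965346) (nat_lit 76) (nat_lit 10526659727) (nat_lit 118) (nat_lit 5) (nat_lit 123) (nat_lit 5) (nat_lit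 119) (nat_lit 5) (nat_lit 408) (nat_lit 340) (nat_lit 272))))))) (XT.nd (nat_lit 858) (nat_lit 1672) (nat_lit 0) (XT.nd (nat_lit 390) (nat_lit 1672) (nat_lit 0) (XT.nd (nat_lit 156) (nat_lit 1064) (nat_lit 0) (XT.nd (nat_lit 78) (nat_lit 304) (nat_lit 0) (XT.lf (nat_lit 0) (nat_lit 7604148707) (nat_lit 380) (nat_lit 2286021964) (nat_lit 76) (nat_lit 4133178877) (nat_lit 114) (nat_lit 5) (nat_lit 119) (nat_lit 5) (nat_lit 115) (nat_lit 5) (nat_lit 409) (nat_lit 340) (nat_lit 271)) (XT.lf (nat_lit 0) (nat_lit 11055044775) (nat_lit 304) (nat_lit 2537304871) (nat_lit 380) (nat_lit 687379488) (nat_lit 110) (nat_lit 5) (nat_lit 114) (nat_lit 5) (nat_lit 115) (nat_lit 5) (nat_lit 410) (nat_lit 340) (nat_lit 270))) (XT.nd (nat_lit 78) (nat_lit 684) (nat_lit 0) (XT.lf (nat_lit 0) (nat_lit 5214265692) (nat_lit 380) (nat_lit 4270458424) (nat_lit 76) (nat_lit 5057078015) (nat_lit 105) (nat_lit 5) (nat_lit 110)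 (nat_lit 5) (nat_lit 106) (nat_lit 5) (nat_lit 411) (nat_lit 340) (nat_lit 269)) (XT.nd (nat_lit 78) (nat_lit 380) (nat_lit 0) (XT.lf (nat_lit 0) (nat_lit 9427494669) (nat_lit 304) (nat_lit 1907598732) (nat_lit 380) (nat_lit 3475528510) (nat_lit 101) (nat_lit 5) (nat_lit 105) (nat_lit 5) (nat_lit 106) (nat_lit 5) (nat_lit 412) (nat_lit 340) (nat_lit 268)) (XT.lf (nat_lit 0) (nat_lit 2593633997) (nat_lit 380) (nat_lit 6601148104) (nat_lit 76) (nat_lit 5890896165) (nat_lit 96) (nat_lit 5) (nat_lit 101) (nat_lit 5) (nat_lit 97) (nat_lit 5) (nat_lit 413) (nat_lit 340) (nat_lit 267))))) (XT.nd (nat_lit 234) (nat_lit 836) (nat_lit 0) (XT.nd (nat_lit 78) (nat_lit 608) (nat_lit 0) (XT.lf (nat_lit 0) (nat_lit 7456843738) (nat_lit 228) (nat_lit 1391506495) (nat_lit 304) (nat_lit 6519167194) (nat_lit 93) (nat_lit 5) (nat_lit 96) (nat_lit 5) (nat_lit 97) (nat_lit 5) (nat_lit 414) (nat_lit 340) (nat_lit 266)) (XT.nd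 (nat_lit 78) (nat_lit 304) (nat_lit 0) (XT.lf (nat_lit 0) (nat_lit 6331787202) (nat_lit 304) (nat_lit 9041429245) (nat_lit 380) (nat_lit 282949545) (nat_lit 89) (nat_lit 5) (nat_lit 93) (nat_lit 5) (nat_lit 94) (nat_lit 5) (nat_lit 415) (nat_lit 340) (nat_lit 265)) (XT.lf (nat_lit 0) (nat_lit 5097548655) (nat_lit 228) (nat_lit 1012414999) (nat_lit 304) (nat_lit 9841714386) (nat_lit 85) (nat_lit 5) (nat_lit 88) (nat_lit 5) (nat_lit 89) (nat_lit 5) (nat_lit 416) (nat_lit 340) (nat_lit 264)))) (XT.nd (nat_lit 78) (nat_lit 532) (nat_lit 0) (XT.lf (nat_lit 0) (nat_lit 3748059119) (nat_lit 304) (nat_lit 9032274664) (nat_lit 380) (nat_lit 3473898054) (nat_lit 81) (nat_lit 5) (nat_lit 85) (nat_lit 5) (nat_lit 86) (nat_lit 5) (nat_lit 417) (nat_lit 340) (nat_lit 263)) (XT.nd (nat_lit 78) (nat_lit 228) (nat_lit 0) (XT.lf (nat_lit 0) (nat_lit 2299363544) (nat_lit 228) (nat_lit 795837831) (nat_lit 304) (nat_lit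 13469249985) (nat_lit 77) (nat_lit 5) (nat_lit 80) (nat_lit 5) (nat_lit 81) (nat_lit 5) (nat_lit 418) (nat_lit 340) (nat_lit 262)) (XT.lf (nat_lit 0) (nat_lit 697960017) (nat_lit 228) (nat_lit 9211836769) (nat_lit 304) (nat_lit 6971812798) (nat_lit 74) (nat_lit 5) (nat_lit 77) (nat_lit 5) (nat_lit 78) (nat_lit 5) (nat_lit 419) (nat_lit 340) (nat_lit 261)))))) (XT.nd (nat_lit 390) (nat_lit 608) (nat_lit 0) (XT.nd (nat_lit 156) (nat_lit 760) (nat_lit 0) (XT.nd (nat_lit 78) (nat_lit 304) (nat_lit 0) (XT.lf (nat_lit 0) (nat_lit 16225536079) (nat_lit 228) (nat_lit 761655505) (nat_lit 304) (nat_lit 219927390) (nat_lit 74) (nat_lit 5) (nat_lit 77) (nat_lit 5) (nat_lit 78) (nat_lit 5) (nat_lit 420) (nat_lit 340) (nat_lit 260)) (XT.lf (nat_lit 0) (nat_lit 6751670266) (nat_lit 304) (nat_lit 2839075453) (nat_lit 76) (nat_lit 7948667298) (nat_lit 70) (nat_lit 5) (nat_lit 74) (nat_lit 5) (nat_lit 71) (nat_lit 5)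 (nat_lit 421) (nat_lit 340) (nat_lit 259))) (XT.nd (nat_lit 78) (nat_lit 532) (nat_lit 0) (XT.lf (nat_lit 0) (nat_lit 13077403342) (nat_lit 228) (nat_lit 906717913) (nat_lit 304) (nat_lit 3896435056) (nat_lit 67) (nat_lit 5) (nat_lit 70) (nat_lit 5) (nat_lit 71) (nat_lit 5) (nat_lit 422) (nat_lit 340) (nat_lit 258)) (XT.nd (nat_lit 78) (nat_lit 228) (nat_lit 0) (XT.lf (nat_lit 0) (nat_lit 3263794558) (nat_lit 304) (nat_lit 6948299016) (nat_lit 76) (nat_lit 8017344352) (nat_lit 63) (nat_lit 5) (nat_lit 67) (nat_lit 5) (nat_lit 64) (nat_lit 5) (nat_lit 423) (nat_lit 340) (nat_lit 257)) (XT.lf (nat_lit 0) (nat_lit 9344831769) (nat_lit 228) (nat_lit 1299891516) (nat_lit 304) (nat_lit 7942374123) (nat_lit 60) (nat_lit 5) (nat_lit 63) (nat_lit 5) (nat_lit 64) (nat_lit 5) (nat_lit 424) (nat_lit 340) (nat_lit 256))))) (XT.nd (nat_lit 46566) (nat_lit 0) (nat_lit 51300) (XT.nd (nat_lit 78) (nat_lit 456) (nat_lit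 0) (XT.lf (nat_lit 0) (nat_lit 7240381710) (nat_lit 152) (nat_lit 11111839393) (nat_lit 228) (nat_lit 601165770) (nat_lit 58) (nat_lit 5) (nat_lit 60) (nat_lit 5) (nat_lit 61) (nat_lit 5) (nat_lit 425) (nat_lit 340) (nat_lit 255)) (XT.nd (nat_lit 78) (nat_lit 152) (nat_lit 0) (XT.lf (nat_lit 0) (nat_lit 4955481629) (nat_lit 228) (nat_lit 1977460261) (nat_lit 304) (nat_lit 12395543230) (nat_lit 54) (nat_lit 5) (nat_lit 57) (nat_lit 5) (nat_lit 58) (nat_lit 5) (nat_lit 426) (nat_lit 340) (nat_lit 254)) (XT.lf (nat_lit 0) (nat_lit 2481575966) (nat_lit 152) (nat_lit 12308195959) (nat_lit 228) (nat_lit 4922890377) (nat_lit 52) (nat_lit 5) (nat_lit 54) (nat_lit 5) (nat_lit 55) (nat_lit 5) (nat_lit 427) (nat_lit 340) (nat_lit 253)))) (XT.nd (nat_lit 78) (nat_lit 228) (nat_lit 0) (XT.lf (nat_lit 0) (nat_lit 1382373360) (nat_lit 228) (nat_lit 920426546) (nat_lit 228) (nat_lit 920426546) (nat_lit 730) (nat_lit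 3) (nat_lit 733) (nat_lit 3) (nat_lit 733) (nat_lit 5) (nat_lit 341) (nat_lit 341) (nat_lit 338)) (XT.nd (nat_lit 78) (nat_lit 0) (nat_lit 0) (XT.lf (nat_lit 0) (nat_lit 794311453) (nat_lit 228) (nat_lit 3541633679) (nat_lit 304) (nat_lit 2116242267) (nat_lit 727) (nat_lit 5) (nat_lit 730) (nat_lit 3) (nat_lit 731) (nat_lit 5) (nat_lit 342) (nat_lit 341) (nat_lit 337)) (XT.lf (nat_lit 76) (nat_lit 1272019331) (nat_lit 0) (nat_lit 3928901373) (nat_lit 304) (nat_lit 1259830244) (nat_lit 728) (nat_lit 5) (nat_lit 727) (nat_lit 5) (nat_lit 731) (nat_lit 5) (nat_lit 343) (nat_lit 341) (nat_lit 336))))))))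
noncomputable def xc46 : XT := (XT.nd (nat_lit 1716) (nat_lit 20368) (nat_lit 0) (XT.nd (nat_lit 858) (nat_lit 11400) (nat_lit 0) (XT.nd (nat_lit 390) (nat_lit 3648) (nat_lit 0) (XT.nd (nat_lit 156) (nat_lit 912) (nat_lit 0) (XT.nd (nat_lit 78) (nat_lit 380) (nat_lit 0) (XT.lf (nat_lit 0) (nat_lit 3079965518) (nat_lit 304) (nat_lit 304593805) (nat_lit 380) (nat_lit 3087600466) (nat_lit 723) (nat_lit 5) (nat_lit 727) (nat_lit 5) (nat_lit 728) (nat_lit 5) (nat_lit 344) (nat_lit 341) (nat_lit 335)) (XT.lf (nat_lit 0) (nat_lit 898447250) (nat_lit 380) (nat_lit 1803268900) (nat_lit 456) (nat_lit 3784693482) (nat_lit 718) (nat_lit 5) (nat_lit 723) (nat_lit 5) (nat_lit 724) (nat_lit 5) (nat_lit 345) (nat_lit 341) (nat_lit 334))) (XT.nd (nat_lit 78) (nat_lit 912) (nat_lit 0) (XT.lf (nat_lit 76) (nat_lit 3252848493) (nat_lit 0) (nat_lit 1879003615) (nat_lit 456) (nat_lit 1371645690) (nat_lit 719) (nat_lit 5)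 (nat_lit 718) (nat_lit 5) (nat_lit 724) (nat_lit 5) (nat_lit 346) (nat_lit 341) (nat_lit 333)) (XT.nd (nat_lit 78) (nat_lit 456) (nat_lit 0) (XT.lf (nat_lit 76) (nat_lit 1878279034) (nat_lit 0) (nat_lit 918144560) (nat_lit 532) (nat_lit 3727063503) (nat_lit 713) (nat_lit 5) (nat_lit 712) (nat_lit 5) (nat_lit 719) (nat_lit 5) (nat_lit 347) (nat_lit 341) (nat_lit 332)) (XT.lf (nat_lit 0) (nat_lit 389847458) (nat_lit 532) (nat_lit 5983117115) (nat_lit 76) (nat_lit 173522724) (nat_lit 706) (nat_lit 5) (nat_lit 713) (nat_lit 5) (nat_lit 707) (nat_lit 5) (nat_lit 348) (nat_lit 341) (nat_lit 331))))) (XT.nd (nat_lit 234) (nat_lit 2432) (nat_lit 0) (XT.nd (nat_lit 78) (nat_lit 1216) (nat_lit 0) (XT.lf (nat_lit 0) (nat_lit 4464871066) (nat_lit 532) (nat_lit 703187217) (nat_lit 76) (nat_lit 1403976112) (nat_lit 706) (nat_lit 5) (nat_lit 713) (nat_lit 5) (nat_lit 707) (nat_lit 5) (nat_lit 349) (nat_lit 341) (nat_lit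 330)) (XT.nd (nat_lit 78) (nat_lit 608) (nat_lit 0) (XT.lf (nat_lit 0) (nat_lit 1918028055) (nat_lit 608) (nat_lit 1907937434) (nat_lit 76) (nat_lit 2774540290) (nat_lit 698) (nat_lit 5) (nat_lit 706) (nat_lit 5) (nat_lit 699) (nat_lit 5) (nat_lit 350) (nat_lit 341) (nat_lit 329)) (XT.lf (nat_lit 0) (nat_lit 3570878217) (nat_lit 608) (nat_lit 2346922960) (nat_lit 684) (nat_lit 714152787) (nat_lit 690) (nat_lit 5) (nat_lit 698) (nat_lit 5) (nat_lit 699) (nat_lit 5) (nat_lit 351) (nat_lit 341) (nat_lit 328)))) (XT.nd (nat_lit 78) (nat_lit 1672) (nat_lit 0) (XT.lf (nat_lit 0) (nat_lit 2494441053) (nat_lit 684) (nat_lit 720727692) (nat_lit 760) (nat_lit 3451062966) (nat_lit 680) (nat_lit 5) (nat_lit 689) (nat_lit 5) (nat_lit 690) (nat_lit 5) (nat_lit 352) (nat_lit 341) (nat_lit 327)) (XT.nd (nat_lit 78) (nat_lit 836) (nat_lit 0) (XT.lf (nat_lit 0) (nat_lit 440824113) (nat_lit 836) (nat_lit 5234873833)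 (nat_lit 76) (nat_lit 1027782844) (nat_lit 669) (nat_lit 5) (nat_lit 680) (nat_lit 5) (nat_lit 670) (nat_lit 5) (nat_lit 353) (nat_lit 341) (nat_lit 326)) (XT.lf (nat_lit 0) (nat_lit 477858869) (nat_lit 836) (nat_lit 3824745810) (nat_lit 912) (nat_lit 2440830219) (nat_lit 658) (nat_lit 5) (nat_lit 669) (nat_lit 5) (nat_lit 670) (nat_lit 5) (nat_lit 354) (nat_lit 341) (nat_lit 325)))))) (XT.nd (nat_lit 390) (nat_lit 7068) (nat_lit 0) (XT.nd (nat_lit 156) (nat_lit 3344) (nat_lit 0) (XT.nd (nat_lit 78) (nat_lit 912) (nat_lit 0) (XT.lf (nat_lit 0) (nat_lit 1377572186) (nat_lit 912) (nat_lit 454849985) (nat_lit 76) (nat_lit 4953982623) (nat_lit 657) (nat_lit 5) (nat_lit 669) (nat_lit 5) (nat_lit 658) (nat_lit 5) (nat_lit 355) (nat_lit 341) (nat_lit 324)) (XT.lf (nat_lit 0) (nat_lit 5184981651) (nat_lit 988) (nat_lit 1340258122) (nat_lit 76) (nat_lit 306989906) (nat_lit 645) (nat_lit 5) (nat_lit 658) (nat_lit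 5) (nat_lit 646) (nat_lit 5) (nat_lit 356) (nat_lit 341) (nat_lit 323))) (XT.nd (nat_lit 78) (nat_lit 2280) (nat_lit 0) (XT.lf (nat_lit 0) (nat_lit 2116454321) (nat_lit 1064) (nat_lit 2194812828) (nat_lit 76) (nat_lit 2569542274) (nat_lit 631) (nat_lit 5) (nat_lit 645) (nat_lit 5) (nat_lit 632) (nat_lit 5) (nat_lit 357) (nat_lit 341) (nat_lit 322)) (XT.nd (nat_lit 78) (nat_lit 1216) (nat_lit 0) (XT.lf (nat_lit 0) (nat_lit 3927749600) (nat_lit 1064) (nat_lit 1953132414) (nat_lit 1140) (nat_lit 1051580690) (nat_lit 617) (nat_lit 5) (nat_lit 631) (nat_lit 5) (nat_lit 632) (nat_lit 5) (nat_lit 358) (nat_lit 341) (nat_lit 321)) (XT.lf (nat_lit 0) (nat_lit 2653266674) (nat_lit 1216) (nat_lit 3781608049) (nat_lit 76) (nat_lit 552125752) (nat_lit 601) (nat_lit 5) (nat_lit 617) (nat_lit 5) (nat_lit 602) (nat_lit 5) (nat_lit 359) (nat_lit 341) (nat_lit 320))))) (XT.nd (nat_lit 234) (nat_lit 3116) (nat_lit 0)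 (XT.nd (nat_lit 78) (nat_lit 2736) (nat_lit 0) (XT.lf (nat_lit 0) (nat_lit 2518325029) (nat_lit 1216) (nat_lit 3867395056) (nat_lit 1292) (nat_lit 658735250) (nat_lit 585) (nat_lit 5) (nat_lit 601) (nat_lit 5) (nat_lit 602) (nat_lit 5) (nat_lit 360) (nat_lit 341) (nat_lit 319)) (XT.nd (nat_lit 78) (nat_lit 1368) (nat_lit 0) (XT.lf (nat_lit 0) (nat_lit 1865198728) (nat_lit 1292) (nat_lit 1141037585) (nat_lit 1368) (nat_lit 4098610221) (nat_lit 567) (nat_lit 5) (nat_lit 584) (nat_lit 5) (nat_lit 585) (nat_lit 5) (nat_lit 361) (nat_lit 341) (nat_lit 318)) (XT.lf (nat_lit 0) (nat_lit 1249122351) (nat_lit 1368) (nat_lit 5458712264) (nat_lit 1444) (nat_lit 460447496) (nat_lit 549) (nat_lit 5) (nat_lit 567) (nat_lit 5) (nat_lit 568) (nat_lit 5) (nat_lit 362) (nat_lit 341) (nat_lit 317)))) (XT.nd (nat_lit 78) (nat_lit 1596) (nat_lit 0) (XT.lf (nat_lit 0) (nat_lit 655167076) (nat_lit 1444) (nat_lit 2523925787)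 (nat_lit 1520) (nat_lit 4055424993) (nat_lit 529) (nat_lit 5) (nat_lit 548) (nat_lit 5) (nat_lit 549) (nat_lit 5) (nat_lit 363) (nat_lit 341) (nat_lit 316)) (XT.nd (nat_lit 78) (nat_lit 76) (nat_lit 0) (XT.lf (nat_lit 0) (nat_lit 104232413) (nat_lit 1520) (nat_lit 6752135270) (nat_lit 1596) (nat_lit 447645863) (nat_lit 509) (nat_lit 5) (nat_lit 529) (nat_lit 5) (nat_lit 530) (nat_lit 5) (nat_lit 364) (nat_lit 341) (nat_lit 315)) (XT.lf (nat_lit 0) (nat_lit 3179573311) (nat_lit 1596) (nat_lit 430968776) (nat_lit 76) (nat_lit 3765574561) (nat_lit 508) (nat_lit 5) (nat_lit 529) (nat_lit 5) (nat_lit 509) (nat_lit 5) (nat_lit 365) (nat_lit 341) (nat_lit 314))))))) (XT.nd (nat_lit 858) (nat_lit 7600) (nat_lit 0) (XT.nd (nat_lit 390) (nat_lit 5244) (nat_lit 0) (XT.nd (nat_lit 156) (nat_lit 4180) (nat_lit 0) (XT.nd (nat_lit 78) (nat_lit 1748) (nat_lit 0) (XT.lf (nat_lit 0) (nat_lit 6530107031) (nat_lit 1596)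 (nat_lit 317303471) (nat_lit 1672) (nat_lit 604183058) (nat_lit 487) (nat_lit 5) (nat_lit 508) (nat_lit 5) (nat_lit 509) (nat_lit 5) (nat_lit 366) (nat_lit 341) (nat_lit 313)) (XT.lf (nat_lit 0) (nat_lit 3015811121) (nat_lit 1748) (nat_lit 1406832889) (nat_lit 76) (nat_lit 3107105643) (nat_lit 464) (nat_lit 5) (nat_lit 487) (nat_lit 5) (nat_lit 465) (nat_lit 5) (nat_lit 367) (nat_lit 341) (nat_lit 312))) (XT.nd (nat_lit 78) (nat_lit 2432) (nat_lit 0) (XT.lf (nat_lit 0) (nat_lit 5756531880) (nat_lit 1748) (nat_lit 925144712) (nat_lit 1824) (nat_lit 929609832) (nat_lit 441) (nat_lit 5) (nat_lit 464) (nat_lit 5) (nat_lit 465) (nat_lit 5) (nat_lit 368) (nat_lit 341) (nat_lit 311)) (XT.nd (nat_lit 78) (nat_lit 912) (nat_lit 0) (XT.lf (nat_lit 0) (nat_lit 2689927104) (nat_lit 1520) (nat_lit 2295517805) (nat_lit 76) (nat_lit 2710211831) (nat_lit 421) (nat_lit 5) (nat_lit 441) (nat_lit 5) (nat_lit 422) (nat_lit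 5) (nat_lit 369) (nat_lit 341) (nat_lit 310)) (XT.lf (nat_lit 0) (nat_lit 5075668174) (nat_lit 912) (nat_lit 1285220727) (nat_lit 988) (nat_lit 1422460535) (nat_lit 409) (nat_lit 5) (nat_lit 421) (nat_lit 5) (nat_lit 422) (nat_lit 5) (nat_lit 370) (nat_lit 341) (nat_lit 309))))) (XT.nd (nat_lit 234) (nat_lit 2432) (nat_lit 0) (XT.nd (nat_lit 78) (nat_lit 1824) (nat_lit 0) (XT.lf (nat_lit 0) (nat_lit 2207226786) (nat_lit 988) (nat_lit 3111196355) (nat_lit 76) (nat_lit 2555604240) (nat_lit 396) (nat_lit 5) (nat_lit 409) (nat_lit 5) (nat_lit 397) (nat_lit 5) (nat_lit 371) (nat_lit 341) (nat_lit 308)) (XT.nd (nat_lit 78) (nat_lit 912) (nat_lit 0) (XT.lf (nat_lit 0) (nat_lit 4473624665) (nat_lit 912) (nat_lit 1416402024) (nat_lit 988) (nat_lit 2077961722) (nat_lit 384) (nat_lit 5) (nat_lit 396) (nat_lit 5) (nat_lit 397) (nat_lit 5) (nat_lit 372) (nat_lit 341) (nat_lit 307)) (XT.lf (nat_lit 0) (nat_lit 1571977854)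 (nat_lit 912) (nat_lit 3867826680) (nat_lit 76) (nat_lit 2625281008) (nat_lit 372) (nat_lit 5) (nat_lit 384) (nat_lit 5) (nat_lit 373) (nat_lit 5) (nat_lit 373) (nat_lit 341) (nat_lit 306)))) (XT.nd (nat_lit 78) (nat_lit 1596) (nat_lit 0) (XT.lf (nat_lit 0) (nat_lit 3936703437) (nat_lit 836) (nat_lit 1336347206) (nat_lit 912) (nat_lit 2892393009) (nat_lit 361) (nat_lit 5) (nat_lit 372) (nat_lit 5) (nat_lit 373) (nat_lit 5) (nat_lit 374) (nat_lit 341) (nat_lit 305)) (XT.nd (nat_lit 78) (nat_lit 760) (nat_lit 0) (XT.lf (nat_lit 0) (nat_lit 787434134) (nat_lit 836) (nat_lit 4579265361) (nat_lit 76) (nat_lit 2902390187) (nat_lit 350) (nat_lit 5) (nat_lit 361) (nat_lit 5) (nat_lit 351) (nat_lit 5) (nat_lit 375) (nat_lit 341) (nat_lit 304)) (XT.lf (nat_lit 0) (nat_lit 3451285768) (nat_lit 760) (nat_lit 1061638103) (nat_lit 836) (nat_lit 3863066140) (nat_lit 340) (nat_lit 5) (nat_lit 350) (nat_lit 5) (nat_lit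 351) (nat_lit 5) (nat_lit 376) (nat_lit 341) (nat_lit 303)))))) (XT.nd (nat_lit 390) (nat_lit 3876) (nat_lit 0) (XT.nd (nat_lit 156) (nat_lit 2128) (nat_lit 0) (XT.nd (nat_lit 78) (nat_lit 836) (nat_lit 0) (XT.lf (nat_lit 0) (nat_lit 3225983410) (nat_lit 760) (nat_lit 5114267257) (nat_lit 836) (nat_lit 146063269) (nat_lit 330) (nat_lit 5) (nat_lit 340) (nat_lit 5) (nat_lit 341) (nat_lit 5) (nat_lit 377) (nat_lit 341) (nat_lit 302)) (XT.lf (nat_lit 0) (nat_lit 3003716040) (nat_lit 760) (nat_lit 607909687) (nat_lit 836) (nat_lit 4988311398) (nat_lit 319) (nat_lit 5) (nat_lit 329) (nat_lit 5) (nat_lit 330) (nat_lit 5) (nat_lit 378) (nat_lit 341) (nat_lit 301))) (XT.nd (nat_lit 78) (nat_lit 1444) (nat_lit 0) (XT.lf (nat_lit 0) (nat_lit 2786768876) (nat_lit 684) (nat_lit 4692482479) (nat_lit 760) (nat_lit 1237731200) (nat_lit 310) (nat_lit 5) (nat_lit 319) (nat_lit 5) (nat_lit 320) (nat_lit 5) (nat_lit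 379) (nat_lit 341) (nat_lit 300)) (XT.nd (nat_lit 78) (nat_lit 684) (nat_lit 0) (XT.lf (nat_lit 0) (nat_lit 2570223551) (nat_lit 760) (nat_lit 6257512162) (nat_lit 76) (nat_lit 9892800) (nat_lit 300) (nat_lit 5) (nat_lit 310) (nat_lit 5) (nat_lit 301) (nat_lit 5) (nat_lit 380) (nat_lit 341) (nat_lit 299)) (XT.lf (nat_lit 0) (nat_lit 2363578418) (nat_lit 684) (nat_lit 4121167201) (nat_lit 760) (nat_lit 2476817111) (nat_lit 291) (nat_lit 5) (nat_lit 300) (nat_lit 5) (nat_lit 301) (nat_lit 5) (nat_lit 381) (nat_lit 341) (nat_lit 298))))) (XT.nd (nat_lit 234) (nat_lit 1824) (nat_lit 0) (XT.nd (nat_lit 78) (nat_lit 1292) (nat_lit 0) (XT.lf (nat_lit 0) (nat_lit 1393598252) (nat_lit 760) (nat_lit 6927904759) (nat_lit 76) (nat_lit 767844624) (nat_lit 281) (nat_lit 5) (nat_lit 291) (nat_lit 5) (nat_lit 282) (nat_lit 5) (nat_lit 382) (nat_lit 341) (nat_lit 297)) (XT.nd (nat_lit 78) (nat_lit 684) (nat_lit 0)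 (XT.lf (nat_lit 0) (nat_lit 1942178098) (nat_lit 608) (nat_lit 3414239680) (nat_lit 684) (nat_lit 3864036265) (nat_lit 273) (nat_lit 5) (nat_lit 281) (nat_lit 5) (nat_lit 282) (nat_lit 5) (nat_lit 383) (nat_lit 341) (nat_lit 296)) (XT.lf (nat_lit 0) (nat_lit 76753841) (nat_lit 684) (nat_lit 7618278215) (nat_lit 76) (nat_lit 1660560220) (nat_lit 264) (nat_lit 5) (nat_lit 273) (nat_lit 5) (nat_lit 265) (nat_lit 5) (nat_lit 384) (nat_lit 341) (nat_lit 295)))) (XT.nd (nat_lit 78) (nat_lit 1216) (nat_lit 0) (XT.lf (nat_lit 0) (nat_lit 1507855972) (nat_lit 608) (nat_lit 2585117155) (nat_lit 684) (nat_lit 5401119802) (nat_lit 256) (nat_lit 5) (nat_lit 264) (nat_lit 5) (nat_lit 265) (nat_lit 5) (nat_lit 385) (nat_lit 341) (nat_lit 294)) (XT.nd (nat_lit 78) (nat_lit 608) (nat_lit 0) (XT.lf (nat_lit 0) (nat_lit 1283502311) (nat_lit 608) (nat_lit 6952406655) (nat_lit 684) (nat_lit 1400727804) (nat_lit 248) (nat_lit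 5) (nat_lit 256) (nat_lit 5) (nat_lit 257) (nat_lit 5) (nat_lit 386) (nat_lit 341) (nat_lit 293)) (XT.lf (nat_lit 0) (nat_lit 1045284897) (nat_lit 532) (nat_lit 1646833557) (nat_lit 608) (nat_lit 7090835238) (nat_lit 240) (nat_lit 5) (nat_lit 247) (nat_lit 5) (nat_lit 248) (nat_lit 5) (nat_lit 387) (nat_lit 341) (nat_lit 292))))))))
noncomputable def xc47 : XT := (XT.nd (nat_lit 1716) (nat_lit 4560) (nat_lit 0) (XT.nd (nat_lit 858) (nat_lit 4408) (nat_lit 0) (XT.nd (nat_lit 390) (nat_lit 2888) (nat_lit 0) (XT.nd (nat_lit 156) (nat_lit 1064) (nat_lit 0) (XT.nd (nat_lit 78) (nat_lit 608) (nat_lit 0) (XT.lf (nat_lit 0) (nat_lit 792158031) (nat_lit 608) (nat_lit 6114473321) (nat_lit 684) (nat_lit 3026497158) (nat_lit 232) (nat_lit 5) (nat_lit 240) (nat_lit 5) (nat_lit 241) (nat_lit 5) (nat_lit 388) (nat_lit 341) (nat_lit 291)) (XT.lf (nat_lit 0) (nat_lit 538377395) (nat_lit 532) (nat_lit 612157230) (nat_lit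 608) (nat_lit 8937015096) (nat_lit 224) (nat_lit 5) (nat_lit 231) (nat_lit 5) (nat_lit 232) (nat_lit 5) (nat_lit 389) (nat_lit 341) (nat_lit 290))) (XT.nd (nat_lit 78) (nat_lit 532) (nat_lit 0) (XT.lf (nat_lit 0) (nat_lit 247299558) (nat_lit 532) (nat_lit 5194598372) (nat_lit 608) (nat_lit 4803713663) (nat_lit 217) (nat_lit 5) (nat_lit 224) (nat_lit 5) (nat_lit 225) (nat_lit 5) (nat_lit 390) (nat_lit 341) (nat_lit 289)) (XT.nd (nat_lit 78) (nat_lit 532) (nat_lit 0) (XT.lf (nat_lit 0) (nat_lit 9868584377) (nat_lit 608) (nat_lit 36314914) (nat_lit 76) (nat_lit 503394972) (nat_lit 217) (nat_lit 5) (nat_lit 225) (nat_lit 5) (nat_lit 218) (nat_lit 5) (nat_lit 391) (nat_lit 341) (nat_lit 288)) (XT.lf (nat_lit 0) (nat_lit 3839387099) (nat_lit 532) (nat_lit 363735798) (nat_lit 76) (nat_lit 6371490459) (nat_lit 210) (nat_lit 5) (nat_lit 217) (nat_lit 5) (nat_lit 211) (nat_lit 5) (nat_lit 392) (nat_lit 341)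 (nat_lit 287))))) (XT.nd (nat_lit 234) (nat_lit 1368) (nat_lit 0) (XT.nd (nat_lit 78) (nat_lit 988) (nat_lit 0) (XT.lf (nat_lit 0) (nat_lit 8356414566) (nat_lit 608) (nat_lit 695378803) (nat_lit 76) (nat_lit 1693789282) (nat_lit 203) (nat_lit 5) (nat_lit 211) (nat_lit 5) (nat_lit 204) (nat_lit 5) (nat_lit 393) (nat_lit 341) (nat_lit 286)) (XT.nd (nat_lit 78) (nat_lit 456) (nat_lit 0) (XT.lf (nat_lit 0) (nat_lit 2093061090) (nat_lit 532) (nat_lit 1060029511) (nat_lit 76) (nat_lit 7767665415) (nat_lit 196) (nat_lit 5) (nat_lit 203) (nat_lit 5) (nat_lit 197) (nat_lit 5) (nat_lit 394) (nat_lit 341) (nat_lit 285)) (XT.lf (nat_lit 0) (nat_lit 6703443436) (nat_lit 532) (nat_lit 1453328375) (nat_lit 76) (nat_lit 2943583048) (nat_lit 190) (nat_lit 5) (nat_lit 197) (nat_lit 5) (nat_lit 191) (nat_lit 5) (nat_lit 395) (nat_lit 341) (nat_lit 284)))) (XT.nd (nat_lit 78) (nat_lit 836) (nat_lit 0) (XT.lf (nat_lit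 0) (nat_lit 194435148) (nat_lit 532) (nat_lit 1864583896) (nat_lit 76) (nat_lit 9225713027) (nat_lit 183) (nat_lit 5) (nat_lit 190) (nat_lit 5) (nat_lit 184) (nat_lit 5) (nat_lit 396) (nat_lit 341) (nat_lit 283)) (XT.nd (nat_lit 78) (nat_lit 380) (nat_lit 0) (XT.lf (nat_lit 0) (nat_lit 4902432360) (nat_lit 532) (nat_lit 2330646723) (nat_lit 76) (nat_lit 4240215659) (nat_lit 177) (nat_lit 5) (nat_lit 184) (nat_lit 5) (nat_lit 178) (nat_lit 5) (nat_lit 397) (nat_lit 341) (nat_lit 282)) (XT.lf (nat_lit 0) (nat_lit 8856045797) (nat_lit 380) (nat_lit 921573208) (nat_lit 456) (nat_lit 1889384409) (nat_lit 172) (nat_lit 5) (nat_lit 177) (nat_lit 5) (nat_lit 178) (nat_lit 5) (nat_lit 398) (nat_lit 341) (nat_lit 281)))))) (XT.nd (nat_lit 390) (nat_lit 2280) (nat_lit 0) (XT.nd (nat_lit 156) (nat_lit 1216) (nat_lit 0) (XT.nd (nat_lit 78) (nat_lit 380) (nat_lit 0) (XT.lf (nat_lit 0) (nat_lit 2944884460) (nat_lit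 532) (nat_lit 3349456642) (nat_lit 76) (nat_lit 5570793020) (nat_lit 165) (nat_lit 5) (nat_lit 172) (nat_lit 5) (nat_lit 166) (nat_lit 5) (nat_lit 399) (nat_lit 341) (nat_lit 280)) (XT.lf (nat_lit 0) (nat_lit 7922167375) (nat_lit 456) (nat_lit 3913846081) (nat_lit 76) (nat_lit 232479906) (nat_lit 160) (nat_lit 5) (nat_lit 166) (nat_lit 5) (nat_lit 161) (nat_lit 5) (nat_lit 400) (nat_lit 341) (nat_lit 279))) (XT.nd (nat_lit 78) (nat_lit 760) (nat_lit 0) (XT.lf (nat_lit 0) (nat_lit 820961157) (nat_lit 456) (nat_lit 4533741802) (nat_lit 76) (nat_lit 6921952360) (nat_lit 154) (nat_lit 5) (nat_lit 160) (nat_lit 5) (nat_lit 155) (nat_lit 5) (nat_lit 401) (nat_lit 341) (nat_lit 278)) (XT.nd (nat_lit 78) (nat_lit 380) (nat_lit 0) (XT.lf (nat_lit 0) (nat_lit 5909737112) (nat_lit 456) (nat_lit 5201535483) (nat_lit 76) (nat_lit 1378672272) (nat_lit 149) (nat_lit 5) (nat_lit 155) (nat_lit 5) (nat_lit 150) (nat_lit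 5) (nat_lit 402) (nat_lit 341) (nat_lit 277)) (XT.lf (nat_lit 0) (nat_lit 6789170814) (nat_lit 380) (nat_lit 4419038522) (nat_lit 456) (nat_lit 1500289831) (nat_lit 144) (nat_lit 5) (nat_lit 149) (nat_lit 5) (nat_lit 150) (nat_lit 5) (nat_lit 403) (nat_lit 341) (nat_lit 276))))) (XT.nd (nat_lit 234) (nat_lit 1064) (nat_lit 0) (XT.nd (nat_lit 78) (nat_lit 760) (nat_lit 0) (XT.lf (nat_lit 0) (nat_lit 3722612000) (nat_lit 456) (nat_lit 6695266914) (nat_lit 76) (nat_lit 2514462317) (nat_lit 138) (nat_lit 5) (nat_lit 144) (nat_lit 5) (nat_lit 139) (nat_lit 5) (nat_lit 404) (nat_lit 341) (nat_lit 275)) (XT.nd (nat_lit 78) (nat_lit 380) (nat_lit 0) (XT.lf (nat_lit 0) (nat_lit 5630040467) (nat_lit 380) (nat_lit 3506124419) (nat_lit 456) (nat_lit 4025454605) (nat_lit 133) (nat_lit 5) (nat_lit 138) (nat_lit 5) (nat_lit 139) (nat_lit 5) (nat_lit 405) (nat_lit 341) (nat_lit 274)) (XT.lf (nat_lit 0) (nat_lit 1347469746)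 (nat_lit 380) (nat_lit 8424771791) (nat_lit 76) (nat_lit 3624362617) (nat_lit 128) (nat_lit 5) (nat_lit 133) (nat_lit 5) (nat_lit 129) (nat_lit 5) (nat_lit 406) (nat_lit 341) (nat_lit 273)))) (XT.nd (nat_lit 78) (nat_lit 684) (nat_lit 0) (XT.lf (nat_lit 0) (nat_lit 4240785772) (nat_lit 380) (nat_lit 2637983778) (nat_lit 456) (nat_lit 6758304829) (nat_lit 123) (nat_lit 5) (nat_lit 128) (nat_lit 5) (nat_lit 129) (nat_lit 5) (nat_lit 407) (nat_lit 341) (nat_lit 272)) (XT.nd (nat_lit 78) (nat_lit 380) (nat_lit 0) (XT.lf (nat_lit 0) (nat_lit 3452869764) (nat_lit 304) (nat_lit 9183598502) (nat_lit 380) (nat_lit 1247086822) (nat_lit 119) (nat_lit 5) (nat_lit 123) (nat_lit 5) (nat_lit 124) (nat_lit 5) (nat_lit 408) (nat_lit 341) (nat_lit 271)) (XT.lf (nat_lit 0) (nat_lit 2588247342) (nat_lit 304) (nat_lit 1832277913) (nat_lit 380) (nat_lit 9715352072) (nat_lit 114) (nat_lit 5) (nat_lit 118) (nat_lit 5) (nat_lit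 119) (nat_lit 5) (nat_lit 409) (nat_lit 341) (nat_lit 270))))))) (XT.nd (nat_lit 858) (nat_lit 1520) (nat_lit 0) (XT.nd (nat_lit 390) (nat_lit 1672) (nat_lit 0) (XT.nd (nat_lit 156) (nat_lit 684) (nat_lit 0) (XT.nd (nat_lit 78) (nat_lit 380) (nat_lit 0) (XT.lf (nat_lit 0) (nat_lit 1643302297) (nat_lit 304) (nat_lit 8668458134) (nat_lit 380) (nat_lit 4082438337) (nat_lit 110) (nat_lit 5) (nat_lit 114) (nat_lit 5) (nat_lit 115) (nat_lit 5) (nat_lit 410) (nat_lit 341) (nat_lit 269)) (XT.lf (nat_lit 0) (nat_lit 636011088) (nat_lit 304) (nat_lit 1108004163) (nat_lit 380) (nat_lit 12915094157) (nat_lit 105) (nat_lit 5) (nat_lit 109) (nat_lit 5) (nat_lit 110) (nat_lit 5) (nat_lit 411) (nat_lit 341) (nat_lit 268))) (XT.nd (nat_lit 78) (nat_lit 684) (nat_lit 0) (XT.lf (nat_lit 0) (nat_lit 7773121761) (nat_lit 380) (nat_lit 479631506) (nat_lit 76) (nat_lit 6677012691) (nat_lit 105) (nat_lit 5) (nat_lit 110)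 (nat_lit 5) (nat_lit 106) (nat_lit 5) (nat_lit 412) (nat_lit 341) (nat_lit 267)) (XT.nd (nat_lit 78) (nat_lit 380) (nat_lit 0) (XT.lf (nat_lit 0) (nat_lit 13565680023) (nat_lit 304) (nat_lit 466952202) (nat_lit 380) (nat_lit 1174923986) (nat_lit 101) (nat_lit 5) (nat_lit 105) (nat_lit 5) (nat_lit 106) (nat_lit 5) (nat_lit 413) (nat_lit 341) (nat_lit 266)) (XT.lf (nat_lit 0) (nat_lit 5010182103) (nat_lit 380) (nat_lit 2938018543) (nat_lit 76) (nat_lit 7543049851) (nat_lit 96) (nat_lit 5) (nat_lit 101) (nat_lit 5) (nat_lit 97) (nat_lit 5) (nat_lit 414) (nat_lit 341) (nat_lit 265))))) (XT.nd (nat_lit 234) (nat_lit 836) (nat_lit 0) (XT.nd (nat_lit 78) (nat_lit 608) (nat_lit 0) (XT.lf (nat_lit 0) (nat_lit 11409538130) (nat_lit 304) (nat_lit 4303804604) (nat_lit 76) (nat_lit 69068638) (nat_lit 93) (nat_lit 5) (nat_lit 97) (nat_lit 5) (nat_lit 94) (nat_lit 5) (nat_lit 415) (nat_lit 341) (nat_lit 264)) (XT.nd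 (nat_lit 78) (nat_lit 228) (nat_lit 0) (XT.lf (nat_lit 0) (nat_lit 1989975263) (nat_lit 380) (nat_lit 5799076328) (nat_lit 76) (nat_lit 8291079018) (nat_lit 88) (nat_lit 5) (nat_lit 93) (nat_lit 5) (nat_lit 89) (nat_lit 5) (nat_lit 416) (nat_lit 341) (nat_lit 263)) (XT.lf (nat_lit 0) (nat_lit 8531814705) (nat_lit 304) (nat_lit 7396408622) (nat_lit 76) (nat_lit 457033636) (nat_lit 85) (nat_lit 5) (nat_lit 89) (nat_lit 5) (nat_lit 86) (nat_lit 5) (nat_lit 417) (nat_lit 341) (nat_lit 262)))) (XT.nd (nat_lit 78) (nat_lit 532) (nat_lit 0) (XT.lf (nat_lit 0) (nat_lit 7575804641) (nat_lit 304) (nat_lit 7791986235) (nat_lit 380) (nat_lit 1329792435) (nat_lit 81) (nat_lit 5) (nat_lit 85) (nat_lit 5) (nat_lit 86) (nat_lit 5) (nat_lit 418) (nat_lit 341) (nat_lit 261)) (XT.nd (nat_lit 78) (nat_lit 228) (nat_lit 0) (XT.lf (nat_lit 0) (nat_lit 5370643415) (nat_lit 304) (nat_lit 10969525381) (nat_lit 76) (nat_lit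 677379214) (nat_lit 77) (nat_lit 5) (nat_lit 81) (nat_lit 5) (nat_lit 78) (nat_lit 5) (nat_lit 419) (nat_lit 341) (nat_lit 260)) (XT.lf (nat_lit 0) (nat_lit 4376768503) (nat_lit 228) (nat_lit 7978254142) (nat_lit 304) (nat_lit 4989896810) (nat_lit 74) (nat_lit 5) (nat_lit 77) (nat_lit 5) (nat_lit 78) (nat_lit 5) (nat_lit 420) (nat_lit 341) (nat_lit 259)))))) (XT.nd (nat_lit 468) (nat_lit 228) (nat_lit 0) (XT.nd (nat_lit 234) (nat_lit 760) (nat_lit 0) (XT.nd (nat_lit 78) (nat_lit 228) (nat_lit 0) (XT.lf (nat_lit 0) (nat_lit 1897324180) (nat_lit 304) (nat_lit 15081491365) (nat_lit 76) (nat_lit 701957725) (nat_lit 70) (nat_lit 5) (nat_lit 74) (nat_lit 5) (nat_lit 71) (nat_lit 5) (nat_lit 421) (nat_lit 341) (nat_lit 258)) (XT.nd (nat_lit 78) (nat_lit 0) (nat_lit 0) (XT.lf (nat_lit 0) (nat_lit 637346462) (nat_lit 228) (nat_lit 8391563024) (nat_lit 304) (nat_lit 8995026005) (nat_lit 67) (nat_lit 5) (nat_lit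 70) (nat_lit 5) (nat_lit 71) (nat_lit 5) (nat_lit 422) (nat_lit 341) (nat_lit 257)) (XT.lf (nat_lit 0) (nat_lit 16440017158) (nat_lit 304) (nat_lit 1414272093) (nat_lit 76) (nat_lit 521795010) (nat_lit 67) (nat_lit 5) (nat_lit 71) (nat_lit 5) (nat_lit 68) (nat_lit 5) (nat_lit 423) (nat_lit 341) (nat_lit 256)))) (XT.nd (nat_lit 78) (nat_lit 456) (nat_lit 0) (XT.lf (nat_lit 0) (nat_lit 5380619236) (nat_lit 304) (nat_lit 3660072310) (nat_lit 76) (nat_lit 9695097775) (nat_lit 63) (nat_lit 5) (nat_lit 67) (nat_lit 5) (nat_lit 64) (nat_lit 5) (nat_lit 424) (nat_lit 341) (nat_lit 255)) (XT.nd (nat_lit 78) (nat_lit 228) (nat_lit 0) (XT.lf (nat_lit 0) (nat_lit 12947277142) (nat_lit 304) (nat_lit 6040559578) (nat_lit 76) (nat_lit 117060310) (nat_lit 60) (nat_lit 5) (nat_lit 64) (nat_lit 5) (nat_lit 61) (nat_lit 5) (nat_lit 425) (nat_lit 341) (nat_lit 254)) (XT.lf (nat_lit 0) (nat_lit 1358071281) (nat_lit 228)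 (nat_lit 8620084307) (nat_lit 76) (nat_lit 9504388398) (nat_lit 57) (nat_lit 5) (nat_lit 60) (nat_lit 5) (nat_lit 58) (nat_lit 5) (nat_lit 426) (nat_lit 341) (nat_lit 253))))) (XT.nd (nat_lit 46644) (nat_lit 0) (nat_lit 50008) (XT.nd (nat_lit 46488) (nat_lit 0) (nat_lit 50768) (XT.lf (nat_lit 0) (nat_lit 8488622197) (nat_lit 228) (nat_lit 586079393) (nat_lit 304) (nat_lit 10794824910) (nat_lit 54) (nat_lit 5) (nat_lit 57) (nat_lit 5) (nat_lit 58) (nat_lit 5) (nat_lit 427) (nat_lit 341) (nat_lit 252)) (XT.nd (nat_lit 78) (nat_lit 380) (nat_lit 0) (XT.lf (nat_lit 0) (nat_lit 1282972050) (nat_lit 0) (nat_lit 1282972050) (nat_lit 228) (nat_lit 663696682) (nat_lit 727) (nat_lit 5) (nat_lit 727) (nat_lit 3) (nat_lit 730) (nat_lit 3) (nat_lit 342) (nat_lit 342) (nat_lit 336)) (XT.lf (nat_lit 76) (nat_lit 854572007) (nat_lit 0) (nat_lit 2085898797) (nat_lit 380) (nat_lit 3528806756) (nat_lit 723) (nat_lit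 5) (nat_lit 722) (nat_lit 3) (nat_lit 727) (nat_lit 5) (nat_lit 343) (nat_lit 342) (nat_lit 335)))) (XT.nd (nat_lit 78) (nat_lit 380) (nat_lit 0) (XT.lf (nat_lit 0) (nat_lit 686375497) (nat_lit 380) (nat_lit 783615532) (nat_lit 456) (nat_lit 5012192945) (nat_lit 717) (nat_lit 5) (nat_lit 722) (nat_lit 3) (nat_lit 723) (nat_lit 5) (nat_lit 344) (nat_lit 342) (nat_lit 334)) (XT.nd (nat_lit 78) (nat_lit 380) (nat_lit 0) (XT.lf (nat_lit 76) (nat_lit 4137302287) (nat_lit 0) (nat_lit 706639177) (nat_lit 456) (nat_lit 1653854079) (nat_lit 718) (nat_lit 5) (nat_lit 717) (nat_lit 5) (nat_lit 723) (nat_lit 5) (nat_lit 345) (nat_lit 342) (nat_lit 333)) (XT.lf (nat_lit 0) (nat_lit 2441628941) (nat_lit 456) (nat_lit 3883818184) (nat_lit 532) (nat_lit 190877391) (nat_lit 712) (nat_lit 5) (nat_lit 718) (nat_lit 5) (nat_lit 719) (nat_lit 5) (nat_lit 346) (nat_lit 342) (nat_lit 332))))))))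
noncomputable def xc48 : XT := (XT.nd (nat_lit 1716) (nat_lit 16416) (nat_lit 0) (XT.nd (nat_lit 858) (nat_lit 14516) (nat_lit 0) (XT.nd (nat_lit 390) (nat_lit 4408) (nat_lit 0) (XT.nd (nat_lit 156) (nat_lit 1216) (nat_lit 0) (XT.nd (nat_lit 78) (nat_lit 532) (nat_lit 0) (XT.lf (nat_lit 76) (nat_lit 1183347542) (nat_lit 0) (nat_lit 5327200499) (nat_lit 532) (nat_lit 27239052) (nat_lit 713) (nat_lit 5) (nat_lit 712) (nat_lit 5) (nat_lit 719) (nat_lit 5) (nat_lit 347) (nat_lit 342) (nat_lit 331)) (XT.lf (nat_lit 0) (nat_lit 3961123689) (nat_lit 532) (nat_lit 220182133) (nat_lit 608) (nat_lit 2380628339) (nat_lit 705) (nat_lit 5) (nat_lit 712) (nat_lit 5) (nat_lit 713) (nat_lit 5) (nat_lit 348) (nat_lit 342) (nat_lit 330))) (XT.nd (nat_lit 78) (nat_lit 608) (nat_lit 0) (XT.lf (nat_lit 0) (nat_lit 1346240433) (nat_lit 608) (nat_lit 1550740186) (nat_lit 684) (nat_lit 3692006574) (nat_lit 697) (nat_lit 5)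 (nat_lit 705) (nat_lit 5) (nat_lit 706) (nat_lit 5) (nat_lit 349) (nat_lit 342) (nat_lit 329)) (XT.nd (nat_lit 78) (nat_lit 608) (nat_lit 0) (XT.lf (nat_lit 76) (nat_lit 3785454379) (nat_lit 0) (nat_lit 1471706287) (nat_lit 684) (nat_lit 1361781778) (nat_lit 698) (nat_lit 5) (nat_lit 697) (nat_lit 5) (nat_lit 706) (nat_lit 5) (nat_lit 350) (nat_lit 342) (nat_lit 328)) (XT.lf (nat_lit 0) (nat_lit 2486218569) (nat_lit 684) (nat_lit 4070317447) (nat_lit 76) (nat_lit 95262520) (nat_lit 689) (nat_lit 5) (nat_lit 698) (nat_lit 5) (nat_lit 690) (nat_lit 5) (nat_lit 351) (nat_lit 342) (nat_lit 327))))) (XT.nd (nat_lit 234) (nat_lit 2812) (nat_lit 0) (XT.nd (nat_lit 78) (nat_lit 912) (nat_lit 0) (XT.lf (nat_lit 0) (nat_lit 1422322200) (nat_lit 684) (nat_lit 4908488288) (nat_lit 760) (nat_lit 356703230) (nat_lit 680) (nat_lit 5) (nat_lit 689) (nat_lit 5) (nat_lit 690) (nat_lit 5) (nat_lit 352) (nat_lit 342)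 (nat_lit 326)) (XT.nd (nat_lit 78) (nat_lit 76) (nat_lit 0) (XT.lf (nat_lit 0) (nat_lit 302248088) (nat_lit 760) (nat_lit 3110817430) (nat_lit 836) (nat_lit 3312947970) (nat_lit 669) (nat_lit 5) (nat_lit 679) (nat_lit 5) (nat_lit 680) (nat_lit 5) (nat_lit 353) (nat_lit 342) (nat_lit 325)) (XT.lf (nat_lit 0) (nat_lit 420641356) (nat_lit 836) (nat_lit 752635266) (nat_lit 76) (nat_lit 5594276904) (nat_lit 668) (nat_lit 5) (nat_lit 679) (nat_lit 5) (nat_lit 669) (nat_lit 5) (nat_lit 354) (nat_lit 342) (nat_lit 324)))) (XT.nd (nat_lit 78) (nat_lit 1976) (nat_lit 0) (XT.lf (nat_lit 0) (nat_lit 4130260693) (nat_lit 912) (nat_lit 1773031120) (nat_lit 76) (nat_lit 908470227) (nat_lit 657) (nat_lit 5) (nat_lit 669) (nat_lit 5) (nat_lit 658) (nat_lit 5) (nat_lit 355) (nat_lit 342) (nat_lit 323)) (XT.nd (nat_lit 78) (nat_lit 988) (nat_lit 0) (XT.lf (nat_lit 0) (nat_lit 992131960) (nat_lit 988) (nat_lit 2751802488)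 (nat_lit 76) (nat_lit 3115007114) (nat_lit 644) (nat_lit 5) (nat_lit 657) (nat_lit 5) (nat_lit 645) (nat_lit 5) (nat_lit 356) (nat_lit 342) (nat_lit 322)) (XT.lf (nat_lit 0) (nat_lit 3215383277) (nat_lit 988) (nat_lit 1433127651) (nat_lit 1064) (nat_lit 2260529482) (nat_lit 631) (nat_lit 5) (nat_lit 644) (nat_lit 5) (nat_lit 645) (nat_lit 5) (nat_lit 357) (nat_lit 342) (nat_lit 321)))))) (XT.nd (nat_lit 390) (nat_lit 9576) (nat_lit 0) (XT.nd (nat_lit 156) (nat_lit 2660) (nat_lit 0) (XT.nd (nat_lit 78) (nat_lit 1140) (nat_lit 0) (XT.lf (nat_lit 0) (nat_lit 1353678539) (nat_lit 1140) (nat_lit 4598049108) (nat_lit 76) (nat_lit 1010385584) (nat_lit 616) (nat_lit 5) (nat_lit 631) (nat_lit 5) (nat_lit 617) (nat_lit 5) (nat_lit 358) (nat_lit 342) (nat_lit 320)) (XT.lf (nat_lit 0) (nat_lit 1542330452) (nat_lit 1140) (nat_lit 3429416610) (nat_lit 1216) (nat_lit 2046244336) (nat_lit 601) (nat_lit 5) (nat_lit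 616) (nat_lit 5) (nat_lit 617) (nat_lit 5) (nat_lit 359) (nat_lit 342) (nat_lit 319))) (XT.nd (nat_lit 78) (nat_lit 1368) (nat_lit 0) (XT.lf (nat_lit 0) (nat_lit 763264676) (nat_lit 1216) (nat_lit 757840769) (nat_lit 1292) (nat_lit 5555871434) (nat_lit 584) (nat_lit 5) (nat_lit 600) (nat_lit 5) (nat_lit 601) (nat_lit 5) (nat_lit 360) (nat_lit 342) (nat_lit 318)) (XT.nd (nat_lit 78) (nat_lit 76) (nat_lit 0) (XT.lf (nat_lit 0) (nat_lit 8623001) (nat_lit 1292) (nat_lit 5095798469) (nat_lit 1368) (nat_lit 2034337290) (nat_lit 567) (nat_lit 5) (nat_lit 584) (nat_lit 5) (nat_lit 585) (nat_lit 5) (nat_lit 361) (nat_lit 342) (nat_lit 317)) (XT.lf (nat_lit 0) (nat_lit 1508283143) (nat_lit 1368) (nat_lit 702139792) (nat_lit 76) (nat_lit 4993068429) (nat_lit 566) (nat_lit 5) (nat_lit 584) (nat_lit 5) (nat_lit 567) (nat_lit 5) (nat_lit 362) (nat_lit 342) (nat_lit 316))))) (XT.nd (nat_lit 234) (nat_lit 5168) (nat_lit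 0) (XT.nd (nat_lit 78) (nat_lit 3040) (nat_lit 0) (XT.lf (nat_lit 0) (nat_lit 5064827877) (nat_lit 1444) (nat_lit 1383642779) (nat_lit 76) (nat_lit 822750489) (nat_lit 548) (nat_lit 5) (nat_lit 567) (nat_lit 5) (nat_lit 549) (nat_lit 5) (nat_lit 363) (nat_lit 342) (nat_lit 315)) (XT.nd (nat_lit 78) (nat_lit 1520) (nat_lit 0) (XT.lf (nat_lit 0) (nat_lit 1316720970) (nat_lit 1520) (nat_lit 2042290156) (nat_lit 76) (nat_lit 3982863427) (nat_lit 528) (nat_lit 5) (nat_lit 548) (nat_lit 5) (nat_lit 529) (nat_lit 5) (nat_lit 364) (nat_lit 342) (nat_lit 314)) (XT.lf (nat_lit 0) (nat_lit 4745157308) (nat_lit 1520) (nat_lit 106768969) (nat_lit 1596) (nat_lit 2563729685) (nat_lit 508) (nat_lit 5) (nat_lit 528) (nat_lit 5) (nat_lit 529) (nat_lit 5) (nat_lit 365) (nat_lit 342) (nat_lit 313)))) (XT.nd (nat_lit 78) (nat_lit 3496) (nat_lit 0) (XT.lf (nat_lit 0) (nat_lit 948973208) (nat_lit 1672) (nat_lit 3282474298)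 (nat_lit 76) (nat_lit 3260888053) (nat_lit 486) (nat_lit 5) (nat_lit 508) (nat_lit 5) (nat_lit 487) (nat_lit 5) (nat_lit 366) (nat_lit 342) (nat_lit 312)) (XT.nd (nat_lit 78) (nat_lit 1824) (nat_lit 0) (XT.lf (nat_lit 0) (nat_lit 3702200042) (nat_lit 1672) (nat_lit 773382461) (nat_lit 1748) (nat_lit 3096552458) (nat_lit 464) (nat_lit 5) (nat_lit 486) (nat_lit 5) (nat_lit 487) (nat_lit 5) (nat_lit 367) (nat_lit 342) (nat_lit 311)) (XT.lf (nat_lit 0) (nat_lit 411424924) (nat_lit 1824) (nat_lit 4437502600) (nat_lit 76) (nat_lit 2806091893) (nat_lit 440) (nat_lit 5) (nat_lit 464) (nat_lit 5) (nat_lit 441) (nat_lit 5) (nat_lit 368) (nat_lit 342) (nat_lit 310))))))) (XT.nd (nat_lit 858) (nat_lit 7220) (nat_lit 0) (XT.nd (nat_lit 390) (nat_lit 4028) (nat_lit 0) (XT.nd (nat_lit 156) (nat_lit 2812) (nat_lit 0) (XT.nd (nat_lit 78) (nat_lit 912) (nat_lit 0) (XT.lf (nat_lit 0) (nat_lit 2749722629) (nat_lit 1444)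 (nat_lit 1186685890) (nat_lit 1520) (nat_lit 3804519321) (nat_lit 421) (nat_lit 5) (nat_lit 440) (nat_lit 5) (nat_lit 441) (nat_lit 5) (nat_lit 369) (nat_lit 342) (nat_lit 309)) (XT.lf (nat_lit 0) (nat_lit 2306325191) (nat_lit 912) (nat_lit 5229257050) (nat_lit 988) (nat_lit 294485313) (nat_lit 409) (nat_lit 5) (nat_lit 421) (nat_lit 5) (nat_lit 422) (nat_lit 5) (nat_lit 370) (nat_lit 342) (nat_lit 308))) (XT.nd (nat_lit 78) (nat_lit 1824) (nat_lit 0) (XT.lf (nat_lit 0) (nat_lit 1873554854) (nat_lit 912) (nat_lit 1365813017) (nat_lit 988) (nat_lit 4682862681) (nat_lit 396) (nat_lit 5) (nat_lit 408) (nat_lit 5) (nat_lit 409) (nat_lit 5) (nat_lit 371) (nat_lit 342) (nat_lit 307)) (XT.nd (nat_lit 78) (nat_lit 912) (nat_lit 0) (XT.lf (nat_lit 0) (nat_lit 1460402596) (nat_lit 912) (nat_lit 5389011646) (nat_lit 988) (nat_lit 1168242814) (nat_lit 384) (nat_lit 5) (nat_lit 396) (nat_lit 5) (nat_lit 397) (nat_lit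 5) (nat_lit 372) (nat_lit 342) (nat_lit 306)) (XT.lf (nat_lit 0) (nat_lit 1059749096) (nat_lit 836) (nat_lit 1328643913) (nat_lit 912) (nat_lit 5727880402) (nat_lit 372) (nat_lit 5) (nat_lit 383) (nat_lit 5) (nat_lit 384) (nat_lit 5) (nat_lit 373) (nat_lit 342) (nat_lit 305))))) (XT.nd (nat_lit 234) (nat_lit 2356) (nat_lit 0) (XT.nd (nat_lit 78) (nat_lit 836) (nat_lit 0) (XT.lf (nat_lit 0) (nat_lit 668699560) (nat_lit 836) (nat_lit 5348278836) (nat_lit 912) (nat_lit 2201112485) (nat_lit 361) (nat_lit 5) (nat_lit 372) (nat_lit 5) (nat_lit 373) (nat_lit 5) (nat_lit 374) (nat_lit 342) (nat_lit 304)) (XT.nd (nat_lit 78) (nat_lit 0) (nat_lit 0) (XT.lf (nat_lit 0) (nat_lit 294467434) (nat_lit 760) (nat_lit 1091940845) (nat_lit 836) (nat_lit 6936912820) (nat_lit 350) (nat_lit 5) (nat_lit 360) (nat_lit 5) (nat_lit 361) (nat_lit 5) (nat_lit 375) (nat_lit 342) (nat_lit 303)) (XT.lf (nat_lit 0) (nat_lit 5041341612)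 (nat_lit 836) (nat_lit 81465784) (nat_lit 76) (nat_lit 3308834043) (nat_lit 350) (nat_lit 5) (nat_lit 361) (nat_lit 5) (nat_lit 351) (nat_lit 5) (nat_lit 376) (nat_lit 342) (nat_lit 302)))) (XT.nd (nat_lit 78) (nat_lit 1520) (nat_lit 0) (XT.lf (nat_lit 0) (nat_lit 238177465) (nat_lit 836) (nat_lit 430412878) (nat_lit 76) (nat_lit 7875025869) (nat_lit 339) (nat_lit 5) (nat_lit 350) (nat_lit 5) (nat_lit 340) (nat_lit 5) (nat_lit 377) (nat_lit 342) (nat_lit 301)) (XT.nd (nat_lit 78) (nat_lit 760) (nat_lit 0) (XT.lf (nat_lit 0) (nat_lit 3927694442) (nat_lit 836) (nat_lit 796588935) (nat_lit 76) (nat_lit 3934270393) (nat_lit 329) (nat_lit 5) (nat_lit 340) (nat_lit 5) (nat_lit 330) (nat_lit 5) (nat_lit 378) (nat_lit 342) (nat_lit 300)) (XT.lf (nat_lit 0) (nat_lit 7639438903) (nat_lit 760) (nat_lit 67491917) (nat_lit 836) (nat_lit 1070444135) (nat_lit 319) (nat_lit 5) (nat_lit 329) (nat_lit 5) (nat_lit 330)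 (nat_lit 5) (nat_lit 379) (nat_lit 342) (nat_lit 299)))))) (XT.nd (nat_lit 390) (nat_lit 3724) (nat_lit 0) (XT.nd (nat_lit 156) (nat_lit 2052) (nat_lit 0) (XT.nd (nat_lit 78) (nat_lit 684) (nat_lit 0) (XT.lf (nat_lit 0) (nat_lit 2672375806) (nat_lit 760) (nat_lit 1499277487) (nat_lit 76) (nat_lit 4727612300) (nat_lit 309) (nat_lit 5) (nat_lit 319) (nat_lit 5) (nat_lit 310) (nat_lit 5) (nat_lit 380) (nat_lit 342) (nat_lit 298)) (XT.lf (nat_lit 0) (nat_lit 6497171607) (nat_lit 760) (nat_lit 1846061866) (nat_lit 76) (nat_lit 681768227) (nat_lit 300) (nat_lit 5) (nat_lit 310) (nat_lit 5) (nat_lit 301) (nat_lit 5) (nat_lit 381) (nat_lit 342) (nat_lit 297))) (XT.nd (nat_lit 78) (nat_lit 1292) (nat_lit 0) (XT.lf (nat_lit 0) (nat_lit 1275097952) (nat_lit 760) (nat_lit 2203674675) (nat_lit 76) (nat_lit 5675390739) (nat_lit 290) (nat_lit 5) (nat_lit 300) (nat_lit 5) (nat_lit 291) (nat_lit 5) (nat_lit 382) (nat_lit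 342) (nat_lit 296)) (XT.nd (nat_lit 78) (nat_lit 608) (nat_lit 0) (XT.lf (nat_lit 0) (nat_lit 5152053750) (nat_lit 760) (nat_lit 2564488501) (nat_lit 76) (nat_lit 1570451606) (nat_lit 281) (nat_lit 5) (nat_lit 291) (nat_lit 5) (nat_lit 282) (nat_lit 5) (nat_lit 383) (nat_lit 342) (nat_lit 295)) (XT.lf (nat_lit 0) (nat_lit 6497533686) (nat_lit 608) (nat_lit 2657170399) (nat_lit 684) (nat_lit 268930874) (nat_lit 273) (nat_lit 5) (nat_lit 281) (nat_lit 5) (nat_lit 282) (nat_lit 5) (nat_lit 384) (nat_lit 342) (nat_lit 294))))) (XT.nd (nat_lit 234) (nat_lit 1748) (nat_lit 0) (XT.nd (nat_lit 78) (nat_lit 1292) (nat_lit 0) (XT.lf (nat_lit 0) (nat_lit 3669546246) (nat_lit 684) (nat_lit 3307581041) (nat_lit 76) (nat_lit 2586674920) (nat_lit 264) (nat_lit 5) (nat_lit 273) (nat_lit 5) (nat_lit 265) (nat_lit 5) (nat_lit 385) (nat_lit 342) (nat_lit 293)) (XT.nd (nat_lit 78) (nat_lit 684) (nat_lit 0) (XT.lf (nat_lit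 0) (nat_lit 6018693305) (nat_lit 608) (nat_lit 1711975081) (nat_lit 684) (nat_lit 1977320044) (nat_lit 256) (nat_lit 5) (nat_lit 264) (nat_lit 5) (nat_lit 265) (nat_lit 5) (nat_lit 386) (nat_lit 342) (nat_lit 292)) (XT.lf (nat_lit 0) (nat_lit 2047065764) (nat_lit 684) (nat_lit 4090779252) (nat_lit 76) (nat_lit 3718061471) (nat_lit 247) (nat_lit 5) (nat_lit 256) (nat_lit 5) (nat_lit 248) (nat_lit 5) (nat_lit 387) (nat_lit 342) (nat_lit 291)))) (XT.nd (nat_lit 78) (nat_lit 1216) (nat_lit 0) (XT.lf (nat_lit 0) (nat_lit 5507160131) (nat_lit 532) (nat_lit 664287228) (nat_lit 608) (nat_lit 3836442217) (nat_lit 240) (nat_lit 5) (nat_lit 247) (nat_lit 5) (nat_lit 248) (nat_lit 5) (nat_lit 388) (nat_lit 342) (nat_lit 290)) (XT.nd (nat_lit 78) (nat_lit 532) (nat_lit 0) (XT.lf (nat_lit 0) (nat_lit 281010680) (nat_lit 684) (nat_lit 4930302372) (nat_lit 76) (nat_lit 4952512308) (nat_lit 231) (nat_lit 5) (nat_lit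 240) (nat_lit 5) (nat_lit 232) (nat_lit 5) (nat_lit 389) (nat_lit 342) (nat_lit 289)) (XT.lf (nat_lit 0) (nat_lit 4476272534) (nat_lit 608) (nat_lit 5380197958) (nat_lit 76) (nat_lit 467343985) (nat_lit 224) (nat_lit 5) (nat_lit 232) (nat_lit 5) (nat_lit 225) (nat_lit 5) (nat_lit 390) (nat_lit 342) (nat_lit 288))))))))
noncomputable def xc49 : XT := (XT.nd (nat_lit 1716) (nat_lit 3648) (nat_lit 0) (XT.nd (nat_lit 858) (nat_lit 3800) (nat_lit 0) (XT.nd (nat_lit 390) (nat_lit 2660) (nat_lit 0) (XT.nd (nat_lit 156) (nat_lit 1520) (nat_lit 0) (XT.nd (nat_lit 78) (nat_lit 532) (nat_lit 0) (XT.lf (nat_lit 0) (nat_lit 4633856357) (nat_lit 532) (nat_lit 4199066347) (nat_lit 608) (nat_lit 1654980231) (nat_lit 217) (nat_lit 5) (nat_lit 224) (nat_lit 5) (nat_lit 225) (nat_lit 5) (nat_lit 391) (nat_lit 342) (nat_lit 287)) (XT.lf (nat_lit 0) (nat_lit 2641982561) (nat_lit 532) (nat_lit 6347178898) (nat_lit 76) (nat_lit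 1667145433) (nat_lit 210) (nat_lit 5) (nat_lit 217) (nat_lit 5) (nat_lit 211) (nat_lit 5) (nat_lit 392) (nat_lit 342) (nat_lit 286))) (XT.nd (nat_lit 78) (nat_lit 988) (nat_lit 0) (XT.lf (nat_lit 0) (nat_lit 3956523866) (nat_lit 532) (nat_lit 3121636826) (nat_lit 608) (nat_lit 3750737162) (nat_lit 203) (nat_lit 5) (nat_lit 210) (nat_lit 5) (nat_lit 211) (nat_lit 5) (nat_lit 393) (nat_lit 342) (nat_lit 285)) (XT.nd (nat_lit 78) (nat_lit 456) (nat_lit 0) (XT.lf (nat_lit 0) (nat_lit 658168612) (nat_lit 532) (nat_lit 7416197870) (nat_lit 76) (nat_lit 2931709606) (nat_lit 196) (nat_lit 5) (nat_lit 203) (nat_lit 5) (nat_lit 197) (nat_lit 5) (nat_lit 394) (nat_lit 342) (nat_lit 284)) (XT.lf (nat_lit 0) (nat_lit 3184494525) (nat_lit 456) (nat_lit 1993471776) (nat_lit 532) (nat_lit 6009524647) (nat_lit 190) (nat_lit 5) (nat_lit 196) (nat_lit 5) (nat_lit 197) (nat_lit 5) (nat_lit 395) (nat_lit 342) (nat_lit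 283))))) (XT.nd (nat_lit 234) (nat_lit 1292) (nat_lit 0) (XT.nd (nat_lit 78) (nat_lit 912) (nat_lit 0) (XT.lf (nat_lit 0) (nat_lit 2756382852) (nat_lit 456) (nat_lit 7115076868) (nat_lit 532) (nat_lit 1502135020) (nat_lit 184) (nat_lit 5) (nat_lit 190) (nat_lit 5) (nat_lit 191) (nat_lit 5) (nat_lit 396) (nat_lit 342) (nat_lit 282)) (XT.nd (nat_lit 78) (nat_lit 380) (nat_lit 0) (XT.lf (nat_lit 0) (nat_lit 2297430911) (nat_lit 456) (nat_lit 827367015) (nat_lit 532) (nat_lit 8439573839) (nat_lit 177) (nat_lit 5) (nat_lit 183) (nat_lit 5) (nat_lit 184) (nat_lit 5) (nat_lit 397) (nat_lit 342) (nat_lit 281)) (XT.lf (nat_lit 0) (nat_lit 1792012734) (nat_lit 380) (nat_lit 6128978178) (nat_lit 456) (nat_lit 3838673277) (nat_lit 172) (nat_lit 5) (nat_lit 177) (nat_lit 5) (nat_lit 178) (nat_lit 5) (nat_lit 398) (nat_lit 342) (nat_lit 280)))) (XT.nd (nat_lit 78) (nat_lit 760) (nat_lit 0) (XT.lf (nat_lit 0) (nat_lit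 912215199) (nat_lit 532) (nat_lit 10689265670) (nat_lit 76) (nat_lit 358749754) (nat_lit 165) (nat_lit 5) (nat_lit 172) (nat_lit 5) (nat_lit 166) (nat_lit 5) (nat_lit 399) (nat_lit 342) (nat_lit 279)) (XT.nd (nat_lit 78) (nat_lit 380) (nat_lit 0) (XT.lf (nat_lit 0) (nat_lit 678342377) (nat_lit 380) (nat_lit 5134142560) (nat_lit 456) (nat_lit 6352648775) (nat_lit 160) (nat_lit 5) (nat_lit 165) (nat_lit 5) (nat_lit 166) (nat_lit 5) (nat_lit 400) (nat_lit 342) (nat_lit 278)) (XT.lf (nat_lit 0) (nat_lit 68304145) (nat_lit 380) (nat_lit 10820962039) (nat_lit 456) (nat_lit 1486334708) (nat_lit 155) (nat_lit 5) (nat_lit 160) (nat_lit 5) (nat_lit 161) (nat_lit 5) (nat_lit 401) (nat_lit 342) (nat_lit 277)))))) (XT.nd (nat_lit 390) (nat_lit 2128) (nat_lit 0) (XT.nd (nat_lit 156) (nat_lit 1216) (nat_lit 0) (XT.nd (nat_lit 78) (nat_lit 380) (nat_lit 0) (XT.lf (nat_lit 0) (nat_lit 3539338047) (nat_lit 456) (nat_lit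 601440498) (nat_lit 76) (nat_lit 8449960149) (nat_lit 154) (nat_lit 5) (nat_lit 160) (nat_lit 5) (nat_lit 155) (nat_lit 5) (nat_lit 402) (nat_lit 342) (nat_lit 276)) (XT.lf (nat_lit 0) (nat_lit 8737140992) (nat_lit 456) (nat_lit 1310951401) (nat_lit 76) (nat_lit 2763217202) (nat_lit 149) (nat_lit 5) (nat_lit 155) (nat_lit 5) (nat_lit 150) (nat_lit 5) (nat_lit 403) (nat_lit 342) (nat_lit 275))) (XT.nd (nat_lit 78) (nat_lit 760) (nat_lit 0) (XT.lf (nat_lit 0) (nat_lit 1091267455) (nat_lit 456) (nat_lit 2070812061) (nat_lit 76) (nat_lit 9875233883) (nat_lit 143) (nat_lit 5) (nat_lit 149) (nat_lit 5) (nat_lit 144) (nat_lit 5) (nat_lit 404) (nat_lit 342) (nat_lit 274)) (XT.nd (nat_lit 78) (nat_lit 380) (nat_lit 0) (XT.lf (nat_lit 0) (nat_lit 6409031869) (nat_lit 456) (nat_lit 2902589905) (nat_lit 76) (nat_lit 3956888628) (nat_lit 138) (nat_lit 5) (nat_lit 144) (nat_lit 5) (nat_lit 139) (nat_lit 5) (nat_lit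 405) (nat_lit 342) (nat_lit 273)) (XT.lf (nat_lit 0) (nat_lit 9727686336) (nat_lit 380) (nat_lit 2207820551) (nat_lit 456) (nat_lit 1570158732) (nat_lit 133) (nat_lit 5) (nat_lit 138) (nat_lit 5) (nat_lit 139) (nat_lit 5) (nat_lit 406) (nat_lit 342) (nat_lit 272))))) (XT.nd (nat_lit 234) (nat_lit 988) (nat_lit 0) (XT.nd (nat_lit 78) (nat_lit 760) (nat_lit 0) (XT.lf (nat_lit 0) (nat_lit 3890555020) (nat_lit 380) (nat_lit 4737953745) (nat_lit 76) (nat_lit 5119657294) (nat_lit 128) (nat_lit 5) (nat_lit 133) (nat_lit 5) (nat_lit 129) (nat_lit 5) (nat_lit 407) (nat_lit 342) (nat_lit 271)) (XT.nd (nat_lit 78) (nat_lit 380) (nat_lit 0) (XT.lf (nat_lit 0) (nat_lit 8243655845) (nat_lit 380) (nat_lit 1296408197) (nat_lit 456) (nat_lit 4456749187) (nat_lit 123) (nat_lit 5) (nat_lit 128) (nat_lit 5) (nat_lit 129) (nat_lit 5) (nat_lit 408) (nat_lit 342) (nat_lit 270)) (XT.lf (nat_lit 0) (nat_lit 1166015085) (nat_lit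 380) (nat_lit 6850395848) (nat_lit 76) (nat_lit 6234882721) (nat_lit 118) (nat_lit 5) (nat_lit 123) (nat_lit 5) (nat_lit 119) (nat_lit 5) (nat_lit 409) (nat_lit 342) (nat_lit 269)))) (XT.nd (nat_lit 78) (nat_lit 684) (nat_lit 0) (XT.lf (nat_lit 0) (nat_lit 6487737572) (nat_lit 304) (nat_lit 453001914) (nat_lit 380) (nat_lit 7571208288) (nat_lit 114) (nat_lit 5) (nat_lit 118) (nat_lit 5) (nat_lit 119) (nat_lit 5) (nat_lit 410) (nat_lit 342) (nat_lit 268)) (XT.nd (nat_lit 78) (nat_lit 380) (nat_lit 0) (XT.lf (nat_lit 0) (nat_lit 5490505363) (nat_lit 304) (nat_lit 7482364004) (nat_lit 380) (nat_lit 1805873733) (nat_lit 110) (nat_lit 5) (nat_lit 114) (nat_lit 5) (nat_lit 115) (nat_lit 5) (nat_lit 411) (nat_lit 342) (nat_lit 267)) (XT.lf (nat_lit 0) (nat_lit 4121380459) (nat_lit 380) (nat_lit 10631584787) (nat_lit 76) (nat_lit 299181913) (nat_lit 105) (nat_lit 5) (nat_lit 110) (nat_lit 5) (nat_lit 106)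 (nat_lit 5) (nat_lit 412) (nat_lit 342) (nat_lit 266))))))) (XT.nd (nat_lit 858) (nat_lit 760) (nat_lit 0) (XT.nd (nat_lit 390) (nat_lit 1596) (nat_lit 0) (XT.nd (nat_lit 156) (nat_lit 608) (nat_lit 0) (XT.nd (nat_lit 78) (nat_lit 380) (nat_lit 0) (XT.lf (nat_lit 0) (nat_lit 3242482737) (nat_lit 304) (nat_lit 7049403923) (nat_lit 380) (nat_lit 5039833049) (nat_lit 101) (nat_lit 5) (nat_lit 105) (nat_lit 5) (nat_lit 106) (nat_lit 5) (nat_lit 413) (nat_lit 342) (nat_lit 265)) (XT.lf (nat_lit 0) (nat_lit 1061998115) (nat_lit 380) (nat_lit 13617855601) (nat_lit 76) (nat_lit 938743532) (nat_lit 96) (nat_lit 5) (nat_lit 101) (nat_lit 5) (nat_lit 97) (nat_lit 5) (nat_lit 414) (nat_lit 342) (nat_lit 264))) (XT.nd (nat_lit 78) (nat_lit 380) (nat_lit 0) (XT.lf (nat_lit 0) (nat_lit 621509503) (nat_lit 228) (nat_lit 6747499210) (nat_lit 304) (nat_lit 8542598361) (nat_lit 93) (nat_lit 5) (nat_lit 96) (nat_lit 5)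 (nat_lit 97) (nat_lit 5) (nat_lit 415) (nat_lit 342) (nat_lit 263)) (XT.nd (nat_lit 78) (nat_lit 380) (nat_lit 0) (XT.lf (nat_lit 0) (nat_lit 13924548386) (nat_lit 304) (nat_lit 818173077) (nat_lit 76) (nat_lit 1469503383) (nat_lit 93) (nat_lit 5) (nat_lit 97) (nat_lit 5) (nat_lit 94) (nat_lit 5) (nat_lit 416) (nat_lit 342) (nat_lit 262)) (XT.lf (nat_lit 0) (nat_lit 4196522511) (nat_lit 380) (nat_lit 2388222887) (nat_lit 76) (nat_lit 9934657629) (nat_lit 88) (nat_lit 5) (nat_lit 93) (nat_lit 5) (nat_lit 89) (nat_lit 5) (nat_lit 417) (nat_lit 342) (nat_lit 261))))) (XT.nd (nat_lit 234) (nat_lit 760) (nat_lit 0) (XT.nd (nat_lit 78) (nat_lit 608) (nat_lit 0) (XT.lf (nat_lit 0) (nat_lit 10904201052) (nat_lit 304) (nat_lit 4058517510) (nat_lit 76) (nat_lit 1871578598) (nat_lit 85) (nat_lit 5) (nat_lit 89) (nat_lit 5) (nat_lit 86) (nat_lit 5) (nat_lit 418) (nat_lit 342) (nat_lit 260)) (XT.nd (nat_lit 78)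 (nat_lit 228) (nat_lit 0) (XT.lf (nat_lit 0) (nat_lit 739742648) (nat_lit 380) (nat_lit 5856534756) (nat_lit 76) (nat_lit 10560402183) (nat_lit 80) (nat_lit 5) (nat_lit 85) (nat_lit 5) (nat_lit 81) (nat_lit 5) (nat_lit 419) (nat_lit 342) (nat_lit 259)) (XT.lf (nat_lit 0) (nat_lit 7594075960) (nat_lit 304) (nat_lit 7793857679) (nat_lit 76) (nat_lit 2098720006) (nat_lit 77) (nat_lit 5) (nat_lit 81) (nat_lit 5) (nat_lit 78) (nat_lit 5) (nat_lit 420) (nat_lit 342) (nat_lit 258)))) (XT.nd (nat_lit 78) (nat_lit 532) (nat_lit 0) (XT.lf (nat_lit 0) (nat_lit 7955964561) (nat_lit 228) (nat_lit 6794340639) (nat_lit 304) (nat_lit 3074299746) (nat_lit 74) (nat_lit 5) (nat_lit 77) (nat_lit 5) (nat_lit 78) (nat_lit 5) (nat_lit 421) (nat_lit 342) (nat_lit 257)) (XT.nd (nat_lit 78) (nat_lit 228) (nat_lit 0) (XT.lf (nat_lit 0) (nat_lit 3964487630) (nat_lit 304) (nat_lit 12084193130) (nat_lit 76) (nat_lit 2122149538)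 (nat_lit 70) (nat_lit 5) (nat_lit 74) (nat_lit 5) (nat_lit 71) (nat_lit 5) (nat_lit 422) (nat_lit 342) (nat_lit 256)) (XT.lf (nat_lit 0) (nat_lit 4050241850) (nat_lit 228) (nat_lit 7223262495) (nat_lit 304) (nat_lit 7251518062) (nat_lit 67) (nat_lit 5) (nat_lit 70) (nat_lit 5) (nat_lit 71) (nat_lit 5) (nat_lit 423) (nat_lit 342) (nat_lit 255)))))) (XT.nd (nat_lit 46878) (nat_lit 0) (nat_lit 48564) (XT.nd (nat_lit 156) (nat_lit 456) (nat_lit 0) (XT.nd (nat_lit 78) (nat_lit 76) (nat_lit 0) (XT.lf (nat_lit 0) (nat_lit 1892573864) (nat_lit 228) (nat_lit 16978123366) (nat_lit 304) (nat_lit 17767931) (nat_lit 64) (nat_lit 5) (nat_lit 67) (nat_lit 5) (nat_lit 68) (nat_lit 5) (nat_lit 424) (nat_lit 342) (nat_lit 254)) (XT.lf (nat_lit 0) (nat_lit 7445054912) (nat_lit 304) (nat_lit 473922292) (nat_lit 76) (nat_lit 11340680741) (nat_lit 63) (nat_lit 5) (nat_lit 67) (nat_lit 5) (nat_lit 64) (nat_lit 5) (nat_lit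 425) (nat_lit 342) (nat_lit 253))) (XT.nd (nat_lit 78) (nat_lit 228) (nat_lit 0) (XT.lf (nat_lit 0) (nat_lit 15213257064) (nat_lit 304) (nat_lit 2950703617) (nat_lit 76) (nat_lit 1476391530) (nat_lit 60) (nat_lit 5) (nat_lit 64) (nat_lit 5) (nat_lit 61) (nat_lit 5) (nat_lit 426) (nat_lit 342) (nat_lit 252)) (XT.nd (nat_lit 46566) (nat_lit 0) (nat_lit 50160) (XT.lf (nat_lit 0) (nat_lit 3254927186) (nat_lit 228) (nat_lit 5635882849) (nat_lit 76) (nat_lit 11138954263) (nat_lit 57) (nat_lit 5) (nat_lit 60) (nat_lit 5) (nat_lit 58) (nat_lit 5) (nat_lit 427) (nat_lit 342) (nat_lit 251)) (XT.lf (nat_lit 0) (nat_lit 153197229) (nat_lit 0) (nat_lit 153197229) (nat_lit 380) (nat_lit 2934022622) (nat_lit 717) (nat_lit 5) (nat_lit 717) (nat_lit 3) (nat_lit 722) (nat_lit 3) (nat_lit 343) (nat_lit 343) (nat_lit 334))))) (XT.nd (nat_lit 234) (nat_lit 1140) (nat_lit 0) (XT.nd (nat_lit 78) (nat_lit 456) (nat_lit 0)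 (XT.lf (nat_lit 0) (nat_lit 4699275059) (nat_lit 380) (nat_lit 1406521804) (nat_lit 456) (nat_lit 389164276) (nat_lit 717) (nat_lit 5) (nat_lit 722) (nat_lit 3) (nat_lit 723) (nat_lit 5) (nat_lit 344) (nat_lit 343) (nat_lit 333)) (XT.nd (nat_lit 78) (nat_lit 0) (nat_lit 0) (XT.lf (nat_lit 0) (nat_lit 2232470043) (nat_lit 456) (nat_lit 3062385347) (nat_lit 532) (nat_lit 1217102198) (nat_lit 711) (nat_lit 5) (nat_lit 717) (nat_lit 5) (nat_lit 718) (nat_lit 5) (nat_lit 345) (nat_lit 343) (nat_lit 332)) (XT.lf (nat_lit 76) (nat_lit 1869736349) (nat_lit 0) (nat_lit 4353706387) (nat_lit 532) (nat_lit 308513637) (nat_lit 712) (nat_lit 5) (nat_lit 711) (nat_lit 5) (nat_lit 718) (nat_lit 5) (nat_lit 346) (nat_lit 343) (nat_lit 331)))) (XT.nd (nat_lit 78) (nat_lit 608) (nat_lit 0) (XT.lf (nat_lit 76) (nat_lit 334536583) (nat_lit 0) (nat_lit 3267947520) (nat_lit 608) (nat_lit 2952224586) (nat_lit 705) (nat_lit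 5) (nat_lit 704) (nat_lit 5) (nat_lit 712) (nat_lit 5) (nat_lit 347) (nat_lit 343) (nat_lit 330)) (XT.nd (nat_lit 78) (nat_lit 0) (nat_lit 0) (XT.lf (nat_lit 0) (nat_lit 916873657) (nat_lit 608) (nat_lit 1126992288) (nat_lit 684) (nat_lit 4536510357) (nat_lit 696) (nat_lit 5) (nat_lit 704) (nat_lit 5) (nat_lit 705) (nat_lit 5) (nat_lit 348) (nat_lit 343) (nat_lit 329)) (XT.lf (nat_lit 76) (nat_lit 4069675686) (nat_lit 0) (nat_lit 673567372) (nat_lit 684) (nat_lit 1865604762) (nat_lit 697) (nat_lit 5) (nat_lit 696) (nat_lit 5) (nat_lit 705) (nat_lit 5) (nat_lit 349) (nat_lit 343) (nat_lit 328))))))))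
noncomputable def xc50 : XT := (XT.nd (nat_lit 1716) (nat_lit 15048) (nat_lit 0) (XT.nd (nat_lit 858) (nat_lit 14592) (nat_lit 0) (XT.nd (nat_lit 390) (nat_lit 5168) (nat_lit 0) (XT.nd (nat_lit 156) (nat_lit 1520) (nat_lit 0) (XT.nd (nat_lit 78) (nat_lit 0) (nat_lit 0) (XT.lf (nat_lit 0) (nat_lit 1907666142) (nat_lit 684) (nat_lit 3907034521) (nat_lit 760) (nat_lit 825489541) (nat_lit 688) (nat_lit 5) (nat_lit 697) (nat_lit 5) (nat_lit 698) (nat_lit 5) (nat_lit 350) (nat_lit 343) (nat_lit 327)) (XT.lf (nat_lit 76) (nat_lit 1442731404) (nat_lit 0) (nat_lit 4218756393) (nat_lit 760) (nat_lit 1012930942) (nat_lit 689) (nat_lit 5) (nat_lit 688) (nat_lit 5) (nat_lit 698) (nat_lit 5) (nat_lit 351) (nat_lit 343) (nat_lit 326))) (XT.nd (nat_lit 78) (nat_lit 760) (nat_lit 0) (XT.lf (nat_lit 76) (nat_lit 195572930) (nat_lit 0) (nat_lit 2477551319) (nat_lit 836) (nat_lit 4038391452) (nat_lit 679) (nat_lit 5)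 (nat_lit 678) (nat_lit 5) (nat_lit 689) (nat_lit 5) (nat_lit 352) (nat_lit 343) (nat_lit 325)) (XT.nd (nat_lit 78) (nat_lit 760) (nat_lit 0) (XT.lf (nat_lit 76) (nat_lit 5765947405) (nat_lit 0) (nat_lit 592868396) (nat_lit 836) (nat_lit 392762495) (nat_lit 679) (nat_lit 5) (nat_lit 678) (nat_lit 5) (nat_lit 689) (nat_lit 5) (nat_lit 353) (nat_lit 343) (nat_lit 324)) (XT.lf (nat_lit 0) (nat_lit 3228133980) (nat_lit 836) (nat_lit 2137631059) (nat_lit 76) (nat_lit 1428482126) (nat_lit 668) (nat_lit 5) (nat_lit 679) (nat_lit 5) (nat_lit 669) (nat_lit 5) (nat_lit 354) (nat_lit 343) (nat_lit 323))))) (XT.nd (nat_lit 234) (nat_lit 2280) (nat_lit 0) (XT.nd (nat_lit 78) (nat_lit 1976) (nat_lit 0) (XT.lf (nat_lit 0) (nat_lit 19944927) (nat_lit 912) (nat_lit 3241285708) (nat_lit 76) (nat_lit 3578792333) (nat_lit 656) (nat_lit 5) (nat_lit 668) (nat_lit 5) (nat_lit 657) (nat_lit 5) (nat_lit 355) (nat_lit 343) (nat_lit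 322)) (XT.nd (nat_lit 78) (nat_lit 1064) (nat_lit 0) (XT.lf (nat_lit 0) (nat_lit 2573832932) (nat_lit 912) (nat_lit 998977905) (nat_lit 988) (nat_lit 3315774047) (nat_lit 644) (nat_lit 5) (nat_lit 656) (nat_lit 5) (nat_lit 657) (nat_lit 5) (nat_lit 356) (nat_lit 343) (nat_lit 321)) (XT.lf (nat_lit 0) (nat_lit 209759460) (nat_lit 1064) (nat_lit 5346730164) (nat_lit 76) (nat_lit 1383712835) (nat_lit 630) (nat_lit 5) (nat_lit 644) (nat_lit 5) (nat_lit 631) (nat_lit 5) (nat_lit 357) (nat_lit 343) (nat_lit 320)))) (XT.nd (nat_lit 78) (nat_lit 1216) (nat_lit 0) (XT.lf (nat_lit 0) (nat_lit 637475789) (nat_lit 1064) (nat_lit 3080593586) (nat_lit 1140) (nat_lit 3276454589) (nat_lit 616) (nat_lit 5) (nat_lit 630) (nat_lit 5) (nat_lit 631) (nat_lit 5) (nat_lit 358) (nat_lit 343) (nat_lit 319)) (XT.nd (nat_lit 78) (nat_lit 1140) (nat_lit 0) (XT.lf (nat_lit 0) (nat_lit 197583066) (nat_lit 1140) (nat_lit 264645197)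 (nat_lit 76) (nat_lit 6589841243) (nat_lit 615) (nat_lit 5) (nat_lit 630) (nat_lit 5) (nat_lit 616) (nat_lit 5) (nat_lit 359) (nat_lit 343) (nat_lit 318)) (XT.lf (nat_lit 0) (nat_lit 3672552989) (nat_lit 1216) (nat_lit 1145117643) (nat_lit 76) (nat_lit 2294445401) (nat_lit 600) (nat_lit 5) (nat_lit 616) (nat_lit 5) (nat_lit 601) (nat_lit 5) (nat_lit 360) (nat_lit 343) (nat_lit 317)))))) (XT.nd (nat_lit 390) (nat_lit 7600) (nat_lit 0) (XT.nd (nat_lit 156) (nat_lit 4408) (nat_lit 0) (XT.nd (nat_lit 78) (nat_lit 1292) (nat_lit 0) (XT.lf (nat_lit 0) (nat_lit 4865636) (nat_lit 1292) (nat_lit 1980865048) (nat_lit 76) (nat_lit 5189692325) (nat_lit 583) (nat_lit 5) (nat_lit 600) (nat_lit 5) (nat_lit 584) (nat_lit 5) (nat_lit 361) (nat_lit 343) (nat_lit 316)) (XT.lf (nat_lit 0) (nat_lit 3441322489) (nat_lit 1368) (nat_lit 2799087526) (nat_lit 76) (nat_lit 1001085783) (nat_lit 566) (nat_lit 5) (nat_lit 584)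 (nat_lit 5) (nat_lit 567) (nat_lit 5) (nat_lit 362) (nat_lit 343) (nat_lit 315))) (XT.nd (nat_lit 78) (nat_lit 3040) (nat_lit 0) (XT.lf (nat_lit 0) (nat_lit 3725017069) (nat_lit 1368) (nat_lit 3201446236) (nat_lit 1444) (nat_lit 384204614) (nat_lit 548) (nat_lit 5) (nat_lit 566) (nat_lit 5) (nat_lit 567) (nat_lit 5) (nat_lit 363) (nat_lit 343) (nat_lit 314)) (XT.nd (nat_lit 78) (nat_lit 1520) (nat_lit 0) (XT.lf (nat_lit 0) (nat_lit 3028389441) (nat_lit 1520) (nat_lit 4348605367) (nat_lit 76) (nat_lit 5835916) (nat_lit 528) (nat_lit 5) (nat_lit 548) (nat_lit 5) (nat_lit 529) (nat_lit 5) (nat_lit 364) (nat_lit 343) (nat_lit 313)) (XT.lf (nat_lit 0) (nat_lit 2364553946) (nat_lit 1520) (nat_lit 4133824051) (nat_lit 1596) (nat_lit 959551651) (nat_lit 508) (nat_lit 5) (nat_lit 528) (nat_lit 5) (nat_lit 529) (nat_lit 5) (nat_lit 365) (nat_lit 343) (nat_lit 312))))) (XT.nd (nat_lit 234) (nat_lit 2432) (nat_lit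 0) (XT.nd (nat_lit 78) (nat_lit 3496) (nat_lit 0) (XT.lf (nat_lit 0) (nat_lit 1722511990) (nat_lit 1596) (nat_lit 722934926) (nat_lit 1672) (nat_lit 5090699872) (nat_lit 486) (nat_lit 5) (nat_lit 507) (nat_lit 5) (nat_lit 508) (nat_lit 5) (nat_lit 366) (nat_lit 343) (nat_lit 311)) (XT.nd (nat_lit 78) (nat_lit 1824) (nat_lit 0) (XT.lf (nat_lit 0) (nat_lit 1098247131) (nat_lit 1672) (nat_lit 4804473615) (nat_lit 1748) (nat_lit 1714624336) (nat_lit 464) (nat_lit 5) (nat_lit 486) (nat_lit 5) (nat_lit 487) (nat_lit 5) (nat_lit 367) (nat_lit 343) (nat_lit 310)) (XT.lf (nat_lit 0) (nat_lit 499044281) (nat_lit 1748) (nat_lit 1193009033) (nat_lit 1824) (nat_lit 6009671879) (nat_lit 440) (nat_lit 5) (nat_lit 463) (nat_lit 5) (nat_lit 464) (nat_lit 5) (nat_lit 368) (nat_lit 343) (nat_lit 309)))) (XT.nd (nat_lit 78) (nat_lit 2432) (nat_lit 0) (XT.lf (nat_lit 0) (nat_lit 5145608317) (nat_lit 1824) (nat_lit 87287880)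 (nat_lit 76) (nat_lit 2556177247) (nat_lit 440) (nat_lit 5) (nat_lit 464) (nat_lit 5) (nat_lit 441) (nat_lit 5) (nat_lit 369) (nat_lit 343) (nat_lit 308)) (XT.nd (nat_lit 78) (nat_lit 912) (nat_lit 0) (XT.lf (nat_lit 0) (nat_lit 777347348) (nat_lit 1520) (nat_lit 642067639) (nat_lit 76) (nat_lit 6460253486) (nat_lit 420) (nat_lit 5) (nat_lit 440) (nat_lit 5) (nat_lit 421) (nat_lit 5) (nat_lit 370) (nat_lit 343) (nat_lit 307)) (XT.lf (nat_lit 0) (nat_lit 4237670224) (nat_lit 988) (nat_lit 1193910598) (nat_lit 76) (nat_lit 2541616173) (nat_lit 408) (nat_lit 5) (nat_lit 421) (nat_lit 5) (nat_lit 409) (nat_lit 5) (nat_lit 371) (nat_lit 343) (nat_lit 306))))))) (XT.nd (nat_lit 858) (nat_lit 6080) (nat_lit 0) (XT.nd (nat_lit 390) (nat_lit 4560) (nat_lit 0) (XT.nd (nat_lit 156) (nat_lit 2508) (nat_lit 0) (XT.nd (nat_lit 78) (nat_lit 988) (nat_lit 0) (XT.lf (nat_lit 0) (nat_lit 6350433271) (nat_lit 912) (nat_lit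 1419683591) (nat_lit 988) (nat_lit 300068730) (nat_lit 396) (nat_lit 5) (nat_lit 408) (nat_lit 5) (nat_lit 409) (nat_lit 5) (nat_lit 372) (nat_lit 343) (nat_lit 305)) (XT.lf (nat_lit 0) (nat_lit 3175348124) (nat_lit 988) (nat_lit 2249898658) (nat_lit 76) (nat_lit 2744848697) (nat_lit 383) (nat_lit 5) (nat_lit 396) (nat_lit 5) (nat_lit 384) (nat_lit 5) (nat_lit 373) (nat_lit 343) (nat_lit 304))) (XT.nd (nat_lit 78) (nat_lit 1672) (nat_lit 0) (XT.lf (nat_lit 0) (nat_lit 5514855956) (nat_lit 836) (nat_lit 1209691290) (nat_lit 912) (nat_lit 1548962762) (nat_lit 372) (nat_lit 5) (nat_lit 383) (nat_lit 5) (nat_lit 384) (nat_lit 5) (nat_lit 374) (nat_lit 343) (nat_lit 303)) (XT.nd (nat_lit 78) (nat_lit 760) (nat_lit 0) (XT.lf (nat_lit 0) (nat_lit 1961218184) (nat_lit 912) (nat_lit 3269051160) (nat_lit 76) (nat_lit 3149770815) (nat_lit 360) (nat_lit 5) (nat_lit 372) (nat_lit 5) (nat_lit 361) (nat_lit 5) (nat_lit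 375) (nat_lit 343) (nat_lit 302)) (XT.lf (nat_lit 0) (nat_lit 4722524524) (nat_lit 760) (nat_lit 810508354) (nat_lit 836) (nat_lit 2956998619) (nat_lit 350) (nat_lit 5) (nat_lit 360) (nat_lit 5) (nat_lit 361) (nat_lit 5) (nat_lit 376) (nat_lit 343) (nat_lit 301))))) (XT.nd (nat_lit 234) (nat_lit 2204) (nat_lit 0) (XT.nd (nat_lit 78) (nat_lit 1520) (nat_lit 0) (XT.lf (nat_lit 0) (nat_lit 596875398) (nat_lit 836) (nat_lit 4265204429) (nat_lit 76) (nat_lit 3741256795) (nat_lit 339) (nat_lit 5) (nat_lit 350) (nat_lit 5) (nat_lit 340) (nat_lit 5) (nat_lit 377) (nat_lit 343) (nat_lit 300)) (XT.nd (nat_lit 78) (nat_lit 760) (nat_lit 0) (XT.lf (nat_lit 0) (nat_lit 3959818246) (nat_lit 760) (nat_lit 237079932) (nat_lit 836) (nat_lit 4523173856) (nat_lit 329) (nat_lit 5) (nat_lit 339) (nat_lit 5) (nat_lit 340) (nat_lit 5) (nat_lit 378) (nat_lit 343) (nat_lit 299)) (XT.lf (nat_lit 0) (nat_lit 3581824495) (nat_lit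 760) (nat_lit 4329134222) (nat_lit 836) (nat_lit 929245758) (nat_lit 319) (nat_lit 5) (nat_lit 329) (nat_lit 5) (nat_lit 330) (nat_lit 5) (nat_lit 379) (nat_lit 343) (nat_lit 298)))) (XT.nd (nat_lit 78) (nat_lit 1444) (nat_lit 0) (XT.lf (nat_lit 0) (nat_lit 2719727101) (nat_lit 760) (nat_lit 5754271563) (nat_lit 76) (nat_lit 489925383) (nat_lit 309) (nat_lit 5) (nat_lit 319) (nat_lit 5) (nat_lit 310) (nat_lit 5) (nat_lit 380) (nat_lit 343) (nat_lit 297)) (XT.nd (nat_lit 78) (nat_lit 760) (nat_lit 0) (XT.lf (nat_lit 0) (nat_lit 2829325373) (nat_lit 684) (nat_lit 3646482584) (nat_lit 760) (nat_lit 2615233647) (nat_lit 300) (nat_lit 5) (nat_lit 309) (nat_lit 5) (nat_lit 310) (nat_lit 5) (nat_lit 381) (nat_lit 343) (nat_lit 296)) (XT.lf (nat_lit 0) (nat_lit 1100182582) (nat_lit 760) (nat_lit 6763314090) (nat_lit 76) (nat_lit 1358497918) (nat_lit 290) (nat_lit 5) (nat_lit 300) (nat_lit 5) (nat_lit 291)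 (nat_lit 5) (nat_lit 382) (nat_lit 343) (nat_lit 295)))))) (XT.nd (nat_lit 390) (nat_lit 2812) (nat_lit 0) (XT.nd (nat_lit 156) (nat_lit 1976) (nat_lit 0) (XT.nd (nat_lit 78) (nat_lit 608) (nat_lit 0) (XT.lf (nat_lit 0) (nat_lit 2070391157) (nat_lit 684) (nat_lit 2831443238) (nat_lit 760) (nat_lit 4454503372) (nat_lit 281) (nat_lit 5) (nat_lit 290) (nat_lit 5) (nat_lit 291) (nat_lit 5) (nat_lit 383) (nat_lit 343) (nat_lit 294)) (XT.lf (nat_lit 0) (nat_lit 1689580753) (nat_lit 608) (nat_lit 7131301264) (nat_lit 684) (nat_lit 673775321) (nat_lit 273) (nat_lit 5) (nat_lit 281) (nat_lit 5) (nat_lit 282) (nat_lit 5) (nat_lit 384) (nat_lit 343) (nat_lit 293))) (XT.nd (nat_lit 78) (nat_lit 1292) (nat_lit 0) (XT.lf (nat_lit 0) (nat_lit 1290281330) (nat_lit 608) (nat_lit 1896851620) (nat_lit 684) (nat_lit 6449407885) (nat_lit 264) (nat_lit 5) (nat_lit 272) (nat_lit 5) (nat_lit 273) (nat_lit 5) (nat_lit 385)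 (nat_lit 343) (nat_lit 292)) (XT.nd (nat_lit 78) (nat_lit 684) (nat_lit 0) (XT.lf (nat_lit 0) (nat_lit 883452421) (nat_lit 608) (nat_lit 6286297159) (nat_lit 684) (nat_lit 2612553515) (nat_lit 256) (nat_lit 5) (nat_lit 264) (nat_lit 5) (nat_lit 265) (nat_lit 5) (nat_lit 386) (nat_lit 343) (nat_lit 291)) (XT.lf (nat_lit 0) (nat_lit 473629442) (nat_lit 608) (nat_lit 855179570) (nat_lit 684) (nat_lit 8603327360) (nat_lit 247) (nat_lit 5) (nat_lit 255) (nat_lit 5) (nat_lit 256) (nat_lit 5) (nat_lit 387) (nat_lit 343) (nat_lit 290))))) (XT.nd (nat_lit 234) (nat_lit 1596) (nat_lit 0) (XT.nd (nat_lit 78) (nat_lit 684) (nat_lit 0) (XT.lf (nat_lit 0) (nat_lit 31974649) (nat_lit 532) (nat_lit 5348360686) (nat_lit 608) (nat_lit 4705246710) (nat_lit 240) (nat_lit 5) (nat_lit 247) (nat_lit 5) (nat_lit 248) (nat_lit 5) (nat_lit 388) (nat_lit 343) (nat_lit 289)) (XT.nd (nat_lit 78) (nat_lit 684) (nat_lit 0) (XT.lf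 (nat_lit 0) (nat_lit 9561937692) (nat_lit 608) (nat_lit 396820020) (nat_lit 76) (nat_lit 284713569) (nat_lit 240) (nat_lit 5) (nat_lit 248) (nat_lit 5) (nat_lit 241) (nat_lit 5) (nat_lit 389) (nat_lit 343) (nat_lit 288)) (XT.lf (nat_lit 0) (nat_lit 3454130328) (nat_lit 684) (nat_lit 869843366) (nat_lit 76) (nat_lit 6080950993) (nat_lit 231) (nat_lit 5) (nat_lit 240) (nat_lit 5) (nat_lit 232) (nat_lit 5) (nat_lit 390) (nat_lit 343) (nat_lit 287)))) (XT.nd (nat_lit 78) (nat_lit 1064) (nat_lit 0) (XT.lf (nat_lit 0) (nat_lit 7716711748) (nat_lit 608) (nat_lit 1345774157) (nat_lit 76) (nat_lit 1508413531) (nat_lit 224) (nat_lit 5) (nat_lit 232) (nat_lit 5) (nat_lit 225) (nat_lit 5) (nat_lit 391) (nat_lit 343) (nat_lit 286)) (XT.nd (nat_lit 78) (nat_lit 456) (nat_lit 0) (XT.lf (nat_lit 0) (nat_lit 1380841778) (nat_lit 608) (nat_lit 1849653755) (nat_lit 76) (nat_lit 7510521482) (nat_lit 216) (nat_lit 5) (nat_lit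 224) (nat_lit 5) (nat_lit 217) (nat_lit 5) (nat_lit 392) (nat_lit 343) (nat_lit 285)) (XT.lf (nat_lit 0) (nat_lit 5728915440) (nat_lit 532) (nat_lit 2382952307) (nat_lit 76) (nat_lit 2803506862) (nat_lit 210) (nat_lit 5) (nat_lit 217) (nat_lit 5) (nat_lit 211) (nat_lit 5) (nat_lit 393) (nat_lit 343) (nat_lit 284))))))))
noncomputable def xc51 : XT := (XT.nd (nat_lit 1716) (nat_lit 2888) (nat_lit 0) (XT.nd (nat_lit 858) (nat_lit 3648) (nat_lit 0) (XT.nd (nat_lit 390) (nat_lit 2508) (nat_lit 0) (XT.nd (nat_lit 156) (nat_lit 1444) (nat_lit 0) (XT.nd (nat_lit 78) (nat_lit 532) (nat_lit 0) (XT.lf (nat_lit 0) (nat_lit 8162457410) (nat_lit 532) (nat_lit 2074656426) (nat_lit 608) (nat_lit 857264397) (nat_lit 203) (nat_lit 5) (nat_lit 210) (nat_lit 5) (nat_lit 211) (nat_lit 5) (nat_lit 394) (nat_lit 343) (nat_lit 283)) (XT.lf (nat_lit 0) (nat_lit 3591930688) (nat_lit 532) (nat_lit 3527460792) (nat_lit 76) (nat_lit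 4158154045) (nat_lit 196) (nat_lit 5) (nat_lit 203) (nat_lit 5) (nat_lit 197) (nat_lit 5) (nat_lit 395) (nat_lit 343) (nat_lit 282))) (XT.nd (nat_lit 78) (nat_lit 988) (nat_lit 0) (XT.lf (nat_lit 0) (nat_lit 7324552666) (nat_lit 456) (nat_lit 864155088) (nat_lit 532) (nat_lit 3276879966) (nat_lit 190) (nat_lit 5) (nat_lit 196) (nat_lit 5) (nat_lit 197) (nat_lit 5) (nat_lit 396) (nat_lit 343) (nat_lit 281)) (XT.nd (nat_lit 78) (nat_lit 456) (nat_lit 0) (XT.lf (nat_lit 0) (nat_lit 1297959983) (nat_lit 532) (nat_lit 4799837069) (nat_lit 76) (nat_lit 5560309409) (nat_lit 183) (nat_lit 5) (nat_lit 190) (nat_lit 5) (nat_lit 184) (nat_lit 5) (nat_lit 397) (nat_lit 343) (nat_lit 280)) (XT.lf (nat_lit 0) (nat_lit 5989562920) (nat_lit 532) (nat_lit 5491769226) (nat_lit 76) (nat_lit 374162308) (nat_lit 177) (nat_lit 5) (nat_lit 184) (nat_lit 5) (nat_lit 178) (nat_lit 5) (nat_lit 398) (nat_lit 343) (nat_lit 279)))))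 (XT.nd (nat_lit 234) (nat_lit 1216) (nat_lit 0) (XT.nd (nat_lit 78) (nat_lit 912) (nat_lit 0) (XT.lf (nat_lit 0) (nat_lit 5827751739) (nat_lit 380) (nat_lit 5052406067) (nat_lit 456) (nat_lit 1177488825) (nat_lit 172) (nat_lit 5) (nat_lit 177) (nat_lit 5) (nat_lit 178) (nat_lit 5) (nat_lit 399) (nat_lit 343) (nat_lit 278)) (XT.nd (nat_lit 78) (nat_lit 380) (nat_lit 0) (XT.lf (nat_lit 0) (nat_lit 3633610486) (nat_lit 532) (nat_lit 7010539624) (nat_lit 76) (nat_lit 1620648260) (nat_lit 165) (nat_lit 5) (nat_lit 172) (nat_lit 5) (nat_lit 166) (nat_lit 5) (nat_lit 400) (nat_lit 343) (nat_lit 277)) (XT.lf (nat_lit 0) (nat_lit 4633211086) (nat_lit 380) (nat_lit 3994755875) (nat_lit 456) (nat_lit 3848950462) (nat_lit 160) (nat_lit 5) (nat_lit 165) (nat_lit 5) (nat_lit 166) (nat_lit 5) (nat_lit 401) (nat_lit 343) (nat_lit 276)))) (XT.nd (nat_lit 78) (nat_lit 760) (nat_lit 0) (XT.lf (nat_lit 0) (nat_lit 1104442977)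 (nat_lit 456) (nat_lit 8716756882) (nat_lit 76) (nat_lit 2873230684) (nat_lit 154) (nat_lit 5) (nat_lit 160) (nat_lit 5) (nat_lit 155) (nat_lit 5) (nat_lit 402) (nat_lit 343) (nat_lit 275)) (XT.nd (nat_lit 78) (nat_lit 380) (nat_lit 0) (XT.lf (nat_lit 0) (nat_lit 3258021542) (nat_lit 380) (nat_lit 2947765779) (nat_lit 456) (nat_lit 6711146419) (nat_lit 149) (nat_lit 5) (nat_lit 154) (nat_lit 5) (nat_lit 155) (nat_lit 5) (nat_lit 403) (nat_lit 343) (nat_lit 274)) (XT.lf (nat_lit 0) (nat_lit 2496803099) (nat_lit 380) (nat_lit 9016647534) (nat_lit 456) (nat_lit 1631601981) (nat_lit 144) (nat_lit 5) (nat_lit 149) (nat_lit 5) (nat_lit 150) (nat_lit 5) (nat_lit 404) (nat_lit 343) (nat_lit 273)))))) (XT.nd (nat_lit 390) (nat_lit 2052) (nat_lit 0) (XT.nd (nat_lit 156) (nat_lit 760) (nat_lit 0) (XT.nd (nat_lit 78) (nat_lit 380) (nat_lit 0) (XT.lf (nat_lit 0) (nat_lit 1674550196) (nat_lit 380) (nat_lit 1926440415)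 (nat_lit 456) (nat_lit 9777605171) (nat_lit 138) (nat_lit 5) (nat_lit 143) (nat_lit 5) (nat_lit 144) (nat_lit 5) (nat_lit 405) (nat_lit 343) (nat_lit 272)) (XT.lf (nat_lit 0) (nat_lit 784916487) (nat_lit 380) (nat_lit 8248423349) (nat_lit 456) (nat_lit 4584296481) (nat_lit 133) (nat_lit 5) (nat_lit 138) (nat_lit 5) (nat_lit 139) (nat_lit 5) (nat_lit 406) (nat_lit 343) (nat_lit 271))) (XT.nd (nat_lit 78) (nat_lit 684) (nat_lit 0) (XT.lf (nat_lit 0) (nat_lit 800284305) (nat_lit 456) (nat_lit 145478862) (nat_lit 76) (nat_lit 12917080931) (nat_lit 132) (nat_lit 5) (nat_lit 138) (nat_lit 5) (nat_lit 133) (nat_lit 5) (nat_lit 407) (nat_lit 343) (nat_lit 270)) (XT.nd (nat_lit 78) (nat_lit 380) (nat_lit 0) (XT.lf (nat_lit 0) (nat_lit 6366269862) (nat_lit 380) (nat_lit 1166678087) (nat_lit 76) (nat_lit 6580216377) (nat_lit 128) (nat_lit 5) (nat_lit 133) (nat_lit 5) (nat_lit 129) (nat_lit 5) (nat_lit 408) (nat_lit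 343) (nat_lit 269)) (XT.lf (nat_lit 0) (nat_lit 12140299323) (nat_lit 456) (nat_lit 2226069482) (nat_lit 76) (nat_lit 3809171) (nat_lit 123) (nat_lit 5) (nat_lit 129) (nat_lit 5) (nat_lit 124) (nat_lit 5) (nat_lit 409) (nat_lit 343) (nat_lit 268))))) (XT.nd (nat_lit 234) (nat_lit 988) (nat_lit 0) (XT.nd (nat_lit 78) (nat_lit 684) (nat_lit 0) (XT.lf (nat_lit 0) (nat_lit 3494961105) (nat_lit 380) (nat_lit 3394044953) (nat_lit 76) (nat_lit 7743700586) (nat_lit 118) (nat_lit 5) (nat_lit 123) (nat_lit 5) (nat_lit 119) (nat_lit 5) (nat_lit 410) (nat_lit 343) (nat_lit 267)) (XT.nd (nat_lit 78) (nat_lit 380) (nat_lit 0) (XT.lf (nat_lit 0) (nat_lit 9405250316) (nat_lit 380) (nat_lit 4622981061) (nat_lit 76) (nat_lit 873709729) (nat_lit 114) (nat_lit 5) (nat_lit 119) (nat_lit 5) (nat_lit 115) (nat_lit 5) (nat_lit 411) (nat_lit 343) (nat_lit 266)) (XT.lf (nat_lit 0) (nat_lit 396010456) (nat_lit 380) (nat_lit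 5945033958) (nat_lit 76) (nat_lit 8836441400) (nat_lit 109) (nat_lit 5) (nat_lit 114) (nat_lit 5) (nat_lit 110) (nat_lit 5) (nat_lit 412) (nat_lit 343) (nat_lit 265)))) (XT.nd (nat_lit 78) (nat_lit 684) (nat_lit 0) (XT.lf (nat_lit 0) (nat_lit 6443583910) (nat_lit 380) (nat_lit 7364146462) (nat_lit 76) (nat_lit 1651788795) (nat_lit 105) (nat_lit 5) (nat_lit 110) (nat_lit 5) (nat_lit 106) (nat_lit 5) (nat_lit 413) (nat_lit 343) (nat_lit 264)) (XT.nd (nat_lit 78) (nat_lit 380) (nat_lit 0) (XT.lf (nat_lit 0) (nat_lit 6867958238) (nat_lit 304) (nat_lit 5890118693) (nat_lit 380) (nat_lit 2990230972) (nat_lit 101) (nat_lit 5) (nat_lit 105) (nat_lit 5) (nat_lit 106) (nat_lit 5) (nat_lit 414) (nat_lit 343) (nat_lit 263)) (XT.lf (nat_lit 0) (nat_lit 3234135627) (nat_lit 380) (nat_lit 10492879236) (nat_lit 76) (nat_lit 2317130369) (nat_lit 96) (nat_lit 5) (nat_lit 101) (nat_lit 5) (nat_lit 97) (nat_lit 5) (nat_lit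 415) (nat_lit 343) (nat_lit 262))))))) (XT.nd (nat_lit 858) (nat_lit 152) (nat_lit 0) (XT.nd (nat_lit 390) (nat_lit 1520) (nat_lit 0) (XT.nd (nat_lit 156) (nat_lit 684) (nat_lit 0) (XT.nd (nat_lit 78) (nat_lit 304) (nat_lit 0) (XT.lf (nat_lit 0) (nat_lit 4116339787) (nat_lit 228) (nat_lit 5574248273) (nat_lit 304) (nat_lit 6656158615) (nat_lit 93) (nat_lit 5) (nat_lit 96) (nat_lit 5) (nat_lit 97) (nat_lit 5) (nat_lit 416) (nat_lit 343) (nat_lit 261)) (XT.lf (nat_lit 0) (nat_lit 2598607409) (nat_lit 304) (nat_lit 13808550171) (nat_lit 380) (nat_lit 249943906) (nat_lit 89) (nat_lit 5) (nat_lit 93) (nat_lit 5) (nat_lit 94) (nat_lit 5) (nat_lit 417) (nat_lit 343) (nat_lit 260))) (XT.nd (nat_lit 78) (nat_lit 380) (nat_lit 0) (XT.lf (nat_lit 0) (nat_lit 931387812) (nat_lit 228) (nat_lit 5420687693) (nat_lit 304) (nat_lit 10622133093) (nat_lit 85) (nat_lit 5) (nat_lit 88) (nat_lit 5) (nat_lit 89) (nat_lit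 5) (nat_lit 418) (nat_lit 343) (nat_lit 259)) (XT.nd (nat_lit 78) (nat_lit 380) (nat_lit 0) (XT.lf (nat_lit 0) (nat_lit 13226267140) (nat_lit 304) (nat_lit 824835793) (nat_lit 76) (nat_lit 3248146309) (nat_lit 85) (nat_lit 5) (nat_lit 89) (nat_lit 5) (nat_lit 86) (nat_lit 5) (nat_lit 419) (nat_lit 343) (nat_lit 258)) (XT.lf (nat_lit 0) (nat_lit 2733341447) (nat_lit 380) (nat_lit 2704863128) (nat_lit 76) (nat_lit 12193577813) (nat_lit 80) (nat_lit 5) (nat_lit 85) (nat_lit 5) (nat_lit 81) (nat_lit 5) (nat_lit 420) (nat_lit 343) (nat_lit 257))))) (XT.nd (nat_lit 234) (nat_lit 760) (nat_lit 0) (XT.nd (nat_lit 78) (nat_lit 532) (nat_lit 0) (XT.lf (nat_lit 0) (nat_lit 9765826264) (nat_lit 304) (nat_lit 4724107133) (nat_lit 76) (nat_lit 3482276776) (nat_lit 77) (nat_lit 5) (nat_lit 81) (nat_lit 5) (nat_lit 78) (nat_lit 5) (nat_lit 421) (nat_lit 343) (nat_lit 256)) (XT.nd (nat_lit 78) (nat_lit 304) (nat_lit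 0) (XT.lf (nat_lit 0) (nat_lit 11444613337) (nat_lit 228) (nat_lit 5656610741) (nat_lit 304) (nat_lit 1219791092) (nat_lit 74) (nat_lit 5) (nat_lit 77) (nat_lit 5) (nat_lit 78) (nat_lit 5) (nat_lit 422) (nat_lit 343) (nat_lit 255)) (XT.lf (nat_lit 0) (nat_lit 5978269770) (nat_lit 304) (nat_lit 9195005307) (nat_lit 76) (nat_lit 3504631144) (nat_lit 70) (nat_lit 5) (nat_lit 74) (nat_lit 5) (nat_lit 71) (nat_lit 5) (nat_lit 423) (nat_lit 343) (nat_lit 254)))) (XT.nd (nat_lit 78) (nat_lit 532) (nat_lit 0) (XT.lf (nat_lit 0) (nat_lit 7370707532) (nat_lit 228) (nat_lit 6101429480) (nat_lit 304) (nat_lit 5571279907) (nat_lit 67) (nat_lit 5) (nat_lit 70) (nat_lit 5) (nat_lit 71) (nat_lit 5) (nat_lit 424) (nat_lit 343) (nat_lit 253)) (XT.nd (nat_lit 78) (nat_lit 228) (nat_lit 0) (XT.lf (nat_lit 0) (nat_lit 1829528467) (nat_lit 304) (nat_lit 14305695634) (nat_lit 76) (nat_lit 3282805104) (nat_lit 63) (nat_lit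 5) (nat_lit 67) (nat_lit 5) (nat_lit 64) (nat_lit 5) (nat_lit 425) (nat_lit 343) (nat_lit 252)) (XT.lf (nat_lit 0) (nat_lit 2653411051) (nat_lit 228) (nat_lit 6825999345) (nat_lit 304) (nat_lit 10321680804) (nat_lit 60) (nat_lit 5) (nat_lit 63) (nat_lit 5) (nat_lit 64) (nat_lit 5) (nat_lit 426) (nat_lit 343) (nat_lit 251)))))) (XT.nd (nat_lit 46956) (nat_lit 0) (nat_lit 46284) (XT.nd (nat_lit 46722) (nat_lit 0) (nat_lit 48412) (XT.nd (nat_lit 46644) (nat_lit 0) (nat_lit 49552) (XT.lf (nat_lit 0) (nat_lit 44660799) (nat_lit 152) (nat_lit 17395065834) (nat_lit 228) (nat_lit 2754302273) (nat_lit 58) (nat_lit 5) (nat_lit 60) (nat_lit 5) (nat_lit 61) (nat_lit 5) (nat_lit 427) (nat_lit 343) (nat_lit 250)) (XT.lf (nat_lit 0) (nat_lit 1081386967) (nat_lit 532) (nat_lit 1086932093) (nat_lit 532) (nat_lit 1086932093) (nat_lit 710) (nat_lit 3) (nat_lit 717) (nat_lit 3) (nat_lit 717) (nat_lit 5) (nat_lit 344)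 (nat_lit 344) (nat_lit 332))) (XT.nd (nat_lit 78) (nat_lit 1140) (nat_lit 0) (XT.lf (nat_lit 76) (nat_lit 2626181201) (nat_lit 0) (nat_lit 3453781043) (nat_lit 532) (nat_lit 449079852) (nat_lit 711) (nat_lit 5) (nat_lit 710) (nat_lit 3) (nat_lit 717) (nat_lit 5) (nat_lit 345) (nat_lit 344) (nat_lit 331)) (XT.nd (nat_lit 78) (nat_lit 608) (nat_lit 0) (XT.lf (nat_lit 76) (nat_lit 961381016) (nat_lit 0) (nat_lit 2426931928) (nat_lit 608) (nat_lit 3162045239) (nat_lit 704) (nat_lit 5) (nat_lit 703) (nat_lit 5) (nat_lit 711) (nat_lit 5) (nat_lit 346) (nat_lit 344) (nat_lit 330)) (XT.lf (nat_lit 0) (nat_lit 629493628) (nat_lit 608) (nat_lit 635775704) (nat_lit 684) (nat_lit 5309397428) (nat_lit 695) (nat_lit 5) (nat_lit 703) (nat_lit 5) (nat_lit 704) (nat_lit 5) (nat_lit 347) (nat_lit 344) (nat_lit 329))))) (XT.nd (nat_lit 234) (nat_lit 1520) (nat_lit 0) (XT.nd (nat_lit 78) (nat_lit 684) (nat_lit 0) (XT.lf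 (nat_lit 0) (nat_lit 4375849336) (nat_lit 608) (nat_lit 2177577175) (nat_lit 684) (nat_lit 48229759) (nat_lit 696) (nat_lit 5) (nat_lit 704) (nat_lit 5) (nat_lit 705) (nat_lit 5) (nat_lit 348) (nat_lit 344) (nat_lit 328)) (XT.nd (nat_lit 78) (nat_lit 0) (nat_lit 0) (XT.lf (nat_lit 0) (nat_lit 1474255596) (nat_lit 684) (nat_lit 3676449299) (nat_lit 760) (nat_lit 1480786684) (nat_lit 687) (nat_lit 5) (nat_lit 696) (nat_lit 5) (nat_lit 697) (nat_lit 5) (nat_lit 349) (nat_lit 344) (nat_lit 327)) (XT.lf (nat_lit 76) (nat_lit 1533547016) (nat_lit 0) (nat_lit 3608043084) (nat_lit 760) (nat_lit 1522653882) (nat_lit 688) (nat_lit 5) (nat_lit 687) (nat_lit 5) (nat_lit 697) (nat_lit 5) (nat_lit 350) (nat_lit 344) (nat_lit 326)))) (XT.nd (nat_lit 78) (nat_lit 760) (nat_lit 0) (XT.lf (nat_lit 76) (nat_lit 158542694) (nat_lit 0) (nat_lit 1923505837) (nat_lit 836) (nat_lit 4617882056) (nat_lit 678) (nat_lit 5) (nat_lit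 677) (nat_lit 5) (nat_lit 688) (nat_lit 5) (nat_lit 351) (nat_lit 344) (nat_lit 325)) (XT.nd (nat_lit 78) (nat_lit 760) (nat_lit 0) (XT.lf (nat_lit 76) (nat_lit 5586057841) (nat_lit 0) (nat_lit 90506201) (nat_lit 836) (nat_lit 1061918236) (nat_lit 678) (nat_lit 5) (nat_lit 677) (nat_lit 5) (nat_lit 688) (nat_lit 5) (nat_lit 352) (nat_lit 344) (nat_lit 324)) (XT.lf (nat_lit 0) (nat_lit 2477714172) (nat_lit 836) (nat_lit 2433458315) (nat_lit 912) (nat_lit 1868499240) (nat_lit 667) (nat_lit 5) (nat_lit 678) (nat_lit 5) (nat_lit 679) (nat_lit 5) (nat_lit 353) (nat_lit 344) (nat_lit 323))))))))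
noncomputable def xc52 : XT := (XT.nd (nat_lit 1716) (nat_lit 12920) (nat_lit 0) (XT.nd (nat_lit 858) (nat_lit 12768) (nat_lit 0) (XT.nd (nat_lit 390) (nat_lit 7752) (nat_lit 0) (XT.nd (nat_lit 156) (nat_lit 1900) (nat_lit 0) (XT.nd (nat_lit 78) (nat_lit 912) (nat_lit 0) (XT.lf (nat_lit 76) (nat_lit 3155959704) (nat_lit 0) (nat_lit 2856266156) (nat_lit 912) (nat_lit 811707965) (nat_lit 668) (nat_lit 5) (nat_lit 667) (nat_lit 5) (nat_lit 679) (nat_lit 5) (nat_lit 354) (nat_lit 344) (nat_lit 322)) (XT.lf (nat_lit 76) (nat_lit 2003594947) (nat_lit 0) (nat_lit 649134838) (nat_lit 988) (nat_lit 4218350708) (nat_lit 656) (nat_lit 5) (nat_lit 655) (nat_lit 5) (nat_lit 668) (nat_lit 5) (nat_lit 355) (nat_lit 344) (nat_lit 321))) (XT.nd (nat_lit 78) (nat_lit 1064) (nat_lit 0) (XT.lf (nat_lit 0) (nat_lit 888831416) (nat_lit 912) (nat_lit 5242356162) (nat_lit 988) (nat_lit 789961068) (nat_lit 644) (nat_lit 5)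 (nat_lit 656) (nat_lit 5) (nat_lit 657) (nat_lit 5) (nat_lit 356) (nat_lit 344) (nat_lit 320)) (XT.nd (nat_lit 78) (nat_lit 988) (nat_lit 0) (XT.lf (nat_lit 0) (nat_lit 2624747499) (nat_lit 988) (nat_lit 193271113) (nat_lit 76) (nat_lit 4155990795) (nat_lit 643) (nat_lit 5) (nat_lit 656) (nat_lit 5) (nat_lit 644) (nat_lit 5) (nat_lit 357) (nat_lit 344) (nat_lit 319)) (XT.lf (nat_lit 0) (nat_lit 5810983383) (nat_lit 988) (nat_lit 243288411) (nat_lit 1064) (nat_lit 975651533) (nat_lit 630) (nat_lit 5) (nat_lit 643) (nat_lit 5) (nat_lit 644) (nat_lit 5) (nat_lit 358) (nat_lit 344) (nat_lit 318))))) (XT.nd (nat_lit 234) (nat_lit 4180) (nat_lit 0) (XT.nd (nat_lit 78) (nat_lit 2432) (nat_lit 0) (XT.lf (nat_lit 0) (nat_lit 2402910781) (nat_lit 1140) (nat_lit 2227841467) (nat_lit 76) (nat_lit 2457739750) (nat_lit 615) (nat_lit 5) (nat_lit 630) (nat_lit 5) (nat_lit 616) (nat_lit 5) (nat_lit 359) (nat_lit 344)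 (nat_lit 317)) (XT.nd (nat_lit 78) (nat_lit 1292) (nat_lit 0) (XT.lf (nat_lit 0) (nat_lit 3952069933) (nat_lit 1140) (nat_lit 1843506472) (nat_lit 1216) (nat_lit 1354623641) (nat_lit 600) (nat_lit 5) (nat_lit 615) (nat_lit 5) (nat_lit 616) (nat_lit 5) (nat_lit 360) (nat_lit 344) (nat_lit 316)) (XT.lf (nat_lit 0) (nat_lit 1983631899) (nat_lit 1292) (nat_lit 4143257310) (nat_lit 76) (nat_lit 1087938343) (nat_lit 583) (nat_lit 5) (nat_lit 600) (nat_lit 5) (nat_lit 584) (nat_lit 5) (nat_lit 361) (nat_lit 344) (nat_lit 315)))) (XT.nd (nat_lit 78) (nat_lit 2888) (nat_lit 0) (XT.lf (nat_lit 0) (nat_lit 2216418357) (nat_lit 1292) (nat_lit 3130876036) (nat_lit 1368) (nat_lit 1935076098) (nat_lit 566) (nat_lit 5) (nat_lit 583) (nat_lit 5) (nat_lit 584) (nat_lit 5) (nat_lit 362) (nat_lit 344) (nat_lit 314)) (XT.nd (nat_lit 78) (nat_lit 1444) (nat_lit 0) (XT.lf (nat_lit 0) (nat_lit 1375105965) (nat_lit 1444) (nat_lit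 5955701081) (nat_lit 76) (nat_lit 22284133) (nat_lit 547) (nat_lit 5) (nat_lit 566) (nat_lit 5) (nat_lit 548) (nat_lit 5) (nat_lit 363) (nat_lit 344) (nat_lit 313)) (XT.lf (nat_lit 0) (nat_lit 588183873) (nat_lit 1444) (nat_lit 4129019025) (nat_lit 1520) (nat_lit 2709323541) (nat_lit 528) (nat_lit 5) (nat_lit 547) (nat_lit 5) (nat_lit 548) (nat_lit 5) (nat_lit 364) (nat_lit 344) (nat_lit 312)))))) (XT.nd (nat_lit 390) (nat_lit 6080) (nat_lit 0) (XT.nd (nat_lit 156) (nat_lit 5092) (nat_lit 0) (XT.nd (nat_lit 78) (nat_lit 1520) (nat_lit 0) (XT.lf (nat_lit 0) (nat_lit 590554159) (nat_lit 1520) (nat_lit 180112866) (nat_lit 76) (nat_lit 6732602273) (nat_lit 527) (nat_lit 5) (nat_lit 547) (nat_lit 5) (nat_lit 528) (nat_lit 5) (nat_lit 365) (nat_lit 344) (nat_lit 311)) (XT.lf (nat_lit 0) (nat_lit 3918092297) (nat_lit 1596) (nat_lit 935498130) (nat_lit 76) (nat_lit 2729081107) (nat_lit 507) (nat_lit 5) (nat_lit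 528) (nat_lit 5) (nat_lit 508) (nat_lit 5) (nat_lit 366) (nat_lit 344) (nat_lit 310))) (XT.nd (nat_lit 78) (nat_lit 3496) (nat_lit 0) (XT.lf (nat_lit 0) (nat_lit 6008617711) (nat_lit 1596) (nat_lit 1288625407) (nat_lit 1672) (nat_lit 368200994) (nat_lit 486) (nat_lit 5) (nat_lit 507) (nat_lit 5) (nat_lit 508) (nat_lit 5) (nat_lit 367) (nat_lit 344) (nat_lit 309)) (XT.nd (nat_lit 78) (nat_lit 1748) (nat_lit 0) (XT.lf (nat_lit 0) (nat_lit 2952664239) (nat_lit 1748) (nat_lit 2375219801) (nat_lit 76) (nat_lit 2423139679) (nat_lit 463) (nat_lit 5) (nat_lit 486) (nat_lit 5) (nat_lit 464) (nat_lit 5) (nat_lit 368) (nat_lit 344) (nat_lit 308)) (XT.lf (nat_lit 0) (nat_lit 4771783837) (nat_lit 1748) (nat_lit 1557476373) (nat_lit 1824) (nat_lit 1510661870) (nat_lit 440) (nat_lit 5) (nat_lit 463) (nat_lit 5) (nat_lit 464) (nat_lit 5) (nat_lit 369) (nat_lit 344) (nat_lit 307))))) (XT.nd (nat_lit 234) (nat_lit 2660)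 (nat_lit 0) (XT.nd (nat_lit 78) (nat_lit 1900) (nat_lit 0) (XT.lf (nat_lit 0) (nat_lit 1821673646) (nat_lit 1520) (nat_lit 3753039757) (nat_lit 76) (nat_lit 2357139410) (nat_lit 420) (nat_lit 5) (nat_lit 440) (nat_lit 5) (nat_lit 421) (nat_lit 5) (nat_lit 370) (nat_lit 344) (nat_lit 306)) (XT.nd (nat_lit 78) (nat_lit 988) (nat_lit 0) (XT.lf (nat_lit 0) (nat_lit 3602556477) (nat_lit 912) (nat_lit 1599490341) (nat_lit 988) (nat_lit 2824943610) (nat_lit 408) (nat_lit 5) (nat_lit 420) (nat_lit 5) (nat_lit 421) (nat_lit 5) (nat_lit 371) (nat_lit 344) (nat_lit 305)) (XT.lf (nat_lit 0) (nat_lit 528663460) (nat_lit 988) (nat_lit 5083089864) (nat_lit 76) (nat_lit 2513632916) (nat_lit 395) (nat_lit 5) (nat_lit 408) (nat_lit 5) (nat_lit 396) (nat_lit 5) (nat_lit 372) (nat_lit 344) (nat_lit 304)))) (XT.nd (nat_lit 78) (nat_lit 1748) (nat_lit 0) (XT.lf (nat_lit 0) (nat_lit 2487067025) (nat_lit 912) (nat_lit 1431770245)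 (nat_lit 988) (nat_lit 4308055377) (nat_lit 383) (nat_lit 5) (nat_lit 395) (nat_lit 5) (nat_lit 396) (nat_lit 5) (nat_lit 373) (nat_lit 344) (nat_lit 303)) (XT.nd (nat_lit 78) (nat_lit 912) (nat_lit 0) (XT.lf (nat_lit 0) (nat_lit 1946287401) (nat_lit 836) (nat_lit 5449368780) (nat_lit 912) (nat_lit 936107659) (nat_lit 372) (nat_lit 5) (nat_lit 383) (nat_lit 5) (nat_lit 384) (nat_lit 5) (nat_lit 374) (nat_lit 344) (nat_lit 302)) (XT.lf (nat_lit 0) (nat_lit 1411529414) (nat_lit 836) (nat_lit 1070345478) (nat_lit 912) (nat_lit 5958031357) (nat_lit 360) (nat_lit 5) (nat_lit 371) (nat_lit 5) (nat_lit 372) (nat_lit 5) (nat_lit 375) (nat_lit 344) (nat_lit 301))))))) (XT.nd (nat_lit 858) (nat_lit 5624) (nat_lit 0) (XT.nd (nat_lit 390) (nat_lit 4104) (nat_lit 0) (XT.nd (nat_lit 156) (nat_lit 1596) (nat_lit 0) (XT.nd (nat_lit 78) (nat_lit 836) (nat_lit 0) (XT.lf (nat_lit 0) (nat_lit 878637848) (nat_lit 760)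 (nat_lit 5104733059) (nat_lit 836) (nat_lit 2567941426) (nat_lit 350) (nat_lit 5) (nat_lit 360) (nat_lit 5) (nat_lit 361) (nat_lit 5) (nat_lit 376) (nat_lit 344) (nat_lit 300)) (XT.lf (nat_lit 0) (nat_lit 362128337) (nat_lit 760) (nat_lit 530297649) (nat_lit 836) (nat_lit 7773917004) (nat_lit 339) (nat_lit 5) (nat_lit 349) (nat_lit 5) (nat_lit 350) (nat_lit 5) (nat_lit 377) (nat_lit 344) (nat_lit 299))) (XT.nd (nat_lit 78) (nat_lit 1596) (nat_lit 0) (XT.lf (nat_lit 0) (nat_lit 4426301682) (nat_lit 836) (nat_lit 168685045) (nat_lit 76) (nat_lit 4189422355) (nat_lit 339) (nat_lit 5) (nat_lit 350) (nat_lit 5) (nat_lit 340) (nat_lit 5) (nat_lit 378) (nat_lit 344) (nat_lit 298)) (XT.nd (nat_lit 78) (nat_lit 836) (nat_lit 0) (XT.lf (nat_lit 0) (nat_lit 8051489434) (nat_lit 836) (nat_lit 672995530) (nat_lit 76) (nat_lit 181841527) (nat_lit 329) (nat_lit 5) (nat_lit 340) (nat_lit 5) (nat_lit 330) (nat_lit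 5) (nat_lit 379) (nat_lit 344) (nat_lit 297)) (XT.lf (nat_lit 0) (nat_lit 2728964264) (nat_lit 836) (nat_lit 1200482679) (nat_lit 76) (nat_lit 5101880522) (nat_lit 318) (nat_lit 5) (nat_lit 329) (nat_lit 5) (nat_lit 319) (nat_lit 5) (nat_lit 380) (nat_lit 344) (nat_lit 296))))) (XT.nd (nat_lit 234) (nat_lit 1976) (nat_lit 0) (XT.nd (nat_lit 78) (nat_lit 1444) (nat_lit 0) (XT.lf (nat_lit 0) (nat_lit 6398300488) (nat_lit 760) (nat_lit 1716730706) (nat_lit 76) (nat_lit 1045155663) (nat_lit 309) (nat_lit 5) (nat_lit 319) (nat_lit 5) (nat_lit 310) (nat_lit 5) (nat_lit 381) (nat_lit 344) (nat_lit 295)) (XT.nd (nat_lit 78) (nat_lit 684) (nat_lit 0) (XT.lf (nat_lit 0) (nat_lit 884735111) (nat_lit 760) (nat_lit 2242447746) (nat_lit 76) (nat_lit 6165396999) (nat_lit 299) (nat_lit 5) (nat_lit 309) (nat_lit 5) (nat_lit 300) (nat_lit 5) (nat_lit 382) (nat_lit 344) (nat_lit 294)) (XT.lf (nat_lit 0) (nat_lit 4604101800)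 (nat_lit 760) (nat_lit 2778813006) (nat_lit 76) (nat_lit 2045660346) (nat_lit 290) (nat_lit 5) (nat_lit 300) (nat_lit 5) (nat_lit 291) (nat_lit 5) (nat_lit 383) (nat_lit 344) (nat_lit 293)))) (XT.nd (nat_lit 78) (nat_lit 1292) (nat_lit 0) (XT.lf (nat_lit 0) (nat_lit 6251967799) (nat_lit 684) (nat_lit 2193487092) (nat_lit 760) (nat_lit 1122999952) (nat_lit 281) (nat_lit 5) (nat_lit 290) (nat_lit 5) (nat_lit 291) (nat_lit 5) (nat_lit 384) (nat_lit 344) (nat_lit 292)) (XT.nd (nat_lit 78) (nat_lit 608) (nat_lit 0) (XT.lf (nat_lit 0) (nat_lit 2666687475) (nat_lit 684) (nat_lit 3874096923) (nat_lit 76) (nat_lit 3171160453) (nat_lit 272) (nat_lit 5) (nat_lit 281) (nat_lit 5) (nat_lit 273) (nat_lit 5) (nat_lit 385) (nat_lit 344) (nat_lit 291)) (XT.lf (nat_lit 0) (nat_lit 5422114681) (nat_lit 608) (nat_lit 1141163143) (nat_lit 684) (nat_lit 3296155570) (nat_lit 264) (nat_lit 5) (nat_lit 272) (nat_lit 5) (nat_lit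 273) (nat_lit 5) (nat_lit 386) (nat_lit 344) (nat_lit 290)))))) (XT.nd (nat_lit 390) (nat_lit 2584) (nat_lit 0) (XT.nd (nat_lit 156) (nat_lit 1748) (nat_lit 0) (XT.nd (nat_lit 78) (nat_lit 608) (nat_lit 0) (XT.lf (nat_lit 0) (nat_lit 582869336) (nat_lit 684) (nat_lit 5018084239) (nat_lit 76) (nat_lit 4409833406) (nat_lit 255) (nat_lit 5) (nat_lit 264) (nat_lit 5) (nat_lit 256) (nat_lit 5) (nat_lit 387) (nat_lit 344) (nat_lit 289)) (XT.lf (nat_lit 0) (nat_lit 4539313540) (nat_lit 684) (nat_lit 5615127712) (nat_lit 76) (nat_lit 11698363) (nat_lit 247) (nat_lit 5) (nat_lit 256) (nat_lit 5) (nat_lit 248) (nat_lit 5) (nat_lit 388) (nat_lit 344) (nat_lit 288))) (XT.nd (nat_lit 78) (nat_lit 1216) (nat_lit 0) (XT.lf (nat_lit 0) (nat_lit 4087484281) (nat_lit 532) (nat_lit 4564429849) (nat_lit 608) (nat_lit 1673499921) (nat_lit 240) (nat_lit 5) (nat_lit 247) (nat_lit 5) (nat_lit 248) (nat_lit 5) (nat_lit 389)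 (nat_lit 344) (nat_lit 287)) (XT.nd (nat_lit 78) (nat_lit 532) (nat_lit 0) (XT.lf (nat_lit 0) (nat_lit 2377034115) (nat_lit 684) (nat_lit 6874615780) (nat_lit 76) (nat_lit 1237314081) (nat_lit 231) (nat_lit 5) (nat_lit 240) (nat_lit 5) (nat_lit 232) (nat_lit 5) (nat_lit 390) (nat_lit 344) (nat_lit 286)) (XT.lf (nat_lit 0) (nat_lit 3111661872) (nat_lit 532) (nat_lit 3449318553) (nat_lit 608) (nat_lit 4095535776) (nat_lit 224) (nat_lit 5) (nat_lit 231) (nat_lit 5) (nat_lit 232) (nat_lit 5) (nat_lit 391) (nat_lit 344) (nat_lit 285))))) (XT.nd (nat_lit 234) (nat_lit 988) (nat_lit 0) (XT.nd (nat_lit 78) (nat_lit 988) (nat_lit 0) (XT.lf (nat_lit 0) (nat_lit 63461031) (nat_lit 608) (nat_lit 8226108743) (nat_lit 76) (nat_lit 2539076005) (nat_lit 216) (nat_lit 5) (nat_lit 224) (nat_lit 5) (nat_lit 217) (nat_lit 5) (nat_lit 392) (nat_lit 344) (nat_lit 284)) (XT.nd (nat_lit 78) (nat_lit 532) (nat_lit 0) (XT.lf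 (nat_lit 0) (nat_lit 2051393063) (nat_lit 456) (nat_lit 2271472539) (nat_lit 532) (nat_lit 6681915561) (nat_lit 210) (nat_lit 5) (nat_lit 216) (nat_lit 5) (nat_lit 217) (nat_lit 5) (nat_lit 393) (nat_lit 344) (nat_lit 283)) (XT.lf (nat_lit 0) (nat_lit 1481132962) (nat_lit 532) (nat_lit 7264287083) (nat_lit 608) (nat_lit 2440081904) (nat_lit 203) (nat_lit 5) (nat_lit 210) (nat_lit 5) (nat_lit 211) (nat_lit 5) (nat_lit 394) (nat_lit 344) (nat_lit 282)))) (XT.nd (nat_lit 78) (nat_lit 456) (nat_lit 0) (XT.lf (nat_lit 0) (nat_lit 887691308) (nat_lit 456) (nat_lit 1042947735) (nat_lit 532) (nat_lit 9440224469) (nat_lit 196) (nat_lit 5) (nat_lit 202) (nat_lit 5) (nat_lit 203) (nat_lit 5) (nat_lit 395) (nat_lit 344) (nat_lit 281)) (XT.nd (nat_lit 78) (nat_lit 0) (nat_lit 0) (XT.lf (nat_lit 0) (nat_lit 245152598) (nat_lit 456) (nat_lit 6202868224) (nat_lit 532) (nat_lit 5112476748) (nat_lit 190) (nat_lit 5)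 (nat_lit 196) (nat_lit 5) (nat_lit 197) (nat_lit 5) (nat_lit 396) (nat_lit 344) (nat_lit 280)) (XT.lf (nat_lit 0) (nat_lit 11127358049) (nat_lit 532) (nat_lit 400187748) (nat_lit 76) (nat_lit 227753969) (nat_lit 190) (nat_lit 5) (nat_lit 197) (nat_lit 5) (nat_lit 191) (nat_lit 5) (nat_lit 397) (nat_lit 344) (nat_lit 279))))))))
noncomputable def xc53 : XT := (XT.nd (nat_lit 1716) (nat_lit 1900) (nat_lit 0) (XT.nd (nat_lit 858) (nat_lit 3268) (nat_lit 0) (XT.nd (nat_lit 390) (nat_lit 2432) (nat_lit 0) (XT.nd (nat_lit 156) (nat_lit 1292) (nat_lit 0) (XT.nd (nat_lit 78) (nat_lit 456) (nat_lit 0) (XT.lf (nat_lit 0) (nat_lit 3999607106) (nat_lit 532) (nat_lit 1111382626) (nat_lit 76) (nat_lit 6843229016) (nat_lit 183) (nat_lit 5) (nat_lit 190) (nat_lit 5) (nat_lit 184) (nat_lit 5) (nat_lit 398) (nat_lit 344) (nat_lit 278)) (XT.lf (nat_lit 0) (nat_lit 8786418274) (nat_lit 532) (nat_lit 1841226908) (nat_lit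 76) (nat_lit 1530804969) (nat_lit 177) (nat_lit 5) (nat_lit 184) (nat_lit 5) (nat_lit 178) (nat_lit 5) (nat_lit 399) (nat_lit 344) (nat_lit 277))) (XT.nd (nat_lit 78) (nat_lit 836) (nat_lit 0) (XT.lf (nat_lit 0) (nat_lit 1385741840) (nat_lit 456) (nat_lit 2620850392) (nat_lit 76) (nat_lit 8360940153) (nat_lit 171) (nat_lit 5) (nat_lit 177) (nat_lit 5) (nat_lit 172) (nat_lit 5) (nat_lit 400) (nat_lit 344) (nat_lit 276)) (XT.nd (nat_lit 78) (nat_lit 380) (nat_lit 0) (XT.lf (nat_lit 0) (nat_lit 6281999355) (nat_lit 532) (nat_lit 3451033948) (nat_lit 76) (nat_lit 2848583395) (nat_lit 165) (nat_lit 5) (nat_lit 172) (nat_lit 5) (nat_lit 166) (nat_lit 5) (nat_lit 401) (nat_lit 344) (nat_lit 275)) (XT.lf (nat_lit 0) (nat_lit 8480868402) (nat_lit 380) (nat_lit 2895434669) (nat_lit 456) (nat_lit 1424803767) (nat_lit 160) (nat_lit 5) (nat_lit 165) (nat_lit 5) (nat_lit 166) (nat_lit 5) (nat_lit 402) (nat_lit 344)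 (nat_lit 274))))) (XT.nd (nat_lit 234) (nat_lit 1140) (nat_lit 0) (XT.nd (nat_lit 78) (nat_lit 836) (nat_lit 0) (XT.lf (nat_lit 0) (nat_lit 3602737331) (nat_lit 456) (nat_lit 5255176368) (nat_lit 76) (nat_lit 4167734179) (nat_lit 154) (nat_lit 5) (nat_lit 160) (nat_lit 5) (nat_lit 155) (nat_lit 5) (nat_lit 403) (nat_lit 344) (nat_lit 273)) (XT.nd (nat_lit 78) (nat_lit 456) (nat_lit 0) (XT.lf (nat_lit 0) (nat_lit 7018442807) (nat_lit 380) (nat_lit 1790658942) (nat_lit 456) (nat_lit 4446693924) (nat_lit 149) (nat_lit 5) (nat_lit 154) (nat_lit 5) (nat_lit 155) (nat_lit 5) (nat_lit 404) (nat_lit 344) (nat_lit 272)) (XT.lf (nat_lit 0) (nat_lit 735774988) (nat_lit 456) (nat_lit 7281519161) (nat_lit 76) (nat_lit 5474153927) (nat_lit 143) (nat_lit 5) (nat_lit 149) (nat_lit 5) (nat_lit 144) (nat_lit 5) (nat_lit 405) (nat_lit 344) (nat_lit 271)))) (XT.nd (nat_lit 78) (nat_lit 760) (nat_lit 0) (XT.lf (nat_lit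 0) (nat_lit 5340426463) (nat_lit 380) (nat_lit 716616875) (nat_lit 456) (nat_lit 7675669609) (nat_lit 138) (nat_lit 5) (nat_lit 143) (nat_lit 5) (nat_lit 144) (nat_lit 5) (nat_lit 406) (nat_lit 344) (nat_lit 270)) (XT.nd (nat_lit 78) (nat_lit 380) (nat_lit 0) (XT.lf (nat_lit 0) (nat_lit 4403821884) (nat_lit 380) (nat_lit 7211486078) (nat_lit 456) (nat_lit 2364365999) (nat_lit 133) (nat_lit 5) (nat_lit 138) (nat_lit 5) (nat_lit 139) (nat_lit 5) (nat_lit 407) (nat_lit 344) (nat_lit 269)) (XT.lf (nat_lit 0) (nat_lit 3107265264) (nat_lit 380) (nat_lit 10818995865) (nat_lit 76) (nat_lit 306549862) (nat_lit 128) (nat_lit 5) (nat_lit 133) (nat_lit 5) (nat_lit 129) (nat_lit 5) (nat_lit 408) (nat_lit 344) (nat_lit 268)))))) (XT.nd (nat_lit 390) (nat_lit 1824) (nat_lit 0) (XT.nd (nat_lit 156) (nat_lit 760) (nat_lit 0) (XT.nd (nat_lit 78) (nat_lit 304) (nat_lit 0) (XT.lf (nat_lit 0) (nat_lit 2329117464) (nat_lit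 380) (nat_lit 6466844713) (nat_lit 456) (nat_lit 5695571555) (nat_lit 123) (nat_lit 5) (nat_lit 128) (nat_lit 5) (nat_lit 129) (nat_lit 5) (nat_lit 409) (nat_lit 344) (nat_lit 267)) (XT.lf (nat_lit 0) (nat_lit 1202047222) (nat_lit 304) (nat_lit 13499635930) (nat_lit 380) (nat_lit 55412552) (nat_lit 119) (nat_lit 5) (nat_lit 123) (nat_lit 5) (nat_lit 124) (nat_lit 5) (nat_lit 410) (nat_lit 344) (nat_lit 266))) (XT.nd (nat_lit 78) (nat_lit 684) (nat_lit 0) (XT.lf (nat_lit 0) (nat_lit 5762092498) (nat_lit 380) (nat_lit 44209434) (nat_lit 76) (nat_lit 9221907902) (nat_lit 118) (nat_lit 5) (nat_lit 123) (nat_lit 5) (nat_lit 119) (nat_lit 5) (nat_lit 411) (nat_lit 344) (nat_lit 265)) (XT.nd (nat_lit 78) (nat_lit 380) (nat_lit 0) (XT.lf (nat_lit 0) (nat_lit 11817031794) (nat_lit 380) (nat_lit 1331633711) (nat_lit 76) (nat_lit 2157515764) (nat_lit 114) (nat_lit 5) (nat_lit 119) (nat_lit 5) (nat_lit 115) (nat_lit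 5) (nat_lit 412) (nat_lit 344) (nat_lit 264)) (XT.lf (nat_lit 0) (nat_lit 2511449552) (nat_lit 380) (nat_lit 2720826552) (nat_lit 76) (nat_lit 10358248384) (nat_lit 109) (nat_lit 5) (nat_lit 114) (nat_lit 5) (nat_lit 110) (nat_lit 5) (nat_lit 413) (nat_lit 344) (nat_lit 263))))) (XT.nd (nat_lit 234) (nat_lit 836) (nat_lit 0) (XT.nd (nat_lit 78) (nat_lit 684) (nat_lit 0) (XT.lf (nat_lit 0) (nat_lit 8709247009) (nat_lit 380) (nat_lit 4204558208) (nat_lit 76) (nat_lit 2967843942) (nat_lit 105) (nat_lit 5) (nat_lit 110) (nat_lit 5) (nat_lit 106) (nat_lit 5) (nat_lit 414) (nat_lit 344) (nat_lit 262)) (XT.nd (nat_lit 78) (nat_lit 380) (nat_lit 0) (XT.lf (nat_lit 0) (nat_lit 10399664832) (nat_lit 304) (nat_lit 4774742559) (nat_lit 380) (nat_lit 1005475586) (nat_lit 101) (nat_lit 5) (nat_lit 105) (nat_lit 5) (nat_lit 106) (nat_lit 5) (nat_lit 415) (nat_lit 344) (nat_lit 261)) (XT.lf (nat_lit 0) (nat_lit 5348576576)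 (nat_lit 380) (nat_lit 7476991625) (nat_lit 76) (nat_lit 3659360399) (nat_lit 96) (nat_lit 5) (nat_lit 101) (nat_lit 5) (nat_lit 97) (nat_lit 5) (nat_lit 416) (nat_lit 344) (nat_lit 260)))) (XT.nd (nat_lit 78) (nat_lit 608) (nat_lit 0) (XT.lf (nat_lit 0) (nat_lit 7516467740) (nat_lit 228) (nat_lit 4444769232) (nat_lit 304) (nat_lit 4836126437) (nat_lit 93) (nat_lit 5) (nat_lit 96) (nat_lit 5) (nat_lit 97) (nat_lit 5) (nat_lit 417) (nat_lit 344) (nat_lit 259)) (XT.nd (nat_lit 78) (nat_lit 228) (nat_lit 0) (XT.lf (nat_lit 0) (nat_lit 1710604209) (nat_lit 380) (nat_lit 11197954047) (nat_lit 76) (nat_lit 4208818273) (nat_lit 88) (nat_lit 5) (nat_lit 93) (nat_lit 5) (nat_lit 89) (nat_lit 5) (nat_lit 418) (nat_lit 344) (nat_lit 258)) (XT.lf (nat_lit 0) (nat_lit 4186728597) (nat_lit 228) (nat_lit 4284310222) (nat_lit 304) (nat_lit 8973655170) (nat_lit 85) (nat_lit 5) (nat_lit 88) (nat_lit 5) (nat_lit 89)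 (nat_lit 5) (nat_lit 419) (nat_lit 344) (nat_lit 257))))))) (XT.nd (nat_lit 47502) (nat_lit 0) (nat_lit 43244) (XT.nd (nat_lit 390) (nat_lit 760) (nat_lit 0) (XT.nd (nat_lit 156) (nat_lit 532) (nat_lit 0) (XT.nd (nat_lit 78) (nat_lit 304) (nat_lit 0) (XT.lf (nat_lit 0) (nat_lit 2343982299) (nat_lit 304) (nat_lit 13174713879) (nat_lit 380) (nat_lit 2261449910) (nat_lit 81) (nat_lit 5) (nat_lit 85) (nat_lit 5) (nat_lit 86) (nat_lit 5) (nat_lit 420) (nat_lit 344) (nat_lit 256)) (XT.lf (nat_lit 0) (nat_lit 355010155) (nat_lit 228) (nat_lit 4320876217) (nat_lit 304) (nat_lit 13447478865) (nat_lit 77) (nat_lit 5) (nat_lit 80) (nat_lit 5) (nat_lit 81) (nat_lit 5) (nat_lit 421) (nat_lit 344) (nat_lit 255))) (XT.nd (nat_lit 78) (nat_lit 532) (nat_lit 0) (XT.lf (nat_lit 0) (nat_lit 11891139656) (nat_lit 304) (nat_lit 1751902288) (nat_lit 76) (nat_lit 4831532684) (nat_lit 77) (nat_lit 5) (nat_lit 81) (nat_lit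 5) (nat_lit 78) (nat_lit 5) (nat_lit 422) (nat_lit 344) (nat_lit 254)) (XT.nd (nat_lit 78) (nat_lit 228) (nat_lit 0) (XT.lf (nat_lit 0) (nat_lit 571013645) (nat_lit 304) (nat_lit 3986914538) (nat_lit 76) (nat_lit 14276514564) (nat_lit 73) (nat_lit 5) (nat_lit 77) (nat_lit 5) (nat_lit 74) (nat_lit 5) (nat_lit 423) (nat_lit 344) (nat_lit 253)) (XT.lf (nat_lit 0) (nat_lit 7943693376) (nat_lit 304) (nat_lit 6405803513) (nat_lit 76) (nat_lit 4852881699) (nat_lit 70) (nat_lit 5) (nat_lit 74) (nat_lit 5) (nat_lit 71) (nat_lit 5) (nat_lit 424) (nat_lit 344) (nat_lit 252))))) (XT.nd (nat_lit 46878) (nat_lit 0) (nat_lit 48184) (XT.nd (nat_lit 78) (nat_lit 532) (nat_lit 0) (XT.lf (nat_lit 0) (nat_lit 10607153885) (nat_lit 228) (nat_lit 5022778625) (nat_lit 304) (nat_lit 3949575156) (nat_lit 67) (nat_lit 5) (nat_lit 70) (nat_lit 5) (nat_lit 71) (nat_lit 5) (nat_lit 425) (nat_lit 344) (nat_lit 251)) (XT.nd (nat_lit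 78) (nat_lit 228) (nat_lit 0) (XT.lf (nat_lit 0) (nat_lit 3625944548) (nat_lit 304) (nat_lit 11718603348) (nat_lit 76) (nat_lit 4621059147) (nat_lit 63) (nat_lit 5) (nat_lit 67) (nat_lit 5) (nat_lit 64) (nat_lit 5) (nat_lit 426) (nat_lit 344) (nat_lit 250)) (XT.lf (nat_lit 0) (nat_lit 5700341251) (nat_lit 228) (nat_lit 5773523363) (nat_lit 304) (nat_lit 8886929308) (nat_lit 60) (nat_lit 5) (nat_lit 63) (nat_lit 5) (nat_lit 64) (nat_lit 5) (nat_lit 427) (nat_lit 344) (nat_lit 249)))) (XT.nd (nat_lit 78) (nat_lit 684) (nat_lit 0) (XT.lf (nat_lit 0) (nat_lit 829236615) (nat_lit 0) (nat_lit 829236615) (nat_lit 532) (nat_lit 1615980956) (nat_lit 703) (nat_lit 5) (nat_lit 703) (nat_lit 3) (nat_lit 710) (nat_lit 3) (nat_lit 345) (nat_lit 345) (nat_lit 330)) (XT.nd (nat_lit 78) (nat_lit 0) (nat_lit 76) (XT.lf (nat_lit 0) (nat_lit 483808680) (nat_lit 684) (nat_lit 76104905) (nat_lit 684) (nat_lit 6011940805)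 (nat_lit 694) (nat_lit 3) (nat_lit 703) (nat_lit 3) (nat_lit 703) (nat_lit 5) (nat_lit 346) (nat_lit 345) (nat_lit 329)) (XT.lf (nat_lit 0) (nat_lit 4158181820) (nat_lit 608) (nat_lit 1751340590) (nat_lit 684) (nat_lit 687768636) (nat_lit 695) (nat_lit 5) (nat_lit 703) (nat_lit 5) (nat_lit 704) (nat_lit 5) (nat_lit 347) (nat_lit 345) (nat_lit 328)))))) (XT.nd (nat_lit 390) (nat_lit 2812) (nat_lit 0) (XT.nd (nat_lit 156) (nat_lit 1520) (nat_lit 0) (XT.nd (nat_lit 78) (nat_lit 0) (nat_lit 0) (XT.lf (nat_lit 0) (nat_lit 1185555009) (nat_lit 684) (nat_lit 3377681763) (nat_lit 760) (nat_lit 2062459351) (nat_lit 686) (nat_lit 5) (nat_lit 695) (nat_lit 5) (nat_lit 696) (nat_lit 5) (nat_lit 348) (nat_lit 345) (nat_lit 327)) (XT.lf (nat_lit 76) (nat_lit 1695592303) (nat_lit 0) (nat_lit 3075009926) (nat_lit 760) (nat_lit 1886379544) (nat_lit 687) (nat_lit 5) (nat_lit 686) (nat_lit 5) (nat_lit 696) (nat_lit 5)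 (nat_lit 349) (nat_lit 345) (nat_lit 326))) (XT.nd (nat_lit 78) (nat_lit 760) (nat_lit 0) (XT.lf (nat_lit 76) (nat_lit 191934598) (nat_lit 0) (nat_lit 1447318576) (nat_lit 836) (nat_lit 5051996220) (nat_lit 677) (nat_lit 5) (nat_lit 676) (nat_lit 5) (nat_lit 687) (nat_lit 5) (nat_lit 350) (nat_lit 345) (nat_lit 325)) (XT.nd (nat_lit 78) (nat_lit 836) (nat_lit 0) (XT.lf (nat_lit 0) (nat_lit 5148565411) (nat_lit 760) (nat_lit 1251688003) (nat_lit 836) (nat_lit 328014431) (nat_lit 677) (nat_lit 5) (nat_lit 687) (nat_lit 5) (nat_lit 688) (nat_lit 5) (nat_lit 351) (nat_lit 345) (nat_lit 324)) (XT.lf (nat_lit 0) (nat_lit 1878262877) (nat_lit 836) (nat_lit 2659846889) (nat_lit 912) (nat_lit 2229914882) (nat_lit 666) (nat_lit 5) (nat_lit 677) (nat_lit 5) (nat_lit 678) (nat_lit 5) (nat_lit 352) (nat_lit 345) (nat_lit 323))))) (XT.nd (nat_lit 234) (nat_lit 1900) (nat_lit 0) (XT.nd (nat_lit 78) (nat_lit 912)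 (nat_lit 0) (XT.lf (nat_lit 76) (nat_lit 2785668813) (nat_lit 0) (nat_lit 2533860772) (nat_lit 912) (nat_lit 1491254945) (nat_lit 667) (nat_lit 5) (nat_lit 666) (nat_lit 5) (nat_lit 678) (nat_lit 5) (nat_lit 353) (nat_lit 345) (nat_lit 322)) (XT.nd (nat_lit 78) (nat_lit 0) (nat_lit 76) (XT.lf (nat_lit 76) (nat_lit 1505233092) (nat_lit 0) (nat_lit 382134512) (nat_lit 988) (nat_lit 4969146262) (nat_lit 655) (nat_lit 5) (nat_lit 654) (nat_lit 5) (nat_lit 667) (nat_lit 5) (nat_lit 354) (nat_lit 345) (nat_lit 321)) (XT.lf (nat_lit 76) (nat_lit 255508960) (nat_lit 0) (nat_lit 5012694989) (nat_lit 988) (nat_lit 1636828370) (nat_lit 656) (nat_lit 5) (nat_lit 655) (nat_lit 5) (nat_lit 668) (nat_lit 5) (nat_lit 355) (nat_lit 345) (nat_lit 320)))) (XT.nd (nat_lit 78) (nat_lit 988) (nat_lit 0) (XT.lf (nat_lit 0) (nat_lit 1693124451) (nat_lit 988) (nat_lit 944596462) (nat_lit 1064) (nat_lit 4318662924) (nat_lit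 642) (nat_lit 5) (nat_lit 655) (nat_lit 5) (nat_lit 656) (nat_lit 5) (nat_lit 356) (nat_lit 345) (nat_lit 319)) (XT.nd (nat_lit 78) (nat_lit 988) (nat_lit 0) (XT.lf (nat_lit 76) (nat_lit 4907600986) (nat_lit 0) (nat_lit 110714861) (nat_lit 1064) (nat_lit 1992426010) (nat_lit 643) (nat_lit 5) (nat_lit 642) (nat_lit 5) (nat_lit 656) (nat_lit 5) (nat_lit 357) (nat_lit 345) (nat_lit 318)) (XT.lf (nat_lit 0) (nat_lit 1294218829) (nat_lit 1064) (nat_lit 3239295304) (nat_lit 76) (nat_lit 2534355210) (nat_lit 629) (nat_lit 5) (nat_lit 643) (nat_lit 5) (nat_lit 630) (nat_lit 5) (nat_lit 358) (nat_lit 345) (nat_lit 317))))))))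
noncomputable def xc54 : XT := (XT.nd (nat_lit 1716) (nat_lit 11628) (nat_lit 0) (XT.nd (nat_lit 858) (nat_lit 9272) (nat_lit 0) (XT.nd (nat_lit 390) (nat_lit 9500) (nat_lit 0) (XT.nd (nat_lit 156) (nat_lit 2584) (nat_lit 0) (XT.nd (nat_lit 78) (nat_lit 1216) (nat_lit 0) (XT.lf (nat_lit 0) (nat_lit 2784212735) (nat_lit 1064) (nat_lit 1792146496) (nat_lit 1140) (nat_lit 2551640048) (nat_lit 615) (nat_lit 5) (nat_lit 629) (nat_lit 5) (nat_lit 630) (nat_lit 5) (nat_lit 359) (nat_lit 345) (nat_lit 316)) (XT.lf (nat_lit 0) (nat_lit 690371943) (nat_lit 1216) (nat_lit 5415876537) (nat_lit 76) (nat_lit 1084946833) (nat_lit 599) (nat_lit 5) (nat_lit 615) (nat_lit 5) (nat_lit 600) (nat_lit 5) (nat_lit 360) (nat_lit 345) (nat_lit 315))) (XT.nd (nat_lit 78) (nat_lit 1368) (nat_lit 0) (XT.lf (nat_lit 0) (nat_lit 782833875) (nat_lit 1216) (nat_lit 3154432484) (nat_lit 1292) (nat_lit 3319866723) (nat_lit 583) (nat_lit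 5) (nat_lit 599) (nat_lit 5) (nat_lit 600) (nat_lit 5) (nat_lit 361) (nat_lit 345) (nat_lit 314)) (XT.nd (nat_lit 78) (nat_lit 1368) (nat_lit 0) (XT.lf (nat_lit 0) (nat_lit 7162989478) (nat_lit 1216) (nat_lit 53207838) (nat_lit 1292) (nat_lit 110187183) (nat_lit 583) (nat_lit 5) (nat_lit 599) (nat_lit 5) (nat_lit 600) (nat_lit 5) (nat_lit 362) (nat_lit 345) (nat_lit 313)) (XT.lf (nat_lit 0) (nat_lit 3116077445) (nat_lit 1368) (nat_lit 1098165944) (nat_lit 76) (nat_lit 3183837686) (nat_lit 565) (nat_lit 5) (nat_lit 583) (nat_lit 5) (nat_lit 566) (nat_lit 5) (nat_lit 363) (nat_lit 345) (nat_lit 312))))) (XT.nd (nat_lit 234) (nat_lit 5092) (nat_lit 0) (XT.nd (nat_lit 78) (nat_lit 3040) (nat_lit 0) (XT.lf (nat_lit 0) (nat_lit 5479661528) (nat_lit 1368) (nat_lit 897793377) (nat_lit 1444) (nat_lit 1095688615) (nat_lit 547) (nat_lit 5) (nat_lit 565) (nat_lit 5) (nat_lit 566) (nat_lit 5) (nat_lit 364) (nat_lit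 345) (nat_lit 311)) (XT.nd (nat_lit 78) (nat_lit 1520) (nat_lit 0) (XT.lf (nat_lit 0) (nat_lit 2116720220) (nat_lit 1520) (nat_lit 2879946459) (nat_lit 76) (nat_lit 2554348461) (nat_lit 527) (nat_lit 5) (nat_lit 547) (nat_lit 5) (nat_lit 528) (nat_lit 5) (nat_lit 365) (nat_lit 345) (nat_lit 310)) (XT.lf (nat_lit 0) (nat_lit 3890191628) (nat_lit 1520) (nat_lit 1472195312) (nat_lit 1596) (nat_lit 2269679690) (nat_lit 507) (nat_lit 5) (nat_lit 527) (nat_lit 5) (nat_lit 528) (nat_lit 5) (nat_lit 366) (nat_lit 345) (nat_lit 309)))) (XT.nd (nat_lit 78) (nat_lit 3420) (nat_lit 0) (XT.lf (nat_lit 0) (nat_lit 939751743) (nat_lit 1672) (nat_lit 4587763886) (nat_lit 76) (nat_lit 2188671145) (nat_lit 485) (nat_lit 5) (nat_lit 507) (nat_lit 5) (nat_lit 486) (nat_lit 5) (nat_lit 367) (nat_lit 345) (nat_lit 308)) (XT.nd (nat_lit 78) (nat_lit 1748) (nat_lit 0) (XT.lf (nat_lit 0) (nat_lit 2379895589) (nat_lit 1672)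 (nat_lit 1796376447) (nat_lit 1748) (nat_lit 3627047780) (nat_lit 463) (nat_lit 5) (nat_lit 485) (nat_lit 5) (nat_lit 486) (nat_lit 5) (nat_lit 368) (nat_lit 345) (nat_lit 307)) (XT.lf (nat_lit 0) (nat_lit 1654766781) (nat_lit 1748) (nat_lit 5823241657) (nat_lit 1824) (nat_lit 415717541) (nat_lit 440) (nat_lit 5) (nat_lit 463) (nat_lit 5) (nat_lit 464) (nat_lit 5) (nat_lit 369) (nat_lit 345) (nat_lit 306)))))) (XT.nd (nat_lit 390) (nat_lit 4940) (nat_lit 0) (XT.nd (nat_lit 156) (nat_lit 1900) (nat_lit 0) (XT.nd (nat_lit 78) (nat_lit 912) (nat_lit 0) (XT.lf (nat_lit 0) (nat_lit 934417540) (nat_lit 1444) (nat_lit 1888916782) (nat_lit 1520) (nat_lit 5163768771) (nat_lit 420) (nat_lit 5) (nat_lit 439) (nat_lit 5) (nat_lit 440) (nat_lit 5) (nat_lit 370) (nat_lit 345) (nat_lit 305)) (XT.lf (nat_lit 0) (nat_lit 231224876) (nat_lit 912) (nat_lit 5897074868) (nat_lit 988) (nat_lit 1955458924) (nat_lit 408)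 (nat_lit 5) (nat_lit 420) (nat_lit 5) (nat_lit 421) (nat_lit 5) (nat_lit 371) (nat_lit 345) (nat_lit 304))) (XT.nd (nat_lit 78) (nat_lit 1824) (nat_lit 0) (XT.lf (nat_lit 0) (nat_lit 1309762260) (nat_lit 988) (nat_lit 454340728) (nat_lit 76) (nat_lit 6419487570) (nat_lit 407) (nat_lit 5) (nat_lit 420) (nat_lit 5) (nat_lit 408) (nat_lit 5) (nat_lit 372) (nat_lit 345) (nat_lit 303)) (XT.nd (nat_lit 78) (nat_lit 912) (nat_lit 0) (XT.lf (nat_lit 0) (nat_lit 4629675651) (nat_lit 988) (nat_lit 1134818586) (nat_lit 76) (nat_lit 2522016995) (nat_lit 395) (nat_lit 5) (nat_lit 408) (nat_lit 5) (nat_lit 396) (nat_lit 5) (nat_lit 373) (nat_lit 345) (nat_lit 302)) (XT.lf (nat_lit 0) (nat_lit 6595912987) (nat_lit 912) (nat_lit 1432849593) (nat_lit 988) (nat_lit 364183284) (nat_lit 383) (nat_lit 5) (nat_lit 395) (nat_lit 5) (nat_lit 396) (nat_lit 5) (nat_lit 374) (nat_lit 345) (nat_lit 301))))) (XT.nd (nat_lit 234)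 (nat_lit 2356) (nat_lit 0) (XT.nd (nat_lit 78) (nat_lit 1672) (nat_lit 0) (XT.lf (nat_lit 0) (nat_lit 2977792103) (nat_lit 912) (nat_lit 2469739765) (nat_lit 76) (nat_lit 3054860636) (nat_lit 371) (nat_lit 5) (nat_lit 383) (nat_lit 5) (nat_lit 372) (nat_lit 5) (nat_lit 375) (nat_lit 345) (nat_lit 300)) (XT.nd (nat_lit 78) (nat_lit 836) (nat_lit 0) (XT.lf (nat_lit 0) (nat_lit 5488381583) (nat_lit 836) (nat_lit 909034981) (nat_lit 912) (nat_lit 2218027585) (nat_lit 360) (nat_lit 5) (nat_lit 371) (nat_lit 5) (nat_lit 372) (nat_lit 5) (nat_lit 376) (nat_lit 345) (nat_lit 299)) (XT.lf (nat_lit 0) (nat_lit 1172077066) (nat_lit 836) (nat_lit 3790403717) (nat_lit 76) (nat_lit 3769269794) (nat_lit 349) (nat_lit 5) (nat_lit 360) (nat_lit 5) (nat_lit 350) (nat_lit 5) (nat_lit 377) (nat_lit 345) (nat_lit 298)))) (XT.nd (nat_lit 78) (nat_lit 1596) (nat_lit 0) (XT.lf (nat_lit 0) (nat_lit 4401829207) (nat_lit 760)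 (nat_lit 215728753) (nat_lit 836) (nat_lit 4234034117) (nat_lit 339) (nat_lit 5) (nat_lit 349) (nat_lit 5) (nat_lit 350) (nat_lit 5) (nat_lit 378) (nat_lit 345) (nat_lit 297)) (XT.nd (nat_lit 78) (nat_lit 836) (nat_lit 0) (XT.lf (nat_lit 0) (nat_lit 3858837086) (nat_lit 760) (nat_lit 4318030957) (nat_lit 836) (nat_lit 797966292) (nat_lit 329) (nat_lit 5) (nat_lit 339) (nat_lit 5) (nat_lit 340) (nat_lit 5) (nat_lit 379) (nat_lit 345) (nat_lit 296)) (XT.lf (nat_lit 0) (nat_lit 2693013282) (nat_lit 836) (nat_lit 5783428549) (nat_lit 76) (nat_lit 625234553) (nat_lit 318) (nat_lit 5) (nat_lit 329) (nat_lit 5) (nat_lit 319) (nat_lit 5) (nat_lit 380) (nat_lit 345) (nat_lit 295))))))) (XT.nd (nat_lit 858) (nat_lit 5016) (nat_lit 0) (XT.nd (nat_lit 390) (nat_lit 3116) (nat_lit 0) (XT.nd (nat_lit 156) (nat_lit 2052) (nat_lit 0) (XT.nd (nat_lit 78) (nat_lit 760) (nat_lit 0) (XT.lf (nat_lit 0) (nat_lit 2767596025)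 (nat_lit 684) (nat_lit 3523864878) (nat_lit 760) (nat_lit 2940499384) (nat_lit 309) (nat_lit 5) (nat_lit 318) (nat_lit 5) (nat_lit 319) (nat_lit 5) (nat_lit 381) (nat_lit 345) (nat_lit 294)) (XT.lf (nat_lit 0) (nat_lit 620756720) (nat_lit 760) (nat_lit 7140806969) (nat_lit 76) (nat_lit 1604573365) (nat_lit 299) (nat_lit 5) (nat_lit 309) (nat_lit 5) (nat_lit 300) (nat_lit 5) (nat_lit 382) (nat_lit 345) (nat_lit 293))) (XT.nd (nat_lit 78) (nat_lit 1368) (nat_lit 0) (XT.lf (nat_lit 0) (nat_lit 1661194487) (nat_lit 684) (nat_lit 2600577491) (nat_lit 760) (nat_lit 5241933629) (nat_lit 290) (nat_lit 5) (nat_lit 299) (nat_lit 5) (nat_lit 300) (nat_lit 5) (nat_lit 383) (nat_lit 345) (nat_lit 292)) (XT.nd (nat_lit 78) (nat_lit 684) (nat_lit 0) (XT.lf (nat_lit 0) (nat_lit 1099266264) (nat_lit 684) (nat_lit 6921764847) (nat_lit 760) (nat_lit 1624202113) (nat_lit 281) (nat_lit 5) (nat_lit 290) (nat_lit 5) (nat_lit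 291) (nat_lit 5) (nat_lit 384) (nat_lit 345) (nat_lit 291)) (XT.lf (nat_lit 0) (nat_lit 524832567) (nat_lit 608) (nat_lit 1560443501) (nat_lit 684) (nat_lit 7705253656) (nat_lit 272) (nat_lit 5) (nat_lit 280) (nat_lit 5) (nat_lit 281) (nat_lit 5) (nat_lit 385) (nat_lit 345) (nat_lit 290))))) (XT.nd (nat_lit 234) (nat_lit 1824) (nat_lit 0) (XT.nd (nat_lit 78) (nat_lit 1292) (nat_lit 0) (XT.lf (nat_lit 0) (nat_lit 5905868296) (nat_lit 684) (nat_lit 68530664) (nat_lit 76) (nat_lit 3965144857) (nat_lit 272) (nat_lit 5) (nat_lit 281) (nat_lit 5) (nat_lit 273) (nat_lit 5) (nat_lit 386) (nat_lit 345) (nat_lit 289)) (XT.nd (nat_lit 78) (nat_lit 684) (nat_lit 0) (XT.lf (nat_lit 0) (nat_lit 9442940918) (nat_lit 608) (nat_lit 409450233) (nat_lit 684) (nat_lit 240421940) (nat_lit 264) (nat_lit 5) (nat_lit 272) (nat_lit 5) (nat_lit 273) (nat_lit 5) (nat_lit 387) (nat_lit 345) (nat_lit 288)) (XT.lf (nat_lit 0) (nat_lit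 3652959266) (nat_lit 684) (nat_lit 1275459972) (nat_lit 76) (nat_lit 5321107193) (nat_lit 255) (nat_lit 5) (nat_lit 264) (nat_lit 5) (nat_lit 256) (nat_lit 5) (nat_lit 388) (nat_lit 345) (nat_lit 287)))) (XT.nd (nat_lit 78) (nat_lit 1216) (nat_lit 0) (XT.lf (nat_lit 0) (nat_lit 7669516154) (nat_lit 684) (nat_lit 1898752189) (nat_lit 76) (nat_lit 842458413) (nat_lit 247) (nat_lit 5) (nat_lit 256) (nat_lit 5) (nat_lit 248) (nat_lit 5) (nat_lit 389) (nat_lit 345) (nat_lit 286)) (XT.nd (nat_lit 78) (nat_lit 608) (nat_lit 0) (XT.lf (nat_lit 0) (nat_lit 1250443850) (nat_lit 608) (nat_lit 2552357469) (nat_lit 76) (nat_lit 6773076436) (nat_lit 239) (nat_lit 5) (nat_lit 247) (nat_lit 5) (nat_lit 240) (nat_lit 5) (nat_lit 390) (nat_lit 345) (nat_lit 285)) (XT.lf (nat_lit 0) (nat_lit 5344484181) (nat_lit 684) (nat_lit 3229601307) (nat_lit 76) (nat_lit 2171147243) (nat_lit 231) (nat_lit 5) (nat_lit 240) (nat_lit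 5) (nat_lit 232) (nat_lit 5) (nat_lit 391) (nat_lit 345) (nat_lit 284)))))) (XT.nd (nat_lit 390) (nat_lit 2356) (nat_lit 0) (XT.nd (nat_lit 156) (nat_lit 1520) (nat_lit 0) (XT.nd (nat_lit 78) (nat_lit 608) (nat_lit 0) (XT.lf (nat_lit 0) (nat_lit 6993782670) (nat_lit 532) (nat_lit 2600411859) (nat_lit 608) (nat_lit 1324825985) (nat_lit 224) (nat_lit 5) (nat_lit 231) (nat_lit 5) (nat_lit 232) (nat_lit 5) (nat_lit 392) (nat_lit 345) (nat_lit 283)) (XT.lf (nat_lit 0) (nat_lit 2868548907) (nat_lit 608) (nat_lit 4657715264) (nat_lit 76) (nat_lit 3570736144) (nat_lit 216) (nat_lit 5) (nat_lit 224) (nat_lit 5) (nat_lit 217) (nat_lit 5) (nat_lit 393) (nat_lit 345) (nat_lit 282))) (XT.nd (nat_lit 78) (nat_lit 1064) (nat_lit 0) (XT.lf (nat_lit 0) (nat_lit 5866214887) (nat_lit 456) (nat_lit 1332243376) (nat_lit 532) (nat_lit 4081119896) (nat_lit 210) (nat_lit 5) (nat_lit 216) (nat_lit 5) (nat_lit 217) (nat_lit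 5) (nat_lit 394) (nat_lit 345) (nat_lit 281)) (XT.nd (nat_lit 78) (nat_lit 456) (nat_lit 0) (XT.lf (nat_lit 0) (nat_lit 234510262) (nat_lit 608) (nat_lit 6202294168) (nat_lit 76) (nat_lit 5029884609) (nat_lit 202) (nat_lit 5) (nat_lit 210) (nat_lit 5) (nat_lit 203) (nat_lit 5) (nat_lit 395) (nat_lit 345) (nat_lit 280)) (XT.lf (nat_lit 0) (nat_lit 4629934507) (nat_lit 456) (nat_lit 18507586) (nat_lit 532) (nat_lit 7009953843) (nat_lit 196) (nat_lit 5) (nat_lit 202) (nat_lit 5) (nat_lit 203) (nat_lit 5) (nat_lit 396) (nat_lit 345) (nat_lit 279))))) (XT.nd (nat_lit 234) (nat_lit 912) (nat_lit 0) (XT.nd (nat_lit 78) (nat_lit 988) (nat_lit 0) (XT.lf (nat_lit 0) (nat_lit 3953818944) (nat_lit 456) (nat_lit 5300740250) (nat_lit 532) (nat_lit 2600107071) (nat_lit 190) (nat_lit 5) (nat_lit 196) (nat_lit 5) (nat_lit 197) (nat_lit 5) (nat_lit 397) (nat_lit 345) (nat_lit 278)) (XT.nd (nat_lit 78) (nat_lit 456)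 (nat_lit 0) (XT.lf (nat_lit 0) (nat_lit 1944126620) (nat_lit 532) (nat_lit 8800642116) (nat_lit 76) (nat_lit 1311259763) (nat_lit 183) (nat_lit 5) (nat_lit 190) (nat_lit 5) (nat_lit 184) (nat_lit 5) (nat_lit 398) (nat_lit 345) (nat_lit 277)) (XT.lf (nat_lit 0) (nat_lit 2500521961) (nat_lit 456) (nat_lit 4145166377) (nat_lit 532) (nat_lit 5616279997) (nat_lit 177) (nat_lit 5) (nat_lit 183) (nat_lit 5) (nat_lit 184) (nat_lit 5) (nat_lit 399) (nat_lit 345) (nat_lit 276)))) (XT.nd (nat_lit 78) (nat_lit 532) (nat_lit 0) (XT.lf (nat_lit 0) (nat_lit 1722407803) (nat_lit 380) (nat_lit 9805718322) (nat_lit 456) (nat_lit 945170453) (nat_lit 172) (nat_lit 5) (nat_lit 177) (nat_lit 5) (nat_lit 178) (nat_lit 5) (nat_lit 400) (nat_lit 345) (nat_lit 275)) (XT.nd (nat_lit 78) (nat_lit 0) (nat_lit 0) (XT.lf (nat_lit 0) (nat_lit 882717512) (nat_lit 456) (nat_lit 2984722212) (nat_lit 532) (nat_lit 8821987954) (nat_lit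 165) (nat_lit 5) (nat_lit 171) (nat_lit 5) (nat_lit 172) (nat_lit 5) (nat_lit 401) (nat_lit 345) (nat_lit 274)) (XT.lf (nat_lit 0) (nat_lit 8864069059) (nat_lit 532) (nat_lit 1146299) (nat_lit 76) (nat_lit 4045659040) (nat_lit 165) (nat_lit 5) (nat_lit 172) (nat_lit 5) (nat_lit 166) (nat_lit 5) (nat_lit 402) (nat_lit 345) (nat_lit 273))))))))
noncomputable def xc55 : XT := (XT.nd (nat_lit 1716) (nat_lit 760) (nat_lit 0) (XT.nd (nat_lit 858) (nat_lit 2812) (nat_lit 0) (XT.nd (nat_lit 390) (nat_lit 2128) (nat_lit 0) (XT.nd (nat_lit 156) (nat_lit 1216) (nat_lit 0) (XT.nd (nat_lit 78) (nat_lit 380) (nat_lit 0) (XT.lf (nat_lit 0) (nat_lit 914134658) (nat_lit 456) (nat_lit 912849838) (nat_lit 76) (nat_lit 11310794142) (nat_lit 159) (nat_lit 5) (nat_lit 165) (nat_lit 5) (nat_lit 160) (nat_lit 5) (nat_lit 403) (nat_lit 345) (nat_lit 272)) (XT.lf (nat_lit 0) (nat_lit 6034470186) (nat_lit 456) (nat_lit 1903468646)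 (nat_lit 76) (nat_lit 5431711038) (nat_lit 154) (nat_lit 5) (nat_lit 160) (nat_lit 5) (nat_lit 155) (nat_lit 5) (nat_lit 404) (nat_lit 345) (nat_lit 271))) (XT.nd (nat_lit 78) (nat_lit 836) (nat_lit 0) (XT.lf (nat_lit 0) (nat_lit 10681423859) (nat_lit 380) (nat_lit 670337982) (nat_lit 456) (nat_lit 2255854108) (nat_lit 149) (nat_lit 5) (nat_lit 154) (nat_lit 5) (nat_lit 155) (nat_lit 5) (nat_lit 405) (nat_lit 345) (nat_lit 270)) (XT.nd (nat_lit 78) (nat_lit 380) (nat_lit 0) (XT.lf (nat_lit 0) (nat_lit 3014690836) (nat_lit 456) (nat_lit 4035673478) (nat_lit 76) (nat_lit 6800418265) (nat_lit 143) (nat_lit 5) (nat_lit 149) (nat_lit 5) (nat_lit 144) (nat_lit 5) (nat_lit 406) (nat_lit 345) (nat_lit 269)) (XT.lf (nat_lit 0) (nat_lit 8454956947) (nat_lit 456) (nat_lit 5194404359) (nat_lit 76) (nat_lit 450744822) (nat_lit 138) (nat_lit 5) (nat_lit 144) (nat_lit 5) (nat_lit 139) (nat_lit 5) (nat_lit 407) (nat_lit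 345) (nat_lit 268))))) (XT.nd (nat_lit 234) (nat_lit 988) (nat_lit 0) (XT.nd (nat_lit 78) (nat_lit 760) (nat_lit 0) (XT.lf (nat_lit 0) (nat_lit 7924906192) (nat_lit 380) (nat_lit 6217169927) (nat_lit 456) (nat_lit 213165416) (nat_lit 133) (nat_lit 5) (nat_lit 138) (nat_lit 5) (nat_lit 139) (nat_lit 5) (nat_lit 408) (nat_lit 345) (nat_lit 267)) (XT.nd (nat_lit 78) (nat_lit 380) (nat_lit 0) (XT.lf (nat_lit 0) (nat_lit 5359300741) (nat_lit 380) (nat_lit 7745265643) (nat_lit 76) (nat_lit 1511808470) (nat_lit 128) (nat_lit 5) (nat_lit 133) (nat_lit 5) (nat_lit 129) (nat_lit 5) (nat_lit 409) (nat_lit 345) (nat_lit 266)) (XT.lf (nat_lit 0) (nat_lit 5742157704) (nat_lit 380) (nat_lit 5435328734) (nat_lit 456) (nat_lit 3706203394) (nat_lit 123) (nat_lit 5) (nat_lit 128) (nat_lit 5) (nat_lit 129) (nat_lit 5) (nat_lit 410) (nat_lit 345) (nat_lit 265)))) (XT.nd (nat_lit 78) (nat_lit 608) (nat_lit 0) (XT.lf (nat_lit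 0) (nat_lit 2042977075) (nat_lit 380) (nat_lit 10610206196) (nat_lit 76) (nat_lit 2504421055) (nat_lit 118) (nat_lit 5) (nat_lit 123) (nat_lit 5) (nat_lit 119) (nat_lit 5) (nat_lit 411) (nat_lit 345) (nat_lit 264)) (XT.nd (nat_lit 78) (nat_lit 304) (nat_lit 0) (XT.lf (nat_lit 0) (nat_lit 3250614316) (nat_lit 304) (nat_lit 4743604796) (nat_lit 380) (nat_lit 7443432720) (nat_lit 114) (nat_lit 5) (nat_lit 118) (nat_lit 5) (nat_lit 119) (nat_lit 5) (nat_lit 412) (nat_lit 345) (nat_lit 263)) (XT.lf (nat_lit 0) (nat_lit 1886295015) (nat_lit 304) (nat_lit 12304869652) (nat_lit 380) (nat_lit 1533596961) (nat_lit 110) (nat_lit 5) (nat_lit 114) (nat_lit 5) (nat_lit 115) (nat_lit 5) (nat_lit 413) (nat_lit 345) (nat_lit 262)))))) (XT.nd (nat_lit 390) (nat_lit 1520) (nat_lit 0) (XT.nd (nat_lit 156) (nat_lit 912) (nat_lit 0) (XT.nd (nat_lit 78) (nat_lit 0) (nat_lit 0) (XT.lf (nat_lit 0) (nat_lit 410165700) (nat_lit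 304) (nat_lit 4162096309) (nat_lit 380) (nat_lit 11446066435) (nat_lit 105) (nat_lit 5) (nat_lit 109) (nat_lit 5) (nat_lit 110) (nat_lit 5) (nat_lit 414) (nat_lit 345) (nat_lit 261)) (XT.lf (nat_lit 0) (nat_lit 10923918313) (nat_lit 380) (nat_lit 1144237561) (nat_lit 76) (nat_lit 4250678378) (nat_lit 105) (nat_lit 5) (nat_lit 110) (nat_lit 5) (nat_lit 106) (nat_lit 5) (nat_lit 415) (nat_lit 345) (nat_lit 260))) (XT.nd (nat_lit 78) (nat_lit 532) (nat_lit 0) (XT.lf (nat_lit 0) (nat_lit 907677283) (nat_lit 380) (nat_lit 2786307526) (nat_lit 76) (nat_lit 12932647409) (nat_lit 100) (nat_lit 5) (nat_lit 105) (nat_lit 5) (nat_lit 101) (nat_lit 5) (nat_lit 416) (nat_lit 345) (nat_lit 259)) (XT.nd (nat_lit 78) (nat_lit 228) (nat_lit 0) (XT.lf (nat_lit 0) (nat_lit 7410642771) (nat_lit 380) (nat_lit 4561821698) (nat_lit 76) (nat_lit 4968798218) (nat_lit 96) (nat_lit 5) (nat_lit 101) (nat_lit 5) (nat_lit 97) (nat_lit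 5) (nat_lit 417) (nat_lit 345) (nat_lit 258)) (XT.lf (nat_lit 0) (nat_lit 10830507120) (nat_lit 228) (nat_lit 3355842078) (nat_lit 304) (nat_lit 3077433309) (nat_lit 93) (nat_lit 5) (nat_lit 96) (nat_lit 5) (nat_lit 97) (nat_lit 5) (nat_lit 418) (nat_lit 345) (nat_lit 257))))) (XT.nd (nat_lit 234) (nat_lit 608) (nat_lit 0) (XT.nd (nat_lit 78) (nat_lit 532) (nat_lit 0) (XT.lf (nat_lit 0) (nat_lit 3613812270) (nat_lit 380) (nat_lit 8441590502) (nat_lit 76) (nat_lit 5538289442) (nat_lit 88) (nat_lit 5) (nat_lit 93) (nat_lit 5) (nat_lit 89) (nat_lit 5) (nat_lit 419) (nat_lit 345) (nat_lit 256)) (XT.nd (nat_lit 78) (nat_lit 304) (nat_lit 0) (XT.lf (nat_lit 0) (nat_lit 7354463692) (nat_lit 228) (nat_lit 3188409232) (nat_lit 304) (nat_lit 7388644903) (nat_lit 85) (nat_lit 5) (nat_lit 88) (nat_lit 5) (nat_lit 89) (nat_lit 5) (nat_lit 420) (nat_lit 345) (nat_lit 255)) (XT.lf (nat_lit 0) (nat_lit 5435183708)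 (nat_lit 304) (nat_lit 12341165326) (nat_lit 380) (nat_lit 501201418) (nat_lit 81) (nat_lit 5) (nat_lit 85) (nat_lit 5) (nat_lit 86) (nat_lit 5) (nat_lit 421) (nat_lit 345) (nat_lit 254)))) (XT.nd (nat_lit 78) (nat_lit 304) (nat_lit 0) (XT.lf (nat_lit 0) (nat_lit 3361271517) (nat_lit 228) (nat_lit 3225910099) (nat_lit 304) (nat_lit 12044313645) (nat_lit 77) (nat_lit 5) (nat_lit 80) (nat_lit 5) (nat_lit 81) (nat_lit 5) (nat_lit 422) (nat_lit 345) (nat_lit 253)) (XT.nd (nat_lit 78) (nat_lit 76) (nat_lit 0) (XT.lf (nat_lit 0) (nat_lit 1145743118) (nat_lit 228) (nat_lit 12836724524) (nat_lit 304) (nat_lit 5011506175) (nat_lit 74) (nat_lit 5) (nat_lit 77) (nat_lit 5) (nat_lit 78) (nat_lit 5) (nat_lit 423) (nat_lit 345) (nat_lit 252)) (XT.lf (nat_lit 0) (nat_lit 2295110552) (nat_lit 304) (nat_lit 1196142045) (nat_lit 76) (nat_lit 15873944968) (nat_lit 73) (nat_lit 5) (nat_lit 77) (nat_lit 5) (nat_lit 74)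 (nat_lit 5) (nat_lit 424) (nat_lit 345) (nat_lit 251))))))) (XT.nd (nat_lit 47580) (nat_lit 0) (nat_lit 36708) (XT.nd (nat_lit 47112) (nat_lit 0) (nat_lit 44840) (XT.nd (nat_lit 156) (nat_lit 304) (nat_lit 0) (XT.nd (nat_lit 78) (nat_lit 228) (nat_lit 0) (XT.lf (nat_lit 0) (nat_lit 9865551648) (nat_lit 304) (nat_lit 3708872186) (nat_lit 76) (nat_lit 6170220079) (nat_lit 70) (nat_lit 5) (nat_lit 74) (nat_lit 5) (nat_lit 71) (nat_lit 5) (nat_lit 425) (nat_lit 345) (nat_lit 250)) (XT.lf (nat_lit 0) (nat_lit 13767601630) (nat_lit 228) (nat_lit 3984194625) (nat_lit 304) (nat_lit 2381906176) (nat_lit 67) (nat_lit 5) (nat_lit 70) (nat_lit 5) (nat_lit 71) (nat_lit 5) (nat_lit 426) (nat_lit 345) (nat_lit 249))) (XT.nd (nat_lit 46800) (nat_lit 0) (nat_lit 47272) (XT.lf (nat_lit 0) (nat_lit 5376282151) (nat_lit 304) (nat_lit 9227044138) (nat_lit 76) (nat_lit 5928292948) (nat_lit 63) (nat_lit 5) (nat_lit 67) (nat_lit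 5) (nat_lit 64) (nat_lit 5) (nat_lit 427) (nat_lit 345) (nat_lit 248)) (XT.nd (nat_lit 78) (nat_lit 684) (nat_lit 0) (XT.lf (nat_lit 0) (nat_lit 2042825051) (nat_lit 684) (nat_lit 627546558) (nat_lit 684) (nat_lit 627546558) (nat_lit 694) (nat_lit 3) (nat_lit 703) (nat_lit 3) (nat_lit 703) (nat_lit 5) (nat_lit 346) (nat_lit 346) (nat_lit 328)) (XT.lf (nat_lit 0) (nat_lit 1041276627) (nat_lit 684) (nat_lit 3009783961) (nat_lit 760) (nat_lit 2571738895) (nat_lit 685) (nat_lit 5) (nat_lit 694) (nat_lit 3) (nat_lit 695) (nat_lit 5) (nat_lit 347) (nat_lit 346) (nat_lit 327))))) (XT.nd (nat_lit 234) (nat_lit 1672) (nat_lit 0) (XT.nd (nat_lit 78) (nat_lit 760) (nat_lit 0) (XT.lf (nat_lit 76) (nat_lit 1929760560) (nat_lit 0) (nat_lit 2618395939) (nat_lit 760) (nat_lit 2104470137) (nat_lit 686) (nat_lit 5) (nat_lit 685) (nat_lit 5) (nat_lit 695) (nat_lit 5) (nat_lit 348) (nat_lit 346) (nat_lit 326)) (XT.nd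 (nat_lit 78) (nat_lit 0) (nat_lit 76) (XT.lf (nat_lit 76) (nat_lit 296594825) (nat_lit 0) (nat_lit 1047704869) (nat_lit 836) (nat_lit 5341165876) (nat_lit 676) (nat_lit 5) (nat_lit 675) (nat_lit 5) (nat_lit 686) (nat_lit 5) (nat_lit 349) (nat_lit 346) (nat_lit 325)) (XT.lf (nat_lit 0) (nat_lit 4772213989) (nat_lit 760) (nat_lit 1280557198) (nat_lit 836) (nat_lit 668197779) (nat_lit 676) (nat_lit 5) (nat_lit 686) (nat_lit 5) (nat_lit 687) (nat_lit 5) (nat_lit 350) (nat_lit 346) (nat_lit 324)))) (XT.nd (nat_lit 78) (nat_lit 912) (nat_lit 0) (XT.lf (nat_lit 0) (nat_lit 1429190070) (nat_lit 836) (nat_lit 2816063399) (nat_lit 912) (nat_lit 2514043602) (nat_lit 665) (nat_lit 5) (nat_lit 676) (nat_lit 5) (nat_lit 677) (nat_lit 5) (nat_lit 351) (nat_lit 346) (nat_lit 323)) (XT.nd (nat_lit 78) (nat_lit 912) (nat_lit 0) (XT.lf (nat_lit 76) (nat_lit 2488674135) (nat_lit 0) (nat_lit 2292794210) (nat_lit 912) (nat_lit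 2019099336) (nat_lit 666) (nat_lit 5) (nat_lit 665) (nat_lit 5) (nat_lit 677) (nat_lit 5) (nat_lit 352) (nat_lit 346) (nat_lit 322)) (XT.lf (nat_lit 76) (nat_lit 1079379518) (nat_lit 0) (nat_lit 196595701) (nat_lit 988) (nat_lit 5568898663) (nat_lit 654) (nat_lit 5) (nat_lit 653) (nat_lit 5) (nat_lit 666) (nat_lit 5) (nat_lit 353) (nat_lit 346) (nat_lit 321)))))) (XT.nd (nat_lit 390) (nat_lit 6232) (nat_lit 0) (XT.nd (nat_lit 156) (nat_lit 988) (nat_lit 0) (XT.nd (nat_lit 78) (nat_lit 988) (nat_lit 0) (XT.lf (nat_lit 0) (nat_lit 4564970412) (nat_lit 912) (nat_lit 300518579) (nat_lit 988) (nat_lit 2026340040) (nat_lit 654) (nat_lit 5) (nat_lit 666) (nat_lit 5) (nat_lit 667) (nat_lit 5) (nat_lit 354) (nat_lit 346) (nat_lit 320)) (XT.lf (nat_lit 0) (nat_lit 918154339) (nat_lit 988) (nat_lit 1624334224) (nat_lit 1064) (nat_lit 4399227924) (nat_lit 641) (nat_lit 5) (nat_lit 654) (nat_lit 5) (nat_lit 655)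 (nat_lit 5) (nat_lit 355) (nat_lit 346) (nat_lit 319))) (XT.nd (nat_lit 78) (nat_lit 988) (nat_lit 0) (XT.lf (nat_lit 76) (nat_lit 4079068828) (nat_lit 0) (nat_lit 64363586) (nat_lit 1064) (nat_lit 2851103896) (nat_lit 642) (nat_lit 5) (nat_lit 641) (nat_lit 5) (nat_lit 655) (nat_lit 5) (nat_lit 356) (nat_lit 346) (nat_lit 318)) (XT.nd (nat_lit 78) (nat_lit 0) (nat_lit 0) (XT.lf (nat_lit 0) (nat_lit 345412372) (nat_lit 1064) (nat_lit 4179046969) (nat_lit 1140) (nat_lit 2525772628) (nat_lit 628) (nat_lit 5) (nat_lit 642) (nat_lit 5) (nat_lit 643) (nat_lit 5) (nat_lit 357) (nat_lit 346) (nat_lit 317)) (XT.lf (nat_lit 76) (nat_lit 1691388906) (nat_lit 0) (nat_lit 1830147095) (nat_lit 1140) (nat_lit 3587267970) (nat_lit 629) (nat_lit 5) (nat_lit 628) (nat_lit 5) (nat_lit 643) (nat_lit 5) (nat_lit 358) (nat_lit 346) (nat_lit 316))))) (XT.nd (nat_lit 234) (nat_lit 4028) (nat_lit 0) (XT.nd (nat_lit 78) (nat_lit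 1216) (nat_lit 0) (XT.lf (nat_lit 0) (nat_lit 551025266) (nat_lit 1064) (nat_lit 6173970210) (nat_lit 1140) (nat_lit 445527034) (nat_lit 615) (nat_lit 5) (nat_lit 629) (nat_lit 5) (nat_lit 630) (nat_lit 5) (nat_lit 359) (nat_lit 346) (nat_lit 315)) (XT.nd (nat_lit 78) (nat_lit 1140) (nat_lit 0) (XT.lf (nat_lit 0) (nat_lit 2698782720) (nat_lit 1140) (nat_lit 567912242) (nat_lit 76) (nat_lit 3968165965) (nat_lit 614) (nat_lit 5) (nat_lit 629) (nat_lit 5) (nat_lit 615) (nat_lit 5) (nat_lit 360) (nat_lit 346) (nat_lit 314)) (XT.lf (nat_lit 0) (nat_lit 5662104856) (nat_lit 1140) (nat_lit 204819640) (nat_lit 1216) (nat_lit 1435463100) (nat_lit 599) (nat_lit 5) (nat_lit 614) (nat_lit 5) (nat_lit 615) (nat_lit 5) (nat_lit 361) (nat_lit 346) (nat_lit 313)))) (XT.nd (nat_lit 78) (nat_lit 2736) (nat_lit 0) (XT.lf (nat_lit 0) (nat_lit 1689601801) (nat_lit 1292) (nat_lit 2702180107) (nat_lit 76) (nat_lit 2980866807)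 (nat_lit 582) (nat_lit 5) (nat_lit 599) (nat_lit 5) (nat_lit 583) (nat_lit 5) (nat_lit 362) (nat_lit 346) (nat_lit 312)) (XT.nd (nat_lit 78) (nat_lit 1444) (nat_lit 0) (XT.lf (nat_lit 0) (nat_lit 3710370775) (nat_lit 1292) (nat_lit 1118431263) (nat_lit 1368) (nat_lit 2617254127) (nat_lit 565) (nat_lit 5) (nat_lit 582) (nat_lit 5) (nat_lit 583) (nat_lit 5) (nat_lit 363) (nat_lit 346) (nat_lit 311)) (XT.lf (nat_lit 0) (nat_lit 489796175) (nat_lit 1444) (nat_lit 4749402409) (nat_lit 76) (nat_lit 2283294341) (nat_lit 546) (nat_lit 5) (nat_lit 565) (nat_lit 5) (nat_lit 547) (nat_lit 5) (nat_lit 364) (nat_lit 346) (nat_lit 310))))))))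
noncomputable def xc56 : XT := (XT.nd (nat_lit 1716) (nat_lit 10184) (nat_lit 0) (XT.nd (nat_lit 858) (nat_lit 7524) (nat_lit 0) (XT.nd (nat_lit 390) (nat_lit 6916) (nat_lit 0) (XT.nd (nat_lit 156) (nat_lit 3420) (nat_lit 0) (XT.nd (nat_lit 78) (nat_lit 1520) (nat_lit 0) (XT.lf (nat_lit 0) (nat_lit 1850374708) (nat_lit 1444) (nat_lit 1756528408) (nat_lit 1520) (nat_lit 3994949610) (nat_lit 527) (nat_lit 5) (nat_lit 546) (nat_lit 5) (nat_lit 547) (nat_lit 5) (nat_lit 365) (nat_lit 346) (nat_lit 309)) (XT.lf (nat_lit 0) (nat_lit 953625532) (nat_lit 1520) (nat_lit 5823912574) (nat_lit 1596) (nat_lit 906878226) (nat_lit 507) (nat_lit 5) (nat_lit 527) (nat_lit 5) (nat_lit 528) (nat_lit 5) (nat_lit 366) (nat_lit 346) (nat_lit 308))) (XT.nd (nat_lit 78) (nat_lit 1748) (nat_lit 0) (XT.lf (nat_lit 0) (nat_lit 67100330) (nat_lit 1596) (nat_lit 2139404331) (nat_lit 1672) (nat_lit 5563429283) (nat_lit 485) (nat_lit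 5) (nat_lit 506) (nat_lit 5) (nat_lit 507) (nat_lit 5) (nat_lit 367) (nat_lit 346) (nat_lit 307)) (XT.nd (nat_lit 78) (nat_lit 1748) (nat_lit 0) (XT.lf (nat_lit 0) (nat_lit 5370947506) (nat_lit 1672) (nat_lit 790686413) (nat_lit 76) (nat_lit 1696885227) (nat_lit 485) (nat_lit 5) (nat_lit 507) (nat_lit 5) (nat_lit 486) (nat_lit 5) (nat_lit 368) (nat_lit 346) (nat_lit 306)) (XT.lf (nat_lit 0) (nat_lit 642553452) (nat_lit 1748) (nat_lit 1632420710) (nat_lit 76) (nat_lit 5675301520) (nat_lit 462) (nat_lit 5) (nat_lit 485) (nat_lit 5) (nat_lit 463) (nat_lit 5) (nat_lit 369) (nat_lit 346) (nat_lit 305))))) (XT.nd (nat_lit 234) (nat_lit 2736) (nat_lit 0) (XT.nd (nat_lit 78) (nat_lit 2432) (nat_lit 0) (XT.lf (nat_lit 0) (nat_lit 3803487108) (nat_lit 1824) (nat_lit 2469714476) (nat_lit 76) (nat_lit 1771860356) (nat_lit 439) (nat_lit 5) (nat_lit 463) (nat_lit 5) (nat_lit 440) (nat_lit 5) (nat_lit 370) (nat_lit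 346) (nat_lit 304)) (XT.nd (nat_lit 78) (nat_lit 988) (nat_lit 0) (XT.lf (nat_lit 0) (nat_lit 4851940471) (nat_lit 1444) (nat_lit 2184318293) (nat_lit 1520) (nat_lit 1106912146) (nat_lit 420) (nat_lit 5) (nat_lit 439) (nat_lit 5) (nat_lit 440) (nat_lit 5) (nat_lit 371) (nat_lit 346) (nat_lit 303)) (XT.lf (nat_lit 0) (nat_lit 2071800701) (nat_lit 988) (nat_lit 4110047744) (nat_lit 76) (nat_lit 2062560817) (nat_lit 407) (nat_lit 5) (nat_lit 420) (nat_lit 5) (nat_lit 408) (nat_lit 5) (nat_lit 372) (nat_lit 346) (nat_lit 302)))) (XT.nd (nat_lit 78) (nat_lit 1824) (nat_lit 0) (XT.lf (nat_lit 0) (nat_lit 3426467832) (nat_lit 912) (nat_lit 1886103918) (nat_lit 988) (nat_lit 3036349832) (nat_lit 395) (nat_lit 5) (nat_lit 407) (nat_lit 5) (nat_lit 408) (nat_lit 5) (nat_lit 373) (nat_lit 346) (nat_lit 301)) (XT.nd (nat_lit 78) (nat_lit 836) (nat_lit 0) (XT.lf (nat_lit 0) (nat_lit 177733057) (nat_lit 988) (nat_lit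 5725692876) (nat_lit 76) (nat_lit 2553409530) (nat_lit 382) (nat_lit 5) (nat_lit 395) (nat_lit 5) (nat_lit 383) (nat_lit 5) (nat_lit 374) (nat_lit 346) (nat_lit 300)) (XT.lf (nat_lit 0) (nat_lit 2031984546) (nat_lit 836) (nat_lit 1399966529) (nat_lit 912) (nat_lit 5135951490) (nat_lit 371) (nat_lit 5) (nat_lit 382) (nat_lit 5) (nat_lit 383) (nat_lit 5) (nat_lit 375) (nat_lit 346) (nat_lit 299)))))) (XT.nd (nat_lit 390) (nat_lit 4256) (nat_lit 0) (XT.nd (nat_lit 156) (nat_lit 1596) (nat_lit 0) (XT.nd (nat_lit 78) (nat_lit 836) (nat_lit 0) (XT.lf (nat_lit 0) (nat_lit 1339358248) (nat_lit 836) (nat_lit 5440241032) (nat_lit 912) (nat_lit 1902802347) (nat_lit 360) (nat_lit 5) (nat_lit 371) (nat_lit 5) (nat_lit 372) (nat_lit 5) (nat_lit 376) (nat_lit 346) (nat_lit 298)) (XT.lf (nat_lit 0) (nat_lit 654672533) (nat_lit 760) (nat_lit 740320127) (nat_lit 836) (nat_lit 7405445484) (nat_lit 349) (nat_lit 5) (nat_lit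 359) (nat_lit 5) (nat_lit 360) (nat_lit 5) (nat_lit 377) (nat_lit 346) (nat_lit 297))) (XT.nd (nat_lit 78) (nat_lit 1596) (nat_lit 0) (XT.lf (nat_lit 0) (nat_lit 4772483370) (nat_lit 836) (nat_lit 43923501) (nat_lit 76) (nat_lit 4105239870) (nat_lit 349) (nat_lit 5) (nat_lit 360) (nat_lit 5) (nat_lit 350) (nat_lit 5) (nat_lit 378) (nat_lit 346) (nat_lit 296)) (XT.nd (nat_lit 78) (nat_lit 836) (nat_lit 0) (XT.lf (nat_lit 0) (nat_lit 8242722783) (nat_lit 836) (nat_lit 715819549) (nat_lit 76) (nat_lit 88135160) (nat_lit 339) (nat_lit 5) (nat_lit 350) (nat_lit 5) (nat_lit 340) (nat_lit 5) (nat_lit 379) (nat_lit 346) (nat_lit 295)) (XT.lf (nat_lit 0) (nat_lit 2623343333) (nat_lit 836) (nat_lit 1414531695) (nat_lit 76) (nat_lit 5136927233) (nat_lit 328) (nat_lit 5) (nat_lit 339) (nat_lit 5) (nat_lit 329) (nat_lit 5) (nat_lit 380) (nat_lit 346) (nat_lit 294))))) (XT.nd (nat_lit 234) (nat_lit 2052) (nat_lit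 0) (XT.nd (nat_lit 78) (nat_lit 1444) (nat_lit 0) (XT.lf (nat_lit 0) (nat_lit 6135608188) (nat_lit 836) (nat_lit 2104702603) (nat_lit 76) (nat_lit 1066505574) (nat_lit 318) (nat_lit 5) (nat_lit 329) (nat_lit 5) (nat_lit 319) (nat_lit 5) (nat_lit 381) (nat_lit 346) (nat_lit 293)) (XT.nd (nat_lit 78) (nat_lit 684) (nat_lit 0) (XT.lf (nat_lit 0) (nat_lit 321925185) (nat_lit 760) (nat_lit 2804257703) (nat_lit 76) (nat_lit 6316269400) (nat_lit 308) (nat_lit 5) (nat_lit 318) (nat_lit 5) (nat_lit 309) (nat_lit 5) (nat_lit 382) (nat_lit 346) (nat_lit 292)) (XT.lf (nat_lit 0) (nat_lit 3881815575) (nat_lit 760) (nat_lit 3520925545) (nat_lit 76) (nat_lit 2178908266) (nat_lit 299) (nat_lit 5) (nat_lit 309) (nat_lit 5) (nat_lit 300) (nat_lit 5) (nat_lit 383) (nat_lit 346) (nat_lit 291)))) (XT.nd (nat_lit 78) (nat_lit 1368) (nat_lit 0) (XT.lf (nat_lit 0) (nat_lit 5482932146) (nat_lit 684) (nat_lit 2079178945) (nat_lit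 760) (nat_lit 2162651055) (nat_lit 290) (nat_lit 5) (nat_lit 299) (nat_lit 5) (nat_lit 300) (nat_lit 5) (nat_lit 384) (nat_lit 346) (nat_lit 290)) (XT.nd (nat_lit 78) (nat_lit 608) (nat_lit 0) (XT.lf (nat_lit 0) (nat_lit 1478515742) (nat_lit 760) (nat_lit 4979425035) (nat_lit 76) (nat_lit 3413700841) (nat_lit 280) (nat_lit 5) (nat_lit 290) (nat_lit 5) (nat_lit 281) (nat_lit 5) (nat_lit 385) (nat_lit 346) (nat_lit 289)) (XT.lf (nat_lit 0) (nat_lit 4290790588) (nat_lit 608) (nat_lit 919745220) (nat_lit 684) (nat_lit 4811896772) (nat_lit 272) (nat_lit 5) (nat_lit 280) (nat_lit 5) (nat_lit 281) (nat_lit 5) (nat_lit 386) (nat_lit 346) (nat_lit 288))))))) (XT.nd (nat_lit 858) (nat_lit 4408) (nat_lit 0) (XT.nd (nat_lit 390) (nat_lit 2660) (nat_lit 0) (XT.nd (nat_lit 156) (nat_lit 1824) (nat_lit 0) (XT.nd (nat_lit 78) (nat_lit 684) (nat_lit 0) (XT.lf (nat_lit 0) (nat_lit 3674264479) (nat_lit 608) (nat_lit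 5410465958) (nat_lit 684) (nat_lit 1092423249) (nat_lit 264) (nat_lit 5) (nat_lit 272) (nat_lit 5) (nat_lit 273) (nat_lit 5) (nat_lit 387) (nat_lit 346) (nat_lit 287)) (XT.lf (nat_lit 0) (nat_lit 2712135153) (nat_lit 684) (nat_lit 7289800718) (nat_lit 76) (nat_lit 334046745) (nat_lit 255) (nat_lit 5) (nat_lit 264) (nat_lit 5) (nat_lit 256) (nat_lit 5) (nat_lit 388) (nat_lit 346) (nat_lit 286))) (XT.nd (nat_lit 78) (nat_lit 1216) (nat_lit 0) (XT.lf (nat_lit 0) (nat_lit 2387268781) (nat_lit 608) (nat_lit 4268150897) (nat_lit 684) (nat_lit 3843233577) (nat_lit 247) (nat_lit 5) (nat_lit 255) (nat_lit 5) (nat_lit 256) (nat_lit 5) (nat_lit 389) (nat_lit 346) (nat_lit 285)) (XT.nd (nat_lit 78) (nat_lit 608) (nat_lit 0) (XT.lf (nat_lit 0) (nat_lit 66206165) (nat_lit 608) (nat_lit 8937546827) (nat_lit 76) (nat_lit 1662132356) (nat_lit 239) (nat_lit 5) (nat_lit 247) (nat_lit 5) (nat_lit 240) (nat_lit 5) (nat_lit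 390) (nat_lit 346) (nat_lit 284)) (XT.lf (nat_lit 0) (nat_lit 1024358233) (nat_lit 608) (nat_lit 3052361226) (nat_lit 684) (nat_lit 6760195905) (nat_lit 231) (nat_lit 5) (nat_lit 239) (nat_lit 5) (nat_lit 240) (nat_lit 5) (nat_lit 391) (nat_lit 346) (nat_lit 283))))) (XT.nd (nat_lit 234) (nat_lit 1520) (nat_lit 0) (XT.nd (nat_lit 78) (nat_lit 608) (nat_lit 0) (XT.lf (nat_lit 0) (nat_lit 307721750) (nat_lit 532) (nat_lit 7928983703) (nat_lit 608) (nat_lit 2775796547) (nat_lit 224) (nat_lit 5) (nat_lit 231) (nat_lit 5) (nat_lit 232) (nat_lit 5) (nat_lit 392) (nat_lit 346) (nat_lit 282)) (XT.nd (nat_lit 78) (nat_lit 532) (nat_lit 0) (XT.lf (nat_lit 0) (nat_lit 1345027302) (nat_lit 608) (nat_lit 426655688) (nat_lit 76) (nat_lit 9420822998) (nat_lit 223) (nat_lit 5) (nat_lit 231) (nat_lit 5) (nat_lit 224) (nat_lit 5) (nat_lit 393) (nat_lit 346) (nat_lit 281)) (XT.lf (nat_lit 0) (nat_lit 5596875189) (nat_lit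 608) (nat_lit 1201276733) (nat_lit 76) (nat_lit 4578497175) (nat_lit 216) (nat_lit 5) (nat_lit 224) (nat_lit 5) (nat_lit 217) (nat_lit 5) (nat_lit 394) (nat_lit 346) (nat_lit 280)))) (XT.nd (nat_lit 78) (nat_lit 1064) (nat_lit 0) (XT.lf (nat_lit 0) (nat_lit 9580027736) (nat_lit 456) (nat_lit 422664689) (nat_lit 532) (nat_lit 1563103750) (nat_lit 210) (nat_lit 5) (nat_lit 216) (nat_lit 5) (nat_lit 217) (nat_lit 5) (nat_lit 395) (nat_lit 346) (nat_lit 279)) (XT.nd (nat_lit 78) (nat_lit 456) (nat_lit 0) (XT.lf (nat_lit 0) (nat_lit 2800535529) (nat_lit 608) (nat_lit 2828283834) (nat_lit 76) (nat_lit 6130306273) (nat_lit 202) (nat_lit 5) (nat_lit 210) (nat_lit 5) (nat_lit 203) (nat_lit 5) (nat_lit 396) (nat_lit 346) (nat_lit 278)) (XT.lf (nat_lit 0) (nat_lit 7301428266) (nat_lit 532) (nat_lit 3692814417) (nat_lit 76) (nat_lit 963261390) (nat_lit 196) (nat_lit 5) (nat_lit 203) (nat_lit 5) (nat_lit 197) (nat_lit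 5) (nat_lit 397) (nat_lit 346) (nat_lit 277)))))) (XT.nd (nat_lit 390) (nat_lit 2052) (nat_lit 0) (XT.nd (nat_lit 156) (nat_lit 1368) (nat_lit 0) (XT.nd (nat_lit 78) (nat_lit 532) (nat_lit 0) (XT.lf (nat_lit 0) (nat_lit 7561274844) (nat_lit 456) (nat_lit 4434016374) (nat_lit 532) (nat_lit 165390914) (nat_lit 190) (nat_lit 5) (nat_lit 196) (nat_lit 5) (nat_lit 197) (nat_lit 5) (nat_lit 398) (nat_lit 346) (nat_lit 276)) (XT.lf (nat_lit 0) (nat_lit 4439205733) (nat_lit 532) (nat_lit 5557427134) (nat_lit 76) (nat_lit 2371996610) (nat_lit 183) (nat_lit 5) (nat_lit 190) (nat_lit 5) (nat_lit 184) (nat_lit 5) (nat_lit 399) (nat_lit 346) (nat_lit 275))) (XT.nd (nat_lit 78) (nat_lit 912) (nat_lit 0) (XT.lf (nat_lit 0) (nat_lit 6025871157) (nat_lit 456) (nat_lit 3207371544) (nat_lit 532) (nat_lit 3348486282) (nat_lit 177) (nat_lit 5) (nat_lit 183) (nat_lit 5) (nat_lit 184) (nat_lit 5) (nat_lit 400) (nat_lit 346)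 (nat_lit 274)) (XT.nd (nat_lit 78) (nat_lit 456) (nat_lit 0) (XT.lf (nat_lit 0) (nat_lit 1402732145) (nat_lit 456) (nat_lit 7600476783) (nat_lit 76) (nat_lit 3796824560) (nat_lit 171) (nat_lit 5) (nat_lit 177) (nat_lit 5) (nat_lit 172) (nat_lit 5) (nat_lit 401) (nat_lit 346) (nat_lit 273)) (XT.lf (nat_lit 0) (nat_lit 4319575162) (nat_lit 456) (nat_lit 1980680419) (nat_lit 532) (nat_lit 6723209746) (nat_lit 165) (nat_lit 5) (nat_lit 171) (nat_lit 5) (nat_lit 172) (nat_lit 5) (nat_lit 402) (nat_lit 346) (nat_lit 272))))) (XT.nd (nat_lit 234) (nat_lit 836) (nat_lit 0) (XT.nd (nat_lit 78) (nat_lit 836) (nat_lit 0) (XT.lf (nat_lit 0) (nat_lit 3392753787) (nat_lit 380) (nat_lit 8015472084) (nat_lit 456) (nat_lit 1844109745) (nat_lit 160) (nat_lit 5) (nat_lit 165) (nat_lit 5) (nat_lit 166) (nat_lit 5) (nat_lit 403) (nat_lit 346) (nat_lit 271)) (XT.nd (nat_lit 78) (nat_lit 380) (nat_lit 0) (XT.lf (nat_lit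 0) (nat_lit 2416433013) (nat_lit 380) (nat_lit 767636699) (nat_lit 456) (nat_lit 10302706211) (nat_lit 154) (nat_lit 5) (nat_lit 159) (nat_lit 5) (nat_lit 160) (nat_lit 5) (nat_lit 404) (nat_lit 346) (nat_lit 270)) (XT.lf (nat_lit 0) (nat_lit 1365243934) (nat_lit 380) (nat_lit 7049388104) (nat_lit 456) (nat_lit 5311847245) (nat_lit 149) (nat_lit 5) (nat_lit 154) (nat_lit 5) (nat_lit 155) (nat_lit 5) (nat_lit 405) (nat_lit 346) (nat_lit 269)))) (XT.nd (nat_lit 78) (nat_lit 456) (nat_lit 0) (XT.lf (nat_lit 0) (nat_lit 284517108) (nat_lit 380) (nat_lit 13559945397) (nat_lit 456) (nat_lit 128069522) (nat_lit 144) (nat_lit 5) (nat_lit 149) (nat_lit 5) (nat_lit 150) (nat_lit 5) (nat_lit 406) (nat_lit 346) (nat_lit 268)) (XT.nd (nat_lit 78) (nat_lit 380) (nat_lit 0) (XT.lf (nat_lit 0) (nat_lit 5232422162) (nat_lit 456) (nat_lit 891316915) (nat_lit 76) (nat_lit 8099764699) (nat_lit 143) (nat_lit 5) (nat_lit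 149) (nat_lit 5) (nat_lit 144) (nat_lit 5) (nat_lit 407) (nat_lit 346) (nat_lit 267)) (XT.lf (nat_lit 0) (nat_lit 10802106121) (nat_lit 456) (nat_lit 2103127067) (nat_lit 76) (nat_lit 1575757116) (nat_lit 138) (nat_lit 5) (nat_lit 144) (nat_lit 5) (nat_lit 139) (nat_lit 5) (nat_lit 408) (nat_lit 346) (nat_lit 266))))))))
noncomputable def xc57 : XT := (XT.nd (nat_lit 48516) (nat_lit 0) (nat_lit 26828) (XT.nd (nat_lit 858) (nat_lit 1976) (nat_lit 0) (XT.nd (nat_lit 390) (nat_lit 1596) (nat_lit 0) (XT.nd (nat_lit 156) (nat_lit 1064) (nat_lit 0) (XT.nd (nat_lit 78) (nat_lit 304) (nat_lit 0) (XT.lf (nat_lit 0) (nat_lit 1850420626) (nat_lit 456) (nat_lit 3399683247) (nat_lit 76) (nat_lit 9494244384) (nat_lit 132) (nat_lit 5) (nat_lit 138) (nat_lit 5) (nat_lit 133) (nat_lit 5) (nat_lit 409) (nat_lit 346) (nat_lit 265)) (XT.lf (nat_lit 0) (nat_lit 7554972326) (nat_lit 380) (nat_lit 4774399843) (nat_lit 76)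 (nat_lit 2684565979) (nat_lit 128) (nat_lit 5) (nat_lit 133) (nat_lit 5) (nat_lit 129) (nat_lit 5) (nat_lit 410) (nat_lit 346) (nat_lit 264))) (XT.nd (nat_lit 78) (nat_lit 684) (nat_lit 0) (XT.lf (nat_lit 0) (nat_lit 9065677705) (nat_lit 380) (nat_lit 4443217212) (nat_lit 456) (nat_lit 1781160531) (nat_lit 123) (nat_lit 5) (nat_lit 128) (nat_lit 5) (nat_lit 129) (nat_lit 5) (nat_lit 411) (nat_lit 346) (nat_lit 263)) (XT.nd (nat_lit 78) (nat_lit 304) (nat_lit 0) (XT.lf (nat_lit 0) (nat_lit 4083061237) (nat_lit 380) (nat_lit 7769757388) (nat_lit 76) (nat_lit 3719725293) (nat_lit 118) (nat_lit 5) (nat_lit 123) (nat_lit 5) (nat_lit 119) (nat_lit 5) (nat_lit 412) (nat_lit 346) (nat_lit 262)) (XT.lf (nat_lit 0) (nat_lit 6455640692) (nat_lit 304) (nat_lit 3719741045) (nat_lit 380) (nat_lit 5686366482) (nat_lit 114) (nat_lit 5) (nat_lit 118) (nat_lit 5) (nat_lit 119) (nat_lit 5) (nat_lit 413) (nat_lit 346)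 (nat_lit 261))))) (XT.nd (nat_lit 234) (nat_lit 608) (nat_lit 0) (XT.nd (nat_lit 78) (nat_lit 608) (nat_lit 0) (XT.lf (nat_lit 0) (nat_lit 366166206) (nat_lit 380) (nat_lit 11129541807) (nat_lit 76) (nat_lit 4662303992) (nat_lit 109) (nat_lit 5) (nat_lit 114) (nat_lit 5) (nat_lit 110) (nat_lit 5) (nat_lit 414) (nat_lit 346) (nat_lit 260)) (XT.nd (nat_lit 78) (nat_lit 304) (nat_lit 0) (XT.lf (nat_lit 0) (nat_lit 3485775556) (nat_lit 304) (nat_lit 3112528054) (nat_lit 380) (nat_lit 9862606433) (nat_lit 105) (nat_lit 5) (nat_lit 109) (nat_lit 5) (nat_lit 110) (nat_lit 5) (nat_lit 415) (nat_lit 346) (nat_lit 259)) (XT.lf (nat_lit 0) (nat_lit 1849229998) (nat_lit 304) (nat_lit 11255673384) (nat_lit 380) (nat_lit 3666245322) (nat_lit 101) (nat_lit 5) (nat_lit 105) (nat_lit 5) (nat_lit 106) (nat_lit 5) (nat_lit 416) (nat_lit 346) (nat_lit 258)))) (XT.nd (nat_lit 78) (nat_lit 228) (nat_lit 0) (XT.lf (nat_lit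 0) (nat_lit 110717456) (nat_lit 304) (nat_lit 2643868874) (nat_lit 380) (nat_lit 14334274976) (nat_lit 96) (nat_lit 5) (nat_lit 100) (nat_lit 5) (nat_lit 101) (nat_lit 5) (nat_lit 417) (nat_lit 346) (nat_lit 257)) (XT.nd (nat_lit 78) (nat_lit 228) (nat_lit 0) (XT.lf (nat_lit 0) (nat_lit 9425410823) (nat_lit 380) (nat_lit 1739415651) (nat_lit 76) (nat_lit 6248653952) (nat_lit 96) (nat_lit 5) (nat_lit 101) (nat_lit 5) (nat_lit 97) (nat_lit 5) (nat_lit 418) (nat_lit 346) (nat_lit 256)) (XT.lf (nat_lit 0) (nat_lit 14066672543) (nat_lit 228) (nat_lit 2304410421) (nat_lit 304) (nat_lit 1375263970) (nat_lit 93) (nat_lit 5) (nat_lit 96) (nat_lit 5) (nat_lit 97) (nat_lit 5) (nat_lit 419) (nat_lit 346) (nat_lit 255)))))) (XT.nd (nat_lit 390) (nat_lit 532) (nat_lit 0) (XT.nd (nat_lit 156) (nat_lit 836) (nat_lit 0) (XT.nd (nat_lit 78) (nat_lit 228) (nat_lit 0) (XT.lf (nat_lit 0) (nat_lit 5467810515) (nat_lit 380)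 (nat_lit 5780046846) (nat_lit 76) (nat_lit 6838575763) (nat_lit 88) (nat_lit 5) (nat_lit 93) (nat_lit 5) (nat_lit 89) (nat_lit 5) (nat_lit 420) (nat_lit 346) (nat_lit 254)) (XT.lf (nat_lit 0) (nat_lit 10442599947) (nat_lit 228) (nat_lit 2129918520) (nat_lit 304) (nat_lit 5862524136) (nat_lit 85) (nat_lit 5) (nat_lit 88) (nat_lit 5) (nat_lit 89) (nat_lit 5) (nat_lit 421) (nat_lit 346) (nat_lit 253))) (XT.nd (nat_lit 78) (nat_lit 456) (nat_lit 0) (XT.lf (nat_lit 0) (nat_lit 1191085667) (nat_lit 380) (nat_lit 10354069409) (nat_lit 76) (nat_lit 7246631699) (nat_lit 80) (nat_lit 5) (nat_lit 85) (nat_lit 5) (nat_lit 81) (nat_lit 5) (nat_lit 422) (nat_lit 346) (nat_lit 252)) (XT.nd (nat_lit 78) (nat_lit 228) (nat_lit 0) (XT.lf (nat_lit 0) (nat_lit 6285760391) (nat_lit 228) (nat_lit 2168391611) (nat_lit 304) (nat_lit 10702759101) (nat_lit 77) (nat_lit 5) (nat_lit 80) (nat_lit 5) (nat_lit 81) (nat_lit 5) (nat_lit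 423) (nat_lit 346) (nat_lit 251)) (XT.lf (nat_lit 0) (nat_lit 3983567944) (nat_lit 228) (nat_lit 12064584719) (nat_lit 304) (nat_lit 3482578365) (nat_lit 74) (nat_lit 5) (nat_lit 77) (nat_lit 5) (nat_lit 78) (nat_lit 5) (nat_lit 424) (nat_lit 346) (nat_lit 250))))) (XT.nd (nat_lit 47034) (nat_lit 0) (nat_lit 46132) (XT.nd (nat_lit 78) (nat_lit 228) (nat_lit 0) (XT.lf (nat_lit 0) (nat_lit 1531370102) (nat_lit 228) (nat_lit 2451516075) (nat_lit 304) (nat_lit 15930757721) (nat_lit 70) (nat_lit 5) (nat_lit 73) (nat_lit 5) (nat_lit 74) (nat_lit 5) (nat_lit 425) (nat_lit 346) (nat_lit 249)) (XT.nd (nat_lit 78) (nat_lit 228) (nat_lit 0) (XT.lf (nat_lit 0) (nat_lit 11748423157) (nat_lit 304) (nat_lit 1096879391) (nat_lit 76) (nat_lit 7459815257) (nat_lit 70) (nat_lit 5) (nat_lit 74) (nat_lit 5) (nat_lit 71) (nat_lit 5) (nat_lit 426) (nat_lit 346) (nat_lit 248)) (XT.lf (nat_lit 0) (nat_lit 16859706999) (nat_lit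 228) (nat_lit 2982721918) (nat_lit 304) (nat_lit 863999393) (nat_lit 67) (nat_lit 5) (nat_lit 70) (nat_lit 5) (nat_lit 71) (nat_lit 5) (nat_lit 427) (nat_lit 346) (nat_lit 247)))) (XT.nd (nat_lit 78) (nat_lit 836) (nat_lit 0) (XT.lf (nat_lit 0) (nat_lit 1118508104) (nat_lit 0) (nat_lit 1118508104) (nat_lit 684) (nat_lit 1088571436) (nat_lit 685) (nat_lit 5) (nat_lit 685) (nat_lit 3) (nat_lit 694) (nat_lit 3) (nat_lit 347) (nat_lit 347) (nat_lit 326)) (XT.nd (nat_lit 78) (nat_lit 0) (nat_lit 76) (XT.lf (nat_lit 76) (nat_lit 473439605) (nat_lit 0) (nat_lit 723456354) (nat_lit 836) (nat_lit 5485678790) (nat_lit 675) (nat_lit 5) (nat_lit 674) (nat_lit 3) (nat_lit 685) (nat_lit 5) (nat_lit 348) (nat_lit 347) (nat_lit 325)) (XT.lf (nat_lit 0) (nat_lit 4546551367) (nat_lit 760) (nat_lit 1237596901) (nat_lit 836) (nat_lit 932443584) (nat_lit 675) (nat_lit 5) (nat_lit 685) (nat_lit 5) (nat_lit 686) (nat_lit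 5) (nat_lit 349) (nat_lit 347) (nat_lit 324))))))) (XT.nd (nat_lit 858) (nat_lit 14668) (nat_lit 0) (XT.nd (nat_lit 390) (nat_lit 2052) (nat_lit 0) (XT.nd (nat_lit 156) (nat_lit 1824) (nat_lit 0) (XT.nd (nat_lit 78) (nat_lit 0) (nat_lit 0) (XT.lf (nat_lit 0) (nat_lit 1130053639) (nat_lit 836) (nat_lit 2901306033) (nat_lit 912) (nat_lit 2722122696) (nat_lit 664) (nat_lit 5) (nat_lit 675) (nat_lit 5) (nat_lit 676) (nat_lit 5) (nat_lit 350) (nat_lit 347) (nat_lit 323)) (XT.lf (nat_lit 76) (nat_lit 2265721908) (nat_lit 0) (nat_lit 2131793129) (nat_lit 912) (nat_lit 2395760450) (nat_lit 665) (nat_lit 5) (nat_lit 664) (nat_lit 5) (nat_lit 676) (nat_lit 5) (nat_lit 351) (nat_lit 347) (nat_lit 322))) (XT.nd (nat_lit 78) (nat_lit 912) (nat_lit 0) (XT.lf (nat_lit 76) (nat_lit 726735786) (nat_lit 0) (nat_lit 91218278) (nat_lit 988) (nat_lit 6018197590) (nat_lit 653) (nat_lit 5) (nat_lit 652) (nat_lit 5) (nat_lit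 665) (nat_lit 5) (nat_lit 352) (nat_lit 347) (nat_lit 321)) (XT.nd (nat_lit 78) (nat_lit 988) (nat_lit 0) (XT.lf (nat_lit 0) (nat_lit 4020009238) (nat_lit 912) (nat_lit 780218734) (nat_lit 988) (nat_lit 2081316540) (nat_lit 653) (nat_lit 5) (nat_lit 665) (nat_lit 5) (nat_lit 666) (nat_lit 5) (nat_lit 353) (nat_lit 347) (nat_lit 320)) (XT.lf (nat_lit 0) (nat_lit 299082416) (nat_lit 988) (nat_lit 2231890011) (nat_lit 1064) (nat_lit 4399023668) (nat_lit 640) (nat_lit 5) (nat_lit 653) (nat_lit 5) (nat_lit 654) (nat_lit 5) (nat_lit 354) (nat_lit 347) (nat_lit 319))))) (XT.nd (nat_lit 234) (nat_lit 1064) (nat_lit 0) (XT.nd (nat_lit 78) (nat_lit 988) (nat_lit 0) (XT.lf (nat_lit 76) (nat_lit 3325922599) (nat_lit 0) (nat_lit 102850580) (nat_lit 1064) (nat_lit 3552521024) (nat_lit 641) (nat_lit 5) (nat_lit 640) (nat_lit 5) (nat_lit 654) (nat_lit 5) (nat_lit 355) (nat_lit 347) (nat_lit 318)) (XT.nd (nat_lit 78)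 (nat_lit 1064) (nat_lit 0) (XT.lf (nat_lit 76) (nat_lit 1985986455) (nat_lit 0) (nat_lit 4599196171) (nat_lit 1064) (nat_lit 450324987) (nat_lit 642) (nat_lit 5) (nat_lit 641) (nat_lit 5) (nat_lit 655) (nat_lit 5) (nat_lit 356) (nat_lit 347) (nat_lit 317)) (XT.lf (nat_lit 76) (nat_lit 674037387) (nat_lit 0) (nat_lit 1956060992) (nat_lit 1140) (nat_lit 4462500705) (nat_lit 628) (nat_lit 5) (nat_lit 627) (nat_lit 5) (nat_lit 642) (nat_lit 5) (nat_lit 357) (nat_lit 347) (nat_lit 316)))) (XT.nd (nat_lit 78) (nat_lit 1140) (nat_lit 0) (XT.lf (nat_lit 0) (nat_lit 5730374954) (nat_lit 1064) (nat_lit 593625272) (nat_lit 1140) (nat_lit 828702785) (nat_lit 628) (nat_lit 5) (nat_lit 642) (nat_lit 5) (nat_lit 643) (nat_lit 5) (nat_lit 358) (nat_lit 347) (nat_lit 315)) (XT.nd (nat_lit 78) (nat_lit 0) (nat_lit 0) (XT.lf (nat_lit 0) (nat_lit 1631526523) (nat_lit 1140) (nat_lit 1833747194) (nat_lit 1216) (nat_lit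 3750245544) (nat_lit 613) (nat_lit 5) (nat_lit 628) (nat_lit 5) (nat_lit 629) (nat_lit 5) (nat_lit 359) (nat_lit 347) (nat_lit 314)) (XT.lf (nat_lit 76) (nat_lit 4239275457) (nat_lit 0) (nat_lit 449118362) (nat_lit 1216) (nat_lit 2593051840) (nat_lit 614) (nat_lit 5) (nat_lit 613) (nat_lit 5) (nat_lit 629) (nat_lit 5) (nat_lit 360) (nat_lit 347) (nat_lit 313)))))) (XT.nd (nat_lit 390) (nat_lit 9576) (nat_lit 0) (XT.nd (nat_lit 156) (nat_lit 2736) (nat_lit 0) (XT.nd (nat_lit 78) (nat_lit 1216) (nat_lit 0) (XT.lf (nat_lit 0) (nat_lit 432615336) (nat_lit 1216) (nat_lit 4231321943) (nat_lit 76) (nat_lit 2686348143) (nat_lit 598) (nat_lit 5) (nat_lit 614) (nat_lit 5) (nat_lit 599) (nat_lit 5) (nat_lit 361) (nat_lit 347) (nat_lit 312)) (XT.lf (nat_lit 0) (nat_lit 2019433206) (nat_lit 1216) (nat_lit 1434905072) (nat_lit 1292) (nat_lit 3967724975) (nat_lit 582) (nat_lit 5) (nat_lit 598) (nat_lit 5) (nat_lit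 599) (nat_lit 5) (nat_lit 362) (nat_lit 347) (nat_lit 311))) (XT.nd (nat_lit 78) (nat_lit 1444) (nat_lit 0) (XT.lf (nat_lit 0) (nat_lit 946909885) (nat_lit 1292) (nat_lit 5573038783) (nat_lit 1368) (nat_lit 977006256) (nat_lit 565) (nat_lit 5) (nat_lit 582) (nat_lit 5) (nat_lit 583) (nat_lit 5) (nat_lit 363) (nat_lit 347) (nat_lit 310)) (XT.nd (nat_lit 78) (nat_lit 1368) (nat_lit 0) (XT.lf (nat_lit 0) (nat_lit 2029882383) (nat_lit 1368) (nat_lit 109282545) (nat_lit 76) (nat_lit 5435598581) (nat_lit 564) (nat_lit 5) (nat_lit 582) (nat_lit 5) (nat_lit 565) (nat_lit 5) (nat_lit 364) (nat_lit 347) (nat_lit 309)) (XT.lf (nat_lit 0) (nat_lit 5075992268) (nat_lit 1444) (nat_lit 1132597288) (nat_lit 76) (nat_lit 1446965177) (nat_lit 546) (nat_lit 5) (nat_lit 565) (nat_lit 5) (nat_lit 547) (nat_lit 5) (nat_lit 365) (nat_lit 347) (nat_lit 308))))) (XT.nd (nat_lit 234) (nat_lit 4940) (nat_lit 0) (XT.nd (nat_lit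 78) (nat_lit 3116) (nat_lit 0) (XT.lf (nat_lit 0) (nat_lit 432217169) (nat_lit 1520) (nat_lit 2138172917) (nat_lit 76) (nat_lit 5169065601) (nat_lit 526) (nat_lit 5) (nat_lit 546) (nat_lit 5) (nat_lit 527) (nat_lit 5) (nat_lit 366) (nat_lit 347) (nat_lit 307)) (XT.nd (nat_lit 78) (nat_lit 1596) (nat_lit 0) (XT.lf (nat_lit 0) (nat_lit 3459893112) (nat_lit 1596) (nat_lit 3135219540) (nat_lit 76) (nat_lit 1231229757) (nat_lit 506) (nat_lit 5) (nat_lit 527) (nat_lit 5) (nat_lit 507) (nat_lit 5) (nat_lit 367) (nat_lit 347) (nat_lit 306)) (XT.lf (nat_lit 0) (nat_lit 3799032177) (nat_lit 1596) (nat_lit 2751988613) (nat_lit 1672) (nat_lit 1365383424) (nat_lit 485) (nat_lit 5) (nat_lit 506) (nat_lit 5) (nat_lit 507) (nat_lit 5) (nat_lit 368) (nat_lit 347) (nat_lit 305)))) (XT.nd (nat_lit 78) (nat_lit 3192) (nat_lit 0) (XT.lf (nat_lit 0) (nat_lit 1669328184) (nat_lit 1748) (nat_lit 5087940396) (nat_lit 76) (nat_lit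 1252370172) (nat_lit 462) (nat_lit 5) (nat_lit 485) (nat_lit 5) (nat_lit 463) (nat_lit 5) (nat_lit 369) (nat_lit 347) (nat_lit 304)) (XT.nd (nat_lit 78) (nat_lit 1444) (nat_lit 0) (XT.lf (nat_lit 0) (nat_lit 2049368536) (nat_lit 1748) (nat_lit 2706657380) (nat_lit 1824) (nat_lit 3349893332) (nat_lit 439) (nat_lit 5) (nat_lit 462) (nat_lit 5) (nat_lit 463) (nat_lit 5) (nat_lit 370) (nat_lit 347) (nat_lit 303)) (XT.lf (nat_lit 0) (nat_lit 1198592523) (nat_lit 1444) (nat_lit 6710248498) (nat_lit 1520) (nat_lit 296795570) (nat_lit 420) (nat_lit 5) (nat_lit 439) (nat_lit 5) (nat_lit 440) (nat_lit 5) (nat_lit 371) (nat_lit 347) (nat_lit 302))))))))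
noncomputable def xc58 : XT := (XT.nd (nat_lit 1716) (nat_lit 8740) (nat_lit 0) (XT.nd (nat_lit 858) (nat_lit 6460) (nat_lit 0) (XT.nd (nat_lit 390) (nat_lit 4712) (nat_lit 0) (XT.nd (nat_lit 156) (nat_lit 2736) (nat_lit 0) (XT.nd (nat_lit 78) (nat_lit 0) (nat_lit 0) (XT.lf (nat_lit 0) (nat_lit 341099972) (nat_lit 912) (nat_lit 2453877691) (nat_lit 988) (nat_lit 5513327177) (nat_lit 407) (nat_lit 5) (nat_lit 419) (nat_lit 5) (nat_lit 420) (nat_lit 5) (nat_lit 372) (nat_lit 347) (nat_lit 301)) (XT.lf (nat_lit 0) (nat_lit 5960430179) (nat_lit 988) (nat_lit 495970496) (nat_lit 76) (nat_lit 1957931396) (nat_lit 407) (nat_lit 5) (nat_lit 420) (nat_lit 5) (nat_lit 408) (nat_lit 5) (nat_lit 373) (nat_lit 347) (nat_lit 300))) (XT.nd (nat_lit 78) (nat_lit 1748) (nat_lit 0) (XT.lf (nat_lit 0) (nat_lit 678077222) (nat_lit 988) (nat_lit 1322211984) (nat_lit 76) (nat_lit 6523378541) (nat_lit 394) (nat_lit 5) (nat_lit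 407) (nat_lit 5) (nat_lit 395) (nat_lit 5) (nat_lit 374) (nat_lit 347) (nat_lit 299)) (XT.nd (nat_lit 78) (nat_lit 836) (nat_lit 0) (XT.lf (nat_lit 0) (nat_lit 3861654610) (nat_lit 988) (nat_lit 2155868408) (nat_lit 76) (nat_lit 2618632535) (nat_lit 382) (nat_lit 5) (nat_lit 395) (nat_lit 5) (nat_lit 383) (nat_lit 5) (nat_lit 375) (nat_lit 347) (nat_lit 298)) (XT.lf (nat_lit 0) (nat_lit 5773836398) (nat_lit 836) (nat_lit 1356418178) (nat_lit 912) (nat_lit 1621988667) (nat_lit 371) (nat_lit 5) (nat_lit 382) (nat_lit 5) (nat_lit 383) (nat_lit 5) (nat_lit 376) (nat_lit 347) (nat_lit 297))))) (XT.nd (nat_lit 234) (nat_lit 2280) (nat_lit 0) (XT.nd (nat_lit 78) (nat_lit 1520) (nat_lit 0) (XT.lf (nat_lit 0) (nat_lit 1604990639) (nat_lit 912) (nat_lit 3810679803) (nat_lit 76) (nat_lit 3455922802) (nat_lit 359) (nat_lit 5) (nat_lit 371) (nat_lit 5) (nat_lit 360) (nat_lit 5) (nat_lit 377) (nat_lit 347) (nat_lit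 296)) (XT.nd (nat_lit 78) (nat_lit 760) (nat_lit 0) (XT.lf (nat_lit 0) (nat_lit 4353566783) (nat_lit 760) (nat_lit 543253907) (nat_lit 836) (nat_lit 4097701447) (nat_lit 349) (nat_lit 5) (nat_lit 359) (nat_lit 5) (nat_lit 360) (nat_lit 5) (nat_lit 378) (nat_lit 347) (nat_lit 295)) (XT.lf (nat_lit 0) (nat_lit 3641114157) (nat_lit 760) (nat_lit 4658768645) (nat_lit 836) (nat_lit 821020507) (nat_lit 339) (nat_lit 5) (nat_lit 349) (nat_lit 5) (nat_lit 350) (nat_lit 5) (nat_lit 379) (nat_lit 347) (nat_lit 294)))) (XT.nd (nat_lit 78) (nat_lit 1444) (nat_lit 0) (XT.lf (nat_lit 0) (nat_lit 2512340332) (nat_lit 836) (nat_lit 6322374113) (nat_lit 76) (nat_lit 416205612) (nat_lit 328) (nat_lit 5) (nat_lit 339) (nat_lit 5) (nat_lit 329) (nat_lit 5) (nat_lit 380) (nat_lit 347) (nat_lit 293)) (XT.nd (nat_lit 78) (nat_lit 684) (nat_lit 0) (XT.lf (nat_lit 0) (nat_lit 2200518353) (nat_lit 760) (nat_lit 3753129102)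 (nat_lit 836) (nat_lit 3430712214) (nat_lit 318) (nat_lit 5) (nat_lit 328) (nat_lit 5) (nat_lit 329) (nat_lit 5) (nat_lit 381) (nat_lit 347) (nat_lit 292)) (XT.lf (nat_lit 0) (nat_lit 1482697270) (nat_lit 684) (nat_lit 8015428993) (nat_lit 760) (nat_lit 23690078) (nat_lit 309) (nat_lit 5) (nat_lit 318) (nat_lit 5) (nat_lit 319) (nat_lit 5) (nat_lit 382) (nat_lit 347) (nat_lit 291)))))) (XT.nd (nat_lit 390) (nat_lit 3648) (nat_lit 0) (XT.nd (nat_lit 156) (nat_lit 2052) (nat_lit 0) (XT.nd (nat_lit 78) (nat_lit 0) (nat_lit 0) (XT.lf (nat_lit 0) (nat_lit 735525479) (nat_lit 684) (nat_lit 2721690194) (nat_lit 760) (nat_lit 6205392620) (nat_lit 299) (nat_lit 5) (nat_lit 308) (nat_lit 5) (nat_lit 309) (nat_lit 5) (nat_lit 383) (nat_lit 347) (nat_lit 290)) (XT.lf (nat_lit 0) (nat_lit 7054577096) (nat_lit 760) (nat_lit 12541026) (nat_lit 76) (nat_lit 2740267313) (nat_lit 299) (nat_lit 5) (nat_lit 309) (nat_lit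 5) (nat_lit 300) (nat_lit 5) (nat_lit 384) (nat_lit 347) (nat_lit 289))) (XT.nd (nat_lit 78) (nat_lit 1292) (nat_lit 0) (XT.lf (nat_lit 0) (nat_lit 812422655) (nat_lit 760) (nat_lit 758672927) (nat_lit 76) (nat_lit 8384924901) (nat_lit 289) (nat_lit 5) (nat_lit 299) (nat_lit 5) (nat_lit 290) (nat_lit 5) (nat_lit 385) (nat_lit 347) (nat_lit 288)) (XT.nd (nat_lit 78) (nat_lit 608) (nat_lit 0) (XT.lf (nat_lit 0) (nat_lit 4472728097) (nat_lit 760) (nat_lit 1535576401) (nat_lit 76) (nat_lit 4099946508) (nat_lit 280) (nat_lit 5) (nat_lit 290) (nat_lit 5) (nat_lit 281) (nat_lit 5) (nat_lit 386) (nat_lit 347) (nat_lit 287)) (XT.lf (nat_lit 0) (nat_lit 7954449780) (nat_lit 608) (nat_lit 299291969) (nat_lit 684) (nat_lit 2011099096) (nat_lit 272) (nat_lit 5) (nat_lit 280) (nat_lit 5) (nat_lit 281) (nat_lit 5) (nat_lit 387) (nat_lit 347) (nat_lit 286))))) (XT.nd (nat_lit 234) (nat_lit 1748) (nat_lit 0) (XT.nd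 (nat_lit 78) (nat_lit 1216) (nat_lit 0) (XT.lf (nat_lit 0) (nat_lit 1738621313) (nat_lit 684) (nat_lit 3121540815) (nat_lit 76) (nat_lit 5564969540) (nat_lit 263) (nat_lit 5) (nat_lit 272) (nat_lit 5) (nat_lit 264) (nat_lit 5) (nat_lit 388) (nat_lit 347) (nat_lit 285)) (XT.nd (nat_lit 78) (nat_lit 608) (nat_lit 0) (XT.lf (nat_lit 0) (nat_lit 5587064161) (nat_lit 684) (nat_lit 3945695619) (nat_lit 76) (nat_lit 1056944086) (nat_lit 255) (nat_lit 5) (nat_lit 264) (nat_lit 5) (nat_lit 256) (nat_lit 5) (nat_lit 389) (nat_lit 347) (nat_lit 284)) (XT.lf (nat_lit 0) (nat_lit 5963883782) (nat_lit 608) (nat_lit 3626154234) (nat_lit 684) (nat_lit 1168402973) (nat_lit 247) (nat_lit 5) (nat_lit 255) (nat_lit 5) (nat_lit 256) (nat_lit 5) (nat_lit 390) (nat_lit 347) (nat_lit 283)))) (XT.nd (nat_lit 78) (nat_lit 1140) (nat_lit 0) (XT.lf (nat_lit 0) (nat_lit 2769271457) (nat_lit 608) (nat_lit 5671836548) (nat_lit 76)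 (nat_lit 2490282342) (nat_lit 239) (nat_lit 5) (nat_lit 247) (nat_lit 5) (nat_lit 240) (nat_lit 5) (nat_lit 391) (nat_lit 347) (nat_lit 282)) (XT.nd (nat_lit 78) (nat_lit 532) (nat_lit 0) (XT.lf (nat_lit 0) (nat_lit 4531593362) (nat_lit 608) (nat_lit 2312406354) (nat_lit 684) (nat_lit 4264686664) (nat_lit 231) (nat_lit 5) (nat_lit 239) (nat_lit 5) (nat_lit 240) (nat_lit 5) (nat_lit 392) (nat_lit 347) (nat_lit 281)) (XT.lf (nat_lit 0) (nat_lit 3784215530) (nat_lit 532) (nat_lit 7295284881) (nat_lit 608) (nat_lit 211038626) (nat_lit 224) (nat_lit 5) (nat_lit 231) (nat_lit 5) (nat_lit 232) (nat_lit 5) (nat_lit 393) (nat_lit 347) (nat_lit 280))))))) (XT.nd (nat_lit 858) (nat_lit 3800) (nat_lit 0) (XT.nd (nat_lit 390) (nat_lit 2812) (nat_lit 0) (XT.nd (nat_lit 156) (nat_lit 1064) (nat_lit 0) (XT.nd (nat_lit 78) (nat_lit 456) (nat_lit 0) (XT.lf (nat_lit 0) (nat_lit 3000289483) (nat_lit 532) (nat_lit 941755307)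 (nat_lit 608) (nat_lit 7534699324) (nat_lit 216) (nat_lit 5) (nat_lit 223) (nat_lit 5) (nat_lit 224) (nat_lit 5) (nat_lit 394) (nat_lit 347) (nat_lit 279)) (XT.lf (nat_lit 0) (nat_lit 2181024614) (nat_lit 456) (nat_lit 6088510206) (nat_lit 532) (nat_lit 3397926721) (nat_lit 210) (nat_lit 5) (nat_lit 216) (nat_lit 5) (nat_lit 217) (nat_lit 5) (nat_lit 395) (nat_lit 347) (nat_lit 278))) (XT.nd (nat_lit 78) (nat_lit 456) (nat_lit 0) (XT.lf (nat_lit 0) (nat_lit 879202952) (nat_lit 608) (nat_lit 10515805830) (nat_lit 76) (nat_lit 468235571) (nat_lit 202) (nat_lit 5) (nat_lit 210) (nat_lit 5) (nat_lit 203) (nat_lit 5) (nat_lit 396) (nat_lit 347) (nat_lit 277)) (XT.nd (nat_lit 78) (nat_lit 0) (nat_lit 0) (XT.lf (nat_lit 0) (nat_lit 448465407) (nat_lit 456) (nat_lit 4851091390) (nat_lit 532) (nat_lit 6763680287) (nat_lit 196) (nat_lit 5) (nat_lit 202) (nat_lit 5) (nat_lit 203) (nat_lit 5) (nat_lit 397) (nat_lit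 347) (nat_lit 276)) (XT.lf (nat_lit 0) (nat_lit 9889833615) (nat_lit 532) (nat_lit 460798316) (nat_lit 76) (nat_lit 1917858348) (nat_lit 196) (nat_lit 5) (nat_lit 203) (nat_lit 5) (nat_lit 197) (nat_lit 5) (nat_lit 398) (nat_lit 347) (nat_lit 275))))) (XT.nd (nat_lit 234) (nat_lit 1368) (nat_lit 0) (XT.nd (nat_lit 78) (nat_lit 912) (nat_lit 0) (XT.lf (nat_lit 0) (nat_lit 2169297534) (nat_lit 532) (nat_lit 1416318141) (nat_lit 76) (nat_lit 8892825994) (nat_lit 189) (nat_lit 5) (nat_lit 196) (nat_lit 5) (nat_lit 190) (nat_lit 5) (nat_lit 399) (nat_lit 347) (nat_lit 274)) (XT.nd (nat_lit 78) (nat_lit 456) (nat_lit 0) (XT.lf (nat_lit 0) (nat_lit 6869257495) (nat_lit 532) (nat_lit 2418245296) (nat_lit 76) (nat_lit 3405923078) (nat_lit 183) (nat_lit 5) (nat_lit 190) (nat_lit 5) (nat_lit 184) (nat_lit 5) (nat_lit 400) (nat_lit 347) (nat_lit 273)) (XT.lf (nat_lit 0) (nat_lit 9458917568) (nat_lit 456) (nat_lit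 2302414611) (nat_lit 532) (nat_lit 1152511316) (nat_lit 177) (nat_lit 5) (nat_lit 183) (nat_lit 5) (nat_lit 184) (nat_lit 5) (nat_lit 401) (nat_lit 347) (nat_lit 272)))) (XT.nd (nat_lit 78) (nat_lit 912) (nat_lit 0) (XT.lf (nat_lit 0) (nat_lit 3672629878) (nat_lit 456) (nat_lit 4560871253) (nat_lit 76) (nat_lit 4905676728) (nat_lit 171) (nat_lit 5) (nat_lit 177) (nat_lit 5) (nat_lit 172) (nat_lit 5) (nat_lit 402) (nat_lit 347) (nat_lit 271)) (XT.nd (nat_lit 78) (nat_lit 456) (nat_lit 0) (XT.lf (nat_lit 0) (nat_lit 7663769001) (nat_lit 456) (nat_lit 1009293537) (nat_lit 532) (nat_lit 4697139193) (nat_lit 165) (nat_lit 5) (nat_lit 171) (nat_lit 5) (nat_lit 172) (nat_lit 5) (nat_lit 403) (nat_lit 347) (nat_lit 270)) (XT.lf (nat_lit 0) (nat_lit 287441405) (nat_lit 456) (nat_lit 6914904484) (nat_lit 76) (nat_lit 6404289655) (nat_lit 159) (nat_lit 5) (nat_lit 165) (nat_lit 5) (nat_lit 160) (nat_lit 5) (nat_lit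 404) (nat_lit 347) (nat_lit 269)))))) (XT.nd (nat_lit 390) (nat_lit 1824) (nat_lit 0) (XT.nd (nat_lit 156) (nat_lit 1216) (nat_lit 0) (XT.nd (nat_lit 78) (nat_lit 380) (nat_lit 0) (XT.lf (nat_lit 0) (nat_lit 5400927867) (nat_lit 456) (nat_lit 8185755380) (nat_lit 76) (nat_lit 261999788) (nat_lit 154) (nat_lit 5) (nat_lit 160) (nat_lit 5) (nat_lit 155) (nat_lit 5) (nat_lit 405) (nat_lit 347) (nat_lit 268)) (XT.lf (nat_lit 0) (nat_lit 4565661728) (nat_lit 380) (nat_lit 6186456166) (nat_lit 456) (nat_lit 3344193233) (nat_lit 149) (nat_lit 5) (nat_lit 154) (nat_lit 5) (nat_lit 155) (nat_lit 5) (nat_lit 406) (nat_lit 347) (nat_lit 267))) (XT.nd (nat_lit 78) (nat_lit 760) (nat_lit 0) (XT.lf (nat_lit 0) (nat_lit 1935149116) (nat_lit 456) (nat_lit 10927481659) (nat_lit 76) (nat_lit 1487538730) (nat_lit 143) (nat_lit 5) (nat_lit 149) (nat_lit 5) (nat_lit 144) (nat_lit 5) (nat_lit 407) (nat_lit 347) (nat_lit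 266)) (XT.nd (nat_lit 78) (nat_lit 380) (nat_lit 0) (XT.lf (nat_lit 0) (nat_lit 2188625709) (nat_lit 380) (nat_lit 5220154546) (nat_lit 456) (nat_lit 7200799182) (nat_lit 138) (nat_lit 5) (nat_lit 143) (nat_lit 5) (nat_lit 144) (nat_lit 5) (nat_lit 408) (nat_lit 347) (nat_lit 265)) (XT.lf (nat_lit 0) (nat_lit 906378494) (nat_lit 380) (nat_lit 12199000594) (nat_lit 456) (nat_lit 1770222026) (nat_lit 133) (nat_lit 5) (nat_lit 138) (nat_lit 5) (nat_lit 139) (nat_lit 5) (nat_lit 409) (nat_lit 347) (nat_lit 264))))) (XT.nd (nat_lit 234) (nat_lit 988) (nat_lit 0) (XT.nd (nat_lit 78) (nat_lit 760) (nat_lit 0) (XT.lf (nat_lit 0) (nat_lit 3854374598) (nat_lit 456) (nat_lit 464500944) (nat_lit 76) (nat_lit 10828610937) (nat_lit 132) (nat_lit 5) (nat_lit 138) (nat_lit 5) (nat_lit 133) (nat_lit 5) (nat_lit 410) (nat_lit 347) (nat_lit 263)) (XT.nd (nat_lit 78) (nat_lit 456) (nat_lit 0) (XT.lf (nat_lit 0) (nat_lit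 9699702900) (nat_lit 380) (nat_lit 1898286216) (nat_lit 76) (nat_lit 3827788654) (nat_lit 128) (nat_lit 5) (nat_lit 133) (nat_lit 5) (nat_lit 129) (nat_lit 5) (nat_lit 411) (nat_lit 347) (nat_lit 262)) (XT.lf (nat_lit 0) (nat_lit 83634288) (nat_lit 456) (nat_lit 3403458390) (nat_lit 76) (nat_lit 12223812844) (nat_lit 122) (nat_lit 5) (nat_lit 128) (nat_lit 5) (nat_lit 123) (nat_lit 5) (nat_lit 412) (nat_lit 347) (nat_lit 261)))) (XT.nd (nat_lit 78) (nat_lit 684) (nat_lit 0) (XT.lf (nat_lit 0) (nat_lit 6070757005) (nat_lit 380) (nat_lit 5025420575) (nat_lit 76) (nat_lit 4906038143) (nat_lit 118) (nat_lit 5) (nat_lit 123) (nat_lit 5) (nat_lit 119) (nat_lit 5) (nat_lit 413) (nat_lit 347) (nat_lit 260)) (XT.nd (nat_lit 78) (nat_lit 380) (nat_lit 0) (XT.lf (nat_lit 0) (nat_lit 9578434190) (nat_lit 304) (nat_lit 2732104419) (nat_lit 380) (nat_lit 3990269552) (nat_lit 114) (nat_lit 5) (nat_lit 118) (nat_lit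 5) (nat_lit 119) (nat_lit 5) (nat_lit 414) (nat_lit 347) (nat_lit 259)) (XT.lf (nat_lit 0) (nat_lit 2191699476) (nat_lit 380) (nat_lit 8528351274) (nat_lit 76) (nat_lit 5886225425) (nat_lit 109) (nat_lit 5) (nat_lit 114) (nat_lit 5) (nat_lit 110) (nat_lit 5) (nat_lit 415) (nat_lit 347) (nat_lit 258))))))))
noncomputable def xc59 : XT := (XT.nd (nat_lit 48594) (nat_lit 0) (nat_lit 21432) (XT.nd (nat_lit 858) (nat_lit 228) (nat_lit 0) (XT.nd (nat_lit 390) (nat_lit 1672) (nat_lit 0) (XT.nd (nat_lit 156) (nat_lit 684) (nat_lit 0) (XT.nd (nat_lit 78) (nat_lit 304) (nat_lit 0) (XT.lf (nat_lit 0) (nat_lit 6477807475) (nat_lit 304) (nat_lit 2098889902) (nat_lit 380) (nat_lit 8342251244) (nat_lit 105) (nat_lit 5) (nat_lit 109) (nat_lit 5) (nat_lit 110) (nat_lit 5) (nat_lit 416) (nat_lit 347) (nat_lit 257)) (XT.lf (nat_lit 0) (nat_lit 4773457197) (nat_lit 304) (nat_lit 10478784291) (nat_lit 380) (nat_lit 1986783267)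 (nat_lit 101) (nat_lit 5) (nat_lit 105) (nat_lit 5) (nat_lit 106) (nat_lit 5) (nat_lit 417) (nat_lit 347) (nat_lit 256))) (XT.nd (nat_lit 78) (nat_lit 304) (nat_lit 0) (XT.lf (nat_lit 0) (nat_lit 2959503799) (nat_lit 304) (nat_lit 1610738906) (nat_lit 380) (nat_lit 12996457883) (nat_lit 96) (nat_lit 5) (nat_lit 100) (nat_lit 5) (nat_lit 101) (nat_lit 5) (nat_lit 418) (nat_lit 347) (nat_lit 255)) (XT.nd (nat_lit 78) (nat_lit 76) (nat_lit 0) (XT.lf (nat_lit 0) (nat_lit 1011048997) (nat_lit 228) (nat_lit 10393243427) (nat_lit 304) (nat_lit 6497508686) (nat_lit 93) (nat_lit 5) (nat_lit 96) (nat_lit 5) (nat_lit 97) (nat_lit 5) (nat_lit 419) (nat_lit 347) (nat_lit 254)) (XT.lf (nat_lit 0) (nat_lit 271353107) (nat_lit 304) (nat_lit 1014397434) (nat_lit 76) (nat_lit 16959631228) (nat_lit 92) (nat_lit 5) (nat_lit 96) (nat_lit 5) (nat_lit 93) (nat_lit 5) (nat_lit 420) (nat_lit 347) (nat_lit 253))))) (XT.nd (nat_lit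 234) (nat_lit 760) (nat_lit 0) (XT.nd (nat_lit 78) (nat_lit 608) (nat_lit 0) (XT.lf (nat_lit 0) (nat_lit 7277225051) (nat_lit 380) (nat_lit 3205977829) (nat_lit 76) (nat_lit 8112766534) (nat_lit 88) (nat_lit 5) (nat_lit 93) (nat_lit 5) (nat_lit 89) (nat_lit 5) (nat_lit 421) (nat_lit 347) (nat_lit 252)) (XT.nd (nat_lit 78) (nat_lit 380) (nat_lit 0) (XT.lf (nat_lit 0) (nat_lit 13458773924) (nat_lit 228) (nat_lit 1105925616) (nat_lit 304) (nat_lit 4390949475) (nat_lit 85) (nat_lit 5) (nat_lit 88) (nat_lit 5) (nat_lit 89) (nat_lit 5) (nat_lit 422) (nat_lit 347) (nat_lit 251)) (XT.lf (nat_lit 0) (nat_lit 2829752143) (nat_lit 380) (nat_lit 7959237082) (nat_lit 76) (nat_lit 8534354691) (nat_lit 80) (nat_lit 5) (nat_lit 85) (nat_lit 5) (nat_lit 81) (nat_lit 5) (nat_lit 423) (nat_lit 347) (nat_lit 250)))) (XT.nd (nat_lit 78) (nat_lit 532) (nat_lit 0) (XT.lf (nat_lit 0) (nat_lit 9135894828) (nat_lit 228) (nat_lit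 1145408869) (nat_lit 304) (nat_lit 9418710426) (nat_lit 77) (nat_lit 5) (nat_lit 80) (nat_lit 5) (nat_lit 81) (nat_lit 5) (nat_lit 424) (nat_lit 347) (nat_lit 249)) (XT.nd (nat_lit 78) (nat_lit 304) (nat_lit 0) (XT.lf (nat_lit 0) (nat_lit 6745597871) (nat_lit 228) (nat_lit 11335711118) (nat_lit 304) (nat_lit 2004179861) (nat_lit 74) (nat_lit 5) (nat_lit 77) (nat_lit 5) (nat_lit 78) (nat_lit 5) (nat_lit 425) (nat_lit 347) (nat_lit 248)) (XT.lf (nat_lit 0) (nat_lit 4197510461) (nat_lit 228) (nat_lit 1438491997) (nat_lit 304) (nat_lit 14844254543) (nat_lit 70) (nat_lit 5) (nat_lit 73) (nat_lit 5) (nat_lit 74) (nat_lit 5) (nat_lit 426) (nat_lit 347) (nat_lit 247)))))) (XT.nd (nat_lit 47268) (nat_lit 0) (nat_lit 42484) (XT.nd (nat_lit 47034) (nat_lit 0) (nat_lit 44384) (XT.nd (nat_lit 46956) (nat_lit 0) (nat_lit 46132) (XT.lf (nat_lit 0) (nat_lit 1456245910) (nat_lit 228) (nat_lit 12149894978) (nat_lit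 304) (nat_lit 7277905130) (nat_lit 67) (nat_lit 5) (nat_lit 70) (nat_lit 5) (nat_lit 71) (nat_lit 5) (nat_lit 427) (nat_lit 347) (nat_lit 246)) (XT.lf (nat_lit 0) (nat_lit 2235677596) (nat_lit 836) (nat_lit 560944498) (nat_lit 836) (nat_lit 560944498) (nat_lit 674) (nat_lit 3) (nat_lit 685) (nat_lit 3) (nat_lit 685) (nat_lit 5) (nat_lit 348) (nat_lit 348) (nat_lit 324))) (XT.nd (nat_lit 78) (nat_lit 912) (nat_lit 0) (XT.lf (nat_lit 0) (nat_lit 980559033) (nat_lit 836) (nat_lit 2914703452) (nat_lit 912) (nat_lit 2855313637) (nat_lit 663) (nat_lit 5) (nat_lit 674) (nat_lit 3) (nat_lit 675) (nat_lit 5) (nat_lit 349) (nat_lit 348) (nat_lit 323)) (XT.nd (nat_lit 78) (nat_lit 912) (nat_lit 0) (XT.lf (nat_lit 76) (nat_lit 2117629991) (nat_lit 0) (nat_lit 2049663462) (nat_lit 912) (nat_lit 2621608939) (nat_lit 664) (nat_lit 5) (nat_lit 663) (nat_lit 5) (nat_lit 675) (nat_lit 5) (nat_lit 350) (nat_lit 348)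 (nat_lit 322)) (XT.lf (nat_lit 76) (nat_lit 448073946) (nat_lit 0) (nat_lit 64781678) (nat_lit 988) (nat_lit 6317484906) (nat_lit 652) (nat_lit 5) (nat_lit 651) (nat_lit 5) (nat_lit 664) (nat_lit 5) (nat_lit 351) (nat_lit 348) (nat_lit 321))))) (XT.nd (nat_lit 234) (nat_lit 988) (nat_lit 0) (XT.nd (nat_lit 78) (nat_lit 988) (nat_lit 0) (XT.lf (nat_lit 0) (nat_lit 3631130316) (nat_lit 912) (nat_lit 1186236097) (nat_lit 988) (nat_lit 2056837641) (nat_lit 652) (nat_lit 5) (nat_lit 664) (nat_lit 5) (nat_lit 665) (nat_lit 5) (nat_lit 352) (nat_lit 348) (nat_lit 320)) (XT.nd (nat_lit 78) (nat_lit 988) (nat_lit 0) (XT.lf (nat_lit 76) (nat_lit 4153507836) (nat_lit 0) (nat_lit 2600801034) (nat_lit 988) (nat_lit 166883121) (nat_lit 653) (nat_lit 5) (nat_lit 652) (nat_lit 5) (nat_lit 665) (nat_lit 5) (nat_lit 353) (nat_lit 348) (nat_lit 319)) (XT.lf (nat_lit 76) (nat_lit 2648768897) (nat_lit 0) (nat_lit 224876061)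 (nat_lit 1064) (nat_lit 4097360384) (nat_lit 640) (nat_lit 5) (nat_lit 639) (nat_lit 5) (nat_lit 653) (nat_lit 5) (nat_lit 354) (nat_lit 348) (nat_lit 318)))) (XT.nd (nat_lit 78) (nat_lit 1064) (nat_lit 0) (XT.lf (nat_lit 76) (nat_lit 1175260117) (nat_lit 0) (nat_lit 4758127120) (nat_lit 1064) (nat_lit 1090331399) (nat_lit 641) (nat_lit 5) (nat_lit 640) (nat_lit 5) (nat_lit 654) (nat_lit 5) (nat_lit 355) (nat_lit 348) (nat_lit 317)) (XT.nd (nat_lit 78) (nat_lit 0) (nat_lit 76) (XT.lf (nat_lit 0) (nat_lit 1902931055) (nat_lit 1064) (nat_lit 263826683) (nat_lit 1140) (nat_lit 4912579449) (nat_lit 626) (nat_lit 5) (nat_lit 640) (nat_lit 5) (nat_lit 641) (nat_lit 5) (nat_lit 356) (nat_lit 348) (nat_lit 316)) (XT.lf (nat_lit 0) (nat_lit 4905204435) (nat_lit 1064) (nat_lit 1655216457) (nat_lit 1140) (nat_lit 577409152) (nat_lit 627) (nat_lit 5) (nat_lit 641) (nat_lit 5) (nat_lit 642) (nat_lit 5) (nat_lit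 357) (nat_lit 348) (nat_lit 315))))))) (XT.nd (nat_lit 858) (nat_lit 10336) (nat_lit 0) (XT.nd (nat_lit 390) (nat_lit 8512) (nat_lit 0) (XT.nd (nat_lit 156) (nat_lit 1140) (nat_lit 0) (XT.nd (nat_lit 78) (nat_lit 0) (nat_lit 0) (XT.lf (nat_lit 0) (nat_lit 729399709) (nat_lit 1140) (nat_lit 3024529206) (nat_lit 1216) (nat_lit 3445265581) (nat_lit 612) (nat_lit 5) (nat_lit 627) (nat_lit 5) (nat_lit 628) (nat_lit 5) (nat_lit 358) (nat_lit 348) (nat_lit 314)) (XT.lf (nat_lit 76) (nat_lit 2894848972) (nat_lit 0) (nat_lit 784638639) (nat_lit 1216) (nat_lit 3584054539) (nat_lit 613) (nat_lit 5) (nat_lit 612) (nat_lit 5) (nat_lit 628) (nat_lit 5) (nat_lit 359) (nat_lit 348) (nat_lit 313))) (XT.nd (nat_lit 78) (nat_lit 1216) (nat_lit 0) (XT.lf (nat_lit 76) (nat_lit 1641297427) (nat_lit 0) (nat_lit 5024808604) (nat_lit 1216) (nat_lit 664780941) (nat_lit 614) (nat_lit 5) (nat_lit 613) (nat_lit 5) (nat_lit 629)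 (nat_lit 5) (nat_lit 360) (nat_lit 348) (nat_lit 312)) (XT.nd (nat_lit 78) (nat_lit 0) (nat_lit 76) (XT.lf (nat_lit 76) (nat_lit 407104358) (nat_lit 0) (nat_lit 1845672107) (nat_lit 1292) (nat_lit 5148369077) (nat_lit 598) (nat_lit 5) (nat_lit 597) (nat_lit 5) (nat_lit 614) (nat_lit 5) (nat_lit 361) (nat_lit 348) (nat_lit 311)) (XT.lf (nat_lit 0) (nat_lit 5203227413) (nat_lit 1216) (nat_lit 792397892) (nat_lit 76) (nat_lit 1478735932) (nat_lit 598) (nat_lit 5) (nat_lit 614) (nat_lit 5) (nat_lit 599) (nat_lit 5) (nat_lit 362) (nat_lit 348) (nat_lit 310))))) (XT.nd (nat_lit 234) (nat_lit 4636) (nat_lit 0) (XT.nd (nat_lit 78) (nat_lit 2660) (nat_lit 0) (XT.lf (nat_lit 0) (nat_lit 640647070) (nat_lit 1292) (nat_lit 1966832369) (nat_lit 76) (nat_lit 4943081861) (nat_lit 581) (nat_lit 5) (nat_lit 598) (nat_lit 5) (nat_lit 582) (nat_lit 5) (nat_lit 363) (nat_lit 348) (nat_lit 309)) (XT.nd (nat_lit 78) (nat_lit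 1368) (nat_lit 0) (XT.lf (nat_lit 0) (nat_lit 3560569541) (nat_lit 1368) (nat_lit 3127419834) (nat_lit 76) (nat_lit 941748174) (nat_lit 564) (nat_lit 5) (nat_lit 582) (nat_lit 5) (nat_lit 565) (nat_lit 5) (nat_lit 364) (nat_lit 348) (nat_lit 308)) (XT.lf (nat_lit 0) (nat_lit 3439925957) (nat_lit 1368) (nat_lit 3094243454) (nat_lit 1444) (nat_lit 1177820709) (nat_lit 546) (nat_lit 5) (nat_lit 564) (nat_lit 5) (nat_lit 565) (nat_lit 5) (nat_lit 365) (nat_lit 348) (nat_lit 307)))) (XT.nd (nat_lit 78) (nat_lit 3116) (nat_lit 0) (XT.lf (nat_lit 0) (nat_lit 1732354813) (nat_lit 1520) (nat_lit 5400507625) (nat_lit 76) (nat_lit 664521627) (nat_lit 526) (nat_lit 5) (nat_lit 546) (nat_lit 5) (nat_lit 527) (nat_lit 5) (nat_lit 366) (nat_lit 348) (nat_lit 306)) (XT.nd (nat_lit 78) (nat_lit 1596) (nat_lit 0) (XT.lf (nat_lit 0) (nat_lit 1358847227) (nat_lit 1520) (nat_lit 3330288555) (nat_lit 1596) (nat_lit 3196563205)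 (nat_lit 506) (nat_lit 5) (nat_lit 526) (nat_lit 5) (nat_lit 527) (nat_lit 5) (nat_lit 367) (nat_lit 348) (nat_lit 305)) (XT.lf (nat_lit 0) (nat_lit 349088917) (nat_lit 1596) (nat_lit 7347065449) (nat_lit 1672) (nat_lit 281298611) (nat_lit 485) (nat_lit 5) (nat_lit 506) (nat_lit 5) (nat_lit 507) (nat_lit 5) (nat_lit 368) (nat_lit 348) (nat_lit 304)))))) (XT.nd (nat_lit 390) (nat_lit 4408) (nat_lit 0) (XT.nd (nat_lit 156) (nat_lit 4180) (nat_lit 0) (XT.nd (nat_lit 78) (nat_lit 1672) (nat_lit 0) (XT.lf (nat_lit 0) (nat_lit 2672521491) (nat_lit 1672) (nat_lit 661014380) (nat_lit 76) (nat_lit 4738353862) (nat_lit 484) (nat_lit 5) (nat_lit 506) (nat_lit 5) (nat_lit 485) (nat_lit 5) (nat_lit 369) (nat_lit 348) (nat_lit 303)) (XT.lf (nat_lit 0) (nat_lit 5681437157) (nat_lit 1748) (nat_lit 1644574694) (nat_lit 76) (nat_lit 843723261) (nat_lit 462) (nat_lit 5) (nat_lit 485) (nat_lit 5) (nat_lit 463) (nat_lit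 5) (nat_lit 370) (nat_lit 348) (nat_lit 302))) (XT.nd (nat_lit 78) (nat_lit 2356) (nat_lit 0) (XT.lf (nat_lit 0) (nat_lit 491000274) (nat_lit 1824) (nat_lit 2625498008) (nat_lit 76) (nat_lit 5154217470) (nat_lit 438) (nat_lit 5) (nat_lit 462) (nat_lit 5) (nat_lit 439) (nat_lit 5) (nat_lit 371) (nat_lit 348) (nat_lit 301)) (XT.nd (nat_lit 78) (nat_lit 912) (nat_lit 0) (XT.lf (nat_lit 0) (nat_lit 3502125065) (nat_lit 1520) (nat_lit 3604405221) (nat_lit 76) (nat_lit 1268358835) (nat_lit 419) (nat_lit 5) (nat_lit 439) (nat_lit 5) (nat_lit 420) (nat_lit 5) (nat_lit 372) (nat_lit 348) (nat_lit 300)) (XT.lf (nat_lit 0) (nat_lit 3903616337) (nat_lit 912) (nat_lit 2691298902) (nat_lit 988) (nat_lit 1887462652) (nat_lit 407) (nat_lit 5) (nat_lit 419) (nat_lit 5) (nat_lit 420) (nat_lit 5) (nat_lit 373) (nat_lit 348) (nat_lit 299))))) (XT.nd (nat_lit 234) (nat_lit 1672) (nat_lit 0) (XT.nd (nat_lit 78) (nat_lit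 1748) (nat_lit 0) (XT.lf (nat_lit 0) (nat_lit 1157101764) (nat_lit 988) (nat_lit 5548996401) (nat_lit 76) (nat_lit 1887149455) (nat_lit 394) (nat_lit 5) (nat_lit 407) (nat_lit 5) (nat_lit 395) (nat_lit 5) (nat_lit 374) (nat_lit 348) (nat_lit 298)) (XT.nd (nat_lit 78) (nat_lit 836) (nat_lit 0) (XT.lf (nat_lit 0) (nat_lit 2180347202) (nat_lit 912) (nat_lit 2080631469) (nat_lit 988) (nat_lit 4446358428) (nat_lit 382) (nat_lit 5) (nat_lit 394) (nat_lit 5) (nat_lit 395) (nat_lit 5) (nat_lit 375) (nat_lit 348) (nat_lit 297)) (XT.lf (nat_lit 0) (nat_lit 1323627533) (nat_lit 836) (nat_lit 6129894055) (nat_lit 912) (nat_lit 1371431782) (nat_lit 371) (nat_lit 5) (nat_lit 382) (nat_lit 5) (nat_lit 383) (nat_lit 5) (nat_lit 376) (nat_lit 348) (nat_lit 296)))) (XT.nd (nat_lit 78) (nat_lit 760) (nat_lit 0) (XT.lf (nat_lit 0) (nat_lit 464853653) (nat_lit 836) (nat_lit 1301562316) (nat_lit 912) (nat_lit 7179578856)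 (nat_lit 359) (nat_lit 5) (nat_lit 370) (nat_lit 5) (nat_lit 371) (nat_lit 5) (nat_lit 377) (nat_lit 348) (nat_lit 295)) (XT.nd (nat_lit 78) (nat_lit 760) (nat_lit 0) (XT.lf (nat_lit 0) (nat_lit 4989150157) (nat_lit 912) (nat_lit 399757483) (nat_lit 76) (nat_lit 3681404869) (nat_lit 359) (nat_lit 5) (nat_lit 371) (nat_lit 5) (nat_lit 360) (nat_lit 5) (nat_lit 378) (nat_lit 348) (nat_lit 294)) (XT.lf (nat_lit 0) (nat_lit 7952223626) (nat_lit 760) (nat_lit 352863029) (nat_lit 836) (nat_lit 893356214) (nat_lit 349) (nat_lit 5) (nat_lit 359) (nat_lit 5) (nat_lit 360) (nat_lit 5) (nat_lit 379) (nat_lit 348) (nat_lit 293))))))))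
noncomputable def xc60 : XT := (XT.nd (nat_lit 1716) (nat_lit 6992) (nat_lit 0) (XT.nd (nat_lit 858) (nat_lit 5928) (nat_lit 0) (XT.nd (nat_lit 390) (nat_lit 3344) (nat_lit 0) (XT.nd (nat_lit 156) (nat_lit 2204) (nat_lit 0) (XT.nd (nat_lit 78) (nat_lit 760) (nat_lit 0) (XT.lf (nat_lit 0) (nat_lit 2377463189) (nat_lit 836) (nat_lit 2120041410) (nat_lit 76) (nat_lit 4832240568) (nat_lit 338) (nat_lit 5) (nat_lit 349) (nat_lit 5) (nat_lit 339) (nat_lit 5) (nat_lit 380) (nat_lit 348) (nat_lit 292)) (XT.lf (nat_lit 0) (nat_lit 5730736366) (nat_lit 836) (nat_lit 2989107661) (nat_lit 76) (nat_lit 745107599) (nat_lit 328) (nat_lit 5) (nat_lit 339) (nat_lit 5) (nat_lit 329) (nat_lit 5) (nat_lit 381) (nat_lit 348) (nat_lit 291))) (XT.nd (nat_lit 78) (nat_lit 1444) (nat_lit 0) (XT.lf (nat_lit 0) (nat_lit 5732316101) (nat_lit 760) (nat_lit 3473924316) (nat_lit 836) (nat_lit 397553364) (nat_lit 318) (nat_lit 5)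 (nat_lit 328) (nat_lit 5) (nat_lit 329) (nat_lit 5) (nat_lit 382) (nat_lit 348) (nat_lit 290)) (XT.nd (nat_lit 78) (nat_lit 684) (nat_lit 0) (XT.lf (nat_lit 0) (nat_lit 3005877699) (nat_lit 760) (nat_lit 4771139688) (nat_lit 76) (nat_lit 1969270152) (nat_lit 308) (nat_lit 5) (nat_lit 318) (nat_lit 5) (nat_lit 309) (nat_lit 5) (nat_lit 383) (nat_lit 348) (nat_lit 289)) (XT.lf (nat_lit 0) (nat_lit 4209656505) (nat_lit 684) (nat_lit 2315395978) (nat_lit 760) (nat_lit 3367581467) (nat_lit 299) (nat_lit 5) (nat_lit 308) (nat_lit 5) (nat_lit 309) (nat_lit 5) (nat_lit 384) (nat_lit 348) (nat_lit 288))))) (XT.nd (nat_lit 234) (nat_lit 1292) (nat_lit 0) (XT.nd (nat_lit 78) (nat_lit 1292) (nat_lit 0) (XT.lf (nat_lit 0) (nat_lit 124755906) (nat_lit 760) (nat_lit 6605074830) (nat_lit 76) (nat_lit 3313142489) (nat_lit 289) (nat_lit 5) (nat_lit 299) (nat_lit 5) (nat_lit 290) (nat_lit 5) (nat_lit 385) (nat_lit 348)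 (nat_lit 287)) (XT.nd (nat_lit 78) (nat_lit 608) (nat_lit 0) (XT.lf (nat_lit 0) (nat_lit 2642754245) (nat_lit 684) (nat_lit 1049109660) (nat_lit 760) (nat_lit 6505208906) (nat_lit 280) (nat_lit 5) (nat_lit 289) (nat_lit 5) (nat_lit 290) (nat_lit 5) (nat_lit 386) (nat_lit 348) (nat_lit 286)) (XT.lf (nat_lit 0) (nat_lit 1829313282) (nat_lit 608) (nat_lit 5569996802) (nat_lit 684) (nat_lit 2955828881) (nat_lit 272) (nat_lit 5) (nat_lit 280) (nat_lit 5) (nat_lit 281) (nat_lit 5) (nat_lit 387) (nat_lit 348) (nat_lit 285)))) (XT.nd (nat_lit 78) (nat_lit 608) (nat_lit 0) (XT.lf (nat_lit 0) (nat_lit 704051795) (nat_lit 684) (nat_lit 9503698374) (nat_lit 76) (nat_lit 309851621) (nat_lit 263) (nat_lit 5) (nat_lit 272) (nat_lit 5) (nat_lit 264) (nat_lit 5) (nat_lit 388) (nat_lit 348) (nat_lit 284)) (XT.nd (nat_lit 78) (nat_lit 0) (nat_lit 0) (XT.lf (nat_lit 0) (nat_lit 151040801) (nat_lit 608) (nat_lit 4326232216)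 (nat_lit 684) (nat_lit 6206409992) (nat_lit 255) (nat_lit 5) (nat_lit 263) (nat_lit 5) (nat_lit 264) (nat_lit 5) (nat_lit 389) (nat_lit 348) (nat_lit 283)) (XT.lf (nat_lit 0) (nat_lit 8387878982) (nat_lit 684) (nat_lit 705786611) (nat_lit 76) (nat_lit 1760606352) (nat_lit 255) (nat_lit 5) (nat_lit 264) (nat_lit 5) (nat_lit 256) (nat_lit 5) (nat_lit 390) (nat_lit 348) (nat_lit 282)))))) (XT.nd (nat_lit 390) (nat_lit 2964) (nat_lit 0) (XT.nd (nat_lit 156) (nat_lit 1748) (nat_lit 0) (XT.nd (nat_lit 78) (nat_lit 532) (nat_lit 0) (XT.lf (nat_lit 0) (nat_lit 1407798902) (nat_lit 684) (nat_lit 1591855212) (nat_lit 76) (nat_lit 8029350096) (nat_lit 246) (nat_lit 5) (nat_lit 255) (nat_lit 5) (nat_lit 247) (nat_lit 5) (nat_lit 391) (nat_lit 348) (nat_lit 281)) (XT.lf (nat_lit 0) (nat_lit 5398375717) (nat_lit 608) (nat_lit 2511011643) (nat_lit 76) (nat_lit 3298600027) (nat_lit 239) (nat_lit 5) (nat_lit 247) (nat_lit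 5) (nat_lit 240) (nat_lit 5) (nat_lit 392) (nat_lit 348) (nat_lit 280))) (XT.nd (nat_lit 78) (nat_lit 1140) (nat_lit 0) (XT.lf (nat_lit 0) (nat_lit 7944479971) (nat_lit 608) (nat_lit 1597985812) (nat_lit 684) (nat_lit 1849206471) (nat_lit 231) (nat_lit 5) (nat_lit 239) (nat_lit 5) (nat_lit 240) (nat_lit 5) (nat_lit 393) (nat_lit 348) (nat_lit 279)) (XT.nd (nat_lit 78) (nat_lit 532) (nat_lit 0) (XT.lf (nat_lit 0) (nat_lit 2248769214) (nat_lit 608) (nat_lit 4428747043) (nat_lit 76) (nat_lit 4902109453) (nat_lit 223) (nat_lit 5) (nat_lit 231) (nat_lit 5) (nat_lit 224) (nat_lit 5) (nat_lit 394) (nat_lit 348) (nat_lit 278)) (XT.lf (nat_lit 0) (nat_lit 6338092468) (nat_lit 532) (nat_lit 134842399) (nat_lit 608) (nat_lit 5299478451) (nat_lit 216) (nat_lit 5) (nat_lit 223) (nat_lit 5) (nat_lit 224) (nat_lit 5) (nat_lit 395) (nat_lit 348) (nat_lit 277))))) (XT.nd (nat_lit 234) (nat_lit 1444) (nat_lit 0) (XT.nd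 (nat_lit 78) (nat_lit 1064) (nat_lit 0) (XT.lf (nat_lit 0) (nat_lit 5484067678) (nat_lit 456) (nat_lit 5402196420) (nat_lit 532) (nat_lit 1083478964) (nat_lit 210) (nat_lit 5) (nat_lit 216) (nat_lit 5) (nat_lit 217) (nat_lit 5) (nat_lit 396) (nat_lit 348) (nat_lit 276)) (XT.nd (nat_lit 78) (nat_lit 456) (nat_lit 0) (XT.lf (nat_lit 0) (nat_lit 3247417358) (nat_lit 608) (nat_lit 7573303256) (nat_lit 76) (nat_lit 1351232637) (nat_lit 202) (nat_lit 5) (nat_lit 210) (nat_lit 5) (nat_lit 203) (nat_lit 5) (nat_lit 397) (nat_lit 348) (nat_lit 275)) (XT.lf (nat_lit 0) (nat_lit 3667039316) (nat_lit 456) (nat_lit 4085943384) (nat_lit 532) (nat_lit 4625921289) (nat_lit 196) (nat_lit 5) (nat_lit 202) (nat_lit 5) (nat_lit 203) (nat_lit 5) (nat_lit 398) (nat_lit 348) (nat_lit 274)))) (XT.nd (nat_lit 78) (nat_lit 988) (nat_lit 0) (XT.lf (nat_lit 0) (nat_lit 2711854299) (nat_lit 456) (nat_lit 9725632881) (nat_lit 532)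 (nat_lit 153707157) (nat_lit 190) (nat_lit 5) (nat_lit 196) (nat_lit 5) (nat_lit 197) (nat_lit 5) (nat_lit 399) (nat_lit 348) (nat_lit 273)) (XT.nd (nat_lit 78) (nat_lit 456) (nat_lit 0) (XT.lf (nat_lit 0) (nat_lit 1692779149) (nat_lit 456) (nat_lit 2755826687) (nat_lit 532) (nat_lit 8359588981) (nat_lit 183) (nat_lit 5) (nat_lit 189) (nat_lit 5) (nat_lit 190) (nat_lit 5) (nat_lit 400) (nat_lit 348) (nat_lit 272)) (XT.lf (nat_lit 0) (nat_lit 633649978) (nat_lit 456) (nat_lit 8610824852) (nat_lit 532) (nat_lit 3786064699) (nat_lit 177) (nat_lit 5) (nat_lit 183) (nat_lit 5) (nat_lit 184) (nat_lit 5) (nat_lit 401) (nat_lit 348) (nat_lit 271))))))) (XT.nd (nat_lit 858) (nat_lit 2888) (nat_lit 0) (XT.nd (nat_lit 390) (nat_lit 2356) (nat_lit 0) (XT.nd (nat_lit 156) (nat_lit 1292) (nat_lit 0) (XT.nd (nat_lit 78) (nat_lit 380) (nat_lit 0) (XT.lf (nat_lit 0) (nat_lit 964698118) (nat_lit 532) (nat_lit 456608937)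 (nat_lit 76) (nat_lit 11837090002) (nat_lit 176) (nat_lit 5) (nat_lit 183) (nat_lit 5) (nat_lit 177) (nat_lit 5) (nat_lit 402) (nat_lit 348) (nat_lit 270)) (XT.lf (nat_lit 0) (nat_lit 5882738804) (nat_lit 456) (nat_lit 1617652303) (nat_lit 76) (nat_lit 5990680408) (nat_lit 171) (nat_lit 5) (nat_lit 177) (nat_lit 5) (nat_lit 172) (nat_lit 5) (nat_lit 403) (nat_lit 348) (nat_lit 269))) (XT.nd (nat_lit 78) (nat_lit 836) (nat_lit 0) (XT.lf (nat_lit 0) (nat_lit 10923757086) (nat_lit 456) (nat_lit 67937604) (nat_lit 532) (nat_lit 2738169453) (nat_lit 165) (nat_lit 5) (nat_lit 171) (nat_lit 5) (nat_lit 172) (nat_lit 5) (nat_lit 404) (nat_lit 348) (nat_lit 268)) (XT.nd (nat_lit 78) (nat_lit 380) (nat_lit 0) (XT.lf (nat_lit 0) (nat_lit 2333922162) (nat_lit 456) (nat_lit 4079527203) (nat_lit 76) (nat_lit 7560366497) (nat_lit 159) (nat_lit 5) (nat_lit 165) (nat_lit 5) (nat_lit 160) (nat_lit 5) (nat_lit 405) (nat_lit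 348) (nat_lit 267)) (XT.lf (nat_lit 0) (nat_lit 7567357239) (nat_lit 456) (nat_lit 5404120679) (nat_lit 76) (nat_lit 1252323601) (nat_lit 154) (nat_lit 5) (nat_lit 160) (nat_lit 5) (nat_lit 155) (nat_lit 5) (nat_lit 406) (nat_lit 348) (nat_lit 266))))) (XT.nd (nat_lit 234) (nat_lit 1140) (nat_lit 0) (XT.nd (nat_lit 78) (nat_lit 836) (nat_lit 0) (XT.lf (nat_lit 0) (nat_lit 7680726100) (nat_lit 380) (nat_lit 5359312004) (nat_lit 456) (nat_lit 1439608643) (nat_lit 149) (nat_lit 5) (nat_lit 154) (nat_lit 5) (nat_lit 155) (nat_lit 5) (nat_lit 407) (nat_lit 348) (nat_lit 265)) (XT.nd (nat_lit 78) (nat_lit 380) (nat_lit 0) (XT.lf (nat_lit 0) (nat_lit 3939975840) (nat_lit 456) (nat_lit 8266978039) (nat_lit 76) (nat_lit 2534550562) (nat_lit 143) (nat_lit 5) (nat_lit 149) (nat_lit 5) (nat_lit 144) (nat_lit 5) (nat_lit 408) (nat_lit 348) (nat_lit 264)) (XT.lf (nat_lit 0) (nat_lit 5194130478) (nat_lit 380) (nat_lit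 4346070761) (nat_lit 456) (nat_lit 5469254561) (nat_lit 138) (nat_lit 5) (nat_lit 143) (nat_lit 5) (nat_lit 144) (nat_lit 5) (nat_lit 409) (nat_lit 348) (nat_lit 263)))) (XT.nd (nat_lit 78) (nat_lit 684) (nat_lit 0) (XT.lf (nat_lit 0) (nat_lit 92275230) (nat_lit 456) (nat_lit 11427749582) (nat_lit 76) (nat_lit 3764030394) (nat_lit 132) (nat_lit 5) (nat_lit 138) (nat_lit 5) (nat_lit 133) (nat_lit 5) (nat_lit 410) (nat_lit 348) (nat_lit 262)) (XT.nd (nat_lit 78) (nat_lit 380) (nat_lit 0) (XT.lf (nat_lit 0) (nat_lit 2416077982) (nat_lit 304) (nat_lit 3406207483) (nat_lit 380) (nat_lit 9742369439) (nat_lit 128) (nat_lit 5) (nat_lit 132) (nat_lit 5) (nat_lit 133) (nat_lit 5) (nat_lit 411) (nat_lit 348) (nat_lit 261)) (XT.lf (nat_lit 0) (nat_lit 902626131) (nat_lit 380) (nat_lit 10901903988) (nat_lit 456) (nat_lit 4047539819) (nat_lit 123) (nat_lit 5) (nat_lit 128) (nat_lit 5) (nat_lit 129) (nat_lit 5) (nat_lit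 412) (nat_lit 348) (nat_lit 260)))))) (XT.nd (nat_lit 390) (nat_lit 1520) (nat_lit 0) (XT.nd (nat_lit 156) (nat_lit 988) (nat_lit 0) (XT.nd (nat_lit 78) (nat_lit 304) (nat_lit 0) (XT.lf (nat_lit 0) (nat_lit 1871578878) (nat_lit 456) (nat_lit 681790554) (nat_lit 76) (nat_lit 13592959947) (nat_lit 122) (nat_lit 5) (nat_lit 128) (nat_lit 5) (nat_lit 123) (nat_lit 5) (nat_lit 413) (nat_lit 348) (nat_lit 259)) (XT.lf (nat_lit 0) (nat_lit 8011013310) (nat_lit 380) (nat_lit 2369670294) (nat_lit 76) (nat_lit 6066246991) (nat_lit 118) (nat_lit 5) (nat_lit 123) (nat_lit 5) (nat_lit 119) (nat_lit 5) (nat_lit 414) (nat_lit 348) (nat_lit 258))) (XT.nd (nat_lit 78) (nat_lit 684) (nat_lit 0) (XT.lf (nat_lit 0) (nat_lit 12626767778) (nat_lit 304) (nat_lit 1777938928) (nat_lit 380) (nat_lit 2350445237) (nat_lit 114) (nat_lit 5) (nat_lit 118) (nat_lit 5) (nat_lit 119) (nat_lit 5) (nat_lit 415) (nat_lit 348) (nat_lit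 257)) (XT.nd (nat_lit 78) (nat_lit 304) (nat_lit 0) (XT.lf (nat_lit 0) (nat_lit 3967836250) (nat_lit 380) (nat_lit 6017610440) (nat_lit 76) (nat_lit 7084635464) (nat_lit 109) (nat_lit 5) (nat_lit 114) (nat_lit 5) (nat_lit 110) (nat_lit 5) (nat_lit 416) (nat_lit 348) (nat_lit 256)) (XT.lf (nat_lit 0) (nat_lit 9393848414) (nat_lit 304) (nat_lit 1118389738) (nat_lit 380) (nat_lit 6880544625) (nat_lit 105) (nat_lit 5) (nat_lit 109) (nat_lit 5) (nat_lit 110) (nat_lit 5) (nat_lit 417) (nat_lit 348) (nat_lit 255))))) (XT.nd (nat_lit 234) (nat_lit 608) (nat_lit 0) (XT.nd (nat_lit 78) (nat_lit 608) (nat_lit 0) (XT.lf (nat_lit 0) (nat_lit 7620733209) (nat_lit 304) (nat_lit 9742568788) (nat_lit 380) (nat_lit 359659067) (nat_lit 101) (nat_lit 5) (nat_lit 105) (nat_lit 5) (nat_lit 106) (nat_lit 5) (nat_lit 418) (nat_lit 348) (nat_lit 254)) (XT.nd (nat_lit 78) (nat_lit 228) (nat_lit 0) (XT.lf (nat_lit 0) (nat_lit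 5730412411) (nat_lit 304) (nat_lit 610473992) (nat_lit 380) (nat_lit 11719987831) (nat_lit 96) (nat_lit 5) (nat_lit 100) (nat_lit 5) (nat_lit 101) (nat_lit 5) (nat_lit 419) (nat_lit 348) (nat_lit 253)) (XT.lf (nat_lit 0) (nat_lit 3705586815) (nat_lit 228) (nat_lit 9650699691) (nat_lit 304) (nat_lit 5050219251) (nat_lit 93) (nat_lit 5) (nat_lit 96) (nat_lit 5) (nat_lit 97) (nat_lit 5) (nat_lit 420) (nat_lit 348) (nat_lit 252)))) (XT.nd (nat_lit 78) (nat_lit 228) (nat_lit 0) (XT.lf (nat_lit 0) (nat_lit 1583603368) (nat_lit 304) (nat_lit 279644713) (nat_lit 380) (nat_lit 16897675298) (nat_lit 88) (nat_lit 5) (nat_lit 92) (nat_lit 5) (nat_lit 93) (nat_lit 5) (nat_lit 421) (nat_lit 348) (nat_lit 251)) (XT.nd (nat_lit 78) (nat_lit 228) (nat_lit 0) (XT.lf (nat_lit 0) (nat_lit 9046470469) (nat_lit 380) (nat_lit 712402784) (nat_lit 76) (nat_lit 9363816133) (nat_lit 88) (nat_lit 5) (nat_lit 93) (nat_lit 5) (nat_lit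 89) (nat_lit 5) (nat_lit 422) (nat_lit 348) (nat_lit 250)) (XT.lf (nat_lit 0) (nat_lit 16410275834) (nat_lit 228) (nat_lit 113662288) (nat_lit 304) (nat_lit 2969797966) (nat_lit 85) (nat_lit 5) (nat_lit 88) (nat_lit 5) (nat_lit 89) (nat_lit 5) (nat_lit 423) (nat_lit 348) (nat_lit 249))))))))
noncomputable def xc61 : XT := (XT.nd (nat_lit 48672) (nat_lit 0) (nat_lit 15352) (XT.nd (nat_lit 47814) (nat_lit 0) (nat_lit 36100) (XT.nd (nat_lit 47346) (nat_lit 0) (nat_lit 42180) (XT.nd (nat_lit 156) (nat_lit 532) (nat_lit 0) (XT.nd (nat_lit 78) (nat_lit 228) (nat_lit 0) (XT.lf (nat_lit 0) (nat_lit 4425563650) (nat_lit 380) (nat_lit 5647863937) (nat_lit 76) (nat_lit 9799268393) (nat_lit 80) (nat_lit 5) (nat_lit 85) (nat_lit 5) (nat_lit 81) (nat_lit 5) (nat_lit 424) (nat_lit 348) (nat_lit 248)) (XT.lf (nat_lit 0) (nat_lit 11918748772) (nat_lit 228) (nat_lit 154194275) (nat_lit 304) (nat_lit 8188281402) (nat_lit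 77) (nat_lit 5) (nat_lit 80) (nat_lit 5) (nat_lit 81) (nat_lit 5) (nat_lit 425) (nat_lit 348) (nat_lit 247))) (XT.nd (nat_lit 78) (nat_lit 304) (nat_lit 0) (XT.lf (nat_lit 0) (nat_lit 9438797071) (nat_lit 228) (nat_lit 10647588330) (nat_lit 304) (nat_lit 572292952) (nat_lit 74) (nat_lit 5) (nat_lit 77) (nat_lit 5) (nat_lit 78) (nat_lit 5) (nat_lit 426) (nat_lit 348) (nat_lit 246)) (XT.nd (nat_lit 47034) (nat_lit 0) (nat_lit 45068) (XT.lf (nat_lit 0) (nat_lit 6793224875) (nat_lit 228) (nat_lit 457450735) (nat_lit 304) (nat_lit 13814960717) (nat_lit 70) (nat_lit 5) (nat_lit 73) (nat_lit 5) (nat_lit 74) (nat_lit 5) (nat_lit 427) (nat_lit 348) (nat_lit 245)) (XT.lf (nat_lit 0) (nat_lit 1022644496) (nat_lit 0) (nat_lit 1022644496) (nat_lit 836) (nat_lit 1348433539) (nat_lit 663) (nat_lit 5) (nat_lit 663) (nat_lit 3) (nat_lit 674) (nat_lit 3) (nat_lit 349) (nat_lit 349) (nat_lit 322))))) (XT.nd (nat_lit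 234) (nat_lit 1900) (nat_lit 0) (XT.nd (nat_lit 78) (nat_lit 0) (nat_lit 76) (XT.lf (nat_lit 76) (nat_lit 244237667) (nat_lit 0) (nat_lit 116143412) (nat_lit 988) (nat_lit 6467054997) (nat_lit 651) (nat_lit 5) (nat_lit 650) (nat_lit 3) (nat_lit 663) (nat_lit 5) (nat_lit 350) (nat_lit 349) (nat_lit 321)) (XT.nd (nat_lit 78) (nat_lit 0) (nat_lit 0) (XT.lf (nat_lit 0) (nat_lit 3397954527) (nat_lit 912) (nat_lit 1517793170) (nat_lit 988) (nat_lit 1954054331) (nat_lit 651) (nat_lit 5) (nat_lit 663) (nat_lit 5) (nat_lit 664) (nat_lit 5) (nat_lit 351) (nat_lit 349) (nat_lit 320)) (XT.lf (nat_lit 76) (nat_lit 3684451112) (nat_lit 0) (nat_lit 2750926658) (nat_lit 988) (nat_lit 479922358) (nat_lit 652) (nat_lit 5) (nat_lit 651) (nat_lit 5) (nat_lit 664) (nat_lit 5) (nat_lit 352) (nat_lit 349) (nat_lit 319)))) (XT.nd (nat_lit 78) (nat_lit 988) (nat_lit 0) (XT.lf (nat_lit 76) (nat_lit 2048286301) (nat_lit 0) (nat_lit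 429222854) (nat_lit 1064) (nat_lit 4486152650) (nat_lit 639) (nat_lit 5) (nat_lit 638) (nat_lit 5) (nat_lit 652) (nat_lit 5) (nat_lit 353) (nat_lit 349) (nat_lit 318)) (XT.nd (nat_lit 78) (nat_lit 1064) (nat_lit 0) (XT.lf (nat_lit 76) (nat_lit 441946774) (nat_lit 0) (nat_lit 5002326562) (nat_lit 1064) (nat_lit 1570627870) (nat_lit 640) (nat_lit 5) (nat_lit 639) (nat_lit 5) (nat_lit 653) (nat_lit 5) (nat_lit 354) (nat_lit 349) (nat_lit 317)) (XT.lf (nat_lit 0) (nat_lit 1341483200) (nat_lit 1064) (nat_lit 1117293247) (nat_lit 1140) (nat_lit 4610188550) (nat_lit 625) (nat_lit 5) (nat_lit 639) (nat_lit 5) (nat_lit 640) (nat_lit 5) (nat_lit 355) (nat_lit 349) (nat_lit 316)))))) (XT.nd (nat_lit 390) (nat_lit 3876) (nat_lit 0) (XT.nd (nat_lit 156) (nat_lit 2280) (nat_lit 0) (XT.nd (nat_lit 78) (nat_lit 0) (nat_lit 0) (XT.lf (nat_lit 0) (nat_lit 4245122498) (nat_lit 1064) (nat_lit 2640456874) (nat_lit 1140)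 (nat_lit 240384042) (nat_lit 626) (nat_lit 5) (nat_lit 640) (nat_lit 5) (nat_lit 641) (nat_lit 5) (nat_lit 356) (nat_lit 349) (nat_lit 315)) (XT.lf (nat_lit 76) (nat_lit 3046036838) (nat_lit 0) (nat_lit 4131268700) (nat_lit 1140) (nat_lit 8567089) (nat_lit 627) (nat_lit 5) (nat_lit 626) (nat_lit 5) (nat_lit 641) (nat_lit 5) (nat_lit 357) (nat_lit 349) (nat_lit 314))) (XT.nd (nat_lit 78) (nat_lit 1140) (nat_lit 0) (XT.lf (nat_lit 76) (nat_lit 1629244560) (nat_lit 0) (nat_lit 1210005660) (nat_lit 1216) (nat_lit 4409412688) (nat_lit 612) (nat_lit 5) (nat_lit 611) (nat_lit 5) (nat_lit 627) (nat_lit 5) (nat_lit 358) (nat_lit 349) (nat_lit 313)) (XT.nd (nat_lit 78) (nat_lit 1216) (nat_lit 0) (XT.lf (nat_lit 76) (nat_lit 240463454) (nat_lit 0) (nat_lit 5475611788) (nat_lit 1216) (nat_lit 1598414024) (nat_lit 613) (nat_lit 5) (nat_lit 612) (nat_lit 5) (nat_lit 628) (nat_lit 5) (nat_lit 359) (nat_lit 349) (nat_lit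 312)) (XT.lf (nat_lit 0) (nat_lit 1230306394) (nat_lit 1216) (nat_lit 1111518252) (nat_lit 1292) (nat_lit 5041315316) (nat_lit 596) (nat_lit 5) (nat_lit 612) (nat_lit 5) (nat_lit 613) (nat_lit 5) (nat_lit 360) (nat_lit 349) (nat_lit 311))))) (XT.nd (nat_lit 234) (nat_lit 2736) (nat_lit 0) (XT.nd (nat_lit 78) (nat_lit 1216) (nat_lit 0) (XT.lf (nat_lit 0) (nat_lit 4067894826) (nat_lit 1216) (nat_lit 2440433940) (nat_lit 1292) (nat_lit 946420873) (nat_lit 597) (nat_lit 5) (nat_lit 613) (nat_lit 5) (nat_lit 614) (nat_lit 5) (nat_lit 361) (nat_lit 349) (nat_lit 310)) (XT.nd (nat_lit 78) (nat_lit 1216) (nat_lit 0) (XT.lf (nat_lit 76) (nat_lit 3779304327) (nat_lit 0) (nat_lit 3168345368) (nat_lit 1292) (nat_lit 581741622) (nat_lit 598) (nat_lit 5) (nat_lit 597) (nat_lit 5) (nat_lit 614) (nat_lit 5) (nat_lit 362) (nat_lit 349) (nat_lit 309)) (XT.lf (nat_lit 0) (nat_lit 2223681976) (nat_lit 1292) (nat_lit 5043169168)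 (nat_lit 76) (nat_lit 340216357) (nat_lit 581) (nat_lit 5) (nat_lit 598) (nat_lit 5) (nat_lit 582) (nat_lit 5) (nat_lit 363) (nat_lit 349) (nat_lit 308)))) (XT.nd (nat_lit 78) (nat_lit 1444) (nat_lit 0) (XT.lf (nat_lit 0) (nat_lit 1358310107) (nat_lit 1292) (nat_lit 3715885130) (nat_lit 1368) (nat_lit 2613447845) (nat_lit 564) (nat_lit 5) (nat_lit 581) (nat_lit 5) (nat_lit 582) (nat_lit 5) (nat_lit 364) (nat_lit 349) (nat_lit 307)) (XT.nd (nat_lit 78) (nat_lit 0) (nat_lit 0) (XT.lf (nat_lit 0) (nat_lit 185153807) (nat_lit 1368) (nat_lit 1614696) (nat_lit 1444) (nat_lit 7584851399) (nat_lit 545) (nat_lit 5) (nat_lit 563) (nat_lit 5) (nat_lit 564) (nat_lit 5) (nat_lit 365) (nat_lit 349) (nat_lit 306)) (XT.lf (nat_lit 0) (nat_lit 3020585413) (nat_lit 1444) (nat_lit 985265711) (nat_lit 76) (nat_lit 3852238304) (nat_lit 545) (nat_lit 5) (nat_lit 564) (nat_lit 5) (nat_lit 546) (nat_lit 5) (nat_lit 366) (nat_lit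 349) (nat_lit 305))))))) (XT.nd (nat_lit 858) (nat_lit 7448) (nat_lit 0) (XT.nd (nat_lit 390) (nat_lit 5168) (nat_lit 0) (XT.nd (nat_lit 156) (nat_lit 5092) (nat_lit 0) (XT.nd (nat_lit 78) (nat_lit 1596) (nat_lit 0) (XT.lf (nat_lit 0) (nat_lit 5825183685) (nat_lit 1444) (nat_lit 71381501) (nat_lit 1520) (nat_lit 2051465191) (nat_lit 526) (nat_lit 5) (nat_lit 545) (nat_lit 5) (nat_lit 546) (nat_lit 5) (nat_lit 367) (nat_lit 349) (nat_lit 304)) (XT.lf (nat_lit 0) (nat_lit 792280194) (nat_lit 1596) (nat_lit 3262262059) (nat_lit 76) (nat_lit 3986343271) (nat_lit 505) (nat_lit 5) (nat_lit 526) (nat_lit 5) (nat_lit 506) (nat_lit 5) (nat_lit 368) (nat_lit 349) (nat_lit 303))) (XT.nd (nat_lit 78) (nat_lit 3496) (nat_lit 0) (XT.lf (nat_lit 0) (nat_lit 3656219626) (nat_lit 1672) (nat_lit 4388588284) (nat_lit 76) (nat_lit 92210913) (nat_lit 484) (nat_lit 5) (nat_lit 506) (nat_lit 5) (nat_lit 485) (nat_lit 5)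 (nat_lit 369) (nat_lit 349) (nat_lit 302)) (XT.nd (nat_lit 78) (nat_lit 1824) (nat_lit 0) (XT.lf (nat_lit 0) (nat_lit 2720608820) (nat_lit 1672) (nat_lit 3877089434) (nat_lit 1748) (nat_lit 1638523662) (nat_lit 462) (nat_lit 5) (nat_lit 484) (nat_lit 5) (nat_lit 485) (nat_lit 5) (nat_lit 370) (nat_lit 349) (nat_lit 301)) (XT.lf (nat_lit 0) (nat_lit 1242106830) (nat_lit 1824) (nat_lit 6628985239) (nat_lit 76) (nat_lit 467759139) (nat_lit 438) (nat_lit 5) (nat_lit 462) (nat_lit 5) (nat_lit 439) (nat_lit 5) (nat_lit 371) (nat_lit 349) (nat_lit 300))))) (XT.nd (nat_lit 234) (nat_lit 2736) (nat_lit 0) (XT.nd (nat_lit 78) (nat_lit 988) (nat_lit 0) (XT.lf (nat_lit 0) (nat_lit 689020071) (nat_lit 1444) (nat_lit 3493667452) (nat_lit 1520) (nat_lit 4261756227) (nat_lit 419) (nat_lit 5) (nat_lit 438) (nat_lit 5) (nat_lit 439) (nat_lit 5) (nat_lit 372) (nat_lit 349) (nat_lit 299)) (XT.nd (nat_lit 78) (nat_lit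 988) (nat_lit 0) (XT.lf (nat_lit 0) (nat_lit 7192649463) (nat_lit 1520) (nat_lit 308950456) (nat_lit 76) (nat_lit 1051997216) (nat_lit 419) (nat_lit 5) (nat_lit 439) (nat_lit 5) (nat_lit 420) (nat_lit 5) (nat_lit 373) (nat_lit 349) (nat_lit 298)) (XT.lf (nat_lit 0) (nat_lit 1608171967) (nat_lit 988) (nat_lit 1307476032) (nat_lit 76) (nat_lit 5750128947) (nat_lit 406) (nat_lit 5) (nat_lit 419) (nat_lit 5) (nat_lit 407) (nat_lit 5) (nat_lit 374) (nat_lit 349) (nat_lit 297)))) (XT.nd (nat_lit 78) (nat_lit 1824) (nat_lit 0) (XT.lf (nat_lit 0) (nat_lit 4636866150) (nat_lit 988) (nat_lit 2304175127) (nat_lit 76) (nat_lit 1840336242) (nat_lit 394) (nat_lit 5) (nat_lit 407) (nat_lit 5) (nat_lit 395) (nat_lit 5) (nat_lit 375) (nat_lit 349) (nat_lit 296)) (XT.nd (nat_lit 78) (nat_lit 912) (nat_lit 0) (XT.lf (nat_lit 0) (nat_lit 5601704637) (nat_lit 912) (nat_lit 2153602459) (nat_lit 988) (nat_lit 1145175956)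 (nat_lit 382) (nat_lit 5) (nat_lit 394) (nat_lit 5) (nat_lit 395) (nat_lit 5) (nat_lit 376) (nat_lit 349) (nat_lit 295)) (XT.lf (nat_lit 0) (nat_lit 1918704159) (nat_lit 912) (nat_lit 4303923262) (nat_lit 76) (nat_lit 2800294587) (nat_lit 370) (nat_lit 5) (nat_lit 382) (nat_lit 5) (nat_lit 371) (nat_lit 5) (nat_lit 377) (nat_lit 349) (nat_lit 294)))))) (XT.nd (nat_lit 390) (nat_lit 3496) (nat_lit 0) (XT.nd (nat_lit 156) (nat_lit 2356) (nat_lit 0) (XT.nd (nat_lit 78) (nat_lit 760) (nat_lit 0) (XT.lf (nat_lit 0) (nat_lit 3836693974) (nat_lit 836) (nat_lit 1220780934) (nat_lit 912) (nat_lit 4091450727) (nat_lit 359) (nat_lit 5) (nat_lit 370) (nat_lit 5) (nat_lit 371) (nat_lit 5) (nat_lit 378) (nat_lit 349) (nat_lit 293)) (XT.lf (nat_lit 0) (nat_lit 2949816527) (nat_lit 760) (nat_lit 5352669489) (nat_lit 836) (nat_lit 975994967) (nat_lit 349) (nat_lit 5) (nat_lit 359) (nat_lit 5) (nat_lit 360) (nat_lit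 5) (nat_lit 379) (nat_lit 349) (nat_lit 292))) (XT.nd (nat_lit 78) (nat_lit 1520) (nat_lit 0) (XT.lf (nat_lit 0) (nat_lit 2060125307) (nat_lit 760) (nat_lit 140305684) (nat_lit 836) (nat_lit 7211278734) (nat_lit 338) (nat_lit 5) (nat_lit 348) (nat_lit 5) (nat_lit 349) (nat_lit 5) (nat_lit 380) (nat_lit 349) (nat_lit 291)) (XT.nd (nat_lit 78) (nat_lit 760) (nat_lit 0) (XT.lf (nat_lit 0) (nat_lit 1148080563) (nat_lit 760) (nat_lit 4335800781) (nat_lit 836) (nat_lit 4064437285) (nat_lit 328) (nat_lit 5) (nat_lit 338) (nat_lit 5) (nat_lit 339) (nat_lit 5) (nat_lit 381) (nat_lit 349) (nat_lit 290)) (XT.lf (nat_lit 0) (nat_lit 245140815) (nat_lit 760) (nat_lit 8621712541) (nat_lit 836) (nat_lit 822163884) (nat_lit 318) (nat_lit 5) (nat_lit 328) (nat_lit 5) (nat_lit 329) (nat_lit 5) (nat_lit 382) (nat_lit 349) (nat_lit 289))))) (XT.nd (nat_lit 234) (nat_lit 2052) (nat_lit 0) (XT.nd (nat_lit 78) (nat_lit 1368)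 (nat_lit 0) (XT.lf (nat_lit 0) (nat_lit 2513177609) (nat_lit 836) (nat_lit 678791879) (nat_lit 76) (nat_lit 6641075350) (nat_lit 317) (nat_lit 5) (nat_lit 328) (nat_lit 5) (nat_lit 318) (nat_lit 5) (nat_lit 383) (nat_lit 349) (nat_lit 288)) (XT.nd (nat_lit 78) (nat_lit 684) (nat_lit 0) (XT.lf (nat_lit 0) (nat_lit 5952080479) (nat_lit 760) (nat_lit 1606709991) (nat_lit 76) (nat_lit 2422211589) (nat_lit 308) (nat_lit 5) (nat_lit 318) (nat_lit 5) (nat_lit 309) (nat_lit 5) (nat_lit 384) (nat_lit 349) (nat_lit 287)) (XT.lf (nat_lit 0) (nat_lit 7589848794) (nat_lit 684) (nat_lit 1924922970) (nat_lit 760) (nat_lit 618224397) (nat_lit 299) (nat_lit 5) (nat_lit 308) (nat_lit 5) (nat_lit 309) (nat_lit 5) (nat_lit 385) (nat_lit 349) (nat_lit 286)))) (XT.nd (nat_lit 78) (nat_lit 1292) (nat_lit 0) (XT.lf (nat_lit 0) (nat_lit 2883751065) (nat_lit 760) (nat_lit 3512424004) (nat_lit 76) (nat_lit 3892470734) (nat_lit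 289) (nat_lit 5) (nat_lit 299) (nat_lit 5) (nat_lit 290) (nat_lit 5) (nat_lit 386) (nat_lit 349) (nat_lit 285)) (XT.nd (nat_lit 78) (nat_lit 608) (nat_lit 0) (XT.lf (nat_lit 0) (nat_lit 5959450574) (nat_lit 684) (nat_lit 539191095) (nat_lit 760) (nat_lit 3949926221) (nat_lit 280) (nat_lit 5) (nat_lit 289) (nat_lit 5) (nat_lit 290) (nat_lit 5) (nat_lit 387) (nat_lit 349) (nat_lit 284)) (XT.lf (nat_lit 0) (nat_lit 5119159396) (nat_lit 608) (nat_lit 5144043173) (nat_lit 684) (nat_lit 349270098) (nat_lit 272) (nat_lit 5) (nat_lit 280) (nat_lit 5) (nat_lit 281) (nat_lit 5) (nat_lit 388) (nat_lit 349) (nat_lit 283))))))))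
noncomputable def xc62 : XT := (XT.nd (nat_lit 1716) (nat_lit 4940) (nat_lit 0) (XT.nd (nat_lit 858) (nat_lit 4408) (nat_lit 0) (XT.nd (nat_lit 390) (nat_lit 2660) (nat_lit 0) (XT.nd (nat_lit 156) (nat_lit 1824) (nat_lit 0) (XT.nd (nat_lit 78) (nat_lit 608) (nat_lit 0) (XT.lf (nat_lit 0) (nat_lit 3332466949) (nat_lit 684) (nat_lit 6522550186) (nat_lit 76) (nat_lit 925507859) (nat_lit 263) (nat_lit 5) (nat_lit 272) (nat_lit 5) (nat_lit 264) (nat_lit 5) (nat_lit 389) (nat_lit 349) (nat_lit 282)) (XT.lf (nat_lit 0) (nat_lit 3368839990) (nat_lit 608) (nat_lit 3794966894) (nat_lit 684) (nat_lit 3788896692) (nat_lit 255) (nat_lit 5) (nat_lit 263) (nat_lit 5) (nat_lit 264) (nat_lit 5) (nat_lit 390) (nat_lit 349) (nat_lit 281))) (XT.nd (nat_lit 78) (nat_lit 1140) (nat_lit 0) (XT.lf (nat_lit 0) (nat_lit 7992753) (nat_lit 684) (nat_lit 8658610687) (nat_lit 76) (nat_lit 2462901195) (nat_lit 246) (nat_lit 5) (nat_lit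 255) (nat_lit 5) (nat_lit 247) (nat_lit 5) (nat_lit 391) (nat_lit 349) (nat_lit 280)) (XT.nd (nat_lit 78) (nat_lit 608) (nat_lit 0) (XT.lf (nat_lit 0) (nat_lit 1527491055) (nat_lit 532) (nat_lit 2378939114) (nat_lit 608) (nat_lit 7403904428) (nat_lit 239) (nat_lit 5) (nat_lit 246) (nat_lit 5) (nat_lit 247) (nat_lit 5) (nat_lit 392) (nat_lit 349) (nat_lit 279)) (XT.lf (nat_lit 0) (nat_lit 560780872) (nat_lit 608) (nat_lit 7403060880) (nat_lit 684) (nat_lit 3531915162) (nat_lit 231) (nat_lit 5) (nat_lit 239) (nat_lit 5) (nat_lit 240) (nat_lit 5) (nat_lit 393) (nat_lit 349) (nat_lit 278))))) (XT.nd (nat_lit 234) (nat_lit 1520) (nat_lit 0) (XT.nd (nat_lit 78) (nat_lit 1064) (nat_lit 0) (XT.lf (nat_lit 0) (nat_lit 486273054) (nat_lit 684) (nat_lit 417589361) (nat_lit 76) (nat_lit 10782107283) (nat_lit 230) (nat_lit 5) (nat_lit 239) (nat_lit 5) (nat_lit 231) (nat_lit 5) (nat_lit 394) (nat_lit 349) (nat_lit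 277)) (XT.nd (nat_lit 78) (nat_lit 532) (nat_lit 0) (XT.lf (nat_lit 0) (nat_lit 4638117629) (nat_lit 608) (nat_lit 1449765868) (nat_lit 76) (nat_lit 5792323817) (nat_lit 223) (nat_lit 5) (nat_lit 231) (nat_lit 5) (nat_lit 224) (nat_lit 5) (nat_lit 395) (nat_lit 349) (nat_lit 276)) (XT.lf (nat_lit 0) (nat_lit 8945466315) (nat_lit 608) (nat_lit 2494360903) (nat_lit 76) (nat_lit 639832932) (nat_lit 216) (nat_lit 5) (nat_lit 224) (nat_lit 5) (nat_lit 217) (nat_lit 5) (nat_lit 396) (nat_lit 349) (nat_lit 275)))) (XT.nd (nat_lit 78) (nat_lit 988) (nat_lit 0) (XT.lf (nat_lit 0) (nat_lit 1146456012) (nat_lit 532) (nat_lit 3591026266) (nat_lit 76) (nat_lit 7546200505) (nat_lit 209) (nat_lit 5) (nat_lit 216) (nat_lit 5) (nat_lit 210) (nat_lit 5) (nat_lit 397) (nat_lit 349) (nat_lit 274)) (XT.nd (nat_lit 78) (nat_lit 456) (nat_lit 0) (XT.lf (nat_lit 0) (nat_lit 5552247097) (nat_lit 608) (nat_lit 4729546797) (nat_lit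 76) (nat_lit 2210838331) (nat_lit 202) (nat_lit 5) (nat_lit 210) (nat_lit 5) (nat_lit 203) (nat_lit 5) (nat_lit 398) (nat_lit 349) (nat_lit 273)) (XT.lf (nat_lit 0) (nat_lit 6798183446) (nat_lit 456) (nat_lit 3350117737) (nat_lit 532) (nat_lit 2558393520) (nat_lit 196) (nat_lit 5) (nat_lit 202) (nat_lit 5) (nat_lit 203) (nat_lit 5) (nat_lit 399) (nat_lit 349) (nat_lit 272)))))) (XT.nd (nat_lit 390) (nat_lit 2052) (nat_lit 0) (XT.nd (nat_lit 156) (nat_lit 1368) (nat_lit 0) (XT.nd (nat_lit 78) (nat_lit 456) (nat_lit 0) (XT.lf (nat_lit 0) (nat_lit 1982824731) (nat_lit 532) (nat_lit 7136453757) (nat_lit 76) (nat_lit 3806584578) (nat_lit 189) (nat_lit 5) (nat_lit 196) (nat_lit 5) (nat_lit 190) (nat_lit 5) (nat_lit 400) (nat_lit 349) (nat_lit 271)) (XT.lf (nat_lit 0) (nat_lit 4732509288) (nat_lit 456) (nat_lit 1945724763) (nat_lit 532) (nat_lit 6471985807) (nat_lit 183) (nat_lit 5) (nat_lit 189) (nat_lit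 5) (nat_lit 190) (nat_lit 5) (nat_lit 401) (nat_lit 349) (nat_lit 270))) (XT.nd (nat_lit 78) (nat_lit 912) (nat_lit 0) (XT.lf (nat_lit 0) (nat_lit 3628947495) (nat_lit 456) (nat_lit 7952929829) (nat_lit 532) (nat_lit 1798088286) (nat_lit 177) (nat_lit 5) (nat_lit 183) (nat_lit 5) (nat_lit 184) (nat_lit 5) (nat_lit 402) (nat_lit 349) (nat_lit 269)) (XT.nd (nat_lit 78) (nat_lit 456) (nat_lit 0) (XT.lf (nat_lit 0) (nat_lit 2478837575) (nat_lit 380) (nat_lit 544484130) (nat_lit 456) (nat_lit 10591958777) (nat_lit 171) (nat_lit 5) (nat_lit 176) (nat_lit 5) (nat_lit 177) (nat_lit 5) (nat_lit 403) (nat_lit 349) (nat_lit 268)) (XT.lf (nat_lit 0) (nat_lit 1253495850) (nat_lit 456) (nat_lit 6793249100) (nat_lit 532) (nat_lit 5809041402) (nat_lit 165) (nat_lit 5) (nat_lit 171) (nat_lit 5) (nat_lit 172) (nat_lit 5) (nat_lit 404) (nat_lit 349) (nat_lit 267))))) (XT.nd (nat_lit 234) (nat_lit 1216) (nat_lit 0) (XT.nd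 (nat_lit 78) (nat_lit 836) (nat_lit 0) (XT.lf (nat_lit 0) (nat_lit 13267214950) (nat_lit 532) (nat_lit 581385) (nat_lit 76) (nat_lit 834789287) (nat_lit 165) (nat_lit 5) (nat_lit 172) (nat_lit 5) (nat_lit 166) (nat_lit 5) (nat_lit 405) (nat_lit 349) (nat_lit 266)) (XT.nd (nat_lit 78) (nat_lit 380) (nat_lit 0) (XT.lf (nat_lit 0) (nat_lit 4324815985) (nat_lit 456) (nat_lit 1333759174) (nat_lit 76) (nat_lit 8695791077) (nat_lit 159) (nat_lit 5) (nat_lit 165) (nat_lit 5) (nat_lit 160) (nat_lit 5) (nat_lit 406) (nat_lit 349) (nat_lit 265)) (XT.lf (nat_lit 0) (nat_lit 9683718644) (nat_lit 456) (nat_lit 2712811023) (nat_lit 76) (nat_lit 2215959685) (nat_lit 154) (nat_lit 5) (nat_lit 160) (nat_lit 5) (nat_lit 155) (nat_lit 5) (nat_lit 407) (nat_lit 349) (nat_lit 264)))) (XT.nd (nat_lit 78) (nat_lit 760) (nat_lit 0) (XT.lf (nat_lit 0) (nat_lit 401685241) (nat_lit 456) (nat_lit 4161108053) (nat_lit 76) (nat_lit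 10313906833) (nat_lit 148) (nat_lit 5) (nat_lit 154) (nat_lit 5) (nat_lit 149) (nat_lit 5) (nat_lit 408) (nat_lit 349) (nat_lit 263)) (XT.nd (nat_lit 78) (nat_lit 380) (nat_lit 0) (XT.lf (nat_lit 0) (nat_lit 5893194675) (nat_lit 456) (nat_lit 5698201565) (nat_lit 76) (nat_lit 3555431711) (nat_lit 143) (nat_lit 5) (nat_lit 149) (nat_lit 5) (nat_lit 144) (nat_lit 5) (nat_lit 409) (nat_lit 349) (nat_lit 262)) (XT.lf (nat_lit 0) (nat_lit 8121041203) (nat_lit 380) (nat_lit 3504930194) (nat_lit 456) (nat_lit 3797562006) (nat_lit 138) (nat_lit 5) (nat_lit 143) (nat_lit 5) (nat_lit 144) (nat_lit 5) (nat_lit 410) (nat_lit 349) (nat_lit 261))))))) (XT.nd (nat_lit 858) (nat_lit 1520) (nat_lit 0) (XT.nd (nat_lit 390) (nat_lit 1596) (nat_lit 0) (XT.nd (nat_lit 156) (nat_lit 1064) (nat_lit 0) (XT.nd (nat_lit 78) (nat_lit 304) (nat_lit 0) (XT.lf (nat_lit 0) (nat_lit 1878143340) (nat_lit 456) (nat_lit 8991138713)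 (nat_lit 76) (nat_lit 4837428370) (nat_lit 132) (nat_lit 5) (nat_lit 138) (nat_lit 5) (nat_lit 133) (nat_lit 5) (nat_lit 411) (nat_lit 349) (nat_lit 260)) (XT.lf (nat_lit 0) (nat_lit 5222910512) (nat_lit 304) (nat_lit 2522961638) (nat_lit 380) (nat_lit 8250545551) (nat_lit 128) (nat_lit 5) (nat_lit 132) (nat_lit 5) (nat_lit 133) (nat_lit 5) (nat_lit 412) (nat_lit 349) (nat_lit 259))) (XT.nd (nat_lit 78) (nat_lit 684) (nat_lit 0) (XT.lf (nat_lit 0) (nat_lit 3648005393) (nat_lit 380) (nat_lit 10232500125) (nat_lit 456) (nat_lit 2412497022) (nat_lit 123) (nat_lit 5) (nat_lit 128) (nat_lit 5) (nat_lit 129) (nat_lit 5) (nat_lit 413) (nat_lit 349) (nat_lit 258)) (XT.nd (nat_lit 78) (nat_lit 304) (nat_lit 0) (XT.lf (nat_lit 0) (nat_lit 1985471085) (nat_lit 304) (nat_lit 1638090412) (nat_lit 380) (nat_lit 12973057634) (nat_lit 118) (nat_lit 5) (nat_lit 122) (nat_lit 5) (nat_lit 123) (nat_lit 5) (nat_lit 414)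 (nat_lit 349) (nat_lit 257)) (XT.lf (nat_lit 0) (nat_lit 207366827) (nat_lit 304) (nat_lit 9702532779) (nat_lit 380) (nat_lit 6997089706) (nat_lit 114) (nat_lit 5) (nat_lit 118) (nat_lit 5) (nat_lit 119) (nat_lit 5) (nat_lit 415) (nat_lit 349) (nat_lit 256))))) (XT.nd (nat_lit 234) (nat_lit 912) (nat_lit 0) (XT.nd (nat_lit 78) (nat_lit 684) (nat_lit 0) (XT.lf (nat_lit 0) (nat_lit 15608059793) (nat_lit 304) (nat_lit 854626493) (nat_lit 380) (nat_lit 762430550) (nat_lit 114) (nat_lit 5) (nat_lit 118) (nat_lit 5) (nat_lit 119) (nat_lit 5) (nat_lit 416) (nat_lit 349) (nat_lit 255)) (XT.nd (nat_lit 78) (nat_lit 304) (nat_lit 0) (XT.lf (nat_lit 0) (nat_lit 5699073986) (nat_lit 380) (nat_lit 3590361043) (nat_lit 76) (nat_lit 8260340967) (nat_lit 109) (nat_lit 5) (nat_lit 114) (nat_lit 5) (nat_lit 110) (nat_lit 5) (nat_lit 417) (nat_lit 349) (nat_lit 254)) (XT.lf (nat_lit 0) (nat_lit 12241133481) (nat_lit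 304) (nat_lit 168373836) (nat_lit 380) (nat_lit 5473261127) (nat_lit 105) (nat_lit 5) (nat_lit 109) (nat_lit 5) (nat_lit 110) (nat_lit 5) (nat_lit 418) (nat_lit 349) (nat_lit 253)))) (XT.nd (nat_lit 78) (nat_lit 532) (nat_lit 0) (XT.lf (nat_lit 0) (nat_lit 1203460433) (nat_lit 380) (nat_lit 7833038068) (nat_lit 76) (nat_lit 9186666403) (nat_lit 100) (nat_lit 5) (nat_lit 105) (nat_lit 5) (nat_lit 101) (nat_lit 5) (nat_lit 419) (nat_lit 349) (nat_lit 252)) (XT.nd (nat_lit 78) (nat_lit 228) (nat_lit 0) (XT.lf (nat_lit 0) (nat_lit 8073212539) (nat_lit 380) (nat_lit 10143608894) (nat_lit 76) (nat_lit 354889387) (nat_lit 96) (nat_lit 5) (nat_lit 101) (nat_lit 5) (nat_lit 97) (nat_lit 5) (nat_lit 420) (nat_lit 349) (nat_lit 251)) (XT.lf (nat_lit 0) (nat_lit 6328024424) (nat_lit 228) (nat_lit 8946403132) (nat_lit 304) (nat_lit 3653780974) (nat_lit 93) (nat_lit 5) (nat_lit 96) (nat_lit 5) (nat_lit 97) (nat_lit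 5) (nat_lit 421) (nat_lit 349) (nat_lit 250)))))) (XT.nd (nat_lit 390) (nat_lit 304) (nat_lit 0) (XT.nd (nat_lit 156) (nat_lit 608) (nat_lit 0) (XT.nd (nat_lit 78) (nat_lit 228) (nat_lit 0) (XT.lf (nat_lit 0) (nat_lit 3423031401) (nat_lit 380) (nat_lit 15176444862) (nat_lit 76) (nat_lit 694060652) (nat_lit 88) (nat_lit 5) (nat_lit 93) (nat_lit 5) (nat_lit 89) (nat_lit 5) (nat_lit 422) (nat_lit 349) (nat_lit 249)) (XT.lf (nat_lit 0) (nat_lit 1730006361) (nat_lit 228) (nat_lit 9060989585) (nat_lit 304) (nat_lit 8875779021) (nat_lit 85) (nat_lit 5) (nat_lit 88) (nat_lit 5) (nat_lit 89) (nat_lit 5) (nat_lit 423) (nat_lit 349) (nat_lit 248))) (XT.nd (nat_lit 78) (nat_lit 608) (nat_lit 0) (XT.lf (nat_lit 0) (nat_lit 18460083298) (nat_lit 304) (nat_lit 751164695) (nat_lit 76) (nat_lit 838363022) (nat_lit 85) (nat_lit 5) (nat_lit 89) (nat_lit 5) (nat_lit 86) (nat_lit 5) (nat_lit 424) (nat_lit 349) (nat_lit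 247)) (XT.nd (nat_lit 78) (nat_lit 228) (nat_lit 0) (XT.lf (nat_lit 0) (nat_lit 5982516574) (nat_lit 380) (nat_lit 3413538654) (nat_lit 76) (nat_lit 11044215492) (nat_lit 80) (nat_lit 5) (nat_lit 85) (nat_lit 5) (nat_lit 81) (nat_lit 5) (nat_lit 425) (nat_lit 349) (nat_lit 246)) (XT.lf (nat_lit 0) (nat_lit 13838435139) (nat_lit 304) (nat_lit 6205152215) (nat_lit 76) (nat_lit 797288899) (nat_lit 77) (nat_lit 5) (nat_lit 81) (nat_lit 5) (nat_lit 78) (nat_lit 5) (nat_lit 426) (nat_lit 349) (nat_lit 245))))) (XT.nd (nat_lit 47268) (nat_lit 0) (nat_lit 41876) (XT.nd (nat_lit 47112) (nat_lit 0) (nat_lit 43852) (XT.lf (nat_lit 0) (nat_lit 806189125) (nat_lit 304) (nat_lit 9186245329) (nat_lit 76) (nat_lit 11258209264) (nat_lit 73) (nat_lit 5) (nat_lit 77) (nat_lit 5) (nat_lit 74) (nat_lit 5) (nat_lit 427) (nat_lit 349) (nat_lit 244)) (XT.nd (nat_lit 78) (nat_lit 0) (nat_lit 0) (XT.lf (nat_lit 0) (nat_lit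 1660127260) (nat_lit 988) (nat_lit 887020135) (nat_lit 988) (nat_lit 887020135) (nat_lit 650) (nat_lit 3) (nat_lit 663) (nat_lit 3) (nat_lit 663) (nat_lit 5) (nat_lit 350) (nat_lit 350) (nat_lit 320)) (XT.lf (nat_lit 76) (nat_lit 3293740506) (nat_lit 0) (nat_lit 2982249089) (nat_lit 988) (nat_lit 636365733) (nat_lit 651) (nat_lit 5) (nat_lit 650) (nat_lit 3) (nat_lit 663) (nat_lit 5) (nat_lit 351) (nat_lit 350) (nat_lit 319)))) (XT.nd (nat_lit 78) (nat_lit 988) (nat_lit 0) (XT.lf (nat_lit 76) (nat_lit 1525226509) (nat_lit 0) (nat_lit 714754847) (nat_lit 1064) (nat_lit 4719276585) (nat_lit 638) (nat_lit 5) (nat_lit 637) (nat_lit 5) (nat_lit 651) (nat_lit 5) (nat_lit 352) (nat_lit 350) (nat_lit 318)) (XT.nd (nat_lit 78) (nat_lit 1064) (nat_lit 0) (XT.lf (nat_lit 0) (nat_lit 5118761958) (nat_lit 988) (nat_lit 210460293) (nat_lit 1064) (nat_lit 1679798397) (nat_lit 638) (nat_lit 5) (nat_lit 651) (nat_lit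 5) (nat_lit 652) (nat_lit 5) (nat_lit 353) (nat_lit 350) (nat_lit 317)) (XT.lf (nat_lit 0) (nat_lit 940836103) (nat_lit 1064) (nat_lit 1894558543) (nat_lit 1140) (nat_lit 4226167371) (nat_lit 624) (nat_lit 5) (nat_lit 638) (nat_lit 5) (nat_lit 639) (nat_lit 5) (nat_lit 354) (nat_lit 350) (nat_lit 316))))))))
noncomputable def xc63 : XT := (XT.nd (nat_lit 1716) (nat_lit 13680) (nat_lit 0) (XT.nd (nat_lit 858) (nat_lit 13756) (nat_lit 0) (XT.nd (nat_lit 390) (nat_lit 2432) (nat_lit 0) (XT.nd (nat_lit 156) (nat_lit 2204) (nat_lit 0) (XT.nd (nat_lit 78) (nat_lit 0) (nat_lit 76) (XT.lf (nat_lit 76) (nat_lit 3567121360) (nat_lit 0) (nat_lit 183574499) (nat_lit 1140) (nat_lit 3366374029) (nat_lit 625) (nat_lit 5) (nat_lit 624) (nat_lit 5) (nat_lit 639) (nat_lit 5) (nat_lit 355) (nat_lit 350) (nat_lit 315)) (XT.lf (nat_lit 76) (nat_lit 1992684446) (nat_lit 0) (nat_lit 4592305001) (nat_lit 1140) (nat_lit 590480321)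 (nat_lit 626) (nat_lit 5) (nat_lit 625) (nat_lit 5) (nat_lit 640) (nat_lit 5) (nat_lit 356) (nat_lit 350) (nat_lit 314))) (XT.nd (nat_lit 78) (nat_lit 1140) (nat_lit 0) (XT.lf (nat_lit 76) (nat_lit 442953927) (nat_lit 0) (nat_lit 1723933367) (nat_lit 1216) (nat_lit 5069908837) (nat_lit 611) (nat_lit 5) (nat_lit 610) (nat_lit 5) (nat_lit 626) (nat_lit 5) (nat_lit 357) (nat_lit 350) (nat_lit 313)) (XT.nd (nat_lit 78) (nat_lit 1216) (nat_lit 0) (XT.lf (nat_lit 0) (nat_lit 4944743429) (nat_lit 1140) (nat_lit 1066031337) (nat_lit 1216) (nat_lit 1290220955) (nat_lit 611) (nat_lit 5) (nat_lit 626) (nat_lit 5) (nat_lit 627) (nat_lit 5) (nat_lit 358) (nat_lit 350) (nat_lit 312)) (XT.lf (nat_lit 0) (nat_lit 380784224) (nat_lit 1216) (nat_lit 2546509733) (nat_lit 1292) (nat_lit 4440841830) (nat_lit 595) (nat_lit 5) (nat_lit 611) (nat_lit 5) (nat_lit 612) (nat_lit 5) (nat_lit 359) (nat_lit 350) (nat_lit 311)))))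 (XT.nd (nat_lit 234) (nat_lit 1216) (nat_lit 0) (XT.nd (nat_lit 78) (nat_lit 1292) (nat_lit 0) (XT.lf (nat_lit 0) (nat_lit 3106747195) (nat_lit 1216) (nat_lit 4009278098) (nat_lit 1292) (nat_lit 322201935) (nat_lit 596) (nat_lit 5) (nat_lit 612) (nat_lit 5) (nat_lit 613) (nat_lit 5) (nat_lit 360) (nat_lit 350) (nat_lit 310)) (XT.nd (nat_lit 78) (nat_lit 1292) (nat_lit 0) (XT.lf (nat_lit 76) (nat_lit 2053209248) (nat_lit 0) (nat_lit 3821047083) (nat_lit 1292) (nat_lit 1636994222) (nat_lit 597) (nat_lit 5) (nat_lit 596) (nat_lit 5) (nat_lit 613) (nat_lit 5) (nat_lit 361) (nat_lit 350) (nat_lit 309)) (XT.lf (nat_lit 76) (nat_lit 705540361) (nat_lit 0) (nat_lit 360904552) (nat_lit 1368) (nat_lit 6521034195) (nat_lit 580) (nat_lit 5) (nat_lit 579) (nat_lit 5) (nat_lit 597) (nat_lit 5) (nat_lit 362) (nat_lit 350) (nat_lit 308)))) (XT.nd (nat_lit 78) (nat_lit 1292) (nat_lit 0) (XT.lf (nat_lit 0) (nat_lit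 3800370511) (nat_lit 1292) (nat_lit 632077446) (nat_lit 1368) (nat_lit 3233920307) (nat_lit 580) (nat_lit 5) (nat_lit 597) (nat_lit 5) (nat_lit 598) (nat_lit 5) (nat_lit 363) (nat_lit 350) (nat_lit 307)) (XT.nd (nat_lit 78) (nat_lit 1292) (nat_lit 0) (XT.lf (nat_lit 76) (nat_lit 5817440490) (nat_lit 0) (nat_lit 755048107) (nat_lit 1368) (nat_lit 1176033975) (nat_lit 581) (nat_lit 5) (nat_lit 580) (nat_lit 5) (nat_lit 598) (nat_lit 5) (nat_lit 364) (nat_lit 350) (nat_lit 306)) (XT.lf (nat_lit 0) (nat_lit 1545651231) (nat_lit 1368) (nat_lit 3229568946) (nat_lit 76) (nat_lit 3058296447) (nat_lit 563) (nat_lit 5) (nat_lit 581) (nat_lit 5) (nat_lit 564) (nat_lit 5) (nat_lit 365) (nat_lit 350) (nat_lit 305)))))) (XT.nd (nat_lit 390) (nat_lit 7752) (nat_lit 0) (XT.nd (nat_lit 156) (nat_lit 3192) (nat_lit 0) (XT.nd (nat_lit 78) (nat_lit 1444) (nat_lit 0) (XT.lf (nat_lit 0) (nat_lit 3409788138) (nat_lit 1368)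 (nat_lit 883288091) (nat_lit 1444) (nat_lit 3628647761) (nat_lit 545) (nat_lit 5) (nat_lit 563) (nat_lit 5) (nat_lit 564) (nat_lit 5) (nat_lit 366) (nat_lit 350) (nat_lit 304)) (XT.lf (nat_lit 0) (nat_lit 2225872254) (nat_lit 1444) (nat_lit 4875491858) (nat_lit 1520) (nat_lit 911664373) (nat_lit 526) (nat_lit 5) (nat_lit 545) (nat_lit 5) (nat_lit 546) (nat_lit 5) (nat_lit 367) (nat_lit 350) (nat_lit 303))) (XT.nd (nat_lit 78) (nat_lit 1596) (nat_lit 0) (XT.lf (nat_lit 0) (nat_lit 1053276551) (nat_lit 1520) (nat_lit 775346934) (nat_lit 1596) (nat_lit 6278891560) (nat_lit 505) (nat_lit 5) (nat_lit 525) (nat_lit 5) (nat_lit 526) (nat_lit 5) (nat_lit 368) (nat_lit 350) (nat_lit 302)) (XT.nd (nat_lit 78) (nat_lit 1596) (nat_lit 0) (XT.lf (nat_lit 0) (nat_lit 4625605664) (nat_lit 1596) (nat_lit 118525227) (nat_lit 76) (nat_lit 3460865571) (nat_lit 505) (nat_lit 5) (nat_lit 526) (nat_lit 5) (nat_lit 506)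 (nat_lit 5) (nat_lit 369) (nat_lit 350) (nat_lit 301)) (XT.lf (nat_lit 0) (nat_lit 7050534312) (nat_lit 1596) (nat_lit 434051334) (nat_lit 1672) (nat_lit 821272593) (nat_lit 484) (nat_lit 5) (nat_lit 505) (nat_lit 5) (nat_lit 506) (nat_lit 5) (nat_lit 370) (nat_lit 350) (nat_lit 300))))) (XT.nd (nat_lit 234) (nat_lit 2812) (nat_lit 0) (XT.nd (nat_lit 78) (nat_lit 3192) (nat_lit 0) (XT.lf (nat_lit 0) (nat_lit 1987849105) (nat_lit 1748) (nat_lit 2405992986) (nat_lit 76) (nat_lit 4015763417) (nat_lit 461) (nat_lit 5) (nat_lit 484) (nat_lit 5) (nat_lit 462) (nat_lit 5) (nat_lit 371) (nat_lit 350) (nat_lit 299)) (XT.nd (nat_lit 78) (nat_lit 1444) (nat_lit 0) (XT.lf (nat_lit 0) (nat_lit 4844888157) (nat_lit 1824) (nat_lit 3542178681) (nat_lit 76) (nat_lit 129810097) (nat_lit 438) (nat_lit 5) (nat_lit 462) (nat_lit 5) (nat_lit 439) (nat_lit 5) (nat_lit 372) (nat_lit 350) (nat_lit 298)) (XT.lf (nat_lit 0)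 (nat_lit 3942060597) (nat_lit 1444) (nat_lit 3848762321) (nat_lit 1520) (nat_lit 836495761) (nat_lit 419) (nat_lit 5) (nat_lit 438) (nat_lit 5) (nat_lit 439) (nat_lit 5) (nat_lit 373) (nat_lit 350) (nat_lit 297)))) (XT.nd (nat_lit 78) (nat_lit 1824) (nat_lit 0) (XT.lf (nat_lit 0) (nat_lit 2038541279) (nat_lit 988) (nat_lit 5826467039) (nat_lit 76) (nat_lit 876173596) (nat_lit 406) (nat_lit 5) (nat_lit 419) (nat_lit 5) (nat_lit 407) (nat_lit 5) (nat_lit 374) (nat_lit 350) (nat_lit 296)) (XT.nd (nat_lit 78) (nat_lit 912) (nat_lit 0) (XT.lf (nat_lit 0) (nat_lit 1879023701) (nat_lit 912) (nat_lit 3113904212) (nat_lit 988) (nat_lit 3865347947) (nat_lit 394) (nat_lit 5) (nat_lit 406) (nat_lit 5) (nat_lit 407) (nat_lit 5) (nat_lit 375) (nat_lit 350) (nat_lit 295)) (XT.lf (nat_lit 0) (nat_lit 853360695) (nat_lit 912) (nat_lit 7175443315) (nat_lit 988) (nat_lit 950235693) (nat_lit 382) (nat_lit 5) (nat_lit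 394) (nat_lit 5) (nat_lit 395) (nat_lit 5) (nat_lit 376) (nat_lit 350) (nat_lit 294))))))) (XT.nd (nat_lit 858) (nat_lit 6612) (nat_lit 0) (XT.nd (nat_lit 390) (nat_lit 3724) (nat_lit 0) (XT.nd (nat_lit 156) (nat_lit 2432) (nat_lit 0) (XT.nd (nat_lit 78) (nat_lit 836) (nat_lit 0) (XT.lf (nat_lit 0) (nat_lit 2030893925) (nat_lit 988) (nat_lit 183634556) (nat_lit 76) (nat_lit 6888535416) (nat_lit 381) (nat_lit 5) (nat_lit 394) (nat_lit 5) (nat_lit 382) (nat_lit 5) (nat_lit 377) (nat_lit 350) (nat_lit 293)) (XT.lf (nat_lit 0) (nat_lit 5098852449) (nat_lit 912) (nat_lit 1215705698) (nat_lit 76) (nat_lit 2915932102) (nat_lit 370) (nat_lit 5) (nat_lit 382) (nat_lit 5) (nat_lit 371) (nat_lit 5) (nat_lit 378) (nat_lit 350) (nat_lit 292))) (XT.nd (nat_lit 78) (nat_lit 1596) (nat_lit 0) (XT.lf (nat_lit 0) (nat_lit 7116932613) (nat_lit 836) (nat_lit 1144454741) (nat_lit 912) (nat_lit 1100314058) (nat_lit 359)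 (nat_lit 5) (nat_lit 370) (nat_lit 5) (nat_lit 371) (nat_lit 5) (nat_lit 379) (nat_lit 350) (nat_lit 291)) (XT.nd (nat_lit 78) (nat_lit 760) (nat_lit 0) (XT.lf (nat_lit 0) (nat_lit 2012903882) (nat_lit 836) (nat_lit 3297688794) (nat_lit 76) (nat_lit 4185656380) (nat_lit 348) (nat_lit 5) (nat_lit 359) (nat_lit 5) (nat_lit 349) (nat_lit 5) (nat_lit 380) (nat_lit 350) (nat_lit 290)) (XT.lf (nat_lit 0) (nat_lit 5204962101) (nat_lit 836) (nat_lit 4351129652) (nat_lit 76) (nat_lit 78599864) (nat_lit 338) (nat_lit 5) (nat_lit 349) (nat_lit 5) (nat_lit 339) (nat_lit 5) (nat_lit 381) (nat_lit 350) (nat_lit 289))))) (XT.nd (nat_lit 234) (nat_lit 1444) (nat_lit 0) (XT.nd (nat_lit 78) (nat_lit 1520) (nat_lit 0) (XT.lf (nat_lit 0) (nat_lit 4350345279) (nat_lit 760) (nat_lit 4172461337) (nat_lit 836) (nat_lit 1253891806) (nat_lit 328) (nat_lit 5) (nat_lit 338) (nat_lit 5) (nat_lit 339) (nat_lit 5) (nat_lit 382)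 (nat_lit 350) (nat_lit 288)) (XT.nd (nat_lit 78) (nat_lit 684) (nat_lit 0) (XT.lf (nat_lit 0) (nat_lit 1996595154) (nat_lit 836) (nat_lit 6511819284) (nat_lit 76) (nat_lit 1414183352) (nat_lit 317) (nat_lit 5) (nat_lit 328) (nat_lit 5) (nat_lit 318) (nat_lit 5) (nat_lit 383) (nat_lit 350) (nat_lit 287)) (XT.lf (nat_lit 0) (nat_lit 2449351800) (nat_lit 684) (nat_lit 2904946908) (nat_lit 760) (nat_lit 4717885506) (nat_lit 308) (nat_lit 5) (nat_lit 317) (nat_lit 5) (nat_lit 318) (nat_lit 5) (nat_lit 384) (nat_lit 350) (nat_lit 286)))) (XT.nd (nat_lit 78) (nat_lit 760) (nat_lit 0) (XT.lf (nat_lit 0) (nat_lit 1482224540) (nat_lit 684) (nat_lit 7350120785) (nat_lit 760) (nat_lit 1393530947) (nat_lit 299) (nat_lit 5) (nat_lit 308) (nat_lit 5) (nat_lit 309) (nat_lit 5) (nat_lit 385) (nat_lit 350) (nat_lit 285)) (XT.nd (nat_lit 78) (nat_lit 0) (nat_lit 0) (XT.lf (nat_lit 0) (nat_lit 494021019) (nat_lit 684)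 (nat_lit 1532290164) (nat_lit 760) (nat_lit 8357166262) (nat_lit 289) (nat_lit 5) (nat_lit 298) (nat_lit 5) (nat_lit 299) (nat_lit 5) (nat_lit 386) (nat_lit 350) (nat_lit 284)) (XT.lf (nat_lit 0) (nat_lit 5567353315) (nat_lit 760) (nat_lit 515899211) (nat_lit 76) (nat_lit 4461628654) (nat_lit 289) (nat_lit 5) (nat_lit 299) (nat_lit 5) (nat_lit 290) (nat_lit 5) (nat_lit 387) (nat_lit 350) (nat_lit 283)))))) (XT.nd (nat_lit 468) (nat_lit 2812) (nat_lit 0) (XT.nd (nat_lit 234) (nat_lit 1824) (nat_lit 0) (XT.nd (nat_lit 78) (nat_lit 1292) (nat_lit 0) (XT.lf (nat_lit 0) (nat_lit 9189807002) (nat_lit 684) (nat_lit 45053081) (nat_lit 760) (nat_lit 1475871502) (nat_lit 280) (nat_lit 5) (nat_lit 289) (nat_lit 5) (nat_lit 290) (nat_lit 5) (nat_lit 388) (nat_lit 350) (nat_lit 282)) (XT.nd (nat_lit 78) (nat_lit 608) (nat_lit 0) (XT.lf (nat_lit 0) (nat_lit 2152166844) (nat_lit 684) (nat_lit 2572745617) (nat_lit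 76) (nat_lit 6155391553) (nat_lit 271) (nat_lit 5) (nat_lit 280) (nat_lit 5) (nat_lit 272) (nat_lit 5) (nat_lit 389) (nat_lit 350) (nat_lit 281)) (XT.lf (nat_lit 0) (nat_lit 5890065238) (nat_lit 684) (nat_lit 3639464188) (nat_lit 76) (nat_lit 1524826200) (nat_lit 263) (nat_lit 5) (nat_lit 272) (nat_lit 5) (nat_lit 264) (nat_lit 5) (nat_lit 390) (nat_lit 350) (nat_lit 280)))) (XT.nd (nat_lit 78) (nat_lit 1216) (nat_lit 0) (XT.lf (nat_lit 0) (nat_lit 6498718429) (nat_lit 608) (nat_lit 3285710717) (nat_lit 684) (nat_lit 1448321345) (nat_lit 255) (nat_lit 5) (nat_lit 263) (nat_lit 5) (nat_lit 264) (nat_lit 5) (nat_lit 391) (nat_lit 350) (nat_lit 279)) (XT.nd (nat_lit 78) (nat_lit 532) (nat_lit 0) (XT.lf (nat_lit 0) (nat_lit 2383455657) (nat_lit 684) (nat_lit 5862962595) (nat_lit 76) (nat_lit 3169067260) (nat_lit 246) (nat_lit 5) (nat_lit 255) (nat_lit 5) (nat_lit 247) (nat_lit 5) (nat_lit 392) (nat_lit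 350) (nat_lit 278)) (XT.lf (nat_lit 0) (nat_lit 4579151861) (nat_lit 532) (nat_lit 1770028960) (nat_lit 608) (nat_lit 5253564503) (nat_lit 239) (nat_lit 5) (nat_lit 246) (nat_lit 5) (nat_lit 247) (nat_lit 5) (nat_lit 393) (nat_lit 350) (nat_lit 277))))) (XT.nd (nat_lit 234) (nat_lit 1064) (nat_lit 0) (XT.nd (nat_lit 78) (nat_lit 1140) (nat_lit 0) (XT.lf (nat_lit 0) (nat_lit 3576467517) (nat_lit 608) (nat_lit 6907871325) (nat_lit 684) (nat_lit 1310282293) (nat_lit 231) (nat_lit 5) (nat_lit 239) (nat_lit 5) (nat_lit 240) (nat_lit 5) (nat_lit 394) (nat_lit 350) (nat_lit 276)) (XT.nd (nat_lit 78) (nat_lit 532) (nat_lit 0) (XT.lf (nat_lit 0) (nat_lit 2544772126) (nat_lit 532) (nat_lit 202770263) (nat_lit 608) (nat_lit 9243714077) (nat_lit 223) (nat_lit 5) (nat_lit 230) (nat_lit 5) (nat_lit 231) (nat_lit 5) (nat_lit 395) (nat_lit 350) (nat_lit 275)) (XT.lf (nat_lit 0) (nat_lit 1459088396) (nat_lit 532) (nat_lit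 5516245751) (nat_lit 608) (nat_lit 5216969673) (nat_lit 216) (nat_lit 5) (nat_lit 223) (nat_lit 5) (nat_lit 224) (nat_lit 5) (nat_lit 396) (nat_lit 350) (nat_lit 274)))) (XT.nd (nat_lit 78) (nat_lit 608) (nat_lit 0) (XT.lf (nat_lit 0) (nat_lit 359538979) (nat_lit 456) (nat_lit 11005032847) (nat_lit 532) (nat_lit 1034125189) (nat_lit 210) (nat_lit 5) (nat_lit 216) (nat_lit 5) (nat_lit 217) (nat_lit 5) (nat_lit 397) (nat_lit 350) (nat_lit 273)) (XT.nd (nat_lit 78) (nat_lit 532) (nat_lit 0) (XT.lf (nat_lit 0) (nat_lit 3299619627) (nat_lit 532) (nat_lit 793701276) (nat_lit 76) (nat_lit 8516175142) (nat_lit 209) (nat_lit 5) (nat_lit 216) (nat_lit 5) (nat_lit 210) (nat_lit 5) (nat_lit 398) (nat_lit 350) (nat_lit 272)) (XT.lf (nat_lit 0) (nat_lit 7799507523) (nat_lit 608) (nat_lit 1976763057) (nat_lit 76) (nat_lit 3049214300) (nat_lit 202) (nat_lit 5) (nat_lit 210) (nat_lit 5) (nat_lit 203) (nat_lit 5) (nat_lit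 399) (nat_lit 350) (nat_lit 271))))))))
noncomputable def xc64 : XT := (XT.nd (nat_lit 1716) (nat_lit 1444) (nat_lit 0) (XT.nd (nat_lit 858) (nat_lit 3572) (nat_lit 0) (XT.nd (nat_lit 390) (nat_lit 2128) (nat_lit 0) (XT.nd (nat_lit 156) (nat_lit 1368) (nat_lit 0) (XT.nd (nat_lit 78) (nat_lit 532) (nat_lit 0) (XT.lf (nat_lit 0) (nat_lit 9849836510) (nat_lit 456) (nat_lit 2641493220) (nat_lit 532) (nat_lit 555490874) (nat_lit 196) (nat_lit 5) (nat_lit 202) (nat_lit 5) (nat_lit 203) (nat_lit 5) (nat_lit 400) (nat_lit 350) (nat_lit 270)) (XT.lf (nat_lit 0) (nat_lit 4058585022) (nat_lit 532) (nat_lit 4486716117) (nat_lit 76) (nat_lit 4727723568) (nat_lit 189) (nat_lit 5) (nat_lit 196) (nat_lit 5) (nat_lit 190) (nat_lit 5) (nat_lit 401) (nat_lit 350) (nat_lit 269))) (XT.nd (nat_lit 78) (nat_lit 912) (nat_lit 0) (XT.lf (nat_lit 0) (nat_lit 7691853559) (nat_lit 456) (nat_lit 1162568819) (nat_lit 532) (nat_lit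 4650506920) (nat_lit 183) (nat_lit 5) (nat_lit 189) (nat_lit 5) (nat_lit 190) (nat_lit 5) (nat_lit 402) (nat_lit 350) (nat_lit 268)) (XT.nd (nat_lit 78) (nat_lit 380) (nat_lit 0) (XT.lf (nat_lit 0) (nat_lit 127198964) (nat_lit 532) (nat_lit 7199840181) (nat_lit 76) (nat_lit 6415200292) (nat_lit 176) (nat_lit 5) (nat_lit 183) (nat_lit 5) (nat_lit 177) (nat_lit 5) (nat_lit 403) (nat_lit 350) (nat_lit 267)) (XT.lf (nat_lit 0) (nat_lit 5032113602) (nat_lit 456) (nat_lit 8648217415) (nat_lit 76) (nat_lit 304786977) (nat_lit 171) (nat_lit 5) (nat_lit 177) (nat_lit 5) (nat_lit 172) (nat_lit 5) (nat_lit 404) (nat_lit 350) (nat_lit 266))))) (XT.nd (nat_lit 234) (nat_lit 836) (nat_lit 0) (XT.nd (nat_lit 78) (nat_lit 836) (nat_lit 0) (XT.lf (nat_lit 0) (nat_lit 4064048603) (nat_lit 456) (nat_lit 6107863146) (nat_lit 532) (nat_lit 4061621393) (nat_lit 165) (nat_lit 5) (nat_lit 171) (nat_lit 5) (nat_lit 172) (nat_lit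 5) (nat_lit 405) (nat_lit 350) (nat_lit 265)) (XT.nd (nat_lit 78) (nat_lit 380) (nat_lit 0) (XT.lf (nat_lit 0) (nat_lit 1015777266) (nat_lit 456) (nat_lit 11736068152) (nat_lit 76) (nat_lit 1736391618) (nat_lit 159) (nat_lit 5) (nat_lit 165) (nat_lit 5) (nat_lit 160) (nat_lit 5) (nat_lit 406) (nat_lit 350) (nat_lit 264)) (XT.lf (nat_lit 0) (nat_lit 1347409652) (nat_lit 380) (nat_lit 4926509097) (nat_lit 456) (nat_lit 8474458883) (nat_lit 154) (nat_lit 5) (nat_lit 159) (nat_lit 5) (nat_lit 160) (nat_lit 5) (nat_lit 407) (nat_lit 350) (nat_lit 263)))) (XT.nd (nat_lit 78) (nat_lit 836) (nat_lit 0) (XT.lf (nat_lit 0) (nat_lit 11755115007) (nat_lit 456) (nat_lit 104560820) (nat_lit 76) (nat_lit 3155344853) (nat_lit 154) (nat_lit 5) (nat_lit 160) (nat_lit 5) (nat_lit 155) (nat_lit 5) (nat_lit 408) (nat_lit 350) (nat_lit 262)) (XT.nd (nat_lit 78) (nat_lit 380) (nat_lit 0) (XT.lf (nat_lit 0) (nat_lit 2171710155)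 (nat_lit 456) (nat_lit 1616365545) (nat_lit 76) (nat_lit 11499551156) (nat_lit 148) (nat_lit 5) (nat_lit 154) (nat_lit 5) (nat_lit 149) (nat_lit 5) (nat_lit 409) (nat_lit 350) (nat_lit 261)) (XT.lf (nat_lit 0) (nat_lit 7799672445) (nat_lit 456) (nat_lit 3214056827) (nat_lit 76) (nat_lit 4552701348) (nat_lit 143) (nat_lit 5) (nat_lit 149) (nat_lit 5) (nat_lit 144) (nat_lit 5) (nat_lit 410) (nat_lit 350) (nat_lit 260)))))) (XT.nd (nat_lit 390) (nat_lit 1672) (nat_lit 0) (XT.nd (nat_lit 156) (nat_lit 1064) (nat_lit 0) (XT.nd (nat_lit 78) (nat_lit 456) (nat_lit 0) (XT.lf (nat_lit 0) (nat_lit 10976687531) (nat_lit 380) (nat_lit 2694324787) (nat_lit 456) (nat_lit 2181099394) (nat_lit 138) (nat_lit 5) (nat_lit 143) (nat_lit 5) (nat_lit 144) (nat_lit 5) (nat_lit 411) (nat_lit 350) (nat_lit 259)) (XT.lf (nat_lit 0) (nat_lit 3615230267) (nat_lit 456) (nat_lit 6640980937) (nat_lit 76) (nat_lit 5887892972) (nat_lit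 132) (nat_lit 5) (nat_lit 138) (nat_lit 5) (nat_lit 133) (nat_lit 5) (nat_lit 412) (nat_lit 350) (nat_lit 258))) (XT.nd (nat_lit 78) (nat_lit 760) (nat_lit 0) (XT.lf (nat_lit 0) (nat_lit 7956985131) (nat_lit 304) (nat_lit 1669786249) (nat_lit 380) (nat_lit 6816381296) (nat_lit 128) (nat_lit 5) (nat_lit 132) (nat_lit 5) (nat_lit 133) (nat_lit 5) (nat_lit 413) (nat_lit 350) (nat_lit 257)) (XT.nd (nat_lit 78) (nat_lit 380) (nat_lit 0) (XT.lf (nat_lit 0) (nat_lit 6319704465) (nat_lit 380) (nat_lit 9600215082) (nat_lit 456) (nat_lit 829231446) (nat_lit 123) (nat_lit 5) (nat_lit 128) (nat_lit 5) (nat_lit 129) (nat_lit 5) (nat_lit 414) (nat_lit 350) (nat_lit 256)) (XT.lf (nat_lit 0) (nat_lit 4587261453) (nat_lit 304) (nat_lit 747849079) (nat_lit 380) (nat_lit 11727177432) (nat_lit 118) (nat_lit 5) (nat_lit 122) (nat_lit 5) (nat_lit 123) (nat_lit 5) (nat_lit 415) (nat_lit 350) (nat_lit 255))))) (XT.nd (nat_lit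 234) (nat_lit 988) (nat_lit 0) (XT.nd (nat_lit 78) (nat_lit 380) (nat_lit 0) (XT.lf (nat_lit 0) (nat_lit 2740276165) (nat_lit 304) (nat_lit 9045404294) (nat_lit 380) (nat_lit 5596780995) (nat_lit 114) (nat_lit 5) (nat_lit 118) (nat_lit 5) (nat_lit 119) (nat_lit 5) (nat_lit 416) (nat_lit 350) (nat_lit 254)) (XT.nd (nat_lit 78) (nat_lit 0) (nat_lit 0) (XT.lf (nat_lit 0) (nat_lit 773495695) (nat_lit 380) (nat_lit 16887083220) (nat_lit 76) (nat_lit 50263629) (nat_lit 109) (nat_lit 5) (nat_lit 114) (nat_lit 5) (nat_lit 110) (nat_lit 5) (nat_lit 417) (nat_lit 350) (nat_lit 253)) (XT.lf (nat_lit 0) (nat_lit 7389701827) (nat_lit 380) (nat_lit 1239991274) (nat_lit 76) (nat_lit 9416027942) (nat_lit 109) (nat_lit 5) (nat_lit 114) (nat_lit 5) (nat_lit 110) (nat_lit 5) (nat_lit 418) (nat_lit 350) (nat_lit 252)))) (XT.nd (nat_lit 78) (nat_lit 684) (nat_lit 0) (XT.lf (nat_lit 0) (nat_lit 14277780311) (nat_lit 380)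 (nat_lit 3367603759) (nat_lit 76) (nat_lit 743797067) (nat_lit 105) (nat_lit 5) (nat_lit 110) (nat_lit 5) (nat_lit 106) (nat_lit 5) (nat_lit 419) (nat_lit 350) (nat_lit 251)) (XT.nd (nat_lit 78) (nat_lit 304) (nat_lit 0) (XT.lf (nat_lit 0) (nat_lit 2718545082) (nat_lit 380) (nat_lit 5645697771) (nat_lit 76) (nat_lit 10375894030) (nat_lit 100) (nat_lit 5) (nat_lit 105) (nat_lit 5) (nat_lit 101) (nat_lit 5) (nat_lit 420) (nat_lit 350) (nat_lit 250)) (XT.lf (nat_lit 0) (nat_lit 9772833793) (nat_lit 380) (nat_lit 8041767407) (nat_lit 76) (nat_lit 1284973272) (nat_lit 96) (nat_lit 5) (nat_lit 101) (nat_lit 5) (nat_lit 97) (nat_lit 5) (nat_lit 421) (nat_lit 350) (nat_lit 249))))))) (XT.nd (nat_lit 47970) (nat_lit 0) (nat_lit 36860) (XT.nd (nat_lit 390) (nat_lit 228) (nat_lit 0) (XT.nd (nat_lit 156) (nat_lit 608) (nat_lit 0) (XT.nd (nat_lit 78) (nat_lit 380) (nat_lit 0) (XT.lf (nat_lit 0) (nat_lit 8884977990)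 (nat_lit 228) (nat_lit 8278026870) (nat_lit 304) (nat_lit 2304307916) (nat_lit 93) (nat_lit 5) (nat_lit 96) (nat_lit 5) (nat_lit 97) (nat_lit 5) (nat_lit 422) (nat_lit 350) (nat_lit 248)) (XT.lf (nat_lit 0) (nat_lit 4945041776) (nat_lit 380) (nat_lit 13261746087) (nat_lit 76) (nat_lit 1637040158) (nat_lit 88) (nat_lit 5) (nat_lit 93) (nat_lit 5) (nat_lit 89) (nat_lit 5) (nat_lit 423) (nat_lit 350) (nat_lit 247))) (XT.nd (nat_lit 78) (nat_lit 380) (nat_lit 0) (XT.lf (nat_lit 0) (nat_lit 4113448366) (nat_lit 228) (nat_lit 8394395406) (nat_lit 304) (nat_lit 7720947217) (nat_lit 85) (nat_lit 5) (nat_lit 88) (nat_lit 5) (nat_lit 89) (nat_lit 5) (nat_lit 424) (nat_lit 350) (nat_lit 246)) (XT.nd (nat_lit 78) (nat_lit 76) (nat_lit 0) (XT.lf (nat_lit 0) (nat_lit 1531272767) (nat_lit 304) (nat_lit 18851012173) (nat_lit 380) (nat_lit 241325193) (nat_lit 81) (nat_lit 5) (nat_lit 85) (nat_lit 5) (nat_lit 86) (nat_lit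 5) (nat_lit 425) (nat_lit 350) (nat_lit 245)) (XT.lf (nat_lit 0) (nat_lit 7504423983) (nat_lit 380) (nat_lit 1250169339) (nat_lit 76) (nat_lit 12271921490) (nat_lit 80) (nat_lit 5) (nat_lit 85) (nat_lit 5) (nat_lit 81) (nat_lit 5) (nat_lit 426) (nat_lit 350) (nat_lit 244))))) (XT.nd (nat_lit 47346) (nat_lit 0) (nat_lit 41496) (XT.nd (nat_lit 47190) (nat_lit 0) (nat_lit 42560) (XT.lf (nat_lit 0) (nat_lit 15577308587) (nat_lit 304) (nat_lit 4141738898) (nat_lit 76) (nat_lit 1720468616) (nat_lit 77) (nat_lit 5) (nat_lit 81) (nat_lit 5) (nat_lit 78) (nat_lit 5) (nat_lit 427) (nat_lit 350) (nat_lit 243)) (XT.nd (nat_lit 78) (nat_lit 0) (nat_lit 0) (XT.lf (nat_lit 0) (nat_lit 540207758) (nat_lit 0) (nat_lit 540207758) (nat_lit 988) (nat_lit 2398479666) (nat_lit 637) (nat_lit 5) (nat_lit 637) (nat_lit 3) (nat_lit 650) (nat_lit 3) (nat_lit 351) (nat_lit 351) (nat_lit 318)) (XT.lf (nat_lit 0) (nat_lit 4957518911)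 (nat_lit 988) (nat_lit 779225285) (nat_lit 1064) (nat_lit 1269308626) (nat_lit 637) (nat_lit 5) (nat_lit 650) (nat_lit 3) (nat_lit 651) (nat_lit 5) (nat_lit 352) (nat_lit 351) (nat_lit 317)))) (XT.nd (nat_lit 78) (nat_lit 0) (nat_lit 0) (XT.lf (nat_lit 0) (nat_lit 700602620) (nat_lit 1064) (nat_lit 2594906215) (nat_lit 1140) (nat_lit 3761613683) (nat_lit 623) (nat_lit 5) (nat_lit 637) (nat_lit 5) (nat_lit 638) (nat_lit 5) (nat_lit 353) (nat_lit 351) (nat_lit 316)) (XT.nd (nat_lit 78) (nat_lit 0) (nat_lit 76) (XT.lf (nat_lit 76) (nat_lit 2727156608) (nat_lit 0) (nat_lit 695239180) (nat_lit 1140) (nat_lit 3688727839) (nat_lit 624) (nat_lit 5) (nat_lit 623) (nat_lit 5) (nat_lit 638) (nat_lit 5) (nat_lit 354) (nat_lit 351) (nat_lit 315)) (XT.lf (nat_lit 76) (nat_lit 1020111018) (nat_lit 0) (nat_lit 5140766668) (nat_lit 1140) (nat_lit 1007195917) (nat_lit 625) (nat_lit 5) (nat_lit 624) (nat_lit 5) (nat_lit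 639) (nat_lit 5) (nat_lit 355) (nat_lit 351) (nat_lit 314)))))) (XT.nd (nat_lit 390) (nat_lit 2432) (nat_lit 0) (XT.nd (nat_lit 156) (nat_lit 1140) (nat_lit 0) (XT.nd (nat_lit 78) (nat_lit 0) (nat_lit 76) (XT.lf (nat_lit 0) (nat_lit 1666072804) (nat_lit 1140) (nat_lit 654756173) (nat_lit 1216) (nat_lit 4907017247) (nat_lit 609) (nat_lit 5) (nat_lit 624) (nat_lit 5) (nat_lit 625) (nat_lit 5) (nat_lit 356) (nat_lit 351) (nat_lit 313)) (XT.lf (nat_lit 0) (nat_lit 4345413857) (nat_lit 1140) (nat_lit 2289747339) (nat_lit 1216) (nat_lit 655353807) (nat_lit 610) (nat_lit 5) (nat_lit 625) (nat_lit 5) (nat_lit 626) (nat_lit 5) (nat_lit 357) (nat_lit 351) (nat_lit 312))) (XT.nd (nat_lit 78) (nat_lit 1216) (nat_lit 0) (XT.lf (nat_lit 76) (nat_lit 3451420710) (nat_lit 0) (nat_lit 3601504359) (nat_lit 1216) (nat_lit 303209476) (nat_lit 611) (nat_lit 5) (nat_lit 610) (nat_lit 5) (nat_lit 626) (nat_lit 5) (nat_lit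 358) (nat_lit 351) (nat_lit 311)) (XT.nd (nat_lit 78) (nat_lit 0) (nat_lit 76) (XT.lf (nat_lit 76) (nat_lit 1923626565) (nat_lit 0) (nat_lit 397850701) (nat_lit 1292) (nat_lit 5103251649) (nat_lit 595) (nat_lit 5) (nat_lit 594) (nat_lit 5) (nat_lit 611) (nat_lit 5) (nat_lit 359) (nat_lit 351) (nat_lit 310)) (XT.lf (nat_lit 76) (nat_lit 410094770) (nat_lit 0) (nat_lit 4568538568) (nat_lit 1292) (nat_lit 2517575218) (nat_lit 596) (nat_lit 5) (nat_lit 595) (nat_lit 5) (nat_lit 612) (nat_lit 5) (nat_lit 360) (nat_lit 351) (nat_lit 309))))) (XT.nd (nat_lit 234) (nat_lit 1216) (nat_lit 0) (XT.nd (nat_lit 78) (nat_lit 0) (nat_lit 76) (XT.lf (nat_lit 0) (nat_lit 95274606) (nat_lit 1292) (nat_lit 1058899665) (nat_lit 1368) (nat_lit 6416632434) (nat_lit 578) (nat_lit 5) (nat_lit 595) (nat_lit 5) (nat_lit 596) (nat_lit 5) (nat_lit 361) (nat_lit 351) (nat_lit 308)) (XT.nd (nat_lit 78) (nat_lit 0) (nat_lit 0) (XT.lf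 (nat_lit 0) (nat_lit 2715648798) (nat_lit 1292) (nat_lit 2522651827) (nat_lit 1368) (nat_lit 2409765123) (nat_lit 579) (nat_lit 5) (nat_lit 596) (nat_lit 5) (nat_lit 597) (nat_lit 5) (nat_lit 362) (nat_lit 351) (nat_lit 307)) (XT.lf (nat_lit 76) (nat_lit 3764787876) (nat_lit 0) (nat_lit 1605452603) (nat_lit 1368) (nat_lit 2358311926) (nat_lit 580) (nat_lit 5) (nat_lit 579) (nat_lit 5) (nat_lit 597) (nat_lit 5) (nat_lit 363) (nat_lit 351) (nat_lit 306)))) (XT.nd (nat_lit 78) (nat_lit 0) (nat_lit 0) (XT.lf (nat_lit 0) (nat_lit 254163788) (nat_lit 1368) (nat_lit 5391714924) (nat_lit 1444) (nat_lit 2166258004) (nat_lit 562) (nat_lit 5) (nat_lit 580) (nat_lit 5) (nat_lit 581) (nat_lit 5) (nat_lit 364) (nat_lit 351) (nat_lit 305)) (XT.nd (nat_lit 78) (nat_lit 0) (nat_lit 76) (XT.lf (nat_lit 76) (nat_lit 1080142390) (nat_lit 0) (nat_lit 1797683631) (nat_lit 1444) (nat_lit 5020814018) (nat_lit 563) (nat_lit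 5) (nat_lit 562) (nat_lit 5) (nat_lit 581) (nat_lit 5) (nat_lit 365) (nat_lit 351) (nat_lit 304)) (XT.lf (nat_lit 0) (nat_lit 5552995788) (nat_lit 1368) (nat_lit 242125036) (nat_lit 76) (nat_lit 2193181395) (nat_lit 563) (nat_lit 5) (nat_lit 581) (nat_lit 5) (nat_lit 564) (nat_lit 5) (nat_lit 366) (nat_lit 351) (nat_lit 303))))))))
noncomputable def xc65 : XT := (XT.nd (nat_lit 1716) (nat_lit 10412) (nat_lit 0) (XT.nd (nat_lit 858) (nat_lit 7676) (nat_lit 0) (XT.nd (nat_lit 390) (nat_lit 6080) (nat_lit 0) (XT.nd (nat_lit 156) (nat_lit 4864) (nat_lit 0) (XT.nd (nat_lit 78) (nat_lit 1444) (nat_lit 0) (XT.lf (nat_lit 0) (nat_lit 203374922) (nat_lit 1444) (nat_lit 1536063134) (nat_lit 76) (nat_lit 6341633479) (nat_lit 544) (nat_lit 5) (nat_lit 563) (nat_lit 5) (nat_lit 545) (nat_lit 5) (nat_lit 367) (nat_lit 351) (nat_lit 302)) (XT.lf (nat_lit 0) (nat_lit 2866584112) (nat_lit 1520) (nat_lit 2835959965)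 (nat_lit 76) (nat_lit 2474207049) (nat_lit 525) (nat_lit 5) (nat_lit 545) (nat_lit 5) (nat_lit 526) (nat_lit 5) (nat_lit 368) (nat_lit 351) (nat_lit 301))) (XT.nd (nat_lit 78) (nat_lit 3344) (nat_lit 0) (XT.lf (nat_lit 0) (nat_lit 4152991664) (nat_lit 1520) (nat_lit 1433209878) (nat_lit 1596) (nat_lit 2689587008) (nat_lit 505) (nat_lit 5) (nat_lit 525) (nat_lit 5) (nat_lit 526) (nat_lit 5) (nat_lit 369) (nat_lit 351) (nat_lit 300)) (XT.nd (nat_lit 78) (nat_lit 1748) (nat_lit 0) (XT.lf (nat_lit 0) (nat_lit 2972426244) (nat_lit 1596) (nat_lit 5402119457) (nat_lit 1672) (nat_lit 3525801) (nat_lit 484) (nat_lit 5) (nat_lit 505) (nat_lit 5) (nat_lit 506) (nat_lit 5) (nat_lit 370) (nat_lit 351) (nat_lit 299)) (XT.lf (nat_lit 0) (nat_lit 1789670848) (nat_lit 1672) (nat_lit 916985549) (nat_lit 1748) (nat_lit 5776828530) (nat_lit 461) (nat_lit 5) (nat_lit 483) (nat_lit 5) (nat_lit 484) (nat_lit 5) (nat_lit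 371) (nat_lit 351) (nat_lit 298))))) (XT.nd (nat_lit 234) (nat_lit 2812) (nat_lit 0) (XT.nd (nat_lit 78) (nat_lit 1520) (nat_lit 0) (XT.lf (nat_lit 0) (nat_lit 606538585) (nat_lit 1748) (nat_lit 4888558527) (nat_lit 1824) (nat_lit 3097039022) (nat_lit 438) (nat_lit 5) (nat_lit 461) (nat_lit 5) (nat_lit 462) (nat_lit 5) (nat_lit 372) (nat_lit 351) (nat_lit 297)) (XT.nd (nat_lit 78) (nat_lit 1520) (nat_lit 0) (XT.lf (nat_lit 0) (nat_lit 8151676208) (nat_lit 1748) (nat_lit 200704495) (nat_lit 1824) (nat_lit 351977788) (nat_lit 438) (nat_lit 5) (nat_lit 461) (nat_lit 5) (nat_lit 462) (nat_lit 5) (nat_lit 373) (nat_lit 351) (nat_lit 296)) (XT.lf (nat_lit 0) (nat_lit 2454934500) (nat_lit 1520) (nat_lit 1728734259) (nat_lit 76) (nat_lit 4635732678) (nat_lit 418) (nat_lit 5) (nat_lit 438) (nat_lit 5) (nat_lit 419) (nat_lit 5) (nat_lit 374) (nat_lit 351) (nat_lit 295)))) (XT.nd (nat_lit 78) (nat_lit 1900) (nat_lit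 0) (XT.lf (nat_lit 0) (nat_lit 5327183847) (nat_lit 988) (nat_lit 2893416117) (nat_lit 76) (nat_lit 717545177) (nat_lit 406) (nat_lit 5) (nat_lit 419) (nat_lit 5) (nat_lit 407) (nat_lit 5) (nat_lit 375) (nat_lit 351) (nat_lit 294)) (XT.nd (nat_lit 78) (nat_lit 988) (nat_lit 0) (XT.lf (nat_lit 0) (nat_lit 4992818253) (nat_lit 912) (nat_lit 3303230194) (nat_lit 988) (nat_lit 764207576) (nat_lit 394) (nat_lit 5) (nat_lit 406) (nat_lit 5) (nat_lit 407) (nat_lit 5) (nat_lit 376) (nat_lit 351) (nat_lit 293)) (XT.lf (nat_lit 0) (nat_lit 2135992065) (nat_lit 988) (nat_lit 5250037535) (nat_lit 76) (nat_lit 1799802744) (nat_lit 381) (nat_lit 5) (nat_lit 394) (nat_lit 5) (nat_lit 382) (nat_lit 5) (nat_lit 377) (nat_lit 351) (nat_lit 292)))))) (XT.nd (nat_lit 390) (nat_lit 4408) (nat_lit 0) (XT.nd (nat_lit 156) (nat_lit 1596) (nat_lit 0) (XT.nd (nat_lit 78) (nat_lit 836) (nat_lit 0) (XT.lf (nat_lit 0) (nat_lit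 2870894330) (nat_lit 836) (nat_lit 2251118048) (nat_lit 912) (nat_lit 4192891374) (nat_lit 370) (nat_lit 5) (nat_lit 381) (nat_lit 5) (nat_lit 382) (nat_lit 5) (nat_lit 378) (nat_lit 351) (nat_lit 291)) (XT.lf (nat_lit 0) (nat_lit 1804131697) (nat_lit 836) (nat_lit 6402737832) (nat_lit 912) (nat_lit 1240805050) (nat_lit 359) (nat_lit 5) (nat_lit 370) (nat_lit 5) (nat_lit 371) (nat_lit 5) (nat_lit 379) (nat_lit 351) (nat_lit 290))) (XT.nd (nat_lit 78) (nat_lit 760) (nat_lit 0) (XT.lf (nat_lit 0) (nat_lit 727325187) (nat_lit 760) (nat_lit 1055573312) (nat_lit 836) (nat_lit 7801174921) (nat_lit 348) (nat_lit 5) (nat_lit 358) (nat_lit 5) (nat_lit 359) (nat_lit 5) (nat_lit 380) (nat_lit 351) (nat_lit 289)) (XT.nd (nat_lit 78) (nat_lit 760) (nat_lit 0) (XT.lf (nat_lit 0) (nat_lit 4905786370) (nat_lit 836) (nat_lit 366825240) (nat_lit 76) (nat_lit 4451293422) (nat_lit 348) (nat_lit 5) (nat_lit 359) (nat_lit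 5) (nat_lit 349) (nat_lit 5) (nat_lit 381) (nat_lit 351) (nat_lit 288)) (XT.lf (nat_lit 0) (nat_lit 8131830603) (nat_lit 836) (nat_lit 1446444376) (nat_lit 76) (nat_lit 289478344) (nat_lit 338) (nat_lit 5) (nat_lit 349) (nat_lit 5) (nat_lit 339) (nat_lit 5) (nat_lit 382) (nat_lit 351) (nat_lit 287))))) (XT.nd (nat_lit 234) (nat_lit 2128) (nat_lit 0) (XT.nd (nat_lit 78) (nat_lit 1444) (nat_lit 0) (XT.lf (nat_lit 0) (nat_lit 1453319912) (nat_lit 836) (nat_lit 2557992390) (nat_lit 76) (nat_lit 6003759524) (nat_lit 327) (nat_lit 5) (nat_lit 338) (nat_lit 5) (nat_lit 328) (nat_lit 5) (nat_lit 383) (nat_lit 351) (nat_lit 286)) (XT.nd (nat_lit 78) (nat_lit 684) (nat_lit 0) (XT.lf (nat_lit 0) (nat_lit 4726224031) (nat_lit 836) (nat_lit 3681558574) (nat_lit 76) (nat_lit 1758576697) (nat_lit 317) (nat_lit 5) (nat_lit 328) (nat_lit 5) (nat_lit 318) (nat_lit 5) (nat_lit 384) (nat_lit 351) (nat_lit 285)) (XT.lf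 (nat_lit 0) (nat_lit 5499360629) (nat_lit 684) (nat_lit 2626864503) (nat_lit 760) (nat_lit 2195392057) (nat_lit 308) (nat_lit 5) (nat_lit 317) (nat_lit 5) (nat_lit 318) (nat_lit 5) (nat_lit 385) (nat_lit 351) (nat_lit 284)))) (XT.nd (nat_lit 78) (nat_lit 1368) (nat_lit 0) (XT.lf (nat_lit 0) (nat_lit 1157782419) (nat_lit 760) (nat_lit 5984167084) (nat_lit 76) (nat_lit 3338921347) (nat_lit 298) (nat_lit 5) (nat_lit 308) (nat_lit 5) (nat_lit 299) (nat_lit 5) (nat_lit 386) (nat_lit 351) (nat_lit 283)) (XT.nd (nat_lit 78) (nat_lit 684) (nat_lit 0) (XT.lf (nat_lit 0) (nat_lit 3472442862) (nat_lit 684) (nat_lit 1133214460) (nat_lit 760) (nat_lit 6038485151) (nat_lit 289) (nat_lit 5) (nat_lit 298) (nat_lit 5) (nat_lit 299) (nat_lit 5) (nat_lit 387) (nat_lit 351) (nat_lit 282)) (XT.lf (nat_lit 0) (nat_lit 2424254249) (nat_lit 684) (nat_lit 5773865676) (nat_lit 760) (nat_lit 2613378249) (nat_lit 280) (nat_lit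 5) (nat_lit 289) (nat_lit 5) (nat_lit 290) (nat_lit 5) (nat_lit 388) (nat_lit 351) (nat_lit 281))))))) (XT.nd (nat_lit 858) (nat_lit 4484) (nat_lit 0) (XT.nd (nat_lit 390) (nat_lit 3344) (nat_lit 0) (XT.nd (nat_lit 156) (nat_lit 1292) (nat_lit 0) (XT.nd (nat_lit 78) (nat_lit 608) (nat_lit 0) (XT.lf (nat_lit 0) (nat_lit 923285285) (nat_lit 684) (nat_lit 9616156986) (nat_lit 76) (nat_lit 443906108) (nat_lit 271) (nat_lit 5) (nat_lit 280) (nat_lit 5) (nat_lit 272) (nat_lit 5) (nat_lit 389) (nat_lit 351) (nat_lit 280)) (XT.lf (nat_lit 0) (nat_lit 259528495) (nat_lit 608) (nat_lit 4322161912) (nat_lit 684) (nat_lit 6577303527) (nat_lit 263) (nat_lit 5) (nat_lit 271) (nat_lit 5) (nat_lit 272) (nat_lit 5) (nat_lit 390) (nat_lit 351) (nat_lit 279))) (XT.nd (nat_lit 78) (nat_lit 1292) (nat_lit 0) (XT.lf (nat_lit 0) (nat_lit 8383313789) (nat_lit 684) (nat_lit 846619173) (nat_lit 76) (nat_lit 2109314605) (nat_lit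 263) (nat_lit 5) (nat_lit 272) (nat_lit 5) (nat_lit 264) (nat_lit 5) (nat_lit 391) (nat_lit 351) (nat_lit 278)) (XT.nd (nat_lit 78) (nat_lit 608) (nat_lit 0) (XT.lf (nat_lit 0) (nat_lit 810812445) (nat_lit 684) (nat_lit 1980692218) (nat_lit 76) (nat_lit 8732373528) (nat_lit 254) (nat_lit 5) (nat_lit 263) (nat_lit 5) (nat_lit 255) (nat_lit 5) (nat_lit 392) (nat_lit 351) (nat_lit 277)) (XT.lf (nat_lit 0) (nat_lit 4693834924) (nat_lit 684) (nat_lit 3158837887) (nat_lit 76) (nat_lit 3860122904) (nat_lit 246) (nat_lit 5) (nat_lit 255) (nat_lit 5) (nat_lit 247) (nat_lit 5) (nat_lit 393) (nat_lit 351) (nat_lit 276))))) (XT.nd (nat_lit 234) (nat_lit 1596) (nat_lit 0) (XT.nd (nat_lit 78) (nat_lit 1216) (nat_lit 0) (XT.lf (nat_lit 0) (nat_lit 7549815203) (nat_lit 532) (nat_lit 1181902261) (nat_lit 608) (nat_lit 3174903121) (nat_lit 239) (nat_lit 5) (nat_lit 246) (nat_lit 5) (nat_lit 247) (nat_lit 5) (nat_lit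 394) (nat_lit 351) (nat_lit 275)) (XT.nd (nat_lit 78) (nat_lit 532) (nat_lit 0) (XT.lf (nat_lit 0) (nat_lit 833312076) (nat_lit 684) (nat_lit 5600096930) (nat_lit 76) (nat_lit 5671573705) (nat_lit 230) (nat_lit 5) (nat_lit 239) (nat_lit 5) (nat_lit 231) (nat_lit 5) (nat_lit 395) (nat_lit 351) (nat_lit 274)) (XT.lf (nat_lit 0) (nat_lit 4953466648) (nat_lit 608) (nat_lit 6880745153) (nat_lit 76) (nat_lit 473974291) (nat_lit 223) (nat_lit 5) (nat_lit 231) (nat_lit 5) (nat_lit 224) (nat_lit 5) (nat_lit 396) (nat_lit 351) (nat_lit 273)))) (XT.nd (nat_lit 78) (nat_lit 1064) (nat_lit 0) (XT.lf (nat_lit 0) (nat_lit 4304436942) (nat_lit 532) (nat_lit 4961311969) (nat_lit 608) (nat_lit 3250372669) (nat_lit 216) (nat_lit 5) (nat_lit 223) (nat_lit 5) (nat_lit 224) (nat_lit 5) (nat_lit 397) (nat_lit 351) (nat_lit 272)) (XT.nd (nat_lit 78) (nat_lit 532) (nat_lit 0) (XT.lf (nat_lit 0) (nat_lit 1005878863) (nat_lit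 532) (nat_lit 9572974621) (nat_lit 76) (nat_lit 2150489140) (nat_lit 209) (nat_lit 5) (nat_lit 216) (nat_lit 5) (nat_lit 210) (nat_lit 5) (nat_lit 398) (nat_lit 351) (nat_lit 271)) (XT.lf (nat_lit 0) (nat_lit 1946307552) (nat_lit 532) (nat_lit 3462081256) (nat_lit 608) (nat_lit 7538893155) (nat_lit 202) (nat_lit 5) (nat_lit 209) (nat_lit 5) (nat_lit 210) (nat_lit 5) (nat_lit 399) (nat_lit 351) (nat_lit 270)))))) (XT.nd (nat_lit 390) (nat_lit 2508) (nat_lit 0) (XT.nd (nat_lit 156) (nat_lit 1444) (nat_lit 0) (XT.nd (nat_lit 78) (nat_lit 76) (nat_lit 0) (XT.lf (nat_lit 0) (nat_lit 701640427) (nat_lit 456) (nat_lit 9297660559) (nat_lit 532) (nat_lit 3171337760) (nat_lit 196) (nat_lit 5) (nat_lit 202) (nat_lit 5) (nat_lit 203) (nat_lit 5) (nat_lit 400) (nat_lit 351) (nat_lit 269)) (XT.lf (nat_lit 0) (nat_lit 1369912757) (nat_lit 532) (nat_lit 578951634) (nat_lit 76) (nat_lit 11450463508) (nat_lit 195) (nat_lit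 5) (nat_lit 202) (nat_lit 5) (nat_lit 196) (nat_lit 5) (nat_lit 401) (nat_lit 351) (nat_lit 268))) (XT.nd (nat_lit 78) (nat_lit 988) (nat_lit 0) (XT.lf (nat_lit 0) (nat_lit 6080875656) (nat_lit 532) (nat_lit 1921881978) (nat_lit 76) (nat_lit 5630174986) (nat_lit 189) (nat_lit 5) (nat_lit 196) (nat_lit 5) (nat_lit 190) (nat_lit 5) (nat_lit 402) (nat_lit 351) (nat_lit 267)) (XT.nd (nat_lit 78) (nat_lit 532) (nat_lit 0) (XT.lf (nat_lit 0) (nat_lit 10578249653) (nat_lit 456) (nat_lit 404225327) (nat_lit 532) (nat_lit 2890089559) (nat_lit 183) (nat_lit 5) (nat_lit 189) (nat_lit 5) (nat_lit 190) (nat_lit 5) (nat_lit 403) (nat_lit 351) (nat_lit 266)) (XT.lf (nat_lit 0) (nat_lit 1973733550) (nat_lit 532) (nat_lit 4746701759) (nat_lit 76) (nat_lit 7396965427) (nat_lit 176) (nat_lit 5) (nat_lit 183) (nat_lit 5) (nat_lit 177) (nat_lit 5) (nat_lit 404) (nat_lit 351) (nat_lit 265))))) (XT.nd (nat_lit 234) (nat_lit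 1216) (nat_lit 0) (XT.nd (nat_lit 78) (nat_lit 912) (nat_lit 0) (XT.lf (nat_lit 0) (nat_lit 6994495101) (nat_lit 456) (nat_lit 6250789989) (nat_lit 76) (nat_lit 1122913897) (nat_lit 171) (nat_lit 5) (nat_lit 177) (nat_lit 5) (nat_lit 172) (nat_lit 5) (nat_lit 405) (nat_lit 351) (nat_lit 264)) (XT.nd (nat_lit 78) (nat_lit 456) (nat_lit 0) (XT.lf (nat_lit 0) (nat_lit 6799739387) (nat_lit 456) (nat_lit 5452958379) (nat_lit 532) (nat_lit 2372091723) (nat_lit 165) (nat_lit 5) (nat_lit 171) (nat_lit 5) (nat_lit 172) (nat_lit 5) (nat_lit 406) (nat_lit 351) (nat_lit 263)) (XT.lf (nat_lit 0) (nat_lit 2804124378) (nat_lit 456) (nat_lit 9463383127) (nat_lit 76) (nat_lit 2619993510) (nat_lit 159) (nat_lit 5) (nat_lit 165) (nat_lit 5) (nat_lit 160) (nat_lit 5) (nat_lit 407) (nat_lit 351) (nat_lit 262)))) (XT.nd (nat_lit 78) (nat_lit 836) (nat_lit 0) (XT.lf (nat_lit 0) (nat_lit 3970015284) (nat_lit 380) (nat_lit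 4215559861) (nat_lit 456) (nat_lit 6970565956) (nat_lit 154) (nat_lit 5) (nat_lit 159) (nat_lit 5) (nat_lit 160) (nat_lit 5) (nat_lit 408) (nat_lit 351) (nat_lit 261)) (XT.nd (nat_lit 78) (nat_lit 456) (nat_lit 0) (XT.lf (nat_lit 0) (nat_lit 2459801603) (nat_lit 380) (nat_lit 11342592248) (nat_lit 456) (nat_lit 1628972240) (nat_lit 149) (nat_lit 5) (nat_lit 154) (nat_lit 5) (nat_lit 155) (nat_lit 5) (nat_lit 409) (nat_lit 351) (nat_lit 260)) (XT.lf (nat_lit 0) (nat_lit 862790319) (nat_lit 380) (nat_lit 3036732385) (nat_lit 456) (nat_lit 11813277275) (nat_lit 143) (nat_lit 5) (nat_lit 148) (nat_lit 5) (nat_lit 149) (nat_lit 5) (nat_lit 410) (nat_lit 351) (nat_lit 259))))))))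
noncomputable def xc66 : XT := (XT.nd (nat_lit 48906) (nat_lit 0) (nat_lit 23104) (XT.nd (nat_lit 858) (nat_lit 1748) (nat_lit 0) (XT.nd (nat_lit 390) (nat_lit 1672) (nat_lit 0) (XT.nd (nat_lit 156) (nat_lit 1216) (nat_lit 0) (XT.nd (nat_lit 78) (nat_lit 380) (nat_lit 0) (XT.lf (nat_lit 0) (nat_lit 9664053730) (nat_lit 456) (nat_lit 807800819) (nat_lit 76) (nat_lit 5528764607) (nat_lit 143) (nat_lit 5) (nat_lit 149) (nat_lit 5) (nat_lit 144) (nat_lit 5) (nat_lit 411) (nat_lit 351) (nat_lit 258)) (XT.lf (nat_lit 0) (nat_lit 13768062897) (nat_lit 380) (nat_lit 1911969204) (nat_lit 456) (nat_lit 615474338) (nat_lit 138) (nat_lit 5) (nat_lit 143) (nat_lit 5) (nat_lit 144) (nat_lit 5) (nat_lit 412) (nat_lit 351) (nat_lit 257))) (XT.nd (nat_lit 78) (nat_lit 760) (nat_lit 0) (XT.lf (nat_lit 0) (nat_lit 5307948300) (nat_lit 456) (nat_lit 4370710942) (nat_lit 76) (nat_lit 6917901193) (nat_lit 132) (nat_lit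 5) (nat_lit 138) (nat_lit 5) (nat_lit 133) (nat_lit 5) (nat_lit 413) (nat_lit 351) (nat_lit 256)) (XT.nd (nat_lit 78) (nat_lit 456) (nat_lit 0) (XT.lf (nat_lit 0) (nat_lit 10625129413) (nat_lit 304) (nat_lit 844336206) (nat_lit 380) (nat_lit 5435727461) (nat_lit 128) (nat_lit 5) (nat_lit 132) (nat_lit 5) (nat_lit 133) (nat_lit 5) (nat_lit 414) (nat_lit 351) (nat_lit 255)) (XT.lf (nat_lit 0) (nat_lit 697225794) (nat_lit 456) (nat_lit 8300974311) (nat_lit 76) (nat_lit 8222565819) (nat_lit 122) (nat_lit 5) (nat_lit 128) (nat_lit 5) (nat_lit 123) (nat_lit 5) (nat_lit 415) (nat_lit 351) (nat_lit 254))))) (XT.nd (nat_lit 234) (nat_lit 684) (nat_lit 0) (XT.nd (nat_lit 78) (nat_lit 684) (nat_lit 0) (XT.lf (nat_lit 0) (nat_lit 7006744134) (nat_lit 380) (nat_lit 10423353429) (nat_lit 76) (nat_lit 113664464) (nat_lit 118) (nat_lit 5) (nat_lit 123) (nat_lit 5) (nat_lit 119) (nat_lit 5) (nat_lit 416) (nat_lit 351)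 (nat_lit 253)) (XT.nd (nat_lit 78) (nat_lit 380) (nat_lit 0) (XT.lf (nat_lit 0) (nat_lit 5204130535) (nat_lit 304) (nat_lit 8422992769) (nat_lit 380) (nat_lit 4246896319) (nat_lit 114) (nat_lit 5) (nat_lit 118) (nat_lit 5) (nat_lit 119) (nat_lit 5) (nat_lit 417) (nat_lit 351) (nat_lit 252)) (XT.lf (nat_lit 0) (nat_lit 2272094373) (nat_lit 380) (nat_lit 15007209696) (nat_lit 76) (nat_lit 933205272) (nat_lit 109) (nat_lit 5) (nat_lit 114) (nat_lit 5) (nat_lit 110) (nat_lit 5) (nat_lit 418) (nat_lit 351) (nat_lit 251)))) (XT.nd (nat_lit 78) (nat_lit 380) (nat_lit 0) (XT.lf (nat_lit 0) (nat_lit 1053603911) (nat_lit 304) (nat_lit 7997050837) (nat_lit 380) (nat_lit 9507506470) (nat_lit 105) (nat_lit 5) (nat_lit 109) (nat_lit 5) (nat_lit 110) (nat_lit 5) (nat_lit 419) (nat_lit 351) (nat_lit 250)) (XT.nd (nat_lit 78) (nat_lit 380) (nat_lit 0) (XT.lf (nat_lit 0) (nat_lit 16117287031) (nat_lit 380) (nat_lit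 1166667254) (nat_lit 76) (nat_lit 1628536862) (nat_lit 105) (nat_lit 5) (nat_lit 110) (nat_lit 5) (nat_lit 106) (nat_lit 5) (nat_lit 420) (nat_lit 351) (nat_lit 249)) (XT.lf (nat_lit 0) (nat_lit 4194182721) (nat_lit 380) (nat_lit 3531788999) (nat_lit 76) (nat_lit 11548352522) (nat_lit 100) (nat_lit 5) (nat_lit 105) (nat_lit 5) (nat_lit 101) (nat_lit 5) (nat_lit 421) (nat_lit 351) (nat_lit 248)))))) (XT.nd (nat_lit 390) (nat_lit 228) (nat_lit 0) (XT.nd (nat_lit 156) (nat_lit 988) (nat_lit 0) (XT.nd (nat_lit 78) (nat_lit 228) (nat_lit 0) (XT.lf (nat_lit 0) (nat_lit 11439781535) (nat_lit 380) (nat_lit 6014993514) (nat_lit 76) (nat_lit 2190180217) (nat_lit 96) (nat_lit 5) (nat_lit 101) (nat_lit 5) (nat_lit 97) (nat_lit 5) (nat_lit 422) (nat_lit 351) (nat_lit 247)) (XT.lf (nat_lit 0) (nat_lit 11382758202) (nat_lit 228) (nat_lit 7643373655) (nat_lit 304) (nat_lit 998108199) (nat_lit 93) (nat_lit 5) (nat_lit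 96) (nat_lit 5) (nat_lit 97) (nat_lit 5) (nat_lit 423) (nat_lit 351) (nat_lit 246))) (XT.nd (nat_lit 78) (nat_lit 608) (nat_lit 0) (XT.lf (nat_lit 0) (nat_lit 6431237720) (nat_lit 380) (nat_lit 11425653592) (nat_lit 76) (nat_lit 2555373426) (nat_lit 88) (nat_lit 5) (nat_lit 93) (nat_lit 5) (nat_lit 89) (nat_lit 5) (nat_lit 424) (nat_lit 351) (nat_lit 245)) (XT.nd (nat_lit 78) (nat_lit 380) (nat_lit 0) (XT.lf (nat_lit 0) (nat_lit 6434553594) (nat_lit 228) (nat_lit 7761672770) (nat_lit 304) (nat_lit 6613047710) (nat_lit 85) (nat_lit 5) (nat_lit 88) (nat_lit 5) (nat_lit 89) (nat_lit 5) (nat_lit 425) (nat_lit 351) (nat_lit 244)) (XT.lf (nat_lit 0) (nat_lit 1058026976) (nat_lit 380) (nat_lit 17463711625) (nat_lit 76) (nat_lit 2694433443) (nat_lit 80) (nat_lit 5) (nat_lit 85) (nat_lit 5) (nat_lit 81) (nat_lit 5) (nat_lit 426) (nat_lit 351) (nat_lit 243))))) (XT.nd (nat_lit 47424) (nat_lit 0) (nat_lit 40356)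 (XT.nd (nat_lit 47268) (nat_lit 0) (nat_lit 41420) (XT.lf (nat_lit 0) (nat_lit 859306229) (nat_lit 228) (nat_lit 8141200487) (nat_lit 304) (nat_lit 12631275772) (nat_lit 77) (nat_lit 5) (nat_lit 80) (nat_lit 5) (nat_lit 81) (nat_lit 5) (nat_lit 427) (nat_lit 351) (nat_lit 242)) (XT.nd (nat_lit 78) (nat_lit 0) (nat_lit 0) (XT.lf (nat_lit 0) (nat_lit 310275291) (nat_lit 1140) (nat_lit 1608773121) (nat_lit 1140) (nat_lit 1608773121) (nat_lit 622) (nat_lit 3) (nat_lit 637) (nat_lit 3) (nat_lit 637) (nat_lit 5) (nat_lit 352) (nat_lit 352) (nat_lit 316)) (XT.lf (nat_lit 76) (nat_lit 1967964316) (nat_lit 0) (nat_lit 1290360424) (nat_lit 1140) (nat_lit 3849826908) (nat_lit 623) (nat_lit 5) (nat_lit 622) (nat_lit 3) (nat_lit 637) (nat_lit 5) (nat_lit 353) (nat_lit 352) (nat_lit 315)))) (XT.nd (nat_lit 78) (nat_lit 1140) (nat_lit 0) (XT.lf (nat_lit 76) (nat_lit 129000931) (nat_lit 0) (nat_lit 5775573000) (nat_lit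 1140) (nat_lit 1259104255) (nat_lit 624) (nat_lit 5) (nat_lit 623) (nat_lit 5) (nat_lit 638) (nat_lit 5) (nat_lit 354) (nat_lit 352) (nat_lit 314)) (XT.nd (nat_lit 78) (nat_lit 0) (nat_lit 0) (XT.lf (nat_lit 0) (nat_lit 1334378902) (nat_lit 1140) (nat_lit 1667193473) (nat_lit 1216) (nat_lit 4220272796) (nat_lit 608) (nat_lit 5) (nat_lit 623) (nat_lit 5) (nat_lit 624) (nat_lit 5) (nat_lit 355) (nat_lit 352) (nat_lit 313)) (XT.lf (nat_lit 76) (nat_lit 3849366299) (nat_lit 0) (nat_lit 67032809) (nat_lit 1216) (nat_lit 3366662120) (nat_lit 609) (nat_lit 5) (nat_lit 608) (nat_lit 5) (nat_lit 624) (nat_lit 5) (nat_lit 356) (nat_lit 352) (nat_lit 312))))))) (XT.nd (nat_lit 858) (nat_lit 12388) (nat_lit 0) (XT.nd (nat_lit 390) (nat_lit 2584) (nat_lit 0) (XT.nd (nat_lit 156) (nat_lit 1140) (nat_lit 0) (XT.nd (nat_lit 78) (nat_lit 1216) (nat_lit 0) (XT.lf (nat_lit 76) (nat_lit 2162119071) (nat_lit 0) (nat_lit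 4363866878) (nat_lit 1216) (nat_lit 821152195) (nat_lit 610) (nat_lit 5) (nat_lit 609) (nat_lit 5) (nat_lit 625) (nat_lit 5) (nat_lit 357) (nat_lit 352) (nat_lit 311)) (XT.lf (nat_lit 76) (nat_lit 498693938) (nat_lit 0) (nat_lit 1212790372) (nat_lit 1292) (nat_lit 5702756887) (nat_lit 594) (nat_lit 5) (nat_lit 593) (nat_lit 5) (nat_lit 610) (nat_lit 5) (nat_lit 358) (nat_lit 352) (nat_lit 310))) (XT.nd (nat_lit 78) (nat_lit 1216) (nat_lit 0) (XT.lf (nat_lit 0) (nat_lit 4267420051) (nat_lit 1216) (nat_lit 1134534363) (nat_lit 1292) (nat_lit 2082149330) (nat_lit 594) (nat_lit 5) (nat_lit 610) (nat_lit 5) (nat_lit 611) (nat_lit 5) (nat_lit 359) (nat_lit 352) (nat_lit 309)) (XT.nd (nat_lit 78) (nat_lit 1216) (nat_lit 0) (XT.lf (nat_lit 76) (nat_lit 4819818098) (nat_lit 0) (nat_lit 2032091891) (nat_lit 1292) (nat_lit 705138429) (nat_lit 595) (nat_lit 5) (nat_lit 594) (nat_lit 5) (nat_lit 611) (nat_lit 5)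 (nat_lit 360) (nat_lit 352) (nat_lit 308)) (XT.lf (nat_lit 0) (nat_lit 1810211830) (nat_lit 1292) (nat_lit 4330897517) (nat_lit 1368) (nat_lit 1491787600) (nat_lit 578) (nat_lit 5) (nat_lit 595) (nat_lit 5) (nat_lit 596) (nat_lit 5) (nat_lit 361) (nat_lit 352) (nat_lit 307))))) (XT.nd (nat_lit 234) (nat_lit 1292) (nat_lit 0) (XT.nd (nat_lit 78) (nat_lit 1292) (nat_lit 0) (XT.lf (nat_lit 76) (nat_lit 1797926622) (nat_lit 0) (nat_lit 2553923534) (nat_lit 1368) (nat_lit 3359891372) (nat_lit 579) (nat_lit 5) (nat_lit 578) (nat_lit 5) (nat_lit 596) (nat_lit 5) (nat_lit 362) (nat_lit 352) (nat_lit 306)) (XT.nd (nat_lit 78) (nat_lit 1368) (nat_lit 0) (XT.lf (nat_lit 76) (nat_lit 316731660) (nat_lit 0) (nat_lit 6610673112) (nat_lit 1368) (nat_lit 866414664) (nat_lit 580) (nat_lit 5) (nat_lit 579) (nat_lit 5) (nat_lit 597) (nat_lit 5) (nat_lit 363) (nat_lit 352) (nat_lit 305)) (XT.lf (nat_lit 0) (nat_lit 1657082941)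 (nat_lit 1368) (nat_lit 1148313629) (nat_lit 1444) (nat_lit 5073211681) (nat_lit 561) (nat_lit 5) (nat_lit 579) (nat_lit 5) (nat_lit 580) (nat_lit 5) (nat_lit 364) (nat_lit 352) (nat_lit 304)))) (XT.nd (nat_lit 78) (nat_lit 1368) (nat_lit 0) (XT.lf (nat_lit 0) (nat_lit 4209595887) (nat_lit 1368) (nat_lit 2595091602) (nat_lit 1444) (nat_lit 1161856781) (nat_lit 562) (nat_lit 5) (nat_lit 580) (nat_lit 5) (nat_lit 581) (nat_lit 5) (nat_lit 365) (nat_lit 352) (nat_lit 303)) (XT.nd (nat_lit 78) (nat_lit 1368) (nat_lit 0) (XT.lf (nat_lit 76) (nat_lit 4022925315) (nat_lit 0) (nat_lit 2792954105) (nat_lit 1444) (nat_lit 1241714182) (nat_lit 563) (nat_lit 5) (nat_lit 562) (nat_lit 5) (nat_lit 581) (nat_lit 5) (nat_lit 366) (nat_lit 352) (nat_lit 302)) (XT.lf (nat_lit 0) (nat_lit 1301389234) (nat_lit 1444) (nat_lit 5467337463) (nat_lit 76) (nat_lit 1383088679) (nat_lit 544) (nat_lit 5) (nat_lit 563) (nat_lit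 5) (nat_lit 545) (nat_lit 5) (nat_lit 367) (nat_lit 352) (nat_lit 301)))))) (XT.nd (nat_lit 390) (nat_lit 6080) (nat_lit 0) (XT.nd (nat_lit 156) (nat_lit 3344) (nat_lit 0) (XT.nd (nat_lit 78) (nat_lit 1520) (nat_lit 0) (XT.lf (nat_lit 0) (nat_lit 1345258307) (nat_lit 1444) (nat_lit 2541407292) (nat_lit 1520) (nat_lit 4362396735) (nat_lit 525) (nat_lit 5) (nat_lit 544) (nat_lit 5) (nat_lit 545) (nat_lit 5) (nat_lit 368) (nat_lit 352) (nat_lit 300)) (XT.lf (nat_lit 0) (nat_lit 18896358) (nat_lit 1520) (nat_lit 6509341075) (nat_lit 1596) (nat_lit 1821431694) (nat_lit 505) (nat_lit 5) (nat_lit 525) (nat_lit 5) (nat_lit 526) (nat_lit 5) (nat_lit 369) (nat_lit 352) (nat_lit 299))) (XT.nd (nat_lit 78) (nat_lit 3268) (nat_lit 0) (XT.lf (nat_lit 0) (nat_lit 780174781) (nat_lit 1596) (nat_lit 1288969764) (nat_lit 76) (nat_lit 6384165609) (nat_lit 504) (nat_lit 5) (nat_lit 525) (nat_lit 5) (nat_lit 505) (nat_lit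 5) (nat_lit 370) (nat_lit 352) (nat_lit 298)) (XT.nd (nat_lit 78) (nat_lit 1672) (nat_lit 0) (XT.lf (nat_lit 0) (nat_lit 3423457962) (nat_lit 1672) (nat_lit 2603043051) (nat_lit 76) (nat_lit 2533566978) (nat_lit 483) (nat_lit 5) (nat_lit 505) (nat_lit 5) (nat_lit 484) (nat_lit 5) (nat_lit 371) (nat_lit 352) (nat_lit 297)) (XT.lf (nat_lit 0) (nat_lit 4760009445) (nat_lit 1672) (nat_lit 1374008614) (nat_lit 1748) (nat_lit 2536266341) (nat_lit 461) (nat_lit 5) (nat_lit 483) (nat_lit 5) (nat_lit 484) (nat_lit 5) (nat_lit 372) (nat_lit 352) (nat_lit 296))))) (XT.nd (nat_lit 234) (nat_lit 1900) (nat_lit 0) (XT.nd (nat_lit 78) (nat_lit 2356) (nat_lit 0) (XT.lf (nat_lit 0) (nat_lit 139332021) (nat_lit 1824) (nat_lit 5221342209) (nat_lit 76) (nat_lit 3423147127) (nat_lit 437) (nat_lit 5) (nat_lit 461) (nat_lit 5) (nat_lit 438) (nat_lit 5) (nat_lit 373) (nat_lit 352) (nat_lit 295)) (XT.nd (nat_lit 78) (nat_lit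 912) (nat_lit 0) (XT.lf (nat_lit 0) (nat_lit 2360271705) (nat_lit 1444) (nat_lit 488964968) (nat_lit 1520) (nat_lit 6051436766) (nat_lit 418) (nat_lit 5) (nat_lit 437) (nat_lit 5) (nat_lit 438) (nat_lit 5) (nat_lit 374) (nat_lit 352) (nat_lit 294)) (XT.lf (nat_lit 0) (nat_lit 1148489880) (nat_lit 912) (nat_lit 4503041182) (nat_lit 988) (nat_lit 3369291988) (nat_lit 406) (nat_lit 5) (nat_lit 418) (nat_lit 5) (nat_lit 419) (nat_lit 5) (nat_lit 375) (nat_lit 352) (nat_lit 293)))) (XT.nd (nat_lit 78) (nat_lit 1900) (nat_lit 0) (XT.lf (nat_lit 0) (nat_lit 8529214774) (nat_lit 988) (nat_lit 50776681) (nat_lit 76) (nat_lit 564772705) (nat_lit 406) (nat_lit 5) (nat_lit 419) (nat_lit 5) (nat_lit 407) (nat_lit 5) (nat_lit 376) (nat_lit 352) (nat_lit 292)) (XT.nd (nat_lit 78) (nat_lit 912) (nat_lit 0) (XT.lf (nat_lit 0) (nat_lit 2215844847) (nat_lit 988) (nat_lit 1262016062) (nat_lit 76) (nat_lit 5793803673)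 (nat_lit 393) (nat_lit 5) (nat_lit 406) (nat_lit 5) (nat_lit 394) (nat_lit 5) (nat_lit 377) (nat_lit 352) (nat_lit 291)) (XT.lf (nat_lit 0) (nat_lit 5123908609) (nat_lit 988) (nat_lit 2473183683) (nat_lit 76) (nat_lit 1805208939) (nat_lit 381) (nat_lit 5) (nat_lit 394) (nat_lit 5) (nat_lit 382) (nat_lit 5) (nat_lit 378) (nat_lit 352) (nat_lit 290))))))))
noncomputable def xc67 : XT := (XT.nd (nat_lit 1716) (nat_lit 7752) (nat_lit 0) (XT.nd (nat_lit 858) (nat_lit 5928) (nat_lit 0) (XT.nd (nat_lit 390) (nat_lit 3572) (nat_lit 0) (XT.nd (nat_lit 156) (nat_lit 2356) (nat_lit 0) (XT.nd (nat_lit 78) (nat_lit 912) (nat_lit 0) (XT.lf (nat_lit 0) (nat_lit 5843769715) (nat_lit 836) (nat_lit 2289322209) (nat_lit 912) (nat_lit 1403499541) (nat_lit 370) (nat_lit 5) (nat_lit 381) (nat_lit 5) (nat_lit 382) (nat_lit 5) (nat_lit 379) (nat_lit 352) (nat_lit 289)) (XT.lf (nat_lit 0) (nat_lit 1551000305) (nat_lit 912)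 (nat_lit 4930046731) (nat_lit 76) (nat_lit 3193396790) (nat_lit 358) (nat_lit 5) (nat_lit 370) (nat_lit 5) (nat_lit 359) (nat_lit 5) (nat_lit 380) (nat_lit 352) (nat_lit 288))) (XT.nd (nat_lit 78) (nat_lit 1596) (nat_lit 0) (XT.lf (nat_lit 0) (nat_lit 3636040716) (nat_lit 760) (nat_lit 949445588) (nat_lit 836) (nat_lit 5230562652) (nat_lit 348) (nat_lit 5) (nat_lit 358) (nat_lit 5) (nat_lit 359) (nat_lit 5) (nat_lit 381) (nat_lit 352) (nat_lit 287)) (XT.nd (nat_lit 78) (nat_lit 836) (nat_lit 0) (XT.lf (nat_lit 0) (nat_lit 2510973506) (nat_lit 760) (nat_lit 5228187911) (nat_lit 836) (nat_lit 2222188535) (nat_lit 338) (nat_lit 5) (nat_lit 348) (nat_lit 5) (nat_lit 349) (nat_lit 5) (nat_lit 382) (nat_lit 352) (nat_lit 286)) (XT.lf (nat_lit 0) (nat_lit 874020065) (nat_lit 836) (nat_lit 8727220737) (nat_lit 76) (nat_lit 509484089) (nat_lit 327) (nat_lit 5) (nat_lit 338) (nat_lit 5) (nat_lit 328) (nat_lit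 5) (nat_lit 383) (nat_lit 352) (nat_lit 285))))) (XT.nd (nat_lit 234) (nat_lit 2052) (nat_lit 0) (XT.nd (nat_lit 78) (nat_lit 760) (nat_lit 0) (XT.lf (nat_lit 0) (nat_lit 217365508) (nat_lit 760) (nat_lit 3852263336) (nat_lit 836) (nat_lit 6193934348) (nat_lit 317) (nat_lit 5) (nat_lit 327) (nat_lit 5) (nat_lit 328) (nat_lit 5) (nat_lit 384) (nat_lit 352) (nat_lit 284)) (XT.nd (nat_lit 78) (nat_lit 760) (nat_lit 0) (XT.lf (nat_lit 0) (nat_lit 7384488293) (nat_lit 836) (nat_lit 940072738) (nat_lit 76) (nat_lit 2095967653) (nat_lit 317) (nat_lit 5) (nat_lit 328) (nat_lit 5) (nat_lit 318) (nat_lit 5) (nat_lit 385) (nat_lit 352) (nat_lit 283)) (XT.lf (nat_lit 0) (nat_lit 246573146) (nat_lit 760) (nat_lit 2113177587) (nat_lit 76) (nat_lit 8221777041) (nat_lit 307) (nat_lit 5) (nat_lit 317) (nat_lit 5) (nat_lit 308) (nat_lit 5) (nat_lit 386) (nat_lit 352) (nat_lit 282)))) (XT.nd (nat_lit 78) (nat_lit 1368)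 (nat_lit 0) (XT.lf (nat_lit 0) (nat_lit 3619035445) (nat_lit 760) (nat_lit 3324145446) (nat_lit 76) (nat_lit 3803131171) (nat_lit 298) (nat_lit 5) (nat_lit 308) (nat_lit 5) (nat_lit 299) (nat_lit 5) (nat_lit 387) (nat_lit 352) (nat_lit 281)) (XT.nd (nat_lit 78) (nat_lit 684) (nat_lit 0) (XT.lf (nat_lit 0) (nat_lit 6370094528) (nat_lit 684) (nat_lit 747713856) (nat_lit 760) (nat_lit 3797737454) (nat_lit 289) (nat_lit 5) (nat_lit 298) (nat_lit 5) (nat_lit 299) (nat_lit 5) (nat_lit 388) (nat_lit 352) (nat_lit 280)) (XT.lf (nat_lit 0) (nat_lit 5289603374) (nat_lit 684) (nat_lit 5480072277) (nat_lit 760) (nat_lit 319226795) (nat_lit 280) (nat_lit 5) (nat_lit 289) (nat_lit 5) (nat_lit 290) (nat_lit 5) (nat_lit 389) (nat_lit 352) (nat_lit 279)))))) (XT.nd (nat_lit 390) (nat_lit 3344) (nat_lit 0) (XT.nd (nat_lit 156) (nat_lit 1292) (nat_lit 0) (XT.nd (nat_lit 78) (nat_lit 608) (nat_lit 0) (XT.lf (nat_lit 0)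 (nat_lit 3245424161) (nat_lit 684) (nat_lit 7083231289) (nat_lit 76) (nat_lit 937896778) (nat_lit 271) (nat_lit 5) (nat_lit 280) (nat_lit 5) (nat_lit 272) (nat_lit 5) (nat_lit 390) (nat_lit 352) (nat_lit 278)) (XT.lf (nat_lit 0) (nat_lit 3042950725) (nat_lit 608) (nat_lit 3921823625) (nat_lit 684) (nat_lit 4483680819) (nat_lit 263) (nat_lit 5) (nat_lit 271) (nat_lit 5) (nat_lit 272) (nat_lit 5) (nat_lit 391) (nat_lit 352) (nat_lit 277))) (XT.nd (nat_lit 78) (nat_lit 684) (nat_lit 0) (XT.lf (nat_lit 0) (nat_lit 1888186767) (nat_lit 608) (nat_lit 8942453138) (nat_lit 684) (nat_lit 804484168) (nat_lit 255) (nat_lit 5) (nat_lit 263) (nat_lit 5) (nat_lit 264) (nat_lit 5) (nat_lit 392) (nat_lit 352) (nat_lit 276)) (XT.nd (nat_lit 78) (nat_lit 0) (nat_lit 0) (XT.lf (nat_lit 0) (nat_lit 688948372) (nat_lit 608) (nat_lit 2302625536) (nat_lit 684) (nat_lit 8834526013) (nat_lit 246) (nat_lit 5) (nat_lit 254)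 (nat_lit 5) (nat_lit 255) (nat_lit 5) (nat_lit 393) (nat_lit 352) (nat_lit 275)) (XT.lf (nat_lit 0) (nat_lit 6945004951) (nat_lit 684) (nat_lit 538914000) (nat_lit 76) (nat_lit 4537698318) (nat_lit 246) (nat_lit 5) (nat_lit 255) (nat_lit 5) (nat_lit 247) (nat_lit 5) (nat_lit 394) (nat_lit 352) (nat_lit 274))))) (XT.nd (nat_lit 234) (nat_lit 1596) (nat_lit 0) (XT.nd (nat_lit 78) (nat_lit 1216) (nat_lit 0) (XT.lf (nat_lit 0) (nat_lit 10446956079) (nat_lit 532) (nat_lit 612940847) (nat_lit 608) (nat_lit 1162252848) (nat_lit 239) (nat_lit 5) (nat_lit 246) (nat_lit 5) (nat_lit 247) (nat_lit 5) (nat_lit 395) (nat_lit 352) (nat_lit 273)) (XT.nd (nat_lit 78) (nat_lit 532) (nat_lit 0) (XT.lf (nat_lit 0) (nat_lit 2899222658) (nat_lit 684) (nat_lit 3076197812) (nat_lit 76) (nat_lit 6451565236) (nat_lit 230) (nat_lit 5) (nat_lit 239) (nat_lit 5) (nat_lit 231) (nat_lit 5) (nat_lit 396) (nat_lit 352) (nat_lit 272))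 (XT.lf (nat_lit 0) (nat_lit 7104949336) (nat_lit 608) (nat_lit 4402863894) (nat_lit 76) (nat_lit 1129242170) (nat_lit 223) (nat_lit 5) (nat_lit 231) (nat_lit 5) (nat_lit 224) (nat_lit 5) (nat_lit 397) (nat_lit 352) (nat_lit 271)))) (XT.nd (nat_lit 78) (nat_lit 1064) (nat_lit 0) (XT.lf (nat_lit 0) (nat_lit 7074324026) (nat_lit 532) (nat_lit 4431085295) (nat_lit 608) (nat_lit 1346652729) (nat_lit 216) (nat_lit 5) (nat_lit 223) (nat_lit 5) (nat_lit 224) (nat_lit 5) (nat_lit 398) (nat_lit 352) (nat_lit 270)) (XT.nd (nat_lit 78) (nat_lit 532) (nat_lit 0) (XT.lf (nat_lit 0) (nat_lit 2975029863) (nat_lit 532) (nat_lit 7201626293) (nat_lit 76) (nat_lit 2895492739) (nat_lit 209) (nat_lit 5) (nat_lit 216) (nat_lit 5) (nat_lit 210) (nat_lit 5) (nat_lit 399) (nat_lit 352) (nat_lit 269)) (XT.lf (nat_lit 0) (nat_lit 4620102731) (nat_lit 532) (nat_lit 2850018336) (nat_lit 608) (nat_lit 5827303806) (nat_lit 202) (nat_lit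 5) (nat_lit 209) (nat_lit 5) (nat_lit 210) (nat_lit 5) (nat_lit 400) (nat_lit 352) (nat_lit 268))))))) (XT.nd (nat_lit 858) (nat_lit 3268) (nat_lit 0) (XT.nd (nat_lit 390) (nat_lit 2508) (nat_lit 0) (XT.nd (nat_lit 156) (nat_lit 988) (nat_lit 0) (XT.nd (nat_lit 78) (nat_lit 532) (nat_lit 0) (XT.lf (nat_lit 0) (nat_lit 3328745462) (nat_lit 456) (nat_lit 8836123590) (nat_lit 532) (nat_lit 1363299468) (nat_lit 196) (nat_lit 5) (nat_lit 202) (nat_lit 5) (nat_lit 203) (nat_lit 5) (nat_lit 401) (nat_lit 352) (nat_lit 267)) (XT.lf (nat_lit 0) (nat_lit 1984354019) (nat_lit 456) (nat_lit 1263052385) (nat_lit 532) (nat_lit 10516909169) (nat_lit 189) (nat_lit 5) (nat_lit 195) (nat_lit 5) (nat_lit 196) (nat_lit 5) (nat_lit 402) (nat_lit 352) (nat_lit 266))) (XT.nd (nat_lit 78) (nat_lit 532) (nat_lit 0) (XT.lf (nat_lit 0) (nat_lit 572446272) (nat_lit 456) (nat_lit 7486007064) (nat_lit 532) (nat_lit 5947307693)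 (nat_lit 183) (nat_lit 5) (nat_lit 189) (nat_lit 5) (nat_lit 190) (nat_lit 5) (nat_lit 403) (nat_lit 352) (nat_lit 265)) (XT.nd (nat_lit 78) (nat_lit 532) (nat_lit 0) (XT.lf (nat_lit 0) (nat_lit 13069609880) (nat_lit 532) (nat_lit 856740459) (nat_lit 76) (nat_lit 326988853) (nat_lit 183) (nat_lit 5) (nat_lit 190) (nat_lit 5) (nat_lit 184) (nat_lit 5) (nat_lit 404) (nat_lit 352) (nat_lit 264)) (XT.lf (nat_lit 0) (nat_lit 3769884587) (nat_lit 532) (nat_lit 2373188375) (nat_lit 76) (nat_lit 8362873942) (nat_lit 176) (nat_lit 5) (nat_lit 183) (nat_lit 5) (nat_lit 177) (nat_lit 5) (nat_lit 405) (nat_lit 352) (nat_lit 263))))) (XT.nd (nat_lit 234) (nat_lit 1216) (nat_lit 0) (XT.nd (nat_lit 78) (nat_lit 912) (nat_lit 0) (XT.lf (nat_lit 0) (nat_lit 8911765236) (nat_lit 456) (nat_lit 3933955173) (nat_lit 76) (nat_lit 1919145672) (nat_lit 171) (nat_lit 5) (nat_lit 177) (nat_lit 5) (nat_lit 172) (nat_lit 5) (nat_lit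 406) (nat_lit 352) (nat_lit 262)) (XT.nd (nat_lit 78) (nat_lit 456) (nat_lit 0) (XT.lf (nat_lit 0) (nat_lit 9467459842) (nat_lit 456) (nat_lit 4826519172) (nat_lit 532) (nat_lit 735856688) (nat_lit 165) (nat_lit 5) (nat_lit 171) (nat_lit 5) (nat_lit 172) (nat_lit 5) (nat_lit 407) (nat_lit 352) (nat_lit 261)) (XT.lf (nat_lit 0) (nat_lit 4545212756) (nat_lit 456) (nat_lit 7273189918) (nat_lit 76) (nat_lit 3482371376) (nat_lit 159) (nat_lit 5) (nat_lit 165) (nat_lit 5) (nat_lit 160) (nat_lit 5) (nat_lit 408) (nat_lit 352) (nat_lit 260)))) (XT.nd (nat_lit 78) (nat_lit 836) (nat_lit 0) (XT.lf (nat_lit 0) (nat_lit 6523071197) (nat_lit 380) (nat_lit 3532577595) (nat_lit 456) (nat_lit 5522479906) (nat_lit 154) (nat_lit 5) (nat_lit 159) (nat_lit 5) (nat_lit 160) (nat_lit 5) (nat_lit 409) (nat_lit 352) (nat_lit 259)) (XT.nd (nat_lit 78) (nat_lit 456) (nat_lit 0) (XT.lf (nat_lit 0) (nat_lit 4955059025) (nat_lit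 380) (nat_lit 10859421469) (nat_lit 456) (nat_lit 47665791) (nat_lit 149) (nat_lit 5) (nat_lit 154) (nat_lit 5) (nat_lit 155) (nat_lit 5) (nat_lit 410) (nat_lit 352) (nat_lit 258)) (XT.lf (nat_lit 0) (nat_lit 3292078589) (nat_lit 380) (nat_lit 2301971740) (nat_lit 456) (nat_lit 10558391975) (nat_lit 143) (nat_lit 5) (nat_lit 148) (nat_lit 5) (nat_lit 149) (nat_lit 5) (nat_lit 411) (nat_lit 352) (nat_lit 257)))))) (XT.nd (nat_lit 390) (nat_lit 1672) (nat_lit 0) (XT.nd (nat_lit 156) (nat_lit 1140) (nat_lit 0) (XT.nd (nat_lit 78) (nat_lit 76) (nat_lit 0) (XT.lf (nat_lit 0) (nat_lit 1547271676) (nat_lit 380) (nat_lit 9953549572) (nat_lit 456) (nat_lit 4948694288) (nat_lit 138) (nat_lit 5) (nat_lit 143) (nat_lit 5) (nat_lit 144) (nat_lit 5) (nat_lit 412) (nat_lit 352) (nat_lit 256)) (XT.lf (nat_lit 0) (nat_lit 891640631) (nat_lit 456) (nat_lit 258069314) (nat_lit 76) (nat_lit 15604222353) (nat_lit 137)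 (nat_lit 5) (nat_lit 143) (nat_lit 5) (nat_lit 138) (nat_lit 5) (nat_lit 413) (nat_lit 352) (nat_lit 255))) (XT.nd (nat_lit 78) (nat_lit 760) (nat_lit 0) (XT.lf (nat_lit 0) (nat_lit 6960504804) (nat_lit 456) (nat_lit 2174092216) (nat_lit 76) (nat_lit 7929822649) (nat_lit 132) (nat_lit 5) (nat_lit 138) (nat_lit 5) (nat_lit 133) (nat_lit 5) (nat_lit 414) (nat_lit 352) (nat_lit 254)) (XT.nd (nat_lit 78) (nat_lit 456) (nat_lit 0) (XT.lf (nat_lit 0) (nat_lit 13233858533) (nat_lit 304) (nat_lit 44382448) (nat_lit 380) (nat_lit 4104647834) (nat_lit 128) (nat_lit 5) (nat_lit 132) (nat_lit 5) (nat_lit 133) (nat_lit 5) (nat_lit 415) (nat_lit 352) (nat_lit 253)) (XT.lf (nat_lit 0) (nat_lit 2169865068) (nat_lit 456) (nat_lit 6254018833) (nat_lit 76) (nat_lit 9284312327) (nat_lit 122) (nat_lit 5) (nat_lit 128) (nat_lit 5) (nat_lit 123) (nat_lit 5) (nat_lit 416) (nat_lit 352) (nat_lit 252))))) (XT.nd (nat_lit 234)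 (nat_lit 684) (nat_lit 0) (XT.nd (nat_lit 78) (nat_lit 684) (nat_lit 0) (XT.lf (nat_lit 0) (nat_lit 8646469959) (nat_lit 380) (nat_lit 8454102217) (nat_lit 76) (nat_lit 940758625) (nat_lit 118) (nat_lit 5) (nat_lit 123) (nat_lit 5) (nat_lit 119) (nat_lit 5) (nat_lit 417) (nat_lit 352) (nat_lit 251)) (XT.nd (nat_lit 78) (nat_lit 380) (nat_lit 0) (XT.lf (nat_lit 0) (nat_lit 7605184309) (nat_lit 304) (nat_lit 7833215163) (nat_lit 380) (nat_lit 2943642349) (nat_lit 114) (nat_lit 5) (nat_lit 118) (nat_lit 5) (nat_lit 119) (nat_lit 5) (nat_lit 418) (nat_lit 352) (nat_lit 250)) (XT.lf (nat_lit 0) (nat_lit 3730957371) (nat_lit 380) (nat_lit 13207934027) (nat_lit 76) (nat_lit 1792037261) (nat_lit 109) (nat_lit 5) (nat_lit 114) (nat_lit 5) (nat_lit 110) (nat_lit 5) (nat_lit 419) (nat_lit 352) (nat_lit 249)))) (XT.nd (nat_lit 78) (nat_lit 380) (nat_lit 0) (XT.lf (nat_lit 0) (nat_lit 3298208654) (nat_lit 304)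 (nat_lit 7388528315) (nat_lit 380) (nat_lit 8400740010) (nat_lit 105) (nat_lit 5) (nat_lit 109) (nat_lit 5) (nat_lit 110) (nat_lit 5) (nat_lit 420) (nat_lit 352) (nat_lit 248)) (XT.nd (nat_lit 78) (nat_lit 76) (nat_lit 0) (XT.lf (nat_lit 0) (nat_lit 981021431) (nat_lit 304) (nat_lit 16956319842) (nat_lit 380) (nat_lit 1515660086) (nat_lit 101) (nat_lit 5) (nat_lit 105) (nat_lit 5) (nat_lit 106) (nat_lit 5) (nat_lit 421) (nat_lit 352) (nat_lit 247)) (XT.lf (nat_lit 0) (nat_lit 5634063520) (nat_lit 380) (nat_lit 1485532560) (nat_lit 76) (nat_lit 12706549418) (nat_lit 100) (nat_lit 5) (nat_lit 105) (nat_lit 5) (nat_lit 101) (nat_lit 5) (nat_lit 422) (nat_lit 352) (nat_lit 246))))))))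
noncomputable def xc68 : XT := (XT.nd (nat_lit 48906) (nat_lit 0) (nat_lit 15352) (XT.nd (nat_lit 48048) (nat_lit 0) (nat_lit 35416) (XT.nd (nat_lit 390) (nat_lit 228) (nat_lit 0) (XT.nd (nat_lit 156) (nat_lit 912) (nat_lit 0) (XT.nd (nat_lit 78) (nat_lit 304) (nat_lit 0) (XT.lf (nat_lit 0) (nat_lit 13077878108) (nat_lit 380) (nat_lit 4057610427) (nat_lit 76) (nat_lit 3072793670) (nat_lit 96) (nat_lit 5) (nat_lit 101) (nat_lit 5) (nat_lit 97) (nat_lit 5) (nat_lit 423) (nat_lit 352) (nat_lit 245)) (XT.lf (nat_lit 0) (nat_lit 264808829) (nat_lit 304) (nat_lit 6773782476) (nat_lit 76) (nat_lit 13560804205) (nat_lit 92) (nat_lit 5) (nat_lit 96) (nat_lit 5) (nat_lit 93) (nat_lit 5) (nat_lit 424) (nat_lit 352) (nat_lit 244))) (XT.nd (nat_lit 78) (nat_lit 608) (nat_lit 0) (XT.lf (nat_lit 0) (nat_lit 7885221784) (nat_lit 380) (nat_lit 9662715896) (nat_lit 76) (nat_lit 3451359789) (nat_lit 88) (nat_lit 5) (nat_lit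 93) (nat_lit 5) (nat_lit 89) (nat_lit 5) (nat_lit 425) (nat_lit 352) (nat_lit 243)) (XT.nd (nat_lit 78) (nat_lit 380) (nat_lit 0) (XT.lf (nat_lit 0) (nat_lit 8699134906) (nat_lit 228) (nat_lit 7160745502) (nat_lit 304) (nat_lit 5548805601) (nat_lit 85) (nat_lit 5) (nat_lit 88) (nat_lit 5) (nat_lit 89) (nat_lit 5) (nat_lit 426) (nat_lit 352) (nat_lit 242)) (XT.lf (nat_lit 0) (nat_lit 2318283152) (nat_lit 380) (nat_lit 15914117447) (nat_lit 76) (nat_lit 3595580699) (nat_lit 80) (nat_lit 5) (nat_lit 85) (nat_lit 5) (nat_lit 81) (nat_lit 5) (nat_lit 427) (nat_lit 352) (nat_lit 241))))) (XT.nd (nat_lit 47424) (nat_lit 0) (nat_lit 39140) (XT.nd (nat_lit 47268) (nat_lit 0) (nat_lit 40280) (XT.lf (nat_lit 0) (nat_lit 2924950779) (nat_lit 228) (nat_lit 7551548662) (nat_lit 304) (nat_lit 11780014446) (nat_lit 77) (nat_lit 5) (nat_lit 80) (nat_lit 5) (nat_lit 81) (nat_lit 5) (nat_lit 428) (nat_lit 352) (nat_lit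 240)) (XT.nd (nat_lit 78) (nat_lit 1140) (nat_lit 0) (XT.lf (nat_lit 0) (nat_lit 2910128521) (nat_lit 1140) (nat_lit 335483643) (nat_lit 1140) (nat_lit 335483643) (nat_lit 622) (nat_lit 3) (nat_lit 637) (nat_lit 3) (nat_lit 637) (nat_lit 5) (nat_lit 353) (nat_lit 353) (nat_lit 314)) (XT.lf (nat_lit 0) (nat_lit 1168611464) (nat_lit 1140) (nat_lit 2599460466) (nat_lit 1216) (nat_lit 3450773883) (nat_lit 607) (nat_lit 5) (nat_lit 622) (nat_lit 3) (nat_lit 623) (nat_lit 5) (nat_lit 354) (nat_lit 353) (nat_lit 313)))) (XT.nd (nat_lit 78) (nat_lit 1140) (nat_lit 0) (XT.lf (nat_lit 76) (nat_lit 2776880011) (nat_lit 0) (nat_lit 884859487) (nat_lit 1216) (nat_lit 3616800080) (nat_lit 608) (nat_lit 5) (nat_lit 607) (nat_lit 5) (nat_lit 623) (nat_lit 5) (nat_lit 355) (nat_lit 353) (nat_lit 312)) (XT.nd (nat_lit 78) (nat_lit 1216) (nat_lit 0) (XT.lf (nat_lit 76) (nat_lit 956877144) (nat_lit 0) (nat_lit 5215845813)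 (nat_lit 1216) (nat_lit 1168466467) (nat_lit 609) (nat_lit 5) (nat_lit 608) (nat_lit 5) (nat_lit 624) (nat_lit 5) (nat_lit 356) (nat_lit 353) (nat_lit 311)) (XT.lf (nat_lit 0) (nat_lit 1279553969) (nat_lit 1216) (nat_lit 832071195) (nat_lit 1292) (nat_lit 5295063372) (nat_lit 592) (nat_lit 5) (nat_lit 608) (nat_lit 5) (nat_lit 609) (nat_lit 5) (nat_lit 357) (nat_lit 353) (nat_lit 310)))))) (XT.nd (nat_lit 390) (nat_lit 2584) (nat_lit 0) (XT.nd (nat_lit 156) (nat_lit 1216) (nat_lit 0) (XT.nd (nat_lit 78) (nat_lit 0) (nat_lit 0) (XT.lf (nat_lit 0) (nat_lit 3734613298) (nat_lit 1216) (nat_lit 2590973629) (nat_lit 1292) (nat_lit 1149446248) (nat_lit 593) (nat_lit 5) (nat_lit 609) (nat_lit 5) (nat_lit 610) (nat_lit 5) (nat_lit 358) (nat_lit 353) (nat_lit 309)) (XT.lf (nat_lit 76) (nat_lit 3213239527) (nat_lit 0) (nat_lit 3003337598) (nat_lit 1292) (nat_lit 1329809747) (nat_lit 594) (nat_lit 5) (nat_lit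 593) (nat_lit 5) (nat_lit 610) (nat_lit 5) (nat_lit 359) (nat_lit 353) (nat_lit 308))) (XT.nd (nat_lit 78) (nat_lit 0) (nat_lit 0) (XT.lf (nat_lit 0) (nat_lit 1083229751) (nat_lit 1292) (nat_lit 6056410024) (nat_lit 1368) (nat_lit 481209608) (nat_lit 577) (nat_lit 5) (nat_lit 594) (nat_lit 5) (nat_lit 595) (nat_lit 5) (nat_lit 360) (nat_lit 353) (nat_lit 307)) (XT.nd (nat_lit 78) (nat_lit 0) (nat_lit 76) (XT.lf (nat_lit 0) (nat_lit 3516922026) (nat_lit 1292) (nat_lit 81710910) (nat_lit 1368) (nat_lit 4099432432) (nat_lit 577) (nat_lit 5) (nat_lit 594) (nat_lit 5) (nat_lit 595) (nat_lit 5) (nat_lit 361) (nat_lit 353) (nat_lit 306)) (XT.lf (nat_lit 0) (nat_lit 5983007487) (nat_lit 1292) (nat_lit 1679258280) (nat_lit 1368) (nat_lit 116165749) (nat_lit 578) (nat_lit 5) (nat_lit 595) (nat_lit 5) (nat_lit 596) (nat_lit 5) (nat_lit 362) (nat_lit 353) (nat_lit 305))))) (XT.nd (nat_lit 234) (nat_lit 1292) (nat_lit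 0) (XT.nd (nat_lit 78) (nat_lit 0) (nat_lit 76) (XT.lf (nat_lit 0) (nat_lit 628634762) (nat_lit 1368) (nat_lit 3277549528) (nat_lit 1444) (nat_lit 3955449744) (nat_lit 560) (nat_lit 5) (nat_lit 578) (nat_lit 5) (nat_lit 579) (nat_lit 5) (nat_lit 363) (nat_lit 353) (nat_lit 304)) (XT.nd (nat_lit 78) (nat_lit 0) (nat_lit 0) (XT.lf (nat_lit 0) (nat_lit 3055497606) (nat_lit 1368) (nat_lit 4862021107) (nat_lit 1444) (nat_lit 30506772) (nat_lit 561) (nat_lit 5) (nat_lit 579) (nat_lit 5) (nat_lit 580) (nat_lit 5) (nat_lit 364) (nat_lit 353) (nat_lit 303)) (XT.lf (nat_lit 76) (nat_lit 1589132314) (nat_lit 0) (nat_lit 3949534827) (nat_lit 1444) (nat_lit 2498690658) (nat_lit 562) (nat_lit 5) (nat_lit 561) (nat_lit 5) (nat_lit 580) (nat_lit 5) (nat_lit 365) (nat_lit 353) (nat_lit 302)))) (XT.nd (nat_lit 78) (nat_lit 1444) (nat_lit 0) (XT.lf (nat_lit 76) (nat_lit 117143969) (nat_lit 0) (nat_lit 7940687273) (nat_lit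 1444) (nat_lit 72327429) (nat_lit 563) (nat_lit 5) (nat_lit 562) (nat_lit 5) (nat_lit 581) (nat_lit 5) (nat_lit 366) (nat_lit 353) (nat_lit 301)) (XT.nd (nat_lit 78) (nat_lit 0) (nat_lit 76) (XT.lf (nat_lit 0) (nat_lit 2393369775) (nat_lit 1444) (nat_lit 1354615381) (nat_lit 1520) (nat_lit 4477493541) (nat_lit 543) (nat_lit 5) (nat_lit 562) (nat_lit 5) (nat_lit 563) (nat_lit 5) (nat_lit 367) (nat_lit 353) (nat_lit 300)) (XT.lf (nat_lit 0) (nat_lit 4902037824) (nat_lit 1444) (nat_lit 2806347847) (nat_lit 76) (nat_lit 615880610) (nat_lit 544) (nat_lit 5) (nat_lit 563) (nat_lit 5) (nat_lit 545) (nat_lit 5) (nat_lit 368) (nat_lit 353) (nat_lit 299))))))) (XT.nd (nat_lit 858) (nat_lit 6916) (nat_lit 0) (XT.nd (nat_lit 390) (nat_lit 6840) (nat_lit 0) (XT.nd (nat_lit 156) (nat_lit 3344) (nat_lit 0) (XT.nd (nat_lit 78) (nat_lit 1596) (nat_lit 0) (XT.lf (nat_lit 0) (nat_lit 4164793369) (nat_lit 1444) (nat_lit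 3314387249) (nat_lit 1520) (nat_lit 946989248) (nat_lit 525) (nat_lit 5) (nat_lit 544) (nat_lit 5) (nat_lit 545) (nat_lit 5) (nat_lit 369) (nat_lit 353) (nat_lit 298)) (XT.lf (nat_lit 0) (nat_lit 1560294245) (nat_lit 1596) (nat_lit 5714607884) (nat_lit 76) (nat_lit 1256460121) (nat_lit 504) (nat_lit 5) (nat_lit 525) (nat_lit 5) (nat_lit 505) (nat_lit 5) (nat_lit 370) (nat_lit 353) (nat_lit 297))) (XT.nd (nat_lit 78) (nat_lit 1748) (nat_lit 0) (XT.lf (nat_lit 0) (nat_lit 1462323613) (nat_lit 1596) (nat_lit 2663142859) (nat_lit 1672) (nat_lit 4514223424) (nat_lit 483) (nat_lit 5) (nat_lit 504) (nat_lit 5) (nat_lit 505) (nat_lit 5) (nat_lit 371) (nat_lit 353) (nat_lit 296)) (XT.nd (nat_lit 78) (nat_lit 76) (nat_lit 0) (XT.lf (nat_lit 0) (nat_lit 114932338) (nat_lit 1672) (nat_lit 6642291264) (nat_lit 1748) (nat_lit 1994266130) (nat_lit 461) (nat_lit 5) (nat_lit 483) (nat_lit 5) (nat_lit 484) (nat_lit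 5) (nat_lit 372) (nat_lit 353) (nat_lit 295)) (XT.lf (nat_lit 0) (nat_lit 597600975) (nat_lit 1748) (nat_lit 1218475347) (nat_lit 76) (nat_lit 7050419454) (nat_lit 460) (nat_lit 5) (nat_lit 483) (nat_lit 5) (nat_lit 461) (nat_lit 5) (nat_lit 373) (nat_lit 353) (nat_lit 294))))) (XT.nd (nat_lit 234) (nat_lit 2736) (nat_lit 0) (XT.nd (nat_lit 78) (nat_lit 2356) (nat_lit 0) (XT.lf (nat_lit 0) (nat_lit 3242244610) (nat_lit 1824) (nat_lit 2566113312) (nat_lit 76) (nat_lit 3176301965) (nat_lit 437) (nat_lit 5) (nat_lit 461) (nat_lit 5) (nat_lit 438) (nat_lit 5) (nat_lit 374) (nat_lit 353) (nat_lit 293)) (XT.nd (nat_lit 78) (nat_lit 912) (nat_lit 0) (XT.lf (nat_lit 0) (nat_lit 5197329783) (nat_lit 1444) (nat_lit 763822599) (nat_lit 1520) (nat_lit 3145331459) (nat_lit 418) (nat_lit 5) (nat_lit 437) (nat_lit 5) (nat_lit 438) (nat_lit 5) (nat_lit 375) (nat_lit 353) (nat_lit 292)) (XT.lf (nat_lit 0) (nat_lit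 3966194039) (nat_lit 912) (nat_lit 4809603454) (nat_lit 988) (nat_lit 455894646) (nat_lit 406) (nat_lit 5) (nat_lit 418) (nat_lit 5) (nat_lit 419) (nat_lit 5) (nat_lit 376) (nat_lit 353) (nat_lit 291)))) (XT.nd (nat_lit 78) (nat_lit 1748) (nat_lit 0) (XT.lf (nat_lit 0) (nat_lit 2279443540) (nat_lit 988) (nat_lit 6630772543) (nat_lit 76) (nat_lit 450241100) (nat_lit 393) (nat_lit 5) (nat_lit 406) (nat_lit 5) (nat_lit 394) (nat_lit 5) (nat_lit 377) (nat_lit 353) (nat_lit 290)) (XT.nd (nat_lit 78) (nat_lit 836) (nat_lit 0) (XT.lf (nat_lit 0) (nat_lit 1474036008) (nat_lit 912) (nat_lit 3638719199) (nat_lit 988) (nat_lit 4379839596) (nat_lit 381) (nat_lit 5) (nat_lit 393) (nat_lit 5) (nat_lit 394) (nat_lit 5) (nat_lit 378) (nat_lit 353) (nat_lit 289)) (XT.lf (nat_lit 0) (nat_lit 221435977) (nat_lit 836) (nat_lit 7813624190) (nat_lit 912) (nat_lit 1593568195) (nat_lit 370) (nat_lit 5) (nat_lit 381) (nat_lit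 5) (nat_lit 382) (nat_lit 5) (nat_lit 379) (nat_lit 353) (nat_lit 288)))))) (XT.nd (nat_lit 390) (nat_lit 3648) (nat_lit 0) (XT.nd (nat_lit 156) (nat_lit 2356) (nat_lit 0) (XT.nd (nat_lit 78) (nat_lit 836) (nat_lit 0) (XT.lf (nat_lit 0) (nat_lit 1285151879) (nat_lit 912) (nat_lit 1036580196) (nat_lit 76) (nat_lit 7446344260) (nat_lit 369) (nat_lit 5) (nat_lit 381) (nat_lit 5) (nat_lit 370) (nat_lit 5) (nat_lit 380) (nat_lit 353) (nat_lit 287)) (XT.lf (nat_lit 0) (nat_lit 4248362555) (nat_lit 912) (nat_lit 2311896078) (nat_lit 76) (nat_lit 3350853660) (nat_lit 358) (nat_lit 5) (nat_lit 370) (nat_lit 5) (nat_lit 359) (nat_lit 5) (nat_lit 381) (nat_lit 353) (nat_lit 286))) (XT.nd (nat_lit 78) (nat_lit 1596) (nat_lit 0) (XT.lf (nat_lit 0) (nat_lit 6466298084) (nat_lit 760) (nat_lit 848044024) (nat_lit 836) (nat_lit 2743830256) (nat_lit 348) (nat_lit 5) (nat_lit 358) (nat_lit 5) (nat_lit 359) (nat_lit 5)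 (nat_lit 382) (nat_lit 353) (nat_lit 285)) (XT.nd (nat_lit 78) (nat_lit 760) (nat_lit 0) (XT.lf (nat_lit 0) (nat_lit 292803780) (nat_lit 836) (nat_lit 4896903143) (nat_lit 76) (nat_lit 5019241354) (nat_lit 337) (nat_lit 5) (nat_lit 348) (nat_lit 5) (nat_lit 338) (nat_lit 5) (nat_lit 383) (nat_lit 353) (nat_lit 284)) (XT.lf (nat_lit 0) (nat_lit 3396646545) (nat_lit 836) (nat_lit 6222778250) (nat_lit 76) (nat_lit 744201879) (nat_lit 327) (nat_lit 5) (nat_lit 338) (nat_lit 5) (nat_lit 328) (nat_lit 5) (nat_lit 384) (nat_lit 353) (nat_lit 283))))) (XT.nd (nat_lit 234) (nat_lit 1444) (nat_lit 0) (XT.nd (nat_lit 78) (nat_lit 1444) (nat_lit 0) (XT.lf (nat_lit 0) (nat_lit 2945266316) (nat_lit 760) (nat_lit 3687815424) (nat_lit 836) (nat_lit 3889083547) (nat_lit 317) (nat_lit 5) (nat_lit 327) (nat_lit 5) (nat_lit 328) (nat_lit 5) (nat_lit 385) (nat_lit 353) (nat_lit 282)) (XT.nd (nat_lit 78) (nat_lit 760) (nat_lit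 0) (XT.lf (nat_lit 0) (nat_lit 1742802239) (nat_lit 684) (nat_lit 8246557567) (nat_lit 760) (nat_lit 695654390) (nat_lit 308) (nat_lit 5) (nat_lit 317) (nat_lit 5) (nat_lit 318) (nat_lit 5) (nat_lit 386) (nat_lit 353) (nat_lit 281)) (XT.lf (nat_lit 0) (nat_lit 506156578) (nat_lit 684) (nat_lit 2087013174) (nat_lit 760) (nat_lit 8258578584) (nat_lit 298) (nat_lit 5) (nat_lit 307) (nat_lit 5) (nat_lit 308) (nat_lit 5) (nat_lit 387) (nat_lit 353) (nat_lit 280)))) (XT.nd (nat_lit 78) (nat_lit 1444) (nat_lit 0) (XT.lf (nat_lit 0) (nat_lit 6014833913) (nat_lit 760) (nat_lit 747324753) (nat_lit 76) (nat_lit 4260369780) (nat_lit 298) (nat_lit 5) (nat_lit 308) (nat_lit 5) (nat_lit 299) (nat_lit 5) (nat_lit 388) (nat_lit 353) (nat_lit 279)) (XT.nd (nat_lit 78) (nat_lit 760) (nat_lit 0) (XT.lf (nat_lit 0) (nat_lit 9194318657) (nat_lit 684) (nat_lit 374729079) (nat_lit 760) (nat_lit 1628794423) (nat_lit 289) (nat_lit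 5) (nat_lit 298) (nat_lit 5) (nat_lit 299) (nat_lit 5) (nat_lit 389) (nat_lit 353) (nat_lit 278)) (XT.lf (nat_lit 0) (nat_lit 1882537039) (nat_lit 760) (nat_lit 3309103471) (nat_lit 76) (nat_lit 6185435221) (nat_lit 279) (nat_lit 5) (nat_lit 289) (nat_lit 5) (nat_lit 280) (nat_lit 5) (nat_lit 390) (nat_lit 353) (nat_lit 277))))))))
noncomputable def xc69 : XT := (XT.nd (nat_lit 1716) (nat_lit 4788) (nat_lit 0) (XT.nd (nat_lit 858) (nat_lit 4484) (nat_lit 0) (XT.nd (nat_lit 390) (nat_lit 2812) (nat_lit 0) (XT.nd (nat_lit 156) (nat_lit 1824) (nat_lit 0) (XT.nd (nat_lit 78) (nat_lit 608) (nat_lit 0) (XT.lf (nat_lit 0) (nat_lit 5505516942) (nat_lit 684) (nat_lit 4636278321) (nat_lit 76) (nat_lit 1419114544) (nat_lit 271) (nat_lit 5) (nat_lit 280) (nat_lit 5) (nat_lit 272) (nat_lit 5) (nat_lit 391) (nat_lit 353) (nat_lit 276)) (XT.lf (nat_lit 0) (nat_lit 5750542739) (nat_lit 608) (nat_lit 3539899539) (nat_lit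 684) (nat_lit 2458758861) (nat_lit 263) (nat_lit 5) (nat_lit 271) (nat_lit 5) (nat_lit 272) (nat_lit 5) (nat_lit 392) (nat_lit 353) (nat_lit 275))) (XT.nd (nat_lit 78) (nat_lit 1140) (nat_lit 0) (XT.lf (nat_lit 0) (nat_lit 1271534207) (nat_lit 684) (nat_lit 7393163857) (nat_lit 76) (nat_lit 3277446405) (nat_lit 254) (nat_lit 5) (nat_lit 263) (nat_lit 5) (nat_lit 255) (nat_lit 5) (nat_lit 393) (nat_lit 353) (nat_lit 274)) (XT.nd (nat_lit 78) (nat_lit 532) (nat_lit 0) (XT.lf (nat_lit 0) (nat_lit 3307574582) (nat_lit 608) (nat_lit 1819046653) (nat_lit 684) (nat_lit 7013010811) (nat_lit 246) (nat_lit 5) (nat_lit 254) (nat_lit 5) (nat_lit 255) (nat_lit 5) (nat_lit 394) (nat_lit 353) (nat_lit 273)) (XT.lf (nat_lit 0) (nat_lit 2030402441) (nat_lit 532) (nat_lit 7125347348) (nat_lit 608) (nat_lit 3186133278) (nat_lit 239) (nat_lit 5) (nat_lit 246) (nat_lit 5) (nat_lit 247) (nat_lit 5) (nat_lit 395) (nat_lit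 353) (nat_lit 272))))) (XT.nd (nat_lit 234) (nat_lit 1596) (nat_lit 0) (XT.nd (nat_lit 78) (nat_lit 532) (nat_lit 0) (XT.lf (nat_lit 0) (nat_lit 732649403) (nat_lit 608) (nat_lit 51524403) (nat_lit 684) (nat_lit 11765165336) (nat_lit 230) (nat_lit 5) (nat_lit 238) (nat_lit 5) (nat_lit 239) (nat_lit 5) (nat_lit 396) (nat_lit 353) (nat_lit 271)) (XT.nd (nat_lit 78) (nat_lit 532) (nat_lit 0) (XT.lf (nat_lit 0) (nat_lit 4909953905) (nat_lit 684) (nat_lit 631107910) (nat_lit 76) (nat_lit 7219948955) (nat_lit 230) (nat_lit 5) (nat_lit 239) (nat_lit 5) (nat_lit 231) (nat_lit 5) (nat_lit 397) (nat_lit 353) (nat_lit 270)) (XT.lf (nat_lit 0) (nat_lit 9206003075) (nat_lit 608) (nat_lit 2004736206) (nat_lit 76) (nat_lit 1767369271) (nat_lit 223) (nat_lit 5) (nat_lit 231) (nat_lit 5) (nat_lit 224) (nat_lit 5) (nat_lit 398) (nat_lit 353) (nat_lit 269)))) (XT.nd (nat_lit 78) (nat_lit 988) (nat_lit 0) (XT.lf (nat_lit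 0) (nat_lit 492751546) (nat_lit 608) (nat_lit 3427874821) (nat_lit 76) (nat_lit 9279659474) (nat_lit 215) (nat_lit 5) (nat_lit 223) (nat_lit 5) (nat_lit 216) (nat_lit 5) (nat_lit 399) (nat_lit 353) (nat_lit 268)) (XT.nd (nat_lit 78) (nat_lit 532) (nat_lit 0) (XT.lf (nat_lit 0) (nat_lit 4891950316) (nat_lit 532) (nat_lit 4911748448) (nat_lit 76) (nat_lit 3623783597) (nat_lit 209) (nat_lit 5) (nat_lit 216) (nat_lit 5) (nat_lit 210) (nat_lit 5) (nat_lit 400) (nat_lit 353) (nat_lit 267)) (XT.lf (nat_lit 0) (nat_lit 7223976764) (nat_lit 532) (nat_lit 2260690572) (nat_lit 608) (nat_lit 4175601907) (nat_lit 202) (nat_lit 5) (nat_lit 209) (nat_lit 5) (nat_lit 210) (nat_lit 5) (nat_lit 401) (nat_lit 353) (nat_lit 266)))))) (XT.nd (nat_lit 390) (nat_lit 2508) (nat_lit 0) (XT.nd (nat_lit 156) (nat_lit 988) (nat_lit 0) (XT.nd (nat_lit 78) (nat_lit 456) (nat_lit 0) (XT.lf (nat_lit 0) (nat_lit 384618370) (nat_lit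 532) (nat_lit 8016046972) (nat_lit 76) (nat_lit 5497866020) (nat_lit 195) (nat_lit 5) (nat_lit 202) (nat_lit 5) (nat_lit 196) (nat_lit 5) (nat_lit 402) (nat_lit 353) (nat_lit 265)) (XT.lf (nat_lit 0) (nat_lit 4483887453) (nat_lit 456) (nat_lit 595618704) (nat_lit 532) (nat_lit 9062796262) (nat_lit 189) (nat_lit 5) (nat_lit 195) (nat_lit 5) (nat_lit 196) (nat_lit 5) (nat_lit 403) (nat_lit 353) (nat_lit 264))) (XT.nd (nat_lit 78) (nat_lit 532) (nat_lit 0) (XT.lf (nat_lit 0) (nat_lit 3019906902) (nat_lit 456) (nat_lit 6984678101) (nat_lit 532) (nat_lit 4387019481) (nat_lit 183) (nat_lit 5) (nat_lit 189) (nat_lit 5) (nat_lit 190) (nat_lit 5) (nat_lit 404) (nat_lit 353) (nat_lit 263)) (XT.nd (nat_lit 78) (nat_lit 0) (nat_lit 0) (XT.lf (nat_lit 0) (nat_lit 477253956) (nat_lit 532) (nat_lit 13124635407) (nat_lit 76) (nat_lit 1045368068) (nat_lit 176) (nat_lit 5) (nat_lit 183) (nat_lit 5) (nat_lit 177) (nat_lit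 5) (nat_lit 405) (nat_lit 353) (nat_lit 262)) (XT.lf (nat_lit 0) (nat_lit 5520212749) (nat_lit 532) (nat_lit 72893369) (nat_lit 76) (nat_lit 9315051095) (nat_lit 176) (nat_lit 5) (nat_lit 183) (nat_lit 5) (nat_lit 177) (nat_lit 5) (nat_lit 406) (nat_lit 353) (nat_lit 261))))) (XT.nd (nat_lit 234) (nat_lit 1216) (nat_lit 0) (XT.nd (nat_lit 78) (nat_lit 912) (nat_lit 0) (XT.lf (nat_lit 0) (nat_lit 10788539705) (nat_lit 456) (nat_lit 1691375737) (nat_lit 76) (nat_lit 2695491236) (nat_lit 171) (nat_lit 5) (nat_lit 177) (nat_lit 5) (nat_lit 172) (nat_lit 5) (nat_lit 407) (nat_lit 353) (nat_lit 260)) (XT.nd (nat_lit 78) (nat_lit 380) (nat_lit 0) (XT.lf (nat_lit 0) (nat_lit 840286809) (nat_lit 532) (nat_lit 3380712049) (nat_lit 76) (nat_lit 11227858253) (nat_lit 164) (nat_lit 5) (nat_lit 171) (nat_lit 5) (nat_lit 165) (nat_lit 5) (nat_lit 408) (nat_lit 353) (nat_lit 259)) (XT.lf (nat_lit 0) (nat_lit 6243417237)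 (nat_lit 456) (nat_lit 5159314071) (nat_lit 76) (nat_lit 4325628510) (nat_lit 159) (nat_lit 5) (nat_lit 165) (nat_lit 5) (nat_lit 160) (nat_lit 5) (nat_lit 409) (nat_lit 353) (nat_lit 258)))) (XT.nd (nat_lit 78) (nat_lit 836) (nat_lit 0) (XT.lf (nat_lit 0) (nat_lit 9012999788) (nat_lit 380) (nat_lit 2875571550) (nat_lit 456) (nat_lit 4126081507) (nat_lit 154) (nat_lit 5) (nat_lit 159) (nat_lit 5) (nat_lit 160) (nat_lit 5) (nat_lit 410) (nat_lit 353) (nat_lit 257)) (XT.nd (nat_lit 78) (nat_lit 380) (nat_lit 0) (XT.lf (nat_lit 0) (nat_lit 1467992258) (nat_lit 456) (nat_lit 8931181624) (nat_lit 76) (nat_lit 5908329007) (nat_lit 148) (nat_lit 5) (nat_lit 154) (nat_lit 5) (nat_lit 149) (nat_lit 5) (nat_lit 411) (nat_lit 353) (nat_lit 256)) (XT.lf (nat_lit 0) (nat_lit 5656280253) (nat_lit 380) (nat_lit 1592576169) (nat_lit 456) (nat_lit 9358239579) (nat_lit 143) (nat_lit 5) (nat_lit 148) (nat_lit 5) (nat_lit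 149) (nat_lit 5) (nat_lit 412) (nat_lit 353) (nat_lit 255))))))) (XT.nd (nat_lit 858) (nat_lit 1216) (nat_lit 0) (XT.nd (nat_lit 390) (nat_lit 1976) (nat_lit 0) (XT.nd (nat_lit 156) (nat_lit 760) (nat_lit 0) (XT.nd (nat_lit 78) (nat_lit 456) (nat_lit 0) (XT.lf (nat_lit 0) (nat_lit 3846836989) (nat_lit 380) (nat_lit 9462219207) (nat_lit 456) (nat_lit 3604505957) (nat_lit 138) (nat_lit 5) (nat_lit 143) (nat_lit 5) (nat_lit 144) (nat_lit 5) (nat_lit 413) (nat_lit 353) (nat_lit 254)) (XT.lf (nat_lit 0) (nat_lit 1966675838) (nat_lit 380) (nat_lit 394650739) (nat_lit 456) (nat_lit 14866198724) (nat_lit 132) (nat_lit 5) (nat_lit 137) (nat_lit 5) (nat_lit 138) (nat_lit 5) (nat_lit 414) (nat_lit 353) (nat_lit 253))) (XT.nd (nat_lit 78) (nat_lit 760) (nat_lit 0) (XT.lf (nat_lit 0) (nat_lit 8576915437) (nat_lit 456) (nat_lit 45196731) (nat_lit 76) (nat_lit 8925926792) (nat_lit 132) (nat_lit 5) (nat_lit 138) (nat_lit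 5) (nat_lit 133) (nat_lit 5) (nat_lit 415) (nat_lit 353) (nat_lit 252)) (XT.nd (nat_lit 78) (nat_lit 456) (nat_lit 0) (XT.lf (nat_lit 0) (nat_lit 15061954223) (nat_lit 380) (nat_lit 2091964867) (nat_lit 76) (nat_lit 722592380) (nat_lit 128) (nat_lit 5) (nat_lit 133) (nat_lit 5) (nat_lit 129) (nat_lit 5) (nat_lit 416) (nat_lit 353) (nat_lit 251)) (XT.lf (nat_lit 0) (nat_lit 3603348709) (nat_lit 456) (nat_lit 4277453605) (nat_lit 76) (nat_lit 10331122904) (nat_lit 122) (nat_lit 5) (nat_lit 128) (nat_lit 5) (nat_lit 123) (nat_lit 5) (nat_lit 417) (nat_lit 353) (nat_lit 250))))) (XT.nd (nat_lit 234) (nat_lit 988) (nat_lit 0) (XT.nd (nat_lit 78) (nat_lit 684) (nat_lit 0) (XT.lf (nat_lit 0) (nat_lit 10253327063) (nat_lit 380) (nat_lit 6556766838) (nat_lit 76) (nat_lit 1745382766) (nat_lit 118) (nat_lit 5) (nat_lit 123) (nat_lit 5) (nat_lit 119) (nat_lit 5) (nat_lit 418) (nat_lit 353) (nat_lit 249)) (XT.nd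 (nat_lit 78) (nat_lit 380) (nat_lit 0) (XT.lf (nat_lit 0) (nat_lit 9949401538) (nat_lit 304) (nat_lit 7274105304) (nat_lit 380) (nat_lit 1683416546) (nat_lit 114) (nat_lit 5) (nat_lit 118) (nat_lit 5) (nat_lit 119) (nat_lit 5) (nat_lit 419) (nat_lit 353) (nat_lit 248)) (XT.lf (nat_lit 0) (nat_lit 5153754380) (nat_lit 380) (nat_lit 11483810129) (nat_lit 76) (nat_lit 2628940835) (nat_lit 109) (nat_lit 5) (nat_lit 114) (nat_lit 5) (nat_lit 110) (nat_lit 5) (nat_lit 420) (nat_lit 353) (nat_lit 247)))) (XT.nd (nat_lit 78) (nat_lit 684) (nat_lit 0) (XT.lf (nat_lit 0) (nat_lit 5483116480) (nat_lit 304) (nat_lit 6810453703) (nat_lit 380) (nat_lit 7340676572) (nat_lit 105) (nat_lit 5) (nat_lit 109) (nat_lit 5) (nat_lit 110) (nat_lit 5) (nat_lit 421) (nat_lit 353) (nat_lit 246)) (XT.nd (nat_lit 78) (nat_lit 380) (nat_lit 0) (XT.lf (nat_lit 0) (nat_lit 3082898327) (nat_lit 304) (nat_lit 16659828089) (nat_lit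 380) (nat_lit 268393558) (nat_lit 101) (nat_lit 5) (nat_lit 105) (nat_lit 5) (nat_lit 106) (nat_lit 5) (nat_lit 422) (nat_lit 353) (nat_lit 245)) (XT.lf (nat_lit 0) (nat_lit 505191585) (nat_lit 304) (nat_lit 6539797046) (nat_lit 380) (nat_lit 13350983115) (nat_lit 96) (nat_lit 5) (nat_lit 100) (nat_lit 5) (nat_lit 101) (nat_lit 5) (nat_lit 423) (nat_lit 353) (nat_lit 244)))))) (XT.nd (nat_lit 47658) (nat_lit 0) (nat_lit 37620) (XT.nd (nat_lit 156) (nat_lit 912) (nat_lit 0) (XT.nd (nat_lit 78) (nat_lit 304) (nat_lit 0) (XT.lf (nat_lit 0) (nat_lit 14690784842) (nat_lit 380) (nat_lit 2164226202) (nat_lit 76) (nat_lit 3934991663) (nat_lit 96) (nat_lit 5) (nat_lit 101) (nat_lit 5) (nat_lit 97) (nat_lit 5) (nat_lit 424) (nat_lit 353) (nat_lit 243)) (XT.lf (nat_lit 0) (nat_lit 1478688806) (nat_lit 304) (nat_lit 4978439025) (nat_lit 76) (nat_lit 14736019888) (nat_lit 92) (nat_lit 5) (nat_lit 96) (nat_lit 5)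 (nat_lit 93) (nat_lit 5) (nat_lit 425) (nat_lit 353) (nat_lit 242))) (XT.nd (nat_lit 78) (nat_lit 608) (nat_lit 0) (XT.lf (nat_lit 0) (nat_lit 9310436118) (nat_lit 380) (nat_lit 7967766283) (nat_lit 76) (nat_lit 4327193127) (nat_lit 88) (nat_lit 5) (nat_lit 93) (nat_lit 5) (nat_lit 89) (nat_lit 5) (nat_lit 426) (nat_lit 353) (nat_lit 241)) (XT.nd (nat_lit 78) (nat_lit 380) (nat_lit 0) (XT.lf (nat_lit 0) (nat_lit 10912738516) (nat_lit 228) (nat_lit 6589652652) (nat_lit 304) (nat_lit 4525116558) (nat_lit 85) (nat_lit 5) (nat_lit 88) (nat_lit 5) (nat_lit 89) (nat_lit 5) (nat_lit 427) (nat_lit 353) (nat_lit 240)) (XT.lf (nat_lit 0) (nat_lit 3545825206) (nat_lit 380) (nat_lit 14437063142) (nat_lit 76) (nat_lit 4476672980) (nat_lit 80) (nat_lit 5) (nat_lit 85) (nat_lit 5) (nat_lit 81) (nat_lit 5) (nat_lit 428) (nat_lit 353) (nat_lit 239))))) (XT.nd (nat_lit 234) (nat_lit 1216) (nat_lit 0) (XT.nd (nat_lit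 78) (nat_lit 1216) (nat_lit 0) (XT.lf (nat_lit 0) (nat_lit 894220002) (nat_lit 0) (nat_lit 894220002) (nat_lit 1140) (nat_lit 1850076373) (nat_lit 607) (nat_lit 5) (nat_lit 607) (nat_lit 3) (nat_lit 622) (nat_lit 3) (nat_lit 354) (nat_lit 354) (nat_lit 312)) (XT.nd (nat_lit 78) (nat_lit 1216) (nat_lit 0) (XT.lf (nat_lit 0) (nat_lit 5993873666) (nat_lit 1140) (nat_lit 161479545) (nat_lit 1216) (nat_lit 1182909051) (nat_lit 607) (nat_lit 5) (nat_lit 622) (nat_lit 3) (nat_lit 623) (nat_lit 5) (nat_lit 355) (nat_lit 354) (nat_lit 311)) (XT.lf (nat_lit 0) (nat_lit 1022501805) (nat_lit 1216) (nat_lit 2073649393) (nat_lit 1292) (nat_lit 4305969277) (nat_lit 591) (nat_lit 5) (nat_lit 607) (nat_lit 5) (nat_lit 608) (nat_lit 5) (nat_lit 356) (nat_lit 354) (nat_lit 310)))) (XT.nd (nat_lit 78) (nat_lit 1292) (nat_lit 0) (XT.lf (nat_lit 0) (nat_lit 3377057074) (nat_lit 1216) (nat_lit 3964027381) (nat_lit 1292)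 (nat_lit 127958276) (nat_lit 592) (nat_lit 5) (nat_lit 608) (nat_lit 5) (nat_lit 609) (nat_lit 5) (nat_lit 357) (nat_lit 354) (nat_lit 309)) (XT.nd (nat_lit 78) (nat_lit 1292) (nat_lit 0) (XT.lf (nat_lit 76) (nat_lit 1693330550) (nat_lit 0) (nat_lit 4067442271) (nat_lit 1292) (nat_lit 1778053131) (nat_lit 593) (nat_lit 5) (nat_lit 592) (nat_lit 5) (nat_lit 609) (nat_lit 5) (nat_lit 358) (nat_lit 354) (nat_lit 308)) (XT.lf (nat_lit 0) (nat_lit 538716503) (nat_lit 1292) (nat_lit 89769265) (nat_lit 1368) (nat_lit 6983333776) (nat_lit 575) (nat_lit 5) (nat_lit 592) (nat_lit 5) (nat_lit 593) (nat_lit 5) (nat_lit 359) (nat_lit 354) (nat_lit 307))))))))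
noncomputable def xc70 : XT := (XT.nd (nat_lit 1716) (nat_lit 12388) (nat_lit 0) (XT.nd (nat_lit 858) (nat_lit 12616) (nat_lit 0) (XT.nd (nat_lit 390) (nat_lit 2660) (nat_lit 0) (XT.nd (nat_lit 156) (nat_lit 1292) (nat_lit 0) (XT.nd (nat_lit 78) (nat_lit 0) (nat_lit 0) (XT.lf (nat_lit 0) (nat_lit 2875269092) (nat_lit 1292) (nat_lit 1852341418) (nat_lit 1368) (nat_lit 2959690613) (nat_lit 576) (nat_lit 5) (nat_lit 593) (nat_lit 5) (nat_lit 594) (nat_lit 5) (nat_lit 360) (nat_lit 354) (nat_lit 306)) (XT.lf (nat_lit 76) (nat_lit 4174393050) (nat_lit 0) (nat_lit 1058584442) (nat_lit 1368) (nat_lit 2533069800) (nat_lit 577) (nat_lit 5) (nat_lit 576) (nat_lit 5) (nat_lit 594) (nat_lit 5) (nat_lit 361) (nat_lit 354) (nat_lit 305))) (XT.nd (nat_lit 78) (nat_lit 1368) (nat_lit 0) (XT.lf (nat_lit 76) (nat_lit 2524993420) (nat_lit 0) (nat_lit 5104488273) (nat_lit 1368) (nat_lit 218333572) (nat_lit 578) (nat_lit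 5) (nat_lit 577) (nat_lit 5) (nat_lit 595) (nat_lit 5) (nat_lit 362) (nat_lit 354) (nat_lit 304)) (XT.nd (nat_lit 78) (nat_lit 0) (nat_lit 76) (XT.lf (nat_lit 76) (nat_lit 882041985) (nat_lit 0) (nat_lit 1215513173) (nat_lit 1444) (nat_lit 5835017272) (nat_lit 560) (nat_lit 5) (nat_lit 559) (nat_lit 5) (nat_lit 578) (nat_lit 5) (nat_lit 363) (nat_lit 354) (nat_lit 303)) (XT.lf (nat_lit 0) (nat_lit 4459290704) (nat_lit 1368) (nat_lit 744892186) (nat_lit 1444) (nat_lit 2816092963) (nat_lit 560) (nat_lit 5) (nat_lit 578) (nat_lit 5) (nat_lit 579) (nat_lit 5) (nat_lit 364) (nat_lit 354) (nat_lit 302))))) (XT.nd (nat_lit 234) (nat_lit 1368) (nat_lit 0) (XT.nd (nat_lit 78) (nat_lit 1368) (nat_lit 0) (XT.lf (nat_lit 76) (nat_lit 5767094610) (nat_lit 0) (nat_lit 1097439844) (nat_lit 1444) (nat_lit 1246641381) (nat_lit 561) (nat_lit 5) (nat_lit 560) (nat_lit 5) (nat_lit 579) (nat_lit 5) (nat_lit 365) (nat_lit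 354) (nat_lit 301)) (XT.nd (nat_lit 78) (nat_lit 0) (nat_lit 0) (XT.lf (nat_lit 0) (nat_lit 1104215766) (nat_lit 1444) (nat_lit 3948043268) (nat_lit 1520) (nat_lit 3152773871) (nat_lit 542) (nat_lit 5) (nat_lit 561) (nat_lit 5) (nat_lit 562) (nat_lit 5) (nat_lit 366) (nat_lit 354) (nat_lit 300)) (XT.lf (nat_lit 76) (nat_lit 2755947296) (nat_lit 0) (nat_lit 724324142) (nat_lit 1520) (nat_lit 4821854418) (nat_lit 543) (nat_lit 5) (nat_lit 542) (nat_lit 5) (nat_lit 562) (nat_lit 5) (nat_lit 367) (nat_lit 354) (nat_lit 299)))) (XT.nd (nat_lit 78) (nat_lit 1444) (nat_lit 0) (XT.lf (nat_lit 76) (nat_lit 1253659673) (nat_lit 0) (nat_lit 4665368120) (nat_lit 1520) (nat_lit 2483292092) (nat_lit 544) (nat_lit 5) (nat_lit 543) (nat_lit 5) (nat_lit 563) (nat_lit 5) (nat_lit 368) (nat_lit 354) (nat_lit 298)) (XT.nd (nat_lit 78) (nat_lit 1444) (nat_lit 0) (XT.lf (nat_lit 76) (nat_lit 8277475678) (nat_lit 0) (nat_lit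 129620971) (nat_lit 1520) (nat_lit 98916271) (nat_lit 544) (nat_lit 5) (nat_lit 543) (nat_lit 5) (nat_lit 563) (nat_lit 5) (nat_lit 369) (nat_lit 354) (nat_lit 297)) (XT.lf (nat_lit 0) (nat_lit 2336261828) (nat_lit 1520) (nat_lit 1718621634) (nat_lit 76) (nat_lit 4557438961) (nat_lit 524) (nat_lit 5) (nat_lit 544) (nat_lit 5) (nat_lit 525) (nat_lit 5) (nat_lit 370) (nat_lit 354) (nat_lit 296)))))) (XT.nd (nat_lit 390) (nat_lit 4560) (nat_lit 0) (XT.nd (nat_lit 156) (nat_lit 4940) (nat_lit 0) (XT.nd (nat_lit 78) (nat_lit 1596) (nat_lit 0) (XT.lf (nat_lit 0) (nat_lit 4823017707) (nat_lit 1596) (nat_lit 3195964729) (nat_lit 76) (nat_lit 703243328) (nat_lit 504) (nat_lit 5) (nat_lit 525) (nat_lit 5) (nat_lit 505) (nat_lit 5) (nat_lit 371) (nat_lit 354) (nat_lit 295)) (XT.lf (nat_lit 0) (nat_lit 4152631338) (nat_lit 1596) (nat_lit 3236028776) (nat_lit 1672) (nat_lit 1446694932) (nat_lit 483) (nat_lit 5)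 (nat_lit 504) (nat_lit 5) (nat_lit 505) (nat_lit 5) (nat_lit 372) (nat_lit 354) (nat_lit 294))) (XT.nd (nat_lit 78) (nat_lit 3192) (nat_lit 0) (XT.lf (nat_lit 0) (nat_lit 1056043574) (nat_lit 1748) (nat_lit 6171495516) (nat_lit 76) (nat_lit 1724396648) (nat_lit 460) (nat_lit 5) (nat_lit 483) (nat_lit 5) (nat_lit 461) (nat_lit 5) (nat_lit 373) (nat_lit 354) (nat_lit 293)) (XT.nd (nat_lit 78) (nat_lit 1444) (nat_lit 0) (XT.lf (nat_lit 0) (nat_lit 1395133900) (nat_lit 1748) (nat_lit 2222849233) (nat_lit 1824) (nat_lit 5453777406) (nat_lit 437) (nat_lit 5) (nat_lit 460) (nat_lit 5) (nat_lit 461) (nat_lit 5) (nat_lit 374) (nat_lit 354) (nat_lit 292)) (XT.lf (nat_lit 0) (nat_lit 7457464) (nat_lit 1444) (nat_lit 6252955600) (nat_lit 1520) (nat_lit 2934707403) (nat_lit 418) (nat_lit 5) (nat_lit 437) (nat_lit 5) (nat_lit 438) (nat_lit 5) (nat_lit 375) (nat_lit 354) (nat_lit 291))))) (XT.nd (nat_lit 234) (nat_lit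 2660) (nat_lit 0) (XT.nd (nat_lit 78) (nat_lit 1900) (nat_lit 0) (XT.lf (nat_lit 0) (nat_lit 7960705541) (nat_lit 1444) (nat_lit 1031990064) (nat_lit 1520) (nat_lit 329286644) (nat_lit 418) (nat_lit 5) (nat_lit 437) (nat_lit 5) (nat_lit 438) (nat_lit 5) (nat_lit 376) (nat_lit 354) (nat_lit 290)) (XT.nd (nat_lit 78) (nat_lit 912) (nat_lit 0) (XT.lf (nat_lit 0) (nat_lit 2340753967) (nat_lit 988) (nat_lit 2759057797) (nat_lit 76) (nat_lit 4352197760) (nat_lit 405) (nat_lit 5) (nat_lit 418) (nat_lit 5) (nat_lit 406) (nat_lit 5) (nat_lit 377) (nat_lit 354) (nat_lit 289)) (XT.lf (nat_lit 0) (nat_lit 5086530337) (nat_lit 988) (nat_lit 4155345908) (nat_lit 76) (nat_lit 344027363) (nat_lit 393) (nat_lit 5) (nat_lit 406) (nat_lit 5) (nat_lit 394) (nat_lit 5) (nat_lit 378) (nat_lit 354) (nat_lit 288)))) (XT.nd (nat_lit 78) (nat_lit 1748) (nat_lit 0) (XT.lf (nat_lit 0) (nat_lit 4149218751) (nat_lit 912) (nat_lit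 3792936489) (nat_lit 988) (nat_lit 1781121118) (nat_lit 381) (nat_lit 5) (nat_lit 393) (nat_lit 5) (nat_lit 394) (nat_lit 5) (nat_lit 379) (nat_lit 354) (nat_lit 287)) (XT.nd (nat_lit 78) (nat_lit 836) (nat_lit 0) (XT.lf (nat_lit 0) (nat_lit 1012964353) (nat_lit 912) (nat_lit 7001430500) (nat_lit 76) (nat_lit 1850101041) (nat_lit 369) (nat_lit 5) (nat_lit 381) (nat_lit 5) (nat_lit 370) (nat_lit 5) (nat_lit 380) (nat_lit 354) (nat_lit 286)) (XT.lf (nat_lit 0) (nat_lit 1552017935) (nat_lit 836) (nat_lit 2337894029) (nat_lit 912) (nat_lit 6119350315) (nat_lit 358) (nat_lit 5) (nat_lit 369) (nat_lit 5) (nat_lit 370) (nat_lit 5) (nat_lit 381) (nat_lit 354) (nat_lit 285))))))) (XT.nd (nat_lit 858) (nat_lit 5776) (nat_lit 0) (XT.nd (nat_lit 390) (nat_lit 3496) (nat_lit 0) (XT.nd (nat_lit 156) (nat_lit 2356) (nat_lit 0) (XT.nd (nat_lit 78) (nat_lit 0) (nat_lit 0) (XT.lf (nat_lit 0) (nat_lit 229020029) (nat_lit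 760) (nat_lit 6646943978) (nat_lit 836) (nat_lit 3281961909) (nat_lit 348) (nat_lit 5) (nat_lit 358) (nat_lit 5) (nat_lit 359) (nat_lit 5) (nat_lit 382) (nat_lit 354) (nat_lit 284)) (XT.lf (nat_lit 0) (nat_lit 9225256530) (nat_lit 760) (nat_lit 751056340) (nat_lit 836) (nat_lit 334252172) (nat_lit 348) (nat_lit 5) (nat_lit 358) (nat_lit 5) (nat_lit 359) (nat_lit 5) (nat_lit 383) (nat_lit 354) (nat_lit 283))) (XT.nd (nat_lit 78) (nat_lit 1520) (nat_lit 0) (XT.lf (nat_lit 0) (nat_lit 2706752601) (nat_lit 836) (nat_lit 2440243609) (nat_lit 76) (nat_lit 5319639701) (nat_lit 337) (nat_lit 5) (nat_lit 348) (nat_lit 5) (nat_lit 338) (nat_lit 5) (nat_lit 384) (nat_lit 354) (nat_lit 282)) (XT.nd (nat_lit 78) (nat_lit 760) (nat_lit 0) (XT.lf (nat_lit 0) (nat_lit 5851647909) (nat_lit 836) (nat_lit 3801997077) (nat_lit 76) (nat_lit 973364836) (nat_lit 327) (nat_lit 5) (nat_lit 338) (nat_lit 5) (nat_lit 328) (nat_lit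 5) (nat_lit 385) (nat_lit 354) (nat_lit 281)) (XT.lf (nat_lit 0) (nat_lit 5598785812) (nat_lit 760) (nat_lit 3534508128) (nat_lit 836) (nat_lit 1658061801) (nat_lit 317) (nat_lit 5) (nat_lit 327) (nat_lit 5) (nat_lit 328) (nat_lit 5) (nat_lit 386) (nat_lit 354) (nat_lit 280))))) (XT.nd (nat_lit 234) (nat_lit 1368) (nat_lit 0) (XT.nd (nat_lit 78) (nat_lit 1368) (nat_lit 0) (XT.lf (nat_lit 0) (nat_lit 1560750121) (nat_lit 760) (nat_lit 6607679411) (nat_lit 76) (nat_lit 2791442166) (nat_lit 307) (nat_lit 5) (nat_lit 317) (nat_lit 5) (nat_lit 308) (nat_lit 5) (nat_lit 387) (nat_lit 354) (nat_lit 279)) (XT.nd (nat_lit 78) (nat_lit 684) (nat_lit 0) (XT.lf (nat_lit 0) (nat_lit 3077336187) (nat_lit 684) (nat_lit 1812046010) (nat_lit 760) (nat_lit 6243134289) (nat_lit 298) (nat_lit 5) (nat_lit 307) (nat_lit 5) (nat_lit 308) (nat_lit 5) (nat_lit 388) (nat_lit 354) (nat_lit 278)) (XT.lf (nat_lit 0) (nat_lit 1776454444)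 (nat_lit 684) (nat_lit 6586289601) (nat_lit 760) (nat_lit 2946707114) (nat_lit 289) (nat_lit 5) (nat_lit 298) (nat_lit 5) (nat_lit 299) (nat_lit 5) (nat_lit 389) (nat_lit 354) (nat_lit 277)))) (XT.nd (nat_lit 78) (nat_lit 608) (nat_lit 0) (XT.lf (nat_lit 0) (nat_lit 463923064) (nat_lit 684) (nat_lit 7040725) (nat_lit 760) (nat_lit 11020114712) (nat_lit 279) (nat_lit 5) (nat_lit 288) (nat_lit 5) (nat_lit 289) (nat_lit 5) (nat_lit 390) (nat_lit 354) (nat_lit 276)) (XT.nd (nat_lit 78) (nat_lit 608) (nat_lit 0) (XT.lf (nat_lit 0) (nat_lit 4019349015) (nat_lit 760) (nat_lit 899148785) (nat_lit 76) (nat_lit 6757910293) (nat_lit 279) (nat_lit 5) (nat_lit 289) (nat_lit 5) (nat_lit 280) (nat_lit 5) (nat_lit 391) (nat_lit 354) (nat_lit 275)) (XT.lf (nat_lit 0) (nat_lit 7709262955) (nat_lit 684) (nat_lit 2268580067) (nat_lit 76) (nat_lit 1888760148) (nat_lit 271) (nat_lit 5) (nat_lit 280) (nat_lit 5) (nat_lit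 272) (nat_lit 5) (nat_lit 392) (nat_lit 354) (nat_lit 274)))))) (XT.nd (nat_lit 390) (nat_lit 2660) (nat_lit 0) (XT.nd (nat_lit 156) (nat_lit 1824) (nat_lit 0) (XT.nd (nat_lit 78) (nat_lit 684) (nat_lit 0) (XT.lf (nat_lit 0) (nat_lit 8389175990) (nat_lit 608) (nat_lit 3175195596) (nat_lit 684) (nat_lit 497049498) (nat_lit 263) (nat_lit 5) (nat_lit 271) (nat_lit 5) (nat_lit 272) (nat_lit 5) (nat_lit 393) (nat_lit 354) (nat_lit 273)) (XT.lf (nat_lit 0) (nat_lit 3279032121) (nat_lit 684) (nat_lit 5125749962) (nat_lit 76) (nat_lit 3855904856) (nat_lit 254) (nat_lit 5) (nat_lit 263) (nat_lit 5) (nat_lit 255) (nat_lit 5) (nat_lit 394) (nat_lit 354) (nat_lit 272))) (XT.nd (nat_lit 78) (nat_lit 1216) (nat_lit 0) (XT.lf (nat_lit 0) (nat_lit 5855626174) (nat_lit 608) (nat_lit 1352685214) (nat_lit 684) (nat_lit 5256626714) (nat_lit 246) (nat_lit 5) (nat_lit 254) (nat_lit 5) (nat_lit 255) (nat_lit 5) (nat_lit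 395) (nat_lit 354) (nat_lit 271)) (XT.nd (nat_lit 78) (nat_lit 684) (nat_lit 0) (XT.lf (nat_lit 0) (nat_lit 4535334310) (nat_lit 532) (nat_lit 6785979236) (nat_lit 608) (nat_lit 1352692582) (nat_lit 239) (nat_lit 5) (nat_lit 246) (nat_lit 5) (nat_lit 247) (nat_lit 5) (nat_lit 396) (nat_lit 354) (nat_lit 270)) (XT.lf (nat_lit 0) (nat_lit 2675077334) (nat_lit 684) (nat_lit 9707374178) (nat_lit 76) (nat_lit 505719831) (nat_lit 230) (nat_lit 5) (nat_lit 239) (nat_lit 5) (nat_lit 231) (nat_lit 5) (nat_lit 397) (nat_lit 354) (nat_lit 269))))) (XT.nd (nat_lit 234) (nat_lit 1520) (nat_lit 0) (XT.nd (nat_lit 78) (nat_lit 608) (nat_lit 0) (XT.lf (nat_lit 0) (nat_lit 1764824932) (nat_lit 532) (nat_lit 5117209188) (nat_lit 608) (nat_lit 6225019684) (nat_lit 223) (nat_lit 5) (nat_lit 230) (nat_lit 5) (nat_lit 231) (nat_lit 5) (nat_lit 398) (nat_lit 354) (nat_lit 268)) (XT.nd (nat_lit 78) (nat_lit 76) (nat_lit 0)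 (XT.lf (nat_lit 0) (nat_lit 324344537) (nat_lit 532) (nat_lit 10939476264) (nat_lit 608) (nat_lit 2067715094) (nat_lit 216) (nat_lit 5) (nat_lit 223) (nat_lit 5) (nat_lit 224) (nat_lit 5) (nat_lit 399) (nat_lit 354) (nat_lit 267)) (XT.lf (nat_lit 0) (nat_lit 2262282341) (nat_lit 608) (nat_lit 1160846157) (nat_lit 76) (nat_lit 10137801429) (nat_lit 215) (nat_lit 5) (nat_lit 223) (nat_lit 5) (nat_lit 216) (nat_lit 5) (nat_lit 400) (nat_lit 354) (nat_lit 266)))) (XT.nd (nat_lit 78) (nat_lit 1064) (nat_lit 0) (XT.lf (nat_lit 0) (nat_lit 6761462674) (nat_lit 532) (nat_lit 2697024708) (nat_lit 76) (nat_lit 4337102701) (nat_lit 209) (nat_lit 5) (nat_lit 216) (nat_lit 5) (nat_lit 210) (nat_lit 5) (nat_lit 401) (nat_lit 354) (nat_lit 265)) (XT.nd (nat_lit 78) (nat_lit 532) (nat_lit 0) (XT.lf (nat_lit 0) (nat_lit 9764450381) (nat_lit 532) (nat_lit 1692420882) (nat_lit 608) (nat_lit 2579198728) (nat_lit 202)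 (nat_lit 5) (nat_lit 209) (nat_lit 5) (nat_lit 210) (nat_lit 5) (nat_lit 402) (nat_lit 354) (nat_lit 264)) (XT.lf (nat_lit 0) (nat_lit 2064929197) (nat_lit 532) (nat_lit 5918662617) (nat_lit 76) (nat_lit 6298278229) (nat_lit 195) (nat_lit 5) (nat_lit 202) (nat_lit 5) (nat_lit 196) (nat_lit 5) (nat_lit 403) (nat_lit 354) (nat_lit 263))))))))
noncomputable def xc71 : XT := (XT.nd (nat_lit 1716) (nat_lit 836) (nat_lit 0) (XT.nd (nat_lit 858) (nat_lit 3192) (nat_lit 0) (XT.nd (nat_lit 390) (nat_lit 2052) (nat_lit 0) (XT.nd (nat_lit 156) (nat_lit 1368) (nat_lit 0) (XT.nd (nat_lit 78) (nat_lit 456) (nat_lit 0) (XT.lf (nat_lit 0) (nat_lit 6867324710) (nat_lit 532) (nat_lit 7615627368) (nat_lit 76) (nat_lit 50675974) (nat_lit 189) (nat_lit 5) (nat_lit 196) (nat_lit 5) (nat_lit 190) (nat_lit 5) (nat_lit 404) (nat_lit 354) (nat_lit 262)) (XT.lf (nat_lit 0) (nat_lit 5401282922) (nat_lit 456) (nat_lit 6509979424)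 (nat_lit 532) (nat_lit 2879731542) (nat_lit 183) (nat_lit 5) (nat_lit 189) (nat_lit 5) (nat_lit 190) (nat_lit 5) (nat_lit 405) (nat_lit 354) (nat_lit 261))) (XT.nd (nat_lit 78) (nat_lit 836) (nat_lit 0) (XT.lf (nat_lit 0) (nat_lit 2081116841) (nat_lit 532) (nat_lit 11215956356) (nat_lit 76) (nat_lit 1757594095) (nat_lit 176) (nat_lit 5) (nat_lit 183) (nat_lit 5) (nat_lit 177) (nat_lit 5) (nat_lit 406) (nat_lit 354) (nat_lit 260)) (XT.nd (nat_lit 78) (nat_lit 456) (nat_lit 0) (XT.lf (nat_lit 0) (nat_lit 2188986167) (nat_lit 380) (nat_lit 5054293145) (nat_lit 456) (nat_lit 8080762777) (nat_lit 171) (nat_lit 5) (nat_lit 176) (nat_lit 5) (nat_lit 177) (nat_lit 5) (nat_lit 407) (nat_lit 354) (nat_lit 259)) (XT.lf (nat_lit 0) (nat_lit 489391553) (nat_lit 456) (nat_lit 12143015930) (nat_lit 532) (nat_lit 2967652661) (nat_lit 165) (nat_lit 5) (nat_lit 171) (nat_lit 5) (nat_lit 172) (nat_lit 5) (nat_lit 408)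 (nat_lit 354) (nat_lit 258))))) (XT.nd (nat_lit 234) (nat_lit 1216) (nat_lit 0) (XT.nd (nat_lit 78) (nat_lit 760) (nat_lit 0) (XT.lf (nat_lit 0) (nat_lit 2362600494) (nat_lit 532) (nat_lit 1273052358) (nat_lit 76) (nat_lit 12246533218) (nat_lit 164) (nat_lit 5) (nat_lit 171) (nat_lit 5) (nat_lit 165) (nat_lit 5) (nat_lit 409) (nat_lit 354) (nat_lit 257)) (XT.nd (nat_lit 78) (nat_lit 380) (nat_lit 0) (XT.lf (nat_lit 0) (nat_lit 7902911382) (nat_lit 456) (nat_lit 3115892394) (nat_lit 76) (nat_lit 5151774020) (nat_lit 159) (nat_lit 5) (nat_lit 165) (nat_lit 5) (nat_lit 160) (nat_lit 5) (nat_lit 410) (nat_lit 354) (nat_lit 256)) (XT.lf (nat_lit 0) (nat_lit 11445927679) (nat_lit 380) (nat_lit 2242653689) (nat_lit 456) (nat_lit 2777460526) (nat_lit 154) (nat_lit 5) (nat_lit 159) (nat_lit 5) (nat_lit 160) (nat_lit 5) (nat_lit 411) (nat_lit 354) (nat_lit 255)))) (XT.nd (nat_lit 78) (nat_lit 760) (nat_lit 0)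 (XT.lf (nat_lit 0) (nat_lit 2941426053) (nat_lit 456) (nat_lit 7028507691) (nat_lit 76) (nat_lit 6798031709) (nat_lit 148) (nat_lit 5) (nat_lit 154) (nat_lit 5) (nat_lit 149) (nat_lit 5) (nat_lit 412) (nat_lit 354) (nat_lit 254)) (XT.nd (nat_lit 78) (nat_lit 380) (nat_lit 0) (XT.lf (nat_lit 0) (nat_lit 7961362483) (nat_lit 380) (nat_lit 906585215) (nat_lit 456) (nat_lit 8209159115) (nat_lit 143) (nat_lit 5) (nat_lit 148) (nat_lit 5) (nat_lit 149) (nat_lit 5) (nat_lit 413) (nat_lit 354) (nat_lit 253)) (XT.lf (nat_lit 0) (nat_lit 6086049398) (nat_lit 380) (nat_lit 9001494538) (nat_lit 456) (nat_lit 2305676144) (nat_lit 138) (nat_lit 5) (nat_lit 143) (nat_lit 5) (nat_lit 144) (nat_lit 5) (nat_lit 414) (nat_lit 354) (nat_lit 252)))))) (XT.nd (nat_lit 390) (nat_lit 1672) (nat_lit 0) (XT.nd (nat_lit 156) (nat_lit 760) (nat_lit 0) (XT.nd (nat_lit 78) (nat_lit 304) (nat_lit 0) (XT.lf (nat_lit 0) (nat_lit 3796124734)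 (nat_lit 456) (nat_lit 13585823848) (nat_lit 76) (nat_lit 334966623) (nat_lit 132) (nat_lit 5) (nat_lit 138) (nat_lit 5) (nat_lit 133) (nat_lit 5) (nat_lit 415) (nat_lit 354) (nat_lit 251)) (XT.lf (nat_lit 0) (nat_lit 2048480444) (nat_lit 304) (nat_lit 8125836300) (nat_lit 380) (nat_lit 7873209383) (nat_lit 128) (nat_lit 5) (nat_lit 132) (nat_lit 5) (nat_lit 133) (nat_lit 5) (nat_lit 416) (nat_lit 354) (nat_lit 250))) (XT.nd (nat_lit 78) (nat_lit 760) (nat_lit 0) (XT.lf (nat_lit 0) (nat_lit 16819932952) (nat_lit 380) (nat_lit 98696366) (nat_lit 76) (nat_lit 1467907400) (nat_lit 128) (nat_lit 5) (nat_lit 133) (nat_lit 5) (nat_lit 129) (nat_lit 5) (nat_lit 417) (nat_lit 354) (nat_lit 249)) (XT.nd (nat_lit 78) (nat_lit 304) (nat_lit 0) (XT.lf (nat_lit 0) (nat_lit 5001285809) (nat_lit 456) (nat_lit 2365824539) (nat_lit 76) (nat_lit 11365235315) (nat_lit 122) (nat_lit 5) (nat_lit 128) (nat_lit 5) (nat_lit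 123) (nat_lit 5) (nat_lit 418) (nat_lit 354) (nat_lit 248)) (XT.lf (nat_lit 0) (nat_lit 11831039991) (nat_lit 380) (nat_lit 4725985212) (nat_lit 76) (nat_lit 2529577017) (nat_lit 118) (nat_lit 5) (nat_lit 123) (nat_lit 5) (nat_lit 119) (nat_lit 5) (nat_lit 419) (nat_lit 354) (nat_lit 247))))) (XT.nd (nat_lit 234) (nat_lit 684) (nat_lit 0) (XT.nd (nat_lit 78) (nat_lit 684) (nat_lit 0) (XT.lf (nat_lit 0) (nat_lit 12242474686) (nat_lit 304) (nat_lit 6743807100) (nat_lit 380) (nat_lit 462795399) (nat_lit 114) (nat_lit 5) (nat_lit 118) (nat_lit 5) (nat_lit 119) (nat_lit 5) (nat_lit 420) (nat_lit 354) (nat_lit 246)) (XT.nd (nat_lit 78) (nat_lit 304) (nat_lit 0) (XT.lf (nat_lit 0) (nat_lit 6543986097) (nat_lit 380) (nat_lit 9829679962) (nat_lit 76) (nat_lit 3445995935) (nat_lit 109) (nat_lit 5) (nat_lit 114) (nat_lit 5) (nat_lit 110) (nat_lit 5) (nat_lit 421) (nat_lit 354) (nat_lit 245)) (XT.lf (nat_lit 0)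 (nat_lit 7613828813) (nat_lit 304) (nat_lit 6260944652) (nat_lit 380) (nat_lit 6324130314) (nat_lit 105) (nat_lit 5) (nat_lit 109) (nat_lit 5) (nat_lit 110) (nat_lit 5) (nat_lit 422) (nat_lit 354) (nat_lit 244)))) (XT.nd (nat_lit 78) (nat_lit 304) (nat_lit 0) (XT.lf (nat_lit 0) (nat_lit 929727028) (nat_lit 380) (nat_lit 15464696299) (nat_lit 76) (nat_lit 4192898650) (nat_lit 100) (nat_lit 5) (nat_lit 105) (nat_lit 5) (nat_lit 101) (nat_lit 5) (nat_lit 423) (nat_lit 354) (nat_lit 243)) (XT.nd (nat_lit 78) (nat_lit 0) (nat_lit 0) (XT.lf (nat_lit 0) (nat_lit 2457970414) (nat_lit 304) (nat_lit 5978469340) (nat_lit 380) (nat_lit 12547695954) (nat_lit 96) (nat_lit 5) (nat_lit 100) (nat_lit 5) (nat_lit 101) (nat_lit 5) (nat_lit 424) (nat_lit 354) (nat_lit 242)) (XT.lf (nat_lit 0) (nat_lit 16282013044) (nat_lit 380) (nat_lit 329716153) (nat_lit 76) (nat_lit 4778853631) (nat_lit 96) (nat_lit 5) (nat_lit 101)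 (nat_lit 5) (nat_lit 97) (nat_lit 5) (nat_lit 425) (nat_lit 354) (nat_lit 241))))))) (XT.nd (nat_lit 48204) (nat_lit 0) (nat_lit 30172) (XT.nd (nat_lit 47736) (nat_lit 0) (nat_lit 35948) (XT.nd (nat_lit 156) (nat_lit 228) (nat_lit 0) (XT.nd (nat_lit 78) (nat_lit 304) (nat_lit 0) (XT.lf (nat_lit 0) (nat_lit 2659759538) (nat_lit 304) (nat_lit 3243960613) (nat_lit 76) (nat_lit 15902383222) (nat_lit 92) (nat_lit 5) (nat_lit 96) (nat_lit 5) (nat_lit 93) (nat_lit 5) (nat_lit 426) (nat_lit 354) (nat_lit 240)) (XT.lf (nat_lit 0) (nat_lit 10710173068) (nat_lit 380) (nat_lit 6335905606) (nat_lit 76) (nat_lit 5184968714) (nat_lit 88) (nat_lit 5) (nat_lit 93) (nat_lit 5) (nat_lit 89) (nat_lit 5) (nat_lit 427) (nat_lit 354) (nat_lit 239))) (XT.nd (nat_lit 47424) (nat_lit 0) (nat_lit 38380) (XT.lf (nat_lit 0) (nat_lit 13080661311) (nat_lit 228) (nat_lit 6046541765) (nat_lit 304) (nat_lit 3539036507) (nat_lit 85)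 (nat_lit 5) (nat_lit 88) (nat_lit 5) (nat_lit 89) (nat_lit 5) (nat_lit 428) (nat_lit 354) (nat_lit 238)) (XT.nd (nat_lit 78) (nat_lit 0) (nat_lit 0) (XT.lf (nat_lit 0) (nat_lit 468422482) (nat_lit 1292) (nat_lit 1615938305) (nat_lit 1292) (nat_lit 1615938305) (nat_lit 590) (nat_lit 3) (nat_lit 607) (nat_lit 3) (nat_lit 607) (nat_lit 5) (nat_lit 355) (nat_lit 355) (nat_lit 310)) (XT.lf (nat_lit 76) (nat_lit 2206498691) (nat_lit 0) (nat_lit 994381910) (nat_lit 1292) (nat_lit 4265117745) (nat_lit 591) (nat_lit 5) (nat_lit 590) (nat_lit 3) (nat_lit 607) (nat_lit 5) (nat_lit 356) (nat_lit 355) (nat_lit 309))))) (XT.nd (nat_lit 234) (nat_lit 1216) (nat_lit 0) (XT.nd (nat_lit 78) (nat_lit 1292) (nat_lit 0) (XT.lf (nat_lit 76) (nat_lit 260691269) (nat_lit 0) (nat_lit 5223387197) (nat_lit 1292) (nat_lit 2050280997) (nat_lit 592) (nat_lit 5) (nat_lit 591) (nat_lit 5) (nat_lit 608) (nat_lit 5) (nat_lit 357) (nat_lit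 355) (nat_lit 308)) (XT.nd (nat_lit 78) (nat_lit 0) (nat_lit 76) (XT.lf (nat_lit 0) (nat_lit 184883218) (nat_lit 1292) (nat_lit 1641510807) (nat_lit 1368) (nat_lit 5779231778) (nat_lit 574) (nat_lit 5) (nat_lit 591) (nat_lit 5) (nat_lit 592) (nat_lit 5) (nat_lit 358) (nat_lit 355) (nat_lit 307)) (XT.lf (nat_lit 0) (nat_lit 2414625902) (nat_lit 1292) (nat_lit 3537048147) (nat_lit 1368) (nat_lit 1727999433) (nat_lit 575) (nat_lit 5) (nat_lit 592) (nat_lit 5) (nat_lit 593) (nat_lit 5) (nat_lit 359) (nat_lit 355) (nat_lit 306)))) (XT.nd (nat_lit 78) (nat_lit 1292) (nat_lit 0) (XT.lf (nat_lit 76) (nat_lit 2338126379) (nat_lit 0) (nat_lit 2330962923) (nat_lit 1368) (nat_lit 3087718048) (nat_lit 576) (nat_lit 5) (nat_lit 575) (nat_lit 5) (nat_lit 593) (nat_lit 5) (nat_lit 360) (nat_lit 355) (nat_lit 305)) (XT.nd (nat_lit 78) (nat_lit 1368) (nat_lit 0) (XT.lf (nat_lit 76) (nat_lit 551873454) (nat_lit 0) (nat_lit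 6397598434) (nat_lit 1368) (nat_lit 887638350) (nat_lit 577) (nat_lit 5) (nat_lit 576) (nat_lit 5) (nat_lit 594) (nat_lit 5) (nat_lit 361) (nat_lit 355) (nat_lit 304)) (XT.lf (nat_lit 0) (nat_lit 1335862605) (nat_lit 1368) (nat_lit 1216734948) (nat_lit 1444) (nat_lit 5367555426) (nat_lit 558) (nat_lit 5) (nat_lit 576) (nat_lit 5) (nat_lit 577) (nat_lit 5) (nat_lit 362) (nat_lit 355) (nat_lit 303)))))) (XT.nd (nat_lit 390) (nat_lit 4484) (nat_lit 0) (XT.nd (nat_lit 156) (nat_lit 1368) (nat_lit 0) (XT.nd (nat_lit 78) (nat_lit 0) (nat_lit 0) (XT.lf (nat_lit 0) (nat_lit 3581613155) (nat_lit 1368) (nat_lit 2969094283) (nat_lit 1444) (nat_lit 1455529275) (nat_lit 559) (nat_lit 5) (nat_lit 577) (nat_lit 5) (nat_lit 578) (nat_lit 5) (nat_lit 363) (nat_lit 355) (nat_lit 302)) (XT.lf (nat_lit 76) (nat_lit 3379701931) (nat_lit 0) (nat_lit 2489588958) (nat_lit 1444) (nat_lit 2226139557) (nat_lit 560) (nat_lit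 5) (nat_lit 559) (nat_lit 5) (nat_lit 578) (nat_lit 5) (nat_lit 364) (nat_lit 355) (nat_lit 301))) (XT.nd (nat_lit 78) (nat_lit 0) (nat_lit 0) (XT.lf (nat_lit 0) (nat_lit 9314097) (nat_lit 1444) (nat_lit 6452468123) (nat_lit 1520) (nat_lit 1726100131) (nat_lit 541) (nat_lit 5) (nat_lit 560) (nat_lit 5) (nat_lit 561) (nat_lit 5) (nat_lit 365) (nat_lit 355) (nat_lit 300)) (XT.nd (nat_lit 78) (nat_lit 0) (nat_lit 76) (XT.lf (nat_lit 76) (nat_lit 82495510) (nat_lit 0) (nat_lit 2179097968) (nat_lit 1520) (nat_lit 6021637078) (nat_lit 542) (nat_lit 5) (nat_lit 541) (nat_lit 5) (nat_lit 561) (nat_lit 5) (nat_lit 366) (nat_lit 355) (nat_lit 299)) (XT.lf (nat_lit 0) (nat_lit 4572268476) (nat_lit 1444) (nat_lit 1543231545) (nat_lit 1520) (nat_lit 2266139311) (nat_lit 542) (nat_lit 5) (nat_lit 561) (nat_lit 5) (nat_lit 562) (nat_lit 5) (nat_lit 367) (nat_lit 355) (nat_lit 298))))) (XT.nd (nat_lit 234) (nat_lit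 3116) (nat_lit 0) (XT.nd (nat_lit 78) (nat_lit 1444) (nat_lit 0) (XT.lf (nat_lit 76) (nat_lit 5320941953) (nat_lit 0) (nat_lit 1614734313) (nat_lit 1520) (nat_lit 1547672038) (nat_lit 543) (nat_lit 5) (nat_lit 542) (nat_lit 5) (nat_lit 562) (nat_lit 5) (nat_lit 368) (nat_lit 355) (nat_lit 297)) (XT.nd (nat_lit 78) (nat_lit 0) (nat_lit 0) (XT.lf (nat_lit 0) (nat_lit 762403331) (nat_lit 1520) (nat_lit 4787720648) (nat_lit 1596) (nat_lit 3038082840) (nat_lit 523) (nat_lit 5) (nat_lit 543) (nat_lit 5) (nat_lit 544) (nat_lit 5) (nat_lit 369) (nat_lit 355) (nat_lit 296)) (XT.lf (nat_lit 76) (nat_lit 2279427799) (nat_lit 0) (nat_lit 825744899) (nat_lit 1596) (nat_lit 5591160374) (nat_lit 524) (nat_lit 5) (nat_lit 523) (nat_lit 5) (nat_lit 544) (nat_lit 5) (nat_lit 370) (nat_lit 355) (nat_lit 295)))) (XT.nd (nat_lit 78) (nat_lit 1672) (nat_lit 0) (XT.lf (nat_lit 0) (nat_lit 750992734) (nat_lit 1520) (nat_lit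 4769732583) (nat_lit 1596) (nat_lit 3286942314) (nat_lit 504) (nat_lit 5) (nat_lit 524) (nat_lit 5) (nat_lit 525) (nat_lit 5) (nat_lit 371) (nat_lit 355) (nat_lit 294)) (XT.nd (nat_lit 78) (nat_lit 1672) (nat_lit 0) (XT.lf (nat_lit 0) (nat_lit 7999016216) (nat_lit 1596) (nat_lit 756183955) (nat_lit 76) (nat_lit 167350717) (nat_lit 504) (nat_lit 5) (nat_lit 525) (nat_lit 5) (nat_lit 505) (nat_lit 5) (nat_lit 372) (nat_lit 355) (nat_lit 293)) (XT.lf (nat_lit 0) (nat_lit 1508943616) (nat_lit 1672) (nat_lit 2278732113) (nat_lit 76) (nat_lit 5252662505) (nat_lit 482) (nat_lit 5) (nat_lit 504) (nat_lit 5) (nat_lit 483) (nat_lit 5) (nat_lit 373) (nat_lit 355) (nat_lit 292))))))))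
noncomputable def xc72 : XT := (XT.nd (nat_lit 1716) (nat_lit 9576) (nat_lit 0) (XT.nd (nat_lit 858) (nat_lit 6308) (nat_lit 0) (XT.nd (nat_lit 390) (nat_lit 5168) (nat_lit 0) (XT.nd (nat_lit 156) (nat_lit 2432) (nat_lit 0) (XT.nd (nat_lit 78) (nat_lit 1748) (nat_lit 0) (XT.lf (nat_lit 0) (nat_lit 3993934585) (nat_lit 1748) (nat_lit 3801430599) (nat_lit 76) (nat_lit 1366343240) (nat_lit 460) (nat_lit 5) (nat_lit 483) (nat_lit 5) (nat_lit 461) (nat_lit 5) (nat_lit 374) (nat_lit 355) (nat_lit 291)) (XT.lf (nat_lit 0) (nat_lit 3950742457) (nat_lit 1748) (nat_lit 2613663951) (nat_lit 1824) (nat_lit 2722107337) (nat_lit 437) (nat_lit 5) (nat_lit 460) (nat_lit 5) (nat_lit 461) (nat_lit 5) (nat_lit 375) (nat_lit 355) (nat_lit 290))) (XT.nd (nat_lit 78) (nat_lit 988) (nat_lit 0) (XT.lf (nat_lit 0) (nat_lit 2539191737) (nat_lit 1444) (nat_lit 6678653770) (nat_lit 1520) (nat_lit 197112937) (nat_lit 418) (nat_lit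 5) (nat_lit 437) (nat_lit 5) (nat_lit 438) (nat_lit 5) (nat_lit 376) (nat_lit 355) (nat_lit 289)) (XT.nd (nat_lit 78) (nat_lit 0) (nat_lit 0) (XT.lf (nat_lit 0) (nat_lit 1108981357) (nat_lit 912) (nat_lit 1270858134) (nat_lit 988) (nat_lit 7166961916) (nat_lit 405) (nat_lit 5) (nat_lit 417) (nat_lit 5) (nat_lit 418) (nat_lit 5) (nat_lit 377) (nat_lit 355) (nat_lit 288)) (XT.lf (nat_lit 0) (nat_lit 5054172871) (nat_lit 988) (nat_lit 333245802) (nat_lit 76) (nat_lit 4294711268) (nat_lit 405) (nat_lit 5) (nat_lit 418) (nat_lit 5) (nat_lit 406) (nat_lit 5) (nat_lit 378) (nat_lit 355) (nat_lit 287))))) (XT.nd (nat_lit 234) (nat_lit 2432) (nat_lit 0) (XT.nd (nat_lit 78) (nat_lit 1824) (nat_lit 0) (XT.lf (nat_lit 0) (nat_lit 7820616954) (nat_lit 988) (nat_lit 1759175093) (nat_lit 76) (nat_lit 241499688) (nat_lit 393) (nat_lit 5) (nat_lit 406) (nat_lit 5) (nat_lit 394) (nat_lit 5) (nat_lit 379) (nat_lit 355)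 (nat_lit 286)) (XT.nd (nat_lit 78) (nat_lit 836) (nat_lit 0) (XT.lf (nat_lit 0) (nat_lit 729149212) (nat_lit 988) (nat_lit 3215151728) (nat_lit 76) (nat_lit 6019586827) (nat_lit 380) (nat_lit 5) (nat_lit 393) (nat_lit 5) (nat_lit 381) (nat_lit 5) (nat_lit 380) (nat_lit 355) (nat_lit 285)) (XT.lf (nat_lit 0) (nat_lit 3525031730) (nat_lit 912) (nat_lit 4687841818) (nat_lit 76) (nat_lit 1897406920) (nat_lit 369) (nat_lit 5) (nat_lit 381) (nat_lit 5) (nat_lit 370) (nat_lit 5) (nat_lit 381) (nat_lit 355) (nat_lit 284)))) (XT.nd (nat_lit 78) (nat_lit 1596) (nat_lit 0) (XT.lf (nat_lit 0) (nat_lit 4081267145) (nat_lit 836) (nat_lit 2350857989) (nat_lit 912) (nat_lit 3828403013) (nat_lit 358) (nat_lit 5) (nat_lit 369) (nat_lit 5) (nat_lit 370) (nat_lit 5) (nat_lit 382) (nat_lit 355) (nat_lit 283)) (XT.nd (nat_lit 78) (nat_lit 836) (nat_lit 0) (XT.lf (nat_lit 0) (nat_lit 2726152284) (nat_lit 760) (nat_lit 6727489185)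 (nat_lit 836) (nat_lit 961107182) (nat_lit 348) (nat_lit 5) (nat_lit 358) (nat_lit 5) (nat_lit 359) (nat_lit 5) (nat_lit 383) (nat_lit 355) (nat_lit 282)) (XT.lf (nat_lit 0) (nat_lit 1351086202) (nat_lit 760) (nat_lit 635964073) (nat_lit 836) (nat_lit 8585876517) (nat_lit 337) (nat_lit 5) (nat_lit 347) (nat_lit 5) (nat_lit 348) (nat_lit 5) (nat_lit 384) (nat_lit 355) (nat_lit 281)))))) (XT.nd (nat_lit 390) (nat_lit 3344) (nat_lit 0) (XT.nd (nat_lit 156) (nat_lit 2204) (nat_lit 0) (XT.nd (nat_lit 78) (nat_lit 760) (nat_lit 0) (XT.lf (nat_lit 0) (nat_lit 5055053593) (nat_lit 836) (nat_lit 59339664) (nat_lit 76) (nat_lit 5620449654) (nat_lit 337) (nat_lit 5) (nat_lit 348) (nat_lit 5) (nat_lit 338) (nat_lit 5) (nat_lit 385) (nat_lit 355) (nat_lit 280)) (XT.lf (nat_lit 0) (nat_lit 8245221635) (nat_lit 836) (nat_lit 1458271599) (nat_lit 76) (nat_lit 1197529397) (nat_lit 327) (nat_lit 5) (nat_lit 338) (nat_lit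 5) (nat_lit 328) (nat_lit 5) (nat_lit 386) (nat_lit 355) (nat_lit 279))) (XT.nd (nat_lit 78) (nat_lit 1368) (nat_lit 0) (XT.lf (nat_lit 0) (nat_lit 498498558) (nat_lit 836) (nat_lit 2889909203) (nat_lit 76) (nat_lit 7682816382) (nat_lit 316) (nat_lit 5) (nat_lit 327) (nat_lit 5) (nat_lit 317) (nat_lit 5) (nat_lit 387) (nat_lit 355) (nat_lit 278)) (XT.nd (nat_lit 78) (nat_lit 684) (nat_lit 0) (XT.lf (nat_lit 0) (nat_lit 3745264022) (nat_lit 760) (nat_lit 4356907289) (nat_lit 76) (nat_lit 3143338873) (nat_lit 307) (nat_lit 5) (nat_lit 317) (nat_lit 5) (nat_lit 308) (nat_lit 5) (nat_lit 388) (nat_lit 355) (nat_lit 277)) (XT.lf (nat_lit 0) (nat_lit 5578926620) (nat_lit 684) (nat_lit 1548208165) (nat_lit 760) (nat_lit 4297143699) (nat_lit 298) (nat_lit 5) (nat_lit 307) (nat_lit 5) (nat_lit 308) (nat_lit 5) (nat_lit 389) (nat_lit 355) (nat_lit 276))))) (XT.nd (nat_lit 234) (nat_lit 1292) (nat_lit 0) (XT.nd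 (nat_lit 78) (nat_lit 1368) (nat_lit 0) (XT.lf (nat_lit 0) (nat_lit 4239427067) (nat_lit 684) (nat_lit 6422016458) (nat_lit 760) (nat_lit 945954170) (nat_lit 289) (nat_lit 5) (nat_lit 298) (nat_lit 5) (nat_lit 299) (nat_lit 5) (nat_lit 390) (nat_lit 355) (nat_lit 275)) (XT.nd (nat_lit 78) (nat_lit 608) (nat_lit 0) (XT.lf (nat_lit 0) (nat_lit 2504789178) (nat_lit 760) (nat_lit 8921779531) (nat_lit 76) (nat_lit 368485896) (nat_lit 279) (nat_lit 5) (nat_lit 289) (nat_lit 5) (nat_lit 280) (nat_lit 5) (nat_lit 391) (nat_lit 355) (nat_lit 274)) (XT.lf (nat_lit 0) (nat_lit 1458189012) (nat_lit 608) (nat_lit 4652124081) (nat_lit 684) (nat_lit 5876627804) (nat_lit 271) (nat_lit 5) (nat_lit 279) (nat_lit 5) (nat_lit 280) (nat_lit 5) (nat_lit 392) (nat_lit 355) (nat_lit 273)))) (XT.nd (nat_lit 78) (nat_lit 684) (nat_lit 0) (XT.lf (nat_lit 0) (nat_lit 26598167) (nat_lit 608) (nat_lit 9835673013) (nat_lit 684)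 (nat_lit 2321553956) (nat_lit 263) (nat_lit 5) (nat_lit 271) (nat_lit 5) (nat_lit 272) (nat_lit 5) (nat_lit 393) (nat_lit 355) (nat_lit 272)) (XT.nd (nat_lit 78) (nat_lit 608) (nat_lit 0) (XT.lf (nat_lit 0) (nat_lit 1388218032) (nat_lit 684) (nat_lit 1429048469) (nat_lit 76) (nat_lit 9567869330) (nat_lit 262) (nat_lit 5) (nat_lit 271) (nat_lit 5) (nat_lit 263) (nat_lit 5) (nat_lit 394) (nat_lit 355) (nat_lit 271)) (XT.lf (nat_lit 0) (nat_lit 5233706118) (nat_lit 684) (nat_lit 2933204418) (nat_lit 76) (nat_lit 4424155344) (nat_lit 254) (nat_lit 5) (nat_lit 263) (nat_lit 5) (nat_lit 255) (nat_lit 5) (nat_lit 395) (nat_lit 355) (nat_lit 270))))))) (XT.nd (nat_lit 858) (nat_lit 4180) (nat_lit 0) (XT.nd (nat_lit 390) (nat_lit 2508) (nat_lit 0) (XT.nd (nat_lit 156) (nat_lit 1672) (nat_lit 0) (XT.nd (nat_lit 78) (nat_lit 608) (nat_lit 0) (XT.lf (nat_lit 0) (nat_lit 8339546779) (nat_lit 608) (nat_lit 902236607)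 (nat_lit 684) (nat_lit 3560451993) (nat_lit 246) (nat_lit 5) (nat_lit 254) (nat_lit 5) (nat_lit 255) (nat_lit 5) (nat_lit 396) (nat_lit 355) (nat_lit 269)) (XT.lf (nat_lit 0) (nat_lit 419443245) (nat_lit 608) (nat_lit 6045923990) (nat_lit 76) (nat_lit 6552859471) (nat_lit 238) (nat_lit 5) (nat_lit 246) (nat_lit 5) (nat_lit 239) (nat_lit 5) (nat_lit 397) (nat_lit 355) (nat_lit 268))) (XT.nd (nat_lit 78) (nat_lit 1064) (nat_lit 0) (XT.lf (nat_lit 0) (nat_lit 4515837601) (nat_lit 684) (nat_lit 7676537070) (nat_lit 76) (nat_lit 1046948494) (nat_lit 230) (nat_lit 5) (nat_lit 239) (nat_lit 5) (nat_lit 231) (nat_lit 5) (nat_lit 398) (nat_lit 355) (nat_lit 267)) (XT.nd (nat_lit 78) (nat_lit 532) (nat_lit 0) (XT.lf (nat_lit 0) (nat_lit 4102155377) (nat_lit 532) (nat_lit 4710402531) (nat_lit 608) (nat_lit 4652951343) (nat_lit 223) (nat_lit 5) (nat_lit 230) (nat_lit 5) (nat_lit 231) (nat_lit 5) (nat_lit 399)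 (nat_lit 355) (nat_lit 266)) (XT.lf (nat_lit 0) (nat_lit 2612012450) (nat_lit 532) (nat_lit 10681892226) (nat_lit 608) (nat_lit 403467003) (nat_lit 216) (nat_lit 5) (nat_lit 223) (nat_lit 5) (nat_lit 224) (nat_lit 5) (nat_lit 400) (nat_lit 355) (nat_lit 265))))) (XT.nd (nat_lit 234) (nat_lit 1444) (nat_lit 0) (XT.nd (nat_lit 78) (nat_lit 532) (nat_lit 0) (XT.lf (nat_lit 0) (nat_lit 1051949938) (nat_lit 456) (nat_lit 2939049351) (nat_lit 532) (nat_lit 9943287516) (nat_lit 209) (nat_lit 5) (nat_lit 215) (nat_lit 5) (nat_lit 216) (nat_lit 5) (nat_lit 401) (nat_lit 355) (nat_lit 264)) (XT.nd (nat_lit 78) (nat_lit 532) (nat_lit 0) (XT.lf (nat_lit 0) (nat_lit 8588167284) (nat_lit 532) (nat_lit 551452092) (nat_lit 76) (nat_lit 5037114543) (nat_lit 209) (nat_lit 5) (nat_lit 216) (nat_lit 5) (nat_lit 210) (nat_lit 5) (nat_lit 402) (nat_lit 355) (nat_lit 263)) (XT.lf (nat_lit 0) (nat_lit 12247745203) (nat_lit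 532) (nat_lit 1143617292) (nat_lit 608) (nat_lit 1033734427) (nat_lit 202) (nat_lit 5) (nat_lit 209) (nat_lit 5) (nat_lit 210) (nat_lit 5) (nat_lit 403) (nat_lit 355) (nat_lit 262)))) (XT.nd (nat_lit 78) (nat_lit 912) (nat_lit 0) (XT.lf (nat_lit 0) (nat_lit 3699854993) (nat_lit 532) (nat_lit 3892559790) (nat_lit 76) (nat_lit 7086223868) (nat_lit 195) (nat_lit 5) (nat_lit 202) (nat_lit 5) (nat_lit 196) (nat_lit 5) (nat_lit 404) (nat_lit 355) (nat_lit 261)) (XT.nd (nat_lit 78) (nat_lit 456) (nat_lit 0) (XT.lf (nat_lit 0) (nat_lit 8618651769) (nat_lit 532) (nat_lit 5649207999) (nat_lit 76) (nat_lit 670649684) (nat_lit 189) (nat_lit 5) (nat_lit 196) (nat_lit 5) (nat_lit 190) (nat_lit 5) (nat_lit 405) (nat_lit 355) (nat_lit 260)) (XT.lf (nat_lit 0) (nat_lit 7722600146) (nat_lit 456) (nat_lit 6060317906) (nat_lit 532) (nat_lit 1421304445) (nat_lit 183) (nat_lit 5) (nat_lit 189) (nat_lit 5) (nat_lit 190)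 (nat_lit 5) (nat_lit 406) (nat_lit 355) (nat_lit 259)))))) (XT.nd (nat_lit 390) (nat_lit 2356) (nat_lit 0) (XT.nd (nat_lit 156) (nat_lit 912) (nat_lit 0) (XT.nd (nat_lit 78) (nat_lit 380) (nat_lit 0) (XT.lf (nat_lit 0) (nat_lit 3641849212) (nat_lit 532) (nat_lit 9382185152) (nat_lit 76) (nat_lit 2452102467) (nat_lit 176) (nat_lit 5) (nat_lit 183) (nat_lit 5) (nat_lit 177) (nat_lit 5) (nat_lit 407) (nat_lit 355) (nat_lit 258)) (XT.lf (nat_lit 0) (nat_lit 4389695920) (nat_lit 380) (nat_lit 4539402961) (nat_lit 456) (nat_lit 6825095501) (nat_lit 171) (nat_lit 5) (nat_lit 176) (nat_lit 5) (nat_lit 177) (nat_lit 5) (nat_lit 408) (nat_lit 355) (nat_lit 257))) (XT.nd (nat_lit 78) (nat_lit 456) (nat_lit 0) (XT.lf (nat_lit 0) (nat_lit 2629306951) (nat_lit 456) (nat_lit 11825821351) (nat_lit 532) (nat_lit 1583865912) (nat_lit 165) (nat_lit 5) (nat_lit 171) (nat_lit 5) (nat_lit 172) (nat_lit 5) (nat_lit 409)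 (nat_lit 355) (nat_lit 256)) (XT.nd (nat_lit 78) (nat_lit 0) (nat_lit 0) (XT.lf (nat_lit 0) (nat_lit 781273374) (nat_lit 380) (nat_lit 3068442804) (nat_lit 456) (nat_lit 12480427243) (nat_lit 159) (nat_lit 5) (nat_lit 164) (nat_lit 5) (nat_lit 165) (nat_lit 5) (nat_lit 410) (nat_lit 355) (nat_lit 255)) (XT.lf (nat_lit 0) (nat_lit 9527680529) (nat_lit 456) (nat_lit 1137353804) (nat_lit 76) (nat_lit 5962729027) (nat_lit 159) (nat_lit 5) (nat_lit 165) (nat_lit 5) (nat_lit 160) (nat_lit 5) (nat_lit 411) (nat_lit 355) (nat_lit 254))))) (XT.nd (nat_lit 234) (nat_lit 1140) (nat_lit 0) (XT.nd (nat_lit 78) (nat_lit 836) (nat_lit 0) (XT.lf (nat_lit 0) (nat_lit 13827704884) (nat_lit 380) (nat_lit 1632032455) (nat_lit 456) (nat_lit 1472902895) (nat_lit 154) (nat_lit 5) (nat_lit 159) (nat_lit 5) (nat_lit 160) (nat_lit 5) (nat_lit 412) (nat_lit 355) (nat_lit 253)) (XT.nd (nat_lit 78) (nat_lit 380) (nat_lit 0) (XT.lf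 (nat_lit 0) (nat_lit 4377009797) (nat_lit 456) (nat_lit 5193355399) (nat_lit 76) (nat_lit 7673527785) (nat_lit 148) (nat_lit 5) (nat_lit 154) (nat_lit 5) (nat_lit 149) (nat_lit 5) (nat_lit 413) (nat_lit 355) (nat_lit 252)) (XT.lf (nat_lit 0) (nat_lit 10213016839) (nat_lit 380) (nat_lit 242135832) (nat_lit 456) (nat_lit 7107684193) (nat_lit 143) (nat_lit 5) (nat_lit 148) (nat_lit 5) (nat_lit 149) (nat_lit 5) (nat_lit 414) (nat_lit 355) (nat_lit 251)))) (XT.nd (nat_lit 78) (nat_lit 760) (nat_lit 0) (XT.lf (nat_lit 0) (nat_lit 8270522951) (nat_lit 380) (nat_lit 8569690713) (nat_lit 456) (nat_lit 1048646983) (nat_lit 138) (nat_lit 5) (nat_lit 143) (nat_lit 5) (nat_lit 144) (nat_lit 5) (nat_lit 415) (nat_lit 355) (nat_lit 250)) (XT.nd (nat_lit 78) (nat_lit 304) (nat_lit 0) (XT.lf (nat_lit 0) (nat_lit 5198157748) (nat_lit 456) (nat_lit 11985469546) (nat_lit 76) (nat_lit 1038884689) (nat_lit 132) (nat_lit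 5) (nat_lit 138) (nat_lit 5) (nat_lit 133) (nat_lit 5) (nat_lit 416) (nat_lit 355) (nat_lit 249)) (XT.lf (nat_lit 0) (nat_lit 4085287613) (nat_lit 304) (nat_lit 7657714295) (nat_lit 380) (nat_lit 6820537498) (nat_lit 128) (nat_lit 5) (nat_lit 132) (nat_lit 5) (nat_lit 133) (nat_lit 5) (nat_lit 417) (nat_lit 355) (nat_lit 248))))))))
noncomputable def xc73 : XT := (XT.nd (nat_lit 49140) (nat_lit 0) (nat_lit 17328) (XT.nd (nat_lit 48282) (nat_lit 0) (nat_lit 34352) (XT.nd (nat_lit 390) (nat_lit 1596) (nat_lit 0) (XT.nd (nat_lit 156) (nat_lit 988) (nat_lit 0) (XT.nd (nat_lit 78) (nat_lit 76) (nat_lit 0) (XT.lf (nat_lit 0) (nat_lit 1860749871) (nat_lit 380) (nat_lit 16707005757) (nat_lit 456) (nat_lit 345373483) (nat_lit 123) (nat_lit 5) (nat_lit 128) (nat_lit 5) (nat_lit 129) (nat_lit 5) (nat_lit 418) (nat_lit 355) (nat_lit 247)) (XT.lf (nat_lit 0) (nat_lit 6367119122) (nat_lit 456) (nat_lit 513948229)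 (nat_lit 76) (nat_lit 12388800276) (nat_lit 122) (nat_lit 5) (nat_lit 128) (nat_lit 5) (nat_lit 123) (nat_lit 5) (nat_lit 419) (nat_lit 355) (nat_lit 246))) (XT.nd (nat_lit 78) (nat_lit 684) (nat_lit 0) (XT.lf (nat_lit 0) (nat_lit 13383174618) (nat_lit 380) (nat_lit 2956666049) (nat_lit 76) (nat_lit 3295286900) (nat_lit 118) (nat_lit 5) (nat_lit 123) (nat_lit 5) (nat_lit 119) (nat_lit 5) (nat_lit 420) (nat_lit 355) (nat_lit 245)) (XT.nd (nat_lit 78) (nat_lit 304) (nat_lit 0) (XT.lf (nat_lit 0) (nat_lit 712014388) (nat_lit 380) (nat_lit 5523775757) (nat_lit 76) (nat_lit 13773049960) (nat_lit 113) (nat_lit 5) (nat_lit 118) (nat_lit 5) (nat_lit 114) (nat_lit 5) (nat_lit 421) (nat_lit 355) (nat_lit 244)) (XT.lf (nat_lit 0) (nat_lit 7904995175) (nat_lit 380) (nat_lit 8240656258) (nat_lit 76) (nat_lit 4245187742) (nat_lit 109) (nat_lit 5) (nat_lit 114) (nat_lit 5) (nat_lit 110) (nat_lit 5) (nat_lit 422)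 (nat_lit 355) (nat_lit 243))))) (XT.nd (nat_lit 234) (nat_lit 608) (nat_lit 0) (XT.nd (nat_lit 78) (nat_lit 684) (nat_lit 0) (XT.lf (nat_lit 0) (nat_lit 9695593512) (nat_lit 304) (nat_lit 5738222834) (nat_lit 380) (nat_lit 5348083127) (nat_lit 105) (nat_lit 5) (nat_lit 109) (nat_lit 5) (nat_lit 110) (nat_lit 5) (nat_lit 423) (nat_lit 355) (nat_lit 242)) (XT.nd (nat_lit 78) (nat_lit 304) (nat_lit 0) (XT.lf (nat_lit 0) (nat_lit 2091134499) (nat_lit 380) (nat_lit 14072121842) (nat_lit 76) (nat_lit 5018905116) (nat_lit 100) (nat_lit 5) (nat_lit 105) (nat_lit 5) (nat_lit 101) (nat_lit 5) (nat_lit 424) (nat_lit 355) (nat_lit 241)) (XT.lf (nat_lit 0) (nat_lit 4358105116) (nat_lit 304) (nat_lit 5443786642) (nat_lit 380) (nat_lit 11789414177) (nat_lit 96) (nat_lit 5) (nat_lit 100) (nat_lit 5) (nat_lit 101) (nat_lit 5) (nat_lit 425) (nat_lit 355) (nat_lit 240)))) (XT.nd (nat_lit 78) (nat_lit 380) (nat_lit 0)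 (XT.lf (nat_lit 0) (nat_lit 1470074037) (nat_lit 228) (nat_lit 16394405076) (nat_lit 304) (nat_lit 4145837526) (nat_lit 93) (nat_lit 5) (nat_lit 96) (nat_lit 5) (nat_lit 97) (nat_lit 5) (nat_lit 426) (nat_lit 355) (nat_lit 239)) (XT.nd (nat_lit 78) (nat_lit 304) (nat_lit 0) (XT.lf (nat_lit 0) (nat_lit 3811010584) (nat_lit 304) (nat_lit 1565587489) (nat_lit 76) (nat_lit 17062160665) (nat_lit 92) (nat_lit 5) (nat_lit 96) (nat_lit 5) (nat_lit 93) (nat_lit 5) (nat_lit 427) (nat_lit 355) (nat_lit 238)) (XT.lf (nat_lit 0) (nat_lit 12087585213) (nat_lit 380) (nat_lit 4762486058) (nat_lit 76) (nat_lit 6026689698) (nat_lit 88) (nat_lit 5) (nat_lit 93) (nat_lit 5) (nat_lit 89) (nat_lit 5) (nat_lit 428) (nat_lit 355) (nat_lit 237)))))) (XT.nd (nat_lit 390) (nat_lit 2508) (nat_lit 0) (XT.nd (nat_lit 156) (nat_lit 0) (nat_lit 76) (XT.nd (nat_lit 78) (nat_lit 1292) (nat_lit 0) (XT.lf (nat_lit 0) (nat_lit 2696641563)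 (nat_lit 1292) (nat_lit 534889938) (nat_lit 1292) (nat_lit 534889938) (nat_lit 590) (nat_lit 3) (nat_lit 607) (nat_lit 3) (nat_lit 607) (nat_lit 5) (nat_lit 356) (nat_lit 356) (nat_lit 308)) (XT.lf (nat_lit 0) (nat_lit 8050376) (nat_lit 1292) (nat_lit 3107487945) (nat_lit 1368) (nat_lit 4486991833) (nat_lit 573) (nat_lit 5) (nat_lit 590) (nat_lit 3) (nat_lit 591) (nat_lit 5) (nat_lit 357) (nat_lit 356) (nat_lit 307))) (XT.nd (nat_lit 78) (nat_lit 0) (nat_lit 0) (XT.lf (nat_lit 0) (nat_lit 2134571278) (nat_lit 1292) (nat_lit 5135254824) (nat_lit 1368) (nat_lit 405350051) (nat_lit 574) (nat_lit 5) (nat_lit 591) (nat_lit 5) (nat_lit 592) (nat_lit 5) (nat_lit 358) (nat_lit 356) (nat_lit 306)) (XT.nd (nat_lit 78) (nat_lit 0) (nat_lit 76) (XT.lf (nat_lit 76) (nat_lit 591675918) (nat_lit 0) (nat_lit 3698385841) (nat_lit 1368) (nat_lit 3460657623) (nat_lit 575) (nat_lit 5) (nat_lit 574) (nat_lit 5) (nat_lit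 592) (nat_lit 5) (nat_lit 359) (nat_lit 356) (nat_lit 305)) (XT.lf (nat_lit 0) (nat_lit 6466706075) (nat_lit 1292) (nat_lit 1313136509) (nat_lit 1368) (nat_lit 49577251) (nat_lit 575) (nat_lit 5) (nat_lit 592) (nat_lit 5) (nat_lit 593) (nat_lit 5) (nat_lit 360) (nat_lit 356) (nat_lit 304))))) (XT.nd (nat_lit 234) (nat_lit 1292) (nat_lit 0) (XT.nd (nat_lit 78) (nat_lit 0) (nat_lit 0) (XT.lf (nat_lit 0) (nat_lit 766666599) (nat_lit 1368) (nat_lit 3215471380) (nat_lit 1444) (nat_lit 3928680061) (nat_lit 557) (nat_lit 5) (nat_lit 575) (nat_lit 5) (nat_lit 576) (nat_lit 5) (nat_lit 361) (nat_lit 356) (nat_lit 303)) (XT.nd (nat_lit 78) (nat_lit 0) (nat_lit 76) (XT.lf (nat_lit 76) (nat_lit 2891468532) (nat_lit 0) (nat_lit 3076846) (nat_lit 1444) (nat_lit 5100889180) (nat_lit 558) (nat_lit 5) (nat_lit 557) (nat_lit 5) (nat_lit 576) (nat_lit 5) (nat_lit 362) (nat_lit 356) (nat_lit 302)) (XT.lf (nat_lit 76)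 (nat_lit 1085181575) (nat_lit 0) (nat_lit 3984018278) (nat_lit 1444) (nat_lit 3013749513) (nat_lit 559) (nat_lit 5) (nat_lit 558) (nat_lit 5) (nat_lit 577) (nat_lit 5) (nat_lit 363) (nat_lit 356) (nat_lit 301)))) (XT.nd (nat_lit 78) (nat_lit 1444) (nat_lit 0) (XT.lf (nat_lit 0) (nat_lit 7274269720) (nat_lit 1368) (nat_lit 690411314) (nat_lit 1444) (nat_lit 209123107) (nat_lit 559) (nat_lit 5) (nat_lit 577) (nat_lit 5) (nat_lit 578) (nat_lit 5) (nat_lit 364) (nat_lit 356) (nat_lit 300)) (XT.nd (nat_lit 78) (nat_lit 0) (nat_lit 76) (XT.lf (nat_lit 0) (nat_lit 1257085523) (nat_lit 1444) (nat_lit 2465321887) (nat_lit 1520) (nat_lit 4544913532) (nat_lit 540) (nat_lit 5) (nat_lit 559) (nat_lit 5) (nat_lit 560) (nat_lit 5) (nat_lit 365) (nat_lit 356) (nat_lit 299)) (XT.lf (nat_lit 0) (nat_lit 3435086784) (nat_lit 1444) (nat_lit 4231012665) (nat_lit 1520) (nat_lit 698063471) (nat_lit 541) (nat_lit 5) (nat_lit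 560) (nat_lit 5) (nat_lit 561) (nat_lit 5) (nat_lit 366) (nat_lit 356) (nat_lit 298))))))) (XT.nd (nat_lit 858) (nat_lit 7676) (nat_lit 0) (XT.nd (nat_lit 390) (nat_lit 7980) (nat_lit 0) (XT.nd (nat_lit 156) (nat_lit 1444) (nat_lit 0) (XT.nd (nat_lit 78) (nat_lit 0) (nat_lit 76) (XT.lf (nat_lit 76) (nat_lit 2460818892) (nat_lit 0) (nat_lit 3209769591) (nat_lit 1520) (nat_lit 2793494652) (nat_lit 542) (nat_lit 5) (nat_lit 541) (nat_lit 5) (nat_lit 561) (nat_lit 5) (nat_lit 367) (nat_lit 356) (nat_lit 297)) (XT.lf (nat_lit 76) (nat_lit 799363276) (nat_lit 0) (nat_lit 7153010669) (nat_lit 1520) (nat_lit 615058349) (nat_lit 543) (nat_lit 5) (nat_lit 542) (nat_lit 5) (nat_lit 562) (nat_lit 5) (nat_lit 368) (nat_lit 356) (nat_lit 296))) (XT.nd (nat_lit 78) (nat_lit 0) (nat_lit 76) (XT.lf (nat_lit 0) (nat_lit 1607122710) (nat_lit 1520) (nat_lit 864083628) (nat_lit 1596) (nat_lit 6202483994) (nat_lit 522)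 (nat_lit 5) (nat_lit 542) (nat_lit 5) (nat_lit 543) (nat_lit 5) (nat_lit 369) (nat_lit 356) (nat_lit 295)) (XT.nd (nat_lit 78) (nat_lit 0) (nat_lit 0) (XT.lf (nat_lit 0) (nat_lit 3883256672) (nat_lit 1520) (nat_lit 2519444929) (nat_lit 1596) (nat_lit 2380454844) (nat_lit 523) (nat_lit 5) (nat_lit 543) (nat_lit 5) (nat_lit 544) (nat_lit 5) (nat_lit 370) (nat_lit 356) (nat_lit 294)) (XT.lf (nat_lit 76) (nat_lit 4720587641) (nat_lit 0) (nat_lit 1500894659) (nat_lit 1596) (nat_lit 2674562188) (nat_lit 524) (nat_lit 5) (nat_lit 523) (nat_lit 5) (nat_lit 544) (nat_lit 5) (nat_lit 371) (nat_lit 356) (nat_lit 293))))) (XT.nd (nat_lit 234) (nat_lit 3268) (nat_lit 0) (XT.nd (nat_lit 78) (nat_lit 3344) (nat_lit 0) (XT.lf (nat_lit 0) (nat_lit 3172144236) (nat_lit 1520) (nat_lit 5460777971) (nat_lit 1596) (nat_lit 379349300) (nat_lit 504) (nat_lit 5) (nat_lit 524) (nat_lit 5) (nat_lit 525) (nat_lit 5) (nat_lit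 372) (nat_lit 356) (nat_lit 292)) (XT.nd (nat_lit 78) (nat_lit 1672) (nat_lit 0) (XT.lf (nat_lit 0) (nat_lit 1617358752) (nat_lit 1596) (nat_lit 333599168) (nat_lit 1672) (nat_lit 7180937366) (nat_lit 482) (nat_lit 5) (nat_lit 503) (nat_lit 5) (nat_lit 504) (nat_lit 5) (nat_lit 373) (nat_lit 356) (nat_lit 291)) (XT.lf (nat_lit 0) (nat_lit 42757503) (nat_lit 1672) (nat_lit 4320193265) (nat_lit 1748) (nat_lit 4891780902) (nat_lit 460) (nat_lit 5) (nat_lit 482) (nat_lit 5) (nat_lit 483) (nat_lit 5) (nat_lit 374) (nat_lit 356) (nat_lit 290)))) (XT.nd (nat_lit 78) (nat_lit 3268) (nat_lit 0) (XT.lf (nat_lit 0) (nat_lit 6853134000) (nat_lit 1748) (nat_lit 1506943228) (nat_lit 76) (nat_lit 1021071583) (nat_lit 460) (nat_lit 5) (nat_lit 483) (nat_lit 5) (nat_lit 461) (nat_lit 5) (nat_lit 375) (nat_lit 356) (nat_lit 289)) (XT.nd (nat_lit 78) (nat_lit 1520) (nat_lit 0) (XT.lf (nat_lit 0) (nat_lit 6438719477)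 (nat_lit 1748) (nat_lit 2997596766) (nat_lit 1824) (nat_lit 74688277) (nat_lit 437) (nat_lit 5) (nat_lit 460) (nat_lit 5) (nat_lit 461) (nat_lit 5) (nat_lit 376) (nat_lit 356) (nat_lit 288)) (XT.lf (nat_lit 0) (nat_lit 2428137644) (nat_lit 1520) (nat_lit 4659022700) (nat_lit 76) (nat_lit 2557127250) (nat_lit 417) (nat_lit 5) (nat_lit 437) (nat_lit 5) (nat_lit 418) (nat_lit 5) (nat_lit 377) (nat_lit 356) (nat_lit 287)))))) (XT.nd (nat_lit 390) (nat_lit 4028) (nat_lit 0) (XT.nd (nat_lit 156) (nat_lit 1824) (nat_lit 0) (XT.nd (nat_lit 78) (nat_lit 912) (nat_lit 0) (XT.lf (nat_lit 0) (nat_lit 3524660439) (nat_lit 912) (nat_lit 1493985375) (nat_lit 988) (nat_lit 4762652246) (nat_lit 405) (nat_lit 5) (nat_lit 417) (nat_lit 5) (nat_lit 418) (nat_lit 5) (nat_lit 378) (nat_lit 356) (nat_lit 286)) (XT.lf (nat_lit 0) (nat_lit 2048200095) (nat_lit 912) (nat_lit 5662362240) (nat_lit 988) (nat_lit 2211393338) (nat_lit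 393) (nat_lit 5) (nat_lit 405) (nat_lit 5) (nat_lit 406) (nat_lit 5) (nat_lit 379) (nat_lit 356) (nat_lit 285))) (XT.nd (nat_lit 78) (nat_lit 836) (nat_lit 0) (XT.lf (nat_lit 0) (nat_lit 420004940) (nat_lit 988) (nat_lit 9497753916) (nat_lit 76) (nat_lit 148849014) (nat_lit 380) (nat_lit 5) (nat_lit 393) (nat_lit 5) (nat_lit 381) (nat_lit 5) (nat_lit 380) (nat_lit 356) (nat_lit 284)) (XT.nd (nat_lit 78) (nat_lit 836) (nat_lit 0) (XT.lf (nat_lit 0) (nat_lit 3144881213) (nat_lit 988) (nat_lit 941716128) (nat_lit 76) (nat_lit 6127828224) (nat_lit 380) (nat_lit 5) (nat_lit 393) (nat_lit 5) (nat_lit 381) (nat_lit 5) (nat_lit 381) (nat_lit 356) (nat_lit 283)) (XT.lf (nat_lit 0) (nat_lit 5970002633) (nat_lit 912) (nat_lit 2449712254) (nat_lit 76) (nat_lit 1946602525) (nat_lit 369) (nat_lit 5) (nat_lit 381) (nat_lit 5) (nat_lit 370) (nat_lit 5) (nat_lit 382) (nat_lit 356) (nat_lit 282))))) (XT.nd (nat_lit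 234) (nat_lit 1596) (nat_lit 0) (XT.nd (nat_lit 78) (nat_lit 1596) (nat_lit 0) (XT.lf (nat_lit 0) (nat_lit 6543877345) (nat_lit 836) (nat_lit 2367492824) (nat_lit 912) (nat_lit 1610775312) (nat_lit 358) (nat_lit 5) (nat_lit 369) (nat_lit 5) (nat_lit 370) (nat_lit 5) (nat_lit 383) (nat_lit 356) (nat_lit 281)) (XT.nd (nat_lit 78) (nat_lit 760) (nat_lit 0) (XT.lf (nat_lit 0) (nat_lit 1273569619) (nat_lit 836) (nat_lit 5535158036) (nat_lit 76) (nat_lit 3873131358) (nat_lit 347) (nat_lit 5) (nat_lit 358) (nat_lit 5) (nat_lit 348) (nat_lit 5) (nat_lit 384) (nat_lit 356) (nat_lit 280)) (XT.lf (nat_lit 0) (nat_lit 3730712809) (nat_lit 760) (nat_lit 516113372) (nat_lit 836) (nat_lit 6598848128) (nat_lit 337) (nat_lit 5) (nat_lit 347) (nat_lit 5) (nat_lit 348) (nat_lit 5) (nat_lit 385) (nat_lit 356) (nat_lit 279)))) (XT.nd (nat_lit 78) (nat_lit 836) (nat_lit 0) (XT.lf (nat_lit 0) (nat_lit 2282044800) (nat_lit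 760) (nat_lit 5076434639) (nat_lit 836) (nat_lit 3654949003) (nat_lit 327) (nat_lit 5) (nat_lit 337) (nat_lit 5) (nat_lit 338) (nat_lit 5) (nat_lit 386) (nat_lit 356) (nat_lit 278)) (XT.nd (nat_lit 78) (nat_lit 76) (nat_lit 0) (XT.lf (nat_lit 0) (nat_lit 825505358) (nat_lit 760) (nat_lit 9763133275) (nat_lit 836) (nat_lit 597081556) (nat_lit 317) (nat_lit 5) (nat_lit 327) (nat_lit 5) (nat_lit 328) (nat_lit 5) (nat_lit 387) (nat_lit 356) (nat_lit 277)) (XT.lf (nat_lit 0) (nat_lit 2571992550) (nat_lit 836) (nat_lit 669744730) (nat_lit 76) (nat_lit 8120060733) (nat_lit 316) (nat_lit 5) (nat_lit 327) (nat_lit 5) (nat_lit 317) (nat_lit 5) (nat_lit 388) (nat_lit 356) (nat_lit 276))))))))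
noncomputable def xc74 : XT := (XT.nd (nat_lit 1716) (nat_lit 5852) (nat_lit 0) (XT.nd (nat_lit 858) (nat_lit 4940) (nat_lit 0) (XT.nd (nat_lit 390) (nat_lit 3116) (nat_lit 0) (XT.nd (nat_lit 156) (nat_lit 2052) (nat_lit 0) (XT.nd (nat_lit 78) (nat_lit 684) (nat_lit 0) (XT.lf (nat_lit 0) (nat_lit 5872601109) (nat_lit 760) (nat_lit 2179194766) (nat_lit 76) (nat_lit 3490399377) (nat_lit 307) (nat_lit 5) (nat_lit 317) (nat_lit 5) (nat_lit 308) (nat_lit 5) (nat_lit 389) (nat_lit 356) (nat_lit 275)) (XT.lf (nat_lit 0) (nat_lit 8017262793) (nat_lit 684) (nat_lit 1294721121) (nat_lit 760) (nat_lit 2415232655) (nat_lit 298) (nat_lit 5) (nat_lit 307) (nat_lit 5) (nat_lit 308) (nat_lit 5) (nat_lit 390) (nat_lit 356) (nat_lit 274))) (XT.nd (nat_lit 78) (nat_lit 1292) (nat_lit 0) (XT.lf (nat_lit 0) (nat_lit 981847134) (nat_lit 760) (nat_lit 5285151626) (nat_lit 76) (nat_lit 5649527591) (nat_lit 288) (nat_lit 5)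 (nat_lit 298) (nat_lit 5) (nat_lit 289) (nat_lit 5) (nat_lit 391) (nat_lit 356) (nat_lit 273)) (XT.nd (nat_lit 78) (nat_lit 608) (nat_lit 0) (XT.lf (nat_lit 0) (nat_lit 4483734869) (nat_lit 760) (nat_lit 6893134033) (nat_lit 76) (nat_lit 733619778) (nat_lit 279) (nat_lit 5) (nat_lit 289) (nat_lit 5) (nat_lit 280) (nat_lit 5) (nat_lit 392) (nat_lit 356) (nat_lit 272)) (XT.lf (nat_lit 0) (nat_lit 3760978844) (nat_lit 608) (nat_lit 4395662326) (nat_lit 684) (nat_lit 4152316003) (nat_lit 271) (nat_lit 5) (nat_lit 279) (nat_lit 5) (nat_lit 280) (nat_lit 5) (nat_lit 393) (nat_lit 356) (nat_lit 271))))) (XT.nd (nat_lit 234) (nat_lit 1824) (nat_lit 0) (XT.nd (nat_lit 78) (nat_lit 684) (nat_lit 0) (XT.lf (nat_lit 0) (nat_lit 2284242486) (nat_lit 608) (nat_lit 9699802146) (nat_lit 684) (nat_lit 528455233) (nat_lit 263) (nat_lit 5) (nat_lit 271) (nat_lit 5) (nat_lit 272) (nat_lit 5) (nat_lit 394) (nat_lit 356)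 (nat_lit 270)) (XT.nd (nat_lit 78) (nat_lit 0) (nat_lit 0) (XT.lf (nat_lit 0) (nat_lit 753095132) (nat_lit 608) (nat_lit 2466430976) (nat_lit 684) (nat_lit 9501064153) (nat_lit 254) (nat_lit 5) (nat_lit 262) (nat_lit 5) (nat_lit 263) (nat_lit 5) (nat_lit 395) (nat_lit 356) (nat_lit 269)) (XT.lf (nat_lit 0) (nat_lit 7140460947) (nat_lit 684) (nat_lit 809570763) (nat_lit 76) (nat_lit 4983473786) (nat_lit 254) (nat_lit 5) (nat_lit 263) (nat_lit 5) (nat_lit 255) (nat_lit 5) (nat_lit 396) (nat_lit 356) (nat_lit 268)))) (XT.nd (nat_lit 78) (nat_lit 1216) (nat_lit 0) (XT.lf (nat_lit 0) (nat_lit 10765481904) (nat_lit 608) (nat_lit 466461625) (nat_lit 684) (nat_lit 1919811954) (nat_lit 246) (nat_lit 5) (nat_lit 254) (nat_lit 5) (nat_lit 255) (nat_lit 5) (nat_lit 397) (nat_lit 356) (nat_lit 267)) (XT.nd (nat_lit 78) (nat_lit 608) (nat_lit 0) (XT.lf (nat_lit 0) (nat_lit 2123461715) (nat_lit 608) (nat_lit 4033068580)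 (nat_lit 76) (nat_lit 7218139595) (nat_lit 238) (nat_lit 5) (nat_lit 246) (nat_lit 5) (nat_lit 239) (nat_lit 5) (nat_lit 398) (nat_lit 356) (nat_lit 266)) (XT.lf (nat_lit 0) (nat_lit 6310760317) (nat_lit 684) (nat_lit 5718070496) (nat_lit 76) (nat_lit 1574216189) (nat_lit 230) (nat_lit 5) (nat_lit 239) (nat_lit 5) (nat_lit 231) (nat_lit 5) (nat_lit 399) (nat_lit 356) (nat_lit 265)))))) (XT.nd (nat_lit 390) (nat_lit 2736) (nat_lit 0) (XT.nd (nat_lit 156) (nat_lit 1064) (nat_lit 0) (XT.nd (nat_lit 78) (nat_lit 608) (nat_lit 0) (XT.lf (nat_lit 0) (nat_lit 6378472650) (nat_lit 532) (nat_lit 4323556502) (nat_lit 608) (nat_lit 3134684353) (nat_lit 223) (nat_lit 5) (nat_lit 230) (nat_lit 5) (nat_lit 231) (nat_lit 5) (nat_lit 400) (nat_lit 356) (nat_lit 264)) (XT.lf (nat_lit 0) (nat_lit 1195722498) (nat_lit 608) (nat_lit 9246459740) (nat_lit 76) (nat_lit 3633801040) (nat_lit 215) (nat_lit 5) (nat_lit 223)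 (nat_lit 5) (nat_lit 216) (nat_lit 5) (nat_lit 401) (nat_lit 356) (nat_lit 263))) (XT.nd (nat_lit 78) (nat_lit 608) (nat_lit 0) (XT.lf (nat_lit 0) (nat_lit 3217084952) (nat_lit 456) (nat_lit 2466568001) (nat_lit 532) (nat_lit 8636964515) (nat_lit 209) (nat_lit 5) (nat_lit 215) (nat_lit 5) (nat_lit 216) (nat_lit 5) (nat_lit 402) (nat_lit 356) (nat_lit 262)) (XT.nd (nat_lit 78) (nat_lit 76) (nat_lit 0) (XT.lf (nat_lit 0) (nat_lit 1551020360) (nat_lit 532) (nat_lit 8835506676) (nat_lit 608) (nat_lit 4184462113) (nat_lit 202) (nat_lit 5) (nat_lit 209) (nat_lit 5) (nat_lit 210) (nat_lit 5) (nat_lit 403) (nat_lit 356) (nat_lit 261)) (XT.lf (nat_lit 0) (nat_lit 458838412) (nat_lit 608) (nat_lit 150850263) (nat_lit 76) (nat_lit 14217885709) (nat_lit 201) (nat_lit 5) (nat_lit 209) (nat_lit 5) (nat_lit 202) (nat_lit 5) (nat_lit 404) (nat_lit 356) (nat_lit 260))))) (XT.nd (nat_lit 234) (nat_lit 1368) (nat_lit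 0) (XT.nd (nat_lit 78) (nat_lit 912) (nat_lit 0) (XT.lf (nat_lit 0) (nat_lit 5293533196) (nat_lit 532) (nat_lit 1932173132) (nat_lit 76) (nat_lit 7863422982) (nat_lit 195) (nat_lit 5) (nat_lit 202) (nat_lit 5) (nat_lit 196) (nat_lit 5) (nat_lit 405) (nat_lit 356) (nat_lit 259)) (XT.nd (nat_lit 78) (nat_lit 456) (nat_lit 0) (XT.lf (nat_lit 0) (nat_lit 10333811678) (nat_lit 532) (nat_lit 3749791610) (nat_lit 76) (nat_lit 1273720849) (nat_lit 189) (nat_lit 5) (nat_lit 196) (nat_lit 5) (nat_lit 190) (nat_lit 5) (nat_lit 406) (nat_lit 356) (nat_lit 258)) (XT.lf (nat_lit 0) (nat_lit 9989605455) (nat_lit 456) (nat_lit 5634189937) (nat_lit 532) (nat_lit 7803468) (nat_lit 183) (nat_lit 5) (nat_lit 189) (nat_lit 5) (nat_lit 190) (nat_lit 5) (nat_lit 407) (nat_lit 356) (nat_lit 257)))) (XT.nd (nat_lit 78) (nat_lit 836) (nat_lit 0) (XT.lf (nat_lit 0) (nat_lit 5163395069) (nat_lit 532) (nat_lit 7617982034) (nat_lit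 76) (nat_lit 3130605262) (nat_lit 176) (nat_lit 5) (nat_lit 183) (nat_lit 5) (nat_lit 177) (nat_lit 5) (nat_lit 408) (nat_lit 356) (nat_lit 256)) (XT.nd (nat_lit 78) (nat_lit 456) (nat_lit 0) (XT.lf (nat_lit 0) (nat_lit 6533866927) (nat_lit 380) (nat_lit 4047326987) (nat_lit 456) (nat_lit 5617754711) (nat_lit 171) (nat_lit 5) (nat_lit 176) (nat_lit 5) (nat_lit 177) (nat_lit 5) (nat_lit 409) (nat_lit 356) (nat_lit 255)) (XT.lf (nat_lit 0) (nat_lit 4711422705) (nat_lit 456) (nat_lit 11538230965) (nat_lit 532) (nat_lit 243111242) (nat_lit 165) (nat_lit 5) (nat_lit 171) (nat_lit 5) (nat_lit 172) (nat_lit 5) (nat_lit 410) (nat_lit 356) (nat_lit 254))))))) (XT.nd (nat_lit 858) (nat_lit 2280) (nat_lit 0) (XT.nd (nat_lit 390) (nat_lit 1900) (nat_lit 0) (XT.nd (nat_lit 156) (nat_lit 836) (nat_lit 0) (XT.nd (nat_lit 78) (nat_lit 380) (nat_lit 0) (XT.lf (nat_lit 0) (nat_lit 2793535258) (nat_lit 380) (nat_lit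 2514743641) (nat_lit 456) (nat_lit 11484734453) (nat_lit 159) (nat_lit 5) (nat_lit 164) (nat_lit 5) (nat_lit 165) (nat_lit 5) (nat_lit 411) (nat_lit 356) (nat_lit 253)) (XT.lf (nat_lit 0) (nat_lit 791985822) (nat_lit 380) (nat_lit 10334690412) (nat_lit 456) (nat_lit 5973488811) (nat_lit 154) (nat_lit 5) (nat_lit 159) (nat_lit 5) (nat_lit 160) (nat_lit 5) (nat_lit 412) (nat_lit 356) (nat_lit 252))) (XT.nd (nat_lit 78) (nat_lit 836) (nat_lit 0) (XT.lf (nat_lit 0) (nat_lit 16163922943) (nat_lit 380) (nat_lit 1042006865) (nat_lit 456) (nat_lit 208878607) (nat_lit 154) (nat_lit 5) (nat_lit 159) (nat_lit 5) (nat_lit 160) (nat_lit 5) (nat_lit 413) (nat_lit 356) (nat_lit 251)) (XT.nd (nat_lit 78) (nat_lit 380) (nat_lit 0) (XT.lf (nat_lit 0) (nat_lit 5778318170) (nat_lit 456) (nat_lit 3420597740) (nat_lit 76) (nat_lit 8536738731) (nat_lit 148) (nat_lit 5) (nat_lit 154) (nat_lit 5) (nat_lit 149) (nat_lit 5)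 (nat_lit 414) (nat_lit 356) (nat_lit 250)) (XT.lf (nat_lit 0) (nat_lit 12016747010) (nat_lit 456) (nat_lit 5650601283) (nat_lit 76) (nat_lit 397264235) (nat_lit 143) (nat_lit 5) (nat_lit 149) (nat_lit 5) (nat_lit 144) (nat_lit 5) (nat_lit 415) (nat_lit 356) (nat_lit 249))))) (XT.nd (nat_lit 234) (nat_lit 760) (nat_lit 0) (XT.nd (nat_lit 78) (nat_lit 684) (nat_lit 0) (XT.lf (nat_lit 0) (nat_lit 167734673) (nat_lit 456) (nat_lit 7996361496) (nat_lit 76) (nat_lit 10236753656) (nat_lit 137) (nat_lit 5) (nat_lit 143) (nat_lit 5) (nat_lit 138) (nat_lit 5) (nat_lit 416) (nat_lit 356) (nat_lit 248)) (XT.nd (nat_lit 78) (nat_lit 304) (nat_lit 0) (XT.lf (nat_lit 0) (nat_lit 6568306714) (nat_lit 456) (nat_lit 10452367954) (nat_lit 76) (nat_lit 1724089373) (nat_lit 132) (nat_lit 5) (nat_lit 138) (nat_lit 5) (nat_lit 133) (nat_lit 5) (nat_lit 417) (nat_lit 356) (nat_lit 247)) (XT.lf (nat_lit 0) (nat_lit 6069805668)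 (nat_lit 304) (nat_lit 7216414435) (nat_lit 380) (nat_lit 5810271762) (nat_lit 128) (nat_lit 5) (nat_lit 132) (nat_lit 5) (nat_lit 133) (nat_lit 5) (nat_lit 418) (nat_lit 356) (nat_lit 246)))) (XT.nd (nat_lit 78) (nat_lit 304) (nat_lit 0) (XT.lf (nat_lit 0) (nat_lit 829314078) (nat_lit 456) (nat_lit 15694795276) (nat_lit 76) (nat_lit 2932723508) (nat_lit 122) (nat_lit 5) (nat_lit 128) (nat_lit 5) (nat_lit 123) (nat_lit 5) (nat_lit 419) (nat_lit 356) (nat_lit 245)) (XT.nd (nat_lit 78) (nat_lit 0) (nat_lit 0) (XT.lf (nat_lit 0) (nat_lit 1300156641) (nat_lit 304) (nat_lit 6412420680) (nat_lit 380) (nat_lit 12112172538) (nat_lit 118) (nat_lit 5) (nat_lit 122) (nat_lit 5) (nat_lit 123) (nat_lit 5) (nat_lit 420) (nat_lit 356) (nat_lit 244)) (XT.lf (nat_lit 0) (nat_lit 14913148909) (nat_lit 380) (nat_lit 1243972196) (nat_lit 76) (nat_lit 4044369442) (nat_lit 118) (nat_lit 5) (nat_lit 123) (nat_lit 5) (nat_lit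 119) (nat_lit 5) (nat_lit 421) (nat_lit 356) (nat_lit 243)))))) (XT.nd (nat_lit 390) (nat_lit 608) (nat_lit 0) (XT.nd (nat_lit 156) (nat_lit 988) (nat_lit 0) (XT.nd (nat_lit 78) (nat_lit 304) (nat_lit 0) (XT.lf (nat_lit 0) (nat_lit 1847939733) (nat_lit 380) (nat_lit 3902393264) (nat_lit 76) (nat_lit 14836365589) (nat_lit 113) (nat_lit 5) (nat_lit 118) (nat_lit 5) (nat_lit 114) (nat_lit 5) (nat_lit 422) (nat_lit 356) (nat_lit 242)) (XT.lf (nat_lit 0) (nat_lit 9239976584) (nat_lit 380) (nat_lit 6712106220) (nat_lit 76) (nat_lit 5028412852) (nat_lit 109) (nat_lit 5) (nat_lit 114) (nat_lit 5) (nat_lit 110) (nat_lit 5) (nat_lit 423) (nat_lit 356) (nat_lit 241))) (XT.nd (nat_lit 78) (nat_lit 684) (nat_lit 0) (XT.lf (nat_lit 0) (nat_lit 11733421289) (nat_lit 304) (nat_lit 5240607848) (nat_lit 380) (nat_lit 4409674555) (nat_lit 105) (nat_lit 5) (nat_lit 109) (nat_lit 5) (nat_lit 110) (nat_lit 5) (nat_lit 424)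 (nat_lit 356) (nat_lit 240)) (XT.nd (nat_lit 78) (nat_lit 304) (nat_lit 0) (XT.lf (nat_lit 0) (nat_lit 3222315758) (nat_lit 380) (nat_lit 12744341727) (nat_lit 76) (nat_lit 5829496312) (nat_lit 100) (nat_lit 5) (nat_lit 105) (nat_lit 5) (nat_lit 101) (nat_lit 5) (nat_lit 425) (nat_lit 356) (nat_lit 239)) (XT.lf (nat_lit 0) (nat_lit 6210401281) (nat_lit 304) (nat_lit 4934052095) (nat_lit 380) (nat_lit 11073521097) (nat_lit 96) (nat_lit 5) (nat_lit 100) (nat_lit 5) (nat_lit 101) (nat_lit 5) (nat_lit 426) (nat_lit 356) (nat_lit 238))))) (XT.nd (nat_lit 47736) (nat_lit 0) (nat_lit 35568) (XT.nd (nat_lit 78) (nat_lit 380) (nat_lit 0) (XT.lf (nat_lit 0) (nat_lit 3224228933) (nat_lit 228) (nat_lit 16209495837) (nat_lit 304) (nat_lit 3216137529) (nat_lit 93) (nat_lit 5) (nat_lit 96) (nat_lit 5) (nat_lit 97) (nat_lit 5) (nat_lit 427) (nat_lit 356) (nat_lit 237)) (XT.nd (nat_lit 47580) (nat_lit 0) (nat_lit 36860)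 (XT.lf (nat_lit 0) (nat_lit 62018227) (nat_lit 304) (nat_lit 4873677511) (nat_lit 380) (nat_lit 18155925753) (nat_lit 88) (nat_lit 5) (nat_lit 92) (nat_lit 5) (nat_lit 93) (nat_lit 5) (nat_lit 428) (nat_lit 356) (nat_lit 236)) (XT.lf (nat_lit 0) (nat_lit 510370499) (nat_lit 0) (nat_lit 510370499) (nat_lit 1292) (nat_lit 2816095390) (nat_lit 573) (nat_lit 5) (nat_lit 573) (nat_lit 3) (nat_lit 590) (nat_lit 3) (nat_lit 357) (nat_lit 357) (nat_lit 306)))) (XT.nd (nat_lit 78) (nat_lit 1292) (nat_lit 0) (XT.lf (nat_lit 0) (nat_lit 4102462625) (nat_lit 1292) (nat_lit 1050393074) (nat_lit 1368) (nat_lit 2594784392) (nat_lit 573) (nat_lit 5) (nat_lit 590) (nat_lit 3) (nat_lit 591) (nat_lit 5) (nat_lit 358) (nat_lit 357) (nat_lit 305)) (XT.nd (nat_lit 78) (nat_lit 1292) (nat_lit 0) (XT.lf (nat_lit 76) (nat_lit 4734353815) (nat_lit 0) (nat_lit 1450165661) (nat_lit 1368) (nat_lit 1640142717) (nat_lit 574) (nat_lit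 5) (nat_lit 573) (nat_lit 5) (nat_lit 591) (nat_lit 5) (nat_lit 359) (nat_lit 357) (nat_lit 304)) (XT.lf (nat_lit 0) (nat_lit 383720502) (nat_lit 1368) (nat_lit 5125232664) (nat_lit 1444) (nat_lit 2395721272) (nat_lit 556) (nat_lit 5) (nat_lit 574) (nat_lit 5) (nat_lit 575) (nat_lit 5) (nat_lit 360) (nat_lit 357) (nat_lit 303))))))))
noncomputable def xc75 : XT := (XT.nd (nat_lit 1716) (nat_lit 12692) (nat_lit 0) (XT.nd (nat_lit 858) (nat_lit 11552) (nat_lit 0) (XT.nd (nat_lit 390) (nat_lit 1368) (nat_lit 0) (XT.nd (nat_lit 156) (nat_lit 1292) (nat_lit 0) (XT.nd (nat_lit 78) (nat_lit 0) (nat_lit 76) (XT.lf (nat_lit 76) (nat_lit 828405871) (nat_lit 0) (nat_lit 1579262395) (nat_lit 1444) (nat_lit 5579988058) (nat_lit 557) (nat_lit 5) (nat_lit 556) (nat_lit 5) (nat_lit 575) (nat_lit 5) (nat_lit 361) (nat_lit 357) (nat_lit 302)) (XT.lf (nat_lit 0) (nat_lit 4470791427) (nat_lit 1368) (nat_lit 1101433983)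 (nat_lit 1444) (nat_lit 2501351699) (nat_lit 557) (nat_lit 5) (nat_lit 575) (nat_lit 5) (nat_lit 576) (nat_lit 5) (nat_lit 362) (nat_lit 357) (nat_lit 301))) (XT.nd (nat_lit 78) (nat_lit 1368) (nat_lit 0) (XT.lf (nat_lit 76) (nat_lit 5152851366) (nat_lit 0) (nat_lit 1416557174) (nat_lit 1444) (nat_lit 1593213009) (nat_lit 558) (nat_lit 5) (nat_lit 557) (nat_lit 5) (nat_lit 576) (nat_lit 5) (nat_lit 363) (nat_lit 357) (nat_lit 300)) (XT.nd (nat_lit 78) (nat_lit 0) (nat_lit 0) (XT.lf (nat_lit 0) (nat_lit 449557699) (nat_lit 1444) (nat_lit 4920106519) (nat_lit 1520) (nat_lit 2885045137) (nat_lit 539) (nat_lit 5) (nat_lit 558) (nat_lit 5) (nat_lit 559) (nat_lit 5) (nat_lit 364) (nat_lit 357) (nat_lit 299)) (XT.lf (nat_lit 76) (nat_lit 1517620350) (nat_lit 0) (nat_lit 987125039) (nat_lit 1520) (nat_lit 5845164865) (nat_lit 540) (nat_lit 5) (nat_lit 539) (nat_lit 5) (nat_lit 559) (nat_lit 5) (nat_lit 365)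 (nat_lit 357) (nat_lit 298))))) (XT.nd (nat_lit 234) (nat_lit 0) (nat_lit 76) (XT.nd (nat_lit 78) (nat_lit 1444) (nat_lit 0) (XT.lf (nat_lit 0) (nat_lit 4612676458) (nat_lit 1444) (nat_lit 298739266) (nat_lit 1520) (nat_lit 3536745885) (nat_lit 540) (nat_lit 5) (nat_lit 559) (nat_lit 5) (nat_lit 560) (nat_lit 5) (nat_lit 366) (nat_lit 357) (nat_lit 297)) (XT.nd (nat_lit 78) (nat_lit 1444) (nat_lit 0) (XT.lf (nat_lit 76) (nat_lit 6466161809) (nat_lit 0) (nat_lit 302799492) (nat_lit 1520) (nat_lit 1780712599) (nat_lit 541) (nat_lit 5) (nat_lit 540) (nat_lit 5) (nat_lit 560) (nat_lit 5) (nat_lit 367) (nat_lit 357) (nat_lit 296)) (XT.lf (nat_lit 0) (nat_lit 331409213) (nat_lit 1520) (nat_lit 3882316124) (nat_lit 1596) (nat_lit 4440475408) (nat_lit 521) (nat_lit 5) (nat_lit 541) (nat_lit 5) (nat_lit 542) (nat_lit 5) (nat_lit 368) (nat_lit 357) (nat_lit 295)))) (XT.nd (nat_lit 78) (nat_lit 0) (nat_lit 0)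 (XT.lf (nat_lit 0) (nat_lit 2462485851) (nat_lit 1520) (nat_lit 5683556227) (nat_lit 1596) (nat_lit 616004748) (nat_lit 522) (nat_lit 5) (nat_lit 542) (nat_lit 5) (nat_lit 543) (nat_lit 5) (nat_lit 369) (nat_lit 357) (nat_lit 294)) (XT.nd (nat_lit 78) (nat_lit 0) (nat_lit 76) (XT.lf (nat_lit 76) (nat_lit 1374075000) (nat_lit 0) (nat_lit 3287937508) (nat_lit 1596) (nat_lit 4211039523) (nat_lit 523) (nat_lit 5) (nat_lit 522) (nat_lit 5) (nat_lit 543) (nat_lit 5) (nat_lit 370) (nat_lit 357) (nat_lit 293)) (XT.lf (nat_lit 0) (nat_lit 6919898818) (nat_lit 1520) (nat_lit 321574286) (nat_lit 1596) (nat_lit 1746080497) (nat_lit 523) (nat_lit 5) (nat_lit 543) (nat_lit 5) (nat_lit 544) (nat_lit 5) (nat_lit 371) (nat_lit 357) (nat_lit 292)))))) (XT.nd (nat_lit 390) (nat_lit 5092) (nat_lit 0) (XT.nd (nat_lit 156) (nat_lit 5016) (nat_lit 0) (XT.nd (nat_lit 78) (nat_lit 0) (nat_lit 76) (XT.lf (nat_lit 0) (nat_lit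 150480801) (nat_lit 1596) (nat_lit 2007473982) (nat_lit 1672) (nat_lit 6947284564) (nat_lit 502) (nat_lit 5) (nat_lit 523) (nat_lit 5) (nat_lit 524) (nat_lit 5) (nat_lit 372) (nat_lit 357) (nat_lit 291)) (XT.lf (nat_lit 0) (nat_lit 2410864136) (nat_lit 1596) (nat_lit 3714057651) (nat_lit 76) (nat_lit 3101197281) (nat_lit 503) (nat_lit 5) (nat_lit 524) (nat_lit 5) (nat_lit 504) (nat_lit 5) (nat_lit 373) (nat_lit 357) (nat_lit 290))) (XT.nd (nat_lit 78) (nat_lit 3496) (nat_lit 0) (XT.lf (nat_lit 0) (nat_lit 3927321807) (nat_lit 1596) (nat_lit 811866493) (nat_lit 1672) (nat_lit 4611446574) (nat_lit 482) (nat_lit 5) (nat_lit 503) (nat_lit 5) (nat_lit 504) (nat_lit 5) (nat_lit 374) (nat_lit 357) (nat_lit 289)) (XT.nd (nat_lit 78) (nat_lit 1824) (nat_lit 0) (XT.lf (nat_lit 0) (nat_lit 2326105667) (nat_lit 1672) (nat_lit 4829794376) (nat_lit 1748) (nat_lit 2322627277) (nat_lit 460) (nat_lit 5) (nat_lit 482)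 (nat_lit 5) (nat_lit 483) (nat_lit 5) (nat_lit 375) (nat_lit 357) (nat_lit 288)) (XT.lf (nat_lit 0) (nat_lit 34860162) (nat_lit 1824) (nat_lit 8882825378) (nat_lit 76) (nat_lit 692568605) (nat_lit 436) (nat_lit 5) (nat_lit 460) (nat_lit 5) (nat_lit 437) (nat_lit 5) (nat_lit 376) (nat_lit 357) (nat_lit 287))))) (XT.nd (nat_lit 234) (nat_lit 2736) (nat_lit 0) (XT.nd (nat_lit 78) (nat_lit 2356) (nat_lit 0) (XT.lf (nat_lit 0) (nat_lit 2462764029) (nat_lit 1824) (nat_lit 896218830) (nat_lit 76) (nat_lit 6386028939) (nat_lit 436) (nat_lit 5) (nat_lit 460) (nat_lit 5) (nat_lit 437) (nat_lit 5) (nat_lit 377) (nat_lit 357) (nat_lit 286)) (XT.nd (nat_lit 78) (nat_lit 912) (nat_lit 0) (XT.lf (nat_lit 0) (nat_lit 4978596292) (nat_lit 1520) (nat_lit 2516109974) (nat_lit 76) (nat_lit 2388814785) (nat_lit 417) (nat_lit 5) (nat_lit 437) (nat_lit 5) (nat_lit 418) (nat_lit 5) (nat_lit 378) (nat_lit 357) (nat_lit 285))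 (XT.lf (nat_lit 0) (nat_lit 5876049833) (nat_lit 912) (nat_lit 1713186591) (nat_lit 988) (nat_lit 2436572884) (nat_lit 405) (nat_lit 5) (nat_lit 417) (nat_lit 5) (nat_lit 418) (nat_lit 5) (nat_lit 379) (nat_lit 357) (nat_lit 284)))) (XT.nd (nat_lit 78) (nat_lit 1748) (nat_lit 0) (XT.lf (nat_lit 0) (nat_lit 131401614) (nat_lit 988) (nat_lit 5804594514) (nat_lit 76) (nat_lit 4235827026) (nat_lit 392) (nat_lit 5) (nat_lit 405) (nat_lit 5) (nat_lit 393) (nat_lit 5) (nat_lit 380) (nat_lit 357) (nat_lit 283)) (XT.nd (nat_lit 78) (nat_lit 836) (nat_lit 0) (XT.lf (nat_lit 0) (nat_lit 2756738607) (nat_lit 988) (nat_lit 7481822309) (nat_lit 76) (nat_lit 83075448) (nat_lit 380) (nat_lit 5) (nat_lit 393) (nat_lit 5) (nat_lit 381) (nat_lit 5) (nat_lit 381) (nat_lit 357) (nat_lit 282)) (XT.lf (nat_lit 0) (nat_lit 1280677463) (nat_lit 836) (nat_lit 4223305503) (nat_lit 912) (nat_lit 4971107375) (nat_lit 369) (nat_lit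 5) (nat_lit 380) (nat_lit 5) (nat_lit 381) (nat_lit 5) (nat_lit 382) (nat_lit 357) (nat_lit 281))))))) (XT.nd (nat_lit 858) (nat_lit 5852) (nat_lit 0) (XT.nd (nat_lit 390) (nat_lit 3648) (nat_lit 0) (XT.nd (nat_lit 156) (nat_lit 2280) (nat_lit 0) (XT.nd (nat_lit 78) (nat_lit 912) (nat_lit 0) (XT.lf (nat_lit 0) (nat_lit 8354041869) (nat_lit 912) (nat_lit 280989635) (nat_lit 76) (nat_lit 1997717536) (nat_lit 369) (nat_lit 5) (nat_lit 381) (nat_lit 5) (nat_lit 370) (nat_lit 5) (nat_lit 383) (nat_lit 357) (nat_lit 280)) (XT.lf (nat_lit 0) (nat_lit 532411864) (nat_lit 912) (nat_lit 1851735635) (nat_lit 76) (nat_lit 8410045766) (nat_lit 357) (nat_lit 5) (nat_lit 369) (nat_lit 5) (nat_lit 358) (nat_lit 5) (nat_lit 384) (nat_lit 357) (nat_lit 279))) (XT.nd (nat_lit 78) (nat_lit 1520) (nat_lit 0) (XT.lf (nat_lit 0) (nat_lit 3433114036) (nat_lit 836) (nat_lit 3460031824) (nat_lit 76) (nat_lit 4066317906) (nat_lit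 347) (nat_lit 5) (nat_lit 358) (nat_lit 5) (nat_lit 348) (nat_lit 5) (nat_lit 385) (nat_lit 357) (nat_lit 278)) (XT.nd (nat_lit 78) (nat_lit 760) (nat_lit 0) (XT.lf (nat_lit 0) (nat_lit 6047454648) (nat_lit 760) (nat_lit 400642280) (nat_lit 836) (nat_lit 4681058378) (nat_lit 337) (nat_lit 5) (nat_lit 347) (nat_lit 5) (nat_lit 348) (nat_lit 5) (nat_lit 386) (nat_lit 357) (nat_lit 277)) (XT.lf (nat_lit 0) (nat_lit 4559929188) (nat_lit 760) (nat_lit 5047937252) (nat_lit 836) (nat_lit 1694992288) (nat_lit 327) (nat_lit 5) (nat_lit 337) (nat_lit 5) (nat_lit 338) (nat_lit 5) (nat_lit 387) (nat_lit 357) (nat_lit 276))))) (XT.nd (nat_lit 234) (nat_lit 2128) (nat_lit 0) (XT.nd (nat_lit 78) (nat_lit 684) (nat_lit 0) (XT.lf (nat_lit 0) (nat_lit 1391653340) (nat_lit 836) (nat_lit 8427356727) (nat_lit 76) (nat_lit 1662009300) (nat_lit 316) (nat_lit 5) (nat_lit 327) (nat_lit 5) (nat_lit 317) (nat_lit 5) (nat_lit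 388) (nat_lit 357) (nat_lit 275)) (XT.nd (nat_lit 78) (nat_lit 0) (nat_lit 0) (XT.lf (nat_lit 0) (nat_lit 1504330946) (nat_lit 684) (nat_lit 3094958967) (nat_lit 760) (nat_lit 7063989720) (nat_lit 307) (nat_lit 5) (nat_lit 316) (nat_lit 5) (nat_lit 317) (nat_lit 5) (nat_lit 389) (nat_lit 357) (nat_lit 274)) (XT.lf (nat_lit 0) (nat_lit 7948090261) (nat_lit 760) (nat_lit 68663604) (nat_lit 76) (nat_lit 3833362218) (nat_lit 307) (nat_lit 5) (nat_lit 317) (nat_lit 5) (nat_lit 308) (nat_lit 5) (nat_lit 390) (nat_lit 357) (nat_lit 273)))) (XT.nd (nat_lit 78) (nat_lit 1444) (nat_lit 0) (XT.lf (nat_lit 0) (nat_lit 10398386176) (nat_lit 684) (nat_lit 1050846864) (nat_lit 760) (nat_lit 592293881) (nat_lit 298) (nat_lit 5) (nat_lit 307) (nat_lit 5) (nat_lit 308) (nat_lit 5) (nat_lit 391) (nat_lit 357) (nat_lit 272)) (XT.nd (nat_lit 78) (nat_lit 684) (nat_lit 0) (XT.lf (nat_lit 0) (nat_lit 2843144739) (nat_lit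 760) (nat_lit 3278061809) (nat_lit 76) (nat_lit 6115847174) (nat_lit 288) (nat_lit 5) (nat_lit 298) (nat_lit 5) (nat_lit 289) (nat_lit 5) (nat_lit 392) (nat_lit 357) (nat_lit 271)) (XT.lf (nat_lit 0) (nat_lit 6412762907) (nat_lit 760) (nat_lit 4935446121) (nat_lit 76) (nat_lit 1089382075) (nat_lit 279) (nat_lit 5) (nat_lit 289) (nat_lit 5) (nat_lit 280) (nat_lit 5) (nat_lit 393) (nat_lit 357) (nat_lit 270)))))) (XT.nd (nat_lit 390) (nat_lit 3344) (nat_lit 0) (XT.nd (nat_lit 156) (nat_lit 1216) (nat_lit 0) (XT.nd (nat_lit 78) (nat_lit 684) (nat_lit 0) (XT.lf (nat_lit 0) (nat_lit 6003173996) (nat_lit 608) (nat_lit 4154240201) (nat_lit 684) (nat_lit 2485377675) (nat_lit 271) (nat_lit 5) (nat_lit 279) (nat_lit 5) (nat_lit 280) (nat_lit 5) (nat_lit 394) (nat_lit 357) (nat_lit 269)) (XT.lf (nat_lit 0) (nat_lit 1195618113) (nat_lit 684) (nat_lit 8380951592) (nat_lit 76) (nat_lit 3276422581) (nat_lit 262)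 (nat_lit 5) (nat_lit 271) (nat_lit 5) (nat_lit 263) (nat_lit 5) (nat_lit 395) (nat_lit 357) (nat_lit 268))) (XT.nd (nat_lit 78) (nat_lit 608) (nat_lit 0) (XT.lf (nat_lit 0) (nat_lit 2891416234) (nat_lit 608) (nat_lit 2120751102) (nat_lit 684) (nat_lit 8055830700) (nat_lit 254) (nat_lit 5) (nat_lit 262) (nat_lit 5) (nat_lit 263) (nat_lit 5) (nat_lit 396) (nat_lit 357) (nat_lit 267)) (XT.nd (nat_lit 78) (nat_lit 0) (nat_lit 0) (XT.lf (nat_lit 0) (nat_lit 1267437981) (nat_lit 608) (nat_lit 7744767044) (nat_lit 684) (nat_lit 4275874619) (nat_lit 246) (nat_lit 5) (nat_lit 254) (nat_lit 5) (nat_lit 255) (nat_lit 5) (nat_lit 397) (nat_lit 357) (nat_lit 266)) (XT.lf (nat_lit 0) (nat_lit 13139298206) (nat_lit 608) (nat_lit 44182423) (nat_lit 684) (nat_lit 330263699) (nat_lit 246) (nat_lit 5) (nat_lit 254) (nat_lit 5) (nat_lit 255) (nat_lit 5) (nat_lit 398) (nat_lit 357) (nat_lit 265))))) (XT.nd (nat_lit 234)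 (nat_lit 1596) (nat_lit 0) (XT.nd (nat_lit 78) (nat_lit 1140) (nat_lit 0) (XT.lf (nat_lit 0) (nat_lit 3781505441) (nat_lit 608) (nat_lit 2085785465) (nat_lit 76) (nat_lit 7876473151) (nat_lit 238) (nat_lit 5) (nat_lit 246) (nat_lit 5) (nat_lit 239) (nat_lit 5) (nat_lit 399) (nat_lit 357) (nat_lit 264)) (XT.nd (nat_lit 78) (nat_lit 532) (nat_lit 0) (XT.lf (nat_lit 0) (nat_lit 8064271635) (nat_lit 684) (nat_lit 3826493856) (nat_lit 76) (nat_lit 2088837565) (nat_lit 230) (nat_lit 5) (nat_lit 239) (nat_lit 5) (nat_lit 231) (nat_lit 5) (nat_lit 400) (nat_lit 357) (nat_lit 263)) (XT.lf (nat_lit 0) (nat_lit 8599473933) (nat_lit 532) (nat_lit 3955423529) (nat_lit 608) (nat_lit 1666037043) (nat_lit 223) (nat_lit 5) (nat_lit 230) (nat_lit 5) (nat_lit 231) (nat_lit 5) (nat_lit 401) (nat_lit 357) (nat_lit 262)))) (XT.nd (nat_lit 78) (nat_lit 988) (nat_lit 0) (XT.lf (nat_lit 0) (nat_lit 2745255427) (nat_lit 608)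 (nat_lit 7479587244) (nat_lit 76) (nat_lit 4242914387) (nat_lit 215) (nat_lit 5) (nat_lit 223) (nat_lit 5) (nat_lit 216) (nat_lit 5) (nat_lit 402) (nat_lit 357) (nat_lit 261)) (XT.nd (nat_lit 78) (nat_lit 532) (nat_lit 0) (XT.lf (nat_lit 0) (nat_lit 5324697996) (nat_lit 456) (nat_lit 2012095976) (nat_lit 532) (nat_lit 7383563669) (nat_lit 209) (nat_lit 5) (nat_lit 215) (nat_lit 5) (nat_lit 216) (nat_lit 5) (nat_lit 403) (nat_lit 357) (nat_lit 260)) (XT.lf (nat_lit 0) (nat_lit 3602041855) (nat_lit 532) (nat_lit 8551874703) (nat_lit 608) (nat_lit 2824867244) (nat_lit 202) (nat_lit 5) (nat_lit 209) (nat_lit 5) (nat_lit 210) (nat_lit 5) (nat_lit 404) (nat_lit 357) (nat_lit 259))))))))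
noncomputable def xc76 : XT := (XT.nd (nat_lit 1716) (nat_lit 532) (nat_lit 0) (XT.nd (nat_lit 858) (nat_lit 3648) (nat_lit 0) (XT.nd (nat_lit 390) (nat_lit 2128) (nat_lit 0) (XT.nd (nat_lit 156) (nat_lit 1444) (nat_lit 0) (XT.nd (nat_lit 78) (nat_lit 0) (nat_lit 0) (XT.lf (nat_lit 0) (nat_lit 1833902859) (nat_lit 456) (nat_lit 73569756) (nat_lit 532) (nat_lit 13336023027) (nat_lit 195) (nat_lit 5) (nat_lit 201) (nat_lit 5) (nat_lit 202) (nat_lit 5) (nat_lit 405) (nat_lit 357) (nat_lit 258)) (XT.lf (nat_lit 0) (nat_lit 6849909701) (nat_lit 532) (nat_lit 32212553) (nat_lit 76) (nat_lit 8631527008) (nat_lit 195) (nat_lit 5) (nat_lit 202) (nat_lit 5) (nat_lit 196) (nat_lit 5) (nat_lit 406) (nat_lit 357) (nat_lit 257))) (XT.nd (nat_lit 78) (nat_lit 988) (nat_lit 0) (XT.lf (nat_lit 0) (nat_lit 12016811565) (nat_lit 532) (nat_lit 1912155629) (nat_lit 76) (nat_lit 1861420337) (nat_lit 189) (nat_lit 5) (nat_lit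 196) (nat_lit 5) (nat_lit 190) (nat_lit 5) (nat_lit 407) (nat_lit 357) (nat_lit 256)) (XT.nd (nat_lit 78) (nat_lit 456) (nat_lit 0) (XT.lf (nat_lit 0) (nat_lit 1346618289) (nat_lit 532) (nat_lit 3874521421) (nat_lit 76) (nat_lit 10852130002) (nat_lit 182) (nat_lit 5) (nat_lit 189) (nat_lit 5) (nat_lit 183) (nat_lit 5) (nat_lit 408) (nat_lit 357) (nat_lit 255)) (XT.lf (nat_lit 0) (nat_lit 6649516057) (nat_lit 532) (nat_lit 5918282573) (nat_lit 76) (nat_lit 3794737126) (nat_lit 176) (nat_lit 5) (nat_lit 183) (nat_lit 5) (nat_lit 177) (nat_lit 5) (nat_lit 409) (nat_lit 357) (nat_lit 254))))) (XT.nd (nat_lit 234) (nat_lit 836) (nat_lit 0) (XT.nd (nat_lit 78) (nat_lit 912) (nat_lit 0) (XT.lf (nat_lit 0) (nat_lit 8626838471) (nat_lit 380) (nat_lit 3576553317) (nat_lit 456) (nat_lit 4455253649) (nat_lit 171) (nat_lit 5) (nat_lit 176) (nat_lit 5) (nat_lit 177) (nat_lit 5) (nat_lit 410) (nat_lit 357) (nat_lit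 253)) (XT.nd (nat_lit 78) (nat_lit 380) (nat_lit 0) (XT.lf (nat_lit 0) (nat_lit 1044295514) (nat_lit 532) (nat_lit 10227583960) (nat_lit 76) (nat_lit 5689704672) (nat_lit 164) (nat_lit 5) (nat_lit 171) (nat_lit 5) (nat_lit 165) (nat_lit 5) (nat_lit 411) (nat_lit 357) (nat_lit 252)) (XT.lf (nat_lit 0) (nat_lit 4751998383) (nat_lit 380) (nat_lit 1981502336) (nat_lit 456) (nat_lit 10537820546) (nat_lit 159) (nat_lit 5) (nat_lit 164) (nat_lit 5) (nat_lit 165) (nat_lit 5) (nat_lit 412) (nat_lit 357) (nat_lit 251)))) (XT.nd (nat_lit 78) (nat_lit 456) (nat_lit 0) (XT.lf (nat_lit 0) (nat_lit 2681169584) (nat_lit 380) (nat_lit 10024355820) (nat_lit 456) (nat_lit 4882585345) (nat_lit 154) (nat_lit 5) (nat_lit 159) (nat_lit 5) (nat_lit 160) (nat_lit 5) (nat_lit 413) (nat_lit 357) (nat_lit 250)) (XT.nd (nat_lit 78) (nat_lit 0) (nat_lit 0) (XT.lf (nat_lit 0) (nat_lit 547581062) (nat_lit 380) (nat_lit 460593064)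 (nat_lit 456) (nat_lit 16904545883) (nat_lit 148) (nat_lit 5) (nat_lit 153) (nat_lit 5) (nat_lit 154) (nat_lit 5) (nat_lit 414) (nat_lit 357) (nat_lit 249)) (XT.lf (nat_lit 0) (nat_lit 7148762710) (nat_lit 456) (nat_lit 1705364488) (nat_lit 76) (nat_lit 9389508923) (nat_lit 148) (nat_lit 5) (nat_lit 154) (nat_lit 5) (nat_lit 149) (nat_lit 5) (nat_lit 415) (nat_lit 357) (nat_lit 248)))))) (XT.nd (nat_lit 390) (nat_lit 1672) (nat_lit 0) (XT.nd (nat_lit 156) (nat_lit 1140) (nat_lit 0) (XT.nd (nat_lit 78) (nat_lit 456) (nat_lit 0) (XT.lf (nat_lit 0) (nat_lit 13555078649) (nat_lit 456) (nat_lit 4012131693) (nat_lit 76) (nat_lit 1015641978) (nat_lit 143) (nat_lit 5) (nat_lit 149) (nat_lit 5) (nat_lit 144) (nat_lit 5) (nat_lit 416) (nat_lit 357) (nat_lit 247)) (XT.lf (nat_lit 0) (nat_lit 1335623982) (nat_lit 456) (nat_lit 6442008242) (nat_lit 76) (nat_lit 11151850789) (nat_lit 137) (nat_lit 5) (nat_lit 143)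 (nat_lit 5) (nat_lit 138) (nat_lit 5) (nat_lit 417) (nat_lit 357) (nat_lit 246))) (XT.nd (nat_lit 78) (nat_lit 760) (nat_lit 0) (XT.lf (nat_lit 0) (nat_lit 7909859860) (nat_lit 456) (nat_lit 8981920067) (nat_lit 76) (nat_lit 2392305733) (nat_lit 132) (nat_lit 5) (nat_lit 138) (nat_lit 5) (nat_lit 133) (nat_lit 5) (nat_lit 418) (nat_lit 357) (nat_lit 245)) (XT.nd (nat_lit 78) (nat_lit 456) (nat_lit 0) (XT.lf (nat_lit 0) (nat_lit 8006975176) (nat_lit 304) (nat_lit 6800395521) (nat_lit 380) (nat_lit 4839437242) (nat_lit 128) (nat_lit 5) (nat_lit 132) (nat_lit 5) (nat_lit 133) (nat_lit 5) (nat_lit 419) (nat_lit 357) (nat_lit 244)) (XT.lf (nat_lit 0) (nat_lit 1966817915) (nat_lit 456) (nat_lit 14405958037) (nat_lit 76) (nat_lit 3645388142) (nat_lit 122) (nat_lit 5) (nat_lit 128) (nat_lit 5) (nat_lit 123) (nat_lit 5) (nat_lit 420) (nat_lit 357) (nat_lit 243))))) (XT.nd (nat_lit 234) (nat_lit 988) (nat_lit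 0) (XT.nd (nat_lit 78) (nat_lit 380) (nat_lit 0) (XT.lf (nat_lit 0) (nat_lit 3070293702) (nat_lit 304) (nat_lit 5965118476) (nat_lit 380) (nat_lit 11362133292) (nat_lit 118) (nat_lit 5) (nat_lit 122) (nat_lit 5) (nat_lit 123) (nat_lit 5) (nat_lit 421) (nat_lit 357) (nat_lit 242)) (XT.nd (nat_lit 78) (nat_lit 76) (nat_lit 0) (XT.lf (nat_lit 0) (nat_lit 422232755) (nat_lit 304) (nat_lit 16004751775) (nat_lit 380) (nat_lit 4359107605) (nat_lit 114) (nat_lit 5) (nat_lit 118) (nat_lit 5) (nat_lit 119) (nat_lit 5) (nat_lit 422) (nat_lit 357) (nat_lit 241)) (XT.lf (nat_lit 0) (nat_lit 2953962252) (nat_lit 380) (nat_lit 2334955903) (nat_lit 76) (nat_lit 15894260902) (nat_lit 113) (nat_lit 5) (nat_lit 118) (nat_lit 5) (nat_lit 114) (nat_lit 5) (nat_lit 423) (nat_lit 357) (nat_lit 240)))) (XT.nd (nat_lit 78) (nat_lit 684) (nat_lit 0) (XT.lf (nat_lit 0) (nat_lit 10551987414) (nat_lit 380) (nat_lit 5239636127)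 (nat_lit 76) (nat_lit 5797485124) (nat_lit 109) (nat_lit 5) (nat_lit 114) (nat_lit 5) (nat_lit 110) (nat_lit 5) (nat_lit 424) (nat_lit 357) (nat_lit 239)) (XT.nd (nat_lit 78) (nat_lit 380) (nat_lit 0) (XT.lf (nat_lit 0) (nat_lit 13732101250) (nat_lit 304) (nat_lit 4766511472) (nat_lit 380) (nat_lit 3506192273) (nat_lit 105) (nat_lit 5) (nat_lit 109) (nat_lit 5) (nat_lit 110) (nat_lit 5) (nat_lit 425) (nat_lit 357) (nat_lit 238)) (XT.lf (nat_lit 0) (nat_lit 4326099213) (nat_lit 380) (nat_lit 11477182140) (nat_lit 76) (nat_lit 6626517164) (nat_lit 100) (nat_lit 5) (nat_lit 105) (nat_lit 5) (nat_lit 101) (nat_lit 5) (nat_lit 426) (nat_lit 357) (nat_lit 237))))))) (XT.nd (nat_lit 48438) (nat_lit 0) (nat_lit 26068) (XT.nd (nat_lit 47970) (nat_lit 0) (nat_lit 33820) (XT.nd (nat_lit 47736) (nat_lit 0) (nat_lit 35112) (XT.nd (nat_lit 78) (nat_lit 228) (nat_lit 0) (XT.lf (nat_lit 0) (nat_lit 8019442146) (nat_lit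 304) (nat_lit 4447661229) (nat_lit 380) (nat_lit 10397549233) (nat_lit 96) (nat_lit 5) (nat_lit 100) (nat_lit 5) (nat_lit 101) (nat_lit 5) (nat_lit 427) (nat_lit 357) (nat_lit 236)) (XT.lf (nat_lit 0) (nat_lit 4932844457) (nat_lit 228) (nat_lit 16057887044) (nat_lit 304) (nat_lit 2319054757) (nat_lit 93) (nat_lit 5) (nat_lit 96) (nat_lit 5) (nat_lit 97) (nat_lit 5) (nat_lit 428) (nat_lit 357) (nat_lit 235))) (XT.nd (nat_lit 78) (nat_lit 1368) (nat_lit 0) (XT.lf (nat_lit 0) (nat_lit 1522648862) (nat_lit 0) (nat_lit 1522648862) (nat_lit 1292) (nat_lit 866239555) (nat_lit 573) (nat_lit 5) (nat_lit 573) (nat_lit 3) (nat_lit 590) (nat_lit 3) (nat_lit 358) (nat_lit 358) (nat_lit 304)) (XT.nd (nat_lit 78) (nat_lit 0) (nat_lit 0) (XT.lf (nat_lit 0) (nat_lit 186679603) (nat_lit 1368) (nat_lit 6945433967) (nat_lit 1444) (nat_lit 769603438) (nat_lit 555) (nat_lit 5) (nat_lit 573) (nat_lit 5) (nat_lit 574) (nat_lit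 5) (nat_lit 359) (nat_lit 358) (nat_lit 303)) (XT.lf (nat_lit 0) (nat_lit 2118377978) (nat_lit 1368) (nat_lit 1126771170) (nat_lit 1444) (nat_lit 4737789635) (nat_lit 555) (nat_lit 5) (nat_lit 573) (nat_lit 5) (nat_lit 574) (nat_lit 5) (nat_lit 360) (nat_lit 358) (nat_lit 302))))) (XT.nd (nat_lit 234) (nat_lit 1368) (nat_lit 0) (XT.nd (nat_lit 78) (nat_lit 0) (nat_lit 0) (XT.lf (nat_lit 0) (nat_lit 4072722072) (nat_lit 1368) (nat_lit 3181299802) (nat_lit 1444) (nat_lit 813300022) (nat_lit 556) (nat_lit 5) (nat_lit 574) (nat_lit 5) (nat_lit 575) (nat_lit 5) (nat_lit 361) (nat_lit 358) (nat_lit 301)) (XT.nd (nat_lit 78) (nat_lit 0) (nat_lit 76) (XT.lf (nat_lit 76) (nat_lit 2916915364) (nat_lit 0) (nat_lit 3146760179) (nat_lit 1444) (nat_lit 2091019416) (nat_lit 557) (nat_lit 5) (nat_lit 556) (nat_lit 5) (nat_lit 575) (nat_lit 5) (nat_lit 362) (nat_lit 358) (nat_lit 300)) (XT.lf (nat_lit 76) (nat_lit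 961746179) (nat_lit 0) (nat_lit 7119226491) (nat_lit 1444) (nat_lit 164401757) (nat_lit 558) (nat_lit 5) (nat_lit 557) (nat_lit 5) (nat_lit 576) (nat_lit 5) (nat_lit 363) (nat_lit 358) (nat_lit 299)))) (XT.nd (nat_lit 78) (nat_lit 0) (nat_lit 76) (XT.lf (nat_lit 0) (nat_lit 1785821499) (nat_lit 1444) (nat_lit 993502355) (nat_lit 1520) (nat_lit 5559437220) (nat_lit 538) (nat_lit 5) (nat_lit 557) (nat_lit 5) (nat_lit 558) (nat_lit 5) (nat_lit 364) (nat_lit 358) (nat_lit 298)) (XT.nd (nat_lit 78) (nat_lit 0) (nat_lit 0) (XT.lf (nat_lit 0) (nat_lit 3774391452) (nat_lit 1444) (nat_lit 2930430019) (nat_lit 1520) (nat_lit 1730480829) (nat_lit 539) (nat_lit 5) (nat_lit 558) (nat_lit 5) (nat_lit 559) (nat_lit 5) (nat_lit 365) (nat_lit 358) (nat_lit 297)) (XT.lf (nat_lit 76) (nat_lit 3665753831) (nat_lit 0) (nat_lit 2142685446) (nat_lit 1520) (nat_lit 2726599784) (nat_lit 540) (nat_lit 5) (nat_lit 539) (nat_lit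 5) (nat_lit 559) (nat_lit 5) (nat_lit 366) (nat_lit 358) (nat_lit 296)))))) (XT.nd (nat_lit 390) (nat_lit 6384) (nat_lit 0) (XT.nd (nat_lit 156) (nat_lit 0) (nat_lit 76) (XT.nd (nat_lit 78) (nat_lit 1520) (nat_lit 0) (XT.lf (nat_lit 76) (nat_lit 1828201734) (nat_lit 0) (nat_lit 6062143492) (nat_lit 1520) (nat_lit 747701219) (nat_lit 541) (nat_lit 5) (nat_lit 540) (nat_lit 5) (nat_lit 560) (nat_lit 5) (nat_lit 367) (nat_lit 358) (nat_lit 295)) (XT.lf (nat_lit 0) (nat_lit 1260678603) (nat_lit 1520) (nat_lit 14900841) (nat_lit 1596) (nat_lit 7468670737) (nat_lit 520) (nat_lit 5) (nat_lit 540) (nat_lit 5) (nat_lit 541) (nat_lit 5) (nat_lit 368) (nat_lit 358) (nat_lit 294))) (XT.nd (nat_lit 78) (nat_lit 0) (nat_lit 0) (XT.lf (nat_lit 0) (nat_lit 3330297107) (nat_lit 1520) (nat_lit 1847437971) (nat_lit 1596) (nat_lit 3675597290) (nat_lit 521) (nat_lit 5) (nat_lit 541) (nat_lit 5) (nat_lit 542) (nat_lit 5)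 (nat_lit 369) (nat_lit 358) (nat_lit 293)) (XT.nd (nat_lit 78) (nat_lit 0) (nat_lit 76) (XT.lf (nat_lit 76) (nat_lit 5291547623) (nat_lit 0) (nat_lit 156268871) (nat_lit 1596) (nat_lit 3518167966) (nat_lit 522) (nat_lit 5) (nat_lit 521) (nat_lit 5) (nat_lit 542) (nat_lit 5) (nat_lit 370) (nat_lit 358) (nat_lit 292)) (XT.lf (nat_lit 76) (nat_lit 3560559623) (nat_lit 0) (nat_lit 4080913053) (nat_lit 1596) (nat_lit 1440304503) (nat_lit 523) (nat_lit 5) (nat_lit 522) (nat_lit 5) (nat_lit 543) (nat_lit 5) (nat_lit 371) (nat_lit 358) (nat_lit 291))))) (XT.nd (nat_lit 234) (nat_lit 5016) (nat_lit 0) (XT.nd (nat_lit 78) (nat_lit 0) (nat_lit 0) (XT.lf (nat_lit 0) (nat_lit 681635935) (nat_lit 1596) (nat_lit 7369917362) (nat_lit 1672) (nat_lit 1149593741) (nat_lit 502) (nat_lit 5) (nat_lit 523) (nat_lit 5) (nat_lit 524) (nat_lit 5) (nat_lit 372) (nat_lit 358) (nat_lit 290)) (XT.nd (nat_lit 78) (nat_lit 0) (nat_lit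 76) (XT.lf (nat_lit 76) (nat_lit 78071300) (nat_lit 0) (nat_lit 2781880028) (nat_lit 1672) (nat_lit 6463722840) (nat_lit 503) (nat_lit 5) (nat_lit 502) (nat_lit 5) (nat_lit 524) (nat_lit 5) (nat_lit 373) (nat_lit 358) (nat_lit 289)) (XT.lf (nat_lit 0) (nat_lit 5119130699) (nat_lit 1596) (nat_lit 1658699701) (nat_lit 76) (nat_lit 2671748342) (nat_lit 503) (nat_lit 5) (nat_lit 524) (nat_lit 5) (nat_lit 504) (nat_lit 5) (nat_lit 374) (nat_lit 358) (nat_lit 288)))) (XT.nd (nat_lit 78) (nat_lit 3496) (nat_lit 0) (XT.lf (nat_lit 0) (nat_lit 6176767715) (nat_lit 1596) (nat_lit 1277601835) (nat_lit 1672) (nat_lit 2124736798) (nat_lit 482) (nat_lit 5) (nat_lit 503) (nat_lit 5) (nat_lit 504) (nat_lit 5) (nat_lit 375) (nat_lit 358) (nat_lit 287)) (XT.nd (nat_lit 78) (nat_lit 1748) (nat_lit 0) (XT.lf (nat_lit 0) (nat_lit 165497408) (nat_lit 1748) (nat_lit 5166262252) (nat_lit 76) (nat_lit 4380346402) (nat_lit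 459) (nat_lit 5) (nat_lit 482) (nat_lit 5) (nat_lit 460) (nat_lit 5) (nat_lit 376) (nat_lit 358) (nat_lit 286)) (XT.lf (nat_lit 0) (nat_lit 2500647733) (nat_lit 1824) (nat_lit 6947625389) (nat_lit 76) (nat_lit 400450931) (nat_lit 436) (nat_lit 5) (nat_lit 460) (nat_lit 5) (nat_lit 437) (nat_lit 5) (nat_lit 377) (nat_lit 358) (nat_lit 285))))))))
noncomputable def xc77 : XT := (XT.nd (nat_lit 1716) (nat_lit 8816) (nat_lit 0) (XT.nd (nat_lit 858) (nat_lit 6688) (nat_lit 0) (XT.nd (nat_lit 390) (nat_lit 4104) (nat_lit 0) (XT.nd (nat_lit 156) (nat_lit 2812) (nat_lit 0) (XT.nd (nat_lit 78) (nat_lit 0) (nat_lit 0) (XT.lf (nat_lit 0) (nat_lit 1230592050) (nat_lit 1444) (nat_lit 3706997890) (nat_lit 1520) (nat_lit 5051226284) (nat_lit 417) (nat_lit 5) (nat_lit 436) (nat_lit 5) (nat_lit 437) (nat_lit 5) (nat_lit 378) (nat_lit 358) (nat_lit 284)) (XT.lf (nat_lit 0) (nat_lit 7463343490) (nat_lit 1520) (nat_lit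 439945231) (nat_lit 76) (nat_lit 2229518457) (nat_lit 417) (nat_lit 5) (nat_lit 437) (nat_lit 5) (nat_lit 418) (nat_lit 5) (nat_lit 379) (nat_lit 358) (nat_lit 283))) (XT.nd (nat_lit 78) (nat_lit 1900) (nat_lit 0) (XT.lf (nat_lit 0) (nat_lit 8169071436) (nat_lit 912) (nat_lit 1928953623) (nat_lit 988) (nat_lit 182439484) (nat_lit 405) (nat_lit 5) (nat_lit 417) (nat_lit 5) (nat_lit 418) (nat_lit 5) (nat_lit 380) (nat_lit 358) (nat_lit 282)) (XT.nd (nat_lit 78) (nat_lit 912) (nat_lit 0) (XT.lf (nat_lit 0) (nat_lit 2378028032) (nat_lit 988) (nat_lit 3819636143) (nat_lit 76) (nat_lit 4233987101) (nat_lit 392) (nat_lit 5) (nat_lit 405) (nat_lit 5) (nat_lit 393) (nat_lit 5) (nat_lit 381) (nat_lit 358) (nat_lit 281)) (XT.lf (nat_lit 0) (nat_lit 5030159513) (nat_lit 988) (nat_lit 5537491773) (nat_lit 76) (nat_lit 19360682) (nat_lit 380) (nat_lit 5) (nat_lit 393) (nat_lit 5) (nat_lit 381) (nat_lit 5) (nat_lit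 382) (nat_lit 358) (nat_lit 280))))) (XT.nd (nat_lit 234) (nat_lit 1596) (nat_lit 0) (XT.nd (nat_lit 78) (nat_lit 1672) (nat_lit 0) (XT.lf (nat_lit 0) (nat_lit 3452697029) (nat_lit 836) (nat_lit 4357169573) (nat_lit 912) (nat_lit 2936215427) (nat_lit 369) (nat_lit 5) (nat_lit 380) (nat_lit 5) (nat_lit 381) (nat_lit 5) (nat_lit 383) (nat_lit 358) (nat_lit 279)) (XT.nd (nat_lit 78) (nat_lit 836) (nat_lit 0) (XT.lf (nat_lit 0) (nat_lit 1848323502) (nat_lit 836) (nat_lit 8846706793) (nat_lit 912) (nat_lit 214461116) (nat_lit 358) (nat_lit 5) (nat_lit 369) (nat_lit 5) (nat_lit 370) (nat_lit 5) (nat_lit 384) (nat_lit 358) (nat_lit 278)) (XT.lf (nat_lit 0) (nat_lit 202167966) (nat_lit 760) (nat_lit 2392727335) (nat_lit 836) (nat_lit 8481781626) (nat_lit 347) (nat_lit 5) (nat_lit 357) (nat_lit 5) (nat_lit 358) (nat_lit 5) (nat_lit 385) (nat_lit 358) (nat_lit 277)))) (XT.nd (nat_lit 78) (nat_lit 1596) (nat_lit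 0) (XT.lf (nat_lit 0) (nat_lit 5535671345) (nat_lit 836) (nat_lit 1451304780) (nat_lit 76) (nat_lit 4260880360) (nat_lit 347) (nat_lit 5) (nat_lit 358) (nat_lit 5) (nat_lit 348) (nat_lit 5) (nat_lit 386) (nat_lit 358) (nat_lit 276)) (XT.nd (nat_lit 78) (nat_lit 836) (nat_lit 0) (XT.lf (nat_lit 0) (nat_lit 8307133029) (nat_lit 760) (nat_lit 289224378) (nat_lit 836) (nat_lit 2827187939) (nat_lit 337) (nat_lit 5) (nat_lit 347) (nat_lit 5) (nat_lit 348) (nat_lit 5) (nat_lit 387) (nat_lit 358) (nat_lit 275)) (XT.lf (nat_lit 0) (nat_lit 202271245) (nat_lit 836) (nat_lit 4825334461) (nat_lit 76) (nat_lit 6575691593) (nat_lit 326) (nat_lit 5) (nat_lit 337) (nat_lit 5) (nat_lit 327) (nat_lit 5) (nat_lit 388) (nat_lit 358) (nat_lit 274)))))) (XT.nd (nat_lit 390) (nat_lit 3800) (nat_lit 0) (XT.nd (nat_lit 156) (nat_lit 1444) (nat_lit 0) (XT.nd (nat_lit 78) (nat_lit 684) (nat_lit 0) (XT.lf (nat_lit 0) (nat_lit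 3317257769) (nat_lit 836) (nat_lit 6569072139) (nat_lit 76) (nat_lit 1901084140) (nat_lit 316) (nat_lit 5) (nat_lit 327) (nat_lit 5) (nat_lit 317) (nat_lit 5) (nat_lit 389) (nat_lit 358) (nat_lit 273)) (XT.lf (nat_lit 0) (nat_lit 3626315989) (nat_lit 684) (nat_lit 2953422213) (nat_lit 760) (nat_lit 5396242075) (nat_lit 307) (nat_lit 5) (nat_lit 316) (nat_lit 5) (nat_lit 317) (nat_lit 5) (nat_lit 390) (nat_lit 358) (nat_lit 272))) (XT.nd (nat_lit 78) (nat_lit 760) (nat_lit 0) (XT.lf (nat_lit 0) (nat_lit 2006594375) (nat_lit 684) (nat_lit 7983249625) (nat_lit 760) (nat_lit 2179371137) (nat_lit 298) (nat_lit 5) (nat_lit 307) (nat_lit 5) (nat_lit 308) (nat_lit 5) (nat_lit 391) (nat_lit 358) (nat_lit 271)) (XT.nd (nat_lit 78) (nat_lit 0) (nat_lit 0) (XT.lf (nat_lit 0) (nat_lit 357696602) (nat_lit 684) (nat_lit 805724989) (nat_lit 760) (nat_lit 11203798773) (nat_lit 288) (nat_lit 5) (nat_lit 297) (nat_lit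 5) (nat_lit 298) (nat_lit 5) (nat_lit 392) (nat_lit 358) (nat_lit 270)) (XT.lf (nat_lit 0) (nat_lit 4655126037) (nat_lit 760) (nat_lit 1335076143) (nat_lit 76) (nat_lit 6579116873) (nat_lit 288) (nat_lit 5) (nat_lit 298) (nat_lit 5) (nat_lit 289) (nat_lit 5) (nat_lit 393) (nat_lit 358) (nat_lit 269))))) (XT.nd (nat_lit 234) (nat_lit 1824) (nat_lit 0) (XT.nd (nat_lit 78) (nat_lit 1292) (nat_lit 0) (XT.lf (nat_lit 0) (nat_lit 8296649228) (nat_lit 760) (nat_lit 3043277688) (nat_lit 76) (nat_lit 1436658413) (nat_lit 279) (nat_lit 5) (nat_lit 289) (nat_lit 5) (nat_lit 280) (nat_lit 5) (nat_lit 394) (nat_lit 358) (nat_lit 268)) (XT.nd (nat_lit 78) (nat_lit 684) (nat_lit 0) (XT.lf (nat_lit 0) (nat_lit 8190400694) (nat_lit 608) (nat_lit 3927003900) (nat_lit 684) (nat_lit 871271073) (nat_lit 271) (nat_lit 5) (nat_lit 279) (nat_lit 5) (nat_lit 280) (nat_lit 5) (nat_lit 395) (nat_lit 358) (nat_lit 267)) (XT.lf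 (nat_lit 0) (nat_lit 2864805814) (nat_lit 684) (nat_lit 6605215003) (nat_lit 76) (nat_lit 3735614443) (nat_lit 262) (nat_lit 5) (nat_lit 271) (nat_lit 5) (nat_lit 263) (nat_lit 5) (nat_lit 396) (nat_lit 358) (nat_lit 266)))) (XT.nd (nat_lit 78) (nat_lit 1216) (nat_lit 0) (XT.lf (nat_lit 0) (nat_lit 4972435512) (nat_lit 608) (nat_lit 1788791767) (nat_lit 684) (nat_lit 6666564556) (nat_lit 254) (nat_lit 5) (nat_lit 262) (nat_lit 5) (nat_lit 263) (nat_lit 5) (nat_lit 397) (nat_lit 358) (nat_lit 265)) (XT.nd (nat_lit 78) (nat_lit 608) (nat_lit 0) (XT.lf (nat_lit 0) (nat_lit 3296579416) (nat_lit 608) (nat_lit 7553543986) (nat_lit 684) (nat_lit 2804983271) (nat_lit 246) (nat_lit 5) (nat_lit 254) (nat_lit 5) (nat_lit 255) (nat_lit 5) (nat_lit 398) (nat_lit 358) (nat_lit 264)) (XT.lf (nat_lit 0) (nat_lit 1209342956) (nat_lit 608) (nat_lit 12299457350) (nat_lit 76) (nat_lit 379247876) (nat_lit 238) (nat_lit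 5) (nat_lit 246) (nat_lit 5) (nat_lit 239) (nat_lit 5) (nat_lit 399) (nat_lit 358) (nat_lit 263))))))) (XT.nd (nat_lit 858) (nat_lit 4104) (nat_lit 0) (XT.nd (nat_lit 390) (nat_lit 2508) (nat_lit 0) (XT.nd (nat_lit 156) (nat_lit 1596) (nat_lit 0) (XT.nd (nat_lit 78) (nat_lit 608) (nat_lit 0) (XT.lf (nat_lit 0) (nat_lit 5397768848) (nat_lit 608) (nat_lit 198811312) (nat_lit 76) (nat_lit 8529196197) (nat_lit 238) (nat_lit 5) (nat_lit 246) (nat_lit 5) (nat_lit 239) (nat_lit 5) (nat_lit 400) (nat_lit 358) (nat_lit 262)) (XT.lf (nat_lit 0) (nat_lit 9780597473) (nat_lit 684) (nat_lit 1996601374) (nat_lit 76) (nat_lit 2592067204) (nat_lit 230) (nat_lit 5) (nat_lit 239) (nat_lit 5) (nat_lit 231) (nat_lit 5) (nat_lit 401) (nat_lit 358) (nat_lit 261))) (XT.nd (nat_lit 78) (nat_lit 1064) (nat_lit 0) (XT.lf (nat_lit 0) (nat_lit 10770595208) (nat_lit 532) (nat_lit 3604824600) (nat_lit 608) (nat_lit 243034988) (nat_lit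 223) (nat_lit 5) (nat_lit 230) (nat_lit 5) (nat_lit 231) (nat_lit 5) (nat_lit 402) (nat_lit 358) (nat_lit 260)) (XT.nd (nat_lit 78) (nat_lit 456) (nat_lit 0) (XT.lf (nat_lit 0) (nat_lit 4254383996) (nat_lit 608) (nat_lit 5777057822) (nat_lit 76) (nat_lit 4841593388) (nat_lit 215) (nat_lit 5) (nat_lit 223) (nat_lit 5) (nat_lit 216) (nat_lit 5) (nat_lit 403) (nat_lit 358) (nat_lit 259)) (XT.lf (nat_lit 0) (nat_lit 7380094037) (nat_lit 456) (nat_lit 1574326077) (nat_lit 532) (nat_lit 6179385047) (nat_lit 209) (nat_lit 5) (nat_lit 215) (nat_lit 5) (nat_lit 216) (nat_lit 5) (nat_lit 404) (nat_lit 358) (nat_lit 258))))) (XT.nd (nat_lit 234) (nat_lit 988) (nat_lit 0) (XT.nd (nat_lit 78) (nat_lit 988) (nat_lit 0) (XT.lf (nat_lit 0) (nat_lit 5599528017) (nat_lit 532) (nat_lit 8291231233) (nat_lit 608) (nat_lit 1509736995) (nat_lit 202) (nat_lit 5) (nat_lit 209) (nat_lit 5) (nat_lit 210) (nat_lit 5) (nat_lit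 405) (nat_lit 358) (nat_lit 257)) (XT.nd (nat_lit 78) (nat_lit 456) (nat_lit 0) (XT.lf (nat_lit 0) (nat_lit 3321069372) (nat_lit 532) (nat_lit 11910489766) (nat_lit 76) (nat_lit 441917304) (nat_lit 195) (nat_lit 5) (nat_lit 202) (nat_lit 5) (nat_lit 196) (nat_lit 5) (nat_lit 406) (nat_lit 358) (nat_lit 256)) (XT.lf (nat_lit 0) (nat_lit 1836439122) (nat_lit 456) (nat_lit 6548235495) (nat_lit 532) (nat_lit 7567607880) (nat_lit 189) (nat_lit 5) (nat_lit 195) (nat_lit 5) (nat_lit 196) (nat_lit 5) (nat_lit 407) (nat_lit 358) (nat_lit 255)))) (XT.nd (nat_lit 78) (nat_lit 988) (nat_lit 0) (XT.lf (nat_lit 0) (nat_lit 13671486462) (nat_lit 532) (nat_lit 131335994) (nat_lit 76) (nat_lit 2435207959) (nat_lit 189) (nat_lit 5) (nat_lit 196) (nat_lit 5) (nat_lit 190) (nat_lit 5) (nat_lit 408) (nat_lit 358) (nat_lit 254)) (XT.nd (nat_lit 78) (nat_lit 456) (nat_lit 0) (XT.lf (nat_lit 0) (nat_lit 2663810550) (nat_lit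 532) (nat_lit 2165250794) (nat_lit 76) (nat_lit 11700694181) (nat_lit 182) (nat_lit 5) (nat_lit 189) (nat_lit 5) (nat_lit 183) (nat_lit 5) (nat_lit 409) (nat_lit 358) (nat_lit 253)) (XT.lf (nat_lit 0) (nat_lit 8103803251) (nat_lit 532) (nat_lit 4278280930) (nat_lit 76) (nat_lit 4446060347) (nat_lit 176) (nat_lit 5) (nat_lit 183) (nat_lit 5) (nat_lit 177) (nat_lit 5) (nat_lit 410) (nat_lit 358) (nat_lit 252)))))) (XT.nd (nat_lit 390) (nat_lit 1976) (nat_lit 0) (XT.nd (nat_lit 156) (nat_lit 1216) (nat_lit 0) (XT.nd (nat_lit 78) (nat_lit 532) (nat_lit 0) (XT.lf (nat_lit 0) (nat_lit 10673706153) (nat_lit 380) (nat_lit 3125650765) (nat_lit 456) (nat_lit 3334284335) (nat_lit 171) (nat_lit 5) (nat_lit 176) (nat_lit 5) (nat_lit 177) (nat_lit 5) (nat_lit 411) (nat_lit 358) (nat_lit 251)) (XT.lf (nat_lit 0) (nat_lit 2292907812) (nat_lit 532) (nat_lit 8738226428) (nat_lit 76) (nat_lit 6414793492) (nat_lit 164)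 (nat_lit 5) (nat_lit 171) (nat_lit 5) (nat_lit 165) (nat_lit 5) (nat_lit 412) (nat_lit 358) (nat_lit 250))) (XT.nd (nat_lit 78) (nat_lit 836) (nat_lit 0) (XT.lf (nat_lit 0) (nat_lit 6661602417) (nat_lit 380) (nat_lit 1467204720) (nat_lit 456) (nat_lit 9636634077) (nat_lit 159) (nat_lit 5) (nat_lit 164) (nat_lit 5) (nat_lit 165) (nat_lit 5) (nat_lit 413) (nat_lit 358) (nat_lit 249)) (XT.nd (nat_lit 78) (nat_lit 456) (nat_lit 0) (XT.lf (nat_lit 0) (nat_lit 4519945878) (nat_lit 380) (nat_lit 9740323271) (nat_lit 456) (nat_lit 3831864178) (nat_lit 154) (nat_lit 5) (nat_lit 159) (nat_lit 5) (nat_lit 160) (nat_lit 5) (nat_lit 414) (nat_lit 358) (nat_lit 248)) (XT.lf (nat_lit 0) (nat_lit 2197567310) (nat_lit 456) (nat_lit 16118108864) (nat_lit 76) (nat_lit 111100476) (nat_lit 148) (nat_lit 5) (nat_lit 154) (nat_lit 5) (nat_lit 149) (nat_lit 5) (nat_lit 415) (nat_lit 358) (nat_lit 247))))) (XT.nd (nat_lit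 234) (nat_lit 1140) (nat_lit 0) (XT.nd (nat_lit 78) (nat_lit 836) (nat_lit 0) (XT.lf (nat_lit 0) (nat_lit 8491602435) (nat_lit 456) (nat_lit 43026333) (nat_lit 76) (nat_lit 10233611035) (nat_lit 148) (nat_lit 5) (nat_lit 154) (nat_lit 5) (nat_lit 149) (nat_lit 5) (nat_lit 416) (nat_lit 358) (nat_lit 246)) (XT.nd (nat_lit 78) (nat_lit 456) (nat_lit 0) (XT.lf (nat_lit 0) (nat_lit 15071948020) (nat_lit 456) (nat_lit 2428293902) (nat_lit 76) (nat_lit 1617757779) (nat_lit 143) (nat_lit 5) (nat_lit 149) (nat_lit 5) (nat_lit 144) (nat_lit 5) (nat_lit 417) (nat_lit 358) (nat_lit 245)) (XT.lf (nat_lit 0) (nat_lit 2471797206) (nat_lit 456) (nat_lit 4944021342) (nat_lit 76) (nat_lit 12059499463) (nat_lit 137) (nat_lit 5) (nat_lit 143) (nat_lit 5) (nat_lit 138) (nat_lit 5) (nat_lit 418) (nat_lit 358) (nat_lit 244)))) (XT.nd (nat_lit 78) (nat_lit 760) (nat_lit 0) (XT.lf (nat_lit 0) (nat_lit 9225960391) (nat_lit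 456) (nat_lit 7569768727) (nat_lit 76) (nat_lit 3045179325) (nat_lit 132) (nat_lit 5) (nat_lit 138) (nat_lit 5) (nat_lit 133) (nat_lit 5) (nat_lit 419) (nat_lit 358) (nat_lit 243)) (XT.nd (nat_lit 78) (nat_lit 456) (nat_lit 0) (XT.lf (nat_lit 0) (nat_lit 9901511265) (nat_lit 304) (nat_lit 6408204779) (nat_lit 380) (nat_lit 3905213561) (nat_lit 128) (nat_lit 5) (nat_lit 132) (nat_lit 5) (nat_lit 133) (nat_lit 5) (nat_lit 420) (nat_lit 358) (nat_lit 242)) (XT.lf (nat_lit 0) (nat_lit 3074577674) (nat_lit 456) (nat_lit 13179468575) (nat_lit 76) (nat_lit 4343573359) (nat_lit 122) (nat_lit 5) (nat_lit 128) (nat_lit 5) (nat_lit 123) (nat_lit 5) (nat_lit 421) (nat_lit 358) (nat_lit 241))))))))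
noncomputable def xc78 : XT := (XT.nd (nat_lit 49374) (nat_lit 0) (nat_lit 13908) (XT.nd (nat_lit 48516) (nat_lit 0) (nat_lit 30780) (XT.nd (nat_lit 390) (nat_lit 684) (nat_lit 0) (XT.nd (nat_lit 156) (nat_lit 684) (nat_lit 0) (XT.nd (nat_lit 78) (nat_lit 304) (nat_lit 0) (XT.lf (nat_lit 0) (nat_lit 4794160796) (nat_lit 304) (nat_lit 5541117158) (nat_lit 380) (nat_lit 10653506837) (nat_lit 118) (nat_lit 5) (nat_lit 122) (nat_lit 5) (nat_lit 123) (nat_lit 5) (nat_lit 422) (nat_lit 358) (nat_lit 240)) (XT.lf (nat_lit 0) (nat_lit 2056684831) (nat_lit 304) (nat_lit 15876277961) (nat_lit 380) (nat_lit 3456340989) (nat_lit 114) (nat_lit 5) (nat_lit 118) (nat_lit 5) (nat_lit 119) (nat_lit 5) (nat_lit 423) (nat_lit 358) (nat_lit 239))) (XT.nd (nat_lit 78) (nat_lit 608) (nat_lit 0) (XT.lf (nat_lit 0) (nat_lit 4032857608) (nat_lit 380) (nat_lit 817193138) (nat_lit 76) (nat_lit 16948715598) (nat_lit 113) (nat_lit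 5) (nat_lit 118) (nat_lit 5) (nat_lit 114) (nat_lit 5) (nat_lit 424) (nat_lit 358) (nat_lit 238)) (XT.nd (nat_lit 78) (nat_lit 304) (nat_lit 0) (XT.lf (nat_lit 0) (nat_lit 11843956152) (nat_lit 380) (nat_lit 3819076810) (nat_lit 76) (nat_lit 6554141214) (nat_lit 109) (nat_lit 5) (nat_lit 114) (nat_lit 5) (nat_lit 110) (nat_lit 5) (nat_lit 425) (nat_lit 358) (nat_lit 237)) (XT.lf (nat_lit 0) (nat_lit 15696215596) (nat_lit 304) (nat_lit 4314432246) (nat_lit 380) (nat_lit 2635063101) (nat_lit 105) (nat_lit 5) (nat_lit 109) (nat_lit 5) (nat_lit 110) (nat_lit 5) (nat_lit 426) (nat_lit 358) (nat_lit 236))))) (XT.nd (nat_lit 47892) (nat_lit 0) (nat_lit 34808) (XT.nd (nat_lit 78) (nat_lit 304) (nat_lit 0) (XT.lf (nat_lit 0) (nat_lit 5405183709) (nat_lit 380) (nat_lit 10266695230) (nat_lit 76) (nat_lit 7411735492) (nat_lit 100) (nat_lit 5) (nat_lit 105) (nat_lit 5) (nat_lit 101) (nat_lit 5) (nat_lit 427) (nat_lit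 358) (nat_lit 235)) (XT.nd (nat_lit 47736) (nat_lit 0) (nat_lit 34808) (XT.lf (nat_lit 0) (nat_lit 9789602963) (nat_lit 304) (nat_lit 3983096506) (nat_lit 380) (nat_lit 9759171726) (nat_lit 96) (nat_lit 5) (nat_lit 100) (nat_lit 5) (nat_lit 101) (nat_lit 5) (nat_lit 428) (nat_lit 358) (nat_lit 234)) (XT.lf (nat_lit 0) (nat_lit 1011885170) (nat_lit 1444) (nat_lit 1489390124) (nat_lit 1444) (nat_lit 1489390124) (nat_lit 554) (nat_lit 3) (nat_lit 573) (nat_lit 3) (nat_lit 573) (nat_lit 5) (nat_lit 359) (nat_lit 359) (nat_lit 302)))) (XT.nd (nat_lit 78) (nat_lit 0) (nat_lit 76) (XT.lf (nat_lit 76) (nat_lit 2889710917) (nat_lit 0) (nat_lit 984269202) (nat_lit 1444) (nat_lit 4190211420) (nat_lit 555) (nat_lit 5) (nat_lit 554) (nat_lit 3) (nat_lit 573) (nat_lit 5) (nat_lit 360) (nat_lit 359) (nat_lit 301)) (XT.nd (nat_lit 78) (nat_lit 0) (nat_lit 0) (XT.lf (nat_lit 76) (nat_lit 777493428) (nat_lit 0) (nat_lit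 4977745639) (nat_lit 1444) (nat_lit 2394806174) (nat_lit 556) (nat_lit 5) (nat_lit 555) (nat_lit 5) (nat_lit 574) (nat_lit 5) (nat_lit 361) (nat_lit 359) (nat_lit 300)) (XT.lf (nat_lit 76) (nat_lit 6934817514) (nat_lit 0) (nat_lit 731220777) (nat_lit 1444) (nat_lit 572991725) (nat_lit 556) (nat_lit 5) (nat_lit 555) (nat_lit 5) (nat_lit 574) (nat_lit 5) (nat_lit 362) (nat_lit 359) (nat_lit 299)))))) (XT.nd (nat_lit 390) (nat_lit 1368) (nat_lit 0) (XT.nd (nat_lit 156) (nat_lit 1368) (nat_lit 0) (XT.nd (nat_lit 78) (nat_lit 0) (nat_lit 0) (XT.lf (nat_lit 0) (nat_lit 1275773431) (nat_lit 1444) (nat_lit 3389687253) (nat_lit 1520) (nat_lit 3665283227) (nat_lit 537) (nat_lit 5) (nat_lit 556) (nat_lit 5) (nat_lit 557) (nat_lit 5) (nat_lit 363) (nat_lit 359) (nat_lit 298)) (XT.lf (nat_lit 76) (nat_lit 2958432977) (nat_lit 0) (nat_lit 181759172) (nat_lit 1520) (nat_lit 5285598002) (nat_lit 538) (nat_lit 5) (nat_lit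 537) (nat_lit 5) (nat_lit 557) (nat_lit 5) (nat_lit 364) (nat_lit 359) (nat_lit 297))) (XT.nd (nat_lit 78) (nat_lit 1444) (nat_lit 0) (XT.lf (nat_lit 76) (nat_lit 964940755) (nat_lit 0) (nat_lit 4090550536) (nat_lit 1520) (nat_lit 3468313242) (nat_lit 539) (nat_lit 5) (nat_lit 538) (nat_lit 5) (nat_lit 558) (nat_lit 5) (nat_lit 365) (nat_lit 359) (nat_lit 296)) (XT.nd (nat_lit 78) (nat_lit 1520) (nat_lit 0) (XT.lf (nat_lit 0) (nat_lit 7008885352) (nat_lit 1444) (nat_lit 1003751823) (nat_lit 1520) (nat_lit 612524709) (nat_lit 539) (nat_lit 5) (nat_lit 558) (nat_lit 5) (nat_lit 559) (nat_lit 5) (nat_lit 366) (nat_lit 359) (nat_lit 295)) (XT.lf (nat_lit 0) (nat_lit 292549930) (nat_lit 1520) (nat_lit 2973765626) (nat_lit 1596) (nat_lit 5463120102) (nat_lit 519) (nat_lit 5) (nat_lit 539) (nat_lit 5) (nat_lit 540) (nat_lit 5) (nat_lit 367) (nat_lit 359) (nat_lit 294))))) (XT.nd (nat_lit 234) (nat_lit 1444)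 (nat_lit 0) (XT.nd (nat_lit 78) (nat_lit 0) (nat_lit 0) (XT.lf (nat_lit 0) (nat_lit 2221286210) (nat_lit 1520) (nat_lit 4951656154) (nat_lit 1596) (nat_lit 1664003629) (nat_lit 520) (nat_lit 5) (nat_lit 540) (nat_lit 5) (nat_lit 541) (nat_lit 5) (nat_lit 368) (nat_lit 359) (nat_lit 293)) (XT.nd (nat_lit 78) (nat_lit 0) (nat_lit 76) (XT.lf (nat_lit 76) (nat_lit 2008551629) (nat_lit 0) (nat_lit 2197471718) (nat_lit 1596) (nat_lit 4741709203) (nat_lit 521) (nat_lit 5) (nat_lit 520) (nat_lit 5) (nat_lit 541) (nat_lit 5) (nat_lit 369) (nat_lit 359) (nat_lit 292)) (XT.lf (nat_lit 76) (nat_lit 126651428) (nat_lit 0) (nat_lit 6121744808) (nat_lit 1596) (nat_lit 2813497882) (nat_lit 522) (nat_lit 5) (nat_lit 521) (nat_lit 5) (nat_lit 542) (nat_lit 5) (nat_lit 370) (nat_lit 359) (nat_lit 291)))) (XT.nd (nat_lit 78) (nat_lit 1520) (nat_lit 0) (XT.lf (nat_lit 76) (nat_lit 7445246053) (nat_lit 0) (nat_lit 914266140)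 (nat_lit 1596) (nat_lit 819831805) (nat_lit 522) (nat_lit 5) (nat_lit 521) (nat_lit 5) (nat_lit 542) (nat_lit 5) (nat_lit 371) (nat_lit 359) (nat_lit 290)) (XT.nd (nat_lit 78) (nat_lit 0) (nat_lit 76) (XT.lf (nat_lit 0) (nat_lit 1230891218) (nat_lit 1596) (nat_lit 3618668911) (nat_lit 1672) (nat_lit 4450340802) (nat_lit 501) (nat_lit 5) (nat_lit 522) (nat_lit 5) (nat_lit 523) (nat_lit 5) (nat_lit 372) (nat_lit 359) (nat_lit 289)) (XT.lf (nat_lit 0) (nat_lit 3327763860) (nat_lit 1596) (nat_lit 5508737619) (nat_lit 1672) (nat_lit 587561309) (nat_lit 502) (nat_lit 5) (nat_lit 523) (nat_lit 5) (nat_lit 524) (nat_lit 5) (nat_lit 373) (nat_lit 359) (nat_lit 288))))))) (XT.nd (nat_lit 858) (nat_lit 6840) (nat_lit 0) (XT.nd (nat_lit 390) (nat_lit 5092) (nat_lit 0) (XT.nd (nat_lit 156) (nat_lit 3496) (nat_lit 0) (XT.nd (nat_lit 78) (nat_lit 1520) (nat_lit 0) (XT.lf (nat_lit 76) (nat_lit 2128908229) (nat_lit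 0) (nat_lit 3379344590) (nat_lit 1672) (nat_lit 4043294054) (nat_lit 503) (nat_lit 5) (nat_lit 502) (nat_lit 5) (nat_lit 524) (nat_lit 5) (nat_lit 374) (nat_lit 359) (nat_lit 287)) (XT.lf (nat_lit 0) (nat_lit 338374815) (nat_lit 1596) (nat_lit 7421153622) (nat_lit 1672) (nat_lit 1923230841) (nat_lit 482) (nat_lit 5) (nat_lit 503) (nat_lit 5) (nat_lit 504) (nat_lit 5) (nat_lit 375) (nat_lit 359) (nat_lit 286))) (XT.nd (nat_lit 78) (nat_lit 3420) (nat_lit 0) (XT.lf (nat_lit 0) (nat_lit 282136041) (nat_lit 1672) (nat_lit 1447942934) (nat_lit 76) (nat_lit 8087303610) (nat_lit 481) (nat_lit 5) (nat_lit 503) (nat_lit 5) (nat_lit 482) (nat_lit 5) (nat_lit 376) (nat_lit 359) (nat_lit 285)) (XT.nd (nat_lit 78) (nat_lit 1748) (nat_lit 0) (XT.lf (nat_lit 0) (nat_lit 2551863007) (nat_lit 1748) (nat_lit 3261489903) (nat_lit 76) (nat_lit 4141961250) (nat_lit 459) (nat_lit 5) (nat_lit 482) (nat_lit 5) (nat_lit 460)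 (nat_lit 5) (nat_lit 377) (nat_lit 359) (nat_lit 284)) (XT.lf (nat_lit 0) (nat_lit 4898922670) (nat_lit 1824) (nat_lit 5080755113) (nat_lit 76) (nat_lit 117531165) (nat_lit 436) (nat_lit 5) (nat_lit 460) (nat_lit 5) (nat_lit 437) (nat_lit 5) (nat_lit 378) (nat_lit 359) (nat_lit 283))))) (XT.nd (nat_lit 234) (nat_lit 2660) (nat_lit 0) (XT.nd (nat_lit 78) (nat_lit 988) (nat_lit 0) (XT.lf (nat_lit 0) (nat_lit 3309139588) (nat_lit 1444) (nat_lit 4045421534) (nat_lit 1520) (nat_lit 2888045906) (nat_lit 417) (nat_lit 5) (nat_lit 436) (nat_lit 5) (nat_lit 437) (nat_lit 5) (nat_lit 379) (nat_lit 359) (nat_lit 282)) (XT.nd (nat_lit 78) (nat_lit 76) (nat_lit 0) (XT.lf (nat_lit 0) (nat_lit 1595921855) (nat_lit 912) (nat_lit 8303012132) (nat_lit 988) (nat_lit 493141261) (nat_lit 405) (nat_lit 5) (nat_lit 417) (nat_lit 5) (nat_lit 418) (nat_lit 5) (nat_lit 380) (nat_lit 359) (nat_lit 281)) (XT.lf (nat_lit 0) (nat_lit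 1979419911) (nat_lit 988) (nat_lit 149055212) (nat_lit 76) (nat_lit 8416671285) (nat_lit 404) (nat_lit 5) (nat_lit 417) (nat_lit 5) (nat_lit 405) (nat_lit 5) (nat_lit 381) (nat_lit 359) (nat_lit 280)))) (XT.nd (nat_lit 78) (nat_lit 1748) (nat_lit 0) (XT.lf (nat_lit 0) (nat_lit 4563313986) (nat_lit 988) (nat_lit 1899069977) (nat_lit 76) (nat_lit 4239492211) (nat_lit 392) (nat_lit 5) (nat_lit 405) (nat_lit 5) (nat_lit 393) (nat_lit 5) (nat_lit 382) (nat_lit 359) (nat_lit 279)) (XT.nd (nat_lit 78) (nat_lit 836) (nat_lit 0) (XT.lf (nat_lit 0) (nat_lit 7203276895) (nat_lit 912) (nat_lit 43029308) (nat_lit 988) (nat_lit 3616578530) (nat_lit 380) (nat_lit 5) (nat_lit 392) (nat_lit 5) (nat_lit 393) (nat_lit 5) (nat_lit 383) (nat_lit 359) (nat_lit 278)) (XT.lf (nat_lit 0) (nat_lit 5567399857) (nat_lit 836) (nat_lit 4494638271) (nat_lit 912) (nat_lit 965648699) (nat_lit 369) (nat_lit 5) (nat_lit 380) (nat_lit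 5) (nat_lit 381) (nat_lit 5) (nat_lit 384) (nat_lit 359) (nat_lit 277)))))) (XT.nd (nat_lit 390) (nat_lit 3572) (nat_lit 0) (XT.nd (nat_lit 156) (nat_lit 1596) (nat_lit 0) (XT.nd (nat_lit 78) (nat_lit 760) (nat_lit 0) (XT.lf (nat_lit 0) (nat_lit 1767631712) (nat_lit 912) (nat_lit 7286127778) (nat_lit 76) (nat_lit 2142932840) (nat_lit 357) (nat_lit 5) (nat_lit 369) (nat_lit 5) (nat_lit 358) (nat_lit 5) (nat_lit 385) (nat_lit 359) (nat_lit 276)) (XT.lf (nat_lit 0) (nat_lit 2220489128) (nat_lit 760) (nat_lit 2393113647) (nat_lit 836) (nat_lit 6756168979) (nat_lit 347) (nat_lit 5) (nat_lit 357) (nat_lit 5) (nat_lit 358) (nat_lit 5) (nat_lit 386) (nat_lit 359) (nat_lit 275))) (XT.nd (nat_lit 78) (nat_lit 836) (nat_lit 0) (XT.lf (nat_lit 0) (nat_lit 503013436) (nat_lit 760) (nat_lit 7086774686) (nat_lit 836) (nat_lit 3957366166) (nat_lit 337) (nat_lit 5) (nat_lit 347) (nat_lit 5) (nat_lit 348) (nat_lit 5)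 (nat_lit 387) (nat_lit 359) (nat_lit 274)) (XT.nd (nat_lit 78) (nat_lit 836) (nat_lit 0) (XT.lf (nat_lit 0) (nat_lit 10515301437) (nat_lit 760) (nat_lit 181549737) (nat_lit 836) (nat_lit 1032182490) (nat_lit 337) (nat_lit 5) (nat_lit 347) (nat_lit 5) (nat_lit 348) (nat_lit 5) (nat_lit 388) (nat_lit 359) (nat_lit 273)) (XT.lf (nat_lit 0) (nat_lit 2023040364) (nat_lit 836) (nat_lit 2982585963) (nat_lit 76) (nat_lit 6909127518) (nat_lit 326) (nat_lit 5) (nat_lit 337) (nat_lit 5) (nat_lit 327) (nat_lit 5) (nat_lit 389) (nat_lit 359) (nat_lit 272))))) (XT.nd (nat_lit 234) (nat_lit 1444) (nat_lit 0) (XT.nd (nat_lit 78) (nat_lit 1368) (nat_lit 0) (XT.lf (nat_lit 0) (nat_lit 5192489356) (nat_lit 836) (nat_lit 4776225094) (nat_lit 76) (nat_lit 2136469535) (nat_lit 316) (nat_lit 5) (nat_lit 327) (nat_lit 5) (nat_lit 317) (nat_lit 5) (nat_lit 390) (nat_lit 359) (nat_lit 271)) (XT.nd (nat_lit 78) (nat_lit 684)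 (nat_lit 0) (XT.lf (nat_lit 0) (nat_lit 5692740603) (nat_lit 684) (nat_lit 2821094044) (nat_lit 760) (nat_lit 3786362596) (nat_lit 307) (nat_lit 5) (nat_lit 316) (nat_lit 5) (nat_lit 317) (nat_lit 5) (nat_lit 391) (nat_lit 359) (nat_lit 270)) (XT.lf (nat_lit 0) (nat_lit 4025749474) (nat_lit 684) (nat_lit 7964022025) (nat_lit 760) (nat_lit 510196656) (nat_lit 298) (nat_lit 5) (nat_lit 307) (nat_lit 5) (nat_lit 308) (nat_lit 5) (nat_lit 392) (nat_lit 359) (nat_lit 269)))) (XT.nd (nat_lit 78) (nat_lit 684) (nat_lit 0) (XT.lf (nat_lit 0) (nat_lit 2318290418) (nat_lit 684) (nat_lit 554641785) (nat_lit 760) (nat_lit 9831509174) (nat_lit 288) (nat_lit 5) (nat_lit 297) (nat_lit 5) (nat_lit 298) (nat_lit 5) (nat_lit 393) (nat_lit 359) (nat_lit 268)) (XT.nd (nat_lit 78) (nat_lit 0) (nat_lit 0) (XT.lf (nat_lit 0) (nat_lit 556314709) (nat_lit 684) (nat_lit 5869645133) (nat_lit 760) (nat_lit 6487520581) (nat_lit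 279) (nat_lit 5) (nat_lit 288) (nat_lit 5) (nat_lit 289) (nat_lit 5) (nat_lit 394) (nat_lit 359) (nat_lit 267)) (XT.lf (nat_lit 0) (nat_lit 10139952921) (nat_lit 760) (nat_lit 1211461855) (nat_lit 76) (nat_lit 1776294008) (nat_lit 279) (nat_lit 5) (nat_lit 289) (nat_lit 5) (nat_lit 280) (nat_lit 5) (nat_lit 395) (nat_lit 359) (nat_lit 266))))))))
noncomputable def xc79 : XT := (XT.nd (nat_lit 1716) (nat_lit 3268) (nat_lit 0) (XT.nd (nat_lit 858) (nat_lit 4484) (nat_lit 0) (XT.nd (nat_lit 390) (nat_lit 2736) (nat_lit 0) (XT.nd (nat_lit 156) (nat_lit 1824) (nat_lit 0) (XT.nd (nat_lit 78) (nat_lit 608) (nat_lit 0) (XT.lf (nat_lit 0) (nat_lit 685216117) (nat_lit 684) (nat_lit 3023334636) (nat_lit 76) (nat_lit 9638212359) (nat_lit 270) (nat_lit 5) (nat_lit 279) (nat_lit 5) (nat_lit 271) (nat_lit 5) (nat_lit 396) (nat_lit 359) (nat_lit 265)) (XT.lf (nat_lit 0) (nat_lit 4490309945) (nat_lit 684) (nat_lit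 4892573888) (nat_lit 76) (nat_lit 4187864970) (nat_lit 262) (nat_lit 5) (nat_lit 271) (nat_lit 5) (nat_lit 263) (nat_lit 5) (nat_lit 397) (nat_lit 359) (nat_lit 264))) (XT.nd (nat_lit 78) (nat_lit 1216) (nat_lit 0) (XT.lf (nat_lit 0) (nat_lit 7001405722) (nat_lit 608) (nat_lit 1469581670) (nat_lit 684) (nat_lit 5329243115) (nat_lit 254) (nat_lit 5) (nat_lit 262) (nat_lit 5) (nat_lit 263) (nat_lit 5) (nat_lit 398) (nat_lit 359) (nat_lit 263)) (XT.nd (nat_lit 78) (nat_lit 608) (nat_lit 0) (XT.lf (nat_lit 0) (nat_lit 5272296759) (nat_lit 608) (nat_lit 7380898661) (nat_lit 684) (nat_lit 1381763945) (nat_lit 246) (nat_lit 5) (nat_lit 254) (nat_lit 5) (nat_lit 255) (nat_lit 5) (nat_lit 399) (nat_lit 359) (nat_lit 262)) (XT.lf (nat_lit 0) (nat_lit 2704670083) (nat_lit 608) (nat_lit 10775676298) (nat_lit 76) (nat_lit 794925167) (nat_lit 238) (nat_lit 5) (nat_lit 246) (nat_lit 5) (nat_lit 239) (nat_lit 5) (nat_lit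 400) (nat_lit 359) (nat_lit 261))))) (XT.nd (nat_lit 234) (nat_lit 1520) (nat_lit 0) (XT.nd (nat_lit 78) (nat_lit 608) (nat_lit 0) (XT.lf (nat_lit 0) (nat_lit 1654559900) (nat_lit 608) (nat_lit 5332434842) (nat_lit 684) (nat_lit 7533778814) (nat_lit 230) (nat_lit 5) (nat_lit 238) (nat_lit 5) (nat_lit 239) (nat_lit 5) (nat_lit 401) (nat_lit 359) (nat_lit 260)) (XT.nd (nat_lit 78) (nat_lit 608) (nat_lit 0) (XT.lf (nat_lit 0) (nat_lit 11463776627) (nat_lit 684) (nat_lit 223445124) (nat_lit 76) (nat_lit 3085103527) (nat_lit 230) (nat_lit 5) (nat_lit 239) (nat_lit 5) (nat_lit 231) (nat_lit 5) (nat_lit 402) (nat_lit 359) (nat_lit 259)) (XT.lf (nat_lit 0) (nat_lit 1123175457) (nat_lit 608) (nat_lit 2139932684) (nat_lit 76) (nat_lit 11766315671) (nat_lit 222) (nat_lit 5) (nat_lit 230) (nat_lit 5) (nat_lit 223) (nat_lit 5) (nat_lit 403) (nat_lit 359) (nat_lit 258)))) (XT.nd (nat_lit 78) (nat_lit 988) (nat_lit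 0) (XT.lf (nat_lit 0) (nat_lit 5726883935) (nat_lit 608) (nat_lit 4134065437) (nat_lit 76) (nat_lit 5431172954) (nat_lit 215) (nat_lit 5) (nat_lit 223) (nat_lit 5) (nat_lit 216) (nat_lit 5) (nat_lit 404) (nat_lit 359) (nat_lit 257)) (XT.nd (nat_lit 78) (nat_lit 532) (nat_lit 0) (XT.lf (nat_lit 0) (nat_lit 9388333600) (nat_lit 456) (nat_lit 1152017940) (nat_lit 532) (nat_lit 5020921248) (nat_lit 209) (nat_lit 5) (nat_lit 215) (nat_lit 5) (nat_lit 216) (nat_lit 5) (nat_lit 405) (nat_lit 359) (nat_lit 256)) (XT.lf (nat_lit 0) (nat_lit 7548478046) (nat_lit 532) (nat_lit 8052457839) (nat_lit 608) (nat_lit 235511462) (nat_lit 202) (nat_lit 5) (nat_lit 209) (nat_lit 5) (nat_lit 210) (nat_lit 5) (nat_lit 406) (nat_lit 359) (nat_lit 255)))))) (XT.nd (nat_lit 390) (nat_lit 2508) (nat_lit 0) (XT.nd (nat_lit 156) (nat_lit 988) (nat_lit 0) (XT.nd (nat_lit 78) (nat_lit 456) (nat_lit 0) (XT.lf (nat_lit 0) (nat_lit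 4699676448) (nat_lit 532) (nat_lit 10476025019) (nat_lit 76) (nat_lit 942214437) (nat_lit 195) (nat_lit 5) (nat_lit 202) (nat_lit 5) (nat_lit 196) (nat_lit 5) (nat_lit 407) (nat_lit 359) (nat_lit 254)) (XT.lf (nat_lit 0) (nat_lit 3654242243) (nat_lit 456) (nat_lit 6235140591) (nat_lit 532) (nat_lit 6516224845) (nat_lit 189) (nat_lit 5) (nat_lit 195) (nat_lit 5) (nat_lit 196) (nat_lit 5) (nat_lit 408) (nat_lit 359) (nat_lit 253))) (XT.nd (nat_lit 78) (nat_lit 532) (nat_lit 0) (XT.lf (nat_lit 0) (nat_lit 1618617389) (nat_lit 456) (nat_lit 13693402670) (nat_lit 532) (nat_lit 1388368795) (nat_lit 183) (nat_lit 5) (nat_lit 189) (nat_lit 5) (nat_lit 190) (nat_lit 5) (nat_lit 409) (nat_lit 359) (nat_lit 252)) (XT.nd (nat_lit 78) (nat_lit 456) (nat_lit 0) (XT.lf (nat_lit 0) (nat_lit 3947225395) (nat_lit 532) (nat_lit 509493576) (nat_lit 76) (nat_lit 12544692929) (nat_lit 182) (nat_lit 5) (nat_lit 189) (nat_lit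 5) (nat_lit 183) (nat_lit 5) (nat_lit 410) (nat_lit 359) (nat_lit 251)) (XT.lf (nat_lit 0) (nat_lit 9529688308) (nat_lit 532) (nat_lit 2693414051) (nat_lit 76) (nat_lit 5086069649) (nat_lit 176) (nat_lit 5) (nat_lit 183) (nat_lit 5) (nat_lit 177) (nat_lit 5) (nat_lit 411) (nat_lit 359) (nat_lit 250))))) (XT.nd (nat_lit 234) (nat_lit 1216) (nat_lit 0) (XT.nd (nat_lit 78) (nat_lit 912) (nat_lit 0) (XT.lf (nat_lit 0) (nat_lit 12679337763) (nat_lit 380) (nat_lit 2693264051) (nat_lit 456) (nat_lit 2251706660) (nat_lit 171) (nat_lit 5) (nat_lit 176) (nat_lit 5) (nat_lit 177) (nat_lit 5) (nat_lit 412) (nat_lit 359) (nat_lit 249)) (XT.nd (nat_lit 78) (nat_lit 380) (nat_lit 0) (XT.lf (nat_lit 0) (nat_lit 3509101430) (nat_lit 532) (nat_lit 7307296540) (nat_lit 76) (nat_lit 7129810281) (nat_lit 164) (nat_lit 5) (nat_lit 171) (nat_lit 5) (nat_lit 165) (nat_lit 5) (nat_lit 413) (nat_lit 359) (nat_lit 248)) (XT.lf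 (nat_lit 0) (nat_lit 8527059013) (nat_lit 380) (nat_lit 970413354) (nat_lit 456) (nat_lit 8778291223) (nat_lit 159) (nat_lit 5) (nat_lit 164) (nat_lit 5) (nat_lit 165) (nat_lit 5) (nat_lit 414) (nat_lit 359) (nat_lit 247)))) (XT.nd (nat_lit 78) (nat_lit 836) (nat_lit 0) (XT.lf (nat_lit 0) (nat_lit 6312949483) (nat_lit 380) (nat_lit 9481337546) (nat_lit 456) (nat_lit 2818345480) (nat_lit 154) (nat_lit 5) (nat_lit 159) (nat_lit 5) (nat_lit 160) (nat_lit 5) (nat_lit 415) (nat_lit 359) (nat_lit 246)) (XT.nd (nat_lit 78) (nat_lit 380) (nat_lit 0) (XT.lf (nat_lit 0) (nat_lit 3359005829) (nat_lit 456) (nat_lit 14938060781) (nat_lit 76) (nat_lit 660469262) (nat_lit 148) (nat_lit 5) (nat_lit 154) (nat_lit 5) (nat_lit 149) (nat_lit 5) (nat_lit 416) (nat_lit 359) (nat_lit 245)) (XT.lf (nat_lit 0) (nat_lit 1591695481) (nat_lit 380) (nat_lit 8228592768) (nat_lit 456) (nat_lit 9489390044) (nat_lit 143) (nat_lit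 5) (nat_lit 148) (nat_lit 5) (nat_lit 149) (nat_lit 5) (nat_lit 417) (nat_lit 359) (nat_lit 244))))))) (XT.nd (nat_lit 48594) (nat_lit 0) (nat_lit 31768) (XT.nd (nat_lit 390) (nat_lit 1672) (nat_lit 0) (XT.nd (nat_lit 156) (nat_lit 1140) (nat_lit 0) (XT.nd (nat_lit 78) (nat_lit 456) (nat_lit 0) (XT.lf (nat_lit 0) (nat_lit 16570592474) (nat_lit 456) (nat_lit 894769128) (nat_lit 76) (nat_lit 2205122203) (nat_lit 143) (nat_lit 5) (nat_lit 149) (nat_lit 5) (nat_lit 144) (nat_lit 5) (nat_lit 418) (nat_lit 359) (nat_lit 243)) (XT.lf (nat_lit 0) (nat_lit 3579134744) (nat_lit 456) (nat_lit 3498179339) (nat_lit 76) (nat_lit 12961479707) (nat_lit 137) (nat_lit 5) (nat_lit 143) (nat_lit 5) (nat_lit 138) (nat_lit 5) (nat_lit 419) (nat_lit 359) (nat_lit 242))) (XT.nd (nat_lit 78) (nat_lit 760) (nat_lit 0) (XT.lf (nat_lit 0) (nat_lit 10519616133) (nat_lit 456) (nat_lit 6211784081) (nat_lit 76) (nat_lit 3684281354)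 (nat_lit 132) (nat_lit 5) (nat_lit 138) (nat_lit 5) (nat_lit 133) (nat_lit 5) (nat_lit 420) (nat_lit 359) (nat_lit 241)) (XT.nd (nat_lit 78) (nat_lit 456) (nat_lit 0) (XT.lf (nat_lit 0) (nat_lit 11757918309) (nat_lit 304) (nat_lit 6038472782) (nat_lit 380) (nat_lit 3004925535) (nat_lit 128) (nat_lit 5) (nat_lit 132) (nat_lit 5) (nat_lit 133) (nat_lit 5) (nat_lit 421) (nat_lit 359) (nat_lit 240)) (XT.lf (nat_lit 0) (nat_lit 4155367385) (nat_lit 456) (nat_lit 12011398769) (nat_lit 76) (nat_lit 5028903250) (nat_lit 122) (nat_lit 5) (nat_lit 128) (nat_lit 5) (nat_lit 123) (nat_lit 5) (nat_lit 422) (nat_lit 359) (nat_lit 239))))) (XT.nd (nat_lit 234) (nat_lit 684) (nat_lit 0) (XT.nd (nat_lit 78) (nat_lit 684) (nat_lit 0) (XT.lf (nat_lit 0) (nat_lit 6476074302) (nat_lit 304) (nat_lit 5139007877) (nat_lit 380) (nat_lit 9983866634) (nat_lit 118) (nat_lit 5) (nat_lit 122) (nat_lit 5) (nat_lit 123) (nat_lit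 5) (nat_lit 423) (nat_lit 359) (nat_lit 238)) (XT.nd (nat_lit 78) (nat_lit 380) (nat_lit 0) (XT.lf (nat_lit 0) (nat_lit 3647073371) (nat_lit 304) (nat_lit 15778887002) (nat_lit 380) (nat_lit 2585820789) (nat_lit 114) (nat_lit 5) (nat_lit 118) (nat_lit 5) (nat_lit 119) (nat_lit 5) (nat_lit 424) (nat_lit 359) (nat_lit 237)) (XT.lf (nat_lit 0) (nat_lit 663659652) (nat_lit 304) (nat_lit 4427923170) (nat_lit 380) (nat_lit 17342295056) (nat_lit 109) (nat_lit 5) (nat_lit 113) (nat_lit 5) (nat_lit 114) (nat_lit 5) (nat_lit 425) (nat_lit 359) (nat_lit 236)))) (XT.nd (nat_lit 78) (nat_lit 684) (nat_lit 0) (XT.lf (nat_lit 0) (nat_lit 13118691480) (nat_lit 380) (nat_lit 2446469925) (nat_lit 76) (nat_lit 7300045812) (nat_lit 109) (nat_lit 5) (nat_lit 114) (nat_lit 5) (nat_lit 110) (nat_lit 5) (nat_lit 426) (nat_lit 359) (nat_lit 235)) (XT.nd (nat_lit 78) (nat_lit 380) (nat_lit 0) (XT.lf (nat_lit 0) (nat_lit 17630153537)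 (nat_lit 304) (nat_lit 3882950357) (nat_lit 380) (nat_lit 1793844526) (nat_lit 105) (nat_lit 5) (nat_lit 109) (nat_lit 5) (nat_lit 110) (nat_lit 5) (nat_lit 427) (nat_lit 359) (nat_lit 234)) (XT.lf (nat_lit 0) (nat_lit 6462146950) (nat_lit 380) (nat_lit 9109145729) (nat_lit 76) (nat_lit 8186847302) (nat_lit 100) (nat_lit 5) (nat_lit 105) (nat_lit 5) (nat_lit 101) (nat_lit 5) (nat_lit 428) (nat_lit 359) (nat_lit 233)))))) (XT.nd (nat_lit 390) (nat_lit 1368) (nat_lit 0) (XT.nd (nat_lit 156) (nat_lit 1368) (nat_lit 0) (XT.nd (nat_lit 78) (nat_lit 0) (nat_lit 0) (XT.lf (nat_lit 0) (nat_lit 2826019837) (nat_lit 1444) (nat_lit 624116113) (nat_lit 1444) (nat_lit 624116113) (nat_lit 554) (nat_lit 3) (nat_lit 573) (nat_lit 3) (nat_lit 573) (nat_lit 5) (nat_lit 360) (nat_lit 360) (nat_lit 300)) (XT.lf (nat_lit 76) (nat_lit 4766787773) (nat_lit 0) (nat_lit 2698682938) (nat_lit 1444) (nat_lit 770252305) (nat_lit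 555) (nat_lit 5) (nat_lit 554) (nat_lit 3) (nat_lit 573) (nat_lit 5) (nat_lit 361) (nat_lit 360) (nat_lit 299))) (XT.nd (nat_lit 78) (nat_lit 0) (nat_lit 0) (XT.lf (nat_lit 0) (nat_lit 964289589) (nat_lit 1444) (nat_lit 5690348964) (nat_lit 1520) (nat_lit 1671410524) (nat_lit 536) (nat_lit 5) (nat_lit 555) (nat_lit 5) (nat_lit 556) (nat_lit 5) (nat_lit 362) (nat_lit 360) (nat_lit 298)) (XT.nd (nat_lit 78) (nat_lit 0) (nat_lit 76) (XT.lf (nat_lit 76) (nat_lit 499435657) (nat_lit 0) (nat_lit 2220967214) (nat_lit 1520) (nat_lit 5698996408) (nat_lit 537) (nat_lit 5) (nat_lit 536) (nat_lit 5) (nat_lit 556) (nat_lit 5) (nat_lit 363) (nat_lit 360) (nat_lit 297)) (XT.lf (nat_lit 0) (nat_lit 4520076053) (nat_lit 1444) (nat_lit 1614441160) (nat_lit 1520) (nat_lit 2381230957) (nat_lit 537) (nat_lit 5) (nat_lit 556) (nat_lit 5) (nat_lit 557) (nat_lit 5) (nat_lit 364) (nat_lit 360) (nat_lit 296))))) (XT.nd (nat_lit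 234) (nat_lit 0) (nat_lit 76) (XT.nd (nat_lit 78) (nat_lit 1444) (nat_lit 0) (XT.lf (nat_lit 76) (nat_lit 4893671609) (nat_lit 0) (nat_lit 1465364836) (nat_lit 1520) (nat_lit 2256260397) (nat_lit 538) (nat_lit 5) (nat_lit 537) (nat_lit 5) (nat_lit 557) (nat_lit 5) (nat_lit 365) (nat_lit 360) (nat_lit 295)) (XT.nd (nat_lit 78) (nat_lit 1520) (nat_lit 0) (XT.lf (nat_lit 76) (nat_lit 2880822147) (nat_lit 0) (nat_lit 5364157838) (nat_lit 1520) (nat_lit 473030514) (nat_lit 539) (nat_lit 5) (nat_lit 538) (nat_lit 5) (nat_lit 558) (nat_lit 5) (nat_lit 366) (nat_lit 360) (nat_lit 294)) (XT.lf (nat_lit 76) (nat_lit 864615927) (nat_lit 0) (nat_lit 463484394) (nat_lit 1596) (nat_lit 7495896477) (nat_lit 519) (nat_lit 5) (nat_lit 518) (nat_lit 5) (nat_lit 539) (nat_lit 5) (nat_lit 367) (nat_lit 360) (nat_lit 293)))) (XT.nd (nat_lit 78) (nat_lit 0) (nat_lit 76) (XT.lf (nat_lit 0) (nat_lit 3189548754) (nat_lit 1520)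 (nat_lit 1155763797) (nat_lit 1596) (nat_lit 4587547081) (nat_lit 519) (nat_lit 5) (nat_lit 539) (nat_lit 5) (nat_lit 540) (nat_lit 5) (nat_lit 368) (nat_lit 360) (nat_lit 292)) (XT.nd (nat_lit 78) (nat_lit 0) (nat_lit 0) (XT.lf (nat_lit 0) (nat_lit 5098102987) (nat_lit 1520) (nat_lit 3160830130) (nat_lit 1596) (nat_lit 786243276) (nat_lit 520) (nat_lit 5) (nat_lit 540) (nat_lit 5) (nat_lit 541) (nat_lit 5) (nat_lit 369) (nat_lit 360) (nat_lit 291)) (XT.lf (nat_lit 76) (nat_lit 3976719819) (nat_lit 0) (nat_lit 3096199996) (nat_lit 1596) (nat_lit 2087775622) (nat_lit 521) (nat_lit 5) (nat_lit 520) (nat_lit 5) (nat_lit 541) (nat_lit 5) (nat_lit 370) (nat_lit 360) (nat_lit 290))))))))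
noncomputable def xc80 : XT := (XT.nd (nat_lit 1716) (nat_lit 10868) (nat_lit 0) (XT.nd (nat_lit 858) (nat_lit 7372) (nat_lit 0) (XT.nd (nat_lit 390) (nat_lit 7296) (nat_lit 0) (XT.nd (nat_lit 156) (nat_lit 0) (nat_lit 76) (XT.nd (nat_lit 78) (nat_lit 1596) (nat_lit 0) (XT.lf (nat_lit 76) (nat_lit 2067297574) (nat_lit 0) (nat_lit 7036765310) (nat_lit 1596) (nat_lit 175688060) (nat_lit 522) (nat_lit 5) (nat_lit 521) (nat_lit 5) (nat_lit 542) (nat_lit 5) (nat_lit 371) (nat_lit 360) (nat_lit 289)) (XT.lf (nat_lit 76) (nat_lit 136857751) (nat_lit 0) (nat_lit 1638943356) (nat_lit 1672) (nat_lit 7626244715) (nat_lit 501) (nat_lit 5) (nat_lit 500) (nat_lit 5) (nat_lit 522) (nat_lit 5) (nat_lit 372) (nat_lit 360) (nat_lit 288))) (XT.nd (nat_lit 78) (nat_lit 0) (nat_lit 76) (XT.lf (nat_lit 0) (nat_lit 3808065206) (nat_lit 1596) (nat_lit 1786845135) (nat_lit 1672) (nat_lit 3932595211) (nat_lit 501) (nat_lit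 5) (nat_lit 522) (nat_lit 5) (nat_lit 523) (nat_lit 5) (nat_lit 373) (nat_lit 360) (nat_lit 287)) (XT.nd (nat_lit 78) (nat_lit 0) (nat_lit 0) (XT.lf (nat_lit 0) (nat_lit 5902550916) (nat_lit 1596) (nat_lit 3711253716) (nat_lit 1672) (nat_lit 42910606) (nat_lit 502) (nat_lit 5) (nat_lit 523) (nat_lit 5) (nat_lit 524) (nat_lit 5) (nat_lit 374) (nat_lit 360) (nat_lit 286)) (XT.lf (nat_lit 76) (nat_lit 4123678284) (nat_lit 0) (nat_lit 3965226918) (nat_lit 1672) (nat_lit 1700326242) (nat_lit 503) (nat_lit 5) (nat_lit 502) (nat_lit 5) (nat_lit 524) (nat_lit 5) (nat_lit 375) (nat_lit 360) (nat_lit 285))))) (XT.nd (nat_lit 234) (nat_lit 4180) (nat_lit 0) (XT.nd (nat_lit 78) (nat_lit 1672) (nat_lit 0) (XT.lf (nat_lit 0) (nat_lit 415841437) (nat_lit 1672) (nat_lit 7629080907) (nat_lit 76) (nat_lit 1880634095) (nat_lit 481) (nat_lit 5) (nat_lit 503) (nat_lit 5) (nat_lit 482) (nat_lit 5) (nat_lit 376) (nat_lit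 360) (nat_lit 284)) (XT.nd (nat_lit 78) (nat_lit 0) (nat_lit 0) (XT.lf (nat_lit 0) (nat_lit 439404552) (nat_lit 1672) (nat_lit 2155785349) (nat_lit 1748) (nat_lit 7470110649) (nat_lit 459) (nat_lit 5) (nat_lit 481) (nat_lit 5) (nat_lit 482) (nat_lit 5) (nat_lit 377) (nat_lit 360) (nat_lit 283)) (XT.lf (nat_lit 0) (nat_lit 4873117434) (nat_lit 1748) (nat_lit 1417813048) (nat_lit 76) (nat_lit 3917652320) (nat_lit 459) (nat_lit 5) (nat_lit 482) (nat_lit 5) (nat_lit 460) (nat_lit 5) (nat_lit 378) (nat_lit 360) (nat_lit 282)))) (XT.nd (nat_lit 78) (nat_lit 2432) (nat_lit 0) (XT.lf (nat_lit 0) (nat_lit 7077782480) (nat_lit 1748) (nat_lit 159031543) (nat_lit 1824) (nat_lit 3119010377) (nat_lit 436) (nat_lit 5) (nat_lit 459) (nat_lit 5) (nat_lit 460) (nat_lit 5) (nat_lit 379) (nat_lit 360) (nat_lit 281)) (XT.nd (nat_lit 78) (nat_lit 988) (nat_lit 0) (XT.lf (nat_lit 0) (nat_lit 5332845651) (nat_lit 1444) (nat_lit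 4380954890) (nat_lit 1520) (nat_lit 792844351) (nat_lit 417) (nat_lit 5) (nat_lit 436) (nat_lit 5) (nat_lit 437) (nat_lit 5) (nat_lit 380) (nat_lit 360) (nat_lit 280)) (XT.lf (nat_lit 0) (nat_lit 1600539829) (nat_lit 988) (nat_lit 7091245349) (nat_lit 76) (nat_lit 1969636272) (nat_lit 404) (nat_lit 5) (nat_lit 417) (nat_lit 5) (nat_lit 405) (nat_lit 5) (nat_lit 381) (nat_lit 360) (nat_lit 279)))))) (XT.nd (nat_lit 390) (nat_lit 3800) (nat_lit 0) (XT.nd (nat_lit 156) (nat_lit 2660) (nat_lit 0) (XT.nd (nat_lit 78) (nat_lit 0) (nat_lit 0) (XT.lf (nat_lit 0) (nat_lit 1778039814) (nat_lit 912) (nat_lit 2312902698) (nat_lit 988) (nat_lit 6729082732) (nat_lit 392) (nat_lit 5) (nat_lit 404) (nat_lit 5) (nat_lit 405) (nat_lit 5) (nat_lit 382) (nat_lit 360) (nat_lit 278)) (XT.lf (nat_lit 0) (nat_lit 6692809420) (nat_lit 988) (nat_lit 37713062) (nat_lit 76) (nat_lit 4252137905) (nat_lit 392) (nat_lit 5) (nat_lit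 405) (nat_lit 5) (nat_lit 393) (nat_lit 5) (nat_lit 383) (nat_lit 360) (nat_lit 277))) (XT.nd (nat_lit 78) (nat_lit 1748) (nat_lit 0) (XT.lf (nat_lit 0) (nat_lit 9306581607) (nat_lit 912) (nat_lit 103926016) (nat_lit 988) (nat_lit 1738919493) (nat_lit 380) (nat_lit 5) (nat_lit 392) (nat_lit 5) (nat_lit 393) (nat_lit 5) (nat_lit 384) (nat_lit 360) (nat_lit 276)) (XT.nd (nat_lit 78) (nat_lit 836) (nat_lit 0) (XT.lf (nat_lit 0) (nat_lit 933454791) (nat_lit 912) (nat_lit 3696124580) (nat_lit 76) (nat_lit 6690378381) (nat_lit 368) (nat_lit 5) (nat_lit 380) (nat_lit 5) (nat_lit 369) (nat_lit 5) (nat_lit 385) (nat_lit 360) (nat_lit 275)) (XT.lf (nat_lit 0) (nat_lit 3692306988) (nat_lit 912) (nat_lit 5576687318) (nat_lit 76) (nat_lit 2225788908) (nat_lit 357) (nat_lit 5) (nat_lit 369) (nat_lit 5) (nat_lit 358) (nat_lit 5) (nat_lit 386) (nat_lit 360) (nat_lit 274))))) (XT.nd (nat_lit 234) (nat_lit 1444) (nat_lit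 0) (XT.nd (nat_lit 78) (nat_lit 1596) (nat_lit 0) (XT.lf (nat_lit 0) (nat_lit 4183848192) (nat_lit 760) (nat_lit 2397609944) (nat_lit 836) (nat_lit 5092451847) (nat_lit 347) (nat_lit 5) (nat_lit 357) (nat_lit 5) (nat_lit 358) (nat_lit 5) (nat_lit 387) (nat_lit 360) (nat_lit 273)) (XT.nd (nat_lit 78) (nat_lit 836) (nat_lit 0) (XT.lf (nat_lit 0) (nat_lit 2420001332) (nat_lit 760) (nat_lit 7186415429) (nat_lit 836) (nat_lit 2251018135) (nat_lit 337) (nat_lit 5) (nat_lit 347) (nat_lit 5) (nat_lit 348) (nat_lit 5) (nat_lit 388) (nat_lit 360) (nat_lit 272)) (XT.lf (nat_lit 0) (nat_lit 635168380) (nat_lit 760) (nat_lit 68423690) (nat_lit 836) (nat_lit 11342056517) (nat_lit 326) (nat_lit 5) (nat_lit 336) (nat_lit 5) (nat_lit 337) (nat_lit 5) (nat_lit 389) (nat_lit 360) (nat_lit 271)))) (XT.nd (nat_lit 78) (nat_lit 1444) (nat_lit 0) (XT.lf (nat_lit 0) (nat_lit 3794261295) (nat_lit 836) (nat_lit 1198646131)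 (nat_lit 76) (nat_lit 7244750084) (nat_lit 326) (nat_lit 5) (nat_lit 337) (nat_lit 5) (nat_lit 327) (nat_lit 5) (nat_lit 390) (nat_lit 360) (nat_lit 270)) (XT.nd (nat_lit 78) (nat_lit 684) (nat_lit 0) (XT.lf (nat_lit 0) (nat_lit 7022044652) (nat_lit 836) (nat_lit 3043822141) (nat_lit 76) (nat_lit 2368678307) (nat_lit 316) (nat_lit 5) (nat_lit 327) (nat_lit 5) (nat_lit 317) (nat_lit 5) (nat_lit 391) (nat_lit 360) (nat_lit 269)) (XT.lf (nat_lit 0) (nat_lit 7708781690) (nat_lit 684) (nat_lit 2697478364) (nat_lit 760) (nat_lit 2229893391) (nat_lit 307) (nat_lit 5) (nat_lit 316) (nat_lit 5) (nat_lit 317) (nat_lit 5) (nat_lit 392) (nat_lit 360) (nat_lit 268))))))) (XT.nd (nat_lit 858) (nat_lit 4484) (nat_lit 0) (XT.nd (nat_lit 390) (nat_lit 3572) (nat_lit 0) (XT.nd (nat_lit 156) (nat_lit 1368) (nat_lit 0) (XT.nd (nat_lit 78) (nat_lit 684) (nat_lit 0) (XT.lf (nat_lit 0) (nat_lit 1094931408) (nat_lit 760)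 (nat_lit 6856790500) (nat_lit 76) (nat_lit 4890748091) (nat_lit 297) (nat_lit 5) (nat_lit 307) (nat_lit 5) (nat_lit 298) (nat_lit 5) (nat_lit 393) (nat_lit 360) (nat_lit 267)) (XT.lf (nat_lit 0) (nat_lit 4225771941) (nat_lit 684) (nat_lit 311826846) (nat_lit 760) (nat_lit 8516120240) (nat_lit 288) (nat_lit 5) (nat_lit 297) (nat_lit 5) (nat_lit 298) (nat_lit 5) (nat_lit 394) (nat_lit 360) (nat_lit 266))) (XT.nd (nat_lit 78) (nat_lit 684) (nat_lit 0) (XT.lf (nat_lit 0) (nat_lit 2410800238) (nat_lit 684) (nat_lit 5754009586) (nat_lit 760) (nat_lit 5104875898) (nat_lit 279) (nat_lit 5) (nat_lit 288) (nat_lit 5) (nat_lit 289) (nat_lit 5) (nat_lit 395) (nat_lit 360) (nat_lit 265)) (XT.nd (nat_lit 78) (nat_lit 76) (nat_lit 0) (XT.lf (nat_lit 0) (nat_lit 572421239) (nat_lit 608) (nat_lit 11378325699) (nat_lit 684) (nat_lit 1540391599) (nat_lit 271) (nat_lit 5) (nat_lit 279) (nat_lit 5) (nat_lit 280) (nat_lit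 5) (nat_lit 396) (nat_lit 360) (nat_lit 264)) (XT.lf (nat_lit 0) (nat_lit 2186454700) (nat_lit 684) (nat_lit 1310790251) (nat_lit 76) (nat_lit 10220050796) (nat_lit 270) (nat_lit 5) (nat_lit 279) (nat_lit 5) (nat_lit 271) (nat_lit 5) (nat_lit 397) (nat_lit 360) (nat_lit 263))))) (XT.nd (nat_lit 234) (nat_lit 1748) (nat_lit 0) (XT.nd (nat_lit 78) (nat_lit 1216) (nat_lit 0) (XT.lf (nat_lit 0) (nat_lit 6076202161) (nat_lit 684) (nat_lit 3238241137) (nat_lit 76) (nat_lit 4634155170) (nat_lit 262) (nat_lit 5) (nat_lit 271) (nat_lit 5) (nat_lit 263) (nat_lit 5) (nat_lit 398) (nat_lit 360) (nat_lit 262)) (XT.nd (nat_lit 78) (nat_lit 608) (nat_lit 0) (XT.lf (nat_lit 0) (nat_lit 8983336992) (nat_lit 608) (nat_lit 1162199754) (nat_lit 684) (nat_lit 4040050396) (nat_lit 254) (nat_lit 5) (nat_lit 262) (nat_lit 5) (nat_lit 263) (nat_lit 5) (nat_lit 399) (nat_lit 360) (nat_lit 261)) (XT.lf (nat_lit 0) (nat_lit 7199548478)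 (nat_lit 608) (nat_lit 7225992655) (nat_lit 684) (nat_lit 2377176) (nat_lit 246) (nat_lit 5) (nat_lit 254) (nat_lit 5) (nat_lit 255) (nat_lit 5) (nat_lit 400) (nat_lit 360) (nat_lit 260)))) (XT.nd (nat_lit 78) (nat_lit 1140) (nat_lit 0) (XT.lf (nat_lit 0) (nat_lit 4161101766) (nat_lit 608) (nat_lit 9314834254) (nat_lit 76) (nat_lit 1199864312) (nat_lit 238) (nat_lit 5) (nat_lit 246) (nat_lit 5) (nat_lit 239) (nat_lit 5) (nat_lit 401) (nat_lit 360) (nat_lit 259)) (XT.nd (nat_lit 78) (nat_lit 532) (nat_lit 0) (XT.lf (nat_lit 0) (nat_lit 3459363926) (nat_lit 608) (nat_lit 5083870912) (nat_lit 684) (nat_lit 6386012299) (nat_lit 230) (nat_lit 5) (nat_lit 238) (nat_lit 5) (nat_lit 239) (nat_lit 5) (nat_lit 402) (nat_lit 360) (nat_lit 258)) (XT.lf (nat_lit 0) (nat_lit 1517584390) (nat_lit 532) (nat_lit 11609941950) (nat_lit 608) (nat_lit 2061361270) (nat_lit 223) (nat_lit 5) (nat_lit 230) (nat_lit 5) (nat_lit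 231) (nat_lit 5) (nat_lit 403) (nat_lit 360) (nat_lit 257)))))) (XT.nd (nat_lit 390) (nat_lit 2356) (nat_lit 0) (XT.nd (nat_lit 156) (nat_lit 1520) (nat_lit 0) (XT.nd (nat_lit 78) (nat_lit 532) (nat_lit 0) (XT.lf (nat_lit 0) (nat_lit 2448433002) (nat_lit 608) (nat_lit 486968436) (nat_lit 76) (nat_lit 12518873293) (nat_lit 222) (nat_lit 5) (nat_lit 230) (nat_lit 5) (nat_lit 223) (nat_lit 5) (nat_lit 404) (nat_lit 360) (nat_lit 256)) (XT.lf (nat_lit 0) (nat_lit 7166357923) (nat_lit 608) (nat_lit 2546046568) (nat_lit 76) (nat_lit 6012933446) (nat_lit 215) (nat_lit 5) (nat_lit 223) (nat_lit 5) (nat_lit 216) (nat_lit 5) (nat_lit 405) (nat_lit 360) (nat_lit 255))) (XT.nd (nat_lit 78) (nat_lit 1064) (nat_lit 0) (XT.lf (nat_lit 0) (nat_lit 11354248612) (nat_lit 456) (nat_lit 743993956) (nat_lit 532) (nat_lit 3904845755) (nat_lit 209) (nat_lit 5) (nat_lit 215) (nat_lit 5) (nat_lit 216) (nat_lit 5) (nat_lit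 406) (nat_lit 360) (nat_lit 254)) (XT.nd (nat_lit 78) (nat_lit 456) (nat_lit 0) (XT.lf (nat_lit 0) (nat_lit 988064271) (nat_lit 608) (nat_lit 6839811627) (nat_lit 76) (nat_lit 8458967242) (nat_lit 201) (nat_lit 5) (nat_lit 209) (nat_lit 5) (nat_lit 202) (nat_lit 5) (nat_lit 407) (nat_lit 360) (nat_lit 253)) (XT.lf (nat_lit 0) (nat_lit 6046223339) (nat_lit 532) (nat_lit 9101381800) (nat_lit 76) (nat_lit 1429562418) (nat_lit 195) (nat_lit 5) (nat_lit 202) (nat_lit 5) (nat_lit 196) (nat_lit 5) (nat_lit 408) (nat_lit 360) (nat_lit 252))))) (XT.nd (nat_lit 234) (nat_lit 912) (nat_lit 0) (XT.nd (nat_lit 78) (nat_lit 988) (nat_lit 0) (XT.lf (nat_lit 0) (nat_lit 5425392695) (nat_lit 456) (nat_lit 5941902633) (nat_lit 532) (nat_lit 5506686356) (nat_lit 189) (nat_lit 5) (nat_lit 195) (nat_lit 5) (nat_lit 196) (nat_lit 5) (nat_lit 409) (nat_lit 360) (nat_lit 251)) (XT.nd (nat_lit 78) (nat_lit 532) (nat_lit 0)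 (XT.lf (nat_lit 0) (nat_lit 3322083265) (nat_lit 456) (nat_lit 13609895925) (nat_lit 532) (nat_lit 246044696) (nat_lit 183) (nat_lit 5) (nat_lit 189) (nat_lit 5) (nat_lit 190) (nat_lit 5) (nat_lit 410) (nat_lit 360) (nat_lit 250)) (XT.lf (nat_lit 0) (nat_lit 1111740975) (nat_lit 456) (nat_lit 4095534017) (nat_lit 532) (nat_lit 12281189875) (nat_lit 176) (nat_lit 5) (nat_lit 182) (nat_lit 5) (nat_lit 183) (nat_lit 5) (nat_lit 411) (nat_lit 360) (nat_lit 249)))) (XT.nd (nat_lit 78) (nat_lit 912) (nat_lit 0) (XT.lf (nat_lit 0) (nat_lit 10930454026) (nat_lit 532) (nat_lit 1159346732) (nat_lit 76) (nat_lit 5716196741) (nat_lit 176) (nat_lit 5) (nat_lit 183) (nat_lit 5) (nat_lit 177) (nat_lit 5) (nat_lit 412) (nat_lit 360) (nat_lit 248)) (XT.nd (nat_lit 78) (nat_lit 532) (nat_lit 0) (XT.lf (nat_lit 0) (nat_lit 14648388293) (nat_lit 380) (nat_lit 2278109256) (nat_lit 456) (nat_lit 1204538088) (nat_lit 171)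 (nat_lit 5) (nat_lit 176) (nat_lit 5) (nat_lit 177) (nat_lit 5) (nat_lit 413) (nat_lit 360) (nat_lit 247)) (XT.lf (nat_lit 0) (nat_lit 4695915036) (nat_lit 532) (nat_lit 5930628282) (nat_lit 76) (nat_lit 7836279748) (nat_lit 164) (nat_lit 5) (nat_lit 171) (nat_lit 5) (nat_lit 165) (nat_lit 5) (nat_lit 414) (nat_lit 360) (nat_lit 246))))))))
noncomputable def xc81 : XT := (XT.nd (nat_lit 49530) (nat_lit 0) (nat_lit 16796) (XT.nd (nat_lit 858) (nat_lit 684) (nat_lit 0) (XT.nd (nat_lit 390) (nat_lit 1824) (nat_lit 0) (XT.nd (nat_lit 156) (nat_lit 1216) (nat_lit 0) (XT.nd (nat_lit 78) (nat_lit 380) (nat_lit 0) (XT.lf (nat_lit 0) (nat_lit 10352866564) (nat_lit 380) (nat_lit 489762810) (nat_lit 456) (nat_lit 7960065942) (nat_lit 159) (nat_lit 5) (nat_lit 164) (nat_lit 5) (nat_lit 165) (nat_lit 5) (nat_lit 415) (nat_lit 360) (nat_lit 245)) (XT.lf (nat_lit 0) (nat_lit 8064601356) (nat_lit 380) (nat_lit 9246223122)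 (nat_lit 456) (nat_lit 1839200281) (nat_lit 154) (nat_lit 5) (nat_lit 159) (nat_lit 5) (nat_lit 160) (nat_lit 5) (nat_lit 416) (nat_lit 360) (nat_lit 244))) (XT.nd (nat_lit 78) (nat_lit 760) (nat_lit 0) (XT.lf (nat_lit 0) (nat_lit 4492400661) (nat_lit 456) (nat_lit 13818108204) (nat_lit 76) (nat_lit 1194974424) (nat_lit 148) (nat_lit 5) (nat_lit 154) (nat_lit 5) (nat_lit 149) (nat_lit 5) (nat_lit 417) (nat_lit 360) (nat_lit 243)) (XT.nd (nat_lit 78) (nat_lit 380) (nat_lit 0) (XT.lf (nat_lit 0) (nat_lit 3182100276) (nat_lit 380) (nat_lit 7945360763) (nat_lit 456) (nat_lit 8741133829) (nat_lit 143) (nat_lit 5) (nat_lit 148) (nat_lit 5) (nat_lit 149) (nat_lit 5) (nat_lit 418) (nat_lit 360) (nat_lit 242)) (XT.lf (nat_lit 0) (nat_lit 600423636) (nat_lit 380) (nat_lit 17457598397) (nat_lit 456) (nat_lit 2182651130) (nat_lit 138) (nat_lit 5) (nat_lit 143) (nat_lit 5) (nat_lit 144) (nat_lit 5) (nat_lit 419)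 (nat_lit 360) (nat_lit 241))))) (XT.nd (nat_lit 234) (nat_lit 1064) (nat_lit 0) (XT.nd (nat_lit 78) (nat_lit 684) (nat_lit 0) (XT.lf (nat_lit 0) (nat_lit 4660383442) (nat_lit 456) (nat_lit 2100473534) (nat_lit 76) (nat_lit 13859509940) (nat_lit 137) (nat_lit 5) (nat_lit 143) (nat_lit 5) (nat_lit 138) (nat_lit 5) (nat_lit 420) (nat_lit 360) (nat_lit 240)) (XT.nd (nat_lit 78) (nat_lit 304) (nat_lit 0) (XT.lf (nat_lit 0) (nat_lit 11793708652) (nat_lit 456) (nat_lit 4904049839) (nat_lit 76) (nat_lit 4311113544) (nat_lit 132) (nat_lit 5) (nat_lit 138) (nat_lit 5) (nat_lit 133) (nat_lit 5) (nat_lit 421) (nat_lit 360) (nat_lit 239)) (XT.lf (nat_lit 0) (nat_lit 13580503823) (nat_lit 304) (nat_lit 5689908670) (nat_lit 380) (nat_lit 2136034341) (nat_lit 128) (nat_lit 5) (nat_lit 132) (nat_lit 5) (nat_lit 133) (nat_lit 5) (nat_lit 422) (nat_lit 360) (nat_lit 238)))) (XT.nd (nat_lit 78) (nat_lit 608) (nat_lit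 0) (XT.lf (nat_lit 0) (nat_lit 5211833838) (nat_lit 456) (nat_lit 10898035517) (nat_lit 76) (nat_lit 5702932466) (nat_lit 122) (nat_lit 5) (nat_lit 128) (nat_lit 5) (nat_lit 123) (nat_lit 5) (nat_lit 423) (nat_lit 360) (nat_lit 237)) (XT.nd (nat_lit 78) (nat_lit 304) (nat_lit 0) (XT.lf (nat_lit 0) (nat_lit 8120152630) (nat_lit 304) (nat_lit 4757460518) (nat_lit 380) (nat_lit 9350923958) (nat_lit 118) (nat_lit 5) (nat_lit 122) (nat_lit 5) (nat_lit 123) (nat_lit 5) (nat_lit 424) (nat_lit 360) (nat_lit 236)) (XT.lf (nat_lit 0) (nat_lit 5197420622) (nat_lit 304) (nat_lit 15711505854) (nat_lit 380) (nat_lit 1745108648) (nat_lit 114) (nat_lit 5) (nat_lit 118) (nat_lit 5) (nat_lit 119) (nat_lit 5) (nat_lit 425) (nat_lit 360) (nat_lit 235)))))) (XT.nd (nat_lit 48204) (nat_lit 0) (nat_lit 31312) (XT.nd (nat_lit 156) (nat_lit 304) (nat_lit 0) (XT.nd (nat_lit 78) (nat_lit 0) (nat_lit 0) (XT.lf (nat_lit 0) (nat_lit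 2113067466) (nat_lit 304) (nat_lit 4020391925) (nat_lit 380) (nat_lit 16955561124) (nat_lit 109) (nat_lit 5) (nat_lit 113) (nat_lit 5) (nat_lit 114) (nat_lit 5) (nat_lit 426) (nat_lit 360) (nat_lit 234)) (XT.lf (nat_lit 0) (nat_lit 14378890590) (nat_lit 380) (nat_lit 1118055003) (nat_lit 76) (nat_lit 8036796609) (nat_lit 109) (nat_lit 5) (nat_lit 114) (nat_lit 5) (nat_lit 110) (nat_lit 5) (nat_lit 427) (nat_lit 360) (nat_lit 233))) (XT.nd (nat_lit 47892) (nat_lit 0) (nat_lit 32680) (XT.lf (nat_lit 0) (nat_lit 19538124477) (nat_lit 304) (nat_lit 3470722820) (nat_lit 380) (nat_lit 980216684) (nat_lit 105) (nat_lit 5) (nat_lit 109) (nat_lit 5) (nat_lit 110) (nat_lit 5) (nat_lit 428) (nat_lit 360) (nat_lit 232)) (XT.nd (nat_lit 78) (nat_lit 0) (nat_lit 0) (XT.lf (nat_lit 0) (nat_lit 213467246) (nat_lit 0) (nat_lit 213467246) (nat_lit 1444) (nat_lit 3735374031) (nat_lit 535) (nat_lit 5) (nat_lit 535) (nat_lit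 3) (nat_lit 554) (nat_lit 3) (nat_lit 361) (nat_lit 361) (nat_lit 298)) (XT.lf (nat_lit 0) (nat_lit 2515342305) (nat_lit 1444) (nat_lit 1835588181) (nat_lit 1520) (nat_lit 4065179904) (nat_lit 535) (nat_lit 5) (nat_lit 554) (nat_lit 3) (nat_lit 555) (nat_lit 5) (nat_lit 362) (nat_lit 361) (nat_lit 297))))) (XT.nd (nat_lit 234) (nat_lit 1444) (nat_lit 0) (XT.nd (nat_lit 78) (nat_lit 0) (nat_lit 0) (XT.lf (nat_lit 0) (nat_lit 4196714729) (nat_lit 1444) (nat_lit 4082037591) (nat_lit 1520) (nat_lit 232210831) (nat_lit 536) (nat_lit 5) (nat_lit 555) (nat_lit 5) (nat_lit 556) (nat_lit 5) (nat_lit 363) (nat_lit 361) (nat_lit 296)) (XT.nd (nat_lit 78) (nat_lit 0) (nat_lit 76) (XT.lf (nat_lit 76) (nat_lit 2264578053) (nat_lit 0) (nat_lit 3658990829) (nat_lit 1520) (nat_lit 2685207054) (nat_lit 537) (nat_lit 5) (nat_lit 536) (nat_lit 5) (nat_lit 556) (nat_lit 5) (nat_lit 364) (nat_lit 361) (nat_lit 295)) (XT.lf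 (nat_lit 76) (nat_lit 107731386) (nat_lit 0) (nat_lit 7570636627) (nat_lit 1520) (nat_lit 1031647117) (nat_lit 538) (nat_lit 5) (nat_lit 537) (nat_lit 5) (nat_lit 557) (nat_lit 5) (nat_lit 365) (nat_lit 361) (nat_lit 294)))) (XT.nd (nat_lit 78) (nat_lit 0) (nat_lit 76) (XT.lf (nat_lit 0) (nat_lit 672027622) (nat_lit 1520) (nat_lit 2037570184) (nat_lit 1596) (nat_lit 6104434289) (nat_lit 517) (nat_lit 5) (nat_lit 537) (nat_lit 5) (nat_lit 538) (nat_lit 5) (nat_lit 366) (nat_lit 361) (nat_lit 293)) (XT.nd (nat_lit 78) (nat_lit 0) (nat_lit 0) (XT.lf (nat_lit 0) (nat_lit 2402271430) (nat_lit 1520) (nat_lit 4191515584) (nat_lit 1596) (nat_lit 2327470361) (nat_lit 518) (nat_lit 5) (nat_lit 538) (nat_lit 5) (nat_lit 539) (nat_lit 5) (nat_lit 367) (nat_lit 361) (nat_lit 292)) (XT.lf (nat_lit 76) (nat_lit 2678690652) (nat_lit 0) (nat_lit 1499991438) (nat_lit 1596) (nat_lit 4853145420) (nat_lit 519) (nat_lit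 5) (nat_lit 518) (nat_lit 5) (nat_lit 539) (nat_lit 5) (nat_lit 368) (nat_lit 361) (nat_lit 291))))))) (XT.nd (nat_lit 858) (nat_lit 8360) (nat_lit 0) (XT.nd (nat_lit 390) (nat_lit 4788) (nat_lit 0) (XT.nd (nat_lit 156) (nat_lit 1520) (nat_lit 0) (XT.nd (nat_lit 78) (nat_lit 0) (nat_lit 0) (XT.lf (nat_lit 76) (nat_lit 615366801) (nat_lit 0) (nat_lit 5396290334) (nat_lit 1596) (nat_lit 3134005074) (nat_lit 520) (nat_lit 5) (nat_lit 519) (nat_lit 5) (nat_lit 540) (nat_lit 5) (nat_lit 369) (nat_lit 361) (nat_lit 290)) (XT.lf (nat_lit 76) (nat_lit 7834877827) (nat_lit 0) (nat_lit 65455697) (nat_lit 1596) (nat_lit 1362576709) (nat_lit 520) (nat_lit 5) (nat_lit 519) (nat_lit 5) (nat_lit 540) (nat_lit 5) (nat_lit 370) (nat_lit 361) (nat_lit 289))) (XT.nd (nat_lit 78) (nat_lit 0) (nat_lit 76) (XT.lf (nat_lit 0) (nat_lit 478899197) (nat_lit 1596) (nat_lit 3491970896) (nat_lit 1672) (nat_lit 5412298259) (nat_lit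 499) (nat_lit 5) (nat_lit 520) (nat_lit 5) (nat_lit 521) (nat_lit 5) (nat_lit 371) (nat_lit 361) (nat_lit 288)) (XT.nd (nat_lit 78) (nat_lit 0) (nat_lit 0) (XT.lf (nat_lit 0) (nat_lit 2353710221) (nat_lit 1596) (nat_lit 5567748046) (nat_lit 1672) (nat_lit 1585475330) (nat_lit 500) (nat_lit 5) (nat_lit 521) (nat_lit 5) (nat_lit 522) (nat_lit 5) (nat_lit 372) (nat_lit 361) (nat_lit 287)) (XT.lf (nat_lit 76) (nat_lit 1970692772) (nat_lit 0) (nat_lit 2328801620) (nat_lit 1672) (nat_lit 5334634070) (nat_lit 501) (nat_lit 5) (nat_lit 500) (nat_lit 5) (nat_lit 522) (nat_lit 5) (nat_lit 373) (nat_lit 361) (nat_lit 286))))) (XT.nd (nat_lit 234) (nat_lit 3344) (nat_lit 0) (XT.nd (nat_lit 78) (nat_lit 1596) (nat_lit 0) (XT.lf (nat_lit 0) (nat_lit 6316733830) (nat_lit 1596) (nat_lit 11452617) (nat_lit 1672) (nat_lit 3436702000) (nat_lit 501) (nat_lit 5) (nat_lit 522) (nat_lit 5) (nat_lit 523) (nat_lit 5) (nat_lit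 374) (nat_lit 361) (nat_lit 285)) (XT.nd (nat_lit 78) (nat_lit 1596) (nat_lit 0) (XT.lf (nat_lit 76) (nat_lit 7923446515) (nat_lit 0) (nat_lit 492258646) (nat_lit 1672) (nat_lit 1483452370) (nat_lit 502) (nat_lit 5) (nat_lit 501) (nat_lit 5) (nat_lit 523) (nat_lit 5) (nat_lit 375) (nat_lit 361) (nat_lit 284)) (XT.lf (nat_lit 0) (nat_lit 563976665) (nat_lit 1672) (nat_lit 3973112075) (nat_lit 1748) (nat_lit 5499688476) (nat_lit 480) (nat_lit 5) (nat_lit 502) (nat_lit 5) (nat_lit 503) (nat_lit 5) (nat_lit 376) (nat_lit 361) (nat_lit 283)))) (XT.nd (nat_lit 78) (nat_lit 3420) (nat_lit 0) (XT.lf (nat_lit 0) (nat_lit 2663012674) (nat_lit 1672) (nat_lit 5988999056) (nat_lit 76) (nat_lit 1526120669) (nat_lit 481) (nat_lit 5) (nat_lit 503) (nat_lit 5) (nat_lit 482) (nat_lit 5) (nat_lit 377) (nat_lit 361) (nat_lit 282)) (XT.nd (nat_lit 78) (nat_lit 1748) (nat_lit 0) (XT.lf (nat_lit 0) (nat_lit 2291219404) (nat_lit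 1672) (nat_lit 2563371579) (nat_lit 1748) (nat_lit 5468555334) (nat_lit 459) (nat_lit 5) (nat_lit 481) (nat_lit 5) (nat_lit 482) (nat_lit 5) (nat_lit 378) (nat_lit 361) (nat_lit 281)) (XT.lf (nat_lit 0) (nat_lit 374636255) (nat_lit 1748) (nat_lit 6762950746) (nat_lit 1824) (nat_lit 3334419470) (nat_lit 436) (nat_lit 5) (nat_lit 459) (nat_lit 5) (nat_lit 460) (nat_lit 5) (nat_lit 379) (nat_lit 361) (nat_lit 280)))))) (XT.nd (nat_lit 390) (nat_lit 4104) (nat_lit 0) (XT.nd (nat_lit 156) (nat_lit 2736) (nat_lit 0) (XT.nd (nat_lit 78) (nat_lit 1520) (nat_lit 0) (XT.lf (nat_lit 0) (nat_lit 9090495512) (nat_lit 1748) (nat_lit 429329334) (nat_lit 1824) (nat_lit 1104901505) (nat_lit 436) (nat_lit 5) (nat_lit 459) (nat_lit 5) (nat_lit 460) (nat_lit 5) (nat_lit 380) (nat_lit 361) (nat_lit 279)) (XT.lf (nat_lit 0) (nat_lit 1223704155) (nat_lit 1520) (nat_lit 3482344119) (nat_lit 76) (nat_lit 6074876780) (nat_lit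 416) (nat_lit 5) (nat_lit 436) (nat_lit 5) (nat_lit 417) (nat_lit 5) (nat_lit 381) (nat_lit 361) (nat_lit 278))) (XT.nd (nat_lit 78) (nat_lit 1824) (nat_lit 0) (XT.lf (nat_lit 0) (nat_lit 3629716984) (nat_lit 988) (nat_lit 5451315360) (nat_lit 76) (nat_lit 1860188379) (nat_lit 404) (nat_lit 5) (nat_lit 417) (nat_lit 5) (nat_lit 405) (nat_lit 5) (nat_lit 382) (nat_lit 361) (nat_lit 277)) (XT.nd (nat_lit 78) (nat_lit 912) (nat_lit 0) (XT.lf (nat_lit 0) (nat_lit 3653991032) (nat_lit 912) (nat_lit 2494970591) (nat_lit 988) (nat_lit 4956550647) (nat_lit 392) (nat_lit 5) (nat_lit 404) (nat_lit 5) (nat_lit 405) (nat_lit 5) (nat_lit 383) (nat_lit 361) (nat_lit 276)) (XT.lf (nat_lit 0) (nat_lit 1792878551) (nat_lit 912) (nat_lit 6990568561) (nat_lit 988) (nat_lit 2490499985) (nat_lit 380) (nat_lit 5) (nat_lit 392) (nat_lit 5) (nat_lit 393) (nat_lit 5) (nat_lit 384) (nat_lit 361) (nat_lit 275))))) (XT.nd (nat_lit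 234) (nat_lit 2356) (nat_lit 0) (XT.nd (nat_lit 78) (nat_lit 1672) (nat_lit 0) (XT.lf (nat_lit 0) (nat_lit 79992750) (nat_lit 988) (nat_lit 82698462) (nat_lit 76) (nat_lit 11284122547) (nat_lit 379) (nat_lit 5) (nat_lit 392) (nat_lit 5) (nat_lit 380) (nat_lit 5) (nat_lit 385) (nat_lit 361) (nat_lit 274)) (XT.nd (nat_lit 78) (nat_lit 836) (nat_lit 0) (XT.lf (nat_lit 0) (nat_lit 2766556329) (nat_lit 912) (nat_lit 1995797761) (nat_lit 76) (nat_lit 6860734456) (nat_lit 368) (nat_lit 5) (nat_lit 380) (nat_lit 5) (nat_lit 369) (nat_lit 5) (nat_lit 386) (nat_lit 361) (nat_lit 273)) (XT.lf (nat_lit 0) (nat_lit 5567282367) (nat_lit 912) (nat_lit 3926640126) (nat_lit 76) (nat_lit 2310064774) (nat_lit 357) (nat_lit 5) (nat_lit 369) (nat_lit 5) (nat_lit 358) (nat_lit 5) (nat_lit 387) (nat_lit 361) (nat_lit 272)))) (XT.nd (nat_lit 78) (nat_lit 1596) (nat_lit 0) (XT.lf (nat_lit 0) (nat_lit 6097227140) (nat_lit 760)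 (nat_lit 2406104258) (nat_lit 836) (nat_lit 3485962321) (nat_lit 347) (nat_lit 5) (nat_lit 357) (nat_lit 5) (nat_lit 358) (nat_lit 5) (nat_lit 388) (nat_lit 361) (nat_lit 271)) (XT.nd (nat_lit 78) (nat_lit 836) (nat_lit 0) (XT.lf (nat_lit 0) (nat_lit 4285322168) (nat_lit 760) (nat_lit 7295529905) (nat_lit 836) (nat_lit 598246091) (nat_lit 337) (nat_lit 5) (nat_lit 347) (nat_lit 5) (nat_lit 348) (nat_lit 5) (nat_lit 389) (nat_lit 361) (nat_lit 270)) (XT.lf (nat_lit 0) (nat_lit 2384950720) (nat_lit 836) (nat_lit 9933485179) (nat_lit 76) (nat_lit 55058336) (nat_lit 326) (nat_lit 5) (nat_lit 337) (nat_lit 5) (nat_lit 327) (nat_lit 5) (nat_lit 390) (nat_lit 361) (nat_lit 269))))))))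
noncomputable def xc82 : XT := (XT.nd (nat_lit 1716) (nat_lit 5396) (nat_lit 0) (XT.nd (nat_lit 858) (nat_lit 5244) (nat_lit 0) (XT.nd (nat_lit 390) (nat_lit 3268) (nat_lit 0) (XT.nd (nat_lit 156) (nat_lit 2128) (nat_lit 0) (XT.nd (nat_lit 78) (nat_lit 0) (nat_lit 0) (XT.lf (nat_lit 0) (nat_lit 538330372) (nat_lit 760) (nat_lit 4985592277) (nat_lit 836) (nat_lit 7048238409) (nat_lit 316) (nat_lit 5) (nat_lit 326) (nat_lit 5) (nat_lit 327) (nat_lit 5) (nat_lit 391) (nat_lit 361) (nat_lit 268)) (XT.lf (nat_lit 0) (nat_lit 8810404752) (nat_lit 836) (nat_lit 1367119361) (nat_lit 76) (nat_lit 2598202872) (nat_lit 316) (nat_lit 5) (nat_lit 327) (nat_lit 5) (nat_lit 317) (nat_lit 5) (nat_lit 392) (nat_lit 361) (nat_lit 267))) (XT.nd (nat_lit 78) (nat_lit 1444) (nat_lit 0) (XT.lf (nat_lit 0) (nat_lit 9679378602) (nat_lit 684) (nat_lit 2582108530) (nat_lit 760) (nat_lit 722598391) (nat_lit 307) (nat_lit 5)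 (nat_lit 316) (nat_lit 5) (nat_lit 317) (nat_lit 5) (nat_lit 393) (nat_lit 361) (nat_lit 266)) (XT.nd (nat_lit 78) (nat_lit 684) (nat_lit 0) (XT.lf (nat_lit 0) (nat_lit 2648697348) (nat_lit 760) (nat_lit 5301496166) (nat_lit 76) (nat_lit 5246854536) (nat_lit 297) (nat_lit 5) (nat_lit 307) (nat_lit 5) (nat_lit 298) (nat_lit 5) (nat_lit 394) (nat_lit 361) (nat_lit 265)) (XT.lf (nat_lit 0) (nat_lit 6084973048) (nat_lit 684) (nat_lit 76621190) (nat_lit 760) (nat_lit 7253709409) (nat_lit 288) (nat_lit 5) (nat_lit 297) (nat_lit 5) (nat_lit 298) (nat_lit 5) (nat_lit 395) (nat_lit 361) (nat_lit 264))))) (XT.nd (nat_lit 234) (nat_lit 1292) (nat_lit 0) (XT.nd (nat_lit 78) (nat_lit 1292) (nat_lit 0) (XT.lf (nat_lit 0) (nat_lit 4215423320) (nat_lit 684) (nat_lit 5651651175) (nat_lit 760) (nat_lit 3771293643) (nat_lit 279) (nat_lit 5) (nat_lit 288) (nat_lit 5) (nat_lit 289) (nat_lit 5) (nat_lit 396) (nat_lit 361)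 (nat_lit 263)) (XT.nd (nat_lit 78) (nat_lit 684) (nat_lit 0) (XT.lf (nat_lit 0) (nat_lit 2320963122) (nat_lit 608) (nat_lit 11416154918) (nat_lit 684) (nat_lit 129943555) (nat_lit 271) (nat_lit 5) (nat_lit 279) (nat_lit 5) (nat_lit 280) (nat_lit 5) (nat_lit 397) (nat_lit 361) (nat_lit 262)) (XT.lf (nat_lit 0) (nat_lit 354263083) (nat_lit 608) (nat_lit 3295770259) (nat_lit 684) (nat_lit 10450579692) (nat_lit 262) (nat_lit 5) (nat_lit 270) (nat_lit 5) (nat_lit 271) (nat_lit 5) (nat_lit 398) (nat_lit 361) (nat_lit 261)))) (XT.nd (nat_lit 78) (nat_lit 1292) (nat_lit 0) (XT.lf (nat_lit 0) (nat_lit 7626367306) (nat_lit 684) (nat_lit 1637669483) (nat_lit 76) (nat_lit 5075427210) (nat_lit 262) (nat_lit 5) (nat_lit 271) (nat_lit 5) (nat_lit 263) (nat_lit 5) (nat_lit 399) (nat_lit 361) (nat_lit 260)) (XT.nd (nat_lit 78) (nat_lit 684) (nat_lit 0) (XT.lf (nat_lit 0) (nat_lit 10923012518) (nat_lit 608) (nat_lit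 865772160) (nat_lit 684) (nat_lit 2795364442) (nat_lit 254) (nat_lit 5) (nat_lit 262) (nat_lit 5) (nat_lit 263) (nat_lit 5) (nat_lit 400) (nat_lit 361) (nat_lit 259)) (XT.lf (nat_lit 0) (nat_lit 1319296430) (nat_lit 684) (nat_lit 5759892916) (nat_lit 76) (nat_lit 7754915555) (nat_lit 245) (nat_lit 5) (nat_lit 254) (nat_lit 5) (nat_lit 246) (nat_lit 5) (nat_lit 401) (nat_lit 361) (nat_lit 258)))))) (XT.nd (nat_lit 390) (nat_lit 2964) (nat_lit 0) (XT.nd (nat_lit 156) (nat_lit 1140) (nat_lit 0) (XT.nd (nat_lit 78) (nat_lit 608) (nat_lit 0) (XT.lf (nat_lit 0) (nat_lit 5582279038) (nat_lit 608) (nat_lit 7912582296) (nat_lit 76) (nat_lit 1595075426) (nat_lit 238) (nat_lit 5) (nat_lit 246) (nat_lit 5) (nat_lit 239) (nat_lit 5) (nat_lit 402) (nat_lit 361) (nat_lit 257)) (XT.lf (nat_lit 0) (nat_lit 5217558294) (nat_lit 608) (nat_lit 4851301759) (nat_lit 684) (nat_lit 5282673374) (nat_lit 230) (nat_lit 5) (nat_lit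 238) (nat_lit 5) (nat_lit 239) (nat_lit 5) (nat_lit 403) (nat_lit 361) (nat_lit 256))) (XT.nd (nat_lit 78) (nat_lit 608) (nat_lit 0) (XT.lf (nat_lit 0) (nat_lit 3213400752) (nat_lit 532) (nat_lit 11553451000) (nat_lit 608) (nat_lit 852593890) (nat_lit 223) (nat_lit 5) (nat_lit 230) (nat_lit 5) (nat_lit 231) (nat_lit 5) (nat_lit 404) (nat_lit 361) (nat_lit 255)) (XT.nd (nat_lit 78) (nat_lit 0) (nat_lit 0) (XT.lf (nat_lit 0) (nat_lit 1131857113) (nat_lit 532) (nat_lit 2614798970) (nat_lit 608) (nat_lit 12146562451) (nat_lit 215) (nat_lit 5) (nat_lit 222) (nat_lit 5) (nat_lit 223) (nat_lit 5) (nat_lit 405) (nat_lit 361) (nat_lit 254)) (XT.lf (nat_lit 0) (nat_lit 8576246832) (nat_lit 608) (nat_lit 1008665280) (nat_lit 76) (nat_lit 6588104468) (nat_lit 215) (nat_lit 5) (nat_lit 223) (nat_lit 5) (nat_lit 216) (nat_lit 5) (nat_lit 406) (nat_lit 361) (nat_lit 253))))) (XT.nd (nat_lit 234) (nat_lit 1444) (nat_lit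 0) (XT.nd (nat_lit 78) (nat_lit 1064) (nat_lit 0) (XT.lf (nat_lit 0) (nat_lit 13282457373) (nat_lit 456) (nat_lit 349135415) (nat_lit 532) (nat_lit 2828001940) (nat_lit 209) (nat_lit 5) (nat_lit 215) (nat_lit 5) (nat_lit 216) (nat_lit 5) (nat_lit 407) (nat_lit 361) (nat_lit 252)) (XT.nd (nat_lit 78) (nat_lit 456) (nat_lit 0) (XT.lf (nat_lit 0) (nat_lit 2174704634) (nat_lit 608) (nat_lit 5447096857) (nat_lit 76) (nat_lit 9130337370) (nat_lit 201) (nat_lit 5) (nat_lit 209) (nat_lit 5) (nat_lit 202) (nat_lit 5) (nat_lit 408) (nat_lit 361) (nat_lit 251)) (XT.lf (nat_lit 0) (nat_lit 7363962757) (nat_lit 532) (nat_lit 7782450428) (nat_lit 76) (nat_lit 1905177679) (nat_lit 195) (nat_lit 5) (nat_lit 202) (nat_lit 5) (nat_lit 196) (nat_lit 5) (nat_lit 409) (nat_lit 361) (nat_lit 250)))) (XT.nd (nat_lit 78) (nat_lit 988) (nat_lit 0) (XT.lf (nat_lit 0) (nat_lit 7154299434) (nat_lit 456) (nat_lit 5667438271) (nat_lit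 532) (nat_lit 4536035091) (nat_lit 189) (nat_lit 5) (nat_lit 195) (nat_lit 5) (nat_lit 196) (nat_lit 5) (nat_lit 410) (nat_lit 361) (nat_lit 249)) (XT.nd (nat_lit 78) (nat_lit 456) (nat_lit 0) (XT.lf (nat_lit 0) (nat_lit 851271161) (nat_lit 532) (nat_lit 12695275686) (nat_lit 76) (nat_lit 4124671025) (nat_lit 182) (nat_lit 5) (nat_lit 189) (nat_lit 5) (nat_lit 183) (nat_lit 5) (nat_lit 411) (nat_lit 361) (nat_lit 248)) (XT.lf (nat_lit 0) (nat_lit 2694243348) (nat_lit 456) (nat_lit 3748602636) (nat_lit 532) (nat_lit 11548538037) (nat_lit 176) (nat_lit 5) (nat_lit 182) (nat_lit 5) (nat_lit 183) (nat_lit 5) (nat_lit 412) (nat_lit 361) (nat_lit 247))))))) (XT.nd (nat_lit 858) (nat_lit 1748) (nat_lit 0) (XT.nd (nat_lit 390) (nat_lit 1976) (nat_lit 0) (XT.nd (nat_lit 156) (nat_lit 1292) (nat_lit 0) (XT.nd (nat_lit 78) (nat_lit 0) (nat_lit 0) (XT.lf (nat_lit 0) (nat_lit 332401988) (nat_lit 380) (nat_lit 11979000511)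 (nat_lit 456) (nat_lit 6007570794) (nat_lit 171) (nat_lit 5) (nat_lit 176) (nat_lit 5) (nat_lit 177) (nat_lit 5) (nat_lit 413) (nat_lit 361) (nat_lit 246)) (XT.lf (nat_lit 0) (nat_lit 16585314159) (nat_lit 380) (nat_lit 1878969533) (nat_lit 456) (nat_lit 189943935) (nat_lit 171) (nat_lit 5) (nat_lit 176) (nat_lit 5) (nat_lit 177) (nat_lit 5) (nat_lit 414) (nat_lit 361) (nat_lit 245))) (XT.nd (nat_lit 78) (nat_lit 760) (nat_lit 0) (XT.lf (nat_lit 0) (nat_lit 5856248198) (nat_lit 532) (nat_lit 4604270428) (nat_lit 76) (nat_lit 8535667469) (nat_lit 164) (nat_lit 5) (nat_lit 171) (nat_lit 5) (nat_lit 165) (nat_lit 5) (nat_lit 415) (nat_lit 361) (nat_lit 244)) (XT.nd (nat_lit 78) (nat_lit 380) (nat_lit 0) (XT.lf (nat_lit 0) (nat_lit 12143324161) (nat_lit 380) (nat_lit 23955228) (nat_lit 456) (nat_lit 7179380675) (nat_lit 159) (nat_lit 5) (nat_lit 164) (nat_lit 5) (nat_lit 165) (nat_lit 5) (nat_lit 416)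 (nat_lit 361) (nat_lit 243)) (XT.lf (nat_lit 0) (nat_lit 9779122476) (nat_lit 380) (nat_lit 9033879821) (nat_lit 456) (nat_lit 891741203) (nat_lit 154) (nat_lit 5) (nat_lit 159) (nat_lit 5) (nat_lit 160) (nat_lit 5) (nat_lit 417) (nat_lit 361) (nat_lit 242))))) (XT.nd (nat_lit 234) (nat_lit 760) (nat_lit 0) (XT.nd (nat_lit 78) (nat_lit 760) (nat_lit 0) (XT.lf (nat_lit 0) (nat_lit 5600520459) (nat_lit 456) (nat_lit 12754572084) (nat_lit 76) (nat_lit 1715969367) (nat_lit 148) (nat_lit 5) (nat_lit 154) (nat_lit 5) (nat_lit 149) (nat_lit 5) (nat_lit 418) (nat_lit 361) (nat_lit 241)) (XT.nd (nat_lit 78) (nat_lit 380) (nat_lit 0) (XT.lf (nat_lit 0) (nat_lit 4731662570) (nat_lit 380) (nat_lit 7684061121) (nat_lit 456) (nat_lit 8029724788) (nat_lit 143) (nat_lit 5) (nat_lit 148) (nat_lit 5) (nat_lit 149) (nat_lit 5) (nat_lit 419) (nat_lit 361) (nat_lit 240)) (XT.lf (nat_lit 0) (nat_lit 2064645771) (nat_lit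 380) (nat_lit 17474295942) (nat_lit 456) (nat_lit 1290055968) (nat_lit 138) (nat_lit 5) (nat_lit 143) (nat_lit 5) (nat_lit 144) (nat_lit 5) (nat_lit 420) (nat_lit 361) (nat_lit 239)))) (XT.nd (nat_lit 78) (nat_lit 684) (nat_lit 0) (XT.lf (nat_lit 0) (nat_lit 5718165212) (nat_lit 456) (nat_lit 747094880) (nat_lit 76) (nat_lit 14755251729) (nat_lit 137) (nat_lit 5) (nat_lit 143) (nat_lit 5) (nat_lit 138) (nat_lit 5) (nat_lit 421) (nat_lit 361) (nat_lit 238)) (XT.nd (nat_lit 78) (nat_lit 304) (nat_lit 0) (XT.lf (nat_lit 0) (nat_lit 13051001894) (nat_lit 456) (nat_lit 3642850320) (nat_lit 76) (nat_lit 4927112754) (nat_lit 132) (nat_lit 5) (nat_lit 138) (nat_lit 5) (nat_lit 133) (nat_lit 5) (nat_lit 422) (nat_lit 361) (nat_lit 237)) (XT.lf (nat_lit 0) (nat_lit 15373391617) (nat_lit 304) (nat_lit 5361295632) (nat_lit 380) (nat_lit 1296129171) (nat_lit 128) (nat_lit 5) (nat_lit 132) (nat_lit 5) (nat_lit 133)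 (nat_lit 5) (nat_lit 423) (nat_lit 361) (nat_lit 236)))))) (XT.nd (nat_lit 48282) (nat_lit 0) (nat_lit 31236) (XT.nd (nat_lit 156) (nat_lit 988) (nat_lit 0) (XT.nd (nat_lit 78) (nat_lit 304) (nat_lit 0) (XT.lf (nat_lit 0) (nat_lit 6246504840) (nat_lit 456) (nat_lit 9835868075) (nat_lit 76) (nat_lit 6367150912) (nat_lit 122) (nat_lit 5) (nat_lit 128) (nat_lit 5) (nat_lit 123) (nat_lit 5) (nat_lit 424) (nat_lit 361) (nat_lit 235)) (XT.lf (nat_lit 0) (nat_lit 9730329081) (nat_lit 304) (nat_lit 4395219121) (nat_lit 380) (nat_lit 8752519944) (nat_lit 118) (nat_lit 5) (nat_lit 122) (nat_lit 5) (nat_lit 123) (nat_lit 5) (nat_lit 425) (nat_lit 361) (nat_lit 234))) (XT.nd (nat_lit 78) (nat_lit 684) (nat_lit 0) (XT.lf (nat_lit 0) (nat_lit 6711562725) (nat_lit 304) (nat_lit 15673144404) (nat_lit 380) (nat_lit 931888558) (nat_lit 114) (nat_lit 5) (nat_lit 118) (nat_lit 5) (nat_lit 119) (nat_lit 5) (nat_lit 426)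 (nat_lit 361) (nat_lit 233)) (XT.nd (nat_lit 78) (nat_lit 304) (nat_lit 0) (XT.lf (nat_lit 0) (nat_lit 3523898480) (nat_lit 304) (nat_lit 3631654130) (nat_lit 380) (nat_lit 16609290845) (nat_lit 109) (nat_lit 5) (nat_lit 113) (nat_lit 5) (nat_lit 114) (nat_lit 5) (nat_lit 427) (nat_lit 361) (nat_lit 232)) (XT.lf (nat_lit 0) (nat_lit 171998585) (nat_lit 304) (nat_lit 15456265230) (nat_lit 380) (nat_lit 8595047137) (nat_lit 105) (nat_lit 5) (nat_lit 109) (nat_lit 5) (nat_lit 110) (nat_lit 5) (nat_lit 428) (nat_lit 361) (nat_lit 231))))) (XT.nd (nat_lit 234) (nat_lit 1444) (nat_lit 0) (XT.nd (nat_lit 78) (nat_lit 0) (nat_lit 0) (XT.lf (nat_lit 0) (nat_lit 1023036157) (nat_lit 0) (nat_lit 1023036157) (nat_lit 1444) (nat_lit 2208580133) (nat_lit 535) (nat_lit 5) (nat_lit 535) (nat_lit 3) (nat_lit 554) (nat_lit 3) (nat_lit 362) (nat_lit 362) (nat_lit 296)) (XT.nd (nat_lit 78) (nat_lit 0) (nat_lit 0) (XT.lf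 (nat_lit 0) (nat_lit 5699763949) (nat_lit 1444) (nat_lit 257830771) (nat_lit 1520) (nat_lit 2648045512) (nat_lit 535) (nat_lit 5) (nat_lit 554) (nat_lit 3) (nat_lit 555) (nat_lit 5) (nat_lit 363) (nat_lit 362) (nat_lit 295)) (XT.lf (nat_lit 76) (nat_lit 6169732740) (nat_lit 0) (nat_lit 1180148386) (nat_lit 1520) (nat_lit 1355113927) (nat_lit 536) (nat_lit 5) (nat_lit 535) (nat_lit 5) (nat_lit 555) (nat_lit 5) (nat_lit 364) (nat_lit 362) (nat_lit 294)))) (XT.nd (nat_lit 78) (nat_lit 0) (nat_lit 0) (XT.lf (nat_lit 0) (nat_lit 233080256) (nat_lit 1520) (nat_lit 4826787144) (nat_lit 1596) (nat_lit 3747564068) (nat_lit 516) (nat_lit 5) (nat_lit 536) (nat_lit 5) (nat_lit 537) (nat_lit 5) (nat_lit 365) (nat_lit 362) (nat_lit 293)) (XT.nd (nat_lit 78) (nat_lit 0) (nat_lit 76) (XT.lf (nat_lit 76) (nat_lit 1788194140) (nat_lit 0) (nat_lit 42544841) (nat_lit 1596) (nat_lit 7082431948) (nat_lit 517) (nat_lit 5)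 (nat_lit 516) (nat_lit 5) (nat_lit 537) (nat_lit 5) (nat_lit 366) (nat_lit 362) (nat_lit 292)) (XT.lf (nat_lit 0) (nat_lit 3487453634) (nat_lit 1520) (nat_lit 420296693) (nat_lit 1596) (nat_lit 5114123011) (nat_lit 517) (nat_lit 5) (nat_lit 537) (nat_lit 5) (nat_lit 538) (nat_lit 5) (nat_lit 367) (nat_lit 362) (nat_lit 291))))))))
noncomputable def xc83 : XT := (XT.nd (nat_lit 1716) (nat_lit 12008) (nat_lit 0) (XT.nd (nat_lit 858) (nat_lit 10032) (nat_lit 0) (XT.nd (nat_lit 390) (nat_lit 1444) (nat_lit 0) (XT.nd (nat_lit 156) (nat_lit 1520) (nat_lit 0) (XT.nd (nat_lit 78) (nat_lit 0) (nat_lit 0) (XT.lf (nat_lit 0) (nat_lit 5191940537) (nat_lit 1520) (nat_lit 2603975110) (nat_lit 1596) (nat_lit 1337972656) (nat_lit 518) (nat_lit 5) (nat_lit 538) (nat_lit 5) (nat_lit 539) (nat_lit 5) (nat_lit 368) (nat_lit 362) (nat_lit 290)) (XT.lf (nat_lit 76) (nat_lit 4444541284) (nat_lit 0) (nat_lit 2508892127) (nat_lit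 1596) (nat_lit 2295725406) (nat_lit 519) (nat_lit 5) (nat_lit 518) (nat_lit 5) (nat_lit 539) (nat_lit 5) (nat_lit 369) (nat_lit 362) (nat_lit 289))) (XT.nd (nat_lit 78) (nat_lit 1596) (nat_lit 0) (XT.lf (nat_lit 76) (nat_lit 2350882938) (nat_lit 0) (nat_lit 6418420301) (nat_lit 1596) (nat_lit 598565722) (nat_lit 520) (nat_lit 5) (nat_lit 519) (nat_lit 5) (nat_lit 540) (nat_lit 5) (nat_lit 370) (nat_lit 362) (nat_lit 288)) (XT.nd (nat_lit 78) (nat_lit 0) (nat_lit 76) (XT.lf (nat_lit 76) (nat_lit 242532301) (nat_lit 0) (nat_lit 893386832) (nat_lit 1672) (nat_lit 8354053858) (nat_lit 499) (nat_lit 5) (nat_lit 498) (nat_lit 5) (nat_lit 520) (nat_lit 5) (nat_lit 371) (nat_lit 362) (nat_lit 287)) (XT.lf (nat_lit 0) (nat_lit 2945057190) (nat_lit 1596) (nat_lit 1868421878) (nat_lit 1672) (nat_lit 4801578164) (nat_lit 499) (nat_lit 5) (nat_lit 520) (nat_lit 5) (nat_lit 521) (nat_lit 5) (nat_lit 372) (nat_lit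 362) (nat_lit 286))))) (XT.nd (nat_lit 234) (nat_lit 1596) (nat_lit 0) (XT.nd (nat_lit 78) (nat_lit 0) (nat_lit 0) (XT.lf (nat_lit 0) (nat_lit 4811253019) (nat_lit 1596) (nat_lit 3981642566) (nat_lit 1672) (nat_lit 950953653) (nat_lit 500) (nat_lit 5) (nat_lit 521) (nat_lit 5) (nat_lit 522) (nat_lit 5) (nat_lit 373) (nat_lit 362) (nat_lit 285)) (XT.nd (nat_lit 78) (nat_lit 0) (nat_lit 76) (XT.lf (nat_lit 76) (nat_lit 3754508898) (nat_lit 0) (nat_lit 3002577407) (nat_lit 1672) (nat_lit 3118956260) (nat_lit 501) (nat_lit 5) (nat_lit 500) (nat_lit 5) (nat_lit 522) (nat_lit 5) (nat_lit 374) (nat_lit 362) (nat_lit 284)) (XT.lf (nat_lit 76) (nat_lit 1734964081) (nat_lit 0) (nat_lit 7039513082) (nat_lit 1672) (nat_lit 1237471160) (nat_lit 502) (nat_lit 5) (nat_lit 501) (nat_lit 5) (nat_lit 523) (nat_lit 5) (nat_lit 375) (nat_lit 362) (nat_lit 283)))) (XT.nd (nat_lit 78) (nat_lit 0) (nat_lit 76) (XT.lf (nat_lit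 0) (nat_lit 709419408) (nat_lit 1672) (nat_lit 299061839) (nat_lit 1748) (nat_lit 9143005888) (nat_lit 479) (nat_lit 5) (nat_lit 501) (nat_lit 5) (nat_lit 502) (nat_lit 5) (nat_lit 376) (nat_lit 362) (nat_lit 282)) (XT.nd (nat_lit 78) (nat_lit 0) (nat_lit 76) (XT.lf (nat_lit 0) (nat_lit 2741649671) (nat_lit 1672) (nat_lit 2347525678) (nat_lit 1748) (nat_lit 5205007766) (nat_lit 480) (nat_lit 5) (nat_lit 502) (nat_lit 5) (nat_lit 503) (nat_lit 5) (nat_lit 377) (nat_lit 362) (nat_lit 281)) (XT.lf (nat_lit 0) (nat_lit 4849318356) (nat_lit 1672) (nat_lit 4407000371) (nat_lit 76) (nat_lit 1184561044) (nat_lit 481) (nat_lit 5) (nat_lit 503) (nat_lit 5) (nat_lit 482) (nat_lit 5) (nat_lit 378) (nat_lit 362) (nat_lit 280)))))) (XT.nd (nat_lit 390) (nat_lit 4332) (nat_lit 0) (XT.nd (nat_lit 156) (nat_lit 2432) (nat_lit 0) (XT.nd (nat_lit 78) (nat_lit 1748) (nat_lit 0) (XT.lf (nat_lit 0) (nat_lit 4093043661)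 (nat_lit 1672) (nat_lit 2963500805) (nat_lit 1748) (nat_lit 3534715270) (nat_lit 459) (nat_lit 5) (nat_lit 481) (nat_lit 5) (nat_lit 482) (nat_lit 5) (nat_lit 379) (nat_lit 362) (nat_lit 279)) (XT.lf (nat_lit 0) (nat_lit 2133816661) (nat_lit 1748) (nat_lit 7223632322) (nat_lit 1824) (nat_lit 1388161584) (nat_lit 436) (nat_lit 5) (nat_lit 459) (nat_lit 5) (nat_lit 460) (nat_lit 5) (nat_lit 380) (nat_lit 362) (nat_lit 278))) (XT.nd (nat_lit 78) (nat_lit 912) (nat_lit 0) (XT.lf (nat_lit 0) (nat_lit 152639446) (nat_lit 1444) (nat_lit 685862733) (nat_lit 1520) (nat_lit 10065461089) (nat_lit 416) (nat_lit 5) (nat_lit 435) (nat_lit 5) (nat_lit 436) (nat_lit 5) (nat_lit 381) (nat_lit 362) (nat_lit 277)) (XT.nd (nat_lit 78) (nat_lit 912) (nat_lit 0) (XT.lf (nat_lit 0) (nat_lit 3173530175) (nat_lit 1520) (nat_lit 1851149442) (nat_lit 76) (nat_lit 6041002976) (nat_lit 416) (nat_lit 5) (nat_lit 436) (nat_lit 5)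 (nat_lit 417) (nat_lit 5) (nat_lit 382) (nat_lit 362) (nat_lit 276)) (XT.lf (nat_lit 0) (nat_lit 5606042710) (nat_lit 988) (nat_lit 3868538155) (nat_lit 76) (nat_lit 1757131761) (nat_lit 404) (nat_lit 5) (nat_lit 417) (nat_lit 5) (nat_lit 405) (nat_lit 5) (nat_lit 383) (nat_lit 362) (nat_lit 275))))) (XT.nd (nat_lit 234) (nat_lit 1596) (nat_lit 0) (XT.nd (nat_lit 78) (nat_lit 1824) (nat_lit 0) (XT.lf (nat_lit 0) (nat_lit 5481595515) (nat_lit 912) (nat_lit 2676032182) (nat_lit 988) (nat_lit 3244181498) (nat_lit 392) (nat_lit 5) (nat_lit 404) (nat_lit 5) (nat_lit 405) (nat_lit 5) (nat_lit 384) (nat_lit 362) (nat_lit 274)) (XT.nd (nat_lit 78) (nat_lit 912) (nat_lit 0) (XT.lf (nat_lit 0) (nat_lit 3573726108) (nat_lit 912) (nat_lit 7254833394) (nat_lit 988) (nat_lit 747600528) (nat_lit 380) (nat_lit 5) (nat_lit 392) (nat_lit 5) (nat_lit 393) (nat_lit 5) (nat_lit 385) (nat_lit 362) (nat_lit 273)) (XT.lf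 (nat_lit 0) (nat_lit 1636541912) (nat_lit 836) (nat_lit 198006346) (nat_lit 912) (nat_lit 9920271480) (nat_lit 368) (nat_lit 5) (nat_lit 379) (nat_lit 5) (nat_lit 380) (nat_lit 5) (nat_lit 386) (nat_lit 362) (nat_lit 272)))) (XT.nd (nat_lit 78) (nat_lit 1596) (nat_lit 0) (XT.lf (nat_lit 0) (nat_lit 4551030910) (nat_lit 912) (nat_lit 348432033) (nat_lit 76) (nat_lit 7037943731) (nat_lit 368) (nat_lit 5) (nat_lit 380) (nat_lit 5) (nat_lit 369) (nat_lit 5) (nat_lit 387) (nat_lit 362) (nat_lit 271)) (XT.nd (nat_lit 78) (nat_lit 760) (nat_lit 0) (XT.lf (nat_lit 0) (nat_lit 7397234355) (nat_lit 912) (nat_lit 2331414717) (nat_lit 76) (nat_lit 2395864218) (nat_lit 357) (nat_lit 5) (nat_lit 369) (nat_lit 5) (nat_lit 358) (nat_lit 5) (nat_lit 388) (nat_lit 362) (nat_lit 270)) (XT.lf (nat_lit 0) (nat_lit 7965376778) (nat_lit 760) (nat_lit 2418494773) (nat_lit 836) (nat_lit 1932267008) (nat_lit 347) (nat_lit 5)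 (nat_lit 357) (nat_lit 5) (nat_lit 358) (nat_lit 5) (nat_lit 389) (nat_lit 362) (nat_lit 269))))))) (XT.nd (nat_lit 858) (nat_lit 5548) (nat_lit 0) (XT.nd (nat_lit 390) (nat_lit 3344) (nat_lit 0) (XT.nd (nat_lit 156) (nat_lit 1520) (nat_lit 0) (XT.nd (nat_lit 78) (nat_lit 760) (nat_lit 0) (XT.lf (nat_lit 0) (nat_lit 992171274) (nat_lit 836) (nat_lit 6415200821) (nat_lit 76) (nat_lit 5104863856) (nat_lit 336) (nat_lit 5) (nat_lit 347) (nat_lit 5) (nat_lit 337) (nat_lit 5) (nat_lit 390) (nat_lit 362) (nat_lit 268)) (XT.lf (nat_lit 0) (nat_lit 4021876249) (nat_lit 836) (nat_lit 8517047416) (nat_lit 76) (nat_lit 174167365) (nat_lit 326) (nat_lit 5) (nat_lit 337) (nat_lit 5) (nat_lit 327) (nat_lit 5) (nat_lit 391) (nat_lit 362) (nat_lit 267))) (XT.nd (nat_lit 78) (nat_lit 760) (nat_lit 0) (XT.lf (nat_lit 0) (nat_lit 2241107811) (nat_lit 760) (nat_lit 4979266723) (nat_lit 836) (nat_lit 5698044930) (nat_lit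 316) (nat_lit 5) (nat_lit 326) (nat_lit 5) (nat_lit 327) (nat_lit 5) (nat_lit 392) (nat_lit 362) (nat_lit 266)) (XT.nd (nat_lit 78) (nat_lit 76) (nat_lit 0) (XT.lf (nat_lit 0) (nat_lit 261826975) (nat_lit 684) (nat_lit 10301722271) (nat_lit 760) (nat_lit 2565389658) (nat_lit 307) (nat_lit 5) (nat_lit 316) (nat_lit 5) (nat_lit 317) (nat_lit 5) (nat_lit 393) (nat_lit 362) (nat_lit 265)) (XT.lf (nat_lit 0) (nat_lit 729851072) (nat_lit 760) (nat_lit 1739796932) (nat_lit 76) (nat_lit 10874499808) (nat_lit 306) (nat_lit 5) (nat_lit 316) (nat_lit 5) (nat_lit 307) (nat_lit 5) (nat_lit 394) (nat_lit 362) (nat_lit 264))))) (XT.nd (nat_lit 234) (nat_lit 1292) (nat_lit 0) (XT.nd (nat_lit 78) (nat_lit 1368) (nat_lit 0) (XT.lf (nat_lit 0) (nat_lit 4161769352) (nat_lit 760) (nat_lit 3800631493) (nat_lit 76) (nat_lit 5601624676) (nat_lit 297) (nat_lit 5) (nat_lit 307) (nat_lit 5) (nat_lit 298) (nat_lit 5) (nat_lit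 395) (nat_lit 362) (nat_lit 263)) (XT.nd (nat_lit 78) (nat_lit 684) (nat_lit 0) (XT.lf (nat_lit 0) (nat_lit 7749884172) (nat_lit 760) (nat_lit 5889942039) (nat_lit 76) (nat_lit 149613578) (nat_lit 288) (nat_lit 5) (nat_lit 298) (nat_lit 5) (nat_lit 289) (nat_lit 5) (nat_lit 396) (nat_lit 362) (nat_lit 262)) (XT.lf (nat_lit 0) (nat_lit 5974744041) (nat_lit 684) (nat_lit 5562006914) (nat_lit 760) (nat_lit 2483048219) (nat_lit 279) (nat_lit 5) (nat_lit 288) (nat_lit 5) (nat_lit 289) (nat_lit 5) (nat_lit 397) (nat_lit 362) (nat_lit 261)))) (XT.nd (nat_lit 78) (nat_lit 608) (nat_lit 0) (XT.lf (nat_lit 0) (nat_lit 1222947371) (nat_lit 684) (nat_lit 10241388343) (nat_lit 76) (nat_lit 2791419591) (nat_lit 270) (nat_lit 5) (nat_lit 279) (nat_lit 5) (nat_lit 271) (nat_lit 5) (nat_lit 398) (nat_lit 362) (nat_lit 260)) (XT.nd (nat_lit 78) (nat_lit 0) (nat_lit 0) (XT.lf (nat_lit 0) (nat_lit 1988342145) (nat_lit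 608) (nat_lit 3097299586) (nat_lit 684) (nat_lit 9411239545) (nat_lit 262) (nat_lit 5) (nat_lit 270) (nat_lit 5) (nat_lit 271) (nat_lit 5) (nat_lit 399) (nat_lit 362) (nat_lit 259)) (XT.lf (nat_lit 0) (nat_lit 9144515551) (nat_lit 684) (nat_lit 86536689) (nat_lit 76) (nat_lit 5512587175) (nat_lit 262) (nat_lit 5) (nat_lit 271) (nat_lit 5) (nat_lit 263) (nat_lit 5) (nat_lit 400) (nat_lit 362) (nat_lit 258)))))) (XT.nd (nat_lit 390) (nat_lit 2508) (nat_lit 0) (XT.nd (nat_lit 156) (nat_lit 1748) (nat_lit 0) (XT.nd (nat_lit 78) (nat_lit 684) (nat_lit 0) (XT.lf (nat_lit 0) (nat_lit 12825003408) (nat_lit 608) (nat_lit 579469345) (nat_lit 684) (nat_lit 1591745437) (nat_lit 254) (nat_lit 5) (nat_lit 262) (nat_lit 5) (nat_lit 263) (nat_lit 5) (nat_lit 401) (nat_lit 362) (nat_lit 257)) (XT.lf (nat_lit 0) (nat_lit 2604716410) (nat_lit 684) (nat_lit 4344121400) (nat_lit 76) (nat_lit 8305168854) (nat_lit 245) (nat_lit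 5) (nat_lit 254) (nat_lit 5) (nat_lit 246) (nat_lit 5) (nat_lit 402) (nat_lit 362) (nat_lit 256))) (XT.nd (nat_lit 78) (nat_lit 1216) (nat_lit 0) (XT.lf (nat_lit 0) (nat_lit 6971676166) (nat_lit 608) (nat_lit 6564799066) (nat_lit 76) (nat_lit 1981522453) (nat_lit 238) (nat_lit 5) (nat_lit 246) (nat_lit 5) (nat_lit 239) (nat_lit 5) (nat_lit 403) (nat_lit 362) (nat_lit 255)) (XT.nd (nat_lit 78) (nat_lit 608) (nat_lit 0) (XT.lf (nat_lit 0) (nat_lit 6933528393) (nat_lit 608) (nat_lit 4633861001) (nat_lit 684) (nat_lit 4220567946) (nat_lit 230) (nat_lit 5) (nat_lit 238) (nat_lit 5) (nat_lit 239) (nat_lit 5) (nat_lit 404) (nat_lit 362) (nat_lit 254)) (XT.lf (nat_lit 0) (nat_lit 315308122) (nat_lit 608) (nat_lit 11201077872) (nat_lit 76) (nat_lit 4547934270) (nat_lit 222) (nat_lit 5) (nat_lit 230) (nat_lit 5) (nat_lit 223) (nat_lit 5) (nat_lit 405) (nat_lit 362) (nat_lit 253))))) (XT.nd (nat_lit 234) (nat_lit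 1520) (nat_lit 0) (XT.nd (nat_lit 78) (nat_lit 456) (nat_lit 0) (XT.lf (nat_lit 0) (nat_lit 2711764662) (nat_lit 532) (nat_lit 2304864806) (nat_lit 608) (nat_lit 11330055960) (nat_lit 215) (nat_lit 5) (nat_lit 222) (nat_lit 5) (nat_lit 223) (nat_lit 5) (nat_lit 406) (nat_lit 362) (nat_lit 252)) (XT.nd (nat_lit 78) (nat_lit 0) (nat_lit 0) (XT.lf (nat_lit 0) (nat_lit 488609062) (nat_lit 456) (nat_lit 9474403677) (nat_lit 532) (nat_lit 6672431772) (nat_lit 209) (nat_lit 5) (nat_lit 215) (nat_lit 5) (nat_lit 216) (nat_lit 5) (nat_lit 407) (nat_lit 362) (nat_lit 251)) (XT.lf (nat_lit 0) (nat_lit 15143975890) (nat_lit 532) (nat_lit 1753989827) (nat_lit 76) (nat_lit 33180189) (nat_lit 209) (nat_lit 5) (nat_lit 216) (nat_lit 5) (nat_lit 210) (nat_lit 5) (nat_lit 408) (nat_lit 362) (nat_lit 250)))) (XT.nd (nat_lit 78) (nat_lit 912) (nat_lit 0) (XT.lf (nat_lit 0) (nat_lit 3330527764) (nat_lit 608) (nat_lit 4104327164)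 (nat_lit 76) (nat_lit 9797876590) (nat_lit 201) (nat_lit 5) (nat_lit 209) (nat_lit 5) (nat_lit 202) (nat_lit 5) (nat_lit 409) (nat_lit 362) (nat_lit 249)) (XT.nd (nat_lit 78) (nat_lit 456) (nat_lit 0) (XT.lf (nat_lit 0) (nat_lit 8656003062) (nat_lit 532) (nat_lit 6515336869) (nat_lit 76) (nat_lit 2370221019) (nat_lit 195) (nat_lit 5) (nat_lit 202) (nat_lit 5) (nat_lit 196) (nat_lit 5) (nat_lit 410) (nat_lit 362) (nat_lit 248)) (XT.lf (nat_lit 0) (nat_lit 8845170247) (nat_lit 456) (nat_lit 5410728042) (nat_lit 532) (nat_lit 3601466831) (nat_lit 189) (nat_lit 5) (nat_lit 195) (nat_lit 5) (nat_lit 196) (nat_lit 5) (nat_lit 411) (nat_lit 362) (nat_lit 247))))))))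
noncomputable def xc84 : XT := (XT.nd (nat_lit 49686) (nat_lit 0) (nat_lit 18848) (XT.nd (nat_lit 858) (nat_lit 1748) (nat_lit 0) (XT.nd (nat_lit 390) (nat_lit 2432) (nat_lit 0) (XT.nd (nat_lit 156) (nat_lit 912) (nat_lit 0) (XT.nd (nat_lit 78) (nat_lit 456) (nat_lit 0) (XT.lf (nat_lit 0) (nat_lit 1914959425) (nat_lit 532) (nat_lit 11591830305) (nat_lit 76) (nat_lit 4673658243) (nat_lit 182) (nat_lit 5) (nat_lit 189) (nat_lit 5) (nat_lit 183) (nat_lit 5) (nat_lit 412) (nat_lit 362) (nat_lit 246)) (XT.lf (nat_lit 0) (nat_lit 4235293237) (nat_lit 456) (nat_lit 3418231607) (nat_lit 532) (nat_lit 10857113573) (nat_lit 176) (nat_lit 5) (nat_lit 182) (nat_lit 5) (nat_lit 183) (nat_lit 5) (nat_lit 413) (nat_lit 362) (nat_lit 245))) (XT.nd (nat_lit 78) (nat_lit 532) (nat_lit 0) (XT.lf (nat_lit 0) (nat_lit 1796232511) (nat_lit 380) (nat_lit 11884503535) (nat_lit 456) (nat_lit 5167671416) (nat_lit 171) (nat_lit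 5) (nat_lit 176) (nat_lit 5) (nat_lit 177) (nat_lit 5) (nat_lit 414) (nat_lit 362) (nat_lit 244)) (XT.nd (nat_lit 78) (nat_lit 456) (nat_lit 0) (XT.lf (nat_lit 0) (nat_lit 784348250) (nat_lit 456) (nat_lit 705079414) (nat_lit 76) (nat_lit 17704775015) (nat_lit 170) (nat_lit 5) (nat_lit 176) (nat_lit 5) (nat_lit 171) (nat_lit 5) (nat_lit 415) (nat_lit 362) (nat_lit 243)) (XT.lf (nat_lit 0) (nat_lit 6992870426) (nat_lit 532) (nat_lit 3324473475) (nat_lit 76) (nat_lit 9229384141) (nat_lit 164) (nat_lit 5) (nat_lit 171) (nat_lit 5) (nat_lit 165) (nat_lit 5) (nat_lit 416) (nat_lit 362) (nat_lit 242))))) (XT.nd (nat_lit 234) (nat_lit 1216) (nat_lit 0) (XT.nd (nat_lit 78) (nat_lit 836) (nat_lit 0) (XT.lf (nat_lit 0) (nat_lit 13477081357) (nat_lit 456) (nat_lit 6008334144) (nat_lit 76) (nat_lit 422627393) (nat_lit 159) (nat_lit 5) (nat_lit 165) (nat_lit 5) (nat_lit 160) (nat_lit 5) (nat_lit 417) (nat_lit 362)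 (nat_lit 241)) (XT.nd (nat_lit 78) (nat_lit 380) (nat_lit 0) (XT.lf (nat_lit 0) (nat_lit 26237607) (nat_lit 456) (nat_lit 8816865051) (nat_lit 76) (nat_lit 11434133260) (nat_lit 153) (nat_lit 5) (nat_lit 159) (nat_lit 5) (nat_lit 154) (nat_lit 5) (nat_lit 418) (nat_lit 362) (nat_lit 240)) (XT.lf (nat_lit 0) (nat_lit 6686009707) (nat_lit 456) (nat_lit 11743977682) (nat_lit 76) (nat_lit 2224744809) (nat_lit 148) (nat_lit 5) (nat_lit 154) (nat_lit 5) (nat_lit 149) (nat_lit 5) (nat_lit 419) (nat_lit 362) (nat_lit 239)))) (XT.nd (nat_lit 78) (nat_lit 836) (nat_lit 0) (XT.lf (nat_lit 0) (nat_lit 6244240484) (nat_lit 380) (nat_lit 7443605045) (nat_lit 456) (nat_lit 7352864571) (nat_lit 143) (nat_lit 5) (nat_lit 148) (nat_lit 5) (nat_lit 149) (nat_lit 5) (nat_lit 420) (nat_lit 362) (nat_lit 238)) (XT.nd (nat_lit 78) (nat_lit 456) (nat_lit 0) (XT.lf (nat_lit 0) (nat_lit 3489776232) (nat_lit 380) (nat_lit 17520600034)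 (nat_lit 456) (nat_lit 425680357) (nat_lit 138) (nat_lit 5) (nat_lit 143) (nat_lit 5) (nat_lit 144) (nat_lit 5) (nat_lit 421) (nat_lit 362) (nat_lit 237)) (XT.lf (nat_lit 0) (nat_lit 573094627) (nat_lit 380) (nat_lit 6185611469) (nat_lit 456) (nat_lit 15080940589) (nat_lit 132) (nat_lit 5) (nat_lit 137) (nat_lit 5) (nat_lit 138) (nat_lit 5) (nat_lit 422) (nat_lit 362) (nat_lit 236)))))) (XT.nd (nat_lit 390) (nat_lit 380) (nat_lit 0) (XT.nd (nat_lit 156) (nat_lit 1064) (nat_lit 0) (XT.nd (nat_lit 78) (nat_lit 304) (nat_lit 0) (XT.lf (nat_lit 0) (nat_lit 14294150371) (nat_lit 456) (nat_lit 2424658203) (nat_lit 76) (nat_lit 5533655331) (nat_lit 132) (nat_lit 5) (nat_lit 138) (nat_lit 5) (nat_lit 133) (nat_lit 5) (nat_lit 423) (nat_lit 362) (nat_lit 235)) (XT.lf (nat_lit 0) (nat_lit 17140534245) (nat_lit 304) (nat_lit 5051486657) (nat_lit 380) (nat_lit 482919351) (nat_lit 128) (nat_lit 5) (nat_lit 132)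 (nat_lit 5) (nat_lit 133) (nat_lit 5) (nat_lit 424) (nat_lit 362) (nat_lit 234))) (XT.nd (nat_lit 78) (nat_lit 608) (nat_lit 0) (XT.lf (nat_lit 0) (nat_lit 7261797041) (nat_lit 456) (nat_lit 8821576121) (nat_lit 76) (nat_lit 7022988205) (nat_lit 122) (nat_lit 5) (nat_lit 128) (nat_lit 5) (nat_lit 123) (nat_lit 5) (nat_lit 425) (nat_lit 362) (nat_lit 233)) (XT.nd (nat_lit 78) (nat_lit 304) (nat_lit 0) (XT.lf (nat_lit 0) (nat_lit 11310364010) (nat_lit 304) (nat_lit 4051097550) (nat_lit 380) (nat_lit 8186618087) (nat_lit 118) (nat_lit 5) (nat_lit 122) (nat_lit 5) (nat_lit 123) (nat_lit 5) (nat_lit 426) (nat_lit 362) (nat_lit 232)) (XT.lf (nat_lit 0) (nat_lit 8193161735) (nat_lit 304) (nat_lit 15662891356) (nat_lit 380) (nat_lit 143959318) (nat_lit 114) (nat_lit 5) (nat_lit 118) (nat_lit 5) (nat_lit 119) (nat_lit 5) (nat_lit 427) (nat_lit 362) (nat_lit 231))))) (XT.nd (nat_lit 48204) (nat_lit 0) (nat_lit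 30856) (XT.nd (nat_lit 48048) (nat_lit 0) (nat_lit 30856) (XT.lf (nat_lit 0) (nat_lit 4899705914) (nat_lit 304) (nat_lit 3260492949) (nat_lit 380) (nat_lit 16301709345) (nat_lit 109) (nat_lit 5) (nat_lit 113) (nat_lit 5) (nat_lit 114) (nat_lit 5) (nat_lit 428) (nat_lit 362) (nat_lit 230)) (XT.nd (nat_lit 78) (nat_lit 1520) (nat_lit 0) (XT.lf (nat_lit 0) (nat_lit 1810787185) (nat_lit 0) (nat_lit 1810787185) (nat_lit 1444) (nat_lit 730059407) (nat_lit 535) (nat_lit 5) (nat_lit 535) (nat_lit 3) (nat_lit 554) (nat_lit 3) (nat_lit 363) (nat_lit 363) (nat_lit 294)) (XT.lf (nat_lit 0) (nat_lit 5257561) (nat_lit 1520) (nat_lit 7513883729) (nat_lit 1596) (nat_lit 1285160204) (nat_lit 515) (nat_lit 5) (nat_lit 535) (nat_lit 5) (nat_lit 536) (nat_lit 5) (nat_lit 364) (nat_lit 363) (nat_lit 293)))) (XT.nd (nat_lit 78) (nat_lit 0) (nat_lit 76) (XT.lf (nat_lit 0) (nat_lit 1497115505) (nat_lit 1520) (nat_lit 1049237427)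 (nat_lit 1596) (nat_lit 6361787027) (nat_lit 515) (nat_lit 5) (nat_lit 535) (nat_lit 5) (nat_lit 536) (nat_lit 5) (nat_lit 365) (nat_lit 363) (nat_lit 292)) (XT.nd (nat_lit 78) (nat_lit 0) (nat_lit 0) (XT.lf (nat_lit 0) (nat_lit 3032579065) (nat_lit 1520) (nat_lit 3378811508) (nat_lit 1596) (nat_lit 2603739295) (nat_lit 516) (nat_lit 5) (nat_lit 536) (nat_lit 5) (nat_lit 537) (nat_lit 5) (nat_lit 366) (nat_lit 363) (nat_lit 291)) (XT.lf (nat_lit 76) (nat_lit 3408778263) (nat_lit 0) (nat_lit 1198227753) (nat_lit 1596) (nat_lit 4518478370) (nat_lit 517) (nat_lit 5) (nat_lit 516) (nat_lit 5) (nat_lit 537) (nat_lit 5) (nat_lit 367) (nat_lit 363) (nat_lit 290))))))) (XT.nd (nat_lit 858) (nat_lit 9272) (nat_lit 0) (XT.nd (nat_lit 390) (nat_lit 1368) (nat_lit 0) (XT.nd (nat_lit 156) (nat_lit 1520) (nat_lit 0) (XT.nd (nat_lit 78) (nat_lit 0) (nat_lit 76) (XT.lf (nat_lit 76) (nat_lit 1164419513) (nat_lit 0)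 (nat_lit 5070023440) (nat_lit 1596) (nat_lit 3004603569) (nat_lit 518) (nat_lit 5) (nat_lit 517) (nat_lit 5) (nat_lit 538) (nat_lit 5) (nat_lit 368) (nat_lit 363) (nat_lit 289)) (XT.lf (nat_lit 0) (nat_lit 7909298305) (nat_lit 1520) (nat_lit 1067158045) (nat_lit 1596) (nat_lit 379599425) (nat_lit 518) (nat_lit 5) (nat_lit 538) (nat_lit 5) (nat_lit 539) (nat_lit 5) (nat_lit 369) (nat_lit 363) (nat_lit 288))) (XT.nd (nat_lit 78) (nat_lit 0) (nat_lit 76) (XT.lf (nat_lit 0) (nat_lit 180849726) (nat_lit 1596) (nat_lit 3310664654) (nat_lit 1672) (nat_lit 5984550094) (nat_lit 497) (nat_lit 5) (nat_lit 518) (nat_lit 5) (nat_lit 519) (nat_lit 5) (nat_lit 370) (nat_lit 363) (nat_lit 287)) (XT.nd (nat_lit 78) (nat_lit 0) (nat_lit 0) (XT.lf (nat_lit 0) (nat_lit 1837574676) (nat_lit 1596) (nat_lit 5571927030) (nat_lit 1672) (nat_lit 2189992801) (nat_lit 498) (nat_lit 5) (nat_lit 519) (nat_lit 5) (nat_lit 520) (nat_lit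 5) (nat_lit 371) (nat_lit 363) (nat_lit 286)) (XT.lf (nat_lit 76) (nat_lit 1874579279) (nat_lit 0) (nat_lit 1680735029) (nat_lit 1672) (nat_lit 6171097782) (nat_lit 499) (nat_lit 5) (nat_lit 498) (nat_lit 5) (nat_lit 520) (nat_lit 5) (nat_lit 372) (nat_lit 363) (nat_lit 285))))) (XT.nd (nat_lit 234) (nat_lit 1520) (nat_lit 0) (XT.nd (nat_lit 78) (nat_lit 0) (nat_lit 76) (XT.lf (nat_lit 0) (nat_lit 5344457088) (nat_lit 1596) (nat_lit 295378347) (nat_lit 1672) (nat_lit 4216914939) (nat_lit 499) (nat_lit 5) (nat_lit 520) (nat_lit 5) (nat_lit 521) (nat_lit 5) (nat_lit 373) (nat_lit 363) (nat_lit 284)) (XT.nd (nat_lit 78) (nat_lit 0) (nat_lit 0) (XT.lf (nat_lit 0) (nat_lit 7205502468) (nat_lit 1596) (nat_lit 2448591209) (nat_lit 1672) (nat_lit 336550849) (nat_lit 500) (nat_lit 5) (nat_lit 521) (nat_lit 5) (nat_lit 522) (nat_lit 5) (nat_lit 374) (nat_lit 363) (nat_lit 283)) (XT.lf (nat_lit 76) (nat_lit 5492834939)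 (nat_lit 0) (nat_lit 3661899463) (nat_lit 1672) (nat_lit 973183980) (nat_lit 501) (nat_lit 5) (nat_lit 500) (nat_lit 5) (nat_lit 522) (nat_lit 5) (nat_lit 375) (nat_lit 363) (nat_lit 282)))) (XT.nd (nat_lit 78) (nat_lit 0) (nat_lit 0) (XT.lf (nat_lit 0) (nat_lit 894874584) (nat_lit 1672) (nat_lit 6841290092) (nat_lit 1748) (nat_lit 2532770198) (nat_lit 479) (nat_lit 5) (nat_lit 501) (nat_lit 5) (nat_lit 502) (nat_lit 5) (nat_lit 376) (nat_lit 363) (nat_lit 281)) (XT.nd (nat_lit 78) (nat_lit 0) (nat_lit 76) (XT.lf (nat_lit 76) (nat_lit 1336414160) (nat_lit 0) (nat_lit 1493016497) (nat_lit 1748) (nat_lit 7584158226) (nat_lit 480) (nat_lit 5) (nat_lit 479) (nat_lit 5) (nat_lit 502) (nat_lit 5) (nat_lit 377) (nat_lit 363) (nat_lit 280)) (XT.lf (nat_lit 0) (nat_lit 4860616766) (nat_lit 1672) (nat_lit 773329186) (nat_lit 1748) (nat_lit 4927873650) (nat_lit 480) (nat_lit 5) (nat_lit 502) (nat_lit 5) (nat_lit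 503) (nat_lit 5) (nat_lit 378) (nat_lit 363) (nat_lit 279)))))) (XT.nd (nat_lit 390) (nat_lit 4484) (nat_lit 0) (XT.nd (nat_lit 156) (nat_lit 3268) (nat_lit 0) (XT.nd (nat_lit 78) (nat_lit 1672) (nat_lit 0) (XT.lf (nat_lit 0) (nat_lit 6980296353) (nat_lit 1672) (nat_lit 2878668714) (nat_lit 76) (nat_lit 854989717) (nat_lit 481) (nat_lit 5) (nat_lit 503) (nat_lit 5) (nat_lit 482) (nat_lit 5) (nat_lit 379) (nat_lit 363) (nat_lit 278)) (XT.lf (nat_lit 0) (nat_lit 5849436324) (nat_lit 1672) (nat_lit 3357079294) (nat_lit 1748) (nat_lit 1663287859) (nat_lit 459) (nat_lit 5) (nat_lit 481) (nat_lit 5) (nat_lit 482) (nat_lit 5) (nat_lit 380) (nat_lit 363) (nat_lit 277))) (XT.nd (nat_lit 78) (nat_lit 1444) (nat_lit 0) (XT.lf (nat_lit 0) (nat_lit 492473874) (nat_lit 1824) (nat_lit 7187557334) (nat_lit 76) (nat_lit 3349654863) (nat_lit 435) (nat_lit 5) (nat_lit 459) (nat_lit 5) (nat_lit 436) (nat_lit 5) (nat_lit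 381) (nat_lit 363) (nat_lit 276)) (XT.nd (nat_lit 78) (nat_lit 0) (nat_lit 0) (XT.lf (nat_lit 0) (nat_lit 1803378346) (nat_lit 1444) (nat_lit 919052431) (nat_lit 1520) (nat_lit 8471079885) (nat_lit 416) (nat_lit 5) (nat_lit 435) (nat_lit 5) (nat_lit 436) (nat_lit 5) (nat_lit 382) (nat_lit 363) (nat_lit 275)) (XT.lf (nat_lit 0) (nat_lit 5072030354) (nat_lit 1520) (nat_lit 270653196) (nat_lit 76) (nat_lit 6018519136) (nat_lit 416) (nat_lit 5) (nat_lit 436) (nat_lit 5) (nat_lit 417) (nat_lit 5) (nat_lit 383) (nat_lit 363) (nat_lit 274))))) (XT.nd (nat_lit 234) (nat_lit 1672) (nat_lit 0) (XT.nd (nat_lit 78) (nat_lit 1900) (nat_lit 0) (XT.lf (nat_lit 0) (nat_lit 7534459845) (nat_lit 988) (nat_lit 2338523355) (nat_lit 76) (nat_lit 1660102788) (nat_lit 404) (nat_lit 5) (nat_lit 417) (nat_lit 5) (nat_lit 405) (nat_lit 5) (nat_lit 384) (nat_lit 363) (nat_lit 273)) (XT.nd (nat_lit 78) (nat_lit 988) (nat_lit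 0) (XT.lf (nat_lit 0) (nat_lit 7265408780) (nat_lit 912) (nat_lit 2856428591) (nat_lit 988) (nat_lit 1587274057) (nat_lit 392) (nat_lit 5) (nat_lit 404) (nat_lit 5) (nat_lit 405) (nat_lit 5) (nat_lit 385) (nat_lit 363) (nat_lit 272)) (XT.lf (nat_lit 0) (nat_lit 930876547) (nat_lit 988) (nat_lit 6586771688) (nat_lit 76) (nat_lit 4371735495) (nat_lit 379) (nat_lit 5) (nat_lit 392) (nat_lit 5) (nat_lit 380) (nat_lit 5) (nat_lit 386) (nat_lit 363) (nat_lit 271)))) (XT.nd (nat_lit 78) (nat_lit 836) (nat_lit 0) (XT.lf (nat_lit 0) (nat_lit 3309592660) (nat_lit 836) (nat_lit 232095088) (nat_lit 912) (nat_lit 8532399598) (nat_lit 368) (nat_lit 5) (nat_lit 379) (nat_lit 5) (nat_lit 380) (nat_lit 5) (nat_lit 387) (nat_lit 363) (nat_lit 270)) (XT.nd (nat_lit 78) (nat_lit 0) (nat_lit 0) (XT.lf (nat_lit 0) (nat_lit 1266968647) (nat_lit 836) (nat_lit 5032625290) (nat_lit 912) (nat_lit 5963369126) (nat_lit 357) (nat_lit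 5) (nat_lit 368) (nat_lit 5) (nat_lit 369) (nat_lit 5) (nat_lit 388) (nat_lit 363) (nat_lit 269)) (XT.lf (nat_lit 0) (nat_lit 9186625717) (nat_lit 912) (nat_lit 786667166) (nat_lit 76) (nat_lit 2483290622) (nat_lit 357) (nat_lit 5) (nat_lit 369) (nat_lit 5) (nat_lit 358) (nat_lit 5) (nat_lit 389) (nat_lit 363) (nat_lit 268))))))))
noncomputable def xc85 : XT := (XT.nd (nat_lit 1716) (nat_lit 6232) (nat_lit 0) (XT.nd (nat_lit 858) (nat_lit 5092) (nat_lit 0) (XT.nd (nat_lit 390) (nat_lit 3420) (nat_lit 0) (XT.nd (nat_lit 156) (nat_lit 2204) (nat_lit 0) (XT.nd (nat_lit 78) (nat_lit 836) (nat_lit 0) (XT.lf (nat_lit 0) (nat_lit 9792831647) (nat_lit 760) (nat_lit 2434689343) (nat_lit 836) (nat_lit 427152558) (nat_lit 347) (nat_lit 5) (nat_lit 357) (nat_lit 5) (nat_lit 358) (nat_lit 5) (nat_lit 390) (nat_lit 363) (nat_lit 267)) (XT.lf (nat_lit 0) (nat_lit 2530356866) (nat_lit 836) (nat_lit 4994509784) (nat_lit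 76) (nat_lit 5332276230) (nat_lit 336) (nat_lit 5) (nat_lit 347) (nat_lit 5) (nat_lit 337) (nat_lit 5) (nat_lit 391) (nat_lit 363) (nat_lit 266))) (XT.nd (nat_lit 78) (nat_lit 1444) (nat_lit 0) (XT.lf (nat_lit 0) (nat_lit 5618050499) (nat_lit 836) (nat_lit 7156532522) (nat_lit 76) (nat_lit 290107136) (nat_lit 326) (nat_lit 5) (nat_lit 337) (nat_lit 5) (nat_lit 327) (nat_lit 5) (nat_lit 392) (nat_lit 363) (nat_lit 265)) (XT.nd (nat_lit 78) (nat_lit 684) (nat_lit 0) (XT.lf (nat_lit 0) (nat_lit 3898149254) (nat_lit 760) (nat_lit 4981700318) (nat_lit 836) (nat_lit 4396990207) (nat_lit 316) (nat_lit 5) (nat_lit 326) (nat_lit 5) (nat_lit 327) (nat_lit 5) (nat_lit 393) (nat_lit 363) (nat_lit 264)) (XT.lf (nat_lit 0) (nat_lit 1861418294) (nat_lit 684) (nat_lit 10431136953) (nat_lit 760) (nat_lit 1201742851) (nat_lit 307) (nat_lit 5) (nat_lit 316) (nat_lit 5) (nat_lit 317) (nat_lit 5) (nat_lit 394) (nat_lit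 363) (nat_lit 263))))) (XT.nd (nat_lit 234) (nat_lit 1976) (nat_lit 0) (XT.nd (nat_lit 78) (nat_lit 1368) (nat_lit 0) (XT.lf (nat_lit 0) (nat_lit 2132052098) (nat_lit 760) (nat_lit 228017929) (nat_lit 76) (nat_lit 11356541985) (nat_lit 306) (nat_lit 5) (nat_lit 316) (nat_lit 5) (nat_lit 307) (nat_lit 5) (nat_lit 395) (nat_lit 363) (nat_lit 262)) (XT.nd (nat_lit 78) (nat_lit 684) (nat_lit 0) (XT.lf (nat_lit 0) (nat_lit 5637938375) (nat_lit 760) (nat_lit 2350026480) (nat_lit 76) (nat_lit 5955708390) (nat_lit 297) (nat_lit 5) (nat_lit 307) (nat_lit 5) (nat_lit 298) (nat_lit 5) (nat_lit 396) (nat_lit 363) (nat_lit 261)) (XT.lf (nat_lit 0) (nat_lit 9305742471) (nat_lit 760) (nat_lit 4502132733) (nat_lit 76) (nat_lit 368541006) (nat_lit 288) (nat_lit 5) (nat_lit 298) (nat_lit 5) (nat_lit 289) (nat_lit 5) (nat_lit 397) (nat_lit 363) (nat_lit 260)))) (XT.nd (nat_lit 78) (nat_lit 1292) (nat_lit 0) (XT.lf (nat_lit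 0) (nat_lit 7693111653) (nat_lit 684) (nat_lit 5484552110) (nat_lit 760) (nat_lit 1236600621) (nat_lit 279) (nat_lit 5) (nat_lit 288) (nat_lit 5) (nat_lit 289) (nat_lit 5) (nat_lit 398) (nat_lit 363) (nat_lit 259)) (XT.nd (nat_lit 78) (nat_lit 608) (nat_lit 0) (XT.lf (nat_lit 0) (nat_lit 2536885178) (nat_lit 684) (nat_lit 8993135512) (nat_lit 76) (nat_lit 3127640927) (nat_lit 270) (nat_lit 5) (nat_lit 279) (nat_lit 5) (nat_lit 271) (nat_lit 5) (nat_lit 399) (nat_lit 363) (nat_lit 258)) (XT.lf (nat_lit 0) (nat_lit 3578250841) (nat_lit 608) (nat_lit 2909943543) (nat_lit 684) (nat_lit 8418378750) (nat_lit 262) (nat_lit 5) (nat_lit 270) (nat_lit 5) (nat_lit 271) (nat_lit 5) (nat_lit 400) (nat_lit 363) (nat_lit 257)))))) (XT.nd (nat_lit 390) (nat_lit 2660) (nat_lit 0) (XT.nd (nat_lit 156) (nat_lit 1824) (nat_lit 0) (XT.nd (nat_lit 78) (nat_lit 0) (nat_lit 0) (XT.lf (nat_lit 0) (nat_lit 1438129783) (nat_lit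 608) (nat_lit 9205401373) (nat_lit 684) (nat_lit 4517715186) (nat_lit 254) (nat_lit 5) (nat_lit 262) (nat_lit 5) (nat_lit 263) (nat_lit 5) (nat_lit 401) (nat_lit 363) (nat_lit 256)) (XT.lf (nat_lit 0) (nat_lit 14693682735) (nat_lit 608) (nat_lit 302503365) (nat_lit 684) (nat_lit 425924477) (nat_lit 254) (nat_lit 5) (nat_lit 262) (nat_lit 5) (nat_lit 263) (nat_lit 5) (nat_lit 402) (nat_lit 363) (nat_lit 255))) (XT.nd (nat_lit 78) (nat_lit 1140) (nat_lit 0) (XT.lf (nat_lit 0) (nat_lit 3857182615) (nat_lit 684) (nat_lit 2977067058) (nat_lit 76) (nat_lit 8853697878) (nat_lit 245) (nat_lit 5) (nat_lit 254) (nat_lit 5) (nat_lit 246) (nat_lit 5) (nat_lit 403) (nat_lit 363) (nat_lit 254)) (XT.nd (nat_lit 78) (nat_lit 608) (nat_lit 0) (XT.lf (nat_lit 0) (nat_lit 8332611498) (nat_lit 608) (nat_lit 5267577047) (nat_lit 76) (nat_lit 2360126166) (nat_lit 238) (nat_lit 5) (nat_lit 246) (nat_lit 5) (nat_lit 239)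 (nat_lit 5) (nat_lit 404) (nat_lit 363) (nat_lit 253)) (XT.lf (nat_lit 0) (nat_lit 8611459167) (nat_lit 608) (nat_lit 4430733547) (nat_lit 684) (nat_lit 3196665964) (nat_lit 230) (nat_lit 5) (nat_lit 238) (nat_lit 5) (nat_lit 239) (nat_lit 5) (nat_lit 405) (nat_lit 363) (nat_lit 252))))) (XT.nd (nat_lit 234) (nat_lit 1064) (nat_lit 0) (XT.nd (nat_lit 78) (nat_lit 988) (nat_lit 0) (XT.lf (nat_lit 0) (nat_lit 1438880335) (nat_lit 608) (nat_lit 10055870986) (nat_lit 76) (nat_lit 5029043296) (nat_lit 222) (nat_lit 5) (nat_lit 230) (nat_lit 5) (nat_lit 223) (nat_lit 5) (nat_lit 406) (nat_lit 363) (nat_lit 251)) (XT.nd (nat_lit 78) (nat_lit 456) (nat_lit 0) (XT.lf (nat_lit 0) (nat_lit 4250325478) (nat_lit 532) (nat_lit 2007927112) (nat_lit 608) (nat_lit 10556842959) (nat_lit 215) (nat_lit 5) (nat_lit 222) (nat_lit 5) (nat_lit 223) (nat_lit 5) (nat_lit 407) (nat_lit 363) (nat_lit 250)) (XT.lf (nat_lit 0)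 (nat_lit 1956129121) (nat_lit 456) (nat_lit 9376858491) (nat_lit 532) (nat_lit 5779935478) (nat_lit 209) (nat_lit 5) (nat_lit 215) (nat_lit 5) (nat_lit 216) (nat_lit 5) (nat_lit 408) (nat_lit 363) (nat_lit 249)))) (XT.nd (nat_lit 78) (nat_lit 1064) (nat_lit 0) (XT.lf (nat_lit 0) (nat_lit 16640589577) (nat_lit 532) (nat_lit 377514578) (nat_lit 76) (nat_lit 399971924) (nat_lit 209) (nat_lit 5) (nat_lit 216) (nat_lit 5) (nat_lit 210) (nat_lit 5) (nat_lit 409) (nat_lit 363) (nat_lit 248)) (XT.nd (nat_lit 78) (nat_lit 456) (nat_lit 0) (XT.lf (nat_lit 0) (nat_lit 4458421721) (nat_lit 608) (nat_lit 2807735424) (nat_lit 76) (nat_lit 10462846066) (nat_lit 201) (nat_lit 5) (nat_lit 209) (nat_lit 5) (nat_lit 202) (nat_lit 5) (nat_lit 410) (nat_lit 363) (nat_lit 247)) (XT.lf (nat_lit 0) (nat_lit 9925317825) (nat_lit 532) (nat_lit 5296349739) (nat_lit 76) (nat_lit 2825801218) (nat_lit 195) (nat_lit 5) (nat_lit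 202) (nat_lit 5) (nat_lit 196) (nat_lit 5) (nat_lit 411) (nat_lit 363) (nat_lit 246))))))) (XT.nd (nat_lit 858) (nat_lit 1824) (nat_lit 0) (XT.nd (nat_lit 390) (nat_lit 2052) (nat_lit 0) (XT.nd (nat_lit 156) (nat_lit 1368) (nat_lit 0) (XT.nd (nat_lit 78) (nat_lit 532) (nat_lit 0) (XT.lf (nat_lit 0) (nat_lit 10502024864) (nat_lit 456) (nat_lit 5170812747) (nat_lit 532) (nat_lit 2700321173) (nat_lit 189) (nat_lit 5) (nat_lit 195) (nat_lit 5) (nat_lit 196) (nat_lit 5) (nat_lit 412) (nat_lit 363) (nat_lit 245)) (XT.lf (nat_lit 0) (nat_lit 2950964272) (nat_lit 532) (nat_lit 10540486664) (nat_lit 76) (nat_lit 5214704155) (nat_lit 182) (nat_lit 5) (nat_lit 189) (nat_lit 5) (nat_lit 183) (nat_lit 5) (nat_lit 413) (nat_lit 363) (nat_lit 244))) (XT.nd (nat_lit 78) (nat_lit 912) (nat_lit 0) (XT.lf (nat_lit 0) (nat_lit 5738751873) (nat_lit 456) (nat_lit 3103369648) (nat_lit 532) (nat_lit 10204524967) (nat_lit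 176) (nat_lit 5) (nat_lit 182) (nat_lit 5) (nat_lit 183) (nat_lit 5) (nat_lit 414) (nat_lit 363) (nat_lit 243)) (XT.nd (nat_lit 78) (nat_lit 532) (nat_lit 0) (XT.lf (nat_lit 0) (nat_lit 3220520527) (nat_lit 380) (nat_lit 11813225471) (nat_lit 456) (nat_lit 4361134492) (nat_lit 171) (nat_lit 5) (nat_lit 176) (nat_lit 5) (nat_lit 177) (nat_lit 5) (nat_lit 415) (nat_lit 363) (nat_lit 242)) (XT.lf (nat_lit 0) (nat_lit 624814313) (nat_lit 456) (nat_lit 1108437541) (nat_lit 532) (nat_lit 18018148141) (nat_lit 164) (nat_lit 5) (nat_lit 170) (nat_lit 5) (nat_lit 171) (nat_lit 5) (nat_lit 416) (nat_lit 363) (nat_lit 241))))) (XT.nd (nat_lit 234) (nat_lit 1216) (nat_lit 0) (XT.nd (nat_lit 78) (nat_lit 836) (nat_lit 0) (XT.lf (nat_lit 0) (nat_lit 8108429734) (nat_lit 532) (nat_lit 2087677312) (nat_lit 76) (nat_lit 9918789605) (nat_lit 164) (nat_lit 5) (nat_lit 171) (nat_lit 5) (nat_lit 165) (nat_lit 5) (nat_lit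 417) (nat_lit 363) (nat_lit 240)) (XT.nd (nat_lit 78) (nat_lit 456) (nat_lit 0) (XT.lf (nat_lit 0) (nat_lit 14772093944) (nat_lit 456) (nat_lit 4858636352) (nat_lit 76) (nat_lit 856625543) (nat_lit 159) (nat_lit 5) (nat_lit 165) (nat_lit 5) (nat_lit 160) (nat_lit 5) (nat_lit 418) (nat_lit 363) (nat_lit 239)) (XT.lf (nat_lit 0) (nat_lit 906169650) (nat_lit 456) (nat_lit 7761207806) (nat_lit 76) (nat_lit 12200483810) (nat_lit 153) (nat_lit 5) (nat_lit 159) (nat_lit 5) (nat_lit 154) (nat_lit 5) (nat_lit 419) (nat_lit 363) (nat_lit 238)))) (XT.nd (nat_lit 78) (nat_lit 836) (nat_lit 0) (XT.lf (nat_lit 0) (nat_lit 7751396892) (nat_lit 456) (nat_lit 10783042639) (nat_lit 76) (nat_lit 2722532834) (nat_lit 148) (nat_lit 5) (nat_lit 154) (nat_lit 5) (nat_lit 149) (nat_lit 5) (nat_lit 420) (nat_lit 363) (nat_lit 237)) (XT.nd (nat_lit 78) (nat_lit 456) (nat_lit 0) (XT.lf (nat_lit 0) (nat_lit 7723516080) (nat_lit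 380) (nat_lit 7222971344) (nat_lit 456) (nat_lit 6708381264) (nat_lit 143) (nat_lit 5) (nat_lit 148) (nat_lit 5) (nat_lit 149) (nat_lit 5) (nat_lit 421) (nat_lit 363) (nat_lit 236)) (XT.lf (nat_lit 0) (nat_lit 407372424) (nat_lit 456) (nat_lit 17185621978) (nat_lit 76) (nat_lit 4469301755) (nat_lit 137) (nat_lit 5) (nat_lit 143) (nat_lit 5) (nat_lit 138) (nat_lit 5) (nat_lit 422) (nat_lit 363) (nat_lit 235)))))) (XT.nd (nat_lit 390) (nat_lit 380) (nat_lit 0) (XT.nd (nat_lit 156) (nat_lit 1064) (nat_lit 0) (XT.nd (nat_lit 78) (nat_lit 0) (nat_lit 0) (XT.lf (nat_lit 0) (nat_lit 1865458271) (nat_lit 380) (nat_lit 5919892954) (nat_lit 456) (nat_lit 14692912382) (nat_lit 132) (nat_lit 5) (nat_lit 137) (nat_lit 5) (nat_lit 138) (nat_lit 5) (nat_lit 423) (nat_lit 363) (nat_lit 234)) (XT.lf (nat_lit 0) (nat_lit 15525706921) (nat_lit 456) (nat_lit 1246122969) (nat_lit 76) (nat_lit 6132061254) (nat_lit 132)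 (nat_lit 5) (nat_lit 138) (nat_lit 5) (nat_lit 133) (nat_lit 5) (nat_lit 424) (nat_lit 363) (nat_lit 233))) (XT.nd (nat_lit 78) (nat_lit 684) (nat_lit 0) (XT.lf (nat_lit 0) (nat_lit 301762829) (nat_lit 380) (nat_lit 4455612707) (nat_lit 76) (nat_lit 18581936986) (nat_lit 127) (nat_lit 5) (nat_lit 132) (nat_lit 5) (nat_lit 128) (nat_lit 5) (nat_lit 425) (nat_lit 363) (nat_lit 232)) (XT.nd (nat_lit 78) (nat_lit 304) (nat_lit 0) (XT.lf (nat_lit 0) (nat_lit 8260023331) (nat_lit 456) (nat_lit 7852018487) (nat_lit 76) (nat_lit 7671817888) (nat_lit 122) (nat_lit 5) (nat_lit 128) (nat_lit 5) (nat_lit 123) (nat_lit 5) (nat_lit 426) (nat_lit 363) (nat_lit 231)) (XT.lf (nat_lit 0) (nat_lit 12863856338) (nat_lit 304) (nat_lit 3723975425) (nat_lit 380) (nat_lit 7651297169) (nat_lit 118) (nat_lit 5) (nat_lit 122) (nat_lit 5) (nat_lit 123) (nat_lit 5) (nat_lit 427) (nat_lit 363) (nat_lit 230))))) (XT.nd (nat_lit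 48282) (nat_lit 0) (nat_lit 30552) (XT.nd (nat_lit 48126) (nat_lit 0) (nat_lit 30476) (XT.lf (nat_lit 0) (nat_lit 612631066) (nat_lit 380) (nat_lit 15063168218) (nat_lit 76) (nat_lit 9028974863) (nat_lit 113) (nat_lit 5) (nat_lit 118) (nat_lit 5) (nat_lit 114) (nat_lit 5) (nat_lit 428) (nat_lit 363) (nat_lit 229)) (XT.nd (nat_lit 78) (nat_lit 0) (nat_lit 0) (XT.lf (nat_lit 0) (nat_lit 694905428) (nat_lit 1596) (nat_lit 1879143796) (nat_lit 1596) (nat_lit 1879143796) (nat_lit 514) (nat_lit 3) (nat_lit 535) (nat_lit 3) (nat_lit 535) (nat_lit 5) (nat_lit 364) (nat_lit 364) (nat_lit 292)) (XT.lf (nat_lit 76) (nat_lit 2780319450) (nat_lit 0) (nat_lit 16051619) (nat_lit 1596) (nat_lit 6215565937) (nat_lit 515) (nat_lit 5) (nat_lit 514) (nat_lit 3) (nat_lit 535) (nat_lit 5) (nat_lit 365) (nat_lit 364) (nat_lit 291)))) (XT.nd (nat_lit 78) (nat_lit 0) (nat_lit 76) (XT.lf (nat_lit 76) (nat_lit 388248172) (nat_lit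 0) (nat_lit 3865866188) (nat_lit 1596) (nat_lit 4866373317) (nat_lit 516) (nat_lit 5) (nat_lit 515) (nat_lit 5) (nat_lit 536) (nat_lit 5) (nat_lit 366) (nat_lit 364) (nat_lit 290)) (XT.nd (nat_lit 78) (nat_lit 0) (nat_lit 0) (XT.lf (nat_lit 0) (nat_lit 5755761547) (nat_lit 1520) (nat_lit 1978828648) (nat_lit 1596) (nat_lit 1497713765) (nat_lit 516) (nat_lit 5) (nat_lit 536) (nat_lit 5) (nat_lit 537) (nat_lit 5) (nat_lit 367) (nat_lit 364) (nat_lit 289)) (XT.lf (nat_lit 76) (nat_lit 4988031242) (nat_lit 0) (nat_lit 2322313493) (nat_lit 1596) (nat_lit 2036984426) (nat_lit 517) (nat_lit 5) (nat_lit 516) (nat_lit 5) (nat_lit 537) (nat_lit 5) (nat_lit 368) (nat_lit 364) (nat_lit 288))))))))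
noncomputable def xc86 : XT := (XT.nd (nat_lit 1716) (nat_lit 11552) (nat_lit 0) (XT.nd (nat_lit 858) (nat_lit 9956) (nat_lit 0) (XT.nd (nat_lit 390) (nat_lit 1368) (nat_lit 0) (XT.nd (nat_lit 156) (nat_lit 0) (nat_lit 76) (XT.nd (nat_lit 78) (nat_lit 1596) (nat_lit 0) (XT.lf (nat_lit 76) (nat_lit 2710407048) (nat_lit 0) (nat_lit 6204436876) (nat_lit 1596) (nat_lit 550907430) (nat_lit 518) (nat_lit 5) (nat_lit 517) (nat_lit 5) (nat_lit 538) (nat_lit 5) (nat_lit 369) (nat_lit 364) (nat_lit 287)) (XT.lf (nat_lit 76) (nat_lit 418586581) (nat_lit 0) (nat_lit 548276239) (nat_lit 1672) (nat_lit 8620748195) (nat_lit 497) (nat_lit 5) (nat_lit 496) (nat_lit 5) (nat_lit 518) (nat_lit 5) (nat_lit 370) (nat_lit 364) (nat_lit 286))) (XT.nd (nat_lit 78) (nat_lit 0) (nat_lit 76) (XT.lf (nat_lit 0) (nat_lit 2556371154) (nat_lit 1596) (nat_lit 1880397572) (nat_lit 1672) (nat_lit 5275622026) (nat_lit 497) (nat_lit 5)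 (nat_lit 518) (nat_lit 5) (nat_lit 519) (nat_lit 5) (nat_lit 371) (nat_lit 364) (nat_lit 285)) (XT.nd (nat_lit 78) (nat_lit 0) (nat_lit 0) (XT.lf (nat_lit 0) (nat_lit 4198302411) (nat_lit 1596) (nat_lit 4182325768) (nat_lit 1672) (nat_lit 1460201543) (nat_lit 498) (nat_lit 5) (nat_lit 519) (nat_lit 5) (nat_lit 520) (nat_lit 5) (nat_lit 372) (nat_lit 364) (nat_lit 284)) (XT.lf (nat_lit 76) (nat_lit 3462319164) (nat_lit 0) (nat_lit 2448045185) (nat_lit 1672) (nat_lit 4062350340) (nat_lit 499) (nat_lit 5) (nat_lit 498) (nat_lit 5) (nat_lit 520) (nat_lit 5) (nat_lit 373) (nat_lit 364) (nat_lit 283))))) (XT.nd (nat_lit 234) (nat_lit 0) (nat_lit 76) (XT.nd (nat_lit 78) (nat_lit 1596) (nat_lit 0) (XT.lf (nat_lit 76) (nat_lit 1247703559) (nat_lit 0) (nat_lit 6443572723) (nat_lit 1672) (nat_lit 2416940145) (nat_lit 500) (nat_lit 5) (nat_lit 499) (nat_lit 5) (nat_lit 521) (nat_lit 5) (nat_lit 374) (nat_lit 364)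 (nat_lit 282)) (XT.nd (nat_lit 78) (nat_lit 1596) (nat_lit 0) (XT.lf (nat_lit 76) (nat_lit 9281307553) (nat_lit 0) (nat_lit 262824131) (nat_lit 1672) (nat_lit 703290905) (nat_lit 500) (nat_lit 5) (nat_lit 499) (nat_lit 5) (nat_lit 521) (nat_lit 5) (nat_lit 375) (nat_lit 364) (nat_lit 281)) (XT.lf (nat_lit 0) (nat_lit 1093877084) (nat_lit 1672) (nat_lit 3207106629) (nat_lit 1748) (nat_lit 6088771885) (nat_lit 478) (nat_lit 5) (nat_lit 500) (nat_lit 5) (nat_lit 501) (nat_lit 5) (nat_lit 376) (nat_lit 364) (nat_lit 280)))) (XT.nd (nat_lit 78) (nat_lit 0) (nat_lit 0) (XT.lf (nat_lit 0) (nat_lit 2950897307) (nat_lit 1672) (nat_lit 5466994286) (nat_lit 1748) (nat_lit 2118073143) (nat_lit 479) (nat_lit 5) (nat_lit 501) (nat_lit 5) (nat_lit 502) (nat_lit 5) (nat_lit 377) (nat_lit 364) (nat_lit 279)) (XT.nd (nat_lit 78) (nat_lit 0) (nat_lit 76) (XT.lf (nat_lit 76) (nat_lit 2930415022) (nat_lit 0) (nat_lit 1964061816)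 (nat_lit 1748) (nat_lit 5791475034) (nat_lit 480) (nat_lit 5) (nat_lit 479) (nat_lit 5) (nat_lit 502) (nat_lit 5) (nat_lit 378) (nat_lit 364) (nat_lit 278)) (XT.lf (nat_lit 76) (nat_lit 763701233) (nat_lit 0) (nat_lit 6167494173) (nat_lit 1748) (nat_lit 3908555027) (nat_lit 481) (nat_lit 5) (nat_lit 480) (nat_lit 5) (nat_lit 503) (nat_lit 5) (nat_lit 379) (nat_lit 364) (nat_lit 277)))))) (XT.nd (nat_lit 390) (nat_lit 4332) (nat_lit 0) (XT.nd (nat_lit 156) (nat_lit 4104) (nat_lit 0) (XT.nd (nat_lit 78) (nat_lit 1748) (nat_lit 0) (XT.lf (nat_lit 0) (nat_lit 9061227957) (nat_lit 1672) (nat_lit 1399808991) (nat_lit 76) (nat_lit 536489952) (nat_lit 481) (nat_lit 5) (nat_lit 503) (nat_lit 5) (nat_lit 482) (nat_lit 5) (nat_lit 380) (nat_lit 364) (nat_lit 276)) (XT.lf (nat_lit 0) (nat_lit 148790228) (nat_lit 1748) (nat_lit 3595186946) (nat_lit 76) (nat_lit 7414956678) (nat_lit 458) (nat_lit 5) (nat_lit 481)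 (nat_lit 5) (nat_lit 459) (nat_lit 5) (nat_lit 381) (nat_lit 364) (nat_lit 275))) (XT.nd (nat_lit 78) (nat_lit 2356) (nat_lit 0) (XT.lf (nat_lit 0) (nat_lit 2301505927) (nat_lit 1824) (nat_lit 5825931592) (nat_lit 76) (nat_lit 3196869479) (nat_lit 435) (nat_lit 5) (nat_lit 459) (nat_lit 5) (nat_lit 436) (nat_lit 5) (nat_lit 382) (nat_lit 364) (nat_lit 274)) (XT.nd (nat_lit 78) (nat_lit 912) (nat_lit 0) (XT.lf (nat_lit 0) (nat_lit 3409143112) (nat_lit 1444) (nat_lit 1147032916) (nat_lit 1520) (nat_lit 6937725208) (nat_lit 416) (nat_lit 5) (nat_lit 435) (nat_lit 5) (nat_lit 436) (nat_lit 5) (nat_lit 383) (nat_lit 364) (nat_lit 273)) (XT.lf (nat_lit 0) (nat_lit 1280132245) (nat_lit 912) (nat_lit 5652148293) (nat_lit 988) (nat_lit 4735234017) (nat_lit 404) (nat_lit 5) (nat_lit 416) (nat_lit 5) (nat_lit 417) (nat_lit 5) (nat_lit 384) (nat_lit 364) (nat_lit 272))))) (XT.nd (nat_lit 234) (nat_lit 2432) (nat_lit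 0) (XT.nd (nat_lit 78) (nat_lit 1900) (nat_lit 0) (XT.lf (nat_lit 0) (nat_lit 9419684755) (nat_lit 988) (nat_lit 857099317) (nat_lit 76) (nat_lit 1568758804) (nat_lit 404) (nat_lit 5) (nat_lit 417) (nat_lit 5) (nat_lit 405) (nat_lit 5) (nat_lit 385) (nat_lit 364) (nat_lit 271)) (XT.nd (nat_lit 78) (nat_lit 912) (nat_lit 0) (XT.lf (nat_lit 0) (nat_lit 18395989) (nat_lit 988) (nat_lit 3017970419) (nat_lit 76) (nat_lit 8991258807) (nat_lit 391) (nat_lit 5) (nat_lit 404) (nat_lit 5) (nat_lit 392) (nat_lit 5) (nat_lit 386) (nat_lit 364) (nat_lit 270)) (XT.lf (nat_lit 0) (nat_lit 2552549690) (nat_lit 988) (nat_lit 5228398106) (nat_lit 76) (nat_lit 4432917341) (nat_lit 379) (nat_lit 5) (nat_lit 392) (nat_lit 5) (nat_lit 380) (nat_lit 5) (nat_lit 387) (nat_lit 364) (nat_lit 269)))) (XT.nd (nat_lit 78) (nat_lit 1596) (nat_lit 0) (XT.lf (nat_lit 0) (nat_lit 4939613299) (nat_lit 836) (nat_lit 265590649) (nat_lit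 912) (nat_lit 7199645009) (nat_lit 368) (nat_lit 5) (nat_lit 379) (nat_lit 5) (nat_lit 380) (nat_lit 5) (nat_lit 388) (nat_lit 364) (nat_lit 268)) (XT.nd (nat_lit 78) (nat_lit 760) (nat_lit 0) (XT.lf (nat_lit 0) (nat_lit 2841996308) (nat_lit 836) (nat_lit 5168305860) (nat_lit 912) (nat_lit 4589808877) (nat_lit 357) (nat_lit 5) (nat_lit 368) (nat_lit 5) (nat_lit 369) (nat_lit 5) (nat_lit 389) (nat_lit 364) (nat_lit 267)) (XT.lf (nat_lit 0) (nat_lit 721191556) (nat_lit 760) (nat_lit 10223210277) (nat_lit 836) (nat_lit 1855938054) (nat_lit 347) (nat_lit 5) (nat_lit 357) (nat_lit 5) (nat_lit 358) (nat_lit 5) (nat_lit 390) (nat_lit 364) (nat_lit 266))))))) (XT.nd (nat_lit 858) (nat_lit 5092) (nat_lit 0) (XT.nd (nat_lit 390) (nat_lit 3344) (nat_lit 0) (XT.nd (nat_lit 156) (nat_lit 2280) (nat_lit 0) (XT.nd (nat_lit 78) (nat_lit 760) (nat_lit 0) (XT.lf (nat_lit 0) (nat_lit 1019834928) (nat_lit 836) (nat_lit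 1427926503) (nat_lit 76) (nat_lit 10557245574) (nat_lit 346) (nat_lit 5) (nat_lit 357) (nat_lit 5) (nat_lit 347) (nat_lit 5) (nat_lit 391) (nat_lit 364) (nat_lit 265)) (XT.lf (nat_lit 0) (nat_lit 4028098522) (nat_lit 836) (nat_lit 3623799256) (nat_lit 76) (nat_lit 5562247776) (nat_lit 336) (nat_lit 5) (nat_lit 347) (nat_lit 5) (nat_lit 337) (nat_lit 5) (nat_lit 392) (nat_lit 364) (nat_lit 264))) (XT.nd (nat_lit 78) (nat_lit 1520) (nat_lit 0) (XT.lf (nat_lit 0) (nat_lit 7177409210) (nat_lit 836) (nat_lit 5847968704) (nat_lit 76) (nat_lit 403169620) (nat_lit 326) (nat_lit 5) (nat_lit 337) (nat_lit 5) (nat_lit 327) (nat_lit 5) (nat_lit 393) (nat_lit 364) (nat_lit 263)) (XT.nd (nat_lit 78) (nat_lit 760) (nat_lit 0) (XT.lf (nat_lit 0) (nat_lit 5513640446) (nat_lit 760) (nat_lit 4992642130) (nat_lit 836) (nat_lit 3141402439) (nat_lit 316) (nat_lit 5) (nat_lit 326) (nat_lit 5) (nat_lit 327) (nat_lit 5) (nat_lit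 394) (nat_lit 364) (nat_lit 262)) (XT.lf (nat_lit 0) (nat_lit 118541190) (nat_lit 760) (nat_lit 10455409309) (nat_lit 76) (nat_lit 3298288502) (nat_lit 306) (nat_lit 5) (nat_lit 316) (nat_lit 5) (nat_lit 307) (nat_lit 5) (nat_lit 395) (nat_lit 364) (nat_lit 261))))) (XT.nd (nat_lit 234) (nat_lit 1976) (nat_lit 0) (XT.nd (nat_lit 78) (nat_lit 684) (nat_lit 0) (XT.lf (nat_lit 0) (nat_lit 1255806123) (nat_lit 684) (nat_lit 2249431375) (nat_lit 760) (nat_lit 10596448860) (nat_lit 297) (nat_lit 5) (nat_lit 306) (nat_lit 5) (nat_lit 307) (nat_lit 5) (nat_lit 396) (nat_lit 364) (nat_lit 260)) (XT.nd (nat_lit 78) (nat_lit 684) (nat_lit 0) (XT.lf (nat_lit 0) (nat_lit 7080821405) (nat_lit 760) (nat_lit 945719132) (nat_lit 76) (nat_lit 6309735447) (nat_lit 297) (nat_lit 5) (nat_lit 307) (nat_lit 5) (nat_lit 298) (nat_lit 5) (nat_lit 397) (nat_lit 364) (nat_lit 259)) (XT.lf (nat_lit 0) (nat_lit 10832310140) (nat_lit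 760) (nat_lit 3162498282) (nat_lit 76) (nat_lit 581726579) (nat_lit 288) (nat_lit 5) (nat_lit 298) (nat_lit 5) (nat_lit 289) (nat_lit 5) (nat_lit 398) (nat_lit 364) (nat_lit 258)))) (XT.nd (nat_lit 78) (nat_lit 1292) (nat_lit 0) (XT.lf (nat_lit 0) (nat_lit 9374678206) (nat_lit 684) (nat_lit 5418798342) (nat_lit 760) (nat_lit 28586900) (nat_lit 279) (nat_lit 5) (nat_lit 288) (nat_lit 5) (nat_lit 289) (nat_lit 5) (nat_lit 399) (nat_lit 364) (nat_lit 257)) (XT.nd (nat_lit 78) (nat_lit 608) (nat_lit 0) (XT.lf (nat_lit 0) (nat_lit 3816921780) (nat_lit 684) (nat_lit 7796726842) (nat_lit 76) (nat_lit 3459455589) (nat_lit 270) (nat_lit 5) (nat_lit 279) (nat_lit 5) (nat_lit 271) (nat_lit 5) (nat_lit 400) (nat_lit 364) (nat_lit 256)) (XT.lf (nat_lit 0) (nat_lit 5128013703) (nat_lit 608) (nat_lit 2733055752) (nat_lit 684) (nat_lit 7468933713) (nat_lit 262) (nat_lit 5) (nat_lit 270) (nat_lit 5) (nat_lit 271) (nat_lit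 5) (nat_lit 401) (nat_lit 364) (nat_lit 255)))))) (XT.nd (nat_lit 390) (nat_lit 2660) (nat_lit 0) (XT.nd (nat_lit 156) (nat_lit 1140) (nat_lit 0) (XT.nd (nat_lit 78) (nat_lit 684) (nat_lit 0) (XT.lf (nat_lit 0) (nat_lit 2921981662) (nat_lit 608) (nat_lit 9195786657) (nat_lit 684) (nat_lit 3475020115) (nat_lit 254) (nat_lit 5) (nat_lit 262) (nat_lit 5) (nat_lit 263) (nat_lit 5) (nat_lit 402) (nat_lit 364) (nat_lit 254)) (XT.lf (nat_lit 0) (nat_lit 675360537) (nat_lit 608) (nat_lit 24982471) (nat_lit 684) (nat_lit 15161634819) (nat_lit 245) (nat_lit 5) (nat_lit 253) (nat_lit 5) (nat_lit 254) (nat_lit 5) (nat_lit 403) (nat_lit 364) (nat_lit 253))) (XT.nd (nat_lit 78) (nat_lit 1140) (nat_lit 0) (XT.lf (nat_lit 0) (nat_lit 5079811763) (nat_lit 684) (nat_lit 1654956707) (nat_lit 76) (nat_lit 9401497483) (nat_lit 245) (nat_lit 5) (nat_lit 254) (nat_lit 5) (nat_lit 246) (nat_lit 5) (nat_lit 404) (nat_lit 364)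 (nat_lit 252)) (XT.nd (nat_lit 78) (nat_lit 608) (nat_lit 0) (XT.lf (nat_lit 0) (nat_lit 9668257717) (nat_lit 608) (nat_lit 4017209609) (nat_lit 76) (nat_lit 2731767013) (nat_lit 238) (nat_lit 5) (nat_lit 246) (nat_lit 5) (nat_lit 239) (nat_lit 5) (nat_lit 405) (nat_lit 364) (nat_lit 251)) (XT.lf (nat_lit 0) (nat_lit 10255348161) (nat_lit 608) (nat_lit 4241152693) (nat_lit 684) (nat_lit 2208091420) (nat_lit 230) (nat_lit 5) (nat_lit 238) (nat_lit 5) (nat_lit 239) (nat_lit 5) (nat_lit 406) (nat_lit 364) (nat_lit 250))))) (XT.nd (nat_lit 234) (nat_lit 1064) (nat_lit 0) (XT.nd (nat_lit 78) (nat_lit 988) (nat_lit 0) (XT.lf (nat_lit 0) (nat_lit 2532205073) (nat_lit 608) (nat_lit 8961337083) (nat_lit 76) (nat_lit 5504800067) (nat_lit 222) (nat_lit 5) (nat_lit 230) (nat_lit 5) (nat_lit 223) (nat_lit 5) (nat_lit 407) (nat_lit 364) (nat_lit 249)) (XT.nd (nat_lit 78) (nat_lit 456) (nat_lit 0) (XT.lf (nat_lit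 0) (nat_lit 5751393426) (nat_lit 532) (nat_lit 1723095984) (nat_lit 608) (nat_lit 9824330903) (nat_lit 215) (nat_lit 5) (nat_lit 222) (nat_lit 5) (nat_lit 223) (nat_lit 5) (nat_lit 408) (nat_lit 364) (nat_lit 248)) (XT.lf (nat_lit 0) (nat_lit 3384274572) (nat_lit 456) (nat_lit 9298302528) (nat_lit 532) (nat_lit 4923387980) (nat_lit 209) (nat_lit 5) (nat_lit 215) (nat_lit 5) (nat_lit 216) (nat_lit 5) (nat_lit 409) (nat_lit 364) (nat_lit 247)))) (XT.nd (nat_lit 78) (nat_lit 456) (nat_lit 0) (XT.lf (nat_lit 0) (nat_lit 205153597) (nat_lit 608) (nat_lit 16951090240) (nat_lit 76) (nat_lit 764422971) (nat_lit 201) (nat_lit 5) (nat_lit 209) (nat_lit 5) (nat_lit 202) (nat_lit 5) (nat_lit 410) (nat_lit 364) (nat_lit 246)) (XT.nd (nat_lit 78) (nat_lit 456) (nat_lit 0) (XT.lf (nat_lit 0) (nat_lit 5561142347) (nat_lit 608) (nat_lit 1553743756) (nat_lit 76) (nat_lit 11126465804) (nat_lit 201) (nat_lit 5) (nat_lit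 209) (nat_lit 5) (nat_lit 202) (nat_lit 5) (nat_lit 411) (nat_lit 364) (nat_lit 245)) (XT.lf (nat_lit 0) (nat_lit 11174754871) (nat_lit 532) (nat_lit 4121988053) (nat_lit 76) (nat_lit 3272978468) (nat_lit 195) (nat_lit 5) (nat_lit 202) (nat_lit 5) (nat_lit 196) (nat_lit 5) (nat_lit 412) (nat_lit 364) (nat_lit 244))))))))
noncomputable def xc87 : XT := (XT.nd (nat_lit 49842) (nat_lit 0) (nat_lit 17328) (XT.nd (nat_lit 858) (nat_lit 1444) (nat_lit 0) (XT.nd (nat_lit 390) (nat_lit 2052) (nat_lit 0) (XT.nd (nat_lit 156) (nat_lit 1368) (nat_lit 0) (XT.nd (nat_lit 78) (nat_lit 532) (nat_lit 0) (XT.lf (nat_lit 0) (nat_lit 12128707355) (nat_lit 456) (nat_lit 4946790051) (nat_lit 532) (nat_lit 1830072761) (nat_lit 189) (nat_lit 5) (nat_lit 195) (nat_lit 5) (nat_lit 196) (nat_lit 5) (nat_lit 413) (nat_lit 364) (nat_lit 243)) (XT.lf (nat_lit 0) (nat_lit 3961876143) (nat_lit 532) (nat_lit 9537916694) (nat_lit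 76) (nat_lit 5748971808) (nat_lit 182) (nat_lit 5) (nat_lit 189) (nat_lit 5) (nat_lit 183) (nat_lit 5) (nat_lit 414) (nat_lit 364) (nat_lit 242))) (XT.nd (nat_lit 78) (nat_lit 912) (nat_lit 0) (XT.lf (nat_lit 0) (nat_lit 7208303286) (nat_lit 456) (nat_lit 2803022810) (nat_lit 532) (nat_lit 9588517241) (nat_lit 176) (nat_lit 5) (nat_lit 182) (nat_lit 5) (nat_lit 183) (nat_lit 5) (nat_lit 415) (nat_lit 364) (nat_lit 241)) (XT.nd (nat_lit 78) (nat_lit 532) (nat_lit 0) (XT.lf (nat_lit 0) (nat_lit 4608870557) (nat_lit 380) (nat_lit 11764367292) (nat_lit 456) (nat_lit 3585599343) (nat_lit 171) (nat_lit 5) (nat_lit 176) (nat_lit 5) (nat_lit 177) (nat_lit 5) (nat_lit 416) (nat_lit 364) (nat_lit 240)) (XT.lf (nat_lit 0) (nat_lit 1926146498) (nat_lit 456) (nat_lit 735859438) (nat_lit 532) (nat_lit 17664286591) (nat_lit 164) (nat_lit 5) (nat_lit 170) (nat_lit 5) (nat_lit 171) (nat_lit 5) (nat_lit 417) (nat_lit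 364) (nat_lit 239))))) (XT.nd (nat_lit 234) (nat_lit 1216) (nat_lit 0) (XT.nd (nat_lit 78) (nat_lit 836) (nat_lit 0) (XT.lf (nat_lit 0) (nat_lit 9205460734) (nat_lit 532) (nat_lit 890499576) (nat_lit 76) (nat_lit 10605196671) (nat_lit 164) (nat_lit 5) (nat_lit 171) (nat_lit 5) (nat_lit 165) (nat_lit 5) (nat_lit 418) (nat_lit 364) (nat_lit 238)) (XT.nd (nat_lit 78) (nat_lit 456) (nat_lit 0) (XT.lf (nat_lit 0) (nat_lit 16054827076) (nat_lit 456) (nat_lit 3750792072) (nat_lit 76) (nat_lit 1279458185) (nat_lit 159) (nat_lit 5) (nat_lit 165) (nat_lit 5) (nat_lit 160) (nat_lit 5) (nat_lit 419) (nat_lit 364) (nat_lit 237)) (XT.lf (nat_lit 0) (nat_lit 1762033140) (nat_lit 456) (nat_lit 6749663611) (nat_lit 76) (nat_lit 12965524201) (nat_lit 153) (nat_lit 5) (nat_lit 159) (nat_lit 5) (nat_lit 154) (nat_lit 5) (nat_lit 420) (nat_lit 364) (nat_lit 236)))) (XT.nd (nat_lit 78) (nat_lit 836) (nat_lit 0) (XT.lf (nat_lit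 0) (nat_lit 8799102240) (nat_lit 456) (nat_lit 9868665719) (nat_lit 76) (nat_lit 3210510713) (nat_lit 148) (nat_lit 5) (nat_lit 154) (nat_lit 5) (nat_lit 149) (nat_lit 5) (nat_lit 421) (nat_lit 364) (nat_lit 235)) (XT.nd (nat_lit 78) (nat_lit 456) (nat_lit 0) (XT.lf (nat_lit 0) (nat_lit 9173006821) (nat_lit 380) (nat_lit 7021202712) (nat_lit 456) (nat_lit 6094221972) (nat_lit 143) (nat_lit 5) (nat_lit 148) (nat_lit 5) (nat_lit 149) (nat_lit 5) (nat_lit 422) (nat_lit 364) (nat_lit 234)) (XT.lf (nat_lit 0) (nat_lit 1211442813) (nat_lit 456) (nat_lit 16479397714) (nat_lit 76) (nat_lit 5017395493) (nat_lit 137) (nat_lit 5) (nat_lit 143) (nat_lit 5) (nat_lit 138) (nat_lit 5) (nat_lit 423) (nat_lit 364) (nat_lit 233)))))) (XT.nd (nat_lit 48516) (nat_lit 0) (nat_lit 28652) (XT.nd (nat_lit 156) (nat_lit 1064) (nat_lit 0) (XT.nd (nat_lit 78) (nat_lit 0) (nat_lit 0) (XT.lf (nat_lit 0) (nat_lit 3123392804) (nat_lit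 380) (nat_lit 5672108596) (nat_lit 456) (nat_lit 14341488966) (nat_lit 132) (nat_lit 5) (nat_lit 137) (nat_lit 5) (nat_lit 138) (nat_lit 5) (nat_lit 424) (nat_lit 364) (nat_lit 232)) (XT.lf (nat_lit 0) (nat_lit 16748130065) (nat_lit 456) (nat_lit 104059980) (nat_lit 76) (nat_lit 6723598040) (nat_lit 132) (nat_lit 5) (nat_lit 138) (nat_lit 5) (nat_lit 133) (nat_lit 5) (nat_lit 425) (nat_lit 364) (nat_lit 231))) (XT.nd (nat_lit 78) (nat_lit 684) (nat_lit 0) (XT.lf (nat_lit 0) (nat_lit 1057960760) (nat_lit 380) (nat_lit 3418957791) (nat_lit 76) (nat_lit 19547547869) (nat_lit 127) (nat_lit 5) (nat_lit 132) (nat_lit 5) (nat_lit 128) (nat_lit 5) (nat_lit 426) (nat_lit 364) (nat_lit 230)) (XT.nd (nat_lit 78) (nat_lit 304) (nat_lit 0) (XT.lf (nat_lit 0) (nat_lit 9243399843) (nat_lit 456) (nat_lit 6924222536) (nat_lit 76) (nat_lit 8314961432) (nat_lit 122) (nat_lit 5) (nat_lit 128) (nat_lit 5) (nat_lit 123)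 (nat_lit 5) (nat_lit 427) (nat_lit 364) (nat_lit 229)) (XT.lf (nat_lit 0) (nat_lit 14394254457) (nat_lit 304) (nat_lit 3412794272) (nat_lit 380) (nat_lit 7144744595) (nat_lit 118) (nat_lit 5) (nat_lit 122) (nat_lit 5) (nat_lit 123) (nat_lit 5) (nat_lit 428) (nat_lit 364) (nat_lit 228))))) (XT.nd (nat_lit 234) (nat_lit 1444) (nat_lit 0) (XT.nd (nat_lit 78) (nat_lit 0) (nat_lit 0) (XT.lf (nat_lit 0) (nat_lit 2070267165) (nat_lit 1596) (nat_lit 1244551983) (nat_lit 1596) (nat_lit 1244551983) (nat_lit 514) (nat_lit 3) (nat_lit 535) (nat_lit 3) (nat_lit 535) (nat_lit 5) (nat_lit 365) (nat_lit 365) (nat_lit 290)) (XT.nd (nat_lit 78) (nat_lit 0) (nat_lit 76) (XT.lf (nat_lit 76) (nat_lit 4223241078) (nat_lit 0) (nat_lit 1295973366) (nat_lit 1596) (nat_lit 3709665927) (nat_lit 515) (nat_lit 5) (nat_lit 514) (nat_lit 3) (nat_lit 535) (nat_lit 5) (nat_lit 366) (nat_lit 365) (nat_lit 289)) (XT.lf (nat_lit 76)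 (nat_lit 1798071552) (nat_lit 0) (nat_lit 5146768655) (nat_lit 1596) (nat_lit 2397382865) (nat_lit 516) (nat_lit 5) (nat_lit 515) (nat_lit 5) (nat_lit 536) (nat_lit 5) (nat_lit 367) (nat_lit 365) (nat_lit 288)))) (XT.nd (nat_lit 78) (nat_lit 1596) (nat_lit 0) (XT.lf (nat_lit 0) (nat_lit 8409540162) (nat_lit 1520) (nat_lit 623029774) (nat_lit 1596) (nat_lit 426481818) (nat_lit 516) (nat_lit 5) (nat_lit 536) (nat_lit 5) (nat_lit 537) (nat_lit 5) (nat_lit 368) (nat_lit 365) (nat_lit 287)) (XT.nd (nat_lit 78) (nat_lit 0) (nat_lit 76) (XT.lf (nat_lit 0) (nat_lit 363889162) (nat_lit 1596) (nat_lit 3051327130) (nat_lit 1672) (nat_lit 6163545512) (nat_lit 495) (nat_lit 5) (nat_lit 516) (nat_lit 5) (nat_lit 517) (nat_lit 5) (nat_lit 369) (nat_lit 365) (nat_lit 286)) (XT.lf (nat_lit 0) (nat_lit 1806367427) (nat_lit 1596) (nat_lit 5498004842) (nat_lit 1672) (nat_lit 2397544369) (nat_lit 496) (nat_lit 5) (nat_lit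 517) (nat_lit 5) (nat_lit 518) (nat_lit 5) (nat_lit 370) (nat_lit 365) (nat_lit 285))))))) (XT.nd (nat_lit 858) (nat_lit 8588) (nat_lit 0) (XT.nd (nat_lit 390) (nat_lit 2812) (nat_lit 0) (XT.nd (nat_lit 156) (nat_lit 0) (nat_lit 152) (XT.nd (nat_lit 78) (nat_lit 0) (nat_lit 76) (XT.lf (nat_lit 76) (nat_lit 1863832819) (nat_lit 0) (nat_lit 1438774815) (nat_lit 1672) (nat_lit 6525959322) (nat_lit 497) (nat_lit 5) (nat_lit 496) (nat_lit 5) (nat_lit 518) (nat_lit 5) (nat_lit 371) (nat_lit 365) (nat_lit 284)) (XT.lf (nat_lit 0) (nat_lit 4867105022) (nat_lit 1596) (nat_lit 495027030) (nat_lit 1672) (nat_lit 4596427617) (nat_lit 497) (nat_lit 5) (nat_lit 518) (nat_lit 5) (nat_lit 519) (nat_lit 5) (nat_lit 372) (nat_lit 365) (nat_lit 283))) (XT.nd (nat_lit 78) (nat_lit 0) (nat_lit 0) (XT.lf (nat_lit 0) (nat_lit 6497501079) (nat_lit 1596) (nat_lit 2840400807) (nat_lit 1672) (nat_lit 754180987) (nat_lit 498)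 (nat_lit 5) (nat_lit 519) (nat_lit 5) (nat_lit 520) (nat_lit 5) (nat_lit 373) (nat_lit 365) (nat_lit 282)) (XT.nd (nat_lit 78) (nat_lit 0) (nat_lit 76) (XT.lf (nat_lit 76) (nat_lit 5009776737) (nat_lit 0) (nat_lit 3197222337) (nat_lit 1672) (nat_lit 2022018591) (nat_lit 499) (nat_lit 5) (nat_lit 498) (nat_lit 5) (nat_lit 520) (nat_lit 5) (nat_lit 374) (nat_lit 365) (nat_lit 281)) (XT.lf (nat_lit 76) (nat_lit 2751801123) (nat_lit 0) (nat_lit 7233072397) (nat_lit 1672) (nat_lit 384854562) (nat_lit 500) (nat_lit 5) (nat_lit 499) (nat_lit 5) (nat_lit 521) (nat_lit 5) (nat_lit 375) (nat_lit 365) (nat_lit 280))))) (XT.nd (nat_lit 234) (nat_lit 1368) (nat_lit 0) (XT.nd (nat_lit 78) (nat_lit 0) (nat_lit 76) (XT.lf (nat_lit 76) (nat_lit 466929443) (nat_lit 0) (nat_lit 837709797) (nat_lit 1748) (nat_lit 9209454870) (nat_lit 478) (nat_lit 5) (nat_lit 477) (nat_lit 5) (nat_lit 500) (nat_lit 5) (nat_lit 376) (nat_lit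 365) (nat_lit 279)) (XT.nd (nat_lit 78) (nat_lit 0) (nat_lit 76) (XT.lf (nat_lit 0) (nat_lit 3090224546) (nat_lit 1672) (nat_lit 1832378924) (nat_lit 1748) (nat_lit 5739132761) (nat_lit 478) (nat_lit 5) (nat_lit 500) (nat_lit 5) (nat_lit 501) (nat_lit 5) (nat_lit 377) (nat_lit 365) (nat_lit 278)) (XT.lf (nat_lit 0) (nat_lit 4952117681) (nat_lit 1672) (nat_lit 4142141349) (nat_lit 1748) (nat_lit 1719102225) (nat_lit 479) (nat_lit 5) (nat_lit 501) (nat_lit 5) (nat_lit 502) (nat_lit 5) (nat_lit 378) (nat_lit 365) (nat_lit 277)))) (XT.nd (nat_lit 78) (nat_lit 1520) (nat_lit 0) (XT.lf (nat_lit 76) (nat_lit 4483035209) (nat_lit 0) (nat_lit 2424769724) (nat_lit 1748) (nat_lit 4060979546) (nat_lit 480) (nat_lit 5) (nat_lit 479) (nat_lit 5) (nat_lit 502) (nat_lit 5) (nat_lit 379) (nat_lit 365) (nat_lit 276)) (XT.nd (nat_lit 78) (nat_lit 1596) (nat_lit 0) (XT.lf (nat_lit 76) (nat_lit 2267256768) (nat_lit 0)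 (nat_lit 6691085038) (nat_lit 1748) (nat_lit 2169812974) (nat_lit 481) (nat_lit 5) (nat_lit 480) (nat_lit 5) (nat_lit 503) (nat_lit 5) (nat_lit 380) (nat_lit 365) (nat_lit 275)) (XT.lf (nat_lit 0) (nat_lit 34012585) (nat_lit 1672) (nat_lit 11063362696) (nat_lit 1748) (nat_lit 194399028) (nat_lit 459) (nat_lit 5) (nat_lit 481) (nat_lit 5) (nat_lit 482) (nat_lit 5) (nat_lit 381) (nat_lit 365) (nat_lit 274)))))) (XT.nd (nat_lit 390) (nat_lit 3496) (nat_lit 0) (XT.nd (nat_lit 156) (nat_lit 3268) (nat_lit 0) (XT.nd (nat_lit 78) (nat_lit 1748) (nat_lit 0) (XT.lf (nat_lit 0) (nat_lit 1887166626) (nat_lit 1748) (nat_lit 2228192824) (nat_lit 76) (nat_lit 7343290864) (nat_lit 458) (nat_lit 5) (nat_lit 481) (nat_lit 5) (nat_lit 459) (nat_lit 5) (nat_lit 382) (nat_lit 365) (nat_lit 273)) (XT.lf (nat_lit 0) (nat_lit 4061811201) (nat_lit 1824) (nat_lit 4513997821) (nat_lit 76) (nat_lit 3054039557) (nat_lit 435)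 (nat_lit 5) (nat_lit 459) (nat_lit 5) (nat_lit 436) (nat_lit 5) (nat_lit 383) (nat_lit 365) (nat_lit 272))) (XT.nd (nat_lit 78) (nat_lit 1824) (nat_lit 0) (XT.lf (nat_lit 0) (nat_lit 4974008992) (nat_lit 1444) (nat_lit 1370348525) (nat_lit 1520) (nat_lit 5460978961) (nat_lit 416) (nat_lit 5) (nat_lit 435) (nat_lit 5) (nat_lit 436) (nat_lit 5) (nat_lit 384) (nat_lit 365) (nat_lit 271)) (XT.nd (nat_lit 78) (nat_lit 912) (nat_lit 0) (XT.lf (nat_lit 0) (nat_lit 2791445799) (nat_lit 912) (nat_lit 5960569867) (nat_lit 988) (nat_lit 3232947369) (nat_lit 404) (nat_lit 5) (nat_lit 416) (nat_lit 5) (nat_lit 417) (nat_lit 5) (nat_lit 385) (nat_lit 365) (nat_lit 270)) (XT.lf (nat_lit 0) (nat_lit 587404330) (nat_lit 912) (nat_lit 10682631542) (nat_lit 988) (nat_lit 899186406) (nat_lit 392) (nat_lit 5) (nat_lit 404) (nat_lit 5) (nat_lit 405) (nat_lit 5) (nat_lit 386) (nat_lit 365) (nat_lit 269))))) (XT.nd (nat_lit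 234) (nat_lit 1672) (nat_lit 0) (XT.nd (nat_lit 78) (nat_lit 1748) (nat_lit 0) (XT.lf (nat_lit 0) (nat_lit 1557119574) (nat_lit 988) (nat_lit 1648967158) (nat_lit 76) (nat_lit 9151288108) (nat_lit 391) (nat_lit 5) (nat_lit 404) (nat_lit 5) (nat_lit 392) (nat_lit 5) (nat_lit 387) (nat_lit 365) (nat_lit 268)) (XT.nd (nat_lit 78) (nat_lit 836) (nat_lit 0) (XT.lf (nat_lit 0) (nat_lit 4131385439) (nat_lit 988) (nat_lit 3918592745) (nat_lit 76) (nat_lit 4499951219) (nat_lit 379) (nat_lit 5) (nat_lit 392) (nat_lit 5) (nat_lit 380) (nat_lit 5) (nat_lit 388) (nat_lit 365) (nat_lit 267)) (XT.lf (nat_lit 0) (nat_lit 6530664229) (nat_lit 836) (nat_lit 298567992) (nat_lit 912) (nat_lit 5918107187) (nat_lit 368) (nat_lit 5) (nat_lit 379) (nat_lit 5) (nat_lit 380) (nat_lit 5) (nat_lit 389) (nat_lit 365) (nat_lit 266)))) (XT.nd (nat_lit 78) (nat_lit 836) (nat_lit 0) (XT.lf (nat_lit 0) (nat_lit 4376043644) (nat_lit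 836) (nat_lit 5308935025) (nat_lit 912) (nat_lit 3264159451) (nat_lit 357) (nat_lit 5) (nat_lit 368) (nat_lit 5) (nat_lit 369) (nat_lit 5) (nat_lit 390) (nat_lit 365) (nat_lit 265)) (XT.nd (nat_lit 78) (nat_lit 76) (nat_lit 0) (XT.lf (nat_lit 0) (nat_lit 2196523940) (nat_lit 760) (nat_lit 10478328952) (nat_lit 836) (nat_lit 481174319) (nat_lit 347) (nat_lit 5) (nat_lit 357) (nat_lit 5) (nat_lit 358) (nat_lit 5) (nat_lit 391) (nat_lit 365) (nat_lit 264)) (XT.lf (nat_lit 0) (nat_lit 2420994417) (nat_lit 836) (nat_lit 40927276) (nat_lit 76) (nat_lit 10905557250) (nat_lit 346) (nat_lit 5) (nat_lit 357) (nat_lit 5) (nat_lit 347) (nat_lit 5) (nat_lit 392) (nat_lit 365) (nat_lit 263))))))))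
noncomputable def xc88 : XT := (XT.nd (nat_lit 1716) (nat_lit 5092) (nat_lit 0) (XT.nd (nat_lit 858) (nat_lit 4940) (nat_lit 0) (XT.nd (nat_lit 390) (nat_lit 3268) (nat_lit 0) (XT.nd (nat_lit 156) (nat_lit 2204) (nat_lit 0) (XT.nd (nat_lit 78) (nat_lit 760) (nat_lit 0) (XT.lf (nat_lit 0) (nat_lit 5489153514) (nat_lit 836) (nat_lit 2299252962) (nat_lit 76) (nat_lit 5795099996) (nat_lit 336) (nat_lit 5) (nat_lit 347) (nat_lit 5) (nat_lit 337) (nat_lit 5) (nat_lit 393) (nat_lit 365) (nat_lit 262)) (XT.lf (nat_lit 0) (nat_lit 8703710085) (nat_lit 836) (nat_lit 4587589315) (nat_lit 76) (nat_lit 513633331) (nat_lit 326) (nat_lit 5) (nat_lit 337) (nat_lit 5) (nat_lit 327) (nat_lit 5) (nat_lit 394) (nat_lit 365) (nat_lit 261))) (XT.nd (nat_lit 78) (nat_lit 1444) (nat_lit 0) (XT.lf (nat_lit 0) (nat_lit 7091573661) (nat_lit 760) (nat_lit 5011863191) (nat_lit 836) (nat_lit 1927795069) (nat_lit 316) (nat_lit 5)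 (nat_lit 326) (nat_lit 5) (nat_lit 327) (nat_lit 5) (nat_lit 395) (nat_lit 365) (nat_lit 260)) (XT.nd (nat_lit 78) (nat_lit 684) (nat_lit 0) (XT.lf (nat_lit 0) (nat_lit 1385272485) (nat_lit 760) (nat_lit 9337814823) (nat_lit 76) (nat_lit 3539822801) (nat_lit 306) (nat_lit 5) (nat_lit 316) (nat_lit 5) (nat_lit 307) (nat_lit 5) (nat_lit 396) (nat_lit 365) (nat_lit 259)) (XT.lf (nat_lit 0) (nat_lit 2701516631) (nat_lit 684) (nat_lit 2144403450) (nat_lit 760) (nat_lit 9653880571) (nat_lit 297) (nat_lit 5) (nat_lit 306) (nat_lit 5) (nat_lit 307) (nat_lit 5) (nat_lit 397) (nat_lit 365) (nat_lit 258))))) (XT.nd (nat_lit 234) (nat_lit 1824) (nat_lit 0) (XT.nd (nat_lit 78) (nat_lit 760) (nat_lit 0) (XT.lf (nat_lit 0) (nat_lit 421586599) (nat_lit 684) (nat_lit 8075023380) (nat_lit 760) (nat_lit 6245467795) (nat_lit 288) (nat_lit 5) (nat_lit 297) (nat_lit 5) (nat_lit 298) (nat_lit 5) (nat_lit 398) (nat_lit 365)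 (nat_lit 257)) (XT.nd (nat_lit 78) (nat_lit 760) (nat_lit 0) (XT.lf (nat_lit 0) (nat_lit 12333069240) (nat_lit 760) (nat_lit 1867328520) (nat_lit 76) (nat_lit 789704669) (nat_lit 288) (nat_lit 5) (nat_lit 298) (nat_lit 5) (nat_lit 289) (nat_lit 5) (nat_lit 399) (nat_lit 365) (nat_lit 256)) (XT.lf (nat_lit 0) (nat_lit 1129186431) (nat_lit 760) (nat_lit 4227527702) (nat_lit 76) (nat_lit 9886647571) (nat_lit 278) (nat_lit 5) (nat_lit 288) (nat_lit 5) (nat_lit 279) (nat_lit 5) (nat_lit 400) (nat_lit 365) (nat_lit 255)))) (XT.nd (nat_lit 78) (nat_lit 1216) (nat_lit 0) (XT.lf (nat_lit 0) (nat_lit 5066248970) (nat_lit 684) (nat_lit 6648591948) (nat_lit 76) (nat_lit 3787563354) (nat_lit 270) (nat_lit 5) (nat_lit 279) (nat_lit 5) (nat_lit 271) (nat_lit 5) (nat_lit 401) (nat_lit 365) (nat_lit 254)) (XT.nd (nat_lit 78) (nat_lit 608) (nat_lit 0) (XT.lf (nat_lit 0) (nat_lit 6641468910) (nat_lit 608) (nat_lit 2566026690)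 (nat_lit 684) (nat_lit 6560004835) (nat_lit 262) (nat_lit 5) (nat_lit 270) (nat_lit 5) (nat_lit 271) (nat_lit 5) (nat_lit 402) (nat_lit 365) (nat_lit 253)) (XT.lf (nat_lit 0) (nat_lit 4367646565) (nat_lit 608) (nat_lit 9202288253) (nat_lit 684) (nat_lit 2468679214) (nat_lit 254) (nat_lit 5) (nat_lit 262) (nat_lit 5) (nat_lit 263) (nat_lit 5) (nat_lit 403) (nat_lit 365) (nat_lit 252)))))) (XT.nd (nat_lit 390) (nat_lit 2508) (nat_lit 0) (XT.nd (nat_lit 156) (nat_lit 1748) (nat_lit 0) (XT.nd (nat_lit 78) (nat_lit 0) (nat_lit 0) (XT.lf (nat_lit 0) (nat_lit 1795859696) (nat_lit 684) (nat_lit 14271735768) (nat_lit 76) (nat_lit 248575114) (nat_lit 245) (nat_lit 5) (nat_lit 254) (nat_lit 5) (nat_lit 246) (nat_lit 5) (nat_lit 404) (nat_lit 365) (nat_lit 251)) (XT.lf (nat_lit 0) (nat_lit 6275578413) (nat_lit 684) (nat_lit 374204464) (nat_lit 76) (nat_lit 9949532292) (nat_lit 245) (nat_lit 5) (nat_lit 254) (nat_lit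 5) (nat_lit 246) (nat_lit 5) (nat_lit 405) (nat_lit 365) (nat_lit 250))) (XT.nd (nat_lit 78) (nat_lit 1216) (nat_lit 0) (XT.lf (nat_lit 0) (nat_lit 10981651545) (nat_lit 608) (nat_lit 2810178767) (nat_lit 76) (nat_lit 3097287807) (nat_lit 238) (nat_lit 5) (nat_lit 246) (nat_lit 5) (nat_lit 239) (nat_lit 5) (nat_lit 406) (nat_lit 365) (nat_lit 249)) (XT.nd (nat_lit 78) (nat_lit 608) (nat_lit 0) (XT.lf (nat_lit 0) (nat_lit 11869017861) (nat_lit 608) (nat_lit 4064397397) (nat_lit 684) (nat_lit 1252112915) (nat_lit 230) (nat_lit 5) (nat_lit 238) (nat_lit 5) (nat_lit 239) (nat_lit 5) (nat_lit 407) (nat_lit 365) (nat_lit 248)) (XT.lf (nat_lit 0) (nat_lit 3598046168) (nat_lit 608) (nat_lit 7914115331) (nat_lit 76) (nat_lit 5976179786) (nat_lit 222) (nat_lit 5) (nat_lit 230) (nat_lit 5) (nat_lit 223) (nat_lit 5) (nat_lit 408) (nat_lit 365) (nat_lit 247))))) (XT.nd (nat_lit 234) (nat_lit 912) (nat_lit 0) (XT.nd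 (nat_lit 78) (nat_lit 1064) (nat_lit 0) (XT.lf (nat_lit 0) (nat_lit 7218645553) (nat_lit 532) (nat_lit 1449528292) (nat_lit 608) (nat_lit 9130072854) (nat_lit 215) (nat_lit 5) (nat_lit 222) (nat_lit 5) (nat_lit 223) (nat_lit 5) (nat_lit 409) (nat_lit 365) (nat_lit 246)) (XT.nd (nat_lit 78) (nat_lit 608) (nat_lit 0) (XT.lf (nat_lit 0) (nat_lit 4776651690) (nat_lit 456) (nat_lit 9238047421) (nat_lit 532) (nat_lit 4100267146) (nat_lit 209) (nat_lit 5) (nat_lit 215) (nat_lit 5) (nat_lit 216) (nat_lit 5) (nat_lit 410) (nat_lit 365) (nat_lit 245)) (XT.lf (nat_lit 0) (nat_lit 1152053811) (nat_lit 608) (nat_lit 16160376607) (nat_lit 76) (nat_lit 1126903579) (nat_lit 201) (nat_lit 5) (nat_lit 209) (nat_lit 5) (nat_lit 202) (nat_lit 5) (nat_lit 411) (nat_lit 365) (nat_lit 244)))) (XT.nd (nat_lit 78) (nat_lit 912) (nat_lit 0) (XT.lf (nat_lit 0) (nat_lit 6641321865) (nat_lit 608) (nat_lit 338951855) (nat_lit 76)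 (nat_lit 11789917951) (nat_lit 201) (nat_lit 5) (nat_lit 209) (nat_lit 5) (nat_lit 202) (nat_lit 5) (nat_lit 412) (nat_lit 365) (nat_lit 243)) (XT.nd (nat_lit 78) (nat_lit 456) (nat_lit 0) (XT.lf (nat_lit 0) (nat_lit 12407044846) (nat_lit 532) (nat_lit 2988929646) (nat_lit 76) (nat_lit 3712767608) (nat_lit 195) (nat_lit 5) (nat_lit 202) (nat_lit 5) (nat_lit 196) (nat_lit 5) (nat_lit 413) (nat_lit 365) (nat_lit 242)) (XT.lf (nat_lit 0) (nat_lit 13728897868) (nat_lit 456) (nat_lit 4737811267) (nat_lit 532) (nat_lit 988323000) (nat_lit 189) (nat_lit 5) (nat_lit 195) (nat_lit 5) (nat_lit 196) (nat_lit 5) (nat_lit 414) (nat_lit 365) (nat_lit 241))))))) (XT.nd (nat_lit 858) (nat_lit 760) (nat_lit 0) (XT.nd (nat_lit 390) (nat_lit 2052) (nat_lit 0) (XT.nd (nat_lit 156) (nat_lit 1292) (nat_lit 0) (XT.nd (nat_lit 78) (nat_lit 456) (nat_lit 0) (XT.lf (nat_lit 0) (nat_lit 4950166816) (nat_lit 532) (nat_lit 8580973254)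 (nat_lit 76) (nat_lit 6277578703) (nat_lit 182) (nat_lit 5) (nat_lit 189) (nat_lit 5) (nat_lit 183) (nat_lit 5) (nat_lit 415) (nat_lit 365) (nat_lit 240)) (XT.lf (nat_lit 0) (nat_lit 8647465814) (nat_lit 456) (nat_lit 2516251088) (nat_lit 532) (nat_lit 9006964091) (nat_lit 176) (nat_lit 5) (nat_lit 182) (nat_lit 5) (nat_lit 183) (nat_lit 5) (nat_lit 416) (nat_lit 365) (nat_lit 239))) (XT.nd (nat_lit 78) (nat_lit 912) (nat_lit 0) (XT.lf (nat_lit 0) (nat_lit 5964720248) (nat_lit 380) (nat_lit 11737191850) (nat_lit 456) (nat_lit 2838827439) (nat_lit 171) (nat_lit 5) (nat_lit 176) (nat_lit 5) (nat_lit 177) (nat_lit 5) (nat_lit 417) (nat_lit 365) (nat_lit 238)) (XT.nd (nat_lit 78) (nat_lit 380) (nat_lit 0) (XT.lf (nat_lit 0) (nat_lit 3192892863) (nat_lit 456) (nat_lit 375400365) (nat_lit 532) (nat_lit 17351151758) (nat_lit 164) (nat_lit 5) (nat_lit 170) (nat_lit 5) (nat_lit 171) (nat_lit 5) (nat_lit 418)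 (nat_lit 365) (nat_lit 237)) (XT.lf (nat_lit 0) (nat_lit 273867173) (nat_lit 380) (nat_lit 10014303262) (nat_lit 456) (nat_lit 11017785702) (nat_lit 159) (nat_lit 5) (nat_lit 164) (nat_lit 5) (nat_lit 165) (nat_lit 5) (nat_lit 419) (nat_lit 365) (nat_lit 236))))) (XT.nd (nat_lit 234) (nat_lit 1216) (nat_lit 0) (XT.nd (nat_lit 78) (nat_lit 836) (nat_lit 0) (XT.lf (nat_lit 0) (nat_lit 17327847432) (nat_lit 456) (nat_lit 2681674426) (nat_lit 76) (nat_lit 1692178698) (nat_lit 159) (nat_lit 5) (nat_lit 165) (nat_lit 5) (nat_lit 160) (nat_lit 5) (nat_lit 420) (nat_lit 365) (nat_lit 235)) (XT.nd (nat_lit 78) (nat_lit 380) (nat_lit 0) (XT.lf (nat_lit 0) (nat_lit 2596003005) (nat_lit 456) (nat_lit 5779205618) (nat_lit 76) (nat_lit 13730610086) (nat_lit 153) (nat_lit 5) (nat_lit 159) (nat_lit 5) (nat_lit 154) (nat_lit 5) (nat_lit 421) (nat_lit 365) (nat_lit 234)) (XT.lf (nat_lit 0) (nat_lit 9831445031) (nat_lit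 456) (nat_lit 8997916189) (nat_lit 76) (nat_lit 3689804538) (nat_lit 148) (nat_lit 5) (nat_lit 154) (nat_lit 5) (nat_lit 149) (nat_lit 5) (nat_lit 422) (nat_lit 365) (nat_lit 233)))) (XT.nd (nat_lit 78) (nat_lit 836) (nat_lit 0) (XT.lf (nat_lit 0) (nat_lit 10596076429) (nat_lit 380) (nat_lit 6837402208) (nat_lit 456) (nat_lit 5508445813) (nat_lit 143) (nat_lit 5) (nat_lit 148) (nat_lit 5) (nat_lit 149) (nat_lit 5) (nat_lit 423) (nat_lit 365) (nat_lit 232)) (XT.nd (nat_lit 78) (nat_lit 380) (nat_lit 0) (XT.lf (nat_lit 0) (nat_lit 1994179928) (nat_lit 456) (nat_lit 15822122634) (nat_lit 76) (nat_lit 5558165907) (nat_lit 137) (nat_lit 5) (nat_lit 143) (nat_lit 5) (nat_lit 138) (nat_lit 5) (nat_lit 424) (nat_lit 365) (nat_lit 231)) (XT.lf (nat_lit 0) (nat_lit 4350067333) (nat_lit 380) (nat_lit 5441309325) (nat_lit 456) (nat_lit 14024998987) (nat_lit 132) (nat_lit 5) (nat_lit 137) (nat_lit 5) (nat_lit 138)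 (nat_lit 5) (nat_lit 425) (nat_lit 365) (nat_lit 230)))))) (XT.nd (nat_lit 48594) (nat_lit 0) (nat_lit 28272) (XT.nd (nat_lit 156) (nat_lit 380) (nat_lit 0) (XT.nd (nat_lit 78) (nat_lit 76) (nat_lit 0) (XT.lf (nat_lit 0) (nat_lit 1017909904) (nat_lit 304) (nat_lit 16952490029) (nat_lit 380) (nat_lit 6298183501) (nat_lit 128) (nat_lit 5) (nat_lit 132) (nat_lit 5) (nat_lit 133) (nat_lit 5) (nat_lit 426) (nat_lit 365) (nat_lit 229)) (XT.lf (nat_lit 0) (nat_lit 1793955448) (nat_lit 380) (nat_lit 2418384572) (nat_lit 76) (nat_lit 20518697439) (nat_lit 127) (nat_lit 5) (nat_lit 132) (nat_lit 5) (nat_lit 128) (nat_lit 5) (nat_lit 427) (nat_lit 365) (nat_lit 228))) (XT.nd (nat_lit 48282) (nat_lit 0) (nat_lit 29792) (XT.lf (nat_lit 0) (nat_lit 10214052589) (nat_lit 456) (nat_lit 6035374129) (nat_lit 76) (nat_lit 8953692023) (nat_lit 122) (nat_lit 5) (nat_lit 128) (nat_lit 5) (nat_lit 123) (nat_lit 5) (nat_lit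 428) (nat_lit 365) (nat_lit 227)) (XT.nd (nat_lit 78) (nat_lit 0) (nat_lit 0) (XT.lf (nat_lit 0) (nat_lit 3409135077) (nat_lit 1596) (nat_lit 630586699) (nat_lit 1596) (nat_lit 630586699) (nat_lit 514) (nat_lit 3) (nat_lit 535) (nat_lit 3) (nat_lit 535) (nat_lit 5) (nat_lit 366) (nat_lit 366) (nat_lit 288)) (XT.lf (nat_lit 76) (nat_lit 5631408801) (nat_lit 0) (nat_lit 2540847663) (nat_lit 1596) (nat_lit 1283141796) (nat_lit 515) (nat_lit 5) (nat_lit 514) (nat_lit 3) (nat_lit 535) (nat_lit 5) (nat_lit 367) (nat_lit 366) (nat_lit 287))))) (XT.nd (nat_lit 234) (nat_lit 0) (nat_lit 152) (XT.nd (nat_lit 78) (nat_lit 1596) (nat_lit 0) (XT.lf (nat_lit 76) (nat_lit 3169928616) (nat_lit 0) (nat_lit 6399226650) (nat_lit 1596) (nat_lit 4433344) (nat_lit 516) (nat_lit 5) (nat_lit 515) (nat_lit 5) (nat_lit 536) (nat_lit 5) (nat_lit 368) (nat_lit 366) (nat_lit 286)) (XT.nd (nat_lit 78) (nat_lit 0) (nat_lit 76) (XT.lf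 (nat_lit 76) (nat_lit 688707966) (nat_lit 0) (nat_lit 607727988) (nat_lit 1672) (nat_lit 8398708877) (nat_lit 495) (nat_lit 5) (nat_lit 494) (nat_lit 5) (nat_lit 516) (nat_lit 5) (nat_lit 369) (nat_lit 366) (nat_lit 285)) (XT.lf (nat_lit 0) (nat_lit 2669523757) (nat_lit 1596) (nat_lit 1799547584) (nat_lit 1672) (nat_lit 5350621349) (nat_lit 495) (nat_lit 5) (nat_lit 516) (nat_lit 5) (nat_lit 517) (nat_lit 5) (nat_lit 370) (nat_lit 366) (nat_lit 284)))) (XT.nd (nat_lit 78) (nat_lit 0) (nat_lit 0) (XT.lf (nat_lit 0) (nat_lit 4091079775) (nat_lit 1596) (nat_lit 4290227830) (nat_lit 1672) (nat_lit 1566534154) (nat_lit 496) (nat_lit 5) (nat_lit 517) (nat_lit 5) (nat_lit 518) (nat_lit 5) (nat_lit 371) (nat_lit 366) (nat_lit 283)) (XT.nd (nat_lit 78) (nat_lit 0) (nat_lit 76) (XT.lf (nat_lit 76) (nat_lit 3270194255) (nat_lit 0) (nat_lit 2305814286) (nat_lit 1672) (nat_lit 4503422221) (nat_lit 497) (nat_lit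 5) (nat_lit 496) (nat_lit 5) (nat_lit 518) (nat_lit 5) (nat_lit 372) (nat_lit 366) (nat_lit 282)) (XT.lf (nat_lit 76) (nat_lit 860425045) (nat_lit 0) (nat_lit 6264079119) (nat_lit 1672) (nat_lit 3090092586) (nat_lit 498) (nat_lit 5) (nat_lit 497) (nat_lit 5) (nat_lit 519) (nat_lit 5) (nat_lit 373) (nat_lit 366) (nat_lit 281))))))))
noncomputable def xc89 : XT := (XT.nd (nat_lit 1716) (nat_lit 11400) (nat_lit 0) (XT.nd (nat_lit 858) (nat_lit 8284) (nat_lit 0) (XT.nd (nat_lit 390) (nat_lit 3192) (nat_lit 0) (XT.nd (nat_lit 156) (nat_lit 1596) (nat_lit 0) (XT.nd (nat_lit 78) (nat_lit 0) (nat_lit 0) (XT.lf (nat_lit 0) (nat_lit 8740922288) (nat_lit 1596) (nat_lit 1542452558) (nat_lit 1672) (nat_lit 70022929) (nat_lit 498) (nat_lit 5) (nat_lit 519) (nat_lit 5) (nat_lit 520) (nat_lit 5) (nat_lit 374) (nat_lit 366) (nat_lit 280)) (XT.lf (nat_lit 76) (nat_lit 6520790180) (nat_lit 0) (nat_lit 3930084804) (nat_lit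 1672) (nat_lit 44596145) (nat_lit 499) (nat_lit 5) (nat_lit 498) (nat_lit 5) (nat_lit 520) (nat_lit 5) (nat_lit 375) (nat_lit 366) (nat_lit 279))) (XT.nd (nat_lit 78) (nat_lit 0) (nat_lit 0) (XT.lf (nat_lit 0) (nat_lit 1566562503) (nat_lit 1672) (nat_lit 6434958211) (nat_lit 1748) (nat_lit 2639753996) (nat_lit 477) (nat_lit 5) (nat_lit 499) (nat_lit 5) (nat_lit 500) (nat_lit 5) (nat_lit 376) (nat_lit 366) (nat_lit 278)) (XT.nd (nat_lit 78) (nat_lit 0) (nat_lit 76) (XT.lf (nat_lit 76) (nat_lit 1867011929) (nat_lit 0) (nat_lit 1386507399) (nat_lit 1748) (nat_lit 7537374231) (nat_lit 478) (nat_lit 5) (nat_lit 477) (nat_lit 5) (nat_lit 500) (nat_lit 5) (nat_lit 377) (nat_lit 366) (nat_lit 277)) (XT.lf (nat_lit 0) (nat_lit 5033747711) (nat_lit 1672) (nat_lit 500847413) (nat_lit 1748) (nat_lit 5409560792) (nat_lit 478) (nat_lit 5) (nat_lit 500) (nat_lit 5) (nat_lit 501) (nat_lit 5) (nat_lit 378) (nat_lit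 366) (nat_lit 276))))) (XT.nd (nat_lit 234) (nat_lit 3344) (nat_lit 0) (XT.nd (nat_lit 78) (nat_lit 0) (nat_lit 0) (XT.lf (nat_lit 0) (nat_lit 6903578236) (nat_lit 1672) (nat_lit 2863009637) (nat_lit 1748) (nat_lit 1334712324) (nat_lit 479) (nat_lit 5) (nat_lit 501) (nat_lit 5) (nat_lit 502) (nat_lit 5) (nat_lit 379) (nat_lit 366) (nat_lit 275)) (XT.nd (nat_lit 78) (nat_lit 0) (nat_lit 76) (XT.lf (nat_lit 76) (nat_lit 5998153786) (nat_lit 0) (nat_lit 2876234707) (nat_lit 1748) (nat_lit 2387880345) (nat_lit 480) (nat_lit 5) (nat_lit 479) (nat_lit 5) (nat_lit 502) (nat_lit 5) (nat_lit 380) (nat_lit 366) (nat_lit 274)) (XT.lf (nat_lit 76) (nat_lit 3730923918) (nat_lit 0) (nat_lit 7210948554) (nat_lit 1748) (nat_lit 485450578) (nat_lit 481) (nat_lit 5) (nat_lit 480) (nat_lit 5) (nat_lit 503) (nat_lit 5) (nat_lit 381) (nat_lit 366) (nat_lit 273)))) (XT.nd (nat_lit 78) (nat_lit 1672) (nat_lit 0) (XT.lf (nat_lit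 76) (nat_lit 1433875146) (nat_lit 0) (nat_lit 52269668) (nat_lit 1824) (nat_lit 10110371302) (nat_lit 458) (nat_lit 5) (nat_lit 457) (nat_lit 5) (nat_lit 481) (nat_lit 5) (nat_lit 382) (nat_lit 366) (nat_lit 272)) (XT.nd (nat_lit 78) (nat_lit 1748) (nat_lit 0) (XT.lf (nat_lit 0) (nat_lit 3578160634) (nat_lit 1748) (nat_lit 904851287) (nat_lit 76) (nat_lit 7286358452) (nat_lit 458) (nat_lit 5) (nat_lit 481) (nat_lit 5) (nat_lit 459) (nat_lit 5) (nat_lit 383) (nat_lit 366) (nat_lit 271)) (XT.lf (nat_lit 0) (nat_lit 5777840386) (nat_lit 1824) (nat_lit 3248049372) (nat_lit 76) (nat_lit 2920629160) (nat_lit 435) (nat_lit 5) (nat_lit 459) (nat_lit 5) (nat_lit 436) (nat_lit 5) (nat_lit 384) (nat_lit 366) (nat_lit 270)))))) (XT.nd (nat_lit 390) (nat_lit 4028) (nat_lit 0) (XT.nd (nat_lit 156) (nat_lit 1900) (nat_lit 0) (XT.nd (nat_lit 78) (nat_lit 912) (nat_lit 0) (XT.lf (nat_lit 0) (nat_lit 6501862109) (nat_lit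 1444) (nat_lit 1589519704) (nat_lit 1520) (nat_lit 4036649216) (nat_lit 416) (nat_lit 5) (nat_lit 435) (nat_lit 5) (nat_lit 436) (nat_lit 5) (nat_lit 385) (nat_lit 366) (nat_lit 269)) (XT.lf (nat_lit 0) (nat_lit 4263547724) (nat_lit 912) (nat_lit 6270273121) (nat_lit 988) (nat_lit 1779984175) (nat_lit 404) (nat_lit 5) (nat_lit 416) (nat_lit 5) (nat_lit 417) (nat_lit 5) (nat_lit 386) (nat_lit 366) (nat_lit 268))) (XT.nd (nat_lit 78) (nat_lit 912) (nat_lit 0) (XT.lf (nat_lit 0) (nat_lit 579355370) (nat_lit 988) (nat_lit 10506227798) (nat_lit 76) (nat_lit 1418662129) (nat_lit 391) (nat_lit 5) (nat_lit 404) (nat_lit 5) (nat_lit 392) (nat_lit 5) (nat_lit 387) (nat_lit 366) (nat_lit 267)) (XT.nd (nat_lit 78) (nat_lit 912) (nat_lit 0) (XT.lf (nat_lit 0) (nat_lit 3053707519) (nat_lit 988) (nat_lit 322677503) (nat_lit 76) (nat_lit 9322416001) (nat_lit 391) (nat_lit 5) (nat_lit 404) (nat_lit 5) (nat_lit 392)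 (nat_lit 5) (nat_lit 388) (nat_lit 366) (nat_lit 266)) (XT.lf (nat_lit 0) (nat_lit 5671350432) (nat_lit 988) (nat_lit 2653685353) (nat_lit 76) (nat_lit 4572782123) (nat_lit 379) (nat_lit 5) (nat_lit 392) (nat_lit 5) (nat_lit 380) (nat_lit 5) (nat_lit 389) (nat_lit 366) (nat_lit 265))))) (XT.nd (nat_lit 234) (nat_lit 1520) (nat_lit 0) (XT.nd (nat_lit 78) (nat_lit 1672) (nat_lit 0) (XT.lf (nat_lit 0) (nat_lit 8086620475) (nat_lit 836) (nat_lit 331099000) (nat_lit 912) (nat_lit 4684087416) (nat_lit 368) (nat_lit 5) (nat_lit 379) (nat_lit 5) (nat_lit 380) (nat_lit 5) (nat_lit 390) (nat_lit 366) (nat_lit 264)) (XT.nd (nat_lit 78) (nat_lit 836) (nat_lit 0) (XT.lf (nat_lit 0) (nat_lit 5872946073) (nat_lit 836) (nat_lit 5454610833) (nat_lit 912) (nat_lit 1982742456) (nat_lit 357) (nat_lit 5) (nat_lit 368) (nat_lit 5) (nat_lit 369) (nat_lit 5) (nat_lit 391) (nat_lit 366) (nat_lit 263)) (XT.lf (nat_lit 0) (nat_lit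 841535547) (nat_lit 836) (nat_lit 9896879260) (nat_lit 76) (nat_lit 2785485467) (nat_lit 346) (nat_lit 5) (nat_lit 357) (nat_lit 5) (nat_lit 347) (nat_lit 5) (nat_lit 392) (nat_lit 366) (nat_lit 262)))) (XT.nd (nat_lit 78) (nat_lit 760) (nat_lit 0) (XT.lf (nat_lit 0) (nat_lit 1322954215) (nat_lit 760) (nat_lit 2471147966) (nat_lit 836) (nat_lit 9948139914) (nat_lit 336) (nat_lit 5) (nat_lit 346) (nat_lit 5) (nat_lit 347) (nat_lit 5) (nat_lit 393) (nat_lit 366) (nat_lit 261)) (XT.nd (nat_lit 78) (nat_lit 760) (nat_lit 0) (XT.lf (nat_lit 0) (nat_lit 6917106502) (nat_lit 836) (nat_lit 1017245283) (nat_lit 76) (nat_lit 6031149986) (nat_lit 336) (nat_lit 5) (nat_lit 347) (nat_lit 5) (nat_lit 337) (nat_lit 5) (nat_lit 394) (nat_lit 366) (nat_lit 260)) (XT.lf (nat_lit 0) (nat_lit 10200544453) (nat_lit 836) (nat_lit 3371820396) (nat_lit 76) (nat_lit 621764191) (nat_lit 326) (nat_lit 5) (nat_lit 337) (nat_lit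 5) (nat_lit 327) (nat_lit 5) (nat_lit 395) (nat_lit 366) (nat_lit 259))))))) (XT.nd (nat_lit 858) (nat_lit 4712) (nat_lit 0) (XT.nd (nat_lit 390) (nat_lit 3800) (nat_lit 0) (XT.nd (nat_lit 156) (nat_lit 1368) (nat_lit 0) (XT.nd (nat_lit 78) (nat_lit 760) (nat_lit 0) (XT.lf (nat_lit 0) (nat_lit 8635760217) (nat_lit 760) (nat_lit 5039155459) (nat_lit 836) (nat_lit 752855387) (nat_lit 316) (nat_lit 5) (nat_lit 326) (nat_lit 5) (nat_lit 327) (nat_lit 5) (nat_lit 396) (nat_lit 366) (nat_lit 258)) (XT.lf (nat_lit 0) (nat_lit 2617494303) (nat_lit 760) (nat_lit 8268852496) (nat_lit 76) (nat_lit 3780418129) (nat_lit 306) (nat_lit 5) (nat_lit 316) (nat_lit 5) (nat_lit 307) (nat_lit 5) (nat_lit 397) (nat_lit 366) (nat_lit 257))) (XT.nd (nat_lit 78) (nat_lit 684) (nat_lit 0) (XT.lf (nat_lit 0) (nat_lit 4109771410) (nat_lit 684) (nat_lit 2046127518) (nat_lit 760) (nat_lit 8755390894) (nat_lit 297) (nat_lit 5) (nat_lit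 306) (nat_lit 5) (nat_lit 307) (nat_lit 5) (nat_lit 398) (nat_lit 366) (nat_lit 256)) (XT.nd (nat_lit 78) (nat_lit 0) (nat_lit 0) (XT.lf (nat_lit 0) (nat_lit 1761995964) (nat_lit 684) (nat_lit 8129838852) (nat_lit 760) (nat_lit 5269492133) (nat_lit 288) (nat_lit 5) (nat_lit 297) (nat_lit 5) (nat_lit 298) (nat_lit 5) (nat_lit 399) (nat_lit 366) (nat_lit 255)) (XT.lf (nat_lit 0) (nat_lit 13811355969) (nat_lit 760) (nat_lit 613097918) (nat_lit 76) (nat_lit 992985113) (nat_lit 288) (nat_lit 5) (nat_lit 298) (nat_lit 5) (nat_lit 289) (nat_lit 5) (nat_lit 400) (nat_lit 366) (nat_lit 254))))) (XT.nd (nat_lit 234) (nat_lit 1824) (nat_lit 0) (XT.nd (nat_lit 78) (nat_lit 1216) (nat_lit 0) (XT.lf (nat_lit 0) (nat_lit 2254818805) (nat_lit 760) (nat_lit 3050660513) (nat_lit 76) (nat_lit 10373157154) (nat_lit 278) (nat_lit 5) (nat_lit 288) (nat_lit 5) (nat_lit 279) (nat_lit 5) (nat_lit 401) (nat_lit 366) (nat_lit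 253)) (XT.nd (nat_lit 78) (nat_lit 608) (nat_lit 0) (XT.lf (nat_lit 0) (nat_lit 6287912692) (nat_lit 684) (nat_lit 5545347567) (nat_lit 76) (nat_lit 4112637231) (nat_lit 270) (nat_lit 5) (nat_lit 279) (nat_lit 5) (nat_lit 271) (nat_lit 5) (nat_lit 402) (nat_lit 366) (nat_lit 252)) (XT.lf (nat_lit 0) (nat_lit 8122280322) (nat_lit 608) (nat_lit 2408281565) (nat_lit 684) (nat_lit 5688846747) (nat_lit 262) (nat_lit 5) (nat_lit 270) (nat_lit 5) (nat_lit 271) (nat_lit 5) (nat_lit 403) (nat_lit 366) (nat_lit 251)))) (XT.nd (nat_lit 78) (nat_lit 1216) (nat_lit 0) (XT.lf (nat_lit 0) (nat_lit 5778726346) (nat_lit 608) (nat_lit 9224447953) (nat_lit 684) (nat_lit 1495900581) (nat_lit 254) (nat_lit 5) (nat_lit 262) (nat_lit 5) (nat_lit 263) (nat_lit 5) (nat_lit 404) (nat_lit 366) (nat_lit 250)) (XT.nd (nat_lit 78) (nat_lit 532) (nat_lit 0) (XT.lf (nat_lit 0) (nat_lit 2862718299) (nat_lit 684) (nat_lit 13408236438)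 (nat_lit 76) (nat_lit 514274974) (nat_lit 245) (nat_lit 5) (nat_lit 254) (nat_lit 5) (nat_lit 246) (nat_lit 5) (nat_lit 405) (nat_lit 366) (nat_lit 249)) (XT.lf (nat_lit 0) (nat_lit 880143124) (nat_lit 532) (nat_lit 6572895573) (nat_lit 608) (nat_lit 9624310587) (nat_lit 238) (nat_lit 5) (nat_lit 245) (nat_lit 5) (nat_lit 246) (nat_lit 5) (nat_lit 406) (nat_lit 366) (nat_lit 248)))))) (XT.nd (nat_lit 390) (nat_lit 2508) (nat_lit 0) (XT.nd (nat_lit 156) (nat_lit 1596) (nat_lit 0) (XT.nd (nat_lit 78) (nat_lit 608) (nat_lit 0) (XT.lf (nat_lit 0) (nat_lit 12275702936) (nat_lit 608) (nat_lit 1643143636) (nat_lit 76) (nat_lit 3457496275) (nat_lit 238) (nat_lit 5) (nat_lit 246) (nat_lit 5) (nat_lit 239) (nat_lit 5) (nat_lit 407) (nat_lit 366) (nat_lit 247)) (XT.lf (nat_lit 0) (nat_lit 13456127378) (nat_lit 608) (nat_lit 3899789704) (nat_lit 684) (nat_lit 326134735) (nat_lit 230) (nat_lit 5) (nat_lit 238)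 (nat_lit 5) (nat_lit 239) (nat_lit 5) (nat_lit 408) (nat_lit 366) (nat_lit 246))) (XT.nd (nat_lit 78) (nat_lit 988) (nat_lit 0) (XT.lf (nat_lit 0) (nat_lit 4639039626) (nat_lit 608) (nat_lit 6911024261) (nat_lit 76) (nat_lit 6444121713) (nat_lit 222) (nat_lit 5) (nat_lit 230) (nat_lit 5) (nat_lit 223) (nat_lit 5) (nat_lit 409) (nat_lit 366) (nat_lit 245)) (XT.nd (nat_lit 78) (nat_lit 456) (nat_lit 0) (XT.lf (nat_lit 0) (nat_lit 8655593575) (nat_lit 532) (nat_lit 1186424857) (nat_lit 608) (nat_lit 8471759020) (nat_lit 215) (nat_lit 5) (nat_lit 222) (nat_lit 5) (nat_lit 223) (nat_lit 5) (nat_lit 410) (nat_lit 366) (nat_lit 244)) (XT.lf (nat_lit 0) (nat_lit 6136700115) (nat_lit 456) (nat_lit 9195456368) (nat_lit 532) (nat_lit 3308181868) (nat_lit 209) (nat_lit 5) (nat_lit 215) (nat_lit 5) (nat_lit 216) (nat_lit 5) (nat_lit 411) (nat_lit 366) (nat_lit 243))))) (XT.nd (nat_lit 234) (nat_lit 1444) (nat_lit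 0) (XT.nd (nat_lit 78) (nat_lit 456) (nat_lit 0) (XT.lf (nat_lit 0) (nat_lit 2073358385) (nat_lit 608) (nat_lit 15420523620) (nat_lit 76) (nat_lit 1480767165) (nat_lit 201) (nat_lit 5) (nat_lit 209) (nat_lit 5) (nat_lit 202) (nat_lit 5) (nat_lit 412) (nat_lit 366) (nat_lit 242)) (XT.nd (nat_lit 78) (nat_lit 0) (nat_lit 0) (XT.lf (nat_lit 0) (nat_lit 851035524) (nat_lit 456) (nat_lit 6855966979) (nat_lit 532) (nat_lit 11608839897) (nat_lit 195) (nat_lit 5) (nat_lit 201) (nat_lit 5) (nat_lit 202) (nat_lit 5) (nat_lit 413) (nat_lit 366) (nat_lit 241)) (XT.lf (nat_lit 0) (nat_lit 13624809333) (nat_lit 532) (nat_lit 1894020243) (nat_lit 76) (nat_lit 4146141197) (nat_lit 195) (nat_lit 5) (nat_lit 202) (nat_lit 5) (nat_lit 196) (nat_lit 5) (nat_lit 414) (nat_lit 366) (nat_lit 240)))) (XT.nd (nat_lit 78) (nat_lit 988) (nat_lit 0) (XT.lf (nat_lit 0) (nat_lit 15306123736) (nat_lit 456) (nat_lit 4543078336) (nat_lit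 532) (nat_lit 172792235) (nat_lit 189) (nat_lit 5) (nat_lit 195) (nat_lit 5) (nat_lit 196) (nat_lit 5) (nat_lit 415) (nat_lit 366) (nat_lit 239)) (XT.nd (nat_lit 78) (nat_lit 456) (nat_lit 0) (XT.lf (nat_lit 0) (nat_lit 5918197119) (nat_lit 532) (nat_lit 7666679442) (nat_lit 76) (nat_lit 6801600042) (nat_lit 182) (nat_lit 5) (nat_lit 189) (nat_lit 5) (nat_lit 183) (nat_lit 5) (nat_lit 416) (nat_lit 366) (nat_lit 238)) (XT.lf (nat_lit 0) (nat_lit 10059602984) (nat_lit 456) (nat_lit 2242165233) (nat_lit 532) (nat_lit 8457860480) (nat_lit 176) (nat_lit 5) (nat_lit 182) (nat_lit 5) (nat_lit 183) (nat_lit 5) (nat_lit 417) (nat_lit 366) (nat_lit 237))))))))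
noncomputable def xc90 : XT := (XT.nd (nat_lit 49998) (nat_lit 0) (nat_lit 12920) (XT.nd (nat_lit 49140) (nat_lit 0) (nat_lit 26448) (XT.nd (nat_lit 390) (nat_lit 1976) (nat_lit 0) (XT.nd (nat_lit 156) (nat_lit 836) (nat_lit 0) (XT.nd (nat_lit 78) (nat_lit 532) (nat_lit 0) (XT.lf (nat_lit 0) (nat_lit 7291351152) (nat_lit 380) (nat_lit 11731020811) (nat_lit 456) (nat_lit 2118694981) (nat_lit 171) (nat_lit 5) (nat_lit 176) (nat_lit 5) (nat_lit 177) (nat_lit 5) (nat_lit 418) (nat_lit 366) (nat_lit 236)) (XT.lf (nat_lit 0) (nat_lit 4428242257) (nat_lit 456) (nat_lit 26086585) (nat_lit 532) (nat_lit 17077018169) (nat_lit 164) (nat_lit 5) (nat_lit 170) (nat_lit 5) (nat_lit 171) (nat_lit 5) (nat_lit 419) (nat_lit 366) (nat_lit 235))) (XT.nd (nat_lit 78) (nat_lit 456) (nat_lit 0) (XT.lf (nat_lit 0) (nat_lit 1416281545) (nat_lit 380) (nat_lit 9946468762) (nat_lit 456) (nat_lit 10566967191) (nat_lit 159) (nat_lit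 5) (nat_lit 164) (nat_lit 5) (nat_lit 165) (nat_lit 5) (nat_lit 420) (nat_lit 366) (nat_lit 234)) (XT.nd (nat_lit 78) (nat_lit 456) (nat_lit 0) (XT.lf (nat_lit 0) (nat_lit 18593630205) (nat_lit 456) (nat_lit 1648314301) (nat_lit 76) (nat_lit 2095792363) (nat_lit 159) (nat_lit 5) (nat_lit 165) (nat_lit 5) (nat_lit 160) (nat_lit 5) (nat_lit 421) (nat_lit 366) (nat_lit 233)) (XT.lf (nat_lit 0) (nat_lit 3410153121) (nat_lit 456) (nat_lit 4846965893) (nat_lit 76) (nat_lit 14497057712) (nat_lit 153) (nat_lit 5) (nat_lit 159) (nat_lit 5) (nat_lit 154) (nat_lit 5) (nat_lit 422) (nat_lit 366) (nat_lit 232))))) (XT.nd (nat_lit 234) (nat_lit 760) (nat_lit 0) (XT.nd (nat_lit 78) (nat_lit 836) (nat_lit 0) (XT.lf (nat_lit 0) (nat_lit 10850650541) (nat_lit 456) (nat_lit 8168023812) (nat_lit 76) (nat_lit 4161492645) (nat_lit 148) (nat_lit 5) (nat_lit 154) (nat_lit 5) (nat_lit 149) (nat_lit 5) (nat_lit 423) (nat_lit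 366) (nat_lit 231)) (XT.nd (nat_lit 78) (nat_lit 456) (nat_lit 0) (XT.lf (nat_lit 0) (nat_lit 11995945151) (nat_lit 380) (nat_lit 6670729963) (nat_lit 456) (nat_lit 4949217314) (nat_lit 143) (nat_lit 5) (nat_lit 148) (nat_lit 5) (nat_lit 149) (nat_lit 5) (nat_lit 424) (nat_lit 366) (nat_lit 230)) (XT.lf (nat_lit 0) (nat_lit 2757553098) (nat_lit 456) (nat_lit 15211239126) (nat_lit 76) (nat_lit 6092757569) (nat_lit 137) (nat_lit 5) (nat_lit 143) (nat_lit 5) (nat_lit 138) (nat_lit 5) (nat_lit 425) (nat_lit 366) (nat_lit 229)))) (XT.nd (nat_lit 78) (nat_lit 380) (nat_lit 0) (XT.lf (nat_lit 0) (nat_lit 5548504827) (nat_lit 380) (nat_lit 5226602965) (nat_lit 456) (nat_lit 13741879933) (nat_lit 132) (nat_lit 5) (nat_lit 137) (nat_lit 5) (nat_lit 138) (nat_lit 5) (nat_lit 426) (nat_lit 366) (nat_lit 228)) (XT.nd (nat_lit 78) (nat_lit 76) (nat_lit 0) (XT.lf (nat_lit 0) (nat_lit 2110296645) (nat_lit 304) (nat_lit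 17078384962) (nat_lit 380) (nat_lit 5794298857) (nat_lit 128) (nat_lit 5) (nat_lit 132) (nat_lit 5) (nat_lit 133) (nat_lit 5) (nat_lit 427) (nat_lit 366) (nat_lit 227)) (XT.lf (nat_lit 0) (nat_lit 2511602808) (nat_lit 380) (nat_lit 1451119018) (nat_lit 76) (nat_lit 21496896815) (nat_lit 127) (nat_lit 5) (nat_lit 132) (nat_lit 5) (nat_lit 128) (nat_lit 5) (nat_lit 428) (nat_lit 366) (nat_lit 226)))))) (XT.nd (nat_lit 390) (nat_lit 1368) (nat_lit 0) (XT.nd (nat_lit 156) (nat_lit 0) (nat_lit 76) (XT.nd (nat_lit 78) (nat_lit 1596) (nat_lit 0) (XT.lf (nat_lit 0) (nat_lit 4714877786) (nat_lit 1596) (nat_lit 35589846) (nat_lit 1596) (nat_lit 35589846) (nat_lit 514) (nat_lit 3) (nat_lit 535) (nat_lit 3) (nat_lit 535) (nat_lit 5) (nat_lit 367) (nat_lit 367) (nat_lit 286)) (XT.lf (nat_lit 0) (nat_lit 1056457385) (nat_lit 1596) (nat_lit 2690292367) (nat_lit 1672) (nat_lit 5944713137) (nat_lit 493) (nat_lit 5)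 (nat_lit 514) (nat_lit 3) (nat_lit 515) (nat_lit 5) (nat_lit 368) (nat_lit 367) (nat_lit 285))) (XT.nd (nat_lit 78) (nat_lit 0) (nat_lit 0) (XT.lf (nat_lit 0) (nat_lit 2288399360) (nat_lit 1596) (nat_lit 5322469815) (nat_lit 1672) (nat_lit 2203531960) (nat_lit 494) (nat_lit 5) (nat_lit 515) (nat_lit 5) (nat_lit 516) (nat_lit 5) (nat_lit 369) (nat_lit 367) (nat_lit 284)) (XT.nd (nat_lit 78) (nat_lit 0) (nat_lit 76) (XT.lf (nat_lit 76) (nat_lit 1961982237) (nat_lit 0) (nat_lit 1607601741) (nat_lit 1672) (nat_lit 6371208146) (nat_lit 495) (nat_lit 5) (nat_lit 494) (nat_lit 5) (nat_lit 516) (nat_lit 5) (nat_lit 370) (nat_lit 367) (nat_lit 283)) (XT.lf (nat_lit 0) (nat_lit 4912601194) (nat_lit 1596) (nat_lit 587326678) (nat_lit 1672) (nat_lit 4570589015) (nat_lit 495) (nat_lit 5) (nat_lit 516) (nat_lit 5) (nat_lit 517) (nat_lit 5) (nat_lit 371) (nat_lit 367) (nat_lit 282))))) (XT.nd (nat_lit 234) (nat_lit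 1596) (nat_lit 0) (XT.nd (nat_lit 78) (nat_lit 0) (nat_lit 0) (XT.lf (nat_lit 0) (nat_lit 6316292445) (nat_lit 1596) (nat_lit 3125017089) (nat_lit 1672) (nat_lit 762425884) (nat_lit 496) (nat_lit 5) (nat_lit 517) (nat_lit 5) (nat_lit 518) (nat_lit 5) (nat_lit 372) (nat_lit 367) (nat_lit 281)) (XT.nd (nat_lit 78) (nat_lit 0) (nat_lit 76) (XT.lf (nat_lit 76) (nat_lit 4641225384) (nat_lit 0) (nat_lit 3151571076) (nat_lit 1672) (nat_lit 2547549413) (nat_lit 497) (nat_lit 5) (nat_lit 496) (nat_lit 5) (nat_lit 518) (nat_lit 5) (nat_lit 373) (nat_lit 367) (nat_lit 280)) (XT.lf (nat_lit 76) (nat_lit 2184266729) (nat_lit 0) (nat_lit 7147318257) (nat_lit 1672) (nat_lit 1149119005) (nat_lit 498) (nat_lit 5) (nat_lit 497) (nat_lit 5) (nat_lit 519) (nat_lit 5) (nat_lit 374) (nat_lit 367) (nat_lit 279)))) (XT.nd (nat_lit 78) (nat_lit 0) (nat_lit 76) (XT.lf (nat_lit 0) (nat_lit 309002841) (nat_lit 1672) (nat_lit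 290906304) (nat_lit 1748) (nat_lit 10024903414) (nat_lit 475) (nat_lit 5) (nat_lit 497) (nat_lit 5) (nat_lit 498) (nat_lit 5) (nat_lit 375) (nat_lit 367) (nat_lit 278)) (XT.nd (nat_lit 78) (nat_lit 0) (nat_lit 76) (XT.lf (nat_lit 0) (nat_lit 1850561681) (nat_lit 1672) (nat_lit 2785389926) (nat_lit 1748) (nat_lit 6136043199) (nat_lit 476) (nat_lit 5) (nat_lit 498) (nat_lit 5) (nat_lit 499) (nat_lit 5) (nat_lit 376) (nat_lit 367) (nat_lit 277)) (XT.lf (nat_lit 0) (nat_lit 3458939568) (nat_lit 1672) (nat_lit 5299952603) (nat_lit 1748) (nat_lit 2164297103) (nat_lit 477) (nat_lit 5) (nat_lit 499) (nat_lit 5) (nat_lit 500) (nat_lit 5) (nat_lit 377) (nat_lit 367) (nat_lit 276))))))) (XT.nd (nat_lit 858) (nat_lit 7144) (nat_lit 0) (XT.nd (nat_lit 390) (nat_lit 5016) (nat_lit 0) (XT.nd (nat_lit 156) (nat_lit 1520) (nat_lit 0) (XT.nd (nat_lit 78) (nat_lit 0) (nat_lit 76) (XT.lf (nat_lit 76) (nat_lit 3229530537)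 (nat_lit 0) (nat_lit 1921708341) (nat_lit 1748) (nat_lit 5926975254) (nat_lit 478) (nat_lit 5) (nat_lit 477) (nat_lit 5) (nat_lit 500) (nat_lit 5) (nat_lit 378) (nat_lit 367) (nat_lit 275)) (XT.lf (nat_lit 76) (nat_lit 801551598) (nat_lit 0) (nat_lit 6132984744) (nat_lit 1748) (nat_lit 4302556540) (nat_lit 479) (nat_lit 5) (nat_lit 478) (nat_lit 5) (nat_lit 501) (nat_lit 5) (nat_lit 379) (nat_lit 367) (nat_lit 274))) (XT.nd (nat_lit 78) (nat_lit 1672) (nat_lit 0) (XT.lf (nat_lit 0) (nat_lit 8810088944) (nat_lit 1672) (nat_lit 1626064643) (nat_lit 1748) (nat_lit 963816784) (nat_lit 479) (nat_lit 5) (nat_lit 501) (nat_lit 5) (nat_lit 502) (nat_lit 5) (nat_lit 380) (nat_lit 367) (nat_lit 273)) (XT.nd (nat_lit 78) (nat_lit 1672) (nat_lit 0) (XT.lf (nat_lit 76) (nat_lit 7479472252) (nat_lit 0) (nat_lit 3319503453) (nat_lit 1748) (nat_lit 767624411) (nat_lit 480) (nat_lit 5) (nat_lit 479) (nat_lit 5) (nat_lit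 502) (nat_lit 5) (nat_lit 381) (nat_lit 367) (nat_lit 272)) (XT.lf (nat_lit 0) (nat_lit 1133947151) (nat_lit 1748) (nat_lit 6586532018) (nat_lit 1824) (nat_lit 4016828561) (nat_lit 457) (nat_lit 5) (nat_lit 480) (nat_lit 5) (nat_lit 481) (nat_lit 5) (nat_lit 382) (nat_lit 367) (nat_lit 271))))) (XT.nd (nat_lit 234) (nat_lit 3344) (nat_lit 0) (XT.nd (nat_lit 78) (nat_lit 1672) (nat_lit 0) (XT.lf (nat_lit 76) (nat_lit 2792704512) (nat_lit 0) (nat_lit 326571150) (nat_lit 1824) (nat_lit 8793023386) (nat_lit 458) (nat_lit 5) (nat_lit 457) (nat_lit 5) (nat_lit 481) (nat_lit 5) (nat_lit 383) (nat_lit 367) (nat_lit 270)) (XT.nd (nat_lit 78) (nat_lit 0) (nat_lit 0) (XT.lf (nat_lit 0) (nat_lit 383416635) (nat_lit 1748) (nat_lit 4845137181) (nat_lit 1824) (nat_lit 6862705029) (nat_lit 435) (nat_lit 5) (nat_lit 458) (nat_lit 5) (nat_lit 459) (nat_lit 5) (nat_lit 384) (nat_lit 367) (nat_lit 269)) (XT.lf (nat_lit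 0) (nat_lit 7453838288) (nat_lit 1824) (nat_lit 2024566747) (nat_lit 76) (nat_lit 2796134186) (nat_lit 435) (nat_lit 5) (nat_lit 459) (nat_lit 5) (nat_lit 436) (nat_lit 5) (nat_lit 385) (nat_lit 367) (nat_lit 268)))) (XT.nd (nat_lit 78) (nat_lit 1900) (nat_lit 0) (XT.lf (nat_lit 0) (nat_lit 7996411654) (nat_lit 1444) (nat_lit 1805044604) (nat_lit 1520) (nat_lit 2660756410) (nat_lit 416) (nat_lit 5) (nat_lit 435) (nat_lit 5) (nat_lit 436) (nat_lit 5) (nat_lit 386) (nat_lit 367) (nat_lit 267)) (XT.nd (nat_lit 78) (nat_lit 988) (nat_lit 0) (XT.lf (nat_lit 0) (nat_lit 5700115247) (nat_lit 912) (nat_lit 6581754072) (nat_lit 988) (nat_lit 372405649) (nat_lit 404) (nat_lit 5) (nat_lit 416) (nat_lit 5) (nat_lit 417) (nat_lit 5) (nat_lit 387) (nat_lit 367) (nat_lit 266)) (XT.lf (nat_lit 0) (nat_lit 2004381038) (nat_lit 988) (nat_lit 9485726603) (nat_lit 76) (nat_lit 1360823207) (nat_lit 391) (nat_lit 5) (nat_lit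 404) (nat_lit 5) (nat_lit 392) (nat_lit 5) (nat_lit 388) (nat_lit 367) (nat_lit 265)))))) (XT.nd (nat_lit 390) (nat_lit 3724) (nat_lit 0) (XT.nd (nat_lit 156) (nat_lit 2508) (nat_lit 0) (XT.nd (nat_lit 78) (nat_lit 0) (nat_lit 0) (XT.lf (nat_lit 0) (nat_lit 977243388) (nat_lit 912) (nat_lit 3541065906) (nat_lit 988) (nat_lit 8533715455) (nat_lit 379) (nat_lit 5) (nat_lit 391) (nat_lit 5) (nat_lit 392) (nat_lit 5) (nat_lit 389) (nat_lit 367) (nat_lit 264)) (XT.lf (nat_lit 0) (nat_lit 7176228838) (nat_lit 988) (nat_lit 1430189896) (nat_lit 76) (nat_lit 4651366630) (nat_lit 379) (nat_lit 5) (nat_lit 392) (nat_lit 5) (nat_lit 380) (nat_lit 5) (nat_lit 390) (nat_lit 367) (nat_lit 263))) (XT.nd (nat_lit 78) (nat_lit 1672) (nat_lit 0) (XT.lf (nat_lit 0) (nat_lit 9611183760) (nat_lit 836) (nat_lit 363252696) (nat_lit 912) (nat_lit 3494076541) (nat_lit 368) (nat_lit 5) (nat_lit 379) (nat_lit 5) (nat_lit 380)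 (nat_lit 5) (nat_lit 391) (nat_lit 367) (nat_lit 262)) (XT.nd (nat_lit 78) (nat_lit 836) (nat_lit 0) (XT.lf (nat_lit 0) (nat_lit 7336363336) (nat_lit 836) (nat_lit 5605437165) (nat_lit 912) (nat_lit 742062812) (nat_lit 357) (nat_lit 5) (nat_lit 368) (nat_lit 5) (nat_lit 369) (nat_lit 5) (nat_lit 392) (nat_lit 367) (nat_lit 261)) (XT.lf (nat_lit 0) (nat_lit 2121042231) (nat_lit 836) (nat_lit 8885282213) (nat_lit 76) (nat_lit 2897963299) (nat_lit 346) (nat_lit 5) (nat_lit 357) (nat_lit 5) (nat_lit 347) (nat_lit 5) (nat_lit 393) (nat_lit 367) (nat_lit 260))))) (XT.nd (nat_lit 234) (nat_lit 2204) (nat_lit 0) (XT.nd (nat_lit 78) (nat_lit 760) (nat_lit 0) (XT.lf (nat_lit 0) (nat_lit 2649917354) (nat_lit 760) (nat_lit 2484094487) (nat_lit 836) (nat_lit 8995738574) (nat_lit 336) (nat_lit 5) (nat_lit 346) (nat_lit 5) (nat_lit 347) (nat_lit 5) (nat_lit 394) (nat_lit 367) (nat_lit 259)) (XT.nd (nat_lit 78) (nat_lit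 0) (nat_lit 0) (XT.lf (nat_lit 0) (nat_lit 228669588) (nat_lit 760) (nat_lit 8088195819) (nat_lit 836) (nat_lit 6043526200) (nat_lit 326) (nat_lit 5) (nat_lit 336) (nat_lit 5) (nat_lit 337) (nat_lit 5) (nat_lit 395) (nat_lit 367) (nat_lit 258)) (XT.lf (nat_lit 0) (nat_lit 11671348292) (nat_lit 836) (nat_lit 2197268912) (nat_lit 76) (nat_lit 727816363) (nat_lit 326) (nat_lit 5) (nat_lit 337) (nat_lit 5) (nat_lit 327) (nat_lit 5) (nat_lit 396) (nat_lit 367) (nat_lit 257)))) (XT.nd (nat_lit 78) (nat_lit 1368) (nat_lit 0) (XT.lf (nat_lit 0) (nat_lit 381496356) (nat_lit 836) (nat_lit 4690274452) (nat_lit 76) (nat_lit 9765785906) (nat_lit 315) (nat_lit 5) (nat_lit 326) (nat_lit 5) (nat_lit 316) (nat_lit 5) (nat_lit 397) (nat_lit 367) (nat_lit 256)) (XT.nd (nat_lit 78) (nat_lit 684) (nat_lit 0) (XT.lf (nat_lit 0) (nat_lit 3818333812) (nat_lit 760) (nat_lit 7245264973) (nat_lit 76) (nat_lit 4020516171) (nat_lit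 306) (nat_lit 5) (nat_lit 316) (nat_lit 5) (nat_lit 307) (nat_lit 5) (nat_lit 398) (nat_lit 367) (nat_lit 255)) (XT.lf (nat_lit 0) (nat_lit 5484086589) (nat_lit 684) (nat_lit 1954237673) (nat_lit 760) (nat_lit 7898148678) (nat_lit 297) (nat_lit 5) (nat_lit 306) (nat_lit 5) (nat_lit 307) (nat_lit 5) (nat_lit 399) (nat_lit 367) (nat_lit 254))))))))
noncomputable def xc91 : XT := (XT.nd (nat_lit 1716) (nat_lit 2356) (nat_lit 0) (XT.nd (nat_lit 858) (nat_lit 4788) (nat_lit 0) (XT.nd (nat_lit 390) (nat_lit 3040) (nat_lit 0) (XT.nd (nat_lit 156) (nat_lit 1292) (nat_lit 0) (XT.nd (nat_lit 78) (nat_lit 684) (nat_lit 0) (XT.lf (nat_lit 0) (nat_lit 3066398653) (nat_lit 684) (nat_lit 8197058337) (nat_lit 760) (nat_lit 4331017660) (nat_lit 288) (nat_lit 5) (nat_lit 297) (nat_lit 5) (nat_lit 298) (nat_lit 5) (nat_lit 400) (nat_lit 367) (nat_lit 253)) (XT.lf (nat_lit 0) (nat_lit 611566671) (nat_lit 684) (nat_lit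 14662774679) (nat_lit 760) (nat_lit 584458834) (nat_lit 279) (nat_lit 5) (nat_lit 288) (nat_lit 5) (nat_lit 289) (nat_lit 5) (nat_lit 401) (nat_lit 367) (nat_lit 252))) (XT.nd (nat_lit 78) (nat_lit 1216) (nat_lit 0) (XT.lf (nat_lit 0) (nat_lit 3351548845) (nat_lit 760) (nat_lit 1913324621) (nat_lit 76) (nat_lit 10863360406) (nat_lit 278) (nat_lit 5) (nat_lit 288) (nat_lit 5) (nat_lit 279) (nat_lit 5) (nat_lit 402) (nat_lit 367) (nat_lit 251)) (XT.nd (nat_lit 78) (nat_lit 608) (nat_lit 0) (XT.lf (nat_lit 0) (nat_lit 7484822532) (nat_lit 684) (nat_lit 4483786287) (nat_lit 76) (nat_lit 4435325403) (nat_lit 270) (nat_lit 5) (nat_lit 279) (nat_lit 5) (nat_lit 271) (nat_lit 5) (nat_lit 403) (nat_lit 367) (nat_lit 250)) (XT.lf (nat_lit 0) (nat_lit 9573948869) (nat_lit 608) (nat_lit 2259278314) (nat_lit 684) (nat_lit 4852859087) (nat_lit 262) (nat_lit 5) (nat_lit 270) (nat_lit 5) (nat_lit 271) (nat_lit 5)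 (nat_lit 404) (nat_lit 367) (nat_lit 249))))) (XT.nd (nat_lit 234) (nat_lit 1216) (nat_lit 0) (XT.nd (nat_lit 78) (nat_lit 1216) (nat_lit 0) (XT.lf (nat_lit 0) (nat_lit 7158658393) (nat_lit 608) (nat_lit 9261847856) (nat_lit 684) (nat_lit 554031432) (nat_lit 254) (nat_lit 5) (nat_lit 262) (nat_lit 5) (nat_lit 263) (nat_lit 5) (nat_lit 405) (nat_lit 367) (nat_lit 248)) (XT.nd (nat_lit 78) (nat_lit 532) (nat_lit 0) (XT.lf (nat_lit 0) (nat_lit 3903433303) (nat_lit 684) (nat_lit 12592978203) (nat_lit 76) (nat_lit 773121648) (nat_lit 245) (nat_lit 5) (nat_lit 254) (nat_lit 5) (nat_lit 246) (nat_lit 5) (nat_lit 406) (nat_lit 367) (nat_lit 247)) (XT.lf (nat_lit 0) (nat_lit 2104300168) (nat_lit 532) (nat_lit 6507129067) (nat_lit 608) (nat_lit 8959392326) (nat_lit 238) (nat_lit 5) (nat_lit 245) (nat_lit 5) (nat_lit 246) (nat_lit 5) (nat_lit 407) (nat_lit 367) (nat_lit 246)))) (XT.nd (nat_lit 78) (nat_lit 1216)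 (nat_lit 0) (XT.lf (nat_lit 0) (nat_lit 13553203777) (nat_lit 608) (nat_lit 512929515) (nat_lit 76) (nat_lit 3813167466) (nat_lit 238) (nat_lit 5) (nat_lit 246) (nat_lit 5) (nat_lit 239) (nat_lit 5) (nat_lit 408) (nat_lit 367) (nat_lit 245)) (XT.nd (nat_lit 78) (nat_lit 532) (nat_lit 0) (XT.lf (nat_lit 0) (nat_lit 564805592) (nat_lit 684) (nat_lit 3178096592) (nat_lit 76) (nat_lit 14451587771) (nat_lit 229) (nat_lit 5) (nat_lit 238) (nat_lit 5) (nat_lit 230) (nat_lit 5) (nat_lit 409) (nat_lit 367) (nat_lit 244)) (XT.lf (nat_lit 0) (nat_lit 5657701881) (nat_lit 608) (nat_lit 5949051068) (nat_lit 76) (nat_lit 6909531833) (nat_lit 222) (nat_lit 5) (nat_lit 230) (nat_lit 5) (nat_lit 223) (nat_lit 5) (nat_lit 410) (nat_lit 367) (nat_lit 243)))))) (XT.nd (nat_lit 390) (nat_lit 2736) (nat_lit 0) (XT.nd (nat_lit 156) (nat_lit 1064) (nat_lit 0) (XT.nd (nat_lit 78) (nat_lit 456) (nat_lit 0) (XT.lf (nat_lit 0)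 (nat_lit 10065594736) (nat_lit 532) (nat_lit 933027797) (nat_lit 608) (nat_lit 7847208783) (nat_lit 215) (nat_lit 5) (nat_lit 222) (nat_lit 5) (nat_lit 223) (nat_lit 5) (nat_lit 411) (nat_lit 367) (nat_lit 242)) (XT.lf (nat_lit 0) (nat_lit 7467703630) (nat_lit 456) (nat_lit 9169941536) (nat_lit 532) (nat_lit 2544864130) (nat_lit 209) (nat_lit 5) (nat_lit 215) (nat_lit 5) (nat_lit 216) (nat_lit 5) (nat_lit 412) (nat_lit 367) (nat_lit 241))) (XT.nd (nat_lit 78) (nat_lit 456) (nat_lit 0) (XT.lf (nat_lit 0) (nat_lit 2971399422) (nat_lit 608) (nat_lit 14728775784) (nat_lit 76) (nat_lit 1826874107) (nat_lit 201) (nat_lit 5) (nat_lit 209) (nat_lit 5) (nat_lit 202) (nat_lit 5) (nat_lit 413) (nat_lit 367) (nat_lit 240)) (XT.nd (nat_lit 78) (nat_lit 0) (nat_lit 0) (XT.lf (nat_lit 0) (nat_lit 2012201958) (nat_lit 456) (nat_lit 6744879341) (nat_lit 532) (nat_lit 11121740041) (nat_lit 195) (nat_lit 5) (nat_lit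 201) (nat_lit 5) (nat_lit 202) (nat_lit 5) (nat_lit 414) (nat_lit 367) (nat_lit 239)) (XT.lf (nat_lit 0) (nat_lit 14830568546) (nat_lit 532) (nat_lit 834263141) (nat_lit 76) (nat_lit 4574032419) (nat_lit 195) (nat_lit 5) (nat_lit 202) (nat_lit 5) (nat_lit 196) (nat_lit 5) (nat_lit 415) (nat_lit 367) (nat_lit 238))))) (XT.nd (nat_lit 234) (nat_lit 1292) (nat_lit 0) (XT.nd (nat_lit 78) (nat_lit 912) (nat_lit 0) (XT.lf (nat_lit 0) (nat_lit 610573436) (nat_lit 532) (nat_lit 3747170272) (nat_lit 76) (nat_lit 16249099306) (nat_lit 188) (nat_lit 5) (nat_lit 195) (nat_lit 5) (nat_lit 189) (nat_lit 5) (nat_lit 416) (nat_lit 367) (nat_lit 237)) (XT.nd (nat_lit 78) (nat_lit 456) (nat_lit 0) (XT.lf (nat_lit 0) (nat_lit 6868224226) (nat_lit 532) (nat_lit 6792218510) (nat_lit 76) (nat_lit 7322071813) (nat_lit 182) (nat_lit 5) (nat_lit 189) (nat_lit 5) (nat_lit 183) (nat_lit 5) (nat_lit 417) (nat_lit 367) (nat_lit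 236)) (XT.lf (nat_lit 0) (nat_lit 11447933816) (nat_lit 456) (nat_lit 1979923745) (nat_lit 532) (nat_lit 7939315651) (nat_lit 176) (nat_lit 5) (nat_lit 182) (nat_lit 5) (nat_lit 183) (nat_lit 5) (nat_lit 418) (nat_lit 367) (nat_lit 235)))) (XT.nd (nat_lit 78) (nat_lit 912) (nat_lit 0) (XT.lf (nat_lit 0) (nat_lit 8591898923) (nat_lit 380) (nat_lit 11745231769) (nat_lit 456) (nat_lit 1423185909) (nat_lit 171) (nat_lit 5) (nat_lit 176) (nat_lit 5) (nat_lit 177) (nat_lit 5) (nat_lit 419) (nat_lit 367) (nat_lit 234)) (XT.nd (nat_lit 78) (nat_lit 380) (nat_lit 0) (XT.lf (nat_lit 0) (nat_lit 5324260751) (nat_lit 532) (nat_lit 16529301949) (nat_lit 76) (nat_lit 308902924) (nat_lit 164) (nat_lit 5) (nat_lit 171) (nat_lit 5) (nat_lit 165) (nat_lit 5) (nat_lit 420) (nat_lit 367) (nat_lit 233)) (XT.lf (nat_lit 0) (nat_lit 2527860721) (nat_lit 380) (nat_lit 9897739065) (nat_lit 456) (nat_lit 10147476929) (nat_lit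 159) (nat_lit 5) (nat_lit 164) (nat_lit 5) (nat_lit 165) (nat_lit 5) (nat_lit 421) (nat_lit 367) (nat_lit 232))))))) (XT.nd (nat_lit 49218) (nat_lit 0) (nat_lit 24928) (XT.nd (nat_lit 390) (nat_lit 684) (nat_lit 0) (XT.nd (nat_lit 156) (nat_lit 1216) (nat_lit 0) (XT.nd (nat_lit 78) (nat_lit 456) (nat_lit 0) (XT.lf (nat_lit 0) (nat_lit 19854566031) (nat_lit 456) (nat_lit 647890643) (nat_lit 76) (nat_lit 2491259503) (nat_lit 159) (nat_lit 5) (nat_lit 165) (nat_lit 5) (nat_lit 160) (nat_lit 5) (nat_lit 422) (nat_lit 367) (nat_lit 231)) (XT.lf (nat_lit 0) (nat_lit 4206462828) (nat_lit 456) (nat_lit 3950225852) (nat_lit 76) (nat_lit 15266147333) (nat_lit 153) (nat_lit 5) (nat_lit 159) (nat_lit 5) (nat_lit 154) (nat_lit 5) (nat_lit 423) (nat_lit 367) (nat_lit 230))) (XT.nd (nat_lit 78) (nat_lit 836) (nat_lit 0) (XT.lf (nat_lit 0) (nat_lit 11858856605) (nat_lit 456) (nat_lit 7376369398) (nat_lit 76) (nat_lit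 4626608865) (nat_lit 148) (nat_lit 5) (nat_lit 154) (nat_lit 5) (nat_lit 149) (nat_lit 5) (nat_lit 424) (nat_lit 367) (nat_lit 229)) (XT.nd (nat_lit 78) (nat_lit 456) (nat_lit 0) (XT.lf (nat_lit 0) (nat_lit 13375699488) (nat_lit 380) (nat_lit 6520400064) (nat_lit 456) (nat_lit 4414800184) (nat_lit 143) (nat_lit 5) (nat_lit 148) (nat_lit 5) (nat_lit 149) (nat_lit 5) (nat_lit 425) (nat_lit 367) (nat_lit 228)) (XT.lf (nat_lit 0) (nat_lit 3503440943) (nat_lit 456) (nat_lit 14644343961) (nat_lit 76) (nat_lit 6622271078) (nat_lit 137) (nat_lit 5) (nat_lit 143) (nat_lit 5) (nat_lit 138) (nat_lit 5) (nat_lit 426) (nat_lit 367) (nat_lit 227))))) (XT.nd (nat_lit 48594) (nat_lit 0) (nat_lit 27740) (XT.nd (nat_lit 78) (nat_lit 304) (nat_lit 0) (XT.lf (nat_lit 0) (nat_lit 6721591581) (nat_lit 380) (nat_lit 5027151040) (nat_lit 456) (nat_lit 13490672268) (nat_lit 132) (nat_lit 5) (nat_lit 137) (nat_lit 5) (nat_lit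 138) (nat_lit 5) (nat_lit 427) (nat_lit 367) (nat_lit 226)) (XT.nd (nat_lit 48438) (nat_lit 0) (nat_lit 27740) (XT.lf (nat_lit 0) (nat_lit 3174500485) (nat_lit 304) (nat_lit 17230024128) (nat_lit 380) (nat_lit 5315068957) (nat_lit 128) (nat_lit 5) (nat_lit 132) (nat_lit 5) (nat_lit 133) (nat_lit 5) (nat_lit 428) (nat_lit 367) (nat_lit 225)) (XT.lf (nat_lit 0) (nat_lit 538449817) (nat_lit 0) (nat_lit 538449817) (nat_lit 1596) (nat_lit 3829495219) (nat_lit 493) (nat_lit 5) (nat_lit 493) (nat_lit 3) (nat_lit 514) (nat_lit 3) (nat_lit 368) (nat_lit 368) (nat_lit 284)))) (XT.nd (nat_lit 78) (nat_lit 0) (nat_lit 76) (XT.lf (nat_lit 0) (nat_lit 3313393768) (nat_lit 1596) (nat_lit 1602336950) (nat_lit 1672) (nat_lit 5021449253) (nat_lit 493) (nat_lit 5) (nat_lit 514) (nat_lit 3) (nat_lit 515) (nat_lit 5) (nat_lit 369) (nat_lit 368) (nat_lit 283)) (XT.nd (nat_lit 78) (nat_lit 0) (nat_lit 0) (XT.lf (nat_lit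 0) (nat_lit 4518334984) (nat_lit 1596) (nat_lit 4281964504) (nat_lit 1672) (nat_lit 1264801259) (nat_lit 494) (nat_lit 5) (nat_lit 515) (nat_lit 5) (nat_lit 516) (nat_lit 5) (nat_lit 370) (nat_lit 368) (nat_lit 282)) (XT.lf (nat_lit 76) (nat_lit 3201549625) (nat_lit 0) (nat_lit 2581121446) (nat_lit 1672) (nat_lit 4413732837) (nat_lit 495) (nat_lit 5) (nat_lit 494) (nat_lit 5) (nat_lit 516) (nat_lit 5) (nat_lit 371) (nat_lit 368) (nat_lit 281)))))) (XT.nd (nat_lit 390) (nat_lit 1444) (nat_lit 0) (XT.nd (nat_lit 156) (nat_lit 1520) (nat_lit 0) (XT.nd (nat_lit 78) (nat_lit 0) (nat_lit 0) (XT.lf (nat_lit 76) (nat_lit 596397230) (nat_lit 0) (nat_lit 6506281357) (nat_lit 1672) (nat_lit 3228622160) (nat_lit 496) (nat_lit 5) (nat_lit 495) (nat_lit 5) (nat_lit 517) (nat_lit 5) (nat_lit 372) (nat_lit 368) (nat_lit 280)) (XT.lf (nat_lit 76) (nat_lit 8470508024) (nat_lit 0) (nat_lit 17174005) (nat_lit 1672) (nat_lit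 1982063686) (nat_lit 496) (nat_lit 5) (nat_lit 495) (nat_lit 5) (nat_lit 517) (nat_lit 5) (nat_lit 373) (nat_lit 368) (nat_lit 279))) (XT.nd (nat_lit 78) (nat_lit 1596) (nat_lit 0) (XT.lf (nat_lit 76) (nat_lit 5980316327) (nat_lit 0) (nat_lit 3978121565) (nat_lit 1672) (nat_lit 653030967) (nat_lit 497) (nat_lit 5) (nat_lit 496) (nat_lit 5) (nat_lit 518) (nat_lit 5) (nat_lit 374) (nat_lit 368) (nat_lit 278)) (XT.nd (nat_lit 78) (nat_lit 0) (nat_lit 0) (XT.lf (nat_lit 0) (nat_lit 723724523) (nat_lit 1672) (nat_lit 7288559448) (nat_lit 1748) (nat_lit 2744730398) (nat_lit 475) (nat_lit 5) (nat_lit 497) (nat_lit 5) (nat_lit 498) (nat_lit 5) (nat_lit 375) (nat_lit 368) (nat_lit 277)) (XT.lf (nat_lit 76) (nat_lit 925205859) (nat_lit 0) (nat_lit 1235767388) (nat_lit 1748) (nat_lit 8745313610) (nat_lit 476) (nat_lit 5) (nat_lit 475) (nat_lit 5) (nat_lit 498) (nat_lit 5) (nat_lit 376) (nat_lit 368) (nat_lit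 276))))) (XT.nd (nat_lit 234) (nat_lit 1520) (nat_lit 0) (XT.nd (nat_lit 78) (nat_lit 0) (nat_lit 76) (XT.lf (nat_lit 0) (nat_lit 3693139780) (nat_lit 1672) (nat_lit 1635816345) (nat_lit 1748) (nat_lit 5730053347) (nat_lit 476) (nat_lit 5) (nat_lit 498) (nat_lit 5) (nat_lit 499) (nat_lit 5) (nat_lit 377) (nat_lit 368) (nat_lit 275)) (XT.nd (nat_lit 78) (nat_lit 0) (nat_lit 0) (XT.lf (nat_lit 0) (nat_lit 5302155573) (nat_lit 1672) (nat_lit 4207132579) (nat_lit 1748) (nat_lit 1706415656) (nat_lit 477) (nat_lit 5) (nat_lit 499) (nat_lit 5) (nat_lit 500) (nat_lit 5) (nat_lit 378) (nat_lit 368) (nat_lit 274)) (XT.lf (nat_lit 76) (nat_lit 4557925785) (nat_lit 0) (nat_lit 2444630324) (nat_lit 1748) (nat_lit 4373688081) (nat_lit 478) (nat_lit 5) (nat_lit 477) (nat_lit 5) (nat_lit 500) (nat_lit 5) (nat_lit 379) (nat_lit 368) (nat_lit 273)))) (XT.nd (nat_lit 78) (nat_lit 1672) (nat_lit 0) (XT.lf (nat_lit 76)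 (nat_lit 2073859163) (nat_lit 0) (nat_lit 6721244233) (nat_lit 1748) (nat_lit 2745681978) (nat_lit 479) (nat_lit 5) (nat_lit 478) (nat_lit 5) (nat_lit 501) (nat_lit 5) (nat_lit 380) (nat_lit 368) (nat_lit 272)) (XT.nd (nat_lit 78) (nat_lit 1748) (nat_lit 0) (XT.lf (nat_lit 0) (nat_lit 10676242268) (nat_lit 1672) (nat_lit 427947455) (nat_lit 1748) (nat_lit 605383838) (nat_lit 479) (nat_lit 5) (nat_lit 501) (nat_lit 5) (nat_lit 502) (nat_lit 5) (nat_lit 381) (nat_lit 368) (nat_lit 271)) (XT.lf (nat_lit 0) (nat_lit 793571510) (nat_lit 1748) (nat_lit 2956681258) (nat_lit 1824) (nat_lit 8131629297) (nat_lit 456) (nat_lit 5) (nat_lit 479) (nat_lit 5) (nat_lit 480) (nat_lit 5) (nat_lit 382) (nat_lit 368) (nat_lit 270))))))))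
noncomputable def xc92 : XT := (XT.nd (nat_lit 1716) (nat_lit 9652) (nat_lit 0) (XT.nd (nat_lit 858) (nat_lit 6536) (nat_lit 0) (XT.nd (nat_lit 390) (nat_lit 4560) (nat_lit 0) (XT.nd (nat_lit 156) (nat_lit 3116) (nat_lit 0) (XT.nd (nat_lit 78) (nat_lit 0) (nat_lit 0) (XT.lf (nat_lit 0) (nat_lit 2701949422) (nat_lit 1748) (nat_lit 5523394012) (nat_lit 1824) (nat_lit 3833072179) (nat_lit 457) (nat_lit 5) (nat_lit 480) (nat_lit 5) (nat_lit 481) (nat_lit 5) (nat_lit 383) (nat_lit 368) (nat_lit 269)) (XT.lf (nat_lit 76) (nat_lit 4116765703) (nat_lit 0) (nat_lit 593445665) (nat_lit 1824) (nat_lit 7529187491) (nat_lit 458) (nat_lit 5) (nat_lit 457) (nat_lit 5) (nat_lit 481) (nat_lit 5) (nat_lit 384) (nat_lit 368) (nat_lit 268))) (XT.nd (nat_lit 78) (nat_lit 1444) (nat_lit 0) (XT.lf (nat_lit 0) (nat_lit 1646497236) (nat_lit 1748) (nat_lit 5199163851) (nat_lit 1824) (nat_lit 5578817877) (nat_lit 435) (nat_lit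 5) (nat_lit 458) (nat_lit 5) (nat_lit 459) (nat_lit 5) (nat_lit 385) (nat_lit 368) (nat_lit 267)) (XT.nd (nat_lit 78) (nat_lit 1444) (nat_lit 0) (XT.lf (nat_lit 0) (nat_lit 9093857141) (nat_lit 1824) (nat_lit 840206091) (nat_lit 76) (nat_lit 2680080564) (nat_lit 435) (nat_lit 5) (nat_lit 459) (nat_lit 5) (nat_lit 436) (nat_lit 5) (nat_lit 386) (nat_lit 368) (nat_lit 266)) (XT.lf (nat_lit 0) (nat_lit 9461201432) (nat_lit 1444) (nat_lit 2017400588) (nat_lit 1520) (nat_lit 1329520300) (nat_lit 416) (nat_lit 5) (nat_lit 435) (nat_lit 5) (nat_lit 436) (nat_lit 5) (nat_lit 387) (nat_lit 368) (nat_lit 265))))) (XT.nd (nat_lit 234) (nat_lit 1748) (nat_lit 0) (XT.nd (nat_lit 78) (nat_lit 1824) (nat_lit 0) (XT.lf (nat_lit 0) (nat_lit 980503737) (nat_lit 988) (nat_lit 5908413917) (nat_lit 76) (nat_lit 6117573861) (nat_lit 403) (nat_lit 5) (nat_lit 416) (nat_lit 5) (nat_lit 404) (nat_lit 5) (nat_lit 388) (nat_lit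 368) (nat_lit 264)) (XT.nd (nat_lit 78) (nat_lit 912) (nat_lit 0) (XT.lf (nat_lit 0) (nat_lit 3391352895) (nat_lit 988) (nat_lit 8511284329) (nat_lit 76) (nat_lit 1307012418) (nat_lit 391) (nat_lit 5) (nat_lit 404) (nat_lit 5) (nat_lit 392) (nat_lit 5) (nat_lit 389) (nat_lit 368) (nat_lit 263)) (XT.lf (nat_lit 0) (nat_lit 2245148755) (nat_lit 912) (nat_lit 3704946141) (nat_lit 988) (nat_lit 7467301478) (nat_lit 379) (nat_lit 5) (nat_lit 391) (nat_lit 5) (nat_lit 392) (nat_lit 5) (nat_lit 390) (nat_lit 368) (nat_lit 262)))) (XT.nd (nat_lit 78) (nat_lit 1748) (nat_lit 0) (XT.lf (nat_lit 0) (nat_lit 8649634181) (nat_lit 988) (nat_lit 244793192) (nat_lit 76) (nat_lit 4735672492) (nat_lit 379) (nat_lit 5) (nat_lit 392) (nat_lit 5) (nat_lit 380) (nat_lit 5) (nat_lit 391) (nat_lit 368) (nat_lit 261)) (XT.nd (nat_lit 78) (nat_lit 912) (nat_lit 0) (XT.lf (nat_lit 0) (nat_lit 11107893928) (nat_lit 836) (nat_lit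 395095443) (nat_lit 912) (nat_lit 2344743407) (nat_lit 368) (nat_lit 5) (nat_lit 379) (nat_lit 5) (nat_lit 380) (nat_lit 5) (nat_lit 392) (nat_lit 368) (nat_lit 260)) (XT.lf (nat_lit 0) (nat_lit 455153852) (nat_lit 912) (nat_lit 5303315574) (nat_lit 76) (nat_lit 8311582740) (nat_lit 356) (nat_lit 5) (nat_lit 368) (nat_lit 5) (nat_lit 357) (nat_lit 5) (nat_lit 393) (nat_lit 368) (nat_lit 259)))))) (XT.nd (nat_lit 390) (nat_lit 3420) (nat_lit 0) (XT.nd (nat_lit 156) (nat_lit 1596) (nat_lit 0) (XT.nd (nat_lit 78) (nat_lit 760) (nat_lit 0) (XT.lf (nat_lit 0) (nat_lit 3366934424) (nat_lit 836) (nat_lit 7918450703) (nat_lit 76) (nat_lit 3012155726) (nat_lit 346) (nat_lit 5) (nat_lit 357) (nat_lit 5) (nat_lit 347) (nat_lit 5) (nat_lit 394) (nat_lit 368) (nat_lit 258)) (XT.lf (nat_lit 0) (nat_lit 3942794563) (nat_lit 760) (nat_lit 2500941841) (nat_lit 836) (nat_lit 8086568844) (nat_lit 336) (nat_lit 5) (nat_lit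 346) (nat_lit 5) (nat_lit 347) (nat_lit 5) (nat_lit 395) (nat_lit 368) (nat_lit 257))) (XT.nd (nat_lit 78) (nat_lit 836) (nat_lit 0) (XT.lf (nat_lit 0) (nat_lit 1451814381) (nat_lit 760) (nat_lit 8244860397) (nat_lit 836) (nat_lit 5071705427) (nat_lit 326) (nat_lit 5) (nat_lit 336) (nat_lit 5) (nat_lit 337) (nat_lit 5) (nat_lit 396) (nat_lit 368) (nat_lit 256)) (XT.nd (nat_lit 78) (nat_lit 836) (nat_lit 0) (XT.lf (nat_lit 0) (nat_lit 13119412678) (nat_lit 836) (nat_lit 1060711631) (nat_lit 76) (nat_lit 832033026) (nat_lit 326) (nat_lit 5) (nat_lit 337) (nat_lit 5) (nat_lit 327) (nat_lit 5) (nat_lit 397) (nat_lit 368) (nat_lit 255)) (XT.lf (nat_lit 0) (nat_lit 1473879465) (nat_lit 836) (nat_lit 3633450364) (nat_lit 76) (nat_lit 10153534214) (nat_lit 315) (nat_lit 5) (nat_lit 326) (nat_lit 5) (nat_lit 316) (nat_lit 5) (nat_lit 398) (nat_lit 368) (nat_lit 254))))) (XT.nd (nat_lit 234) (nat_lit 1368) (nat_lit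 0) (XT.nd (nat_lit 78) (nat_lit 1368) (nat_lit 0) (XT.lf (nat_lit 0) (nat_lit 4990773052) (nat_lit 760) (nat_lit 6263967914) (nat_lit 76) (nat_lit 4260544888) (nat_lit 306) (nat_lit 5) (nat_lit 316) (nat_lit 5) (nat_lit 307) (nat_lit 5) (nat_lit 399) (nat_lit 368) (nat_lit 253)) (XT.nd (nat_lit 78) (nat_lit 684) (nat_lit 0) (XT.lf (nat_lit 0) (nat_lit 6827817441) (nat_lit 684) (nat_lit 1868389670) (nat_lit 760) (nat_lit 7079476262) (nat_lit 297) (nat_lit 5) (nat_lit 306) (nat_lit 5) (nat_lit 307) (nat_lit 5) (nat_lit 400) (nat_lit 368) (nat_lit 252)) (XT.lf (nat_lit 0) (nat_lit 4338089746) (nat_lit 684) (nat_lit 8276436314) (nat_lit 760) (nat_lit 3427335938) (nat_lit 288) (nat_lit 5) (nat_lit 297) (nat_lit 5) (nat_lit 298) (nat_lit 5) (nat_lit 401) (nat_lit 368) (nat_lit 251)))) (XT.nd (nat_lit 78) (nat_lit 608) (nat_lit 0) (XT.lf (nat_lit 0) (nat_lit 405014753) (nat_lit 760) (nat_lit 14507678190)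 (nat_lit 76) (nat_lit 1401792431) (nat_lit 278) (nat_lit 5) (nat_lit 288) (nat_lit 5) (nat_lit 279) (nat_lit 5) (nat_lit 402) (nat_lit 368) (nat_lit 250)) (XT.nd (nat_lit 78) (nat_lit 608) (nat_lit 0) (XT.lf (nat_lit 0) (nat_lit 4422107070) (nat_lit 760) (nat_lit 812409997) (nat_lit 76) (nat_lit 11357993932) (nat_lit 278) (nat_lit 5) (nat_lit 288) (nat_lit 5) (nat_lit 279) (nat_lit 5) (nat_lit 403) (nat_lit 368) (nat_lit 249)) (XT.lf (nat_lit 0) (nat_lit 8659760705) (nat_lit 684) (nat_lit 3460865897) (nat_lit 76) (nat_lit 4756253065) (nat_lit 270) (nat_lit 5) (nat_lit 279) (nat_lit 5) (nat_lit 271) (nat_lit 5) (nat_lit 404) (nat_lit 368) (nat_lit 248))))))) (XT.nd (nat_lit 858) (nat_lit 3952) (nat_lit 0) (XT.nd (nat_lit 390) (nat_lit 2660) (nat_lit 0) (XT.nd (nat_lit 156) (nat_lit 1748) (nat_lit 0) (XT.nd (nat_lit 78) (nat_lit 684) (nat_lit 0) (XT.lf (nat_lit 0) (nat_lit 10999823322) (nat_lit 608)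 (nat_lit 2118505719) (nat_lit 684) (nat_lit 4049577802) (nat_lit 262) (nat_lit 5) (nat_lit 270) (nat_lit 5) (nat_lit 271) (nat_lit 5) (nat_lit 405) (nat_lit 368) (nat_lit 247)) (XT.lf (nat_lit 0) (nat_lit 354736266) (nat_lit 684) (nat_lit 8956991746) (nat_lit 76) (nat_lit 8153609598) (nat_lit 253) (nat_lit 5) (nat_lit 262) (nat_lit 5) (nat_lit 254) (nat_lit 5) (nat_lit 406) (nat_lit 368) (nat_lit 246))) (XT.nd (nat_lit 78) (nat_lit 1140) (nat_lit 0) (XT.lf (nat_lit 0) (nat_lit 4920558411) (nat_lit 684) (nat_lit 11823152008) (nat_lit 76) (nat_lit 1025760508) (nat_lit 245) (nat_lit 5) (nat_lit 254) (nat_lit 5) (nat_lit 246) (nat_lit 5) (nat_lit 407) (nat_lit 368) (nat_lit 245)) (XT.nd (nat_lit 78) (nat_lit 608) (nat_lit 0) (XT.lf (nat_lit 0) (nat_lit 3296426016) (nat_lit 532) (nat_lit 6454484165) (nat_lit 608) (nat_lit 8329269791) (nat_lit 238) (nat_lit 5) (nat_lit 245) (nat_lit 5) (nat_lit 246) (nat_lit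 5) (nat_lit 408) (nat_lit 368) (nat_lit 244)) (XT.lf (nat_lit 0) (nat_lit 591236594) (nat_lit 608) (nat_lit 14229438241) (nat_lit 684) (nat_lit 3577648151) (nat_lit 230) (nat_lit 5) (nat_lit 238) (nat_lit 5) (nat_lit 239) (nat_lit 5) (nat_lit 409) (nat_lit 368) (nat_lit 243))))) (XT.nd (nat_lit 234) (nat_lit 1520) (nat_lit 0) (XT.nd (nat_lit 78) (nat_lit 1064) (nat_lit 0) (XT.lf (nat_lit 0) (nat_lit 1426616133) (nat_lit 684) (nat_lit 2168316883) (nat_lit 76) (nat_lit 15128361723) (nat_lit 229) (nat_lit 5) (nat_lit 238) (nat_lit 5) (nat_lit 230) (nat_lit 5) (nat_lit 410) (nat_lit 368) (nat_lit 242)) (XT.nd (nat_lit 78) (nat_lit 532) (nat_lit 0) (XT.lf (nat_lit 0) (nat_lit 6656437619) (nat_lit 608) (nat_lit 5025341508) (nat_lit 76) (nat_lit 7373285380) (nat_lit 222) (nat_lit 5) (nat_lit 230) (nat_lit 5) (nat_lit 223) (nat_lit 5) (nat_lit 411) (nat_lit 368) (nat_lit 241)) (XT.lf (nat_lit 0) (nat_lit 11451862092)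 (nat_lit 532) (nat_lit 688618023) (nat_lit 608) (nat_lit 7254363186) (nat_lit 215) (nat_lit 5) (nat_lit 222) (nat_lit 5) (nat_lit 223) (nat_lit 5) (nat_lit 412) (nat_lit 368) (nat_lit 240)))) (XT.nd (nat_lit 78) (nat_lit 1064) (nat_lit 0) (XT.lf (nat_lit 0) (nat_lit 8772800354) (nat_lit 456) (nat_lit 9160961619) (nat_lit 532) (nat_lit 1808161517) (nat_lit 209) (nat_lit 5) (nat_lit 215) (nat_lit 5) (nat_lit 216) (nat_lit 5) (nat_lit 413) (nat_lit 368) (nat_lit 239)) (XT.nd (nat_lit 78) (nat_lit 456) (nat_lit 0) (XT.lf (nat_lit 0) (nat_lit 3848401039) (nat_lit 608) (nat_lit 14082540702) (nat_lit 76) (nat_lit 2166046367) (nat_lit 201) (nat_lit 5) (nat_lit 209) (nat_lit 5) (nat_lit 202) (nat_lit 5) (nat_lit 414) (nat_lit 368) (nat_lit 238)) (XT.lf (nat_lit 0) (nat_lit 3143013269) (nat_lit 456) (nat_lit 6648642776) (nat_lit 532) (nat_lit 10667980560) (nat_lit 195) (nat_lit 5) (nat_lit 201) (nat_lit 5) (nat_lit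 202) (nat_lit 5) (nat_lit 415) (nat_lit 368) (nat_lit 237)))))) (XT.nd (nat_lit 390) (nat_lit 2128) (nat_lit 0) (XT.nd (nat_lit 156) (nat_lit 1292) (nat_lit 0) (XT.nd (nat_lit 78) (nat_lit 76) (nat_lit 0) (XT.lf (nat_lit 0) (nat_lit 195757945) (nat_lit 456) (nat_lit 15832261662) (nat_lit 532) (nat_lit 4802850879) (nat_lit 189) (nat_lit 5) (nat_lit 195) (nat_lit 5) (nat_lit 196) (nat_lit 5) (nat_lit 416) (nat_lit 368) (nat_lit 236)) (XT.lf (nat_lit 0) (nat_lit 1369973919) (nat_lit 532) (nat_lit 2814226836) (nat_lit 76) (nat_lit 17025922264) (nat_lit 188) (nat_lit 5) (nat_lit 195) (nat_lit 5) (nat_lit 189) (nat_lit 5) (nat_lit 417) (nat_lit 368) (nat_lit 235))) (XT.nd (nat_lit 78) (nat_lit 836) (nat_lit 0) (XT.lf (nat_lit 0) (nat_lit 7802408565) (nat_lit 532) (nat_lit 5954924348) (nat_lit 76) (nat_lit 7839993718) (nat_lit 182) (nat_lit 5) (nat_lit 189) (nat_lit 5) (nat_lit 183) (nat_lit 5) (nat_lit 418)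 (nat_lit 368) (nat_lit 234)) (XT.nd (nat_lit 78) (nat_lit 380) (nat_lit 0) (XT.lf (nat_lit 0) (nat_lit 12815542575) (nat_lit 456) (nat_lit 1728730030) (nat_lit 532) (nat_lit 7449546546) (nat_lit 176) (nat_lit 5) (nat_lit 182) (nat_lit 5) (nat_lit 183) (nat_lit 5) (nat_lit 419) (nat_lit 368) (nat_lit 233)) (XT.lf (nat_lit 0) (nat_lit 9869362966) (nat_lit 380) (nat_lit 11779255546) (nat_lit 456) (nat_lit 750385283) (nat_lit 171) (nat_lit 5) (nat_lit 176) (nat_lit 5) (nat_lit 177) (nat_lit 5) (nat_lit 420) (nat_lit 368) (nat_lit 232))))) (XT.nd (nat_lit 234) (nat_lit 836) (nat_lit 0) (XT.nd (nat_lit 78) (nat_lit 760) (nat_lit 0) (XT.lf (nat_lit 0) (nat_lit 6178188306) (nat_lit 532) (nat_lit 16000841771) (nat_lit 76) (nat_lit 634335262) (nat_lit 164) (nat_lit 5) (nat_lit 171) (nat_lit 5) (nat_lit 165) (nat_lit 5) (nat_lit 421) (nat_lit 368) (nat_lit 231)) (XT.nd (nat_lit 78) (nat_lit 380) (nat_lit 0) (XT.lf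 (nat_lit 0) (nat_lit 3611417092) (nat_lit 380) (nat_lit 9867473800) (nat_lit 456) (nat_lit 9757680032) (nat_lit 159) (nat_lit 5) (nat_lit 164) (nat_lit 5) (nat_lit 165) (nat_lit 5) (nat_lit 422) (nat_lit 368) (nat_lit 230)) (XT.lf (nat_lit 0) (nat_lit 326561628) (nat_lit 380) (nat_lit 20788526197) (nat_lit 456) (nat_lit 2555057063) (nat_lit 154) (nat_lit 5) (nat_lit 159) (nat_lit 5) (nat_lit 160) (nat_lit 5) (nat_lit 423) (nat_lit 368) (nat_lit 229)))) (XT.nd (nat_lit 78) (nat_lit 760) (nat_lit 0) (XT.lf (nat_lit 0) (nat_lit 4986823095) (nat_lit 456) (nat_lit 3086407226) (nat_lit 76) (nat_lit 16039126464) (nat_lit 153) (nat_lit 5) (nat_lit 159) (nat_lit 5) (nat_lit 154) (nat_lit 5) (nat_lit 424) (nat_lit 368) (nat_lit 228)) (XT.nd (nat_lit 78) (nat_lit 380) (nat_lit 0) (XT.lf (nat_lit 0) (nat_lit 12858119851) (nat_lit 456) (nat_lit 6620475892) (nat_lit 76) (nat_lit 5086145598) (nat_lit 148) (nat_lit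 5) (nat_lit 154) (nat_lit 5) (nat_lit 149) (nat_lit 5) (nat_lit 425) (nat_lit 368) (nat_lit 227)) (XT.lf (nat_lit 0) (nat_lit 14738301401) (nat_lit 380) (nat_lit 6385677636) (nat_lit 456) (nat_lit 3903551430) (nat_lit 143) (nat_lit 5) (nat_lit 148) (nat_lit 5) (nat_lit 149) (nat_lit 5) (nat_lit 426) (nat_lit 368) (nat_lit 226))))))))
noncomputable def xc93 : XT := (XT.nd (nat_lit 50154) (nat_lit 0) (nat_lit 7448) (XT.nd (nat_lit 49296) (nat_lit 0) (nat_lit 21584) (XT.nd (nat_lit 48828) (nat_lit 0) (nat_lit 25992) (XT.nd (nat_lit 48594) (nat_lit 0) (nat_lit 27436) (XT.nd (nat_lit 78) (nat_lit 380) (nat_lit 0) (XT.lf (nat_lit 0) (nat_lit 4233637254) (nat_lit 456) (nat_lit 14119179664) (nat_lit 76) (nat_lit 7147766226) (nat_lit 137) (nat_lit 5) (nat_lit 143) (nat_lit 5) (nat_lit 138) (nat_lit 5) (nat_lit 427) (nat_lit 368) (nat_lit 225)) (XT.lf (nat_lit 0) (nat_lit 7872086165) (nat_lit 380) (nat_lit 4842165766)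 (nat_lit 456) (nat_lit 13270013925) (nat_lit 132) (nat_lit 5) (nat_lit 137) (nat_lit 5) (nat_lit 138) (nat_lit 5) (nat_lit 428) (nat_lit 368) (nat_lit 224))) (XT.nd (nat_lit 78) (nat_lit 0) (nat_lit 0) (XT.lf (nat_lit 0) (nat_lit 1096469833) (nat_lit 0) (nat_lit 1096469833) (nat_lit 1596) (nat_lit 2838718999) (nat_lit 493) (nat_lit 5) (nat_lit 493) (nat_lit 3) (nat_lit 514) (nat_lit 3) (nat_lit 369) (nat_lit 369) (nat_lit 282)) (XT.nd (nat_lit 78) (nat_lit 0) (nat_lit 76) (XT.lf (nat_lit 0) (nat_lit 5510300212) (nat_lit 1596) (nat_lit 548828975) (nat_lit 1672) (nat_lit 4133724101) (nat_lit 493) (nat_lit 5) (nat_lit 514) (nat_lit 3) (nat_lit 515) (nat_lit 5) (nat_lit 370) (nat_lit 369) (nat_lit 281)) (XT.lf (nat_lit 0) (nat_lit 6691102153) (nat_lit 1596) (nat_lit 3279139242) (nat_lit 1672) (nat_lit 355590373) (nat_lit 494) (nat_lit 5) (nat_lit 515) (nat_lit 5) (nat_lit 516) (nat_lit 5) (nat_lit 371)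 (nat_lit 369) (nat_lit 280))))) (XT.nd (nat_lit 234) (nat_lit 1520) (nat_lit 0) (XT.nd (nat_lit 78) (nat_lit 0) (nat_lit 76) (XT.lf (nat_lit 76) (nat_lit 4410526569) (nat_lit 0) (nat_lit 3530731215) (nat_lit 1672) (nat_lit 2520872362) (nat_lit 495) (nat_lit 5) (nat_lit 494) (nat_lit 5) (nat_lit 516) (nat_lit 5) (nat_lit 372) (nat_lit 369) (nat_lit 279)) (XT.nd (nat_lit 78) (nat_lit 0) (nat_lit 0) (XT.lf (nat_lit 76) (nat_lit 1754248738) (nat_lit 0) (nat_lit 7490701713) (nat_lit 1672) (nat_lit 1357255249) (nat_lit 496) (nat_lit 5) (nat_lit 495) (nat_lit 5) (nat_lit 517) (nat_lit 5) (nat_lit 373) (nat_lit 369) (nat_lit 278)) (XT.lf (nat_lit 76) (nat_lit 9831380150) (nat_lit 0) (nat_lit 783933803) (nat_lit 1672) (nat_lit 130626980) (nat_lit 496) (nat_lit 5) (nat_lit 495) (nat_lit 5) (nat_lit 517) (nat_lit 5) (nat_lit 374) (nat_lit 369) (nat_lit 277)))) (XT.nd (nat_lit 78) (nat_lit 0) (nat_lit 76) (XT.lf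 (nat_lit 0) (nat_lit 1169638845) (nat_lit 1672) (nat_lit 3609960843) (nat_lit 1748) (nat_lit 6113215721) (nat_lit 474) (nat_lit 5) (nat_lit 496) (nat_lit 5) (nat_lit 497) (nat_lit 5) (nat_lit 375) (nat_lit 369) (nat_lit 276)) (XT.nd (nat_lit 78) (nat_lit 0) (nat_lit 0) (XT.lf (nat_lit 0) (nat_lit 2528633609) (nat_lit 1672) (nat_lit 6329832628) (nat_lit 1748) (nat_lit 2185190661) (nat_lit 475) (nat_lit 5) (nat_lit 497) (nat_lit 5) (nat_lit 498) (nat_lit 5) (nat_lit 376) (nat_lit 369) (nat_lit 275)) (XT.lf (nat_lit 76) (nat_lit 2111243988) (nat_lit 0) (nat_lit 1853338355) (nat_lit 1748) (nat_lit 7233725333) (nat_lit 476) (nat_lit 5) (nat_lit 475) (nat_lit 5) (nat_lit 498) (nat_lit 5) (nat_lit 377) (nat_lit 369) (nat_lit 274)))))) (XT.nd (nat_lit 390) (nat_lit 3040) (nat_lit 0) (XT.nd (nat_lit 156) (nat_lit 1520) (nat_lit 0) (XT.nd (nat_lit 78) (nat_lit 0) (nat_lit 76) (XT.lf (nat_lit 0) (nat_lit 5488410595)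 (nat_lit 1672) (nat_lit 522542567) (nat_lit 1748) (nat_lit 5345756296) (nat_lit 476) (nat_lit 5) (nat_lit 498) (nat_lit 5) (nat_lit 499) (nat_lit 5) (nat_lit 378) (nat_lit 369) (nat_lit 273)) (XT.lf (nat_lit 0) (nat_lit 7100816637) (nat_lit 1672) (nat_lit 3153387464) (nat_lit 1748) (nat_lit 1264809218) (nat_lit 477) (nat_lit 5) (nat_lit 499) (nat_lit 5) (nat_lit 500) (nat_lit 5) (nat_lit 379) (nat_lit 369) (nat_lit 272))) (XT.nd (nat_lit 78) (nat_lit 1596) (nat_lit 0) (XT.lf (nat_lit 76) (nat_lit 5855479217) (nat_lit 0) (nat_lit 2956531523) (nat_lit 1748) (nat_lit 2873174309) (nat_lit 478) (nat_lit 5) (nat_lit 477) (nat_lit 5) (nat_lit 500) (nat_lit 5) (nat_lit 380) (nat_lit 369) (nat_lit 271)) (XT.nd (nat_lit 78) (nat_lit 1672) (nat_lit 0) (XT.lf (nat_lit 76) (nat_lit 3312680666) (nat_lit 0) (nat_lit 7303944757) (nat_lit 1748) (nat_lit 1238881678) (nat_lit 479) (nat_lit 5) (nat_lit 478) (nat_lit 5)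 (nat_lit 501) (nat_lit 5) (nat_lit 381) (nat_lit 369) (nat_lit 270)) (XT.lf (nat_lit 0) (nat_lit 474723207) (nat_lit 1748) (nat_lit 11289053300) (nat_lit 1824) (nat_lit 266388885) (nat_lit 456) (nat_lit 5) (nat_lit 479) (nat_lit 5) (nat_lit 480) (nat_lit 5) (nat_lit 382) (nat_lit 369) (nat_lit 269))))) (XT.nd (nat_lit 234) (nat_lit 3040) (nat_lit 0) (XT.nd (nat_lit 78) (nat_lit 0) (nat_lit 76) (XT.lf (nat_lit 0) (nat_lit 2300888031) (nat_lit 1748) (nat_lit 1869090813) (nat_lit 1824) (nat_lit 8038367484) (nat_lit 456) (nat_lit 5) (nat_lit 479) (nat_lit 5) (nat_lit 480) (nat_lit 5) (nat_lit 383) (nat_lit 369) (nat_lit 268)) (XT.nd (nat_lit 78) (nat_lit 0) (nat_lit 0) (XT.lf (nat_lit 0) (nat_lit 4228934812) (nat_lit 1748) (nat_lit 4500733153) (nat_lit 1824) (nat_lit 3661268946) (nat_lit 457) (nat_lit 5) (nat_lit 480) (nat_lit 5) (nat_lit 481) (nat_lit 5) (nat_lit 384) (nat_lit 369) (nat_lit 267)) (XT.lf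 (nat_lit 76) (nat_lit 5409351582) (nat_lit 0) (nat_lit 853569121) (nat_lit 1824) (nat_lit 6315128536) (nat_lit 458) (nat_lit 5) (nat_lit 457) (nat_lit 5) (nat_lit 481) (nat_lit 5) (nat_lit 385) (nat_lit 369) (nat_lit 266)))) (XT.nd (nat_lit 78) (nat_lit 1444) (nat_lit 0) (XT.lf (nat_lit 0) (nat_lit 2875624552) (nat_lit 1748) (nat_lit 5551832663) (nat_lit 1824) (nat_lit 4341932906) (nat_lit 435) (nat_lit 5) (nat_lit 458) (nat_lit 5) (nat_lit 459) (nat_lit 5) (nat_lit 386) (nat_lit 369) (nat_lit 265)) (XT.nd (nat_lit 78) (nat_lit 0) (nat_lit 0) (XT.lf (nat_lit 0) (nat_lit 312307656) (nat_lit 1444) (nat_lit 10391489245) (nat_lit 1520) (nat_lit 2261742625) (nat_lit 416) (nat_lit 5) (nat_lit 435) (nat_lit 5) (nat_lit 436) (nat_lit 5) (nat_lit 387) (nat_lit 369) (nat_lit 264)) (XT.lf (nat_lit 0) (nat_lit 10899620780) (nat_lit 1444) (nat_lit 2227045658) (nat_lit 1520) (nat_lit 39347654) (nat_lit 416) (nat_lit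 5) (nat_lit 435) (nat_lit 5) (nat_lit 436) (nat_lit 5) (nat_lit 388) (nat_lit 369) (nat_lit 263))))))) (XT.nd (nat_lit 858) (nat_lit 6460) (nat_lit 0) (XT.nd (nat_lit 390) (nat_lit 4028) (nat_lit 0) (XT.nd (nat_lit 156) (nat_lit 1748) (nat_lit 0) (XT.nd (nat_lit 78) (nat_lit 912) (nat_lit 0) (XT.lf (nat_lit 0) (nat_lit 2290954634) (nat_lit 988) (nat_lit 4905649222) (nat_lit 76) (nat_lit 6174197297) (nat_lit 403) (nat_lit 5) (nat_lit 416) (nat_lit 5) (nat_lit 404) (nat_lit 5) (nat_lit 389) (nat_lit 369) (nat_lit 262)) (XT.lf (nat_lit 0) (nat_lit 4743767838) (nat_lit 988) (nat_lit 7579881345) (nat_lit 76) (nat_lit 1257019770) (nat_lit 391) (nat_lit 5) (nat_lit 404) (nat_lit 5) (nat_lit 392) (nat_lit 5) (nat_lit 390) (nat_lit 369) (nat_lit 261))) (XT.nd (nat_lit 78) (nat_lit 836) (nat_lit 0) (XT.lf (nat_lit 0) (nat_lit 3479991260) (nat_lit 912) (nat_lit 3870433538) (nat_lit 988) (nat_lit 6444807712) (nat_lit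 379) (nat_lit 5) (nat_lit 391) (nat_lit 5) (nat_lit 392) (nat_lit 5) (nat_lit 391) (nat_lit 369) (nat_lit 260)) (XT.nd (nat_lit 78) (nat_lit 0) (nat_lit 0) (XT.lf (nat_lit 0) (nat_lit 917691520) (nat_lit 836) (nat_lit 9183287279) (nat_lit 912) (nat_lit 3913944995) (nat_lit 368) (nat_lit 5) (nat_lit 379) (nat_lit 5) (nat_lit 380) (nat_lit 5) (nat_lit 392) (nat_lit 369) (nat_lit 259)) (XT.lf (nat_lit 0) (nat_lit 12580139751) (nat_lit 836) (nat_lit 426691134) (nat_lit 912) (nat_lit 1232923930) (nat_lit 368) (nat_lit 5) (nat_lit 379) (nat_lit 5) (nat_lit 380) (nat_lit 5) (nat_lit 393) (nat_lit 369) (nat_lit 258))))) (XT.nd (nat_lit 234) (nat_lit 1596) (nat_lit 0) (XT.nd (nat_lit 78) (nat_lit 1520) (nat_lit 0) (XT.lf (nat_lit 0) (nat_lit 1608835137) (nat_lit 912) (nat_lit 4303354904) (nat_lit 76) (nat_lit 8556939562) (nat_lit 356) (nat_lit 5) (nat_lit 368) (nat_lit 5) (nat_lit 357) (nat_lit 5) (nat_lit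 394) (nat_lit 369) (nat_lit 257)) (XT.nd (nat_lit 78) (nat_lit 760) (nat_lit 0) (XT.lf (nat_lit 0) (nat_lit 4582336770) (nat_lit 836) (nat_lit 6993415879) (nat_lit 76) (nat_lit 3128209462) (nat_lit 346) (nat_lit 5) (nat_lit 357) (nat_lit 5) (nat_lit 347) (nat_lit 5) (nat_lit 395) (nat_lit 369) (nat_lit 256)) (XT.lf (nat_lit 0) (nat_lit 5204805131) (nat_lit 760) (nat_lit 2521605424) (nat_lit 836) (nat_lit 7217805850) (nat_lit 336) (nat_lit 5) (nat_lit 346) (nat_lit 5) (nat_lit 347) (nat_lit 5) (nat_lit 396) (nat_lit 369) (nat_lit 255)))) (XT.nd (nat_lit 78) (nat_lit 836) (nat_lit 0) (XT.lf (nat_lit 0) (nat_lit 2641833800) (nat_lit 760) (nat_lit 8411160589) (nat_lit 836) (nat_lit 4136924213) (nat_lit 326) (nat_lit 5) (nat_lit 336) (nat_lit 5) (nat_lit 337) (nat_lit 5) (nat_lit 397) (nat_lit 369) (nat_lit 254)) (XT.nd (nat_lit 78) (nat_lit 76) (nat_lit 0) (XT.lf (nat_lit 0) (nat_lit 41459106) (nat_lit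 760) (nat_lit 14506703744) (nat_lit 836) (nat_lit 893457188) (nat_lit 316) (nat_lit 5) (nat_lit 326) (nat_lit 5) (nat_lit 327) (nat_lit 5) (nat_lit 398) (nat_lit 369) (nat_lit 253)) (XT.lf (nat_lit 0) (nat_lit 2536983792) (nat_lit 836) (nat_lit 2613664806) (nat_lit 76) (nat_lit 10547474514) (nat_lit 315) (nat_lit 5) (nat_lit 326) (nat_lit 5) (nat_lit 316) (nat_lit 5) (nat_lit 399) (nat_lit 369) (nat_lit 252)))))) (XT.nd (nat_lit 390) (nat_lit 3040) (nat_lit 0) (XT.nd (nat_lit 156) (nat_lit 2052) (nat_lit 0) (XT.nd (nat_lit 78) (nat_lit 684) (nat_lit 0) (XT.lf (nat_lit 0) (nat_lit 6137658300) (nat_lit 760) (nat_lit 5322039645) (nat_lit 76) (nat_lit 4500919658) (nat_lit 306) (nat_lit 5) (nat_lit 316) (nat_lit 5) (nat_lit 307) (nat_lit 5) (nat_lit 400) (nat_lit 369) (nat_lit 251)) (XT.lf (nat_lit 0) (nat_lit 8144168841) (nat_lit 684) (nat_lit 1788259689) (nat_lit 760) (nat_lit 6296840401) (nat_lit 297)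 (nat_lit 5) (nat_lit 306) (nat_lit 5) (nat_lit 307) (nat_lit 5) (nat_lit 401) (nat_lit 369) (nat_lit 250))) (XT.nd (nat_lit 78) (nat_lit 1368) (nat_lit 0) (XT.lf (nat_lit 0) (nat_lit 5580212015) (nat_lit 684) (nat_lit 8367755349) (nat_lit 760) (nat_lit 2555877336) (nat_lit 288) (nat_lit 5) (nat_lit 297) (nat_lit 5) (nat_lit 298) (nat_lit 5) (nat_lit 402) (nat_lit 369) (nat_lit 249)) (XT.nd (nat_lit 78) (nat_lit 608) (nat_lit 0) (XT.lf (nat_lit 0) (nat_lit 1358924186) (nat_lit 760) (nat_lit 13818331484) (nat_lit 76) (nat_lit 1607664373) (nat_lit 278) (nat_lit 5) (nat_lit 288) (nat_lit 5) (nat_lit 279) (nat_lit 5) (nat_lit 403) (nat_lit 369) (nat_lit 248)) (XT.lf (nat_lit 0) (nat_lit 258429431) (nat_lit 608) (nat_lit 5212347863) (nat_lit 684) (nat_lit 11601028980) (nat_lit 270) (nat_lit 5) (nat_lit 278) (nat_lit 5) (nat_lit 279) (nat_lit 5) (nat_lit 404) (nat_lit 369) (nat_lit 247))))) (XT.nd (nat_lit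 234) (nat_lit 1748) (nat_lit 0) (XT.nd (nat_lit 78) (nat_lit 1292) (nat_lit 0) (XT.lf (nat_lit 0) (nat_lit 9815390547) (nat_lit 684) (nat_lit 2473699341) (nat_lit 76) (nat_lit 5076024170) (nat_lit 270) (nat_lit 5) (nat_lit 279) (nat_lit 5) (nat_lit 271) (nat_lit 5) (nat_lit 405) (nat_lit 369) (nat_lit 246)) (XT.nd (nat_lit 78) (nat_lit 684) (nat_lit 0) (XT.lf (nat_lit 0) (nat_lit 12403110497) (nat_lit 608) (nat_lit 1985481623) (nat_lit 684) (nat_lit 3276666929) (nat_lit 262) (nat_lit 5) (nat_lit 270) (nat_lit 5) (nat_lit 271) (nat_lit 5) (nat_lit 406) (nat_lit 369) (nat_lit 245)) (XT.lf (nat_lit 0) (nat_lit 1230591318) (nat_lit 684) (nat_lit 8142037753) (nat_lit 76) (nat_lit 8599220933) (nat_lit 253) (nat_lit 5) (nat_lit 262) (nat_lit 5) (nat_lit 254) (nat_lit 5) (nat_lit 407) (nat_lit 369) (nat_lit 244)))) (XT.nd (nat_lit 78) (nat_lit 1140) (nat_lit 0) (XT.lf (nat_lit 0) (nat_lit 5916532321) (nat_lit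 684) (nat_lit 11096108853) (nat_lit 76) (nat_lit 1272807441) (nat_lit 245) (nat_lit 5) (nat_lit 254) (nat_lit 5) (nat_lit 246) (nat_lit 5) (nat_lit 408) (nat_lit 369) (nat_lit 243)) (XT.nd (nat_lit 78) (nat_lit 608) (nat_lit 0) (XT.lf (nat_lit 0) (nat_lit 4459506602) (nat_lit 532) (nat_lit 6414488023) (nat_lit 608) (nat_lit 7731844363) (nat_lit 238) (nat_lit 5) (nat_lit 245) (nat_lit 5) (nat_lit 246) (nat_lit 5) (nat_lit 409) (nat_lit 369) (nat_lit 242)) (XT.lf (nat_lit 0) (nat_lit 1670878731) (nat_lit 608) (nat_lit 14409149799) (nat_lit 684) (nat_lit 2853818175) (nat_lit 230) (nat_lit 5) (nat_lit 238) (nat_lit 5) (nat_lit 239) (nat_lit 5) (nat_lit 410) (nat_lit 369) (nat_lit 241))))))))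
noncomputable def xc94 : XT := (XT.nd (nat_lit 50232) (nat_lit 0) (nat_lit 16644) (XT.nd (nat_lit 858) (nat_lit 2584) (nat_lit 0) (XT.nd (nat_lit 390) (nat_lit 2280) (nat_lit 0) (XT.nd (nat_lit 156) (nat_lit 1596) (nat_lit 0) (XT.nd (nat_lit 78) (nat_lit 532) (nat_lit 0) (XT.lf (nat_lit 0) (nat_lit 2265782204) (nat_lit 684) (nat_lit 1191682341) (nat_lit 76) (nat_lit 15811476708) (nat_lit 229) (nat_lit 5) (nat_lit 238) (nat_lit 5) (nat_lit 230) (nat_lit 5) (nat_lit 411) (nat_lit 369) (nat_lit 240)) (XT.lf (nat_lit 0) (nat_lit 7637547169) (nat_lit 608) (nat_lit 4137190364) (nat_lit 76) (nat_lit 7836229244) (nat_lit 222) (nat_lit 5) (nat_lit 230) (nat_lit 5) (nat_lit 223) (nat_lit 5) (nat_lit 412) (nat_lit 369) (nat_lit 239))) (XT.nd (nat_lit 78) (nat_lit 1064) (nat_lit 0) (XT.lf (nat_lit 0) (nat_lit 12817474241) (nat_lit 532) (nat_lit 452512865) (nat_lit 608) (nat_lit 6691277841) (nat_lit 215) (nat_lit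 5) (nat_lit 222) (nat_lit 5) (nat_lit 223) (nat_lit 5) (nat_lit 413) (nat_lit 369) (nat_lit 238)) (XT.nd (nat_lit 78) (nat_lit 608) (nat_lit 0) (XT.lf (nat_lit 0) (nat_lit 10054992392) (nat_lit 456) (nat_lit 9168019553) (nat_lit 532) (nat_lit 1096030137) (nat_lit 209) (nat_lit 5) (nat_lit 215) (nat_lit 5) (nat_lit 216) (nat_lit 5) (nat_lit 414) (nat_lit 369) (nat_lit 237)) (XT.lf (nat_lit 0) (nat_lit 4706486339) (nat_lit 608) (nat_lit 13479379864) (nat_lit 76) (nat_lit 2499070020) (nat_lit 201) (nat_lit 5) (nat_lit 209) (nat_lit 5) (nat_lit 202) (nat_lit 5) (nat_lit 415) (nat_lit 369) (nat_lit 236))))) (XT.nd (nat_lit 234) (nat_lit 1292) (nat_lit 0) (XT.nd (nat_lit 78) (nat_lit 532) (nat_lit 0) (XT.lf (nat_lit 0) (nat_lit 4246300983) (nat_lit 456) (nat_lit 6566658997) (nat_lit 532) (nat_lit 10245808947) (nat_lit 195) (nat_lit 5) (nat_lit 201) (nat_lit 5) (nat_lit 202) (nat_lit 5) (nat_lit 416) (nat_lit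 369) (nat_lit 235)) (XT.nd (nat_lit 78) (nat_lit 76) (nat_lit 0) (XT.lf (nat_lit 0) (nat_lit 1206879536) (nat_lit 456) (nat_lit 16016644847) (nat_lit 532) (nat_lit 4217876321) (nat_lit 189) (nat_lit 5) (nat_lit 195) (nat_lit 5) (nat_lit 196) (nat_lit 5) (nat_lit 417) (nat_lit 369) (nat_lit 234)) (XT.lf (nat_lit 0) (nat_lit 2109615205) (nat_lit 532) (nat_lit 1913302954) (nat_lit 76) (nat_lit 17809440038) (nat_lit 188) (nat_lit 5) (nat_lit 195) (nat_lit 5) (nat_lit 189) (nat_lit 5) (nat_lit 418) (nat_lit 369) (nat_lit 233)))) (XT.nd (nat_lit 78) (nat_lit 836) (nat_lit 0) (XT.lf (nat_lit 0) (nat_lit 8722820357) (nat_lit 532) (nat_lit 5152272505) (nat_lit 76) (nat_lit 8356331951) (nat_lit 182) (nat_lit 5) (nat_lit 189) (nat_lit 5) (nat_lit 183) (nat_lit 5) (nat_lit 419) (nat_lit 369) (nat_lit 232)) (XT.nd (nat_lit 78) (nat_lit 380) (nat_lit 0) (XT.lf (nat_lit 0) (nat_lit 14165388006) (nat_lit 456) (nat_lit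 1487829722) (nat_lit 532) (nat_lit 6986871594) (nat_lit 176) (nat_lit 5) (nat_lit 182) (nat_lit 5) (nat_lit 183) (nat_lit 5) (nat_lit 420) (nat_lit 369) (nat_lit 231)) (XT.lf (nat_lit 0) (nat_lit 11126615572) (nat_lit 380) (nat_lit 11832573662) (nat_lit 456) (nat_lit 98473047) (nat_lit 171) (nat_lit 5) (nat_lit 176) (nat_lit 5) (nat_lit 177) (nat_lit 5) (nat_lit 421) (nat_lit 369) (nat_lit 230)))))) (XT.nd (nat_lit 390) (nat_lit 836) (nat_lit 0) (XT.nd (nat_lit 156) (nat_lit 836) (nat_lit 0) (XT.nd (nat_lit 78) (nat_lit 380) (nat_lit 0) (XT.lf (nat_lit 0) (nat_lit 7017883783) (nat_lit 532) (nat_lit 15515329050) (nat_lit 76) (nat_lit 951381391) (nat_lit 164) (nat_lit 5) (nat_lit 171) (nat_lit 5) (nat_lit 165) (nat_lit 5) (nat_lit 422) (nat_lit 369) (nat_lit 229)) (XT.lf (nat_lit 0) (nat_lit 4669632872) (nat_lit 380) (nat_lit 9855083049) (nat_lit 456) (nat_lit 9396040365) (nat_lit 159) (nat_lit 5) (nat_lit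 164) (nat_lit 5) (nat_lit 165) (nat_lit 5) (nat_lit 423) (nat_lit 369) (nat_lit 228))) (XT.nd (nat_lit 78) (nat_lit 456) (nat_lit 0) (XT.lf (nat_lit 0) (nat_lit 1281553520) (nat_lit 380) (nat_lit 21097842936) (nat_lit 456) (nat_lit 1988155466) (nat_lit 154) (nat_lit 5) (nat_lit 159) (nat_lit 5) (nat_lit 160) (nat_lit 5) (nat_lit 424) (nat_lit 369) (nat_lit 227)) (XT.nd (nat_lit 78) (nat_lit 380) (nat_lit 0) (XT.lf (nat_lit 0) (nat_lit 5753042343) (nat_lit 456) (nat_lit 2253063538) (nat_lit 76) (nat_lit 16817212985) (nat_lit 153) (nat_lit 5) (nat_lit 159) (nat_lit 5) (nat_lit 154) (nat_lit 5) (nat_lit 425) (nat_lit 369) (nat_lit 226)) (XT.lf (nat_lit 0) (nat_lit 13850421602) (nat_lit 456) (nat_lit 5897999974) (nat_lit 76) (nat_lit 5541056734) (nat_lit 148) (nat_lit 5) (nat_lit 154) (nat_lit 5) (nat_lit 149) (nat_lit 5) (nat_lit 426) (nat_lit 369) (nat_lit 225))))) (XT.nd (nat_lit 48750) (nat_lit 0)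 (nat_lit 27056) (XT.nd (nat_lit 78) (nat_lit 456) (nat_lit 0) (XT.lf (nat_lit 0) (nat_lit 16086597044) (nat_lit 380) (nat_lit 6265876082) (nat_lit 456) (nat_lit 3413915810) (nat_lit 143) (nat_lit 5) (nat_lit 148) (nat_lit 5) (nat_lit 149) (nat_lit 5) (nat_lit 427) (nat_lit 369) (nat_lit 224)) (XT.nd (nat_lit 48594) (nat_lit 0) (nat_lit 27056) (XT.lf (nat_lit 0) (nat_lit 4949856554) (nat_lit 456) (nat_lit 13633626375) (nat_lit 76) (nat_lit 7670265021) (nat_lit 137) (nat_lit 5) (nat_lit 143) (nat_lit 5) (nat_lit 138) (nat_lit 5) (nat_lit 428) (nat_lit 369) (nat_lit 223)) (XT.lf (nat_lit 0) (nat_lit 1640125093) (nat_lit 0) (nat_lit 1640125093) (nat_lit 1596) (nat_lit 1881688961) (nat_lit 493) (nat_lit 5) (nat_lit 493) (nat_lit 3) (nat_lit 514) (nat_lit 3) (nat_lit 370) (nat_lit 370) (nat_lit 280)))) (XT.nd (nat_lit 78) (nat_lit 0) (nat_lit 0) (XT.lf (nat_lit 76) (nat_lit 479335724) (nat_lit 0) (nat_lit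 7176484943) (nat_lit 1672) (nat_lit 2802750243) (nat_lit 494) (nat_lit 5) (nat_lit 493) (nat_lit 5) (nat_lit 515) (nat_lit 5) (nat_lit 371) (nat_lit 370) (nat_lit 279)) (XT.nd (nat_lit 78) (nat_lit 0) (nat_lit 76) (XT.lf (nat_lit 76) (nat_lit 8282048200) (nat_lit 0) (nat_lit 533523529) (nat_lit 1672) (nat_lit 1781110021) (nat_lit 494) (nat_lit 5) (nat_lit 493) (nat_lit 5) (nat_lit 515) (nat_lit 5) (nat_lit 372) (nat_lit 370) (nat_lit 278)) (XT.lf (nat_lit 76) (nat_lit 5591886061) (nat_lit 0) (nat_lit 4458762801) (nat_lit 1672) (nat_lit 687484996) (nat_lit 495) (nat_lit 5) (nat_lit 494) (nat_lit 5) (nat_lit 516) (nat_lit 5) (nat_lit 373) (nat_lit 370) (nat_lit 277))))))) (XT.nd (nat_lit 858) (nat_lit 7524) (nat_lit 0) (XT.nd (nat_lit 390) (nat_lit 1368) (nat_lit 0) (XT.nd (nat_lit 156) (nat_lit 0) (nat_lit 76) (XT.nd (nat_lit 78) (nat_lit 0) (nat_lit 0) (XT.lf (nat_lit 0) (nat_lit 451271310) (nat_lit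 1672) (nat_lit 8005049960) (nat_lit 1748) (nat_lit 2427097869) (nat_lit 473) (nat_lit 5) (nat_lit 495) (nat_lit 5) (nat_lit 496) (nat_lit 5) (nat_lit 374) (nat_lit 370) (nat_lit 276)) (XT.lf (nat_lit 76) (nat_lit 127803718) (nat_lit 0) (nat_lit 1517826959) (nat_lit 1748) (nat_lit 9386733762) (nat_lit 474) (nat_lit 5) (nat_lit 473) (nat_lit 5) (nat_lit 496) (nat_lit 5) (nat_lit 375) (nat_lit 370) (nat_lit 275))) (XT.nd (nat_lit 78) (nat_lit 0) (nat_lit 76) (XT.lf (nat_lit 0) (nat_lit 2932920286) (nat_lit 1672) (nat_lit 2628845814) (nat_lit 1748) (nat_lit 5622877737) (nat_lit 474) (nat_lit 5) (nat_lit 496) (nat_lit 5) (nat_lit 497) (nat_lit 5) (nat_lit 376) (nat_lit 370) (nat_lit 274)) (XT.nd (nat_lit 78) (nat_lit 0) (nat_lit 0) (XT.lf (nat_lit 0) (nat_lit 4285327145) (nat_lit 1672) (nat_lit 5409930639) (nat_lit 1748) (nat_lit 1645711365) (nat_lit 475) (nat_lit 5) (nat_lit 497) (nat_lit 5) (nat_lit 498)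 (nat_lit 5) (nat_lit 377) (nat_lit 370) (nat_lit 273)) (XT.lf (nat_lit 76) (nat_lit 3266373138) (nat_lit 0) (nat_lit 2456113494) (nat_lit 1748) (nat_lit 5778621263) (nat_lit 476) (nat_lit 5) (nat_lit 475) (nat_lit 5) (nat_lit 498) (nat_lit 5) (nat_lit 378) (nat_lit 370) (nat_lit 272))))) (XT.nd (nat_lit 234) (nat_lit 1596) (nat_lit 0) (XT.nd (nat_lit 78) (nat_lit 0) (nat_lit 76) (XT.lf (nat_lit 76) (nat_lit 564813510) (nat_lit 0) (nat_lit 6679697319) (nat_lit 1748) (nat_lit 4420712046) (nat_lit 477) (nat_lit 5) (nat_lit 476) (nat_lit 5) (nat_lit 499) (nat_lit 5) (nat_lit 379) (nat_lit 370) (nat_lit 271)) (XT.nd (nat_lit 78) (nat_lit 0) (nat_lit 0) (XT.lf (nat_lit 0) (nat_lit 8859317992) (nat_lit 1672) (nat_lit 2135764474) (nat_lit 1748) (nat_lit 838243260) (nat_lit 477) (nat_lit 5) (nat_lit 499) (nat_lit 5) (nat_lit 500) (nat_lit 5) (nat_lit 380) (nat_lit 370) (nat_lit 270)) (XT.lf (nat_lit 76) (nat_lit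 7125323685) (nat_lit 0) (nat_lit 3458614488) (nat_lit 1748) (nat_lit 1421312780) (nat_lit 478) (nat_lit 5) (nat_lit 477) (nat_lit 5) (nat_lit 500) (nat_lit 5) (nat_lit 381) (nat_lit 370) (nat_lit 269)))) (XT.nd (nat_lit 78) (nat_lit 0) (nat_lit 0) (XT.lf (nat_lit 0) (nat_lit 218987499) (nat_lit 1748) (nat_lit 7661794691) (nat_lit 1824) (nat_lit 4300667812) (nat_lit 455) (nat_lit 5) (nat_lit 478) (nat_lit 5) (nat_lit 479) (nat_lit 5) (nat_lit 382) (nat_lit 370) (nat_lit 268)) (XT.nd (nat_lit 78) (nat_lit 0) (nat_lit 76) (XT.lf (nat_lit 76) (nat_lit 1875901084) (nat_lit 0) (nat_lit 53712923) (nat_lit 1824) (nat_lit 10432330732) (nat_lit 456) (nat_lit 5) (nat_lit 455) (nat_lit 5) (nat_lit 479) (nat_lit 5) (nat_lit 383) (nat_lit 370) (nat_lit 267)) (XT.lf (nat_lit 0) (nat_lit 3768264540) (nat_lit 1748) (nat_lit 816396563) (nat_lit 1824) (nat_lit 7961665090) (nat_lit 456) (nat_lit 5) (nat_lit 479) (nat_lit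 5) (nat_lit 480) (nat_lit 5) (nat_lit 384) (nat_lit 370) (nat_lit 266)))))) (XT.nd (nat_lit 390) (nat_lit 4484) (nat_lit 0) (XT.nd (nat_lit 156) (nat_lit 3192) (nat_lit 0) (XT.nd (nat_lit 78) (nat_lit 0) (nat_lit 0) (XT.lf (nat_lit 0) (nat_lit 5718727645) (nat_lit 1748) (nat_lit 3515609347) (nat_lit 1824) (nat_lit 3500774845) (nat_lit 457) (nat_lit 5) (nat_lit 480) (nat_lit 5) (nat_lit 481) (nat_lit 5) (nat_lit 385) (nat_lit 370) (nat_lit 265)) (XT.lf (nat_lit 76) (nat_lit 6673604895) (nat_lit 0) (nat_lit 1107586117) (nat_lit 1824) (nat_lit 5147305948) (nat_lit 458) (nat_lit 5) (nat_lit 457) (nat_lit 5) (nat_lit 481) (nat_lit 5) (nat_lit 386) (nat_lit 370) (nat_lit 264))) (XT.nd (nat_lit 78) (nat_lit 1520) (nat_lit 0) (XT.lf (nat_lit 0) (nat_lit 4073904222) (nat_lit 1748) (nat_lit 5903790505) (nat_lit 1824) (nat_lit 3148551053) (nat_lit 435) (nat_lit 5) (nat_lit 458) (nat_lit 5) (nat_lit 459) (nat_lit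 5) (nat_lit 387) (nat_lit 370) (nat_lit 263)) (XT.nd (nat_lit 78) (nat_lit 76) (nat_lit 0) (XT.lf (nat_lit 0) (nat_lit 1442631551) (nat_lit 1444) (nat_lit 10848013585) (nat_lit 1520) (nat_lit 1038276210) (nat_lit 416) (nat_lit 5) (nat_lit 435) (nat_lit 5) (nat_lit 436) (nat_lit 5) (nat_lit 388) (nat_lit 370) (nat_lit 262)) (XT.lf (nat_lit 0) (nat_lit 1197268319) (nat_lit 1520) (nat_lit 1229117187) (nat_lit 76) (nat_lit 11109612284) (nat_lit 415) (nat_lit 5) (nat_lit 435) (nat_lit 5) (nat_lit 416) (nat_lit 5) (nat_lit 389) (nat_lit 370) (nat_lit 261))))) (XT.nd (nat_lit 234) (nat_lit 1748) (nat_lit 0) (XT.nd (nat_lit 78) (nat_lit 1824) (nat_lit 0) (XT.lf (nat_lit 0) (nat_lit 3567182364) (nat_lit 988) (nat_lit 3940539396) (nat_lit 76) (nat_lit 6239804232) (nat_lit 403) (nat_lit 5) (nat_lit 416) (nat_lit 5) (nat_lit 404) (nat_lit 5) (nat_lit 390) (nat_lit 370) (nat_lit 260)) (XT.nd (nat_lit 78) (nat_lit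 912) (nat_lit 0) (XT.lf (nat_lit 0) (nat_lit 6064961406) (nat_lit 988) (nat_lit 6688660089) (nat_lit 76) (nat_lit 1210647960) (nat_lit 391) (nat_lit 5) (nat_lit 404) (nat_lit 5) (nat_lit 392) (nat_lit 5) (nat_lit 391) (nat_lit 370) (nat_lit 259)) (XT.lf (nat_lit 0) (nat_lit 4684860451) (nat_lit 912) (nat_lit 4037766274) (nat_lit 988) (nat_lit 5463194067) (nat_lit 379) (nat_lit 5) (nat_lit 391) (nat_lit 5) (nat_lit 392) (nat_lit 5) (nat_lit 392) (nat_lit 370) (nat_lit 258)))) (XT.nd (nat_lit 78) (nat_lit 912) (nat_lit 0) (XT.lf (nat_lit 0) (nat_lit 2051056252) (nat_lit 836) (nat_lit 9477953691) (nat_lit 912) (nat_lit 2883633462) (nat_lit 368) (nat_lit 5) (nat_lit 379) (nat_lit 5) (nat_lit 380) (nat_lit 5) (nat_lit 393) (nat_lit 370) (nat_lit 257)) (XT.nd (nat_lit 78) (nat_lit 912) (nat_lit 0) (XT.lf (nat_lit 0) (nat_lit 14031169173) (nat_lit 836) (nat_lit 458101376) (nat_lit 912) (nat_lit 155610792)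 (nat_lit 368) (nat_lit 5) (nat_lit 379) (nat_lit 5) (nat_lit 380) (nat_lit 5) (nat_lit 394) (nat_lit 370) (nat_lit 256)) (XT.lf (nat_lit 0) (nat_lit 2731684666) (nat_lit 912) (nat_lit 3339930207) (nat_lit 76) (nat_lit 8809886169) (nat_lit 356) (nat_lit 5) (nat_lit 368) (nat_lit 5) (nat_lit 357) (nat_lit 5) (nat_lit 395) (nat_lit 370) (nat_lit 255))))))))
noncomputable def xc95 : XT := (XT.nd (nat_lit 1716) (nat_lit 3952) (nat_lit 0) (XT.nd (nat_lit 858) (nat_lit 5700) (nat_lit 0) (XT.nd (nat_lit 390) (nat_lit 3420) (nat_lit 0) (XT.nd (nat_lit 156) (nat_lit 1596) (nat_lit 0) (XT.nd (nat_lit 78) (nat_lit 760) (nat_lit 0) (XT.lf (nat_lit 0) (nat_lit 5770230393) (nat_lit 836) (nat_lit 6107367337) (nat_lit 76) (nat_lit 3246270153) (nat_lit 346) (nat_lit 5) (nat_lit 357) (nat_lit 5) (nat_lit 347) (nat_lit 5) (nat_lit 396) (nat_lit 370) (nat_lit 254)) (XT.lf (nat_lit 0) (nat_lit 6439021422) (nat_lit 760)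 (nat_lit 2546009669) (nat_lit 836) (nat_lit 6386776580) (nat_lit 336) (nat_lit 5) (nat_lit 346) (nat_lit 5) (nat_lit 347) (nat_lit 5) (nat_lit 397) (nat_lit 370) (nat_lit 253))) (XT.nd (nat_lit 78) (nat_lit 836) (nat_lit 0) (XT.lf (nat_lit 0) (nat_lit 3801742021) (nat_lit 760) (nat_lit 8587102138) (nat_lit 836) (nat_lit 3236493928) (nat_lit 326) (nat_lit 5) (nat_lit 336) (nat_lit 5) (nat_lit 337) (nat_lit 5) (nat_lit 398) (nat_lit 370) (nat_lit 252)) (XT.nd (nat_lit 78) (nat_lit 0) (nat_lit 0) (XT.lf (nat_lit 0) (nat_lit 81020078) (nat_lit 836) (nat_lit 14760279099) (nat_lit 76) (nat_lit 1043721144) (nat_lit 315) (nat_lit 5) (nat_lit 326) (nat_lit 5) (nat_lit 316) (nat_lit 5) (nat_lit 399) (nat_lit 370) (nat_lit 251)) (XT.lf (nat_lit 0) (nat_lit 3573492913) (nat_lit 836) (nat_lit 1628082792) (nat_lit 76) (nat_lit 10948104870) (nat_lit 315) (nat_lit 5) (nat_lit 326) (nat_lit 5) (nat_lit 316) (nat_lit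 5) (nat_lit 400) (nat_lit 370) (nat_lit 250))))) (XT.nd (nat_lit 234) (nat_lit 1368) (nat_lit 0) (XT.nd (nat_lit 78) (nat_lit 1368) (nat_lit 0) (XT.lf (nat_lit 0) (nat_lit 7261708925) (nat_lit 760) (nat_lit 4416711385) (nat_lit 76) (nat_lit 4742044358) (nat_lit 306) (nat_lit 5) (nat_lit 316) (nat_lit 5) (nat_lit 307) (nat_lit 5) (nat_lit 401) (nat_lit 370) (nat_lit 249)) (XT.nd (nat_lit 78) (nat_lit 684) (nat_lit 0) (XT.lf (nat_lit 0) (nat_lit 9436205168) (nat_lit 684) (nat_lit 1713543195) (nat_lit 760) (nat_lit 5547843691) (nat_lit 297) (nat_lit 5) (nat_lit 306) (nat_lit 5) (nat_lit 307) (nat_lit 5) (nat_lit 402) (nat_lit 370) (nat_lit 248)) (XT.lf (nat_lit 0) (nat_lit 6795765775) (nat_lit 684) (nat_lit 8470824909) (nat_lit 760) (nat_lit 1714202558) (nat_lit 288) (nat_lit 5) (nat_lit 297) (nat_lit 5) (nat_lit 298) (nat_lit 5) (nat_lit 403) (nat_lit 370) (nat_lit 247)))) (XT.nd (nat_lit 78) (nat_lit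 608) (nat_lit 0) (XT.lf (nat_lit 0) (nat_lit 2287390082) (nat_lit 760) (nat_lit 13172859701) (nat_lit 76) (nat_lit 1810308641) (nat_lit 278) (nat_lit 5) (nat_lit 288) (nat_lit 5) (nat_lit 279) (nat_lit 5) (nat_lit 404) (nat_lit 370) (nat_lit 246)) (XT.nd (nat_lit 78) (nat_lit 0) (nat_lit 0) (XT.lf (nat_lit 0) (nat_lit 1309006448) (nat_lit 608) (nat_lit 5194507754) (nat_lit 684) (nat_lit 11062923252) (nat_lit 270) (nat_lit 5) (nat_lit 278) (nat_lit 5) (nat_lit 279) (nat_lit 5) (nat_lit 405) (nat_lit 370) (nat_lit 245)) (XT.lf (nat_lit 0) (nat_lit 10954264575) (nat_lit 684) (nat_lit 1519545223) (nat_lit 76) (nat_lit 5395223091) (nat_lit 270) (nat_lit 5) (nat_lit 279) (nat_lit 5) (nat_lit 271) (nat_lit 5) (nat_lit 406) (nat_lit 370) (nat_lit 244)))))) (XT.nd (nat_lit 390) (nat_lit 2660) (nat_lit 0) (XT.nd (nat_lit 156) (nat_lit 1748) (nat_lit 0) (XT.nd (nat_lit 78) (nat_lit 684) (nat_lit 0) (XT.lf (nat_lit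 0) (nat_lit 13786884908) (nat_lit 608) (nat_lit 1859751258) (nat_lit 684) (nat_lit 2531910846) (nat_lit 262) (nat_lit 5) (nat_lit 270) (nat_lit 5) (nat_lit 271) (nat_lit 5) (nat_lit 407) (nat_lit 370) (nat_lit 243)) (XT.lf (nat_lit 0) (nat_lit 2083055258) (nat_lit 684) (nat_lit 7364841872) (nat_lit 76) (nat_lit 9046662210) (nat_lit 253) (nat_lit 5) (nat_lit 262) (nat_lit 5) (nat_lit 254) (nat_lit 5) (nat_lit 408) (nat_lit 370) (nat_lit 242))) (XT.nd (nat_lit 78) (nat_lit 1140) (nat_lit 0) (XT.lf (nat_lit 0) (nat_lit 6893686277) (nat_lit 684) (nat_lit 10409350574) (nat_lit 76) (nat_lit 1514850762) (nat_lit 245) (nat_lit 5) (nat_lit 254) (nat_lit 5) (nat_lit 246) (nat_lit 5) (nat_lit 409) (nat_lit 370) (nat_lit 241)) (XT.nd (nat_lit 78) (nat_lit 608) (nat_lit 0) (XT.lf (nat_lit 0) (nat_lit 5596390872) (nat_lit 532) (nat_lit 6386703354) (nat_lit 608) (nat_lit 7165134861) (nat_lit 238) (nat_lit 5) (nat_lit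 245) (nat_lit 5) (nat_lit 246) (nat_lit 5) (nat_lit 410) (nat_lit 370) (nat_lit 240)) (XT.lf (nat_lit 0) (nat_lit 2721952438) (nat_lit 608) (nat_lit 14608441365) (nat_lit 684) (nat_lit 2155985252) (nat_lit 230) (nat_lit 5) (nat_lit 238) (nat_lit 5) (nat_lit 239) (nat_lit 5) (nat_lit 411) (nat_lit 370) (nat_lit 239))))) (XT.nd (nat_lit 234) (nat_lit 1520) (nat_lit 0) (XT.nd (nat_lit 78) (nat_lit 1064) (nat_lit 0) (XT.lf (nat_lit 0) (nat_lit 3084408499) (nat_lit 684) (nat_lit 245545688) (nat_lit 76) (nat_lit 16501924444) (nat_lit 229) (nat_lit 5) (nat_lit 238) (nat_lit 5) (nat_lit 230) (nat_lit 5) (nat_lit 412) (nat_lit 370) (nat_lit 238)) (XT.nd (nat_lit 78) (nat_lit 532) (nat_lit 0) (XT.lf (nat_lit 0) (nat_lit 8603233506) (nat_lit 608) (nat_lit 3282032450) (nat_lit 76) (nat_lit 8299184255) (nat_lit 222) (nat_lit 5) (nat_lit 230) (nat_lit 5) (nat_lit 223) (nat_lit 5) (nat_lit 413) (nat_lit 370) (nat_lit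 237)) (XT.lf (nat_lit 0) (nat_lit 14165384542) (nat_lit 532) (nat_lit 224063839) (nat_lit 608) (nat_lit 6156116241) (nat_lit 215) (nat_lit 5) (nat_lit 222) (nat_lit 5) (nat_lit 223) (nat_lit 5) (nat_lit 414) (nat_lit 370) (nat_lit 236)))) (XT.nd (nat_lit 78) (nat_lit 1064) (nat_lit 0) (XT.lf (nat_lit 0) (nat_lit 11317154961) (nat_lit 456) (nat_lit 9190660371) (nat_lit 532) (nat_lit 406527946) (nat_lit 209) (nat_lit 5) (nat_lit 215) (nat_lit 5) (nat_lit 216) (nat_lit 5) (nat_lit 415) (nat_lit 370) (nat_lit 235)) (XT.nd (nat_lit 78) (nat_lit 456) (nat_lit 0) (XT.lf (nat_lit 0) (nat_lit 5547684010) (nat_lit 608) (nat_lit 12916999964) (nat_lit 76) (nat_lit 2826697660) (nat_lit 201) (nat_lit 5) (nat_lit 209) (nat_lit 5) (nat_lit 202) (nat_lit 5) (nat_lit 416) (nat_lit 370) (nat_lit 234)) (XT.lf (nat_lit 0) (nat_lit 5324766755) (nat_lit 456) (nat_lit 6498371687) (nat_lit 532) (nat_lit 9853578135) (nat_lit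 195) (nat_lit 5) (nat_lit 201) (nat_lit 5) (nat_lit 202) (nat_lit 5) (nat_lit 417) (nat_lit 370) (nat_lit 233))))))) (XT.nd (nat_lit 49452) (nat_lit 0) (nat_lit 24928) (XT.nd (nat_lit 390) (nat_lit 2052) (nat_lit 0) (XT.nd (nat_lit 156) (nat_lit 1368) (nat_lit 0) (XT.nd (nat_lit 78) (nat_lit 76) (nat_lit 0) (XT.lf (nat_lit 0) (nat_lit 2190629378) (nat_lit 456) (nat_lit 16223240275) (nat_lit 532) (nat_lit 3657203558) (nat_lit 189) (nat_lit 5) (nat_lit 195) (nat_lit 5) (nat_lit 196) (nat_lit 5) (nat_lit 418) (nat_lit 370) (nat_lit 232)) (XT.lf (nat_lit 0) (nat_lit 2831346557) (nat_lit 532) (nat_lit 1041914515) (nat_lit 76) (nat_lit 18600806948) (nat_lit 188) (nat_lit 5) (nat_lit 195) (nat_lit 5) (nat_lit 189) (nat_lit 5) (nat_lit 419) (nat_lit 370) (nat_lit 231))) (XT.nd (nat_lit 78) (nat_lit 912) (nat_lit 0) (XT.lf (nat_lit 0) (nat_lit 9631445806) (nat_lit 532) (nat_lit 4381871717) (nat_lit 76) (nat_lit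 8872021835) (nat_lit 182) (nat_lit 5) (nat_lit 189) (nat_lit 5) (nat_lit 183) (nat_lit 5) (nat_lit 420) (nat_lit 370) (nat_lit 230)) (XT.nd (nat_lit 78) (nat_lit 456) (nat_lit 0) (XT.lf (nat_lit 0) (nat_lit 15500312087) (nat_lit 456) (nat_lit 1256508153) (nat_lit 532) (nat_lit 6549704862) (nat_lit 176) (nat_lit 5) (nat_lit 182) (nat_lit 5) (nat_lit 183) (nat_lit 5) (nat_lit 421) (nat_lit 370) (nat_lit 229)) (XT.lf (nat_lit 0) (nat_lit 527274667) (nat_lit 456) (nat_lit 11373903010) (nat_lit 76) (nat_lit 11835597610) (nat_lit 170) (nat_lit 5) (nat_lit 176) (nat_lit 5) (nat_lit 171) (nat_lit 5) (nat_lit 422) (nat_lit 370) (nat_lit 228))))) (XT.nd (nat_lit 234) (nat_lit 836) (nat_lit 0) (XT.nd (nat_lit 78) (nat_lit 760) (nat_lit 0) (XT.lf (nat_lit 0) (nat_lit 7845207767) (nat_lit 532) (nat_lit 15070676778) (nat_lit 76) (nat_lit 1260831563) (nat_lit 164) (nat_lit 5) (nat_lit 171) (nat_lit 5) (nat_lit 165)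 (nat_lit 5) (nat_lit 423) (nat_lit 370) (nat_lit 227)) (XT.nd (nat_lit 78) (nat_lit 380) (nat_lit 0) (XT.lf (nat_lit 0) (nat_lit 5705068514) (nat_lit 380) (nat_lit 9860024856) (nat_lit 456) (nat_lit 9061115026) (nat_lit 159) (nat_lit 5) (nat_lit 164) (nat_lit 5) (nat_lit 165) (nat_lit 5) (nat_lit 424) (nat_lit 370) (nat_lit 226)) (XT.lf (nat_lit 0) (nat_lit 2210937106) (nat_lit 380) (nat_lit 21434483523) (nat_lit 456) (nat_lit 1441189413) (nat_lit 154) (nat_lit 5) (nat_lit 159) (nat_lit 5) (nat_lit 160) (nat_lit 5) (nat_lit 425) (nat_lit 370) (nat_lit 225)))) (XT.nd (nat_lit 78) (nat_lit 760) (nat_lit 0) (XT.lf (nat_lit 0) (nat_lit 6506851970) (nat_lit 456) (nat_lit 1447872048) (nat_lit 76) (nat_lit 17601598096) (nat_lit 153) (nat_lit 5) (nat_lit 159) (nat_lit 5) (nat_lit 154) (nat_lit 5) (nat_lit 426) (nat_lit 370) (nat_lit 224)) (XT.nd (nat_lit 78) (nat_lit 380) (nat_lit 0) (XT.lf (nat_lit 0) (nat_lit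 14837673486) (nat_lit 456) (nat_lit 5206724123) (nat_lit 76) (nat_lit 5992260410) (nat_lit 148) (nat_lit 5) (nat_lit 154) (nat_lit 5) (nat_lit 149) (nat_lit 5) (nat_lit 427) (nat_lit 370) (nat_lit 223)) (XT.lf (nat_lit 0) (nat_lit 17423325035) (nat_lit 380) (nat_lit 6160354502) (nat_lit 456) (nat_lit 2944420604) (nat_lit 143) (nat_lit 5) (nat_lit 148) (nat_lit 5) (nat_lit 149) (nat_lit 5) (nat_lit 428) (nat_lit 370) (nat_lit 222)))))) (XT.nd (nat_lit 468) (nat_lit 0) (nat_lit 228) (XT.nd (nat_lit 234) (nat_lit 0) (nat_lit 76) (XT.nd (nat_lit 78) (nat_lit 1672) (nat_lit 0) (XT.lf (nat_lit 0) (nat_lit 2170770232) (nat_lit 0) (nat_lit 2170770232) (nat_lit 1596) (nat_lit 955774083) (nat_lit 493) (nat_lit 5) (nat_lit 493) (nat_lit 3) (nat_lit 514) (nat_lit 3) (nat_lit 371) (nat_lit 371) (nat_lit 278)) (XT.nd (nat_lit 78) (nat_lit 1672) (nat_lit 0) (XT.lf (nat_lit 76) (nat_lit 1485460566) (nat_lit 0) (nat_lit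 8270079483) (nat_lit 1672) (nat_lit 978949967) (nat_lit 494) (nat_lit 5) (nat_lit 493) (nat_lit 5) (nat_lit 515) (nat_lit 5) (nat_lit 372) (nat_lit 371) (nat_lit 277)) (XT.lf (nat_lit 0) (nat_lit 17537001) (nat_lit 1672) (nat_lit 1384592989) (nat_lit 1748) (nat_lit 9475713962) (nat_lit 471) (nat_lit 5) (nat_lit 493) (nat_lit 5) (nat_lit 494) (nat_lit 5) (nat_lit 373) (nat_lit 371) (nat_lit 276)))) (XT.nd (nat_lit 78) (nat_lit 0) (nat_lit 76) (XT.lf (nat_lit 0) (nat_lit 1077005960) (nat_lit 1672) (nat_lit 4283209639) (nat_lit 1748) (nat_lit 5664233700) (nat_lit 472) (nat_lit 5) (nat_lit 494) (nat_lit 5) (nat_lit 495) (nat_lit 5) (nat_lit 374) (nat_lit 371) (nat_lit 275)) (XT.nd (nat_lit 78) (nat_lit 0) (nat_lit 0) (XT.lf (nat_lit 0) (nat_lit 2190617303) (nat_lit 1672) (nat_lit 7209034861) (nat_lit 1748) (nat_lit 1775361204) (nat_lit 473) (nat_lit 5) (nat_lit 495) (nat_lit 5) (nat_lit 496) (nat_lit 5)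 (nat_lit 375) (nat_lit 371) (nat_lit 274)) (XT.lf (nat_lit 76) (nat_lit 1150993856) (nat_lit 0) (nat_lit 2226165683) (nat_lit 1748) (nat_lit 7952151870) (nat_lit 474) (nat_lit 5) (nat_lit 473) (nat_lit 5) (nat_lit 496) (nat_lit 5) (nat_lit 376) (nat_lit 371) (nat_lit 273))))) (XT.nd (nat_lit 234) (nat_lit 0) (nat_lit 152) (XT.nd (nat_lit 78) (nat_lit 0) (nat_lit 76) (XT.lf (nat_lit 0) (nat_lit 4649894864) (nat_lit 1672) (nat_lit 1680834147) (nat_lit 1748) (nat_lit 5156504728) (nat_lit 474) (nat_lit 5) (nat_lit 496) (nat_lit 5) (nat_lit 497) (nat_lit 5) (nat_lit 377) (nat_lit 371) (nat_lit 272)) (XT.nd (nat_lit 78) (nat_lit 0) (nat_lit 0) (XT.lf (nat_lit 0) (nat_lit 5998234709) (nat_lit 1672) (nat_lit 4526138476) (nat_lit 1748) (nat_lit 1124779175) (nat_lit 475) (nat_lit 5) (nat_lit 497) (nat_lit 5) (nat_lit 498) (nat_lit 5) (nat_lit 378) (nat_lit 371) (nat_lit 271)) (XT.lf (nat_lit 76) (nat_lit 4393482845)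 (nat_lit 0) (nat_lit 3045561804) (nat_lit 1748) (nat_lit 4375850359) (nat_lit 476) (nat_lit 5) (nat_lit 475) (nat_lit 5) (nat_lit 498) (nat_lit 5) (nat_lit 379) (nat_lit 371) (nat_lit 270)))) (XT.nd (nat_lit 78) (nat_lit 0) (nat_lit 76) (XT.lf (nat_lit 76) (nat_lit 1628213754) (nat_lit 0) (nat_lit 7337062346) (nat_lit 1748) (nat_lit 3019496557) (nat_lit 477) (nat_lit 5) (nat_lit 476) (nat_lit 5) (nat_lit 499) (nat_lit 5) (nat_lit 380) (nat_lit 371) (nat_lit 269)) (XT.nd (nat_lit 78) (nat_lit 0) (nat_lit 0) (XT.lf (nat_lit 0) (nat_lit 10581857695) (nat_lit 1672) (nat_lit 1151459037) (nat_lit 1748) (nat_lit 425545111) (nat_lit 477) (nat_lit 5) (nat_lit 499) (nat_lit 5) (nat_lit 500) (nat_lit 5) (nat_lit 381) (nat_lit 371) (nat_lit 268)) (XT.lf (nat_lit 76) (nat_lit 8370453073) (nat_lit 0) (nat_lit 3952029836) (nat_lit 1748) (nat_lit 14186156) (nat_lit 478) (nat_lit 5) (nat_lit 477) (nat_lit 5) (nat_lit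 500) (nat_lit 5) (nat_lit 382) (nat_lit 371) (nat_lit 267))))))))
noncomputable def xc96 : XT := (XT.nd (nat_lit 1716) (nat_lit 10184) (nat_lit 0) (XT.nd (nat_lit 858) (nat_lit 6916) (nat_lit 0) (XT.nd (nat_lit 390) (nat_lit 5776) (nat_lit 0) (XT.nd (nat_lit 156) (nat_lit 0) (nat_lit 76) (XT.nd (nat_lit 78) (nat_lit 0) (nat_lit 0) (XT.lf (nat_lit 0) (nat_lit 1618996682) (nat_lit 1748) (nat_lit 6827427976) (nat_lit 1824) (nat_lit 4072296526) (nat_lit 455) (nat_lit 5) (nat_lit 478) (nat_lit 5) (nat_lit 479) (nat_lit 5) (nat_lit 383) (nat_lit 371) (nat_lit 266)) (XT.lf (nat_lit 76) (nat_lit 2979132958) (nat_lit 0) (nat_lit 368020935) (nat_lit 1824) (nat_lit 9358161473) (nat_lit 456) (nat_lit 5) (nat_lit 455) (nat_lit 5) (nat_lit 479) (nat_lit 5) (nat_lit 384) (nat_lit 371) (nat_lit 265))) (XT.nd (nat_lit 78) (nat_lit 0) (nat_lit 76) (XT.lf (nat_lit 76) (nat_lit 206944872) (nat_lit 0) (nat_lit 4993790092)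 (nat_lit 1824) (nat_lit 7695306462) (nat_lit 457) (nat_lit 5) (nat_lit 456) (nat_lit 5) (nat_lit 480) (nat_lit 5) (nat_lit 385) (nat_lit 371) (nat_lit 264)) (XT.nd (nat_lit 78) (nat_lit 0) (nat_lit 0) (XT.lf (nat_lit 0) (nat_lit 7174976804) (nat_lit 1748) (nat_lit 2565232779) (nat_lit 1824) (nat_lit 3350984093) (nat_lit 457) (nat_lit 5) (nat_lit 480) (nat_lit 5) (nat_lit 481) (nat_lit 5) (nat_lit 386) (nat_lit 371) (nat_lit 263)) (XT.lf (nat_lit 76) (nat_lit 7912528062) (nat_lit 0) (nat_lit 1356111959) (nat_lit 1824) (nat_lit 4022361902) (nat_lit 458) (nat_lit 5) (nat_lit 457) (nat_lit 5) (nat_lit 481) (nat_lit 5) (nat_lit 387) (nat_lit 371) (nat_lit 262))))) (XT.nd (nat_lit 234) (nat_lit 2736) (nat_lit 0) (XT.nd (nat_lit 78) (nat_lit 1520) (nat_lit 0) (XT.lf (nat_lit 0) (nat_lit 5244298305) (nat_lit 1748) (nat_lit 6255664199) (nat_lit 1824) (nat_lit 1995350085) (nat_lit 435) (nat_lit 5) (nat_lit 458)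 (nat_lit 5) (nat_lit 459) (nat_lit 5) (nat_lit 388) (nat_lit 371) (nat_lit 261)) (XT.nd (nat_lit 78) (nat_lit 0) (nat_lit 0) (XT.lf (nat_lit 0) (nat_lit 145829227) (nat_lit 1520) (nat_lit 11163114891) (nat_lit 76) (nat_lit 2395709961) (nat_lit 415) (nat_lit 5) (nat_lit 435) (nat_lit 5) (nat_lit 416) (nat_lit 5) (nat_lit 389) (nat_lit 371) (nat_lit 260)) (XT.lf (nat_lit 0) (nat_lit 2399427174) (nat_lit 1520) (nat_lit 224417708) (nat_lit 76) (nat_lit 11294666069) (nat_lit 415) (nat_lit 5) (nat_lit 435) (nat_lit 5) (nat_lit 416) (nat_lit 5) (nat_lit 390) (nat_lit 371) (nat_lit 259)))) (XT.nd (nat_lit 78) (nat_lit 1824) (nat_lit 0) (XT.lf (nat_lit 0) (nat_lit 4812381537) (nat_lit 988) (nat_lit 3010325657) (nat_lit 76) (nat_lit 6314245994) (nat_lit 403) (nat_lit 5) (nat_lit 416) (nat_lit 5) (nat_lit 404) (nat_lit 5) (nat_lit 391) (nat_lit 371) (nat_lit 258)) (XT.nd (nat_lit 78) (nat_lit 912) (nat_lit 0)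 (XT.lf (nat_lit 0) (nat_lit 7358118215) (nat_lit 988) (nat_lit 5834915427) (nat_lit 76) (nat_lit 1167711670) (nat_lit 391) (nat_lit 5) (nat_lit 404) (nat_lit 5) (nat_lit 392) (nat_lit 5) (nat_lit 392) (nat_lit 371) (nat_lit 257)) (XT.lf (nat_lit 0) (nat_lit 5862704269) (nat_lit 912) (nat_lit 4207178771) (nat_lit 988) (nat_lit 4519579401) (nat_lit 379) (nat_lit 5) (nat_lit 391) (nat_lit 5) (nat_lit 392) (nat_lit 5) (nat_lit 393) (nat_lit 371) (nat_lit 256)))))) (XT.nd (nat_lit 390) (nat_lit 3648) (nat_lit 0) (XT.nd (nat_lit 156) (nat_lit 1520) (nat_lit 0) (XT.nd (nat_lit 78) (nat_lit 912) (nat_lit 0) (XT.lf (nat_lit 0) (nat_lit 3154942531) (nat_lit 836) (nat_lit 9780359785) (nat_lit 912) (nat_lit 1888296975) (nat_lit 368) (nat_lit 5) (nat_lit 379) (nat_lit 5) (nat_lit 380) (nat_lit 5) (nat_lit 394) (nat_lit 371) (nat_lit 255)) (XT.lf (nat_lit 0) (nat_lit 400139717) (nat_lit 836) (nat_lit 480841319)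 (nat_lit 912) (nat_lit 14182279776) (nat_lit 356) (nat_lit 5) (nat_lit 367) (nat_lit 5) (nat_lit 368) (nat_lit 5) (nat_lit 395) (nat_lit 371) (nat_lit 254))) (XT.nd (nat_lit 78) (nat_lit 1520) (nat_lit 0) (XT.lf (nat_lit 0) (nat_lit 3826534136) (nat_lit 912) (nat_lit 2410318193) (nat_lit 76) (nat_lit 9070637105) (nat_lit 356) (nat_lit 5) (nat_lit 368) (nat_lit 5) (nat_lit 357) (nat_lit 5) (nat_lit 396) (nat_lit 371) (nat_lit 253)) (XT.nd (nat_lit 78) (nat_lit 760) (nat_lit 0) (XT.lf (nat_lit 0) (nat_lit 6933462218) (nat_lit 836) (nat_lit 5257643670) (nat_lit 76) (nat_lit 3366482658) (nat_lit 346) (nat_lit 5) (nat_lit 357) (nat_lit 5) (nat_lit 347) (nat_lit 5) (nat_lit 397) (nat_lit 371) (nat_lit 252)) (XT.lf (nat_lit 0) (nat_lit 7648378452) (nat_lit 760) (nat_lit 2574087652) (nat_lit 836) (nat_lit 5590950859) (nat_lit 336) (nat_lit 5) (nat_lit 346) (nat_lit 5) (nat_lit 347) (nat_lit 5) (nat_lit 398)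 (nat_lit 371) (nat_lit 251))))) (XT.nd (nat_lit 234) (nat_lit 2052) (nat_lit 0) (XT.nd (nat_lit 78) (nat_lit 836) (nat_lit 0) (XT.lf (nat_lit 0) (nat_lit 4934413574) (nat_lit 760) (nat_lit 8772707219) (nat_lit 836) (nat_lit 2367863407) (nat_lit 326) (nat_lit 5) (nat_lit 336) (nat_lit 5) (nat_lit 337) (nat_lit 5) (nat_lit 399) (nat_lit 371) (nat_lit 250)) (XT.nd (nat_lit 78) (nat_lit 0) (nat_lit 0) (XT.lf (nat_lit 0) (nat_lit 1015877483) (nat_lit 836) (nat_lit 14170085571) (nat_lit 76) (nat_lit 1156786293) (nat_lit 315) (nat_lit 5) (nat_lit 326) (nat_lit 5) (nat_lit 316) (nat_lit 5) (nat_lit 400) (nat_lit 371) (nat_lit 249)) (XT.lf (nat_lit 0) (nat_lit 4585966441) (nat_lit 836) (nat_lit 674010809) (nat_lit 76) (nat_lit 11355920361) (nat_lit 315) (nat_lit 5) (nat_lit 326) (nat_lit 5) (nat_lit 316) (nat_lit 5) (nat_lit 401) (nat_lit 371) (nat_lit 248)))) (XT.nd (nat_lit 78) (nat_lit 1368) (nat_lit 0)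 (XT.lf (nat_lit 0) (nat_lit 8365525765) (nat_lit 760) (nat_lit 3545358028) (nat_lit 76) (nat_lit 4984312391) (nat_lit 306) (nat_lit 5) (nat_lit 316) (nat_lit 5) (nat_lit 307) (nat_lit 5) (nat_lit 402) (nat_lit 371) (nat_lit 247)) (XT.nd (nat_lit 78) (nat_lit 684) (nat_lit 0) (XT.lf (nat_lit 0) (nat_lit 10706859671) (nat_lit 684) (nat_lit 1643953840) (nat_lit 760) (nat_lit 4830216488) (nat_lit 297) (nat_lit 5) (nat_lit 306) (nat_lit 5) (nat_lit 307) (nat_lit 5) (nat_lit 403) (nat_lit 371) (nat_lit 246)) (XT.lf (nat_lit 0) (nat_lit 7987618199) (nat_lit 684) (nat_lit 8585480242) (nat_lit 760) (nat_lit 899994647) (nat_lit 288) (nat_lit 5) (nat_lit 297) (nat_lit 5) (nat_lit 298) (nat_lit 5) (nat_lit 404) (nat_lit 371) (nat_lit 245))))))) (XT.nd (nat_lit 858) (nat_lit 4636) (nat_lit 0) (XT.nd (nat_lit 390) (nat_lit 2888) (nat_lit 0) (XT.nd (nat_lit 156) (nat_lit 1292) (nat_lit 0) (XT.nd (nat_lit 78) (nat_lit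 608) (nat_lit 0) (XT.lf (nat_lit 0) (nat_lit 3192752450) (nat_lit 760) (nat_lit 12568873348) (nat_lit 76) (nat_lit 2010168221) (nat_lit 278) (nat_lit 5) (nat_lit 288) (nat_lit 5) (nat_lit 279) (nat_lit 5) (nat_lit 405) (nat_lit 371) (nat_lit 244)) (XT.lf (nat_lit 0) (nat_lit 2331238405) (nat_lit 608) (nat_lit 5186132841) (nat_lit 684) (nat_lit 10559542218) (nat_lit 270) (nat_lit 5) (nat_lit 278) (nat_lit 5) (nat_lit 279) (nat_lit 5) (nat_lit 406) (nat_lit 371) (nat_lit 243))) (XT.nd (nat_lit 78) (nat_lit 1292) (nat_lit 0) (XT.lf (nat_lit 0) (nat_lit 12078832103) (nat_lit 684) (nat_lit 595798845) (nat_lit 76) (nat_lit 5714416192) (nat_lit 270) (nat_lit 5) (nat_lit 279) (nat_lit 5) (nat_lit 271) (nat_lit 5) (nat_lit 407) (nat_lit 371) (nat_lit 242)) (XT.nd (nat_lit 78) (nat_lit 684) (nat_lit 0) (XT.lf (nat_lit 0) (nat_lit 15154097918) (nat_lit 608) (nat_lit 1740885663) (nat_lit 684) (nat_lit 1813206949)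 (nat_lit 262) (nat_lit 5) (nat_lit 270) (nat_lit 5) (nat_lit 271) (nat_lit 5) (nat_lit 408) (nat_lit 371) (nat_lit 241)) (XT.lf (nat_lit 0) (nat_lit 2914277429) (nat_lit 684) (nat_lit 6622965927) (nat_lit 76) (nat_lit 9496650680) (nat_lit 253) (nat_lit 5) (nat_lit 262) (nat_lit 5) (nat_lit 254) (nat_lit 5) (nat_lit 409) (nat_lit 371) (nat_lit 240))))) (XT.nd (nat_lit 234) (nat_lit 1140) (nat_lit 0) (XT.nd (nat_lit 78) (nat_lit 1140) (nat_lit 0) (XT.lf (nat_lit 0) (nat_lit 7854251212) (nat_lit 684) (nat_lit 9760521143) (nat_lit 76) (nat_lit 1752453037) (nat_lit 245) (nat_lit 5) (nat_lit 254) (nat_lit 5) (nat_lit 246) (nat_lit 5) (nat_lit 410) (nat_lit 371) (nat_lit 239)) (XT.nd (nat_lit 78) (nat_lit 608) (nat_lit 0) (XT.lf (nat_lit 0) (nat_lit 6709799680) (nat_lit 532) (nat_lit 6370726633) (nat_lit 608) (nat_lit 6627270703) (nat_lit 238) (nat_lit 5) (nat_lit 245) (nat_lit 5) (nat_lit 246) (nat_lit 5)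 (nat_lit 411) (nat_lit 371) (nat_lit 238)) (XT.lf (nat_lit 0) (nat_lit 3747099885) (nat_lit 608) (nat_lit 14827085851) (nat_lit 684) (nat_lit 1482190430) (nat_lit 230) (nat_lit 5) (nat_lit 238) (nat_lit 5) (nat_lit 239) (nat_lit 5) (nat_lit 412) (nat_lit 371) (nat_lit 237)))) (XT.nd (nat_lit 78) (nat_lit 532) (nat_lit 0) (XT.lf (nat_lit 0) (nat_lit 681549368) (nat_lit 532) (nat_lit 3207378743) (nat_lit 608) (nat_lit 16523556093) (nat_lit 222) (nat_lit 5) (nat_lit 229) (nat_lit 5) (nat_lit 230) (nat_lit 5) (nat_lit 413) (nat_lit 371) (nat_lit 236)) (XT.nd (nat_lit 78) (nat_lit 532) (nat_lit 0) (XT.lf (nat_lit 0) (nat_lit 9555608880) (nat_lit 608) (nat_lit 2457434110) (nat_lit 76) (nat_lit 8762947353) (nat_lit 222) (nat_lit 5) (nat_lit 230) (nat_lit 5) (nat_lit 223) (nat_lit 5) (nat_lit 414) (nat_lit 371) (nat_lit 235)) (XT.lf (nat_lit 0) (nat_lit 15498429850) (nat_lit 532) (nat_lit 2654533) (nat_lit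 608) (nat_lit 5647143460) (nat_lit 215) (nat_lit 5) (nat_lit 222) (nat_lit 5) (nat_lit 223) (nat_lit 5) (nat_lit 415) (nat_lit 371) (nat_lit 234)))))) (XT.nd (nat_lit 390) (nat_lit 2584) (nat_lit 0) (XT.nd (nat_lit 156) (nat_lit 988) (nat_lit 0) (XT.nd (nat_lit 78) (nat_lit 532) (nat_lit 0) (XT.lf (nat_lit 0) (nat_lit 258752876) (nat_lit 532) (nat_lit 8967979949) (nat_lit 76) (nat_lit 12301555799) (nat_lit 208) (nat_lit 5) (nat_lit 215) (nat_lit 5) (nat_lit 209) (nat_lit 5) (nat_lit 416) (nat_lit 371) (nat_lit 233)) (XT.lf (nat_lit 0) (nat_lit 6373934571) (nat_lit 608) (nat_lit 12393244721) (nat_lit 76) (nat_lit 3149650668) (nat_lit 201) (nat_lit 5) (nat_lit 209) (nat_lit 5) (nat_lit 202) (nat_lit 5) (nat_lit 417) (nat_lit 371) (nat_lit 232))) (XT.nd (nat_lit 78) (nat_lit 532) (nat_lit 0) (XT.lf (nat_lit 0) (nat_lit 6380990804) (nat_lit 456) (nat_lit 6443264322) (nat_lit 532) (nat_lit 9489740592) (nat_lit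 195) (nat_lit 5) (nat_lit 201) (nat_lit 5) (nat_lit 202) (nat_lit 5) (nat_lit 418) (nat_lit 371) (nat_lit 231)) (XT.nd (nat_lit 78) (nat_lit 76) (nat_lit 0) (XT.lf (nat_lit 0) (nat_lit 3149498844) (nat_lit 456) (nat_lit 16451756772) (nat_lit 532) (nat_lit 3119159222) (nat_lit 189) (nat_lit 5) (nat_lit 195) (nat_lit 5) (nat_lit 196) (nat_lit 5) (nat_lit 419) (nat_lit 371) (nat_lit 230)) (XT.lf (nat_lit 0) (nat_lit 3536932533) (nat_lit 532) (nat_lit 197700627) (nat_lit 76) (nat_lit 19401157208) (nat_lit 188) (nat_lit 5) (nat_lit 195) (nat_lit 5) (nat_lit 189) (nat_lit 5) (nat_lit 420) (nat_lit 371) (nat_lit 229))))) (XT.nd (nat_lit 234) (nat_lit 1216) (nat_lit 0) (XT.nd (nat_lit 78) (nat_lit 912) (nat_lit 0) (XT.lf (nat_lit 0) (nat_lit 10530192968) (nat_lit 532) (nat_lit 3641455907) (nat_lit 76) (nat_lit 9387970336) (nat_lit 182) (nat_lit 5) (nat_lit 189) (nat_lit 5) (nat_lit 183) (nat_lit 5) (nat_lit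 421) (nat_lit 371) (nat_lit 228)) (XT.nd (nat_lit 78) (nat_lit 456) (nat_lit 0) (XT.lf (nat_lit 0) (nat_lit 16823048324) (nat_lit 456) (nat_lit 1034087967) (nat_lit 532) (nat_lit 6136550537) (nat_lit 176) (nat_lit 5) (nat_lit 182) (nat_lit 5) (nat_lit 183) (nat_lit 5) (nat_lit 422) (nat_lit 371) (nat_lit 227)) (XT.lf (nat_lit 0) (nat_lit 1134450877) (nat_lit 456) (nat_lit 10853194784) (nat_lit 76) (nat_lit 12449327867) (nat_lit 170) (nat_lit 5) (nat_lit 176) (nat_lit 5) (nat_lit 171) (nat_lit 5) (nat_lit 423) (nat_lit 371) (nat_lit 226)))) (XT.nd (nat_lit 78) (nat_lit 760) (nat_lit 0) (XT.lf (nat_lit 0) (nat_lit 8661945347) (nat_lit 532) (nat_lit 14664929097) (nat_lit 76) (nat_lit 1563439929) (nat_lit 164) (nat_lit 5) (nat_lit 171) (nat_lit 5) (nat_lit 165) (nat_lit 5) (nat_lit 424) (nat_lit 371) (nat_lit 225)) (XT.nd (nat_lit 78) (nat_lit 380) (nat_lit 0) (XT.lf (nat_lit 0) (nat_lit 6720170665) (nat_lit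 380) (nat_lit 9881802900) (nat_lit 456) (nat_lit 8751549147) (nat_lit 159) (nat_lit 5) (nat_lit 164) (nat_lit 5) (nat_lit 165) (nat_lit 5) (nat_lit 425) (nat_lit 371) (nat_lit 224)) (XT.lf (nat_lit 0) (nat_lit 3117058772) (nat_lit 380) (nat_lit 21798231856) (nat_lit 456) (nat_lit 912636316) (nat_lit 154) (nat_lit 5) (nat_lit 159) (nat_lit 5) (nat_lit 160) (nat_lit 5) (nat_lit 426) (nat_lit 371) (nat_lit 223))))))))
noncomputable def xc97 : XT := (XT.nd (nat_lit 50388) (nat_lit 0) (nat_lit 6232) (XT.nd (nat_lit 49530) (nat_lit 0) (nat_lit 19380) (XT.nd (nat_lit 49062) (nat_lit 0) (nat_lit 24624) (XT.nd (nat_lit 48828) (nat_lit 0) (nat_lit 24548) (XT.nd (nat_lit 78) (nat_lit 380) (nat_lit 0) (XT.lf (nat_lit 0) (nat_lit 7249911575) (nat_lit 456) (nat_lit 668626151) (nat_lit 76) (nat_lit 18393449151) (nat_lit 153) (nat_lit 5) (nat_lit 159) (nat_lit 5) (nat_lit 154) (nat_lit 5) (nat_lit 427) (nat_lit 371)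 (nat_lit 222)) (XT.lf (nat_lit 0) (nat_lit 15821722756) (nat_lit 456) (nat_lit 4544549139) (nat_lit 76) (nat_lit 6440641639) (nat_lit 148) (nat_lit 5) (nat_lit 154) (nat_lit 5) (nat_lit 149) (nat_lit 5) (nat_lit 428) (nat_lit 371) (nat_lit 221))) (XT.nd (nat_lit 78) (nat_lit 1672) (nat_lit 0) (XT.lf (nat_lit 0) (nat_lit 2689698019) (nat_lit 0) (nat_lit 2689698019) (nat_lit 1596) (nat_lit 58473561) (nat_lit 493) (nat_lit 5) (nat_lit 493) (nat_lit 3) (nat_lit 514) (nat_lit 3) (nat_lit 372) (nat_lit 372) (nat_lit 276)) (XT.nd (nat_lit 78) (nat_lit 0) (nat_lit 0) (XT.lf (nat_lit 0) (nat_lit 779682469) (nat_lit 1672) (nat_lit 8561149296) (nat_lit 1748) (nat_lit 1679924397) (nat_lit 471) (nat_lit 5) (nat_lit 493) (nat_lit 5) (nat_lit 494) (nat_lit 5) (nat_lit 373) (nat_lit 372) (nat_lit 275)) (XT.lf (nat_lit 0) (nat_lit 1741147246) (nat_lit 1672) (nat_lit 495252754) (nat_lit 1748) (nat_lit 8932925400) (nat_lit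 471) (nat_lit 5) (nat_lit 493) (nat_lit 5) (nat_lit 494) (nat_lit 5) (nat_lit 374) (nat_lit 372) (nat_lit 274))))) (XT.nd (nat_lit 234) (nat_lit 0) (nat_lit 152) (XT.nd (nat_lit 78) (nat_lit 0) (nat_lit 76) (XT.lf (nat_lit 0) (nat_lit 2783204840) (nat_lit 1672) (nat_lit 3457018327) (nat_lit 1748) (nat_lit 5081101071) (nat_lit 472) (nat_lit 5) (nat_lit 494) (nat_lit 5) (nat_lit 495) (nat_lit 5) (nat_lit 375) (nat_lit 372) (nat_lit 273)) (XT.nd (nat_lit 78) (nat_lit 0) (nat_lit 0) (XT.lf (nat_lit 0) (nat_lit 3883075244) (nat_lit 1672) (nat_lit 6448619510) (nat_lit 1748) (nat_lit 1145664550) (nat_lit 473) (nat_lit 5) (nat_lit 495) (nat_lit 5) (nat_lit 496) (nat_lit 5) (nat_lit 376) (nat_lit 372) (nat_lit 272)) (XT.lf (nat_lit 76) (nat_lit 2146364492) (nat_lit 0) (nat_lit 2917706912) (nat_lit 1748) (nat_lit 6573048498) (nat_lit 474) (nat_lit 5) (nat_lit 473) (nat_lit 5) (nat_lit 496) (nat_lit 5) (nat_lit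 377) (nat_lit 372) (nat_lit 271)))) (XT.nd (nat_lit 78) (nat_lit 0) (nat_lit 76) (XT.lf (nat_lit 0) (nat_lit 6324868163) (nat_lit 1672) (nat_lit 763329072) (nat_lit 1748) (nat_lit 4712595532) (nat_lit 474) (nat_lit 5) (nat_lit 496) (nat_lit 5) (nat_lit 497) (nat_lit 5) (nat_lit 378) (nat_lit 372) (nat_lit 270)) (XT.nd (nat_lit 78) (nat_lit 0) (nat_lit 0) (XT.lf (nat_lit 0) (nat_lit 7671581457) (nat_lit 1672) (nat_lit 3675882399) (nat_lit 1748) (nat_lit 620956776) (nat_lit 475) (nat_lit 5) (nat_lit 497) (nat_lit 5) (nat_lit 498) (nat_lit 5) (nat_lit 379) (nat_lit 372) (nat_lit 269)) (XT.lf (nat_lit 76) (nat_lit 5495330231) (nat_lit 0) (nat_lit 3623086549) (nat_lit 1748) (nat_lit 3021472611) (nat_lit 476) (nat_lit 5) (nat_lit 475) (nat_lit 5) (nat_lit 498) (nat_lit 5) (nat_lit 380) (nat_lit 372) (nat_lit 268)))))) (XT.nd (nat_lit 390) (nat_lit 3876) (nat_lit 0) (XT.nd (nat_lit 156) (nat_lit 1672) (nat_lit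 0) (XT.nd (nat_lit 78) (nat_lit 0) (nat_lit 76) (XT.lf (nat_lit 76) (nat_lit 2663445159) (nat_lit 0) (nat_lit 7987916141) (nat_lit 1748) (nat_lit 1664293113) (nat_lit 477) (nat_lit 5) (nat_lit 476) (nat_lit 5) (nat_lit 499) (nat_lit 5) (nat_lit 381) (nat_lit 372) (nat_lit 267)) (XT.lf (nat_lit 0) (nat_lit 12272449595) (nat_lit 1672) (nat_lit 197805645) (nat_lit 1748) (nat_lit 25600138) (nat_lit 477) (nat_lit 5) (nat_lit 499) (nat_lit 5) (nat_lit 500) (nat_lit 5) (nat_lit 382) (nat_lit 372) (nat_lit 266))) (XT.nd (nat_lit 78) (nat_lit 0) (nat_lit 76) (XT.lf (nat_lit 0) (nat_lit 1334200939) (nat_lit 1748) (nat_lit 3094725614) (nat_lit 1824) (nat_lit 8250577374) (nat_lit 454) (nat_lit 5) (nat_lit 477) (nat_lit 5) (nat_lit 478) (nat_lit 5) (nat_lit 383) (nat_lit 372) (nat_lit 265)) (XT.nd (nat_lit 78) (nat_lit 0) (nat_lit 0) (XT.lf (nat_lit 0) (nat_lit 2981017009) (nat_lit 1748) (nat_lit 6029120874) (nat_lit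 1824) (nat_lit 3857589825) (nat_lit 455) (nat_lit 5) (nat_lit 478) (nat_lit 5) (nat_lit 479) (nat_lit 5) (nat_lit 384) (nat_lit 372) (nat_lit 264)) (XT.lf (nat_lit 76) (nat_lit 4055362297) (nat_lit 0) (nat_lit 673808122) (nat_lit 1824) (nat_lit 8331394600) (nat_lit 456) (nat_lit 5) (nat_lit 455) (nat_lit 5) (nat_lit 479) (nat_lit 5) (nat_lit 385) (nat_lit 372) (nat_lit 263))))) (XT.nd (nat_lit 234) (nat_lit 4028) (nat_lit 0) (XT.nd (nat_lit 78) (nat_lit 0) (nat_lit 76) (XT.lf (nat_lit 76) (nat_lit 1211370108) (nat_lit 0) (nat_lit 5394283738) (nat_lit 1824) (nat_lit 6652021207) (nat_lit 457) (nat_lit 5) (nat_lit 456) (nat_lit 5) (nat_lit 480) (nat_lit 5) (nat_lit 386) (nat_lit 372) (nat_lit 262)) (XT.nd (nat_lit 78) (nat_lit 0) (nat_lit 0) (XT.lf (nat_lit 0) (nat_lit 8601167129) (nat_lit 1748) (nat_lit 1646954727) (nat_lit 1824) (nat_lit 3211326984) (nat_lit 457) (nat_lit 5) (nat_lit 480) (nat_lit 5)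 (nat_lit 481) (nat_lit 5) (nat_lit 387) (nat_lit 372) (nat_lit 261)) (XT.lf (nat_lit 76) (nat_lit 9128992433) (nat_lit 0) (nat_lit 1599734575) (nat_lit 1824) (nat_lit 2937110218) (nat_lit 458) (nat_lit 5) (nat_lit 457) (nat_lit 5) (nat_lit 481) (nat_lit 5) (nat_lit 388) (nat_lit 372) (nat_lit 260)))) (XT.nd (nat_lit 78) (nat_lit 2432) (nat_lit 0) (XT.lf (nat_lit 0) (nat_lit 6389634565) (nat_lit 1748) (nat_lit 6608062166) (nat_lit 1824) (nat_lit 879173733) (nat_lit 435) (nat_lit 5) (nat_lit 458) (nat_lit 5) (nat_lit 459) (nat_lit 5) (nat_lit 389) (nat_lit 372) (nat_lit 259)) (XT.nd (nat_lit 78) (nat_lit 912) (nat_lit 0) (XT.lf (nat_lit 0) (nat_lit 1282476731) (nat_lit 1520) (nat_lit 10486772421) (nat_lit 76) (nat_lit 2323664189) (nat_lit 415) (nat_lit 5) (nat_lit 435) (nat_lit 5) (nat_lit 416) (nat_lit 5) (nat_lit 390) (nat_lit 372) (nat_lit 258)) (XT.lf (nat_lit 0) (nat_lit 760607711) (nat_lit 912)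 (nat_lit 2815034460) (nat_lit 988) (nat_lit 10738111399) (nat_lit 403) (nat_lit 5) (nat_lit 415) (nat_lit 5) (nat_lit 416) (nat_lit 5) (nat_lit 391) (nat_lit 372) (nat_lit 257))))))) (XT.nd (nat_lit 858) (nat_lit 5776) (nat_lit 0) (XT.nd (nat_lit 390) (nat_lit 3800) (nat_lit 0) (XT.nd (nat_lit 156) (nat_lit 2660) (nat_lit 0) (XT.nd (nat_lit 78) (nat_lit 912) (nat_lit 0) (XT.lf (nat_lit 0) (nat_lit 6029600285) (nat_lit 988) (nat_lit 2112389672) (nat_lit 76) (nat_lit 6397393456) (nat_lit 403) (nat_lit 5) (nat_lit 416) (nat_lit 5) (nat_lit 404) (nat_lit 5) (nat_lit 392) (nat_lit 372) (nat_lit 256)) (XT.lf (nat_lit 0) (nat_lit 8626281846) (nat_lit 988) (nat_lit 5016085555) (nat_lit 76) (nat_lit 1128036895) (nat_lit 391) (nat_lit 5) (nat_lit 404) (nat_lit 5) (nat_lit 392) (nat_lit 5) (nat_lit 393) (nat_lit 372) (nat_lit 255))) (XT.nd (nat_lit 78) (nat_lit 1748) (nat_lit 0) (XT.lf (nat_lit 0) (nat_lit 7016338253)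 (nat_lit 912) (nat_lit 4378902202) (nat_lit 988) (nat_lit 3611231929) (nat_lit 379) (nat_lit 5) (nat_lit 391) (nat_lit 5) (nat_lit 392) (nat_lit 5) (nat_lit 394) (nat_lit 372) (nat_lit 254)) (XT.nd (nat_lit 78) (nat_lit 912) (nat_lit 0) (XT.lf (nat_lit 0) (nat_lit 4232109981) (nat_lit 836) (nat_lit 10090800915) (nat_lit 912) (nat_lit 925202749) (nat_lit 368) (nat_lit 5) (nat_lit 379) (nat_lit 5) (nat_lit 380) (nat_lit 5) (nat_lit 395) (nat_lit 372) (nat_lit 253)) (XT.lf (nat_lit 0) (nat_lit 1392075449) (nat_lit 836) (nat_lit 498754684) (nat_lit 912) (nat_lit 13604467235) (nat_lit 356) (nat_lit 5) (nat_lit 367) (nat_lit 5) (nat_lit 368) (nat_lit 5) (nat_lit 396) (nat_lit 372) (nat_lit 252))))) (XT.nd (nat_lit 234) (nat_lit 2280) (nat_lit 0) (XT.nd (nat_lit 78) (nat_lit 1520) (nat_lit 0) (XT.lf (nat_lit 0) (nat_lit 4896084548) (nat_lit 912) (nat_lit 1511933120) (nat_lit 76) (nat_lit 9339414104) (nat_lit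 356) (nat_lit 5) (nat_lit 368) (nat_lit 5) (nat_lit 357) (nat_lit 5) (nat_lit 397) (nat_lit 372) (nat_lit 251)) (XT.nd (nat_lit 78) (nat_lit 760) (nat_lit 0) (XT.lf (nat_lit 0) (nat_lit 8074753778) (nat_lit 836) (nat_lit 4441723544) (nat_lit 76) (nat_lit 3488991325) (nat_lit 346) (nat_lit 5) (nat_lit 357) (nat_lit 5) (nat_lit 347) (nat_lit 5) (nat_lit 398) (nat_lit 372) (nat_lit 250)) (XT.lf (nat_lit 0) (nat_lit 8835682936) (nat_lit 760) (nat_lit 2605780725) (nat_lit 836) (nat_lit 4827932832) (nat_lit 336) (nat_lit 5) (nat_lit 346) (nat_lit 5) (nat_lit 347) (nat_lit 5) (nat_lit 399) (nat_lit 372) (nat_lit 249)))) (XT.nd (nat_lit 78) (nat_lit 1520) (nat_lit 0) (XT.lf (nat_lit 0) (nat_lit 6042592359) (nat_lit 760) (nat_lit 8968014006) (nat_lit 836) (nat_lit 1528610555) (nat_lit 326) (nat_lit 5) (nat_lit 336) (nat_lit 5) (nat_lit 337) (nat_lit 5) (nat_lit 400) (nat_lit 372) (nat_lit 248)) (XT.nd (nat_lit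 78) (nat_lit 684) (nat_lit 0) (XT.lf (nat_lit 0) (nat_lit 1925255497) (nat_lit 836) (nat_lit 13621484772) (nat_lit 76) (nat_lit 1268550411) (nat_lit 315) (nat_lit 5) (nat_lit 326) (nat_lit 5) (nat_lit 316) (nat_lit 5) (nat_lit 401) (nat_lit 372) (nat_lit 247)) (XT.lf (nat_lit 0) (nat_lit 254449085) (nat_lit 684) (nat_lit 5324051013) (nat_lit 760) (nat_lit 11518616986) (nat_lit 306) (nat_lit 5) (nat_lit 315) (nat_lit 5) (nat_lit 316) (nat_lit 5) (nat_lit 402) (nat_lit 372) (nat_lit 246)))))) (XT.nd (nat_lit 390) (nat_lit 3040) (nat_lit 0) (XT.nd (nat_lit 156) (nat_lit 2052) (nat_lit 0) (XT.nd (nat_lit 78) (nat_lit 684) (nat_lit 0) (XT.lf (nat_lit 0) (nat_lit 9451599061) (nat_lit 760) (nat_lit 2705489437) (nat_lit 76) (nat_lit 5228107670) (nat_lit 306) (nat_lit 5) (nat_lit 316) (nat_lit 5) (nat_lit 307) (nat_lit 5) (nat_lit 403) (nat_lit 372) (nat_lit 245)) (XT.lf (nat_lit 0) (nat_lit 11958943347) (nat_lit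 684) (nat_lit 1579222451) (nat_lit 760) (nat_lit 4141809273) (nat_lit 297) (nat_lit 5) (nat_lit 306) (nat_lit 5) (nat_lit 307) (nat_lit 5) (nat_lit 404) (nat_lit 372) (nat_lit 244))) (XT.nd (nat_lit 78) (nat_lit 1368) (nat_lit 0) (XT.lf (nat_lit 0) (nat_lit 9158512135) (nat_lit 684) (nat_lit 8711581351) (nat_lit 760) (nat_lit 111051430) (nat_lit 288) (nat_lit 5) (nat_lit 297) (nat_lit 5) (nat_lit 298) (nat_lit 5) (nat_lit 405) (nat_lit 372) (nat_lit 243)) (XT.nd (nat_lit 78) (nat_lit 608) (nat_lit 0) (XT.lf (nat_lit 0) (nat_lit 4077243351) (nat_lit 760) (nat_lit 12004123972) (nat_lit 76) (nat_lit 2207668406) (nat_lit 278) (nat_lit 5) (nat_lit 288) (nat_lit 5) (nat_lit 279) (nat_lit 5) (nat_lit 406) (nat_lit 372) (nat_lit 242)) (XT.lf (nat_lit 0) (nat_lit 3327711294) (nat_lit 608) (nat_lit 5186933014) (nat_lit 684) (nat_lit 10089007595) (nat_lit 270) (nat_lit 5) (nat_lit 278) (nat_lit 5) (nat_lit 279)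 (nat_lit 5) (nat_lit 407) (nat_lit 372) (nat_lit 241))))) (XT.nd (nat_lit 234) (nat_lit 1748) (nat_lit 0) (XT.nd (nat_lit 78) (nat_lit 684) (nat_lit 0) (XT.lf (nat_lit 0) (nat_lit 304003317) (nat_lit 608) (nat_lit 12889416942) (nat_lit 684) (nat_lit 5732123806) (nat_lit 262) (nat_lit 5) (nat_lit 270) (nat_lit 5) (nat_lit 271) (nat_lit 5) (nat_lit 408) (nat_lit 372) (nat_lit 240)) (XT.nd (nat_lit 78) (nat_lit 684) (nat_lit 0) (XT.lf (nat_lit 0) (nat_lit 16507586406) (nat_lit 608) (nat_lit 1628480191) (nat_lit 684) (nat_lit 1118558740) (nat_lit 262) (nat_lit 5) (nat_lit 270) (nat_lit 5) (nat_lit 271) (nat_lit 5) (nat_lit 409) (nat_lit 372) (nat_lit 239)) (XT.lf (nat_lit 0) (nat_lit 3726307988) (nat_lit 684) (nat_lit 5914103578) (nat_lit 76) (nat_lit 9949887087) (nat_lit 253) (nat_lit 5) (nat_lit 262) (nat_lit 5) (nat_lit 254) (nat_lit 5) (nat_lit 410) (nat_lit 372) (nat_lit 238)))) (XT.nd (nat_lit 78)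 (nat_lit 1140) (nat_lit 0) (XT.lf (nat_lit 0) (nat_lit 8800364513) (nat_lit 684) (nat_lit 9147398471) (nat_lit 76) (nat_lit 1986152797) (nat_lit 245) (nat_lit 5) (nat_lit 254) (nat_lit 5) (nat_lit 246) (nat_lit 5) (nat_lit 411) (nat_lit 372) (nat_lit 237)) (XT.nd (nat_lit 78) (nat_lit 608) (nat_lit 0) (XT.lf (nat_lit 0) (nat_lit 7802334204) (nat_lit 532) (nat_lit 6366186428) (nat_lit 608) (nat_lit 6116485464) (nat_lit 238) (nat_lit 5) (nat_lit 245) (nat_lit 5) (nat_lit 246) (nat_lit 5) (nat_lit 412) (nat_lit 372) (nat_lit 236)) (XT.lf (nat_lit 0) (nat_lit 4748841633) (nat_lit 608) (nat_lit 15064896113) (nat_lit 684) (nat_lit 830573214) (nat_lit 230) (nat_lit 5) (nat_lit 238) (nat_lit 5) (nat_lit 239) (nat_lit 5) (nat_lit 413) (nat_lit 372) (nat_lit 235))))))))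
noncomputable def xc98 : XT := (XT.nd (nat_lit 50466) (nat_lit 0) (nat_lit 13528) (XT.nd (nat_lit 858) (nat_lit 1672) (nat_lit 0) (XT.nd (nat_lit 390) (nat_lit 2356) (nat_lit 0) (XT.nd (nat_lit 156) (nat_lit 1596) (nat_lit 0) (XT.nd (nat_lit 78) (nat_lit 0) (nat_lit 0) (XT.lf (nat_lit 0) (nat_lit 1585983497) (nat_lit 532) (nat_lit 3092297208) (nat_lit 608) (nat_lit 16333019664) (nat_lit 222) (nat_lit 5) (nat_lit 229) (nat_lit 5) (nat_lit 230) (nat_lit 5) (nat_lit 414) (nat_lit 372) (nat_lit 234)) (XT.lf (nat_lit 0) (nat_lit 10496701098) (nat_lit 608) (nat_lit 1661085201) (nat_lit 76) (nat_lit 9228293659) (nat_lit 222) (nat_lit 5) (nat_lit 230) (nat_lit 5) (nat_lit 223) (nat_lit 5) (nat_lit 415) (nat_lit 372) (nat_lit 233))) (XT.nd (nat_lit 78) (nat_lit 1064) (nat_lit 0) (XT.lf (nat_lit 0) (nat_lit 16608415811) (nat_lit 608) (nat_lit 4951797219) (nat_lit 76) (nat_lit 209517014) (nat_lit 215) (nat_lit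 5) (nat_lit 223) (nat_lit 5) (nat_lit 216) (nat_lit 5) (nat_lit 416) (nat_lit 372) (nat_lit 232)) (XT.nd (nat_lit 78) (nat_lit 532) (nat_lit 0) (XT.lf (nat_lit 0) (nat_lit 899925796) (nat_lit 532) (nat_lit 8375104572) (nat_lit 76) (nat_lit 12886344802) (nat_lit 208) (nat_lit 5) (nat_lit 215) (nat_lit 5) (nat_lit 209) (nat_lit 5) (nat_lit 417) (nat_lit 372) (nat_lit 231)) (XT.lf (nat_lit 0) (nat_lit 7187096279) (nat_lit 608) (nat_lit 11906087173) (nat_lit 76) (nat_lit 3468621363) (nat_lit 201) (nat_lit 5) (nat_lit 209) (nat_lit 5) (nat_lit 202) (nat_lit 5) (nat_lit 418) (nat_lit 372) (nat_lit 230))))) (XT.nd (nat_lit 234) (nat_lit 912) (nat_lit 0) (XT.nd (nat_lit 78) (nat_lit 988) (nat_lit 0) (XT.lf (nat_lit 0) (nat_lit 7417439895) (nat_lit 456) (nat_lit 6400858117) (nat_lit 532) (nat_lit 9152842757) (nat_lit 195) (nat_lit 5) (nat_lit 201) (nat_lit 5) (nat_lit 202) (nat_lit 5) (nat_lit 419) (nat_lit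 372) (nat_lit 229)) (XT.nd (nat_lit 78) (nat_lit 532) (nat_lit 0) (XT.lf (nat_lit 0) (nat_lit 4085863898) (nat_lit 456) (nat_lit 16701949393) (nat_lit 532) (nat_lit 2602157656) (nat_lit 189) (nat_lit 5) (nat_lit 195) (nat_lit 5) (nat_lit 196) (nat_lit 5) (nat_lit 420) (nat_lit 372) (nat_lit 228)) (XT.lf (nat_lit 0) (nat_lit 629844565) (nat_lit 456) (nat_lit 3602303297) (nat_lit 532) (nat_lit 19585852272) (nat_lit 182) (nat_lit 5) (nat_lit 188) (nat_lit 5) (nat_lit 189) (nat_lit 5) (nat_lit 421) (nat_lit 372) (nat_lit 227)))) (XT.nd (nat_lit 78) (nat_lit 912) (nat_lit 0) (XT.lf (nat_lit 0) (nat_lit 11420897312) (nat_lit 532) (nat_lit 2928876640) (nat_lit 76) (nat_lit 9905058448) (nat_lit 182) (nat_lit 5) (nat_lit 189) (nat_lit 5) (nat_lit 183) (nat_lit 5) (nat_lit 422) (nat_lit 372) (nat_lit 226)) (XT.nd (nat_lit 78) (nat_lit 456) (nat_lit 0) (XT.lf (nat_lit 0) (nat_lit 18136229617) (nat_lit 456) (nat_lit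 819926866) (nat_lit 532) (nat_lit 5745997726) (nat_lit 176) (nat_lit 5) (nat_lit 182) (nat_lit 5) (nat_lit 183) (nat_lit 5) (nat_lit 423) (nat_lit 372) (nat_lit 225)) (XT.lf (nat_lit 0) (nat_lit 1725896006) (nat_lit 456) (nat_lit 10366343350) (nat_lit 76) (nat_lit 13066621756) (nat_lit 170) (nat_lit 5) (nat_lit 176) (nat_lit 5) (nat_lit 171) (nat_lit 5) (nat_lit 424) (nat_lit 372) (nat_lit 224)))))) (XT.nd (nat_lit 49140) (nat_lit 0) (nat_lit 24548) (XT.nd (nat_lit 156) (nat_lit 836) (nat_lit 0) (XT.nd (nat_lit 78) (nat_lit 380) (nat_lit 0) (XT.lf (nat_lit 0) (nat_lit 9469811387) (nat_lit 532) (nat_lit 14296254118) (nat_lit 76) (nat_lit 1859926895) (nat_lit 164) (nat_lit 5) (nat_lit 171) (nat_lit 5) (nat_lit 165) (nat_lit 5) (nat_lit 425) (nat_lit 372) (nat_lit 223)) (XT.lf (nat_lit 0) (nat_lit 7717279692) (nat_lit 380) (nat_lit 9919964310) (nat_lit 456) (nat_lit 8466070991) (nat_lit 159) (nat_lit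 5) (nat_lit 164) (nat_lit 5) (nat_lit 165) (nat_lit 5) (nat_lit 426) (nat_lit 372) (nat_lit 222))) (XT.nd (nat_lit 78) (nat_lit 456) (nat_lit 0) (XT.lf (nat_lit 0) (nat_lit 4002156503) (nat_lit 380) (nat_lit 22188924808) (nat_lit 456) (nat_lit 401049640) (nat_lit 154) (nat_lit 5) (nat_lit 159) (nat_lit 5) (nat_lit 160) (nat_lit 5) (nat_lit 427) (nat_lit 372) (nat_lit 221)) (XT.nd (nat_lit 48828) (nat_lit 0) (nat_lit 24472) (XT.lf (nat_lit 0) (nat_lit 87924958) (nat_lit 380) (nat_lit 7896459813) (nat_lit 456) (nat_lit 19106558268) (nat_lit 148) (nat_lit 5) (nat_lit 153) (nat_lit 5) (nat_lit 154) (nat_lit 5) (nat_lit 428) (nat_lit 372) (nat_lit 220)) (XT.lf (nat_lit 0) (nat_lit 801934014) (nat_lit 1748) (nat_lit 2390827981) (nat_lit 1748) (nat_lit 2390827981) (nat_lit 470) (nat_lit 3) (nat_lit 493) (nat_lit 3) (nat_lit 493) (nat_lit 5) (nat_lit 373) (nat_lit 373) (nat_lit 274))))) (XT.nd (nat_lit 234)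 (nat_lit 0) (nat_lit 152) (XT.nd (nat_lit 78) (nat_lit 0) (nat_lit 0) (XT.lf (nat_lit 0) (nat_lit 2475970162) (nat_lit 1672) (nat_lit 7914218703) (nat_lit 1748) (nat_lit 927351273) (nat_lit 471) (nat_lit 5) (nat_lit 493) (nat_lit 5) (nat_lit 494) (nat_lit 5) (nat_lit 374) (nat_lit 373) (nat_lit 273)) (XT.nd (nat_lit 78) (nat_lit 0) (nat_lit 76) (XT.lf (nat_lit 76) (nat_lit 372213122) (nat_lit 0) (nat_lit 3047757252) (nat_lit 1748) (nat_lit 8051533338) (nat_lit 472) (nat_lit 5) (nat_lit 471) (nat_lit 5) (nat_lit 494) (nat_lit 5) (nat_lit 375) (nat_lit 373) (nat_lit 272)) (XT.lf (nat_lit 0) (nat_lit 4444501628) (nat_lit 1672) (nat_lit 2660844250) (nat_lit 1748) (nat_lit 4523703167) (nat_lit 472) (nat_lit 5) (nat_lit 494) (nat_lit 5) (nat_lit 495) (nat_lit 5) (nat_lit 376) (nat_lit 373) (nat_lit 271)))) (XT.nd (nat_lit 78) (nat_lit 0) (nat_lit 0) (XT.lf (nat_lit 0) (nat_lit 5532925427) (nat_lit 1672)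 (nat_lit 5721457493) (nat_lit 1748) (nat_lit 536281551) (nat_lit 473) (nat_lit 5) (nat_lit 495) (nat_lit 5) (nat_lit 496) (nat_lit 5) (nat_lit 377) (nat_lit 373) (nat_lit 270)) (XT.nd (nat_lit 78) (nat_lit 0) (nat_lit 76) (XT.lf (nat_lit 76) (nat_lit 3116440053) (nat_lit 0) (nat_lit 3594130812) (nat_lit 1748) (nat_lit 5245432781) (nat_lit 474) (nat_lit 5) (nat_lit 473) (nat_lit 5) (nat_lit 496) (nat_lit 5) (nat_lit 378) (nat_lit 373) (nat_lit 269)) (XT.lf (nat_lit 76) (nat_lit 127814314) (nat_lit 0) (nat_lit 7834963572) (nat_lit 1748) (nat_lit 4162746939) (nat_lit 475) (nat_lit 5) (nat_lit 474) (nat_lit 5) (nat_lit 497) (nat_lit 5) (nat_lit 379) (nat_lit 373) (nat_lit 268))))))) (XT.nd (nat_lit 858) (nat_lit 8208) (nat_lit 0) (XT.nd (nat_lit 390) (nat_lit 1444) (nat_lit 0) (XT.nd (nat_lit 156) (nat_lit 1672) (nat_lit 0) (XT.nd (nat_lit 78) (nat_lit 0) (nat_lit 0) (XT.lf (nat_lit 0) (nat_lit 9309401356)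 (nat_lit 1672) (nat_lit 2856721382) (nat_lit 1748) (nat_lit 132878178) (nat_lit 475) (nat_lit 5) (nat_lit 497) (nat_lit 5) (nat_lit 498) (nat_lit 5) (nat_lit 380) (nat_lit 373) (nat_lit 267)) (XT.lf (nat_lit 76) (nat_lit 6574548608) (nat_lit 0) (nat_lit 4190029584) (nat_lit 1748) (nat_lit 1711746106) (nat_lit 476) (nat_lit 5) (nat_lit 475) (nat_lit 5) (nat_lit 498) (nat_lit 5) (nat_lit 381) (nat_lit 373) (nat_lit 266))) (XT.nd (nat_lit 78) (nat_lit 1748) (nat_lit 0) (XT.lf (nat_lit 76) (nat_lit 3673110973) (nat_lit 0) (nat_lit 8633569201) (nat_lit 1748) (nat_lit 351427731) (nat_lit 477) (nat_lit 5) (nat_lit 476) (nat_lit 5) (nat_lit 499) (nat_lit 5) (nat_lit 382) (nat_lit 373) (nat_lit 265)) (XT.nd (nat_lit 78) (nat_lit 0) (nat_lit 76) (XT.lf (nat_lit 76) (nat_lit 727794793) (nat_lit 0) (nat_lit 355414291) (nat_lit 1824) (nat_lit 11761059750) (nat_lit 454) (nat_lit 5) (nat_lit 453) (nat_lit 5) (nat_lit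 477) (nat_lit 5) (nat_lit 383) (nat_lit 373) (nat_lit 264)) (XT.lf (nat_lit 0) (nat_lit 2645431646) (nat_lit 1748) (nat_lit 2254037372) (nat_lit 1824) (nat_lit 8134718163) (nat_lit 454) (nat_lit 5) (nat_lit 477) (nat_lit 5) (nat_lit 478) (nat_lit 5) (nat_lit 384) (nat_lit 373) (nat_lit 263))))) (XT.nd (nat_lit 234) (nat_lit 1596) (nat_lit 0) (XT.nd (nat_lit 78) (nat_lit 0) (nat_lit 0) (XT.lf (nat_lit 0) (nat_lit 4308500519) (nat_lit 1748) (nat_lit 5264448321) (nat_lit 1824) (nat_lit 3655779960) (nat_lit 455) (nat_lit 5) (nat_lit 478) (nat_lit 5) (nat_lit 479) (nat_lit 5) (nat_lit 385) (nat_lit 373) (nat_lit 262)) (XT.nd (nat_lit 78) (nat_lit 0) (nat_lit 76) (XT.lf (nat_lit 76) (nat_lit 5107228982) (nat_lit 0) (nat_lit 971849266) (nat_lit 1824) (nat_lit 7348881242) (nat_lit 456) (nat_lit 5) (nat_lit 455) (nat_lit 5) (nat_lit 479) (nat_lit 5) (nat_lit 386) (nat_lit 373) (nat_lit 261)) (XT.lf (nat_lit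 76) (nat_lit 2188626368) (nat_lit 0) (nat_lit 5792402138) (nat_lit 1824) (nat_lit 5650578498) (nat_lit 457) (nat_lit 5) (nat_lit 456) (nat_lit 5) (nat_lit 480) (nat_lit 5) (nat_lit 387) (nat_lit 373) (nat_lit 260)))) (XT.nd (nat_lit 78) (nat_lit 1748) (nat_lit 0) (XT.lf (nat_lit 0) (nat_lit 10000630196) (nat_lit 1748) (nat_lit 758258895) (nat_lit 1824) (nat_lit 3081267858) (nat_lit 457) (nat_lit 5) (nat_lit 480) (nat_lit 5) (nat_lit 481) (nat_lit 5) (nat_lit 388) (nat_lit 373) (nat_lit 259)) (XT.nd (nat_lit 78) (nat_lit 1748) (nat_lit 0) (XT.lf (nat_lit 76) (nat_lit 10325747049) (nat_lit 0) (nat_lit 1839016326) (nat_lit 1824) (nat_lit 1888525870) (nat_lit 458) (nat_lit 5) (nat_lit 457) (nat_lit 5) (nat_lit 481) (nat_lit 5) (nat_lit 389) (nat_lit 373) (nat_lit 258)) (XT.lf (nat_lit 0) (nat_lit 200316482) (nat_lit 1824) (nat_lit 6759915298) (nat_lit 76) (nat_lit 7310954541) (nat_lit 434) (nat_lit 5)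 (nat_lit 458) (nat_lit 5) (nat_lit 435) (nat_lit 5) (nat_lit 390) (nat_lit 373) (nat_lit 257)))))) (XT.nd (nat_lit 390) (nat_lit 4028) (nat_lit 0) (XT.nd (nat_lit 156) (nat_lit 1824) (nat_lit 0) (XT.nd (nat_lit 78) (nat_lit 912) (nat_lit 0) (XT.lf (nat_lit 0) (nat_lit 2388226579) (nat_lit 1520) (nat_lit 9848188755) (nat_lit 76) (nat_lit 2257718472) (nat_lit 415) (nat_lit 5) (nat_lit 435) (nat_lit 5) (nat_lit 416) (nat_lit 5) (nat_lit 391) (nat_lit 373) (nat_lit 256)) (XT.lf (nat_lit 0) (nat_lit 1721148457) (nat_lit 912) (nat_lit 3004041147) (nat_lit 988) (nat_lit 9996916036) (nat_lit 403) (nat_lit 5) (nat_lit 415) (nat_lit 5) (nat_lit 416) (nat_lit 5) (nat_lit 392) (nat_lit 373) (nat_lit 255))) (XT.nd (nat_lit 78) (nat_lit 1824) (nat_lit 0) (XT.lf (nat_lit 0) (nat_lit 7221749772) (nat_lit 988) (nat_lit 1244244957) (nat_lit 76) (nat_lit 6489136244) (nat_lit 403) (nat_lit 5) (nat_lit 416) (nat_lit 5)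 (nat_lit 404) (nat_lit 5) (nat_lit 393) (nat_lit 373) (nat_lit 254)) (XT.nd (nat_lit 78) (nat_lit 912) (nat_lit 0) (XT.lf (nat_lit 0) (nat_lit 9872364187) (nat_lit 988) (nat_lit 4229743412) (nat_lit 76) (nat_lit 1091460313) (nat_lit 391) (nat_lit 5) (nat_lit 404) (nat_lit 5) (nat_lit 392) (nat_lit 5) (nat_lit 394) (nat_lit 373) (nat_lit 253)) (XT.lf (nat_lit 0) (nat_lit 8148454243) (nat_lit 912) (nat_lit 4553164986) (nat_lit 988) (nat_lit 2735560163) (nat_lit 379) (nat_lit 5) (nat_lit 391) (nat_lit 5) (nat_lit 392) (nat_lit 5) (nat_lit 395) (nat_lit 373) (nat_lit 252))))) (XT.nd (nat_lit 234) (nat_lit 2280) (nat_lit 0) (XT.nd (nat_lit 78) (nat_lit 836) (nat_lit 0) (XT.lf (nat_lit 0) (nat_lit 8138715) (nat_lit 912) (nat_lit 10401384337) (nat_lit 76) (nat_lit 5276998504) (nat_lit 367) (nat_lit 5) (nat_lit 379) (nat_lit 5) (nat_lit 368) (nat_lit 5) (nat_lit 396) (nat_lit 373) (nat_lit 251)) (XT.nd (nat_lit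 78) (nat_lit 0) (nat_lit 0) (XT.lf (nat_lit 0) (nat_lit 2357517175) (nat_lit 836) (nat_lit 517005218) (nat_lit 912) (nat_lit 13066912747) (nat_lit 356) (nat_lit 5) (nat_lit 367) (nat_lit 5) (nat_lit 368) (nat_lit 5) (nat_lit 397) (nat_lit 373) (nat_lit 250)) (XT.lf (nat_lit 0) (nat_lit 5942914665) (nat_lit 912) (nat_lit 642318338) (nat_lit 76) (nat_lit 9616446263) (nat_lit 356) (nat_lit 5) (nat_lit 368) (nat_lit 5) (nat_lit 357) (nat_lit 5) (nat_lit 398) (nat_lit 373) (nat_lit 249)))) (XT.nd (nat_lit 78) (nat_lit 1520) (nat_lit 0) (XT.lf (nat_lit 0) (nat_lit 9196709552) (nat_lit 836) (nat_lit 3657217275) (nat_lit 76) (nat_lit 3613940249) (nat_lit 346) (nat_lit 5) (nat_lit 357) (nat_lit 5) (nat_lit 347) (nat_lit 5) (nat_lit 399) (nat_lit 373) (nat_lit 248)) (XT.nd (nat_lit 78) (nat_lit 760) (nat_lit 0) (XT.lf (nat_lit 0) (nat_lit 10003621867) (nat_lit 760) (nat_lit 2641038173) (nat_lit 836) (nat_lit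 4095452923) (nat_lit 336) (nat_lit 5) (nat_lit 346) (nat_lit 5) (nat_lit 347) (nat_lit 5) (nat_lit 400) (nat_lit 373) (nat_lit 247)) (XT.lf (nat_lit 0) (nat_lit 7128900178) (nat_lit 760) (nat_lit 9173076266) (nat_lit 836) (nat_lit 716434417) (nat_lit 326) (nat_lit 5) (nat_lit 336) (nat_lit 5) (nat_lit 337) (nat_lit 5) (nat_lit 401) (nat_lit 373) (nat_lit 246))))))))
noncomputable def xc99 : XT := (XT.nd (nat_lit 1716) (nat_lit 1748) (nat_lit 0) (XT.nd (nat_lit 858) (nat_lit 4788) (nat_lit 0) (XT.nd (nat_lit 390) (nat_lit 3192) (nat_lit 0) (XT.nd (nat_lit 156) (nat_lit 1444) (nat_lit 0) (XT.nd (nat_lit 78) (nat_lit 684) (nat_lit 0) (XT.lf (nat_lit 0) (nat_lit 2811462300) (nat_lit 836) (nat_lit 13112320506) (nat_lit 76) (nat_lit 1379243863) (nat_lit 315) (nat_lit 5) (nat_lit 326) (nat_lit 5) (nat_lit 316) (nat_lit 5) (nat_lit 402) (nat_lit 373) (nat_lit 245)) (XT.lf (nat_lit 0) (nat_lit 1165001010) (nat_lit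 684) (nat_lit 5391035988) (nat_lit 760) (nat_lit 11037640690) (nat_lit 306) (nat_lit 5) (nat_lit 315) (nat_lit 5) (nat_lit 316) (nat_lit 5) (nat_lit 403) (nat_lit 373) (nat_lit 244))) (XT.nd (nat_lit 78) (nat_lit 1444) (nat_lit 0) (XT.lf (nat_lit 0) (nat_lit 10522315969) (nat_lit 760) (nat_lit 1894742222) (nat_lit 76) (nat_lit 5473805560) (nat_lit 306) (nat_lit 5) (nat_lit 316) (nat_lit 5) (nat_lit 307) (nat_lit 5) (nat_lit 404) (nat_lit 373) (nat_lit 243)) (XT.nd (nat_lit 78) (nat_lit 760) (nat_lit 0) (XT.lf (nat_lit 0) (nat_lit 13195153334) (nat_lit 684) (nat_lit 1519096056) (nat_lit 760) (nat_lit 3480585457) (nat_lit 297) (nat_lit 5) (nat_lit 306) (nat_lit 5) (nat_lit 307) (nat_lit 5) (nat_lit 405) (nat_lit 373) (nat_lit 242)) (XT.lf (nat_lit 0) (nat_lit 646134821) (nat_lit 760) (nat_lit 8198541297) (nat_lit 76) (nat_lit 9660603718) (nat_lit 287) (nat_lit 5) (nat_lit 297) (nat_lit 5) (nat_lit 288)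 (nat_lit 5) (nat_lit 406) (nat_lit 373) (nat_lit 241))))) (XT.nd (nat_lit 234) (nat_lit 1292) (nat_lit 0) (XT.nd (nat_lit 78) (nat_lit 1216) (nat_lit 0) (XT.lf (nat_lit 0) (nat_lit 4942993894) (nat_lit 760) (nat_lit 11476496183) (nat_lit 76) (nat_lit 2403218034) (nat_lit 278) (nat_lit 5) (nat_lit 288) (nat_lit 5) (nat_lit 279) (nat_lit 5) (nat_lit 407) (nat_lit 373) (nat_lit 240)) (XT.nd (nat_lit 78) (nat_lit 608) (nat_lit 0) (XT.lf (nat_lit 0) (nat_lit 4300891429) (nat_lit 608) (nat_lit 5196642416) (nat_lit 684) (nat_lit 9649552373) (nat_lit 270) (nat_lit 5) (nat_lit 278) (nat_lit 5) (nat_lit 279) (nat_lit 5) (nat_lit 408) (nat_lit 373) (nat_lit 239)) (XT.lf (nat_lit 0) (nat_lit 1185808417) (nat_lit 608) (nat_lit 13116262516) (nat_lit 684) (nat_lit 5176859931) (nat_lit 262) (nat_lit 5) (nat_lit 270) (nat_lit 5) (nat_lit 271) (nat_lit 5) (nat_lit 409) (nat_lit 373) (nat_lit 238)))) (XT.nd (nat_lit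 78) (nat_lit 1292) (nat_lit 0) (XT.lf (nat_lit 0) (nat_lit 17850080989) (nat_lit 608) (nat_lit 1522153108) (nat_lit 684) (nat_lit 446069298) (nat_lit 262) (nat_lit 5) (nat_lit 270) (nat_lit 5) (nat_lit 271) (nat_lit 5) (nat_lit 410) (nat_lit 373) (nat_lit 237)) (XT.nd (nat_lit 78) (nat_lit 608) (nat_lit 0) (XT.lf (nat_lit 0) (nat_lit 4521104331) (nat_lit 684) (nat_lit 5236072519) (nat_lit 76) (nat_lit 10407057360) (nat_lit 253) (nat_lit 5) (nat_lit 262) (nat_lit 5) (nat_lit 254) (nat_lit 5) (nat_lit 411) (nat_lit 373) (nat_lit 236)) (XT.lf (nat_lit 0) (nat_lit 9734076422) (nat_lit 684) (nat_lit 8567886684) (nat_lit 76) (nat_lit 2216466166) (nat_lit 245) (nat_lit 5) (nat_lit 254) (nat_lit 5) (nat_lit 246) (nat_lit 5) (nat_lit 412) (nat_lit 373) (nat_lit 235)))))) (XT.nd (nat_lit 390) (nat_lit 2508) (nat_lit 0) (XT.nd (nat_lit 156) (nat_lit 1140) (nat_lit 0) (XT.nd (nat_lit 78) (nat_lit 608) (nat_lit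 0) (XT.lf (nat_lit 0) (nat_lit 8876483911) (nat_lit 532) (nat_lit 6372741815) (nat_lit 608) (nat_lit 5631110804) (nat_lit 238) (nat_lit 5) (nat_lit 245) (nat_lit 5) (nat_lit 246) (nat_lit 5) (nat_lit 413) (nat_lit 373) (nat_lit 234)) (XT.lf (nat_lit 0) (nat_lit 5729584526) (nat_lit 608) (nat_lit 15321723462) (nat_lit 684) (nat_lit 199365489) (nat_lit 230) (nat_lit 5) (nat_lit 238) (nat_lit 5) (nat_lit 239) (nat_lit 5) (nat_lit 414) (nat_lit 373) (nat_lit 233))) (XT.nd (nat_lit 78) (nat_lit 532) (nat_lit 0) (XT.lf (nat_lit 0) (nat_lit 2466806142) (nat_lit 532) (nat_lit 2985892878) (nat_lit 608) (nat_lit 16176160304) (nat_lit 222) (nat_lit 5) (nat_lit 229) (nat_lit 5) (nat_lit 230) (nat_lit 5) (nat_lit 415) (nat_lit 373) (nat_lit 232)) (XT.nd (nat_lit 78) (nat_lit 532) (nat_lit 0) (XT.lf (nat_lit 0) (nat_lit 11428459469) (nat_lit 608) (nat_lit 890791513) (nat_lit 76) (nat_lit 9695978443) (nat_lit 222)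 (nat_lit 5) (nat_lit 230) (nat_lit 5) (nat_lit 223) (nat_lit 5) (nat_lit 416) (nat_lit 373) (nat_lit 231)) (XT.lf (nat_lit 0) (nat_lit 17712113329) (nat_lit 608) (nat_lit 4282670899) (nat_lit 76) (nat_lit 415835822) (nat_lit 215) (nat_lit 5) (nat_lit 223) (nat_lit 5) (nat_lit 216) (nat_lit 5) (nat_lit 417) (nat_lit 373) (nat_lit 230))))) (XT.nd (nat_lit 234) (nat_lit 988) (nat_lit 0) (XT.nd (nat_lit 78) (nat_lit 988) (nat_lit 0) (XT.lf (nat_lit 0) (nat_lit 1523973559) (nat_lit 532) (nat_lit 7813920368) (nat_lit 76) (nat_lit 13476292983) (nat_lit 208) (nat_lit 5) (nat_lit 215) (nat_lit 5) (nat_lit 209) (nat_lit 5) (nat_lit 418) (nat_lit 373) (nat_lit 229)) (XT.nd (nat_lit 78) (nat_lit 456) (nat_lit 0) (XT.lf (nat_lit 0) (nat_lit 7988950727) (nat_lit 608) (nat_lit 11453622423) (nat_lit 76) (nat_lit 3784275041) (nat_lit 201) (nat_lit 5) (nat_lit 209) (nat_lit 5) (nat_lit 202) (nat_lit 5) (nat_lit 419)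 (nat_lit 373) (nat_lit 228)) (XT.lf (nat_lit 0) (nat_lit 8436474890) (nat_lit 456) (nat_lit 6370710108) (nat_lit 532) (nat_lit 8841519799) (nat_lit 195) (nat_lit 5) (nat_lit 201) (nat_lit 5) (nat_lit 202) (nat_lit 5) (nat_lit 420) (nat_lit 373) (nat_lit 227)))) (XT.nd (nat_lit 78) (nat_lit 532) (nat_lit 0) (XT.lf (nat_lit 0) (nat_lit 5001992541) (nat_lit 456) (nat_lit 16973617657) (nat_lit 532) (nat_lit 2104695623) (nat_lit 189) (nat_lit 5) (nat_lit 195) (nat_lit 5) (nat_lit 196) (nat_lit 5) (nat_lit 421) (nat_lit 373) (nat_lit 226)) (XT.nd (nat_lit 78) (nat_lit 0) (nat_lit 0) (XT.lf (nat_lit 0) (nat_lit 1436921984) (nat_lit 456) (nat_lit 3478743275) (nat_lit 532) (nat_lit 19605666719) (nat_lit 182) (nat_lit 5) (nat_lit 188) (nat_lit 5) (nat_lit 189) (nat_lit 5) (nat_lit 422) (nat_lit 373) (nat_lit 225)) (XT.lf (nat_lit 0) (nat_lit 12305326999) (nat_lit 532) (nat_lit 2242095995) (nat_lit 76) (nat_lit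 10424143467) (nat_lit 182) (nat_lit 5) (nat_lit 189) (nat_lit 5) (nat_lit 183) (nat_lit 5) (nat_lit 423) (nat_lit 373) (nat_lit 224))))))) (XT.nd (nat_lit 49764) (nat_lit 0) (nat_lit 20900) (XT.nd (nat_lit 49296) (nat_lit 0) (nat_lit 23712) (XT.nd (nat_lit 156) (nat_lit 836) (nat_lit 0) (XT.nd (nat_lit 78) (nat_lit 456) (nat_lit 0) (XT.lf (nat_lit 0) (nat_lit 19442395724) (nat_lit 456) (nat_lit 613415481) (nat_lit 532) (nat_lit 5376715553) (nat_lit 176) (nat_lit 5) (nat_lit 182) (nat_lit 5) (nat_lit 183) (nat_lit 5) (nat_lit 424) (nat_lit 373) (nat_lit 223)) (XT.lf (nat_lit 0) (nat_lit 2303086783) (nat_lit 456) (nat_lit 9911524171) (nat_lit 76) (nat_lit 13688438538) (nat_lit 170) (nat_lit 5) (nat_lit 176) (nat_lit 5) (nat_lit 171) (nat_lit 5) (nat_lit 425) (nat_lit 373) (nat_lit 222))) (XT.nd (nat_lit 78) (nat_lit 380) (nat_lit 0) (XT.lf (nat_lit 0) (nat_lit 10270455525) (nat_lit 532) (nat_lit 13962937149)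 (nat_lit 76) (nat_lit 2150981340) (nat_lit 164) (nat_lit 5) (nat_lit 171) (nat_lit 5) (nat_lit 165) (nat_lit 5) (nat_lit 426) (nat_lit 373) (nat_lit 221)) (XT.nd (nat_lit 48984) (nat_lit 0) (nat_lit 23636) (XT.lf (nat_lit 0) (nat_lit 8698636811) (nat_lit 380) (nat_lit 9974097617) (nat_lit 456) (nat_lit 8203487346) (nat_lit 159) (nat_lit 5) (nat_lit 164) (nat_lit 5) (nat_lit 165) (nat_lit 5) (nat_lit 427) (nat_lit 373) (nat_lit 220)) (XT.lf (nat_lit 0) (nat_lit 1637917650) (nat_lit 1748) (nat_lit 2048378337) (nat_lit 1748) (nat_lit 2048378337) (nat_lit 470) (nat_lit 3) (nat_lit 493) (nat_lit 3) (nat_lit 493) (nat_lit 5) (nat_lit 374) (nat_lit 374) (nat_lit 272))))) (XT.nd (nat_lit 234) (nat_lit 0) (nat_lit 76) (XT.nd (nat_lit 78) (nat_lit 0) (nat_lit 0) (XT.lf (nat_lit 0) (nat_lit 4127115341) (nat_lit 1672) (nat_lit 7299760004) (nat_lit 1748) (nat_lit 198294768) (nat_lit 471) (nat_lit 5) (nat_lit 493)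 (nat_lit 5) (nat_lit 494) (nat_lit 5) (nat_lit 375) (nat_lit 374) (nat_lit 271)) (XT.nd (nat_lit 78) (nat_lit 0) (nat_lit 76) (XT.lf (nat_lit 76) (nat_lit 1221443950) (nat_lit 0) (nat_lit 3837504742) (nat_lit 1748) (nat_lit 6725624093) (nat_lit 472) (nat_lit 5) (nat_lit 471) (nat_lit 5) (nat_lit 494) (nat_lit 5) (nat_lit 376) (nat_lit 374) (nat_lit 270)) (XT.lf (nat_lit 0) (nat_lit 6065065108) (nat_lit 1672) (nat_lit 1892442009) (nat_lit 1748) (nat_lit 3990330525) (nat_lit 472) (nat_lit 5) (nat_lit 494) (nat_lit 5) (nat_lit 495) (nat_lit 5) (nat_lit 377) (nat_lit 374) (nat_lit 269)))) (XT.nd (nat_lit 78) (nat_lit 0) (nat_lit 76) (XT.lf (nat_lit 76) (nat_lit 7089455964) (nat_lit 0) (nat_lit 55152217) (nat_lit 1748) (nat_lit 4970533872) (nat_lit 473) (nat_lit 5) (nat_lit 472) (nat_lit 5) (nat_lit 495) (nat_lit 5) (nat_lit 378) (nat_lit 374) (nat_lit 268)) (XT.nd (nat_lit 78) (nat_lit 0) (nat_lit 76)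 (XT.lf (nat_lit 76) (nat_lit 4063627878) (nat_lit 0) (nat_lit 4257042580) (nat_lit 1748) (nat_lit 3965518763) (nat_lit 474) (nat_lit 5) (nat_lit 473) (nat_lit 5) (nat_lit 496) (nat_lit 5) (nat_lit 379) (nat_lit 374) (nat_lit 267)) (XT.lf (nat_lit 76) (nat_lit 1003070959) (nat_lit 0) (nat_lit 8568499055) (nat_lit 1748) (nat_lit 2890012782) (nat_lit 475) (nat_lit 5) (nat_lit 474) (nat_lit 5) (nat_lit 497) (nat_lit 5) (nat_lit 380) (nat_lit 374) (nat_lit 266)))))) (XT.nd (nat_lit 390) (nat_lit 1444) (nat_lit 0) (XT.nd (nat_lit 156) (nat_lit 1596) (nat_lit 0) (XT.nd (nat_lit 78) (nat_lit 0) (nat_lit 76) (XT.lf (nat_lit 76) (nat_lit 10572507340) (nat_lit 0) (nat_lit 345284168) (nat_lit 1748) (nat_lit 1723296694) (nat_lit 475) (nat_lit 5) (nat_lit 474) (nat_lit 5) (nat_lit 497) (nat_lit 5) (nat_lit 381) (nat_lit 374) (nat_lit 265)) (XT.lf (nat_lit 76) (nat_lit 7633655619) (nat_lit 0) (nat_lit 4747675460)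 (nat_lit 1748) (nat_lit 443114812) (nat_lit 476) (nat_lit 5) (nat_lit 475) (nat_lit 5) (nat_lit 498) (nat_lit 5) (nat_lit 382) (nat_lit 374) (nat_lit 264))) (XT.nd (nat_lit 78) (nat_lit 0) (nat_lit 0) (XT.lf (nat_lit 0) (nat_lit 910493669) (nat_lit 1748) (nat_lit 8358681337) (nat_lit 1824) (nat_lit 3743091032) (nat_lit 453) (nat_lit 5) (nat_lit 476) (nat_lit 5) (nat_lit 477) (nat_lit 5) (nat_lit 383) (nat_lit 374) (nat_lit 263)) (XT.nd (nat_lit 78) (nat_lit 0) (nat_lit 76) (XT.lf (nat_lit 76) (nat_lit 1628647763) (nat_lit 0) (nat_lit 723557899) (nat_lit 1824) (nat_lit 10852391552) (nat_lit 454) (nat_lit 5) (nat_lit 453) (nat_lit 5) (nat_lit 477) (nat_lit 5) (nat_lit 384) (nat_lit 374) (nat_lit 262)) (XT.lf (nat_lit 0) (nat_lit 3923026926) (nat_lit 1748) (nat_lit 1441716923) (nat_lit 1824) (nat_lit 8036242476) (nat_lit 454) (nat_lit 5) (nat_lit 477) (nat_lit 5) (nat_lit 478) (nat_lit 5) (nat_lit 385)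 (nat_lit 374) (nat_lit 261))))) (XT.nd (nat_lit 234) (nat_lit 1596) (nat_lit 0) (XT.nd (nat_lit 78) (nat_lit 0) (nat_lit 0) (XT.lf (nat_lit 0) (nat_lit 5604739227) (nat_lit 1748) (nat_lit 4531113810) (nat_lit 1824) (nat_lit 3466143754) (nat_lit 455) (nat_lit 5) (nat_lit 478) (nat_lit 5) (nat_lit 479) (nat_lit 5) (nat_lit 386) (nat_lit 374) (nat_lit 260)) (XT.nd (nat_lit 78) (nat_lit 0) (nat_lit 76) (XT.lf (nat_lit 76) (nat_lit 6137254048) (nat_lit 0) (nat_lit 1262883244) (nat_lit 1824) (nat_lit 6407640454) (nat_lit 456) (nat_lit 5) (nat_lit 455) (nat_lit 5) (nat_lit 479) (nat_lit 5) (nat_lit 387) (nat_lit 374) (nat_lit 259)) (XT.lf (nat_lit 76) (nat_lit 3141187937) (nat_lit 0) (nat_lit 6188900085) (nat_lit 1824) (nat_lit 4688035013) (nat_lit 457) (nat_lit 5) (nat_lit 456) (nat_lit 5) (nat_lit 480) (nat_lit 5) (nat_lit 388) (nat_lit 374) (nat_lit 258)))) (XT.nd (nat_lit 78) (nat_lit 1748) (nat_lit 0)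 (XT.lf (nat_lit 76) (nat_lit 104618871) (nat_lit 0) (nat_lit 11272614900) (nat_lit 1824) (nat_lit 2856363566) (nat_lit 458) (nat_lit 5) (nat_lit 457) (nat_lit 5) (nat_lit 481) (nat_lit 5) (nat_lit 389) (nat_lit 374) (nat_lit 257)) (XT.nd (nat_lit 78) (nat_lit 1748) (nat_lit 0) (XT.lf (nat_lit 76) (nat_lit 11505426937) (nat_lit 0) (nat_lit 2074495718) (nat_lit 1824) (nat_lit 873735087) (nat_lit 458) (nat_lit 5) (nat_lit 457) (nat_lit 5) (nat_lit 481) (nat_lit 5) (nat_lit 390) (nat_lit 374) (nat_lit 256)) (XT.lf (nat_lit 0) (nat_lit 1237515523) (nat_lit 1824) (nat_lit 6070962117) (nat_lit 76) (nat_lit 7370005505) (nat_lit 434) (nat_lit 5) (nat_lit 458) (nat_lit 5) (nat_lit 435) (nat_lit 5) (nat_lit 391) (nat_lit 374) (nat_lit 255))))))))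
noncomputable def xc100 : XT := (XT.nd (nat_lit 1716) (nat_lit 6156) (nat_lit 0) (XT.nd (nat_lit 858) (nat_lit 6080) (nat_lit 0) (XT.nd (nat_lit 390) (nat_lit 4104) (nat_lit 0) (XT.nd (nat_lit 156) (nat_lit 1824) (nat_lit 0) (XT.nd (nat_lit 78) (nat_lit 912) (nat_lit 0) (XT.lf (nat_lit 0) (nat_lit 3465882940) (nat_lit 1520) (nat_lit 9245164403) (nat_lit 76) (nat_lit 2197581573) (nat_lit 415) (nat_lit 5) (nat_lit 435) (nat_lit 5) (nat_lit 416) (nat_lit 5) (nat_lit 392) (nat_lit 374) (nat_lit 254)) (XT.lf (nat_lit 0) (nat_lit 2656676316) (nat_lit 912) (nat_lit 3192716111) (nat_lit 988) (nat_lit 9294524803) (nat_lit 403) (nat_lit 5) (nat_lit 415) (nat_lit 5) (nat_lit 416) (nat_lit 5) (nat_lit 393) (nat_lit 374) (nat_lit 253))) (XT.nd (nat_lit 78) (nat_lit 1824) (nat_lit 0) (XT.lf (nat_lit 0) (nat_lit 8391613198) (nat_lit 988) (nat_lit 403528753) (nat_lit 76) (nat_lit 6589382001) (nat_lit 403) (nat_lit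 5) (nat_lit 416) (nat_lit 5) (nat_lit 404) (nat_lit 5) (nat_lit 394) (nat_lit 374) (nat_lit 252)) (XT.nd (nat_lit 78) (nat_lit 912) (nat_lit 0) (XT.lf (nat_lit 0) (nat_lit 11099154292) (nat_lit 988) (nat_lit 3473588575) (nat_lit 76) (nat_lit 1057828698) (nat_lit 391) (nat_lit 5) (nat_lit 404) (nat_lit 5) (nat_lit 392) (nat_lit 5) (nat_lit 395) (nat_lit 374) (nat_lit 251)) (XT.lf (nat_lit 0) (nat_lit 9261628619) (nat_lit 912) (nat_lit 4730193264) (nat_lit 988) (nat_lit 1890104371) (nat_lit 379) (nat_lit 5) (nat_lit 391) (nat_lit 5) (nat_lit 392) (nat_lit 5) (nat_lit 396) (nat_lit 374) (nat_lit 250))))) (XT.nd (nat_lit 234) (nat_lit 1596) (nat_lit 0) (XT.nd (nat_lit 78) (nat_lit 1596) (nat_lit 0) (XT.lf (nat_lit 0) (nat_lit 902528717) (nat_lit 912) (nat_lit 9828411071) (nat_lit 76) (nat_lit 5408117990) (nat_lit 367) (nat_lit 5) (nat_lit 379) (nat_lit 5) (nat_lit 368) (nat_lit 5) (nat_lit 397) (nat_lit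 374) (nat_lit 249)) (XT.nd (nat_lit 78) (nat_lit 760) (nat_lit 0) (XT.lf (nat_lit 0) (nat_lit 3298899172) (nat_lit 836) (nat_lit 535614528) (nat_lit 912) (nat_lit 12567518013) (nat_lit 356) (nat_lit 5) (nat_lit 367) (nat_lit 5) (nat_lit 368) (nat_lit 5) (nat_lit 398) (nat_lit 374) (nat_lit 248)) (XT.lf (nat_lit 0) (nat_lit 203531053) (nat_lit 760) (nat_lit 6767279418) (nat_lit 836) (nat_lit 9699760631) (nat_lit 346) (nat_lit 5) (nat_lit 356) (nat_lit 5) (nat_lit 357) (nat_lit 5) (nat_lit 399) (nat_lit 374) (nat_lit 247)))) (XT.nd (nat_lit 78) (nat_lit 1596) (nat_lit 0) (XT.lf (nat_lit 0) (nat_lit 10301824866) (nat_lit 836) (nat_lit 2901858879) (nat_lit 76) (nat_lit 3741473532) (nat_lit 346) (nat_lit 5) (nat_lit 357) (nat_lit 5) (nat_lit 347) (nat_lit 5) (nat_lit 400) (nat_lit 374) (nat_lit 246)) (XT.nd (nat_lit 78) (nat_lit 836) (nat_lit 0) (XT.lf (nat_lit 0) (nat_lit 11154770624) (nat_lit 760) (nat_lit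 2679816896) (nat_lit 836) (nat_lit 3391360253) (nat_lit 336) (nat_lit 5) (nat_lit 346) (nat_lit 5) (nat_lit 347) (nat_lit 5) (nat_lit 401) (nat_lit 374) (nat_lit 245)) (XT.lf (nat_lit 0) (nat_lit 69923076) (nat_lit 836) (nat_lit 9317570705) (nat_lit 76) (nat_lit 8125452507) (nat_lit 325) (nat_lit 5) (nat_lit 336) (nat_lit 5) (nat_lit 326) (nat_lit 5) (nat_lit 402) (nat_lit 374) (nat_lit 244)))))) (XT.nd (nat_lit 390) (nat_lit 3192) (nat_lit 0) (XT.nd (nat_lit 156) (nat_lit 1444) (nat_lit 0) (XT.nd (nat_lit 78) (nat_lit 684) (nat_lit 0) (XT.lf (nat_lit 0) (nat_lit 3676698937) (nat_lit 836) (nat_lit 12640567292) (nat_lit 76) (nat_lit 1489088461) (nat_lit 315) (nat_lit 5) (nat_lit 326) (nat_lit 5) (nat_lit 316) (nat_lit 5) (nat_lit 403) (nat_lit 374) (nat_lit 243)) (XT.lf (nat_lit 0) (nat_lit 2051038279) (nat_lit 684) (nat_lit 5465353969) (nat_lit 760) (nat_lit 10589681584) (nat_lit 306) (nat_lit 5) (nat_lit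 315) (nat_lit 5) (nat_lit 316) (nat_lit 5) (nat_lit 404) (nat_lit 374) (nat_lit 242))) (XT.nd (nat_lit 78) (nat_lit 1444) (nat_lit 0) (XT.lf (nat_lit 0) (nat_lit 11579967666) (nat_lit 760) (nat_lit 1110871983) (nat_lit 76) (nat_lit 5721773765) (nat_lit 306) (nat_lit 5) (nat_lit 316) (nat_lit 5) (nat_lit 307) (nat_lit 5) (nat_lit 405) (nat_lit 374) (nat_lit 241)) (XT.nd (nat_lit 78) (nat_lit 760) (nat_lit 0) (XT.lf (nat_lit 0) (nat_lit 14418080878) (nat_lit 684) (nat_lit 1463336986) (nat_lit 760) (nat_lit 2844614583) (nat_lit 297) (nat_lit 5) (nat_lit 306) (nat_lit 5) (nat_lit 307) (nat_lit 5) (nat_lit 406) (nat_lit 374) (nat_lit 240)) (XT.lf (nat_lit 0) (nat_lit 1380965790) (nat_lit 760) (nat_lit 7607446148) (nat_lit 76) (nat_lit 10057591117) (nat_lit 287) (nat_lit 5) (nat_lit 297) (nat_lit 5) (nat_lit 288) (nat_lit 5) (nat_lit 407) (nat_lit 374) (nat_lit 239))))) (XT.nd (nat_lit 234) (nat_lit 1292)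 (nat_lit 0) (XT.nd (nat_lit 78) (nat_lit 1216) (nat_lit 0) (XT.lf (nat_lit 0) (nat_lit 5792040845) (nat_lit 760) (nat_lit 10984000128) (nat_lit 76) (nat_lit 2597210677) (nat_lit 278) (nat_lit 5) (nat_lit 288) (nat_lit 5) (nat_lit 279) (nat_lit 5) (nat_lit 408) (nat_lit 374) (nat_lit 238)) (XT.nd (nat_lit 78) (nat_lit 608) (nat_lit 0) (XT.lf (nat_lit 0) (nat_lit 5253133173) (nat_lit 608) (nat_lit 5215018276) (nat_lit 684) (nat_lit 9239514531) (nat_lit 270) (nat_lit 5) (nat_lit 278) (nat_lit 5) (nat_lit 279) (nat_lit 5) (nat_lit 409) (nat_lit 374) (nat_lit 237)) (XT.lf (nat_lit 0) (nat_lit 2043971982) (nat_lit 608) (nat_lit 13359088752) (nat_lit 684) (nat_lit 4646683977) (nat_lit 262) (nat_lit 5) (nat_lit 270) (nat_lit 5) (nat_lit 271) (nat_lit 5) (nat_lit 410) (nat_lit 374) (nat_lit 236)))) (XT.nd (nat_lit 78) (nat_lit 1216) (nat_lit 0) (XT.lf (nat_lit 0) (nat_lit 203362307) (nat_lit 684) (nat_lit 1216817289)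 (nat_lit 76) (nat_lit 18979486843) (nat_lit 261) (nat_lit 5) (nat_lit 270) (nat_lit 5) (nat_lit 262) (nat_lit 5) (nat_lit 411) (nat_lit 374) (nat_lit 235)) (XT.nd (nat_lit 78) (nat_lit 608) (nat_lit 0) (XT.lf (nat_lit 0) (nat_lit 5300537162) (nat_lit 684) (nat_lit 4586807096) (nat_lit 76) (nat_lit 10868834225) (nat_lit 253) (nat_lit 5) (nat_lit 262) (nat_lit 5) (nat_lit 254) (nat_lit 5) (nat_lit 412) (nat_lit 374) (nat_lit 234)) (XT.lf (nat_lit 0) (nat_lit 10657356114) (nat_lit 684) (nat_lit 8020008834) (nat_lit 76) (nat_lit 2443888406) (nat_lit 245) (nat_lit 5) (nat_lit 254) (nat_lit 5) (nat_lit 246) (nat_lit 5) (nat_lit 413) (nat_lit 374) (nat_lit 233))))))) (XT.nd (nat_lit 858) (nat_lit 1368) (nat_lit 0) (XT.nd (nat_lit 390) (nat_lit 2508) (nat_lit 0) (XT.nd (nat_lit 156) (nat_lit 1064) (nat_lit 0) (XT.nd (nat_lit 78) (nat_lit 684) (nat_lit 0) (XT.lf (nat_lit 0) (nat_lit 9934634098) (nat_lit 532)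 (nat_lit 6390080912) (nat_lit 608) (nat_lit 5169570734) (nat_lit 238) (nat_lit 5) (nat_lit 245) (nat_lit 5) (nat_lit 246) (nat_lit 5) (nat_lit 414) (nat_lit 374) (nat_lit 232)) (XT.lf (nat_lit 0) (nat_lit 407696144) (nat_lit 684) (nat_lit 15187024291) (nat_lit 76) (nat_lit 6281197139) (nat_lit 229) (nat_lit 5) (nat_lit 238) (nat_lit 5) (nat_lit 230) (nat_lit 5) (nat_lit 415) (nat_lit 374) (nat_lit 231))) (XT.nd (nat_lit 78) (nat_lit 532) (nat_lit 0) (XT.lf (nat_lit 0) (nat_lit 3326221903) (nat_lit 532) (nat_lit 2887729776) (nat_lit 608) (nat_lit 16051726997) (nat_lit 222) (nat_lit 5) (nat_lit 229) (nat_lit 5) (nat_lit 230) (nat_lit 5) (nat_lit 416) (nat_lit 374) (nat_lit 230)) (XT.nd (nat_lit 78) (nat_lit 532) (nat_lit 0) (XT.lf (nat_lit 0) (nat_lit 12352760457) (nat_lit 608) (nat_lit 144467616) (nat_lit 76) (nat_lit 10166739005) (nat_lit 222) (nat_lit 5) (nat_lit 230) (nat_lit 5) (nat_lit 223) (nat_lit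 5) (nat_lit 417) (nat_lit 374) (nat_lit 229)) (XT.lf (nat_lit 0) (nat_lit 18814166750) (nat_lit 608) (nat_lit 3640408980) (nat_lit 76) (nat_lit 616861465) (nat_lit 215) (nat_lit 5) (nat_lit 223) (nat_lit 5) (nat_lit 216) (nat_lit 5) (nat_lit 418) (nat_lit 374) (nat_lit 228))))) (XT.nd (nat_lit 234) (nat_lit 988) (nat_lit 0) (XT.nd (nat_lit 78) (nat_lit 988) (nat_lit 0) (XT.lf (nat_lit 0) (nat_lit 2132469643) (nat_lit 532) (nat_lit 7282537864) (nat_lit 76) (nat_lit 14072266038) (nat_lit 208) (nat_lit 5) (nat_lit 215) (nat_lit 5) (nat_lit 209) (nat_lit 5) (nat_lit 419) (nat_lit 374) (nat_lit 227)) (XT.nd (nat_lit 78) (nat_lit 456) (nat_lit 0) (XT.lf (nat_lit 0) (nat_lit 8781208145) (nat_lit 608) (nat_lit 11034060801) (nat_lit 76) (nat_lit 4097251908) (nat_lit 201) (nat_lit 5) (nat_lit 209) (nat_lit 5) (nat_lit 202) (nat_lit 5) (nat_lit 420) (nat_lit 374) (nat_lit 226)) (XT.lf (nat_lit 0) (nat_lit 9440357900)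 (nat_lit 456) (nat_lit 6352411341) (nat_lit 532) (nat_lit 8554490682) (nat_lit 195) (nat_lit 5) (nat_lit 201) (nat_lit 5) (nat_lit 202) (nat_lit 5) (nat_lit 421) (nat_lit 374) (nat_lit 225)))) (XT.nd (nat_lit 78) (nat_lit 532) (nat_lit 0) (XT.lf (nat_lit 0) (nat_lit 5900051872) (nat_lit 456) (nat_lit 17266603905) (nat_lit 532) (nat_lit 1625347319) (nat_lit 189) (nat_lit 5) (nat_lit 195) (nat_lit 5) (nat_lit 196) (nat_lit 5) (nat_lit 422) (nat_lit 374) (nat_lit 224)) (XT.nd (nat_lit 78) (nat_lit 0) (nat_lit 0) (XT.lf (nat_lit 0) (nat_lit 2222966849) (nat_lit 456) (nat_lit 3364772911) (nat_lit 532) (nat_lit 19658667410) (nat_lit 182) (nat_lit 5) (nat_lit 188) (nat_lit 5) (nat_lit 189) (nat_lit 5) (nat_lit 423) (nat_lit 374) (nat_lit 223)) (XT.lf (nat_lit 0) (nat_lit 13185187880) (nat_lit 532) (nat_lit 1579179833) (nat_lit 76) (nat_lit 10946061159) (nat_lit 182) (nat_lit 5) (nat_lit 189) (nat_lit 5) (nat_lit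 183) (nat_lit 5) (nat_lit 424) (nat_lit 374) (nat_lit 222)))))) (XT.nd (nat_lit 49374) (nat_lit 0) (nat_lit 23332) (XT.nd (nat_lit 156) (nat_lit 456) (nat_lit 0) (XT.nd (nat_lit 78) (nat_lit 456) (nat_lit 0) (XT.lf (nat_lit 0) (nat_lit 20744000349) (nat_lit 456) (nat_lit 413975367) (nat_lit 532) (nat_lit 5027448535) (nat_lit 176) (nat_lit 5) (nat_lit 182) (nat_lit 5) (nat_lit 183) (nat_lit 5) (nat_lit 425) (nat_lit 374) (nat_lit 221)) (XT.lf (nat_lit 0) (nat_lit 2867432376) (nat_lit 456) (nat_lit 9487021013) (nat_lit 76) (nat_lit 14315717322) (nat_lit 170) (nat_lit 5) (nat_lit 176) (nat_lit 5) (nat_lit 171) (nat_lit 5) (nat_lit 426) (nat_lit 374) (nat_lit 220))) (XT.nd (nat_lit 49062) (nat_lit 0) (nat_lit 23256) (XT.lf (nat_lit 0) (nat_lit 11065466915) (nat_lit 532) (nat_lit 13663374333) (nat_lit 76) (nat_lit 2437262726) (nat_lit 164) (nat_lit 5) (nat_lit 171) (nat_lit 5) (nat_lit 165) (nat_lit 5)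 (nat_lit 427) (nat_lit 374) (nat_lit 219)) (XT.nd (nat_lit 78) (nat_lit 0) (nat_lit 0) (XT.lf (nat_lit 0) (nat_lit 2452372943) (nat_lit 1748) (nat_lit 1719430515) (nat_lit 1748) (nat_lit 1719430515) (nat_lit 470) (nat_lit 3) (nat_lit 493) (nat_lit 3) (nat_lit 493) (nat_lit 5) (nat_lit 375) (nat_lit 375) (nat_lit 270)) (XT.lf (nat_lit 76) (nat_lit 5224673815) (nat_lit 0) (nat_lit 515952402) (nat_lit 1748) (nat_lit 6203166745) (nat_lit 471) (nat_lit 5) (nat_lit 470) (nat_lit 3) (nat_lit 493) (nat_lit 5) (nat_lit 376) (nat_lit 375) (nat_lit 269))))) (XT.nd (nat_lit 234) (nat_lit 0) (nat_lit 152) (XT.nd (nat_lit 78) (nat_lit 0) (nat_lit 76) (XT.lf (nat_lit 76) (nat_lit 2048043375) (nat_lit 0) (nat_lit 4610858532) (nat_lit 1748) (nat_lit 5449915914) (nat_lit 472) (nat_lit 5) (nat_lit 471) (nat_lit 5) (nat_lit 494) (nat_lit 5) (nat_lit 377) (nat_lit 375) (nat_lit 268)) (XT.nd (nat_lit 78) (nat_lit 0) (nat_lit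 0) (XT.lf (nat_lit 0) (nat_lit 7648872496) (nat_lit 1672) (nat_lit 1149679434) (nat_lit 1748) (nat_lit 3479364848) (nat_lit 472) (nat_lit 5) (nat_lit 494) (nat_lit 5) (nat_lit 495) (nat_lit 5) (nat_lit 378) (nat_lit 375) (nat_lit 267)) (XT.lf (nat_lit 76) (nat_lit 8088703960) (nat_lit 0) (nat_lit 636374058) (nat_lit 1748) (nat_lit 3725886068) (nat_lit 473) (nat_lit 5) (nat_lit 472) (nat_lit 5) (nat_lit 495) (nat_lit 5) (nat_lit 379) (nat_lit 375) (nat_lit 266)))) (XT.nd (nat_lit 78) (nat_lit 0) (nat_lit 76) (XT.lf (nat_lit 76) (nat_lit 4990225775) (nat_lit 0) (nat_lit 4907977389) (nat_lit 1748) (nat_lit 2729712903) (nat_lit 474) (nat_lit 5) (nat_lit 473) (nat_lit 5) (nat_lit 496) (nat_lit 5) (nat_lit 380) (nat_lit 375) (nat_lit 265)) (XT.nd (nat_lit 78) (nat_lit 0) (nat_lit 0) (XT.lf (nat_lit 76) (nat_lit 1854562103) (nat_lit 0) (nat_lit 9295425435) (nat_lit 1748) (nat_lit 1659325509) (nat_lit 475)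 (nat_lit 5) (nat_lit 474) (nat_lit 5) (nat_lit 497) (nat_lit 5) (nat_lit 381) (nat_lit 375) (nat_lit 264)) (XT.lf (nat_lit 76) (nat_lit 11687157332) (nat_lit 0) (nat_lit 811828526) (nat_lit 1748) (nat_lit 495978452) (nat_lit 475) (nat_lit 5) (nat_lit 474) (nat_lit 5) (nat_lit 497) (nat_lit 5) (nat_lit 382) (nat_lit 375) (nat_lit 263))))))))
noncomputable def xc101 : XT := (XT.nd (nat_lit 1716) (nat_lit 10564) (nat_lit 0) (XT.nd (nat_lit 858) (nat_lit 7600) (nat_lit 0) (XT.nd (nat_lit 390) (nat_lit 2812) (nat_lit 0) (XT.nd (nat_lit 156) (nat_lit 0) (nat_lit 76) (XT.nd (nat_lit 78) (nat_lit 0) (nat_lit 76) (XT.lf (nat_lit 0) (nat_lit 777470780) (nat_lit 1748) (nat_lit 4514567284) (nat_lit 1824) (nat_lit 7892372926) (nat_lit 452) (nat_lit 5) (nat_lit 475) (nat_lit 5) (nat_lit 476) (nat_lit 5) (nat_lit 383) (nat_lit 375) (nat_lit 262)) (XT.lf (nat_lit 0) (nat_lit 2132753266) (nat_lit 1748) (nat_lit 7767217862)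 (nat_lit 1824) (nat_lit 3478502170) (nat_lit 453) (nat_lit 5) (nat_lit 476) (nat_lit 5) (nat_lit 477) (nat_lit 5) (nat_lit 384) (nat_lit 375) (nat_lit 261))) (XT.nd (nat_lit 78) (nat_lit 0) (nat_lit 76) (XT.lf (nat_lit 76) (nat_lit 2506067028) (nat_lit 0) (nat_lit 1082224933) (nat_lit 1824) (nat_lit 9988878567) (nat_lit 454) (nat_lit 5) (nat_lit 453) (nat_lit 5) (nat_lit 477) (nat_lit 5) (nat_lit 385) (nat_lit 375) (nat_lit 260)) (XT.nd (nat_lit 78) (nat_lit 0) (nat_lit 76) (XT.lf (nat_lit 0) (nat_lit 5170166627) (nat_lit 1748) (nat_lit 655539107) (nat_lit 1824) (nat_lit 7954474408) (nat_lit 454) (nat_lit 5) (nat_lit 477) (nat_lit 5) (nat_lit 478) (nat_lit 5) (nat_lit 386) (nat_lit 375) (nat_lit 259)) (XT.lf (nat_lit 0) (nat_lit 6872875459) (nat_lit 1748) (nat_lit 3826941690) (nat_lit 1824) (nat_lit 3288000058) (nat_lit 455) (nat_lit 5) (nat_lit 478) (nat_lit 5) (nat_lit 479) (nat_lit 5) (nat_lit 387)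 (nat_lit 375) (nat_lit 258))))) (XT.nd (nat_lit 234) (nat_lit 3040) (nat_lit 0) (XT.nd (nat_lit 78) (nat_lit 0) (nat_lit 76) (XT.lf (nat_lit 76) (nat_lit 7147847489) (nat_lit 0) (nat_lit 1547615344) (nat_lit 1824) (nat_lit 5504849189) (nat_lit 456) (nat_lit 5) (nat_lit 455) (nat_lit 5) (nat_lit 479) (nat_lit 5) (nat_lit 388) (nat_lit 375) (nat_lit 257)) (XT.nd (nat_lit 78) (nat_lit 0) (nat_lit 76) (XT.lf (nat_lit 76) (nat_lit 4071414505) (nat_lit 0) (nat_lit 6584507593) (nat_lit 1824) (nat_lit 3761600147) (nat_lit 457) (nat_lit 5) (nat_lit 456) (nat_lit 5) (nat_lit 480) (nat_lit 5) (nat_lit 389) (nat_lit 375) (nat_lit 256)) (XT.lf (nat_lit 76) (nat_lit 952327803) (nat_lit 0) (nat_lit 11785850533) (nat_lit 1824) (nat_lit 1901815096) (nat_lit 458) (nat_lit 5) (nat_lit 457) (nat_lit 5) (nat_lit 481) (nat_lit 5) (nat_lit 390) (nat_lit 375) (nat_lit 255)))) (XT.nd (nat_lit 78) (nat_lit 1368) (nat_lit 0)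 (XT.lf (nat_lit 0) (nat_lit 108551411) (nat_lit 1824) (nat_lit 2197409174) (nat_lit 1900) (nat_lit 12561281126) (nat_lit 433) (nat_lit 5) (nat_lit 457) (nat_lit 5) (nat_lit 458) (nat_lit 5) (nat_lit 391) (nat_lit 375) (nat_lit 254)) (XT.nd (nat_lit 78) (nat_lit 1444) (nat_lit 0) (XT.lf (nat_lit 0) (nat_lit 2246636038) (nat_lit 1824) (nat_lit 5412530475) (nat_lit 76) (nat_lit 7440028592) (nat_lit 434) (nat_lit 5) (nat_lit 458) (nat_lit 5) (nat_lit 435) (nat_lit 5) (nat_lit 392) (nat_lit 375) (nat_lit 253)) (XT.lf (nat_lit 0) (nat_lit 4518119927) (nat_lit 1520) (nat_lit 8675625174) (nat_lit 76) (nat_lit 2142980739) (nat_lit 415) (nat_lit 5) (nat_lit 435) (nat_lit 5) (nat_lit 416) (nat_lit 5) (nat_lit 393) (nat_lit 375) (nat_lit 252)))))) (XT.nd (nat_lit 390) (nat_lit 3952) (nat_lit 0) (XT.nd (nat_lit 156) (nat_lit 1824) (nat_lit 0) (XT.nd (nat_lit 78) (nat_lit 912) (nat_lit 0) (XT.lf (nat_lit 0) (nat_lit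 3569530915) (nat_lit 912) (nat_lit 3381393937) (nat_lit 988) (nat_lit 8628597880) (nat_lit 403) (nat_lit 5) (nat_lit 415) (nat_lit 5) (nat_lit 416) (nat_lit 5) (nat_lit 394) (nat_lit 375) (nat_lit 251)) (XT.lf (nat_lit 0) (nat_lit 417480982) (nat_lit 912) (nat_lit 9127083900) (nat_lit 988) (nat_lit 6283285284) (nat_lit 391) (nat_lit 5) (nat_lit 403) (nat_lit 5) (nat_lit 404) (nat_lit 5) (nat_lit 395) (nat_lit 375) (nat_lit 250))) (XT.nd (nat_lit 78) (nat_lit 1824) (nat_lit 0) (XT.lf (nat_lit 0) (nat_lit 12309326751) (nat_lit 988) (nat_lit 2745439611) (nat_lit 76) (nat_lit 1026998354) (nat_lit 391) (nat_lit 5) (nat_lit 404) (nat_lit 5) (nat_lit 392) (nat_lit 5) (nat_lit 396) (nat_lit 375) (nat_lit 249)) (XT.nd (nat_lit 78) (nat_lit 912) (nat_lit 0) (XT.lf (nat_lit 0) (nat_lit 10358330101) (nat_lit 912) (nat_lit 4910211351) (nat_lit 988) (nat_lit 1072528496) (nat_lit 379) (nat_lit 5) (nat_lit 391) (nat_lit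 5) (nat_lit 392) (nat_lit 5) (nat_lit 397) (nat_lit 375) (nat_lit 248)) (XT.lf (nat_lit 0) (nat_lit 1772422789) (nat_lit 912) (nat_lit 9289052077) (nat_lit 76) (nat_lit 5544731905) (nat_lit 367) (nat_lit 5) (nat_lit 379) (nat_lit 5) (nat_lit 368) (nat_lit 5) (nat_lit 398) (nat_lit 375) (nat_lit 247))))) (XT.nd (nat_lit 234) (nat_lit 2356) (nat_lit 0) (XT.nd (nat_lit 78) (nat_lit 760) (nat_lit 0) (XT.lf (nat_lit 0) (nat_lit 4218543386) (nat_lit 836) (nat_lit 554604215) (nat_lit 912) (nat_lit 12104311566) (nat_lit 356) (nat_lit 5) (nat_lit 367) (nat_lit 5) (nat_lit 368) (nat_lit 5) (nat_lit 399) (nat_lit 375) (nat_lit 246)) (XT.nd (nat_lit 78) (nat_lit 0) (nat_lit 0) (XT.lf (nat_lit 0) (nat_lit 1033382009) (nat_lit 760) (nat_lit 6951492843) (nat_lit 836) (nat_lit 9169557756) (nat_lit 346) (nat_lit 5) (nat_lit 356) (nat_lit 5) (nat_lit 357) (nat_lit 5) (nat_lit 400) (nat_lit 375) (nat_lit 245)) (XT.lf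 (nat_lit 0) (nat_lit 11392493362) (nat_lit 836) (nat_lit 2173498571) (nat_lit 76) (nat_lit 3871735531) (nat_lit 346) (nat_lit 5) (nat_lit 357) (nat_lit 5) (nat_lit 347) (nat_lit 5) (nat_lit 401) (nat_lit 375) (nat_lit 244)))) (XT.nd (nat_lit 78) (nat_lit 1596) (nat_lit 0) (XT.lf (nat_lit 0) (nat_lit 12291600660) (nat_lit 760) (nat_lit 2722081116) (nat_lit 836) (nat_lit 2713615476) (nat_lit 336) (nat_lit 5) (nat_lit 346) (nat_lit 5) (nat_lit 347) (nat_lit 5) (nat_lit 402) (nat_lit 375) (nat_lit 243)) (XT.nd (nat_lit 78) (nat_lit 760) (nat_lit 0) (XT.lf (nat_lit 0) (nat_lit 824374879) (nat_lit 836) (nat_lit 8782851257) (nat_lit 76) (nat_lit 8415920756) (nat_lit 325) (nat_lit 5) (nat_lit 336) (nat_lit 5) (nat_lit 326) (nat_lit 5) (nat_lit 403) (nat_lit 375) (nat_lit 242)) (XT.lf (nat_lit 0) (nat_lit 4523066233) (nat_lit 836) (nat_lit 12204323071) (nat_lit 76) (nat_lit 1598298095) (nat_lit 315) (nat_lit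 5) (nat_lit 326) (nat_lit 5) (nat_lit 316) (nat_lit 5) (nat_lit 404) (nat_lit 375) (nat_lit 241))))))) (XT.nd (nat_lit 858) (nat_lit 4712) (nat_lit 0) (XT.nd (nat_lit 390) (nat_lit 3040) (nat_lit 0) (XT.nd (nat_lit 156) (nat_lit 2128) (nat_lit 0) (XT.nd (nat_lit 78) (nat_lit 0) (nat_lit 0) (XT.lf (nat_lit 0) (nat_lit 2914800777) (nat_lit 684) (nat_lit 5546919360) (nat_lit 760) (nat_lit 10173006561) (nat_lit 306) (nat_lit 5) (nat_lit 315) (nat_lit 5) (nat_lit 316) (nat_lit 5) (nat_lit 405) (nat_lit 375) (nat_lit 240)) (XT.lf (nat_lit 0) (nat_lit 12626756100) (nat_lit 760) (nat_lit 351745974) (nat_lit 76) (nat_lit 5972373191) (nat_lit 306) (nat_lit 5) (nat_lit 316) (nat_lit 5) (nat_lit 307) (nat_lit 5) (nat_lit 406) (nat_lit 375) (nat_lit 239))) (XT.nd (nat_lit 78) (nat_lit 1444) (nat_lit 0) (XT.lf (nat_lit 0) (nat_lit 15630218878) (nat_lit 684) (nat_lit 1411722012) (nat_lit 760) (nat_lit 2232065908)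 (nat_lit 297) (nat_lit 5) (nat_lit 306) (nat_lit 5) (nat_lit 307) (nat_lit 5) (nat_lit 407) (nat_lit 375) (nat_lit 238)) (XT.nd (nat_lit 78) (nat_lit 684) (nat_lit 0) (XT.lf (nat_lit 0) (nat_lit 2096772108) (nat_lit 760) (nat_lit 7046668319) (nat_lit 76) (nat_lit 10460336182) (nat_lit 287) (nat_lit 5) (nat_lit 297) (nat_lit 5) (nat_lit 288) (nat_lit 5) (nat_lit 408) (nat_lit 375) (nat_lit 237)) (XT.lf (nat_lit 0) (nat_lit 6626332877) (nat_lit 760) (nat_lit 10524764414) (nat_lit 76) (nat_lit 2790025766) (nat_lit 278) (nat_lit 5) (nat_lit 288) (nat_lit 5) (nat_lit 279) (nat_lit 5) (nat_lit 409) (nat_lit 375) (nat_lit 236))))) (XT.nd (nat_lit 234) (nat_lit 1748) (nat_lit 0) (XT.nd (nat_lit 78) (nat_lit 684) (nat_lit 0) (XT.lf (nat_lit 0) (nat_lit 6186686261) (nat_lit 608) (nat_lit 5241839819) (nat_lit 684) (nat_lit 8857331117) (nat_lit 270) (nat_lit 5) (nat_lit 278) (nat_lit 5) (nat_lit 279) (nat_lit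 5) (nat_lit 410) (nat_lit 375) (nat_lit 235)) (XT.nd (nat_lit 78) (nat_lit 76) (nat_lit 0) (XT.lf (nat_lit 0) (nat_lit 2880660461) (nat_lit 608) (nat_lit 13617848369) (nat_lit 684) (nat_lit 4139952202) (nat_lit 262) (nat_lit 5) (nat_lit 270) (nat_lit 5) (nat_lit 271) (nat_lit 5) (nat_lit 411) (nat_lit 375) (nat_lit 234)) (XT.lf (nat_lit 0) (nat_lit 828548762) (nat_lit 684) (nat_lit 492205089) (nat_lit 76) (nat_lit 19678417221) (nat_lit 261) (nat_lit 5) (nat_lit 270) (nat_lit 5) (nat_lit 262) (nat_lit 5) (nat_lit 412) (nat_lit 375) (nat_lit 233)))) (XT.nd (nat_lit 78) (nat_lit 1140) (nat_lit 0) (XT.lf (nat_lit 0) (nat_lit 6066396242) (nat_lit 684) (nat_lit 3964351361) (nat_lit 76) (nat_lit 11335878744) (nat_lit 253) (nat_lit 5) (nat_lit 262) (nat_lit 5) (nat_lit 254) (nat_lit 5) (nat_lit 413) (nat_lit 375) (nat_lit 232)) (XT.nd (nat_lit 78) (nat_lit 532) (nat_lit 0) (XT.lf (nat_lit 0) (nat_lit 11572097439)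 (nat_lit 684) (nat_lit 7501900030) (nat_lit 76) (nat_lit 2668895372) (nat_lit 245) (nat_lit 5) (nat_lit 254) (nat_lit 5) (nat_lit 246) (nat_lit 5) (nat_lit 414) (nat_lit 375) (nat_lit 231)) (XT.lf (nat_lit 0) (nat_lit 10979073037) (nat_lit 532) (nat_lit 6417919491) (nat_lit 608) (nat_lit 4730376214) (nat_lit 238) (nat_lit 5) (nat_lit 245) (nat_lit 5) (nat_lit 246) (nat_lit 5) (nat_lit 415) (nat_lit 375) (nat_lit 230)))))) (XT.nd (nat_lit 390) (nat_lit 2432) (nat_lit 0) (XT.nd (nat_lit 156) (nat_lit 1064) (nat_lit 0) (XT.nd (nat_lit 78) (nat_lit 532) (nat_lit 0) (XT.lf (nat_lit 0) (nat_lit 995239917) (nat_lit 684) (nat_lit 14890100299) (nat_lit 76) (nat_lit 6635258341) (nat_lit 229) (nat_lit 5) (nat_lit 238) (nat_lit 5) (nat_lit 230) (nat_lit 5) (nat_lit 416) (nat_lit 375) (nat_lit 229)) (XT.lf (nat_lit 0) (nat_lit 4166334298) (nat_lit 532) (nat_lit 2797398820) (nat_lit 608) (nat_lit 15958561005) (nat_lit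 222) (nat_lit 5) (nat_lit 229) (nat_lit 5) (nat_lit 230) (nat_lit 5) (nat_lit 417) (nat_lit 375) (nat_lit 228))) (XT.nd (nat_lit 78) (nat_lit 532) (nat_lit 0) (XT.lf (nat_lit 0) (nat_lit 587576065) (nat_lit 532) (nat_lit 12687651895) (nat_lit 608) (nat_lit 10057535334) (nat_lit 215) (nat_lit 5) (nat_lit 222) (nat_lit 5) (nat_lit 223) (nat_lit 5) (nat_lit 418) (nat_lit 375) (nat_lit 227)) (XT.nd (nat_lit 78) (nat_lit 532) (nat_lit 0) (XT.lf (nat_lit 0) (nat_lit 19916521832) (nat_lit 608) (nat_lit 3023122950) (nat_lit 76) (nat_lit 813094303) (nat_lit 215) (nat_lit 5) (nat_lit 223) (nat_lit 5) (nat_lit 216) (nat_lit 5) (nat_lit 419) (nat_lit 375) (nat_lit 226)) (XT.lf (nat_lit 0) (nat_lit 2726914915) (nat_lit 532) (nat_lit 6779173945) (nat_lit 76) (nat_lit 14675114823) (nat_lit 208) (nat_lit 5) (nat_lit 215) (nat_lit 5) (nat_lit 209) (nat_lit 5) (nat_lit 420) (nat_lit 375) (nat_lit 225))))) (XT.nd (nat_lit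 234) (nat_lit 988) (nat_lit 0) (XT.nd (nat_lit 78) (nat_lit 912) (nat_lit 0) (XT.lf (nat_lit 0) (nat_lit 9565512422) (nat_lit 608) (nat_lit 10645721428) (nat_lit 76) (nat_lit 4408168915) (nat_lit 201) (nat_lit 5) (nat_lit 209) (nat_lit 5) (nat_lit 202) (nat_lit 5) (nat_lit 421) (nat_lit 375) (nat_lit 224)) (XT.nd (nat_lit 78) (nat_lit 456) (nat_lit 0) (XT.lf (nat_lit 0) (nat_lit 10431259054) (nat_lit 456) (nat_lit 6345585180) (nat_lit 532) (nat_lit 8290553519) (nat_lit 195) (nat_lit 5) (nat_lit 201) (nat_lit 5) (nat_lit 202) (nat_lit 5) (nat_lit 422) (nat_lit 375) (nat_lit 223)) (XT.lf (nat_lit 0) (nat_lit 6782114747) (nat_lit 456) (nat_lit 17580791785) (nat_lit 532) (nat_lit 1162759664) (nat_lit 189) (nat_lit 5) (nat_lit 195) (nat_lit 5) (nat_lit 196) (nat_lit 5) (nat_lit 423) (nat_lit 375) (nat_lit 222)))) (XT.nd (nat_lit 78) (nat_lit 456) (nat_lit 0) (XT.lf (nat_lit 0) (nat_lit 2989945425) (nat_lit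 456) (nat_lit 3259916624) (nat_lit 532) (nat_lit 19743979029) (nat_lit 182) (nat_lit 5) (nat_lit 188) (nat_lit 5) (nat_lit 189) (nat_lit 5) (nat_lit 424) (nat_lit 375) (nat_lit 221)) (XT.nd (nat_lit 78) (nat_lit 456) (nat_lit 0) (XT.lf (nat_lit 0) (nat_lit 14062128258) (nat_lit 532) (nat_lit 938291451) (nat_lit 76) (nat_lit 11471627826) (nat_lit 182) (nat_lit 5) (nat_lit 189) (nat_lit 5) (nat_lit 183) (nat_lit 5) (nat_lit 425) (nat_lit 375) (nat_lit 220)) (XT.lf (nat_lit 0) (nat_lit 22043417875) (nat_lit 456) (nat_lit 221057105) (nat_lit 532) (nat_lit 4697012227) (nat_lit 176) (nat_lit 5) (nat_lit 182) (nat_lit 5) (nat_lit 183) (nat_lit 5) (nat_lit 426) (nat_lit 375) (nat_lit 219))))))))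
noncomputable def xc102 : XT := (XT.nd (nat_lit 50778) (nat_lit 0) (nat_lit 3952) (XT.nd (nat_lit 49920) (nat_lit 0) (nat_lit 16796) (XT.nd (nat_lit 49452) (nat_lit 0) (nat_lit 21356) (XT.nd (nat_lit 49218) (nat_lit 0) (nat_lit 22800) (XT.nd (nat_lit 49140) (nat_lit 0) (nat_lit 22800) (XT.lf (nat_lit 0) (nat_lit 3420278790) (nat_lit 456) (nat_lit 9091219839) (nat_lit 76) (nat_lit 14949379273) (nat_lit 170) (nat_lit 5) (nat_lit 176) (nat_lit 5) (nat_lit 171) (nat_lit 5) (nat_lit 427) (nat_lit 375) (nat_lit 218)) (XT.lf (nat_lit 0) (nat_lit 3247329524) (nat_lit 1748) (nat_lit 1403024767) (nat_lit 1748) (nat_lit 1403024767) (nat_lit 470) (nat_lit 3) (nat_lit 493) (nat_lit 3) (nat_lit 493) (nat_lit 5) (nat_lit 376) (nat_lit 376) (nat_lit 268))) (XT.nd (nat_lit 78) (nat_lit 0) (nat_lit 76) (XT.lf (nat_lit 76) (nat_lit 6105450998) (nat_lit 0) (nat_lit 1212843269) (nat_lit 1748) (nat_lit 4955384613) (nat_lit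 471) (nat_lit 5) (nat_lit 470) (nat_lit 3) (nat_lit 493) (nat_lit 5) (nat_lit 377) (nat_lit 376) (nat_lit 267)) (XT.nd (nat_lit 78) (nat_lit 0) (nat_lit 76) (XT.lf (nat_lit 76) (nat_lit 2854094072) (nat_lit 0) (nat_lit 5369627919) (nat_lit 1748) (nat_lit 4220749708) (nat_lit 472) (nat_lit 5) (nat_lit 471) (nat_lit 5) (nat_lit 494) (nat_lit 5) (nat_lit 378) (nat_lit 376) (nat_lit 266)) (XT.lf (nat_lit 0) (nat_lit 9199721869) (nat_lit 1672) (nat_lit 430530609) (nat_lit 1748) (nat_lit 2989273560) (nat_lit 472) (nat_lit 5) (nat_lit 494) (nat_lit 5) (nat_lit 495) (nat_lit 5) (nat_lit 379) (nat_lit 376) (nat_lit 265))))) (XT.nd (nat_lit 234) (nat_lit 1596) (nat_lit 0) (XT.nd (nat_lit 78) (nat_lit 0) (nat_lit 76) (XT.lf (nat_lit 76) (nat_lit 9072777386) (nat_lit 0) (nat_lit 1201763022) (nat_lit 1748) (nat_lit 2523906575) (nat_lit 473) (nat_lit 5) (nat_lit 472) (nat_lit 5) (nat_lit 495) (nat_lit 5) (nat_lit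 380) (nat_lit 376) (nat_lit 264)) (XT.nd (nat_lit 78) (nat_lit 0) (nat_lit 76) (XT.lf (nat_lit 76) (nat_lit 5898429164) (nat_lit 0) (nat_lit 5548405070) (nat_lit 1748) (nat_lit 1534602289) (nat_lit 474) (nat_lit 5) (nat_lit 473) (nat_lit 5) (nat_lit 496) (nat_lit 5) (nat_lit 381) (nat_lit 376) (nat_lit 263)) (XT.lf (nat_lit 76) (nat_lit 2684446318) (nat_lit 0) (nat_lit 10017187065) (nat_lit 1748) (nat_lit 467341058) (nat_lit 475) (nat_lit 5) (nat_lit 474) (nat_lit 5) (nat_lit 497) (nat_lit 5) (nat_lit 382) (nat_lit 376) (nat_lit 262)))) (XT.nd (nat_lit 78) (nat_lit 0) (nat_lit 76) (XT.lf (nat_lit 0) (nat_lit 685626899) (nat_lit 1748) (nat_lit 575954465) (nat_lit 1824) (nat_lit 12099240693) (nat_lit 451) (nat_lit 5) (nat_lit 474) (nat_lit 5) (nat_lit 475) (nat_lit 5) (nat_lit 383) (nat_lit 376) (nat_lit 261)) (XT.nd (nat_lit 78) (nat_lit 0) (nat_lit 76) (XT.lf (nat_lit 0) (nat_lit 1958201973) (nat_lit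 1748) (nat_lit 3868607950) (nat_lit 1824) (nat_lit 7729731057) (nat_lit 452) (nat_lit 5) (nat_lit 475) (nat_lit 5) (nat_lit 476) (nat_lit 5) (nat_lit 384) (nat_lit 376) (nat_lit 260)) (XT.lf (nat_lit 0) (nat_lit 3323085931) (nat_lit 1748) (nat_lit 7206357582) (nat_lit 1824) (nat_lit 3227610188) (nat_lit 453) (nat_lit 5) (nat_lit 476) (nat_lit 5) (nat_lit 477) (nat_lit 5) (nat_lit 385) (nat_lit 376) (nat_lit 259)))))) (XT.nd (nat_lit 390) (nat_lit 4712) (nat_lit 0) (XT.nd (nat_lit 156) (nat_lit 0) (nat_lit 152) (XT.nd (nat_lit 78) (nat_lit 0) (nat_lit 76) (XT.lf (nat_lit 76) (nat_lit 3362246147) (nat_lit 0) (nat_lit 1432309079) (nat_lit 1824) (nat_lit 9167718521) (nat_lit 454) (nat_lit 5) (nat_lit 453) (nat_lit 5) (nat_lit 477) (nat_lit 5) (nat_lit 386) (nat_lit 376) (nat_lit 258)) (XT.lf (nat_lit 76) (nat_lit 108028216) (nat_lit 0) (nat_lit 6282558707) (nat_lit 1824) (nat_lit 7781459690) (nat_lit 455)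 (nat_lit 5) (nat_lit 454) (nat_lit 5) (nat_lit 478) (nat_lit 5) (nat_lit 387) (nat_lit 376) (nat_lit 257))) (XT.nd (nat_lit 78) (nat_lit 0) (nat_lit 0) (XT.lf (nat_lit 0) (nat_lit 8115911619) (nat_lit 1748) (nat_lit 3149869902) (nat_lit 1824) (nat_lit 3120707352) (nat_lit 455) (nat_lit 5) (nat_lit 478) (nat_lit 5) (nat_lit 479) (nat_lit 5) (nat_lit 388) (nat_lit 376) (nat_lit 256)) (XT.nd (nat_lit 78) (nat_lit 0) (nat_lit 76) (XT.lf (nat_lit 76) (nat_lit 8141315640) (nat_lit 0) (nat_lit 1826719459) (nat_lit 1824) (nat_lit 4637832841) (nat_lit 456) (nat_lit 5) (nat_lit 455) (nat_lit 5) (nat_lit 479) (nat_lit 5) (nat_lit 389) (nat_lit 376) (nat_lit 255)) (XT.lf (nat_lit 76) (nat_lit 4981558571) (nat_lit 0) (nat_lit 6979931883) (nat_lit 1824) (nat_lit 2868626758) (nat_lit 457) (nat_lit 5) (nat_lit 456) (nat_lit 5) (nat_lit 480) (nat_lit 5) (nat_lit 390) (nat_lit 376) (nat_lit 254))))) (XT.nd (nat_lit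 234) (nat_lit 3192) (nat_lit 0) (XT.nd (nat_lit 78) (nat_lit 1824) (nat_lit 0) (XT.lf (nat_lit 76) (nat_lit 1776986209) (nat_lit 0) (nat_lit 12304434236) (nat_lit 1824) (nat_lit 978344167) (nat_lit 458) (nat_lit 5) (nat_lit 457) (nat_lit 5) (nat_lit 481) (nat_lit 5) (nat_lit 391) (nat_lit 376) (nat_lit 253)) (XT.nd (nat_lit 78) (nat_lit 0) (nat_lit 76) (XT.lf (nat_lit 0) (nat_lit 1051289133) (nat_lit 1824) (nat_lit 1477747980) (nat_lit 1900) (nat_lit 12765235493) (nat_lit 433) (nat_lit 5) (nat_lit 457) (nat_lit 5) (nat_lit 458) (nat_lit 5) (nat_lit 392) (nat_lit 376) (nat_lit 252)) (XT.lf (nat_lit 0) (nat_lit 3230233675) (nat_lit 1824) (nat_lit 4782597495) (nat_lit 76) (nat_lit 7520824814) (nat_lit 434) (nat_lit 5) (nat_lit 458) (nat_lit 5) (nat_lit 435) (nat_lit 5) (nat_lit 393) (nat_lit 376) (nat_lit 251)))) (XT.nd (nat_lit 78) (nat_lit 1824) (nat_lit 0) (XT.lf (nat_lit 0) (nat_lit 5547489992) (nat_lit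 1520) (nat_lit 8137614959) (nat_lit 76) (nat_lit 2093660697) (nat_lit 415) (nat_lit 5) (nat_lit 435) (nat_lit 5) (nat_lit 416) (nat_lit 5) (nat_lit 394) (nat_lit 376) (nat_lit 250)) (XT.nd (nat_lit 78) (nat_lit 912) (nat_lit 0) (XT.lf (nat_lit 0) (nat_lit 4461944685) (nat_lit 912) (nat_lit 3570399468) (nat_lit 988) (nat_lit 7996926392) (nat_lit 403) (nat_lit 5) (nat_lit 415) (nat_lit 5) (nat_lit 416) (nat_lit 5) (nat_lit 395) (nat_lit 376) (nat_lit 249)) (XT.lf (nat_lit 0) (nat_lit 1220503257) (nat_lit 912) (nat_lit 9462446575) (nat_lit 988) (nat_lit 5602520085) (nat_lit 391) (nat_lit 5) (nat_lit 403) (nat_lit 5) (nat_lit 404) (nat_lit 5) (nat_lit 396) (nat_lit 376) (nat_lit 248))))))) (XT.nd (nat_lit 858) (nat_lit 5700) (nat_lit 0) (XT.nd (nat_lit 390) (nat_lit 3724) (nat_lit 0) (XT.nd (nat_lit 156) (nat_lit 2508) (nat_lit 0) (XT.nd (nat_lit 78) (nat_lit 912) (nat_lit 0) (XT.lf (nat_lit 0) (nat_lit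 13505449640) (nat_lit 988) (nat_lit 2043226854) (nat_lit 76) (nat_lit 998834600) (nat_lit 391) (nat_lit 5) (nat_lit 404) (nat_lit 5) (nat_lit 392) (nat_lit 5) (nat_lit 397) (nat_lit 376) (nat_lit 247)) (XT.lf (nat_lit 0) (nat_lit 11440927137) (nat_lit 912) (nat_lit 5093442181) (nat_lit 988) (nat_lit 280612536) (nat_lit 379) (nat_lit 5) (nat_lit 391) (nat_lit 5) (nat_lit 392) (nat_lit 5) (nat_lit 398) (nat_lit 376) (nat_lit 246))) (XT.nd (nat_lit 78) (nat_lit 1596) (nat_lit 0) (XT.lf (nat_lit 0) (nat_lit 2620032470) (nat_lit 912) (nat_lit 8781399457) (nat_lit 76) (nat_lit 5686915483) (nat_lit 367) (nat_lit 5) (nat_lit 379) (nat_lit 5) (nat_lit 368) (nat_lit 5) (nat_lit 399) (nat_lit 376) (nat_lit 245)) (XT.nd (nat_lit 78) (nat_lit 760) (nat_lit 0) (XT.lf (nat_lit 0) (nat_lit 5118666695) (nat_lit 836) (nat_lit 573995900) (nat_lit 912) (nat_lit 11675441678) (nat_lit 356) (nat_lit 5) (nat_lit 367) (nat_lit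 5) (nat_lit 368) (nat_lit 5) (nat_lit 400) (nat_lit 376) (nat_lit 244)) (XT.lf (nat_lit 0) (nat_lit 1840842160) (nat_lit 760) (nat_lit 7142312153) (nat_lit 836) (nat_lit 8670588786) (nat_lit 346) (nat_lit 5) (nat_lit 356) (nat_lit 5) (nat_lit 357) (nat_lit 5) (nat_lit 401) (nat_lit 376) (nat_lit 243))))) (XT.nd (nat_lit 234) (nat_lit 2128) (nat_lit 0) (XT.nd (nat_lit 78) (nat_lit 1596) (nat_lit 0) (XT.lf (nat_lit 0) (nat_lit 12471014085) (nat_lit 836) (nat_lit 1470095672) (nat_lit 76) (nat_lit 4004871095) (nat_lit 346) (nat_lit 5) (nat_lit 357) (nat_lit 5) (nat_lit 347) (nat_lit 5) (nat_lit 402) (nat_lit 376) (nat_lit 242)) (XT.nd (nat_lit 78) (nat_lit 836) (nat_lit 0) (XT.lf (nat_lit 0) (nat_lit 13416486786) (nat_lit 760) (nat_lit 2767802096) (nat_lit 836) (nat_lit 2060284016) (nat_lit 336) (nat_lit 5) (nat_lit 346) (nat_lit 5) (nat_lit 347) (nat_lit 5) (nat_lit 403) (nat_lit 376) (nat_lit 241)) (XT.lf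 (nat_lit 0) (nat_lit 1558272032) (nat_lit 836) (nat_lit 8278831310) (nat_lit 76) (nat_lit 8712422013) (nat_lit 325) (nat_lit 5) (nat_lit 336) (nat_lit 5) (nat_lit 326) (nat_lit 5) (nat_lit 404) (nat_lit 376) (nat_lit 240)))) (XT.nd (nat_lit 78) (nat_lit 1368) (nat_lit 0) (XT.lf (nat_lit 0) (nat_lit 5352571331) (nat_lit 836) (nat_lit 11801802334) (nat_lit 76) (nat_lit 1707079331) (nat_lit 315) (nat_lit 5) (nat_lit 326) (nat_lit 5) (nat_lit 316) (nat_lit 5) (nat_lit 405) (nat_lit 376) (nat_lit 239)) (XT.nd (nat_lit 78) (nat_lit 684) (nat_lit 0) (XT.lf (nat_lit 0) (nat_lit 3758424789) (nat_lit 684) (nat_lit 5635661535) (nat_lit 760) (nat_lit 9785986870) (nat_lit 306) (nat_lit 5) (nat_lit 315) (nat_lit 5) (nat_lit 316) (nat_lit 5) (nat_lit 406) (nat_lit 376) (nat_lit 238)) (XT.lf (nat_lit 0) (nat_lit 389775798) (nat_lit 684) (nat_lit 13277555258) (nat_lit 760) (nat_lit 5838713650) (nat_lit 297) (nat_lit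 5) (nat_lit 306) (nat_lit 5) (nat_lit 307) (nat_lit 5) (nat_lit 407) (nat_lit 376) (nat_lit 237)))))) (XT.nd (nat_lit 390) (nat_lit 3040) (nat_lit 0) (XT.nd (nat_lit 156) (nat_lit 1900) (nat_lit 0) (XT.nd (nat_lit 78) (nat_lit 760) (nat_lit 0) (XT.lf (nat_lit 0) (nat_lit 16833969043) (nat_lit 684) (nat_lit 1364041545) (nat_lit 760) (nat_lit 1641202347) (nat_lit 297) (nat_lit 5) (nat_lit 306) (nat_lit 5) (nat_lit 307) (nat_lit 5) (nat_lit 408) (nat_lit 376) (nat_lit 236)) (XT.lf (nat_lit 0) (nat_lit 2795340596) (nat_lit 760) (nat_lit 6514359052) (nat_lit 76) (nat_lit 10869364790) (nat_lit 287) (nat_lit 5) (nat_lit 297) (nat_lit 5) (nat_lit 288) (nat_lit 5) (nat_lit 409) (nat_lit 376) (nat_lit 235))) (XT.nd (nat_lit 78) (nat_lit 1216) (nat_lit 0) (XT.lf (nat_lit 0) (nat_lit 7447736501) (nat_lit 760) (nat_lit 10097029434) (nat_lit 76) (nat_lit 2982029647) (nat_lit 278) (nat_lit 5) (nat_lit 288) (nat_lit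 5) (nat_lit 279) (nat_lit 5) (nat_lit 410) (nat_lit 376) (nat_lit 234)) (XT.nd (nat_lit 78) (nat_lit 608) (nat_lit 0) (XT.lf (nat_lit 0) (nat_lit 7103702716) (nat_lit 608) (nat_lit 5276907243) (nat_lit 684) (nat_lit 8501532670) (nat_lit 270) (nat_lit 5) (nat_lit 278) (nat_lit 5) (nat_lit 279) (nat_lit 5) (nat_lit 411) (nat_lit 376) (nat_lit 233)) (XT.lf (nat_lit 0) (nat_lit 3697940224) (nat_lit 608) (nat_lit 13892522905) (nat_lit 684) (nat_lit 3655109111) (nat_lit 262) (nat_lit 5) (nat_lit 270) (nat_lit 5) (nat_lit 271) (nat_lit 5) (nat_lit 412) (nat_lit 376) (nat_lit 232))))) (XT.nd (nat_lit 234) (nat_lit 1748) (nat_lit 0) (XT.nd (nat_lit 78) (nat_lit 608) (nat_lit 0) (XT.lf (nat_lit 0) (nat_lit 213251090) (nat_lit 608) (nat_lit 1225086242) (nat_lit 684) (nat_lit 20179012529) (nat_lit 253) (nat_lit 5) (nat_lit 261) (nat_lit 5) (nat_lit 262) (nat_lit 5) (nat_lit 413) (nat_lit 376) (nat_lit 231)) (XT.nd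 (nat_lit 78) (nat_lit 608) (nat_lit 0) (XT.lf (nat_lit 0) (nat_lit 6820395826) (nat_lit 684) (nat_lit 3366852504) (nat_lit 76) (nat_lit 11808841800) (nat_lit 253) (nat_lit 5) (nat_lit 262) (nat_lit 5) (nat_lit 254) (nat_lit 5) (nat_lit 414) (nat_lit 376) (nat_lit 230)) (XT.lf (nat_lit 0) (nat_lit 12480124385) (nat_lit 684) (nat_lit 7011800966) (nat_lit 76) (nat_lit 2891944904) (nat_lit 245) (nat_lit 5) (nat_lit 254) (nat_lit 5) (nat_lit 246) (nat_lit 5) (nat_lit 415) (nat_lit 376) (nat_lit 229)))) (XT.nd (nat_lit 78) (nat_lit 1216) (nat_lit 0) (XT.lf (nat_lit 0) (nat_lit 12011998735) (nat_lit 532) (nat_lit 6455999682) (nat_lit 608) (nat_lit 4312120056) (nat_lit 238) (nat_lit 5) (nat_lit 245) (nat_lit 5) (nat_lit 246) (nat_lit 5) (nat_lit 416) (nat_lit 376) (nat_lit 228)) (XT.nd (nat_lit 78) (nat_lit 532) (nat_lit 0) (XT.lf (nat_lit 0) (nat_lit 1567384690) (nat_lit 684) (nat_lit 14627467160) (nat_lit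 76) (nat_lit 6990433810) (nat_lit 229) (nat_lit 5) (nat_lit 238) (nat_lit 5) (nat_lit 230) (nat_lit 5) (nat_lit 417) (nat_lit 376) (nat_lit 227)) (XT.lf (nat_lit 0) (nat_lit 4989152339) (nat_lit 532) (nat_lit 2714516326) (nat_lit 608) (nat_lit 15895591186) (nat_lit 222) (nat_lit 5) (nat_lit 229) (nat_lit 5) (nat_lit 230) (nat_lit 5) (nat_lit 418) (nat_lit 376) (nat_lit 226))))))))
noncomputable def xc103 : XT := (XT.nd (nat_lit 50856) (nat_lit 0) (nat_lit 7752) (XT.nd (nat_lit 49998) (nat_lit 0) (nat_lit 20900) (XT.nd (nat_lit 390) (nat_lit 1444) (nat_lit 0) (XT.nd (nat_lit 156) (nat_lit 1520) (nat_lit 0) (XT.nd (nat_lit 78) (nat_lit 0) (nat_lit 0) (XT.lf (nat_lit 0) (nat_lit 1301173945) (nat_lit 532) (nat_lit 12893437867) (nat_lit 608) (nat_lit 9827631624) (nat_lit 215) (nat_lit 5) (nat_lit 222) (nat_lit 5) (nat_lit 223) (nat_lit 5) (nat_lit 419) (nat_lit 376) (nat_lit 225)) (XT.lf (nat_lit 0) (nat_lit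 21021068179) (nat_lit 608) (nat_lit 2429022314) (nat_lit 76) (nat_lit 1005011870) (nat_lit 215) (nat_lit 5) (nat_lit 223) (nat_lit 5) (nat_lit 216) (nat_lit 5) (nat_lit 420) (nat_lit 376) (nat_lit 224))) (XT.nd (nat_lit 78) (nat_lit 988) (nat_lit 0) (XT.lf (nat_lit 0) (nat_lit 3308742329) (nat_lit 532) (nat_lit 6302145681) (nat_lit 76) (nat_lit 15285677255) (nat_lit 208) (nat_lit 5) (nat_lit 215) (nat_lit 5) (nat_lit 209) (nat_lit 5) (nat_lit 421) (nat_lit 376) (nat_lit 223)) (XT.nd (nat_lit 78) (nat_lit 456) (nat_lit 0) (XT.lf (nat_lit 0) (nat_lit 10343445871) (nat_lit 608) (nat_lit 10287026149) (nat_lit 76) (nat_lit 4717621495) (nat_lit 201) (nat_lit 5) (nat_lit 209) (nat_lit 5) (nat_lit 202) (nat_lit 5) (nat_lit 422) (nat_lit 376) (nat_lit 222)) (XT.lf (nat_lit 0) (nat_lit 11411262917) (nat_lit 456) (nat_lit 6349885715) (nat_lit 532) (nat_lit 8048581197) (nat_lit 195) (nat_lit 5) (nat_lit 201) (nat_lit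 5) (nat_lit 202) (nat_lit 5) (nat_lit 423) (nat_lit 376) (nat_lit 221))))) (XT.nd (nat_lit 234) (nat_lit 456) (nat_lit 0) (XT.nd (nat_lit 78) (nat_lit 532) (nat_lit 0) (XT.lf (nat_lit 0) (nat_lit 7650166105) (nat_lit 456) (nat_lit 17916104842) (nat_lit 532) (nat_lit 715647851) (nat_lit 189) (nat_lit 5) (nat_lit 195) (nat_lit 5) (nat_lit 196) (nat_lit 5) (nat_lit 424) (nat_lit 376) (nat_lit 220)) (XT.nd (nat_lit 78) (nat_lit 0) (nat_lit 0) (XT.lf (nat_lit 0) (nat_lit 3739733872) (nat_lit 456) (nat_lit 3163728380) (nat_lit 532) (nat_lit 19860807398) (nat_lit 182) (nat_lit 5) (nat_lit 188) (nat_lit 5) (nat_lit 189) (nat_lit 5) (nat_lit 425) (nat_lit 376) (nat_lit 219)) (XT.lf (nat_lit 0) (nat_lit 14937743393) (nat_lit 532) (nat_lit 317685573) (nat_lit 76) (nat_lit 12001642277) (nat_lit 182) (nat_lit 5) (nat_lit 189) (nat_lit 5) (nat_lit 183) (nat_lit 5) (nat_lit 426) (nat_lit 376) (nat_lit 218)))) (XT.nd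 (nat_lit 49218) (nat_lit 0) (nat_lit 22344) (XT.lf (nat_lit 0) (nat_lit 23342949759) (nat_lit 456) (nat_lit 34138509) (nat_lit 532) (nat_lit 4384289108) (nat_lit 176) (nat_lit 5) (nat_lit 182) (nat_lit 5) (nat_lit 183) (nat_lit 5) (nat_lit 427) (nat_lit 376) (nat_lit 217)) (XT.nd (nat_lit 78) (nat_lit 0) (nat_lit 0) (XT.lf (nat_lit 0) (nat_lit 4024724330) (nat_lit 1748) (nat_lit 1098250901) (nat_lit 1748) (nat_lit 1098250901) (nat_lit 470) (nat_lit 3) (nat_lit 493) (nat_lit 3) (nat_lit 493) (nat_lit 5) (nat_lit 377) (nat_lit 377) (nat_lit 266)) (XT.lf (nat_lit 76) (nat_lit 6971088813) (nat_lit 0) (nat_lit 1891525009) (nat_lit 1748) (nat_lit 3752479431) (nat_lit 471) (nat_lit 5) (nat_lit 470) (nat_lit 3) (nat_lit 493) (nat_lit 5) (nat_lit 378) (nat_lit 377) (nat_lit 265)))))) (XT.nd (nat_lit 390) (nat_lit 0) (nat_lit 0) (XT.nd (nat_lit 156) (nat_lit 1520) (nat_lit 0) (XT.nd (nat_lit 78) (nat_lit 0)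 (nat_lit 76) (XT.lf (nat_lit 76) (nat_lit 3641582663) (nat_lit 0) (nat_lit 6115544385) (nat_lit 1748) (nat_lit 3034653109) (nat_lit 472) (nat_lit 5) (nat_lit 471) (nat_lit 5) (nat_lit 494) (nat_lit 5) (nat_lit 379) (nat_lit 377) (nat_lit 264)) (XT.lf (nat_lit 76) (nat_lit 270478075) (nat_lit 0) (nat_lit 10452521970) (nat_lit 1748) (nat_lit 2249882718) (nat_lit 473) (nat_lit 5) (nat_lit 472) (nat_lit 5) (nat_lit 495) (nat_lit 5) (nat_lit 380) (nat_lit 377) (nat_lit 263))) (XT.nd (nat_lit 78) (nat_lit 1596) (nat_lit 0) (XT.lf (nat_lit 76) (nat_lit 10043812915) (nat_lit 0) (nat_lit 1752753929) (nat_lit 1748) (nat_lit 1361282670) (nat_lit 473) (nat_lit 5) (nat_lit 472) (nat_lit 5) (nat_lit 495) (nat_lit 5) (nat_lit 381) (nat_lit 377) (nat_lit 262)) (XT.nd (nat_lit 78) (nat_lit 1672) (nat_lit 0) (XT.lf (nat_lit 76) (nat_lit 6790337847) (nat_lit 0) (nat_lit 6179734552) (nat_lit 1748) (nat_lit 376943496)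 (nat_lit 474) (nat_lit 5) (nat_lit 473) (nat_lit 5) (nat_lit 496) (nat_lit 5) (nat_lit 382) (nat_lit 377) (nat_lit 261)) (XT.lf (nat_lit 0) (nat_lit 680082639) (nat_lit 1748) (nat_lit 10050530985) (nat_lit 1824) (nat_lit 2810135741) (nat_lit 451) (nat_lit 5) (nat_lit 474) (nat_lit 5) (nat_lit 475) (nat_lit 5) (nat_lit 383) (nat_lit 377) (nat_lit 260))))) (XT.nd (nat_lit 234) (nat_lit 0) (nat_lit 152) (XT.nd (nat_lit 78) (nat_lit 0) (nat_lit 76) (XT.lf (nat_lit 76) (nat_lit 132197456) (nat_lit 0) (nat_lit 1696342767) (nat_lit 1824) (nat_lit 11910412811) (nat_lit 452) (nat_lit 5) (nat_lit 451) (nat_lit 5) (nat_lit 475) (nat_lit 5) (nat_lit 384) (nat_lit 377) (nat_lit 259)) (XT.nd (nat_lit 78) (nat_lit 0) (nat_lit 76) (XT.lf (nat_lit 0) (nat_lit 3107915202) (nat_lit 1748) (nat_lit 3248125183) (nat_lit 1824) (nat_lit 7585137875) (nat_lit 452) (nat_lit 5) (nat_lit 475) (nat_lit 5) (nat_lit 476) (nat_lit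 5) (nat_lit 385) (nat_lit 377) (nat_lit 258)) (XT.lf (nat_lit 0) (nat_lit 4484471475) (nat_lit 1748) (nat_lit 6674243269) (nat_lit 1824) (nat_lit 2989584080) (nat_lit 453) (nat_lit 5) (nat_lit 476) (nat_lit 5) (nat_lit 477) (nat_lit 5) (nat_lit 386) (nat_lit 377) (nat_lit 257)))) (XT.nd (nat_lit 78) (nat_lit 0) (nat_lit 76) (XT.lf (nat_lit 76) (nat_lit 4199278211) (nat_lit 0) (nat_lit 1774663211) (nat_lit 1824) (nat_lit 8386263695) (nat_lit 454) (nat_lit 5) (nat_lit 453) (nat_lit 5) (nat_lit 477) (nat_lit 5) (nat_lit 387) (nat_lit 377) (nat_lit 256)) (XT.nd (nat_lit 78) (nat_lit 0) (nat_lit 76) (XT.lf (nat_lit 76) (nat_lit 857999781) (nat_lit 0) (nat_lit 6732653733) (nat_lit 1824) (nat_lit 6986168244) (nat_lit 455) (nat_lit 5) (nat_lit 454) (nat_lit 5) (nat_lit 478) (nat_lit 5) (nat_lit 388) (nat_lit 377) (nat_lit 255)) (XT.lf (nat_lit 0) (nat_lit 9336719438) (nat_lit 1748) (nat_lit 2497943113) (nat_lit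 1824) (nat_lit 2963661491) (nat_lit 455) (nat_lit 5) (nat_lit 478) (nat_lit 5) (nat_lit 479) (nat_lit 5) (nat_lit 389) (nat_lit 377) (nat_lit 254))))))) (XT.nd (nat_lit 858) (nat_lit 6764) (nat_lit 0) (XT.nd (nat_lit 390) (nat_lit 5016) (nat_lit 0) (XT.nd (nat_lit 156) (nat_lit 1672) (nat_lit 0) (XT.nd (nat_lit 78) (nat_lit 0) (nat_lit 76) (XT.lf (nat_lit 76) (nat_lit 9119868170) (nat_lit 0) (nat_lit 2100840164) (nat_lit 1824) (nat_lit 3804056314) (nat_lit 456) (nat_lit 5) (nat_lit 455) (nat_lit 5) (nat_lit 479) (nat_lit 5) (nat_lit 390) (nat_lit 377) (nat_lit 253)) (XT.lf (nat_lit 76) (nat_lit 5873772441) (nat_lit 0) (nat_lit 7375859259) (nat_lit 1824) (nat_lit 2006602429) (nat_lit 457) (nat_lit 5) (nat_lit 456) (nat_lit 5) (nat_lit 480) (nat_lit 5) (nat_lit 391) (nat_lit 377) (nat_lit 252))) (XT.nd (nat_lit 78) (nat_lit 1824) (nat_lit 0) (XT.lf (nat_lit 76) (nat_lit 2580685627) (nat_lit 0) (nat_lit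 12829103306) (nat_lit 1824) (nat_lit 83455278) (nat_lit 458) (nat_lit 5) (nat_lit 457) (nat_lit 5) (nat_lit 481) (nat_lit 5) (nat_lit 392) (nat_lit 377) (nat_lit 251)) (XT.nd (nat_lit 78) (nat_lit 0) (nat_lit 76) (XT.lf (nat_lit 0) (nat_lit 1968378924) (nat_lit 1824) (nat_lit 781592655) (nat_lit 1900) (nat_lit 12985232744) (nat_lit 433) (nat_lit 5) (nat_lit 457) (nat_lit 5) (nat_lit 458) (nat_lit 5) (nat_lit 393) (nat_lit 377) (nat_lit 250)) (XT.lf (nat_lit 0) (nat_lit 4190745697) (nat_lit 1824) (nat_lit 4179248298) (nat_lit 76) (nat_lit 7612219531) (nat_lit 434) (nat_lit 5) (nat_lit 458) (nat_lit 5) (nat_lit 435) (nat_lit 5) (nat_lit 394) (nat_lit 377) (nat_lit 249))))) (XT.nd (nat_lit 234) (nat_lit 1824) (nat_lit 0) (XT.nd (nat_lit 78) (nat_lit 1824) (nat_lit 0) (XT.lf (nat_lit 0) (nat_lit 6556431864) (nat_lit 1520) (nat_lit 7629288915) (nat_lit 76) (nat_lit 2049382701) (nat_lit 415) (nat_lit 5)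 (nat_lit 435) (nat_lit 5) (nat_lit 416) (nat_lit 5) (nat_lit 395) (nat_lit 377) (nat_lit 248)) (XT.nd (nat_lit 78) (nat_lit 912) (nat_lit 0) (XT.lf (nat_lit 0) (nat_lit 5336049838) (nat_lit 912) (nat_lit 3760048650) (nat_lit 988) (nat_lit 7397424791) (nat_lit 403) (nat_lit 5) (nat_lit 415) (nat_lit 5) (nat_lit 416) (nat_lit 5) (nat_lit 396) (nat_lit 377) (nat_lit 247)) (XT.lf (nat_lit 0) (nat_lit 2002238390) (nat_lit 912) (nat_lit 9804336899) (nat_lit 988) (nat_lit 4951231225) (nat_lit 391) (nat_lit 5) (nat_lit 403) (nat_lit 5) (nat_lit 404) (nat_lit 5) (nat_lit 397) (nat_lit 377) (nat_lit 246)))) (XT.nd (nat_lit 78) (nat_lit 1824) (nat_lit 0) (XT.lf (nat_lit 0) (nat_lit 14689992040) (nat_lit 988) (nat_lit 1364985582) (nat_lit 76) (nat_lit 973211264) (nat_lit 391) (nat_lit 5) (nat_lit 404) (nat_lit 5) (nat_lit 392) (nat_lit 5) (nat_lit 398) (nat_lit 377) (nat_lit 245)) (XT.nd (nat_lit 78) (nat_lit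 836) (nat_lit 0) (XT.lf (nat_lit 0) (nat_lit 481357670) (nat_lit 988) (nat_lit 4795519889) (nat_lit 76) (nat_lit 12027107068) (nat_lit 378) (nat_lit 5) (nat_lit 391) (nat_lit 5) (nat_lit 379) (nat_lit 5) (nat_lit 399) (nat_lit 377) (nat_lit 244)) (XT.lf (nat_lit 0) (nat_lit 3447466509) (nat_lit 912) (nat_lit 8303655482) (nat_lit 76) (nat_lit 5834751358) (nat_lit 367) (nat_lit 5) (nat_lit 379) (nat_lit 5) (nat_lit 368) (nat_lit 5) (nat_lit 400) (nat_lit 377) (nat_lit 243)))))) (XT.nd (nat_lit 390) (nat_lit 3572) (nat_lit 0) (XT.nd (nat_lit 156) (nat_lit 1596) (nat_lit 0) (XT.nd (nat_lit 78) (nat_lit 760) (nat_lit 0) (XT.lf (nat_lit 0) (nat_lit 6001387793) (nat_lit 836) (nat_lit 593811270) (nat_lit 912) (nat_lit 11279169690) (nat_lit 356) (nat_lit 5) (nat_lit 367) (nat_lit 5) (nat_lit 368) (nat_lit 5) (nat_lit 401) (nat_lit 377) (nat_lit 242)) (XT.lf (nat_lit 0) (nat_lit 2627954210) (nat_lit 760) (nat_lit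 7339873557) (nat_lit 836) (nat_lit 8201084712) (nat_lit 346) (nat_lit 5) (nat_lit 356) (nat_lit 5) (nat_lit 357) (nat_lit 5) (nat_lit 402) (nat_lit 377) (nat_lit 241))) (XT.nd (nat_lit 78) (nat_lit 1596) (nat_lit 0) (XT.lf (nat_lit 0) (nat_lit 13539598201) (nat_lit 836) (nat_lit 789711922) (nat_lit 76) (nat_lit 4141025803) (nat_lit 346) (nat_lit 5) (nat_lit 357) (nat_lit 5) (nat_lit 347) (nat_lit 5) (nat_lit 403) (nat_lit 377) (nat_lit 240)) (XT.nd (nat_lit 78) (nat_lit 836) (nat_lit 0) (XT.lf (nat_lit 0) (nat_lit 14531714076) (nat_lit 760) (nat_lit 2816957893) (nat_lit 836) (nat_lit 1429529690) (nat_lit 336) (nat_lit 5) (nat_lit 346) (nat_lit 5) (nat_lit 347) (nat_lit 5) (nat_lit 404) (nat_lit 377) (nat_lit 239)) (XT.lf (nat_lit 0) (nat_lit 2273477075) (nat_lit 836) (nat_lit 7803748719) (nat_lit 76) (nat_lit 9015291171) (nat_lit 325) (nat_lit 5) (nat_lit 336) (nat_lit 5) (nat_lit 326) (nat_lit 5)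 (nat_lit 405) (nat_lit 377) (nat_lit 238))))) (XT.nd (nat_lit 234) (nat_lit 1444) (nat_lit 0) (XT.nd (nat_lit 78) (nat_lit 1368) (nat_lit 0) (XT.lf (nat_lit 0) (nat_lit 6167133870) (nat_lit 836) (nat_lit 11431329655) (nat_lit 76) (nat_lit 1815631981) (nat_lit 315) (nat_lit 5) (nat_lit 326) (nat_lit 5) (nat_lit 316) (nat_lit 5) (nat_lit 406) (nat_lit 377) (nat_lit 237)) (XT.nd (nat_lit 78) (nat_lit 684) (nat_lit 0) (XT.lf (nat_lit 0) (nat_lit 4583949697) (nat_lit 684) (nat_lit 5731524288) (nat_lit 760) (nat_lit 9427092268) (nat_lit 306) (nat_lit 5) (nat_lit 315) (nat_lit 5) (nat_lit 316) (nat_lit 5) (nat_lit 407) (nat_lit 377) (nat_lit 236)) (XT.lf (nat_lit 0) (nat_lit 1114909459) (nat_lit 684) (nat_lit 13588472084) (nat_lit 760) (nat_lit 5375209489) (nat_lit 297) (nat_lit 5) (nat_lit 306) (nat_lit 5) (nat_lit 307) (nat_lit 5) (nat_lit 408) (nat_lit 377) (nat_lit 235)))) (XT.nd (nat_lit 78) (nat_lit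 1444) (nat_lit 0) (XT.lf (nat_lit 0) (nat_lit 18031648684) (nat_lit 684) (nat_lit 1320098876) (nat_lit 760) (nat_lit 1070374757) (nat_lit 297) (nat_lit 5) (nat_lit 306) (nat_lit 5) (nat_lit 307) (nat_lit 5) (nat_lit 409) (nat_lit 377) (nat_lit 234)) (XT.nd (nat_lit 78) (nat_lit 684) (nat_lit 0) (XT.lf (nat_lit 0) (nat_lit 3478376350) (nat_lit 760) (nat_lit 6008772464) (nat_lit 76) (nat_lit 11285198325) (nat_lit 287) (nat_lit 5) (nat_lit 297) (nat_lit 5) (nat_lit 288) (nat_lit 5) (nat_lit 410) (nat_lit 377) (nat_lit 233)) (XT.lf (nat_lit 0) (nat_lit 8258041663) (nat_lit 760) (nat_lit 9699141078) (nat_lit 76) (nat_lit 3173576604) (nat_lit 278) (nat_lit 5) (nat_lit 288) (nat_lit 5) (nat_lit 279) (nat_lit 5) (nat_lit 411) (nat_lit 377) (nat_lit 232))))))))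
noncomputable def xc104 : XT := (XT.nd (nat_lit 50934) (nat_lit 0) (nat_lit 12160) (XT.nd (nat_lit 858) (nat_lit 2432) (nat_lit 0) (XT.nd (nat_lit 390) (nat_lit 2812) (nat_lit 0) (XT.nd (nat_lit 156) (nat_lit 1292) (nat_lit 0) (XT.nd (nat_lit 78) (nat_lit 608) (nat_lit 0) (XT.lf (nat_lit 0) (nat_lit 8006243401) (nat_lit 608) (nat_lit 5320040767) (nat_lit 684) (nat_lit 8170737967) (nat_lit 270) (nat_lit 5) (nat_lit 278) (nat_lit 5) (nat_lit 279) (nat_lit 5) (nat_lit 412) (nat_lit 377) (nat_lit 231)) (XT.lf (nat_lit 0) (nat_lit 4497784029) (nat_lit 608) (nat_lit 14183121840) (nat_lit 684) (nat_lit 3190682209) (nat_lit 262) (nat_lit 5) (nat_lit 270) (nat_lit 5) (nat_lit 271) (nat_lit 5) (nat_lit 413) (nat_lit 377) (nat_lit 230))) (XT.nd (nat_lit 78) (nat_lit 608) (nat_lit 0) (XT.lf (nat_lit 0) (nat_lit 904877874) (nat_lit 608) (nat_lit 1131108065) (nat_lit 684) (nat_lit 20218702357) (nat_lit 253) (nat_lit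 5) (nat_lit 261) (nat_lit 5) (nat_lit 262) (nat_lit 5) (nat_lit 414) (nat_lit 377) (nat_lit 229)) (XT.nd (nat_lit 78) (nat_lit 608) (nat_lit 0) (XT.lf (nat_lit 0) (nat_lit 7564179815) (nat_lit 684) (nat_lit 2792554660) (nat_lit 76) (nat_lit 12288365507) (nat_lit 253) (nat_lit 5) (nat_lit 262) (nat_lit 5) (nat_lit 254) (nat_lit 5) (nat_lit 415) (nat_lit 377) (nat_lit 228)) (XT.lf (nat_lit 0) (nat_lit 13383196250) (nat_lit 684) (nat_lit 6548051815) (nat_lit 76) (nat_lit 3113478130) (nat_lit 245) (nat_lit 5) (nat_lit 254) (nat_lit 5) (nat_lit 246) (nat_lit 5) (nat_lit 416) (nat_lit 377) (nat_lit 227))))) (XT.nd (nat_lit 234) (nat_lit 1064) (nat_lit 0) (XT.nd (nat_lit 78) (nat_lit 1216) (nat_lit 0) (XT.lf (nat_lit 0) (nat_lit 13035525355) (nat_lit 532) (nat_lit 6504088765) (nat_lit 608) (nat_lit 3913472116) (nat_lit 238) (nat_lit 5) (nat_lit 245) (nat_lit 5) (nat_lit 246) (nat_lit 5) (nat_lit 417) (nat_lit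 377) (nat_lit 226)) (XT.nd (nat_lit 78) (nat_lit 532) (nat_lit 0) (XT.lf (nat_lit 0) (nat_lit 2125564281) (nat_lit 684) (nat_lit 14397673823) (nat_lit 76) (nat_lit 7347302748) (nat_lit 229) (nat_lit 5) (nat_lit 238) (nat_lit 5) (nat_lit 230) (nat_lit 5) (nat_lit 418) (nat_lit 377) (nat_lit 225)) (XT.lf (nat_lit 0) (nat_lit 5796596739) (nat_lit 532) (nat_lit 2638722616) (nat_lit 608) (nat_lit 15861829598) (nat_lit 222) (nat_lit 5) (nat_lit 229) (nat_lit 5) (nat_lit 230) (nat_lit 5) (nat_lit 419) (nat_lit 377) (nat_lit 224)))) (XT.nd (nat_lit 78) (nat_lit 532) (nat_lit 0) (XT.lf (nat_lit 0) (nat_lit 1996228201) (nat_lit 532) (nat_lit 13115434155) (nat_lit 608) (nat_lit 9621348526) (nat_lit 215) (nat_lit 5) (nat_lit 222) (nat_lit 5) (nat_lit 223) (nat_lit 5) (nat_lit 420) (nat_lit 377) (nat_lit 223)) (XT.nd (nat_lit 78) (nat_lit 532) (nat_lit 0) (XT.lf (nat_lit 0) (nat_lit 22129644133) (nat_lit 608) (nat_lit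 1856408654) (nat_lit 76) (nat_lit 1193070358) (nat_lit 215) (nat_lit 5) (nat_lit 223) (nat_lit 5) (nat_lit 216) (nat_lit 5) (nat_lit 421) (nat_lit 377) (nat_lit 222)) (XT.lf (nat_lit 0) (nat_lit 3879321373) (nat_lit 532) (nat_lit 5849864511) (nat_lit 76) (nat_lit 15904780127) (nat_lit 208) (nat_lit 5) (nat_lit 215) (nat_lit 5) (nat_lit 209) (nat_lit 5) (nat_lit 422) (nat_lit 377) (nat_lit 221)))))) (XT.nd (nat_lit 49608) (nat_lit 0) (nat_lit 20824) (XT.nd (nat_lit 156) (nat_lit 1444) (nat_lit 0) (XT.nd (nat_lit 78) (nat_lit 456) (nat_lit 0) (XT.lf (nat_lit 0) (nat_lit 11116533748) (nat_lit 608) (nat_lit 9956493827) (nat_lit 76) (nat_lit 5026185216) (nat_lit 201) (nat_lit 5) (nat_lit 209) (nat_lit 5) (nat_lit 202) (nat_lit 5) (nat_lit 423) (nat_lit 377) (nat_lit 220)) (XT.lf (nat_lit 0) (nat_lit 12382374573) (nat_lit 456) (nat_lit 6364996274) (nat_lit 532) (nat_lit 7827517257) (nat_lit 195) (nat_lit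 5) (nat_lit 201) (nat_lit 5) (nat_lit 202) (nat_lit 5) (nat_lit 424) (nat_lit 377) (nat_lit 219))) (XT.nd (nat_lit 78) (nat_lit 988) (nat_lit 0) (XT.lf (nat_lit 0) (nat_lit 8506108939) (nat_lit 456) (nat_lit 18272505231) (nat_lit 532) (nat_lit 282791145) (nat_lit 189) (nat_lit 5) (nat_lit 195) (nat_lit 5) (nat_lit 196) (nat_lit 5) (nat_lit 425) (nat_lit 377) (nat_lit 218)) (XT.nd (nat_lit 78) (nat_lit 456) (nat_lit 0) (XT.lf (nat_lit 0) (nat_lit 4474124102) (nat_lit 456) (nat_lit 3075790064) (nat_lit 532) (nat_lit 20008435748) (nat_lit 182) (nat_lit 5) (nat_lit 188) (nat_lit 5) (nat_lit 189) (nat_lit 5) (nat_lit 426) (nat_lit 377) (nat_lit 217)) (XT.lf (nat_lit 0) (nat_lit 288075472) (nat_lit 456) (nat_lit 15527374707) (nat_lit 532) (nat_lit 12250682619) (nat_lit 176) (nat_lit 5) (nat_lit 182) (nat_lit 5) (nat_lit 183) (nat_lit 5) (nat_lit 427) (nat_lit 377) (nat_lit 216))))) (XT.nd (nat_lit 234) (nat_lit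 1520) (nat_lit 0) (XT.nd (nat_lit 78) (nat_lit 0) (nat_lit 0) (XT.lf (nat_lit 0) (nat_lit 4786407638) (nat_lit 1748) (nat_lit 804245267) (nat_lit 1748) (nat_lit 804245267) (nat_lit 470) (nat_lit 3) (nat_lit 493) (nat_lit 3) (nat_lit 493) (nat_lit 5) (nat_lit 378) (nat_lit 378) (nat_lit 264)) (XT.nd (nat_lit 78) (nat_lit 0) (nat_lit 76) (XT.lf (nat_lit 76) (nat_lit 7823518947) (nat_lit 0) (nat_lit 2553696758) (nat_lit 1748) (nat_lit 2591072551) (nat_lit 471) (nat_lit 5) (nat_lit 470) (nat_lit 3) (nat_lit 493) (nat_lit 5) (nat_lit 379) (nat_lit 378) (nat_lit 263)) (XT.lf (nat_lit 76) (nat_lit 4412405946) (nat_lit 0) (nat_lit 6850266846) (nat_lit 1748) (nat_lit 1888329057) (nat_lit 472) (nat_lit 5) (nat_lit 471) (nat_lit 5) (nat_lit 494) (nat_lit 5) (nat_lit 380) (nat_lit 378) (nat_lit 262)))) (XT.nd (nat_lit 78) (nat_lit 1672) (nat_lit 0) (XT.lf (nat_lit 76) (nat_lit 957089706) (nat_lit 0) (nat_lit 11266037451)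 (nat_lit 1748) (nat_lit 1115106285) (nat_lit 473) (nat_lit 5) (nat_lit 472) (nat_lit 5) (nat_lit 495) (nat_lit 5) (nat_lit 381) (nat_lit 378) (nat_lit 261)) (XT.nd (nat_lit 78) (nat_lit 1672) (nat_lit 0) (XT.lf (nat_lit 76) (nat_lit 11003862535) (nat_lit 0) (nat_lit 2290715015) (nat_lit 1748) (nat_lit 234865893) (nat_lit 473) (nat_lit 5) (nat_lit 472) (nat_lit 5) (nat_lit 495) (nat_lit 5) (nat_lit 382) (nat_lit 378) (nat_lit 260)) (XT.lf (nat_lit 0) (nat_lit 736559448) (nat_lit 1748) (nat_lit 6061815908) (nat_lit 1824) (nat_lit 6926460251) (nat_lit 450) (nat_lit 5) (nat_lit 473) (nat_lit 5) (nat_lit 474) (nat_lit 5) (nat_lit 383) (nat_lit 378) (nat_lit 259))))))) (XT.nd (nat_lit 858) (nat_lit 7372) (nat_lit 0) (XT.nd (nat_lit 390) (nat_lit 1368) (nat_lit 0) (XT.nd (nat_lit 156) (nat_lit 0) (nat_lit 76) (XT.nd (nat_lit 78) (nat_lit 0) (nat_lit 0) (XT.lf (nat_lit 0) (nat_lit 1789306675) (nat_lit 1748)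 (nat_lit 9649428699) (nat_lit 1824) (nat_lit 2486220435) (nat_lit 451) (nat_lit 5) (nat_lit 474) (nat_lit 5) (nat_lit 475) (nat_lit 5) (nat_lit 384) (nat_lit 378) (nat_lit 258)) (XT.lf (nat_lit 76) (nat_lit 827382450) (nat_lit 0) (nat_lit 2117610140) (nat_lit 1824) (nat_lit 11184664484) (nat_lit 452) (nat_lit 5) (nat_lit 451) (nat_lit 5) (nat_lit 475) (nat_lit 5) (nat_lit 385) (nat_lit 378) (nat_lit 257))) (XT.nd (nat_lit 78) (nat_lit 0) (nat_lit 76) (XT.lf (nat_lit 0) (nat_lit 4229493849) (nat_lit 1748) (nat_lit 2651308399) (nat_lit 1824) (nat_lit 7457818682) (nat_lit 452) (nat_lit 5) (nat_lit 475) (nat_lit 5) (nat_lit 476) (nat_lit 5) (nat_lit 386) (nat_lit 378) (nat_lit 256)) (XT.nd (nat_lit 78) (nat_lit 0) (nat_lit 0) (XT.lf (nat_lit 0) (nat_lit 5619753066) (nat_lit 1748) (nat_lit 6169121298) (nat_lit 1824) (nat_lit 2763639202) (nat_lit 453) (nat_lit 5) (nat_lit 476) (nat_lit 5) (nat_lit 477) (nat_lit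 5) (nat_lit 387) (nat_lit 378) (nat_lit 255)) (XT.lf (nat_lit 76) (nat_lit 5019162372) (nat_lit 0) (nat_lit 2110102051) (nat_lit 1824) (nat_lit 7642011864) (nat_lit 454) (nat_lit 5) (nat_lit 453) (nat_lit 5) (nat_lit 477) (nat_lit 5) (nat_lit 388) (nat_lit 378) (nat_lit 254))))) (XT.nd (nat_lit 234) (nat_lit 1596) (nat_lit 0) (XT.nd (nat_lit 78) (nat_lit 0) (nat_lit 76) (XT.lf (nat_lit 76) (nat_lit 1587605095) (nat_lit 0) (nat_lit 7181233651) (nat_lit 1824) (nat_lit 6226071664) (nat_lit 455) (nat_lit 5) (nat_lit 454) (nat_lit 5) (nat_lit 478) (nat_lit 5) (nat_lit 389) (nat_lit 378) (nat_lit 253)) (XT.nd (nat_lit 78) (nat_lit 0) (nat_lit 0) (XT.lf (nat_lit 0) (nat_lit 10538048724) (nat_lit 1748) (nat_lit 1869306248) (nat_lit 1824) (nat_lit 2816293570) (nat_lit 455) (nat_lit 5) (nat_lit 478) (nat_lit 5) (nat_lit 479) (nat_lit 5) (nat_lit 390) (nat_lit 378) (nat_lit 252)) (XT.lf (nat_lit 76) (nat_lit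 10085624703) (nat_lit 0) (nat_lit 2370594675) (nat_lit 1824) (nat_lit 3001115592) (nat_lit 456) (nat_lit 5) (nat_lit 455) (nat_lit 5) (nat_lit 479) (nat_lit 5) (nat_lit 391) (nat_lit 378) (nat_lit 251)))) (XT.nd (nat_lit 78) (nat_lit 1748) (nat_lit 0) (XT.lf (nat_lit 76) (nat_lit 6750114857) (nat_lit 0) (nat_lit 7772956905) (nat_lit 1824) (nat_lit 1173141221) (nat_lit 457) (nat_lit 5) (nat_lit 456) (nat_lit 5) (nat_lit 480) (nat_lit 5) (nat_lit 392) (nat_lit 378) (nat_lit 250)) (XT.nd (nat_lit 78) (nat_lit 0) (nat_lit 0) (XT.lf (nat_lit 0) (nat_lit 774926795) (nat_lit 1824) (nat_lit 12580457081) (nat_lit 1900) (nat_lit 2585293619) (nat_lit 433) (nat_lit 5) (nat_lit 457) (nat_lit 5) (nat_lit 458) (nat_lit 5) (nat_lit 393) (nat_lit 378) (nat_lit 249)) (XT.lf (nat_lit 0) (nat_lit 2862147151) (nat_lit 1824) (nat_lit 107059698) (nat_lit 1900) (nat_lit 13221184473) (nat_lit 433) (nat_lit 5) (nat_lit 457)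 (nat_lit 5) (nat_lit 458) (nat_lit 5) (nat_lit 394) (nat_lit 378) (nat_lit 248)))))) (XT.nd (nat_lit 390) (nat_lit 4180) (nat_lit 0) (XT.nd (nat_lit 156) (nat_lit 1824) (nat_lit 0) (XT.nd (nat_lit 78) (nat_lit 1444) (nat_lit 0) (XT.lf (nat_lit 0) (nat_lit 5130498618) (nat_lit 1824) (nat_lit 3600669556) (nat_lit 76) (nat_lit 7714061442) (nat_lit 434) (nat_lit 5) (nat_lit 458) (nat_lit 5) (nat_lit 435) (nat_lit 5) (nat_lit 395) (nat_lit 378) (nat_lit 247)) (XT.lf (nat_lit 0) (nat_lit 7547278059) (nat_lit 1520) (nat_lit 7148907056) (nat_lit 76) (nat_lit 2009923644) (nat_lit 415) (nat_lit 5) (nat_lit 435) (nat_lit 5) (nat_lit 416) (nat_lit 5) (nat_lit 396) (nat_lit 378) (nat_lit 246))) (XT.nd (nat_lit 78) (nat_lit 912) (nat_lit 0) (XT.lf (nat_lit 0) (nat_lit 6193884951) (nat_lit 912) (nat_lit 3950649334) (nat_lit 988) (nat_lit 6828123674) (nat_lit 403) (nat_lit 5) (nat_lit 415) (nat_lit 5) (nat_lit 416)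 (nat_lit 5) (nat_lit 397) (nat_lit 378) (nat_lit 245)) (XT.nd (nat_lit 78) (nat_lit 0) (nat_lit 0) (XT.lf (nat_lit 0) (nat_lit 2764652639) (nat_lit 912) (nat_lit 10153153524) (nat_lit 988) (nat_lit 4327438572) (nat_lit 391) (nat_lit 5) (nat_lit 403) (nat_lit 5) (nat_lit 404) (nat_lit 5) (nat_lit 398) (nat_lit 378) (nat_lit 244)) (XT.lf (nat_lit 0) (nat_lit 15865331174) (nat_lit 988) (nat_lit 708849584) (nat_lit 76) (nat_lit 950010229) (nat_lit 391) (nat_lit 5) (nat_lit 404) (nat_lit 5) (nat_lit 392) (nat_lit 5) (nat_lit 399) (nat_lit 378) (nat_lit 243))))) (XT.nd (nat_lit 234) (nat_lit 1520) (nat_lit 0) (XT.nd (nat_lit 78) (nat_lit 1672) (nat_lit 0) (XT.lf (nat_lit 0) (nat_lit 1218390435) (nat_lit 988) (nat_lit 4243862920) (nat_lit 76) (nat_lit 12346255453) (nat_lit 378) (nat_lit 5) (nat_lit 391) (nat_lit 5) (nat_lit 379) (nat_lit 5) (nat_lit 400) (nat_lit 378) (nat_lit 242)) (XT.nd (nat_lit 78) (nat_lit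 836) (nat_lit 0) (XT.lf (nat_lit 0) (nat_lit 4256737487) (nat_lit 912) (nat_lit 7854126294) (nat_lit 76) (nat_lit 5988329492) (nat_lit 367) (nat_lit 5) (nat_lit 379) (nat_lit 5) (nat_lit 368) (nat_lit 5) (nat_lit 401) (nat_lit 378) (nat_lit 241)) (XT.lf (nat_lit 0) (nat_lit 6868733693) (nat_lit 836) (nat_lit 614072109) (nat_lit 912) (nat_lit 10913863719) (nat_lit 356) (nat_lit 5) (nat_lit 367) (nat_lit 5) (nat_lit 368) (nat_lit 5) (nat_lit 402) (nat_lit 378) (nat_lit 240)))) (XT.nd (nat_lit 78) (nat_lit 760) (nat_lit 0) (XT.lf (nat_lit 0) (nat_lit 3396666326) (nat_lit 760) (nat_lit 7544320909) (nat_lit 836) (nat_lit 7759378788) (nat_lit 346) (nat_lit 5) (nat_lit 356) (nat_lit 5) (nat_lit 357) (nat_lit 5) (nat_lit 403) (nat_lit 378) (nat_lit 239)) (XT.nd (nat_lit 78) (nat_lit 760) (nat_lit 0) (XT.lf (nat_lit 0) (nat_lit 14600375357) (nat_lit 836) (nat_lit 130505154) (nat_lit 76) (nat_lit 4280346195)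 (nat_lit 346) (nat_lit 5) (nat_lit 357) (nat_lit 5) (nat_lit 347) (nat_lit 5) (nat_lit 404) (nat_lit 378) (nat_lit 238)) (XT.lf (nat_lit 0) (nat_lit 15639484413) (nat_lit 760) (nat_lit 2869533115) (nat_lit 836) (nat_lit 819608675) (nat_lit 336) (nat_lit 5) (nat_lit 346) (nat_lit 5) (nat_lit 347) (nat_lit 5) (nat_lit 405) (nat_lit 378) (nat_lit 237))))))))
noncomputable def xc105 : XT := (XT.nd (nat_lit 51012) (nat_lit 0) (nat_lit 15884) (XT.nd (nat_lit 858) (nat_lit 5396) (nat_lit 0) (XT.nd (nat_lit 390) (nat_lit 3344) (nat_lit 0) (XT.nd (nat_lit 156) (nat_lit 1368) (nat_lit 0) (XT.nd (nat_lit 78) (nat_lit 760) (nat_lit 0) (XT.lf (nat_lit 0) (nat_lit 2971766110) (nat_lit 836) (nat_lit 7355942498) (nat_lit 76) (nat_lit 9324864335) (nat_lit 325) (nat_lit 5) (nat_lit 336) (nat_lit 5) (nat_lit 326) (nat_lit 5) (nat_lit 406) (nat_lit 378) (nat_lit 236)) (XT.lf (nat_lit 0) (nat_lit 6968591848) (nat_lit 836)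 (nat_lit 11091333594) (nat_lit 76) (nat_lit 1924149646) (nat_lit 315) (nat_lit 5) (nat_lit 326) (nat_lit 5) (nat_lit 316) (nat_lit 5) (nat_lit 407) (nat_lit 378) (nat_lit 235))) (XT.nd (nat_lit 78) (nat_lit 684) (nat_lit 0) (XT.lf (nat_lit 0) (nat_lit 5393324314) (nat_lit 684) (nat_lit 5834465310) (nat_lit 760) (nat_lit 9094885516) (nat_lit 306) (nat_lit 5) (nat_lit 315) (nat_lit 5) (nat_lit 316) (nat_lit 5) (nat_lit 408) (nat_lit 378) (nat_lit 234)) (XT.nd (nat_lit 78) (nat_lit 0) (nat_lit 0) (XT.lf (nat_lit 0) (nat_lit 1820842733) (nat_lit 684) (nat_lit 13913734097) (nat_lit 760) (nat_lit 4934462220) (nat_lit 297) (nat_lit 5) (nat_lit 306) (nat_lit 5) (nat_lit 307) (nat_lit 5) (nat_lit 409) (nat_lit 378) (nat_lit 233)) (XT.lf (nat_lit 0) (nat_lit 19225497165) (nat_lit 684) (nat_lit 1279709464) (nat_lit 760) (nat_lit 518016530) (nat_lit 297) (nat_lit 5) (nat_lit 306) (nat_lit 5) (nat_lit 307) (nat_lit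 5) (nat_lit 410) (nat_lit 378) (nat_lit 232))))) (XT.nd (nat_lit 234) (nat_lit 1292) (nat_lit 0) (XT.nd (nat_lit 78) (nat_lit 1292) (nat_lit 0) (XT.lf (nat_lit 0) (nat_lit 4147508049) (nat_lit 760) (nat_lit 5528259543) (nat_lit 76) (nat_lit 11708354699) (nat_lit 287) (nat_lit 5) (nat_lit 297) (nat_lit 5) (nat_lit 288) (nat_lit 5) (nat_lit 411) (nat_lit 378) (nat_lit 231)) (XT.nd (nat_lit 78) (nat_lit 608) (nat_lit 0) (XT.lf (nat_lit 0) (nat_lit 9058967065) (nat_lit 760) (nat_lit 9329544815) (nat_lit 76) (nat_lit 3365009811) (nat_lit 278) (nat_lit 5) (nat_lit 288) (nat_lit 5) (nat_lit 279) (nat_lit 5) (nat_lit 412) (nat_lit 378) (nat_lit 230)) (XT.lf (nat_lit 0) (nat_lit 8896284228) (nat_lit 608) (nat_lit 5371079739) (nat_lit 684) (nat_lit 7863649075) (nat_lit 270) (nat_lit 5) (nat_lit 278) (nat_lit 5) (nat_lit 279) (nat_lit 5) (nat_lit 413) (nat_lit 378) (nat_lit 229)))) (XT.nd (nat_lit 78) (nat_lit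 684) (nat_lit 0) (XT.lf (nat_lit 0) (nat_lit 5282077149) (nat_lit 608) (nat_lit 14489681806) (nat_lit 684) (nat_lit 2745277051) (nat_lit 262) (nat_lit 5) (nat_lit 270) (nat_lit 5) (nat_lit 271) (nat_lit 5) (nat_lit 414) (nat_lit 378) (nat_lit 228)) (XT.nd (nat_lit 78) (nat_lit 0) (nat_lit 0) (XT.lf (nat_lit 0) (nat_lit 1577918499) (nat_lit 608) (nat_lit 1041815024) (nat_lit 684) (nat_lit 20292055257) (nat_lit 253) (nat_lit 5) (nat_lit 261) (nat_lit 5) (nat_lit 262) (nat_lit 5) (nat_lit 415) (nat_lit 378) (nat_lit 227)) (XT.lf (nat_lit 0) (nat_lit 8299326639) (nat_lit 684) (nat_lit 2239793059) (nat_lit 76) (nat_lit 12775084578) (nat_lit 253) (nat_lit 5) (nat_lit 262) (nat_lit 5) (nat_lit 254) (nat_lit 5) (nat_lit 416) (nat_lit 378) (nat_lit 226)))))) (XT.nd (nat_lit 390) (nat_lit 2508) (nat_lit 0) (XT.nd (nat_lit 156) (nat_lit 1748) (nat_lit 0) (XT.nd (nat_lit 78) (nat_lit 532) (nat_lit 0) (XT.lf (nat_lit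 0) (nat_lit 14283012557) (nat_lit 684) (nat_lit 6109086469) (nat_lit 76) (nat_lit 3333920725) (nat_lit 245) (nat_lit 5) (nat_lit 254) (nat_lit 5) (nat_lit 246) (nat_lit 5) (nat_lit 417) (nat_lit 378) (nat_lit 225)) (XT.lf (nat_lit 0) (nat_lit 14051689294) (nat_lit 532) (nat_lit 6561978035) (nat_lit 608) (nat_lit 3533174760) (nat_lit 238) (nat_lit 5) (nat_lit 245) (nat_lit 5) (nat_lit 246) (nat_lit 5) (nat_lit 418) (nat_lit 378) (nat_lit 224))) (XT.nd (nat_lit 78) (nat_lit 1064) (nat_lit 0) (XT.lf (nat_lit 0) (nat_lit 2671146697) (nat_lit 684) (nat_lit 14199368057) (nat_lit 76) (nat_lit 7706430402) (nat_lit 229) (nat_lit 5) (nat_lit 238) (nat_lit 5) (nat_lit 230) (nat_lit 5) (nat_lit 419) (nat_lit 378) (nat_lit 223)) (XT.nd (nat_lit 78) (nat_lit 532) (nat_lit 0) (XT.lf (nat_lit 0) (nat_lit 6590505792) (nat_lit 532) (nat_lit 2569680694) (nat_lit 608) (nat_lit 15856367375) (nat_lit 222) (nat_lit 5) (nat_lit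 229) (nat_lit 5) (nat_lit 230) (nat_lit 5) (nat_lit 420) (nat_lit 378) (nat_lit 222)) (XT.lf (nat_lit 0) (nat_lit 2674475909) (nat_lit 532) (nat_lit 13353550919) (nat_lit 608) (nat_lit 9437642816) (nat_lit 215) (nat_lit 5) (nat_lit 222) (nat_lit 5) (nat_lit 223) (nat_lit 5) (nat_lit 421) (nat_lit 378) (nat_lit 221))))) (XT.nd (nat_lit 234) (nat_lit 1444) (nat_lit 0) (XT.nd (nat_lit 78) (nat_lit 1064) (nat_lit 0) (XT.lf (nat_lit 0) (nat_lit 23244041430) (nat_lit 608) (nat_lit 1303670025) (nat_lit 76) (nat_lit 1377706029) (nat_lit 215) (nat_lit 5) (nat_lit 223) (nat_lit 5) (nat_lit 216) (nat_lit 5) (nat_lit 422) (nat_lit 378) (nat_lit 220)) (XT.nd (nat_lit 78) (nat_lit 532) (nat_lit 0) (XT.lf (nat_lit 0) (nat_lit 4439962279) (nat_lit 532) (nat_lit 5420830765) (nat_lit 76) (nat_lit 16533240860) (nat_lit 208) (nat_lit 5) (nat_lit 215) (nat_lit 5) (nat_lit 209) (nat_lit 5) (nat_lit 423) (nat_lit 378) (nat_lit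 219)) (XT.lf (nat_lit 0) (nat_lit 11886248538) (nat_lit 608) (nat_lit 9652734964) (nat_lit 76) (nat_lit 5334417352) (nat_lit 201) (nat_lit 5) (nat_lit 209) (nat_lit 5) (nat_lit 202) (nat_lit 5) (nat_lit 424) (nat_lit 378) (nat_lit 218)))) (XT.nd (nat_lit 78) (nat_lit 988) (nat_lit 0) (XT.lf (nat_lit 0) (nat_lit 13346525393) (nat_lit 456) (nat_lit 6390628025) (nat_lit 532) (nat_lit 7626372018) (nat_lit 195) (nat_lit 5) (nat_lit 201) (nat_lit 5) (nat_lit 202) (nat_lit 5) (nat_lit 425) (nat_lit 378) (nat_lit 217)) (XT.nd (nat_lit 78) (nat_lit 456) (nat_lit 0) (XT.lf (nat_lit 0) (nat_lit 135174681) (nat_lit 532) (nat_lit 18513910748) (nat_lit 76) (nat_lit 9215688187) (nat_lit 188) (nat_lit 5) (nat_lit 195) (nat_lit 5) (nat_lit 189) (nat_lit 5) (nat_lit 426) (nat_lit 378) (nat_lit 216)) (XT.lf (nat_lit 0) (nat_lit 5194829315) (nat_lit 456) (nat_lit 2995709946) (nat_lit 532) (nat_lit 20186221224) (nat_lit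 182) (nat_lit 5) (nat_lit 188) (nat_lit 5) (nat_lit 189) (nat_lit 5) (nat_lit 427) (nat_lit 378) (nat_lit 215))))))) (XT.nd (nat_lit 858) (nat_lit 4408) (nat_lit 0) (XT.nd (nat_lit 390) (nat_lit 0) (nat_lit 76) (XT.nd (nat_lit 156) (nat_lit 1596) (nat_lit 0) (XT.nd (nat_lit 78) (nat_lit 0) (nat_lit 0) (XT.lf (nat_lit 0) (nat_lit 5534148777) (nat_lit 1748) (nat_lit 520187913) (nat_lit 1748) (nat_lit 520187913) (nat_lit 470) (nat_lit 3) (nat_lit 493) (nat_lit 3) (nat_lit 493) (nat_lit 5) (nat_lit 379) (nat_lit 379) (nat_lit 262)) (XT.lf (nat_lit 76) (nat_lit 8664594078) (nat_lit 0) (nat_lit 3200979730) (nat_lit 1748) (nat_lit 1467955202) (nat_lit 471) (nat_lit 5) (nat_lit 470) (nat_lit 3) (nat_lit 493) (nat_lit 5) (nat_lit 380) (nat_lit 379) (nat_lit 261))) (XT.nd (nat_lit 78) (nat_lit 1672) (nat_lit 0) (XT.lf (nat_lit 76) (nat_lit 5168376770) (nat_lit 0) (nat_lit 7575386625) (nat_lit 1748) (nat_lit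 778645019) (nat_lit 472) (nat_lit 5) (nat_lit 471) (nat_lit 5) (nat_lit 494) (nat_lit 5) (nat_lit 381) (nat_lit 379) (nat_lit 260)) (XT.nd (nat_lit 78) (nat_lit 1748) (nat_lit 0) (XT.lf (nat_lit 76) (nat_lit 1625351166) (nat_lit 0) (nat_lit 12075259806) (nat_lit 1748) (nat_lit 15301942) (nat_lit 473) (nat_lit 5) (nat_lit 472) (nat_lit 5) (nat_lit 495) (nat_lit 5) (nat_lit 382) (nat_lit 379) (nat_lit 259)) (XT.lf (nat_lit 0) (nat_lit 847080900) (nat_lit 1748) (nat_lit 1964186965) (nat_lit 1824) (nat_lit 11102134286) (nat_lit 449) (nat_lit 5) (nat_lit 472) (nat_lit 5) (nat_lit 473) (nat_lit 5) (nat_lit 383) (nat_lit 379) (nat_lit 258))))) (XT.nd (nat_lit 234) (nat_lit 0) (nat_lit 152) (XT.nd (nat_lit 78) (nat_lit 0) (nat_lit 76) (XT.lf (nat_lit 0) (nat_lit 1814099024) (nat_lit 1748) (nat_lit 5594182503) (nat_lit 1824) (nat_lit 6706957665) (nat_lit 450) (nat_lit 5) (nat_lit 473) (nat_lit 5) (nat_lit 474)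 (nat_lit 5) (nat_lit 384) (nat_lit 379) (nat_lit 257)) (XT.nd (nat_lit 78) (nat_lit 0) (nat_lit 0) (XT.lf (nat_lit 0) (nat_lit 2869304621) (nat_lit 1748) (nat_lit 9276626503) (nat_lit 1824) (nat_lit 2176021131) (nat_lit 451) (nat_lit 5) (nat_lit 474) (nat_lit 5) (nat_lit 475) (nat_lit 5) (nat_lit 385) (nat_lit 379) (nat_lit 256)) (XT.lf (nat_lit 76) (nat_lit 1503744191) (nat_lit 0) (nat_lit 2530254374) (nat_lit 1824) (nat_lit 10499315822) (nat_lit 452) (nat_lit 5) (nat_lit 451) (nat_lit 5) (nat_lit 475) (nat_lit 5) (nat_lit 386) (nat_lit 379) (nat_lit 255)))) (XT.nd (nat_lit 78) (nat_lit 0) (nat_lit 76) (XT.lf (nat_lit 0) (nat_lit 5325688865) (nat_lit 1748) (nat_lit 2076440507) (nat_lit 1824) (nat_lit 7347051095) (nat_lit 452) (nat_lit 5) (nat_lit 475) (nat_lit 5) (nat_lit 476) (nat_lit 5) (nat_lit 387) (nat_lit 379) (nat_lit 254)) (XT.nd (nat_lit 78) (nat_lit 0) (nat_lit 0) (XT.lf (nat_lit 0) (nat_lit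 6731646107) (nat_lit 1748) (nat_lit 5689335602) (nat_lit 1824) (nat_lit 2549034569) (nat_lit 453) (nat_lit 5) (nat_lit 476) (nat_lit 5) (nat_lit 477) (nat_lit 5) (nat_lit 388) (nat_lit 379) (nat_lit 253)) (XT.lf (nat_lit 76) (nat_lit 5823810026) (nat_lit 0) (nat_lit 2439404683) (nat_lit 1824) (nat_lit 6932597753) (nat_lit 454) (nat_lit 5) (nat_lit 453) (nat_lit 5) (nat_lit 477) (nat_lit 5) (nat_lit 389) (nat_lit 379) (nat_lit 252)))))) (XT.nd (nat_lit 390) (nat_lit 3192) (nat_lit 0) (XT.nd (nat_lit 156) (nat_lit 1596) (nat_lit 0) (XT.nd (nat_lit 78) (nat_lit 0) (nat_lit 76) (XT.lf (nat_lit 76) (nat_lit 2298693820) (nat_lit 0) (nat_lit 7629115100) (nat_lit 1824) (nat_lit 5498835880) (nat_lit 455) (nat_lit 5) (nat_lit 454) (nat_lit 5) (nat_lit 478) (nat_lit 5) (nat_lit 390) (nat_lit 379) (nat_lit 251)) (XT.lf (nat_lit 0) (nat_lit 11722535650) (nat_lit 1748) (nat_lit 1262198369) (nat_lit 1824) (nat_lit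 2678067922) (nat_lit 455) (nat_lit 5) (nat_lit 478) (nat_lit 5) (nat_lit 479) (nat_lit 5) (nat_lit 391) (nat_lit 379) (nat_lit 250))) (XT.nd (nat_lit 78) (nat_lit 1672) (nat_lit 0) (XT.lf (nat_lit 76) (nat_lit 11040621088) (nat_lit 0) (nat_lit 2636574713) (nat_lit 1824) (nat_lit 2226729782) (nat_lit 456) (nat_lit 5) (nat_lit 455) (nat_lit 5) (nat_lit 479) (nat_lit 5) (nat_lit 392) (nat_lit 379) (nat_lit 249)) (XT.nd (nat_lit 78) (nat_lit 1748) (nat_lit 0) (XT.lf (nat_lit 76) (nat_lit 7612557263) (nat_lit 0) (nat_lit 8171874586) (nat_lit 1824) (nat_lit 365975876) (nat_lit 457) (nat_lit 5) (nat_lit 456) (nat_lit 5) (nat_lit 480) (nat_lit 5) (nat_lit 393) (nat_lit 379) (nat_lit 248)) (XT.lf (nat_lit 0) (nat_lit 1608579317) (nat_lit 1824) (nat_lit 12280219592) (nat_lit 1900) (nat_lit 2513721113) (nat_lit 433) (nat_lit 5) (nat_lit 457) (nat_lit 5) (nat_lit 458) (nat_lit 5) (nat_lit 394) (nat_lit 379) (nat_lit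 247))))) (XT.nd (nat_lit 234) (nat_lit 1824) (nat_lit 0) (XT.nd (nat_lit 78) (nat_lit 1368) (nat_lit 0) (XT.lf (nat_lit 76) (nat_lit 554920176) (nat_lit 0) (nat_lit 3183494997) (nat_lit 1900) (nat_lit 12921715056) (nat_lit 434) (nat_lit 5) (nat_lit 433) (nat_lit 5) (nat_lit 458) (nat_lit 5) (nat_lit 395) (nat_lit 379) (nat_lit 246)) (XT.nd (nat_lit 78) (nat_lit 1444) (nat_lit 0) (XT.lf (nat_lit 0) (nat_lit 6051715444) (nat_lit 1824) (nat_lit 3045143418) (nat_lit 76) (nat_lit 7826221645) (nat_lit 434) (nat_lit 5) (nat_lit 458) (nat_lit 5) (nat_lit 435) (nat_lit 5) (nat_lit 396) (nat_lit 379) (nat_lit 245)) (XT.lf (nat_lit 0) (nat_lit 8522261995) (nat_lit 1520) (nat_lit 6694828197) (nat_lit 76) (nat_lit 1975075215) (nat_lit 415) (nat_lit 5) (nat_lit 435) (nat_lit 5) (nat_lit 416) (nat_lit 5) (nat_lit 397) (nat_lit 379) (nat_lit 244)))) (XT.nd (nat_lit 78) (nat_lit 912) (nat_lit 0) (XT.lf (nat_lit 0)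 (nat_lit 7037401204) (nat_lit 912) (nat_lit 4142502045) (nat_lit 988) (nat_lit 6287163011) (nat_lit 403) (nat_lit 5) (nat_lit 415) (nat_lit 5) (nat_lit 416) (nat_lit 5) (nat_lit 398) (nat_lit 379) (nat_lit 243)) (XT.nd (nat_lit 78) (nat_lit 0) (nat_lit 0) (XT.lf (nat_lit 0) (nat_lit 3509621719) (nat_lit 912) (nat_lit 10509295418) (nat_lit 988) (nat_lit 3729267017) (nat_lit 391) (nat_lit 5) (nat_lit 403) (nat_lit 5) (nat_lit 404) (nat_lit 5) (nat_lit 399) (nat_lit 379) (nat_lit 242)) (XT.lf (nat_lit 0) (nat_lit 17033759177) (nat_lit 988) (nat_lit 73045069) (nat_lit 76) (nat_lit 929120986) (nat_lit 391) (nat_lit 5) (nat_lit 404) (nat_lit 5) (nat_lit 392) (nat_lit 5) (nat_lit 400) (nat_lit 379) (nat_lit 241))))))))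
noncomputable def xc106 : XT := (XT.nd (nat_lit 1716) (nat_lit 2052) (nat_lit 0) (XT.nd (nat_lit 858) (nat_lit 6156) (nat_lit 0) (XT.nd (nat_lit 390) (nat_lit 3040) (nat_lit 0) (XT.nd (nat_lit 156) (nat_lit 2356) (nat_lit 0) (XT.nd (nat_lit 78) (nat_lit 836) (nat_lit 0) (XT.lf (nat_lit 0) (nat_lit 1936054445) (nat_lit 988) (nat_lit 3715582082) (nat_lit 76) (nat_lit 12677370020) (nat_lit 378) (nat_lit 5) (nat_lit 391) (nat_lit 5) (nat_lit 379) (nat_lit 5) (nat_lit 401) (nat_lit 379) (nat_lit 240)) (XT.lf (nat_lit 0) (nat_lit 5049768090) (nat_lit 912) (nat_lit 7431215959) (nat_lit 76) (nat_lit 6147747115) (nat_lit 367) (nat_lit 5) (nat_lit 379) (nat_lit 5) (nat_lit 368) (nat_lit 5) (nat_lit 402) (nat_lit 379) (nat_lit 239))) (XT.nd (nat_lit 78) (nat_lit 1520) (nat_lit 0) (XT.lf (nat_lit 0) (nat_lit 7722645894) (nat_lit 836) (nat_lit 634800334) (nat_lit 912) (nat_lit 10577992740) (nat_lit 356) (nat_lit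 5) (nat_lit 367) (nat_lit 5) (nat_lit 368) (nat_lit 5) (nat_lit 403) (nat_lit 379) (nat_lit 238)) (XT.nd (nat_lit 78) (nat_lit 760) (nat_lit 0) (XT.lf (nat_lit 0) (nat_lit 4148838245) (nat_lit 760) (nat_lit 7755805729) (nat_lit 836) (nat_lit 7343900687) (nat_lit 346) (nat_lit 5) (nat_lit 356) (nat_lit 5) (nat_lit 357) (nat_lit 5) (nat_lit 404) (nat_lit 379) (nat_lit 237)) (XT.lf (nat_lit 0) (nat_lit 516044688) (nat_lit 760) (nat_lit 15142705546) (nat_lit 836) (nat_lit 3910285809) (nat_lit 336) (nat_lit 5) (nat_lit 346) (nat_lit 5) (nat_lit 347) (nat_lit 5) (nat_lit 405) (nat_lit 379) (nat_lit 236))))) (XT.nd (nat_lit 234) (nat_lit 1444) (nat_lit 0) (XT.nd (nat_lit 78) (nat_lit 1596) (nat_lit 0) (XT.lf (nat_lit 0) (nat_lit 16741922705) (nat_lit 760) (nat_lit 2925518707) (nat_lit 836) (nat_lit 228863816) (nat_lit 336) (nat_lit 5) (nat_lit 346) (nat_lit 5) (nat_lit 347) (nat_lit 5) (nat_lit 406) (nat_lit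 379) (nat_lit 235)) (XT.nd (nat_lit 78) (nat_lit 760) (nat_lit 0) (XT.lf (nat_lit 0) (nat_lit 3654834375) (nat_lit 836) (nat_lit 6933847013) (nat_lit 76) (nat_lit 9641479365) (nat_lit 325) (nat_lit 5) (nat_lit 336) (nat_lit 5) (nat_lit 326) (nat_lit 5) (nat_lit 407) (nat_lit 379) (nat_lit 234)) (XT.lf (nat_lit 0) (nat_lit 7758707160) (nat_lit 836) (nat_lit 10780340969) (nat_lit 76) (nat_lit 2032820223) (nat_lit 315) (nat_lit 5) (nat_lit 326) (nat_lit 5) (nat_lit 316) (nat_lit 5) (nat_lit 408) (nat_lit 379) (nat_lit 233)))) (XT.nd (nat_lit 78) (nat_lit 760) (nat_lit 0) (XT.lf (nat_lit 0) (nat_lit 6188412879) (nat_lit 684) (nat_lit 5944455715) (nat_lit 760) (nat_lit 8788017199) (nat_lit 306) (nat_lit 5) (nat_lit 315) (nat_lit 5) (nat_lit 316) (nat_lit 5) (nat_lit 409) (nat_lit 379) (nat_lit 232)) (XT.nd (nat_lit 78) (nat_lit 76) (nat_lit 0) (XT.lf (nat_lit 0) (nat_lit 2509350559) (nat_lit 684) (nat_lit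 14253483616) (nat_lit 760) (nat_lit 4515049999) (nat_lit 297) (nat_lit 5) (nat_lit 306) (nat_lit 5) (nat_lit 307) (nat_lit 5) (nat_lit 410) (nat_lit 379) (nat_lit 231)) (XT.lf (nat_lit 0) (nat_lit 17133805) (nat_lit 760) (nat_lit 1225451477) (nat_lit 76) (nat_lit 20400433242) (nat_lit 296) (nat_lit 5) (nat_lit 306) (nat_lit 5) (nat_lit 297) (nat_lit 5) (nat_lit 411) (nat_lit 379) (nat_lit 230)))))) (XT.nd (nat_lit 390) (nat_lit 2888) (nat_lit 0) (XT.nd (nat_lit 156) (nat_lit 1900) (nat_lit 0) (XT.nd (nat_lit 78) (nat_lit 684) (nat_lit 0) (XT.lf (nat_lit 0) (nat_lit 4804292993) (nat_lit 760) (nat_lit 5071262485) (nat_lit 76) (nat_lit 12139349354) (nat_lit 287) (nat_lit 5) (nat_lit 297) (nat_lit 5) (nat_lit 288) (nat_lit 5) (nat_lit 412) (nat_lit 379) (nat_lit 229)) (XT.lf (nat_lit 0) (nat_lit 9852165196) (nat_lit 760) (nat_lit 8986780112) (nat_lit 76) (nat_lit 3556662254) (nat_lit 278) (nat_lit 5) (nat_lit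 288) (nat_lit 5) (nat_lit 279) (nat_lit 5) (nat_lit 413) (nat_lit 379) (nat_lit 228))) (XT.nd (nat_lit 78) (nat_lit 1292) (nat_lit 0) (XT.lf (nat_lit 0) (nat_lit 9775722028) (nat_lit 608) (nat_lit 5429881797) (nat_lit 684) (nat_lit 7579046688) (nat_lit 270) (nat_lit 5) (nat_lit 278) (nat_lit 5) (nat_lit 279) (nat_lit 5) (nat_lit 414) (nat_lit 379) (nat_lit 227)) (XT.nd (nat_lit 78) (nat_lit 684) (nat_lit 0) (XT.lf (nat_lit 0) (nat_lit 6052623165) (nat_lit 608) (nat_lit 14812265851) (nat_lit 684) (nat_lit 2317572563) (nat_lit 262) (nat_lit 5) (nat_lit 270) (nat_lit 5) (nat_lit 271) (nat_lit 5) (nat_lit 415) (nat_lit 379) (nat_lit 226)) (XT.lf (nat_lit 0) (nat_lit 2234073369) (nat_lit 608) (nat_lit 956916884) (nat_lit 684) (nat_lit 20398217074) (nat_lit 253) (nat_lit 5) (nat_lit 261) (nat_lit 5) (nat_lit 262) (nat_lit 5) (nat_lit 416) (nat_lit 379) (nat_lit 225))))) (XT.nd (nat_lit 234) (nat_lit 1748)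 (nat_lit 0) (XT.nd (nat_lit 78) (nat_lit 1140) (nat_lit 0) (XT.lf (nat_lit 0) (nat_lit 9027353879) (nat_lit 684) (nat_lit 1706988510) (nat_lit 76) (nat_lit 13269627629) (nat_lit 253) (nat_lit 5) (nat_lit 262) (nat_lit 5) (nat_lit 254) (nat_lit 5) (nat_lit 417) (nat_lit 379) (nat_lit 224)) (XT.nd (nat_lit 78) (nat_lit 532) (nat_lit 0) (XT.lf (nat_lit 0) (nat_lit 15181217723) (nat_lit 684) (nat_lit 5693427118) (nat_lit 76) (nat_lit 3553684081) (nat_lit 245) (nat_lit 5) (nat_lit 254) (nat_lit 5) (nat_lit 246) (nat_lit 5) (nat_lit 418) (nat_lit 379) (nat_lit 223)) (XT.lf (nat_lit 0) (nat_lit 15062454958) (nat_lit 532) (nat_lit 6629481741) (nat_lit 608) (nat_lit 3170038586) (nat_lit 238) (nat_lit 5) (nat_lit 245) (nat_lit 5) (nat_lit 246) (nat_lit 5) (nat_lit 419) (nat_lit 379) (nat_lit 222)))) (XT.nd (nat_lit 78) (nat_lit 1064) (nat_lit 0) (XT.lf (nat_lit 0) (nat_lit 3205438404) (nat_lit 684) (nat_lit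 14031291241) (nat_lit 76) (nat_lit 8068369445) (nat_lit 229) (nat_lit 5) (nat_lit 238) (nat_lit 5) (nat_lit 230) (nat_lit 5) (nat_lit 420) (nat_lit 379) (nat_lit 221)) (XT.nd (nat_lit 78) (nat_lit 532) (nat_lit 0) (XT.lf (nat_lit 0) (nat_lit 7372640940) (nat_lit 532) (nat_lit 2507075007) (nat_lit 608) (nat_lit 15878370856) (nat_lit 222) (nat_lit 5) (nat_lit 229) (nat_lit 5) (nat_lit 230) (nat_lit 5) (nat_lit 421) (nat_lit 379) (nat_lit 220)) (XT.lf (nat_lit 0) (nat_lit 3337574604) (nat_lit 532) (nat_lit 13607728697) (nat_lit 608) (nat_lit 9275540537) (nat_lit 215) (nat_lit 5) (nat_lit 222) (nat_lit 5) (nat_lit 223) (nat_lit 5) (nat_lit 422) (nat_lit 379) (nat_lit 219))))))) (XT.nd (nat_lit 50232) (nat_lit 0) (nat_lit 18544) (XT.nd (nat_lit 49764) (nat_lit 0) (nat_lit 19760) (XT.nd (nat_lit 156) (nat_lit 1520) (nat_lit 0) (XT.nd (nat_lit 78) (nat_lit 532) (nat_lit 0) (XT.lf (nat_lit 0) (nat_lit 24366009645)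 (nat_lit 608) (nat_lit 769275660) (nat_lit 76) (nat_lit 1559336540) (nat_lit 215) (nat_lit 5) (nat_lit 223) (nat_lit 5) (nat_lit 216) (nat_lit 5) (nat_lit 423) (nat_lit 379) (nat_lit 218)) (XT.lf (nat_lit 0) (nat_lit 4991919997) (nat_lit 532) (nat_lit 5013628483) (nat_lit 76) (nat_lit 17171869181) (nat_lit 208) (nat_lit 5) (nat_lit 215) (nat_lit 5) (nat_lit 209) (nat_lit 5) (nat_lit 424) (nat_lit 379) (nat_lit 217))) (XT.nd (nat_lit 78) (nat_lit 988) (nat_lit 0) (XT.lf (nat_lit 0) (nat_lit 12654014029) (nat_lit 608) (nat_lit 9374446641) (nat_lit 76) (nat_lit 5642858374) (nat_lit 201) (nat_lit 5) (nat_lit 209) (nat_lit 5) (nat_lit 202) (nat_lit 5) (nat_lit 425) (nat_lit 379) (nat_lit 216)) (XT.nd (nat_lit 78) (nat_lit 532) (nat_lit 0) (XT.lf (nat_lit 0) (nat_lit 14305578504) (nat_lit 456) (nat_lit 6426518666) (nat_lit 532) (nat_lit 7444218927) (nat_lit 195) (nat_lit 5) (nat_lit 201) (nat_lit 5) (nat_lit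 202) (nat_lit 5) (nat_lit 426) (nat_lit 379) (nat_lit 215)) (XT.lf (nat_lit 0) (nat_lit 537598702) (nat_lit 532) (nat_lit 18507396342) (nat_lit 76) (nat_lit 9647698704) (nat_lit 188) (nat_lit 5) (nat_lit 195) (nat_lit 5) (nat_lit 189) (nat_lit 5) (nat_lit 427) (nat_lit 379) (nat_lit 214))))) (XT.nd (nat_lit 234) (nat_lit 0) (nat_lit 76) (XT.nd (nat_lit 78) (nat_lit 1672) (nat_lit 0) (XT.lf (nat_lit 0) (nat_lit 6269641531) (nat_lit 1748) (nat_lit 245299901) (nat_lit 1748) (nat_lit 245299901) (nat_lit 470) (nat_lit 3) (nat_lit 493) (nat_lit 3) (nat_lit 493) (nat_lit 5) (nat_lit 380) (nat_lit 380) (nat_lit 260)) (XT.nd (nat_lit 78) (nat_lit 1672) (nat_lit 0) (XT.lf (nat_lit 76) (nat_lit 9496093369) (nat_lit 0) (nat_lit 3834922280) (nat_lit 1748) (nat_lit 380078007) (nat_lit 471) (nat_lit 5) (nat_lit 470) (nat_lit 3) (nat_lit 493) (nat_lit 5) (nat_lit 381) (nat_lit 380) (nat_lit 259)) (XT.lf (nat_lit 0)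 (nat_lit 293477046) (nat_lit 1748) (nat_lit 7996985723) (nat_lit 1824) (nat_lit 5615783174) (nat_lit 448) (nat_lit 5) (nat_lit 471) (nat_lit 5) (nat_lit 472) (nat_lit 5) (nat_lit 382) (nat_lit 380) (nat_lit 258)))) (XT.nd (nat_lit 78) (nat_lit 0) (nat_lit 0) (XT.lf (nat_lit 0) (nat_lit 1038639933) (nat_lit 1748) (nat_lit 11836097903) (nat_lit 1824) (nat_lit 1231338000) (nat_lit 449) (nat_lit 5) (nat_lit 472) (nat_lit 5) (nat_lit 473) (nat_lit 5) (nat_lit 383) (nat_lit 380) (nat_lit 257)) (XT.nd (nat_lit 78) (nat_lit 0) (nat_lit 76) (XT.lf (nat_lit 0) (nat_lit 1895982868) (nat_lit 1748) (nat_lit 1424007362) (nat_lit 1824) (nat_lit 10990118343) (nat_lit 449) (nat_lit 5) (nat_lit 472) (nat_lit 5) (nat_lit 473) (nat_lit 5) (nat_lit 384) (nat_lit 380) (nat_lit 256)) (XT.lf (nat_lit 0) (nat_lit 2863378052) (nat_lit 1748) (nat_lit 5149803358) (nat_lit 1824) (nat_lit 6505398562) (nat_lit 450) (nat_lit 5) (nat_lit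 473) (nat_lit 5) (nat_lit 474) (nat_lit 5) (nat_lit 385) (nat_lit 380) (nat_lit 255)))))) (XT.nd (nat_lit 390) (nat_lit 1444) (nat_lit 0) (XT.nd (nat_lit 156) (nat_lit 0) (nat_lit 76) (XT.nd (nat_lit 78) (nat_lit 0) (nat_lit 0) (XT.lf (nat_lit 0) (nat_lit 3922787610) (nat_lit 1748) (nat_lit 8930658114) (nat_lit 1824) (nat_lit 1878604134) (nat_lit 451) (nat_lit 5) (nat_lit 474) (nat_lit 5) (nat_lit 475) (nat_lit 5) (nat_lit 386) (nat_lit 380) (nat_lit 254)) (XT.lf (nat_lit 76) (nat_lit 2162995708) (nat_lit 0) (nat_lit 2935237253) (nat_lit 1824) (nat_lit 9852009882) (nat_lit 452) (nat_lit 5) (nat_lit 451) (nat_lit 5) (nat_lit 475) (nat_lit 5) (nat_lit 387) (nat_lit 380) (nat_lit 253))) (XT.nd (nat_lit 78) (nat_lit 0) (nat_lit 76) (XT.lf (nat_lit 0) (nat_lit 6399127360) (nat_lit 1748) (nat_lit 1521892226) (nat_lit 1824) (nat_lit 7252162272) (nat_lit 452) (nat_lit 5) (nat_lit 475) (nat_lit 5) (nat_lit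 476) (nat_lit 5) (nat_lit 388) (nat_lit 380) (nat_lit 252)) (XT.nd (nat_lit 78) (nat_lit 0) (nat_lit 0) (XT.lf (nat_lit 0) (nat_lit 7822746634) (nat_lit 1748) (nat_lit 5233321980) (nat_lit 1824) (nat_lit 2345070306) (nat_lit 453) (nat_lit 5) (nat_lit 476) (nat_lit 5) (nat_lit 477) (nat_lit 5) (nat_lit 389) (nat_lit 380) (nat_lit 251)) (XT.lf (nat_lit 76) (nat_lit 6615050657) (nat_lit 0) (nat_lit 2763316930) (nat_lit 1824) (nat_lit 6255784973) (nat_lit 454) (nat_lit 5) (nat_lit 453) (nat_lit 5) (nat_lit 477) (nat_lit 5) (nat_lit 390) (nat_lit 380) (nat_lit 250))))) (XT.nd (nat_lit 234) (nat_lit 1672) (nat_lit 0) (XT.nd (nat_lit 78) (nat_lit 0) (nat_lit 76) (XT.lf (nat_lit 76) (nat_lit 2993029856) (nat_lit 0) (nat_lit 8077089731) (nat_lit 1824) (nat_lit 4802251390) (nat_lit 455) (nat_lit 5) (nat_lit 454) (nat_lit 5) (nat_lit 478) (nat_lit 5) (nat_lit 391) (nat_lit 380) (nat_lit 249)) (XT.nd (nat_lit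 78) (nat_lit 0) (nat_lit 0) (XT.lf (nat_lit 0) (nat_lit 12892710602) (nat_lit 1748) (nat_lit 674946905) (nat_lit 1824) (nat_lit 2548480225) (nat_lit 455) (nat_lit 5) (nat_lit 478) (nat_lit 5) (nat_lit 479) (nat_lit 5) (nat_lit 392) (nat_lit 380) (nat_lit 248)) (XT.lf (nat_lit 76) (nat_lit 11986815348) (nat_lit 0) (nat_lit 2899348265) (nat_lit 1824) (nat_lit 1478733601) (nat_lit 456) (nat_lit 5) (nat_lit 455) (nat_lit 5) (nat_lit 479) (nat_lit 5) (nat_lit 393) (nat_lit 380) (nat_lit 247)))) (XT.nd (nat_lit 78) (nat_lit 0) (nat_lit 76) (XT.lf (nat_lit 0) (nat_lit 411579863) (nat_lit 1824) (nat_lit 8158904495) (nat_lit 1900) (nat_lit 8048647963) (nat_lit 432) (nat_lit 5) (nat_lit 456) (nat_lit 5) (nat_lit 457) (nat_lit 5) (nat_lit 394) (nat_lit 380) (nat_lit 246)) (XT.nd (nat_lit 78) (nat_lit 0) (nat_lit 0) (XT.lf (nat_lit 0) (nat_lit 2420720869) (nat_lit 1824) (nat_lit 12009874930) (nat_lit 1900) (nat_lit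 2448562179) (nat_lit 433) (nat_lit 5) (nat_lit 457) (nat_lit 5) (nat_lit 458) (nat_lit 5) (nat_lit 395) (nat_lit 380) (nat_lit 245)) (XT.lf (nat_lit 76) (nat_lit 1199956051) (nat_lit 0) (nat_lit 3396326609) (nat_lit 1900) (nat_lit 12548581873) (nat_lit 434) (nat_lit 5) (nat_lit 433) (nat_lit 5) (nat_lit 458) (nat_lit 5) (nat_lit 396) (nat_lit 380) (nat_lit 244))))))))
noncomputable def xc107 : XT := (XT.nd (nat_lit 1716) (nat_lit 4940) (nat_lit 0) (XT.nd (nat_lit 858) (nat_lit 6232) (nat_lit 0) (XT.nd (nat_lit 390) (nat_lit 3344) (nat_lit 0) (XT.nd (nat_lit 156) (nat_lit 2736) (nat_lit 0) (XT.nd (nat_lit 78) (nat_lit 1444) (nat_lit 0) (XT.lf (nat_lit 0) (nat_lit 6956522508) (nat_lit 1824) (nat_lit 2511041763) (nat_lit 76) (nat_lit 7948592760) (nat_lit 434) (nat_lit 5) (nat_lit 458) (nat_lit 5) (nat_lit 435) (nat_lit 5) (nat_lit 397) (nat_lit 380) (nat_lit 243)) (XT.lf (nat_lit 0) (nat_lit 9483524722)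 (nat_lit 1520) (nat_lit 6265504251) (nat_lit 76) (nat_lit 1944643111) (nat_lit 415) (nat_lit 5) (nat_lit 435) (nat_lit 5) (nat_lit 416) (nat_lit 5) (nat_lit 398) (nat_lit 380) (nat_lit 242))) (XT.nd (nat_lit 78) (nat_lit 1824) (nat_lit 0) (XT.lf (nat_lit 0) (nat_lit 7868468292) (nat_lit 912) (nat_lit 4335900710) (nat_lit 988) (nat_lit 5772785750) (nat_lit 403) (nat_lit 5) (nat_lit 415) (nat_lit 5) (nat_lit 416) (nat_lit 5) (nat_lit 399) (nat_lit 380) (nat_lit 241)) (XT.nd (nat_lit 78) (nat_lit 912) (nat_lit 0) (XT.lf (nat_lit 0) (nat_lit 4238936670) (nat_lit 912) (nat_lit 10873162544) (nat_lit 988) (nat_lit 3154940190) (nat_lit 391) (nat_lit 5) (nat_lit 403) (nat_lit 5) (nat_lit 404) (nat_lit 5) (nat_lit 400) (nat_lit 380) (nat_lit 240)) (XT.lf (nat_lit 0) (nat_lit 551346078) (nat_lit 912) (nat_lit 17649723147) (nat_lit 988) (nat_lit 362673853) (nat_lit 379) (nat_lit 5) (nat_lit 391) (nat_lit 5) (nat_lit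 392) (nat_lit 5) (nat_lit 401) (nat_lit 380) (nat_lit 239))))) (XT.nd (nat_lit 234) (nat_lit 1596) (nat_lit 0) (XT.nd (nat_lit 78) (nat_lit 1672) (nat_lit 0) (XT.lf (nat_lit 0) (nat_lit 2636149743) (nat_lit 988) (nat_lit 3209086754) (nat_lit 76) (nat_lit 13020672461) (nat_lit 378) (nat_lit 5) (nat_lit 391) (nat_lit 5) (nat_lit 379) (nat_lit 5) (nat_lit 402) (nat_lit 380) (nat_lit 238)) (XT.nd (nat_lit 78) (nat_lit 836) (nat_lit 0) (XT.lf (nat_lit 0) (nat_lit 5828397035) (nat_lit 912) (nat_lit 7033420866) (nat_lit 76) (nat_lit 6313108681) (nat_lit 367) (nat_lit 5) (nat_lit 379) (nat_lit 5) (nat_lit 368) (nat_lit 5) (nat_lit 403) (nat_lit 380) (nat_lit 237)) (XT.lf (nat_lit 0) (nat_lit 8564986210) (nat_lit 836) (nat_lit 656018028) (nat_lit 912) (nat_lit 10270121013) (nat_lit 356) (nat_lit 5) (nat_lit 367) (nat_lit 5) (nat_lit 368) (nat_lit 5) (nat_lit 404) (nat_lit 380) (nat_lit 236)))) (XT.nd (nat_lit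 78) (nat_lit 836) (nat_lit 0) (XT.lf (nat_lit 0) (nat_lit 4886247053) (nat_lit 760) (nat_lit 7974487247) (nat_lit 836) (nat_lit 6953170989) (nat_lit 346) (nat_lit 5) (nat_lit 356) (nat_lit 5) (nat_lit 357) (nat_lit 5) (nat_lit 405) (nat_lit 380) (nat_lit 235)) (XT.nd (nat_lit 78) (nat_lit 76) (nat_lit 0) (XT.lf (nat_lit 0) (nat_lit 1146335504) (nat_lit 760) (nat_lit 15567763022) (nat_lit 836) (nat_lit 3430183588) (nat_lit 336) (nat_lit 5) (nat_lit 346) (nat_lit 5) (nat_lit 347) (nat_lit 5) (nat_lit 406) (nat_lit 380) (nat_lit 234)) (XT.lf (nat_lit 0) (nat_lit 339765445) (nat_lit 836) (nat_lit 2642866303) (nat_lit 76) (nat_lit 17499037340) (nat_lit 335) (nat_lit 5) (nat_lit 346) (nat_lit 5) (nat_lit 336) (nat_lit 5) (nat_lit 407) (nat_lit 380) (nat_lit 233)))))) (XT.nd (nat_lit 390) (nat_lit 3268) (nat_lit 0) (XT.nd (nat_lit 156) (nat_lit 1444) (nat_lit 0) (XT.nd (nat_lit 78) (nat_lit 760) (nat_lit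 0) (XT.lf (nat_lit 0) (nat_lit 4324301521) (nat_lit 836) (nat_lit 6535986506) (nat_lit 76) (nat_lit 9965476410) (nat_lit 325) (nat_lit 5) (nat_lit 336) (nat_lit 5) (nat_lit 326) (nat_lit 5) (nat_lit 408) (nat_lit 380) (nat_lit 232)) (XT.lf (nat_lit 0) (nat_lit 8539170851) (nat_lit 836) (nat_lit 10496971452) (nat_lit 76) (nat_lit 2141826404) (nat_lit 315) (nat_lit 5) (nat_lit 326) (nat_lit 5) (nat_lit 316) (nat_lit 5) (nat_lit 409) (nat_lit 380) (nat_lit 231))) (XT.nd (nat_lit 78) (nat_lit 760) (nat_lit 0) (XT.lf (nat_lit 0) (nat_lit 6971000731) (nat_lit 684) (nat_lit 6061479599) (nat_lit 760) (nat_lit 8505220837) (nat_lit 306) (nat_lit 5) (nat_lit 315) (nat_lit 5) (nat_lit 316) (nat_lit 5) (nat_lit 410) (nat_lit 380) (nat_lit 230)) (XT.nd (nat_lit 78) (nat_lit 76) (nat_lit 0) (XT.lf (nat_lit 0) (nat_lit 3182126168) (nat_lit 684) (nat_lit 14607883766) (nat_lit 760) (nat_lit 4115629138) (nat_lit 297)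 (nat_lit 5) (nat_lit 306) (nat_lit 5) (nat_lit 307) (nat_lit 5) (nat_lit 411) (nat_lit 380) (nat_lit 229)) (XT.lf (nat_lit 0) (nat_lit 530130745) (nat_lit 760) (nat_lit 675220873) (nat_lit 76) (nat_lit 21076616606) (nat_lit 296) (nat_lit 5) (nat_lit 306) (nat_lit 5) (nat_lit 297) (nat_lit 5) (nat_lit 412) (nat_lit 380) (nat_lit 228))))) (XT.nd (nat_lit 234) (nat_lit 1292) (nat_lit 0) (XT.nd (nat_lit 78) (nat_lit 1292) (nat_lit 0) (XT.lf (nat_lit 0) (nat_lit 5450221861) (nat_lit 760) (nat_lit 4636309357) (nat_lit 76) (nat_lit 12578696216) (nat_lit 287) (nat_lit 5) (nat_lit 297) (nat_lit 5) (nat_lit 288) (nat_lit 5) (nat_lit 413) (nat_lit 380) (nat_lit 227)) (XT.nd (nat_lit 78) (nat_lit 608) (nat_lit 0) (XT.lf (nat_lit 0) (nat_lit 10639227106) (nat_lit 760) (nat_lit 8669475186) (nat_lit 76) (nat_lit 3748857595) (nat_lit 278) (nat_lit 5) (nat_lit 288) (nat_lit 5) (nat_lit 279) (nat_lit 5) (nat_lit 414)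 (nat_lit 380) (nat_lit 226)) (XT.lf (nat_lit 0) (nat_lit 10646380128) (nat_lit 608) (nat_lit 5496322096) (nat_lit 684) (nat_lit 7315785740) (nat_lit 270) (nat_lit 5) (nat_lit 278) (nat_lit 5) (nat_lit 279) (nat_lit 5) (nat_lit 415) (nat_lit 380) (nat_lit 225)))) (XT.nd (nat_lit 78) (nat_lit 684) (nat_lit 0) (XT.lf (nat_lit 0) (nat_lit 6811149452) (nat_lit 608) (nat_lit 15150962783) (nat_lit 684) (nat_lit 1906316631) (nat_lit 262) (nat_lit 5) (nat_lit 270) (nat_lit 5) (nat_lit 271) (nat_lit 5) (nat_lit 416) (nat_lit 380) (nat_lit 224)) (XT.nd (nat_lit 78) (nat_lit 0) (nat_lit 0) (XT.lf (nat_lit 0) (nat_lit 2874964281) (nat_lit 608) (nat_lit 876139433) (nat_lit 684) (nat_lit 20536415033) (nat_lit 253) (nat_lit 5) (nat_lit 261) (nat_lit 5) (nat_lit 262) (nat_lit 5) (nat_lit 417) (nat_lit 380) (nat_lit 223)) (XT.lf (nat_lit 0) (nat_lit 9749722653) (nat_lit 684) (nat_lit 1192642183) (nat_lit 76) (nat_lit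 13772618440) (nat_lit 253) (nat_lit 5) (nat_lit 262) (nat_lit 5) (nat_lit 254) (nat_lit 5) (nat_lit 418) (nat_lit 380) (nat_lit 222))))))) (XT.nd (nat_lit 50232) (nat_lit 0) (nat_lit 19684) (XT.nd (nat_lit 390) (nat_lit 2052) (nat_lit 0) (XT.nd (nat_lit 156) (nat_lit 1748) (nat_lit 0) (XT.nd (nat_lit 78) (nat_lit 532) (nat_lit 0) (XT.lf (nat_lit 0) (nat_lit 16079405494) (nat_lit 684) (nat_lit 5299679130) (nat_lit 76) (nat_lit 3773166444) (nat_lit 245) (nat_lit 5) (nat_lit 254) (nat_lit 5) (nat_lit 246) (nat_lit 5) (nat_lit 419) (nat_lit 380) (nat_lit 221)) (XT.lf (nat_lit 0) (nat_lit 16069720242) (nat_lit 532) (nat_lit 6706436100) (nat_lit 608) (nat_lit 2822938390) (nat_lit 238) (nat_lit 5) (nat_lit 245) (nat_lit 5) (nat_lit 246) (nat_lit 5) (nat_lit 420) (nat_lit 380) (nat_lit 220))) (XT.nd (nat_lit 78) (nat_lit 1064) (nat_lit 0) (XT.lf (nat_lit 0) (nat_lit 3729688376) (nat_lit 684) (nat_lit 13892273472)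 (nat_lit 76) (nat_lit 8433661298) (nat_lit 229) (nat_lit 5) (nat_lit 238) (nat_lit 5) (nat_lit 230) (nat_lit 5) (nat_lit 421) (nat_lit 380) (nat_lit 219)) (XT.nd (nat_lit 78) (nat_lit 532) (nat_lit 0) (XT.lf (nat_lit 0) (nat_lit 8144692045) (nat_lit 532) (nat_lit 2450610277) (nat_lit 608) (nat_lit 15927077962) (nat_lit 222) (nat_lit 5) (nat_lit 229) (nat_lit 5) (nat_lit 230) (nat_lit 5) (nat_lit 422) (nat_lit 380) (nat_lit 218)) (XT.lf (nat_lit 0) (nat_lit 3987107459) (nat_lit 532) (nat_lit 13877937418) (nat_lit 608) (nat_lit 9134133304) (nat_lit 215) (nat_lit 5) (nat_lit 222) (nat_lit 5) (nat_lit 223) (nat_lit 5) (nat_lit 423) (nat_lit 380) (nat_lit 217))))) (XT.nd (nat_lit 234) (nat_lit 988) (nat_lit 0) (XT.nd (nat_lit 78) (nat_lit 1064) (nat_lit 0) (XT.lf (nat_lit 0) (nat_lit 25497260433) (nat_lit 608) (nat_lit 251770966) (nat_lit 76) (nat_lit 1738362211) (nat_lit 215) (nat_lit 5) (nat_lit 223)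 (nat_lit 5) (nat_lit 216) (nat_lit 5) (nat_lit 424) (nat_lit 380) (nat_lit 216)) (XT.nd (nat_lit 78) (nat_lit 532) (nat_lit 0) (XT.lf (nat_lit 0) (nat_lit 5536397976) (nat_lit 532) (nat_lit 4626920545) (nat_lit 76) (nat_lit 17821468744) (nat_lit 208) (nat_lit 5) (nat_lit 215) (nat_lit 5) (nat_lit 209) (nat_lit 5) (nat_lit 425) (nat_lit 380) (nat_lit 215)) (XT.lf (nat_lit 0) (nat_lit 13421209184) (nat_lit 608) (nat_lit 9120407751) (nat_lit 76) (nat_lit 5952033372) (nat_lit 201) (nat_lit 5) (nat_lit 209) (nat_lit 5) (nat_lit 202) (nat_lit 5) (nat_lit 426) (nat_lit 380) (nat_lit 214)))) (XT.nd (nat_lit 78) (nat_lit 532) (nat_lit 0) (XT.lf (nat_lit 0) (nat_lit 15261333992) (nat_lit 456) (nat_lit 6472431202) (nat_lit 532) (nat_lit 7280191124) (nat_lit 195) (nat_lit 5) (nat_lit 201) (nat_lit 5) (nat_lit 202) (nat_lit 5) (nat_lit 427) (nat_lit 380) (nat_lit 213)) (XT.nd (nat_lit 49452) (nat_lit 0) (nat_lit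 19684) (XT.lf (nat_lit 0) (nat_lit 929227446) (nat_lit 532) (nat_lit 18532943683) (nat_lit 76) (nat_lit 10083740912) (nat_lit 188) (nat_lit 5) (nat_lit 195) (nat_lit 5) (nat_lit 189) (nat_lit 5) (nat_lit 428) (nat_lit 380) (nat_lit 212)) (XT.lf (nat_lit 0) (nat_lit 21020020) (nat_lit 0) (nat_lit 21020020) (nat_lit 1748) (nat_lit 6910139737) (nat_lit 447) (nat_lit 5) (nat_lit 447) (nat_lit 3) (nat_lit 470) (nat_lit 3) (nat_lit 381) (nat_lit 381) (nat_lit 258)))))) (XT.nd (nat_lit 390) (nat_lit 0) (nat_lit 304) (XT.nd (nat_lit 156) (nat_lit 0) (nat_lit 152) (XT.nd (nat_lit 78) (nat_lit 0) (nat_lit 76) (XT.lf (nat_lit 0) (nat_lit 666600137) (nat_lit 1748) (nat_lit 3785931315) (nat_lit 1824) (nat_lit 9648654298) (nat_lit 447) (nat_lit 5) (nat_lit 470) (nat_lit 3) (nat_lit 471) (nat_lit 5) (nat_lit 382) (nat_lit 381) (nat_lit 257)) (XT.lf (nat_lit 0) (nat_lit 1324963028) (nat_lit 1748) (nat_lit 7669019222)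 (nat_lit 1824) (nat_lit 5308771585) (nat_lit 448) (nat_lit 5) (nat_lit 471) (nat_lit 5) (nat_lit 472) (nat_lit 5) (nat_lit 383) (nat_lit 381) (nat_lit 256))) (XT.nd (nat_lit 78) (nat_lit 0) (nat_lit 0) (XT.lf (nat_lit 0) (nat_lit 2063478296) (nat_lit 1748) (nat_lit 11609525295) (nat_lit 1824) (nat_lit 836161663) (nat_lit 449) (nat_lit 5) (nat_lit 472) (nat_lit 5) (nat_lit 473) (nat_lit 5) (nat_lit 384) (nat_lit 381) (nat_lit 255)) (XT.nd (nat_lit 78) (nat_lit 0) (nat_lit 76) (XT.lf (nat_lit 0) (nat_lit 2917599407) (nat_lit 1748) (nat_lit 902013462) (nat_lit 1824) (nat_lit 10900291332) (nat_lit 449) (nat_lit 5) (nat_lit 472) (nat_lit 5) (nat_lit 473) (nat_lit 5) (nat_lit 385) (nat_lit 381) (nat_lit 254)) (XT.lf (nat_lit 0) (nat_lit 3887026645) (nat_lit 1748) (nat_lit 4727235888) (nat_lit 1824) (nat_lit 6320913207) (nat_lit 450) (nat_lit 5) (nat_lit 473) (nat_lit 5) (nat_lit 474) (nat_lit 5) (nat_lit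 386) (nat_lit 381) (nat_lit 253))))) (XT.nd (nat_lit 234) (nat_lit 0) (nat_lit 152) (XT.nd (nat_lit 78) (nat_lit 0) (nat_lit 0) (XT.lf (nat_lit 0) (nat_lit 4952342151) (nat_lit 1748) (nat_lit 8610146163) (nat_lit 1824) (nat_lit 1593084955) (nat_lit 451) (nat_lit 5) (nat_lit 474) (nat_lit 5) (nat_lit 475) (nat_lit 5) (nat_lit 387) (nat_lit 381) (nat_lit 252)) (XT.nd (nat_lit 78) (nat_lit 0) (nat_lit 76) (XT.lf (nat_lit 76) (nat_lit 2806770668) (nat_lit 0) (nat_lit 3333479353) (nat_lit 1824) (nat_lit 9240523884) (nat_lit 452) (nat_lit 5) (nat_lit 451) (nat_lit 5) (nat_lit 475) (nat_lit 5) (nat_lit 388) (nat_lit 381) (nat_lit 251)) (XT.lf (nat_lit 0) (nat_lit 7452320738) (nat_lit 1748) (nat_lit 986116721) (nat_lit 1824) (nat_lit 7172526315) (nat_lit 452) (nat_lit 5) (nat_lit 475) (nat_lit 5) (nat_lit 476) (nat_lit 5) (nat_lit 389) (nat_lit 381) (nat_lit 250)))) (XT.nd (nat_lit 78) (nat_lit 0) (nat_lit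 0) (XT.lf (nat_lit 0) (nat_lit 8895539264) (nat_lit 1748) (nat_lit 4799602731) (nat_lit 1824) (nat_lit 2151085249) (nat_lit 453) (nat_lit 5) (nat_lit 476) (nat_lit 5) (nat_lit 477) (nat_lit 5) (nat_lit 390) (nat_lit 381) (nat_lit 249)) (XT.nd (nat_lit 78) (nat_lit 0) (nat_lit 76) (XT.lf (nat_lit 76) (nat_lit 7394637372) (nat_lit 0) (nat_lit 3082553611) (nat_lit 1824) (nat_lit 5609458416) (nat_lit 454) (nat_lit 5) (nat_lit 453) (nat_lit 5) (nat_lit 477) (nat_lit 5) (nat_lit 391) (nat_lit 381) (nat_lit 248)) (XT.lf (nat_lit 76) (nat_lit 3672296877) (nat_lit 0) (nat_lit 8525926297) (nat_lit 1824) (nat_lit 4134225836) (nat_lit 455) (nat_lit 5) (nat_lit 454) (nat_lit 5) (nat_lit 478) (nat_lit 5) (nat_lit 392) (nat_lit 381) (nat_lit 247))))))))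
noncomputable def xc108 : XT := (XT.nd (nat_lit 1716) (nat_lit 6992) (nat_lit 0) (XT.nd (nat_lit 858) (nat_lit 6916) (nat_lit 0) (XT.nd (nat_lit 390) (nat_lit 4104) (nat_lit 0) (XT.nd (nat_lit 156) (nat_lit 1748) (nat_lit 0) (XT.nd (nat_lit 78) (nat_lit 0) (nat_lit 0) (XT.lf (nat_lit 0) (nat_lit 14051005619) (nat_lit 1748) (nat_lit 105962194) (nat_lit 1824) (nat_lit 2427055723) (nat_lit 455) (nat_lit 5) (nat_lit 478) (nat_lit 5) (nat_lit 479) (nat_lit 5) (nat_lit 393) (nat_lit 381) (nat_lit 246)) (XT.lf (nat_lit 76) (nat_lit 12926093320) (nat_lit 0) (nat_lit 3159461253) (nat_lit 1824) (nat_lit 755070277) (nat_lit 456) (nat_lit 5) (nat_lit 455) (nat_lit 5) (nat_lit 479) (nat_lit 5) (nat_lit 394) (nat_lit 381) (nat_lit 245))) (XT.nd (nat_lit 78) (nat_lit 0) (nat_lit 76) (XT.lf (nat_lit 0) (nat_lit 1162537102) (nat_lit 1824) (nat_lit 7807353373) (nat_lit 1900) (nat_lit 8132888317) (nat_lit 432) (nat_lit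 5) (nat_lit 456) (nat_lit 5) (nat_lit 457) (nat_lit 5) (nat_lit 395) (nat_lit 381) (nat_lit 244)) (XT.nd (nat_lit 78) (nat_lit 0) (nat_lit 0) (XT.lf (nat_lit 0) (nat_lit 3213376591) (nat_lit 1824) (nat_lit 11768086862) (nat_lit 1900) (nat_lit 2389517803) (nat_lit 433) (nat_lit 5) (nat_lit 457) (nat_lit 5) (nat_lit 458) (nat_lit 5) (nat_lit 396) (nat_lit 381) (nat_lit 243)) (XT.lf (nat_lit 76) (nat_lit 1828270945) (nat_lit 0) (nat_lit 3608808133) (nat_lit 1900) (nat_lit 12207926844) (nat_lit 434) (nat_lit 5) (nat_lit 433) (nat_lit 5) (nat_lit 458) (nat_lit 5) (nat_lit 397) (nat_lit 381) (nat_lit 242))))) (XT.nd (nat_lit 234) (nat_lit 1900) (nat_lit 0) (XT.nd (nat_lit 78) (nat_lit 2356) (nat_lit 0) (XT.lf (nat_lit 0) (nat_lit 7846955954) (nat_lit 1824) (nat_lit 1996820790) (nat_lit 76) (nat_lit 8081088119) (nat_lit 434) (nat_lit 5) (nat_lit 458) (nat_lit 5) (nat_lit 435) (nat_lit 5) (nat_lit 398) (nat_lit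 381) (nat_lit 241)) (XT.nd (nat_lit 78) (nat_lit 912) (nat_lit 0) (XT.lf (nat_lit 0) (nat_lit 10433121299) (nat_lit 1520) (nat_lit 5859474854) (nat_lit 76) (nat_lit 1918446294) (nat_lit 415) (nat_lit 5) (nat_lit 435) (nat_lit 5) (nat_lit 416) (nat_lit 5) (nat_lit 399) (nat_lit 381) (nat_lit 240)) (XT.lf (nat_lit 0) (nat_lit 8688880010) (nat_lit 912) (nat_lit 4531133357) (nat_lit 988) (nat_lit 5283331796) (nat_lit 403) (nat_lit 5) (nat_lit 415) (nat_lit 5) (nat_lit 416) (nat_lit 5) (nat_lit 400) (nat_lit 381) (nat_lit 239)))) (XT.nd (nat_lit 78) (nat_lit 988) (nat_lit 0) (XT.lf (nat_lit 0) (nat_lit 4954309407) (nat_lit 912) (nat_lit 11245156518) (nat_lit 988) (nat_lit 2602774523) (nat_lit 391) (nat_lit 5) (nat_lit 403) (nat_lit 5) (nat_lit 404) (nat_lit 5) (nat_lit 401) (nat_lit 381) (nat_lit 238)) (XT.nd (nat_lit 78) (nat_lit 0) (nat_lit 0) (XT.lf (nat_lit 0) (nat_lit 254659396) (nat_lit 988) (nat_lit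 17950379675) (nat_lit 76) (nat_lit 903074723) (nat_lit 378) (nat_lit 5) (nat_lit 391) (nat_lit 5) (nat_lit 379) (nat_lit 5) (nat_lit 402) (nat_lit 381) (nat_lit 237)) (XT.lf (nat_lit 0) (nat_lit 3320393689) (nat_lit 988) (nat_lit 2722870157) (nat_lit 76) (nat_lit 13376398998) (nat_lit 378) (nat_lit 5) (nat_lit 391) (nat_lit 5) (nat_lit 379) (nat_lit 5) (nat_lit 403) (nat_lit 381) (nat_lit 236)))))) (XT.nd (nat_lit 390) (nat_lit 3648) (nat_lit 0) (XT.nd (nat_lit 156) (nat_lit 1596) (nat_lit 0) (XT.nd (nat_lit 78) (nat_lit 836) (nat_lit 0) (XT.lf (nat_lit 0) (nat_lit 6594384681) (nat_lit 912) (nat_lit 6659324452) (nat_lit 76) (nat_lit 6484525838) (nat_lit 367) (nat_lit 5) (nat_lit 379) (nat_lit 5) (nat_lit 368) (nat_lit 5) (nat_lit 404) (nat_lit 381) (nat_lit 235)) (XT.lf (nat_lit 0) (nat_lit 9397542300) (nat_lit 836) (nat_lit 677747475) (nat_lit 912) (nat_lit 9988902832) (nat_lit 356) (nat_lit 5) (nat_lit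 367) (nat_lit 5) (nat_lit 368) (nat_lit 5) (nat_lit 405) (nat_lit 381) (nat_lit 234))) (XT.nd (nat_lit 78) (nat_lit 836) (nat_lit 0) (XT.lf (nat_lit 0) (nat_lit 5610592651) (nat_lit 760) (nat_lit 8200532446) (nat_lit 836) (nat_lit 6585795981) (nat_lit 346) (nat_lit 5) (nat_lit 356) (nat_lit 5) (nat_lit 357) (nat_lit 5) (nat_lit 406) (nat_lit 381) (nat_lit 233)) (XT.nd (nat_lit 78) (nat_lit 76) (nat_lit 0) (XT.lf (nat_lit 0) (nat_lit 1760242467) (nat_lit 760) (nat_lit 16007249782) (nat_lit 836) (nat_lit 2969972124) (nat_lit 336) (nat_lit 5) (nat_lit 346) (nat_lit 5) (nat_lit 347) (nat_lit 5) (nat_lit 407) (nat_lit 381) (nat_lit 232)) (XT.lf (nat_lit 0) (nat_lit 889503643) (nat_lit 836) (nat_lit 2152242609) (nat_lit 76) (nat_lit 18043480357) (nat_lit 335) (nat_lit 5) (nat_lit 346) (nat_lit 5) (nat_lit 336) (nat_lit 5) (nat_lit 408) (nat_lit 381) (nat_lit 231))))) (XT.nd (nat_lit 234) (nat_lit 1444) (nat_lit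 0) (XT.nd (nat_lit 78) (nat_lit 1444) (nat_lit 0) (XT.lf (nat_lit 0) (nat_lit 4981716603) (nat_lit 836) (nat_lit 6160969941) (nat_lit 76) (nat_lit 10297198420) (nat_lit 325) (nat_lit 5) (nat_lit 336) (nat_lit 5) (nat_lit 326) (nat_lit 5) (nat_lit 409) (nat_lit 381) (nat_lit 230)) (XT.nd (nat_lit 78) (nat_lit 684) (nat_lit 0) (XT.lf (nat_lit 0) (nat_lit 9311608090) (nat_lit 836) (nat_lit 10239932489) (nat_lit 76) (nat_lit 2251346135) (nat_lit 315) (nat_lit 5) (nat_lit 326) (nat_lit 5) (nat_lit 316) (nat_lit 5) (nat_lit 410) (nat_lit 381) (nat_lit 229)) (XT.lf (nat_lit 0) (nat_lit 7742799681) (nat_lit 684) (nat_lit 6185533631) (nat_lit 760) (nat_lit 8245308297) (nat_lit 306) (nat_lit 5) (nat_lit 315) (nat_lit 5) (nat_lit 316) (nat_lit 5) (nat_lit 411) (nat_lit 381) (nat_lit 228)))) (XT.nd (nat_lit 78) (nat_lit 760) (nat_lit 0) (XT.lf (nat_lit 0) (nat_lit 3840786382) (nat_lit 684) (nat_lit 14977118150)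 (nat_lit 760) (nat_lit 3734929514) (nat_lit 297) (nat_lit 5) (nat_lit 306) (nat_lit 5) (nat_lit 307) (nat_lit 5) (nat_lit 412) (nat_lit 381) (nat_lit 227)) (XT.nd (nat_lit 78) (nat_lit 684) (nat_lit 0) (XT.lf (nat_lit 0) (nat_lit 1029098976) (nat_lit 760) (nat_lit 142179216) (nat_lit 76) (nat_lit 21769401830) (nat_lit 296) (nat_lit 5) (nat_lit 306) (nat_lit 5) (nat_lit 297) (nat_lit 5) (nat_lit 413) (nat_lit 381) (nat_lit 226)) (XT.lf (nat_lit 0) (nat_lit 6086723217) (nat_lit 760) (nat_lit 4222009061) (nat_lit 76) (nat_lit 13026908627) (nat_lit 287) (nat_lit 5) (nat_lit 297) (nat_lit 5) (nat_lit 288) (nat_lit 5) (nat_lit 414) (nat_lit 381) (nat_lit 225))))))) (XT.nd (nat_lit 858) (nat_lit 1064) (nat_lit 0) (XT.nd (nat_lit 390) (nat_lit 3344) (nat_lit 0) (XT.nd (nat_lit 156) (nat_lit 1292) (nat_lit 0) (XT.nd (nat_lit 78) (nat_lit 608) (nat_lit 0) (XT.lf (nat_lit 0) (nat_lit 11421686938) (nat_lit 760)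 (nat_lit 8376342051) (nat_lit 76) (nat_lit 3941911007) (nat_lit 278) (nat_lit 5) (nat_lit 288) (nat_lit 5) (nat_lit 279) (nat_lit 5) (nat_lit 415) (nat_lit 381) (nat_lit 224)) (XT.lf (nat_lit 0) (nat_lit 11510013628) (nat_lit 608) (nat_lit 5570292583) (nat_lit 684) (nat_lit 7072791267) (nat_lit 270) (nat_lit 5) (nat_lit 278) (nat_lit 5) (nat_lit 279) (nat_lit 5) (nat_lit 416) (nat_lit 381) (nat_lit 223))) (XT.nd (nat_lit 78) (nat_lit 684) (nat_lit 0) (XT.lf (nat_lit 0) (nat_lit 7559312377) (nat_lit 608) (nat_lit 15505886574) (nat_lit 684) (nat_lit 1510321939) (nat_lit 262) (nat_lit 5) (nat_lit 270) (nat_lit 5) (nat_lit 271) (nat_lit 5) (nat_lit 417) (nat_lit 381) (nat_lit 222)) (XT.nd (nat_lit 78) (nat_lit 0) (nat_lit 0) (XT.lf (nat_lit 0) (nat_lit 3502139508) (nat_lit 608) (nat_lit 799223544) (nat_lit 684) (nat_lit 20705954035) (nat_lit 253) (nat_lit 5) (nat_lit 261) (nat_lit 5) (nat_lit 262) (nat_lit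 5) (nat_lit 418) (nat_lit 381) (nat_lit 221)) (XT.lf (nat_lit 0) (nat_lit 10467841779) (nat_lit 684) (nat_lit 695330694) (nat_lit 76) (nat_lit 14284677173) (nat_lit 253) (nat_lit 5) (nat_lit 262) (nat_lit 5) (nat_lit 254) (nat_lit 5) (nat_lit 419) (nat_lit 381) (nat_lit 220))))) (XT.nd (nat_lit 234) (nat_lit 1520) (nat_lit 0) (XT.nd (nat_lit 78) (nat_lit 1216) (nat_lit 0) (XT.lf (nat_lit 0) (nat_lit 16979123165) (nat_lit 684) (nat_lit 4926526228) (nat_lit 76) (nat_lit 3992753972) (nat_lit 245) (nat_lit 5) (nat_lit 254) (nat_lit 5) (nat_lit 246) (nat_lit 5) (nat_lit 420) (nat_lit 381) (nat_lit 219)) (XT.nd (nat_lit 78) (nat_lit 684) (nat_lit 0) (XT.lf (nat_lit 0) (nat_lit 17075321733) (nat_lit 532) (nat_lit 6792698376) (nat_lit 608) (nat_lit 2490809355) (nat_lit 238) (nat_lit 5) (nat_lit 245) (nat_lit 5) (nat_lit 246) (nat_lit 5) (nat_lit 421) (nat_lit 381) (nat_lit 218)) (XT.lf (nat_lit 0) (nat_lit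 4245091913) (nat_lit 684) (nat_lit 13781228965) (nat_lit 76) (nat_lit 8802837381) (nat_lit 229) (nat_lit 5) (nat_lit 238) (nat_lit 5) (nat_lit 230) (nat_lit 5) (nat_lit 422) (nat_lit 381) (nat_lit 217)))) (XT.nd (nat_lit 78) (nat_lit 988) (nat_lit 0) (XT.lf (nat_lit 0) (nat_lit 8908282384) (nat_lit 532) (nat_lit 2400010403) (nat_lit 608) (nat_lit 16001794798) (nat_lit 222) (nat_lit 5) (nat_lit 229) (nat_lit 5) (nat_lit 230) (nat_lit 5) (nat_lit 423) (nat_lit 381) (nat_lit 216)) (XT.nd (nat_lit 78) (nat_lit 456) (nat_lit 0) (XT.lf (nat_lit 0) (nat_lit 4624588169) (nat_lit 532) (nat_lit 14164175493) (nat_lit 608) (nat_lit 9012574826) (nat_lit 215) (nat_lit 5) (nat_lit 222) (nat_lit 5) (nat_lit 223) (nat_lit 5) (nat_lit 424) (nat_lit 381) (nat_lit 215)) (XT.lf (nat_lit 0) (nat_lit 253552582) (nat_lit 456) (nat_lit 26387565230) (nat_lit 532) (nat_lit 1663260864) (nat_lit 209) (nat_lit 5) (nat_lit 215)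 (nat_lit 5) (nat_lit 216) (nat_lit 5) (nat_lit 425) (nat_lit 381) (nat_lit 214)))))) (XT.nd (nat_lit 49842) (nat_lit 0) (nat_lit 19228) (XT.nd (nat_lit 156) (nat_lit 456) (nat_lit 0) (XT.nd (nat_lit 78) (nat_lit 532) (nat_lit 0) (XT.lf (nat_lit 0) (nat_lit 6074551729) (nat_lit 532) (nat_lit 4259444070) (nat_lit 76) (nat_lit 18482838687) (nat_lit 208) (nat_lit 5) (nat_lit 215) (nat_lit 5) (nat_lit 209) (nat_lit 5) (nat_lit 426) (nat_lit 381) (nat_lit 213)) (XT.lf (nat_lit 0) (nat_lit 14189171818) (nat_lit 608) (nat_lit 8889474513) (nat_lit 76) (nat_lit 6262453404) (nat_lit 201) (nat_lit 5) (nat_lit 209) (nat_lit 5) (nat_lit 202) (nat_lit 5) (nat_lit 427) (nat_lit 381) (nat_lit 212))) (XT.nd (nat_lit 49530) (nat_lit 0) (nat_lit 19152) (XT.lf (nat_lit 0) (nat_lit 16215533831) (nat_lit 456) (nat_lit 6528152800) (nat_lit 532) (nat_lit 7133478213) (nat_lit 195) (nat_lit 5) (nat_lit 201) (nat_lit 5) (nat_lit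 202) (nat_lit 5) (nat_lit 428) (nat_lit 381) (nat_lit 211)) (XT.nd (nat_lit 78) (nat_lit 0) (nat_lit 0) (XT.lf (nat_lit 0) (nat_lit 278052440) (nat_lit 0) (nat_lit 278052440) (nat_lit 1748) (nat_lit 6594271292) (nat_lit 447) (nat_lit 5) (nat_lit 447) (nat_lit 3) (nat_lit 470) (nat_lit 3) (nat_lit 382) (nat_lit 382) (nat_lit 256)) (XT.lf (nat_lit 0) (nat_lit 1679100875) (nat_lit 1748) (nat_lit 3378275179) (nat_lit 1824) (nat_lit 9446775940) (nat_lit 447) (nat_lit 5) (nat_lit 470) (nat_lit 3) (nat_lit 471) (nat_lit 5) (nat_lit 383) (nat_lit 382) (nat_lit 255))))) (XT.nd (nat_lit 234) (nat_lit 0) (nat_lit 152) (XT.nd (nat_lit 78) (nat_lit 0) (nat_lit 76) (XT.lf (nat_lit 0) (nat_lit 2328687479) (nat_lit 1748) (nat_lit 7363812135) (nat_lit 1824) (nat_lit 5019844438) (nat_lit 448) (nat_lit 5) (nat_lit 471) (nat_lit 5) (nat_lit 472) (nat_lit 5) (nat_lit 384) (nat_lit 382) (nat_lit 254)) (XT.nd (nat_lit 78)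 (nat_lit 0) (nat_lit 0) (XT.lf (nat_lit 0) (nat_lit 3062020561) (nat_lit 1748) (nat_lit 11409544916) (nat_lit 1824) (nat_lit 453935288) (nat_lit 449) (nat_lit 5) (nat_lit 472) (nat_lit 5) (nat_lit 473) (nat_lit 5) (nat_lit 385) (nat_lit 382) (nat_lit 253)) (XT.lf (nat_lit 0) (nat_lit 3914484590) (nat_lit 1748) (nat_lit 396776645) (nat_lit 1824) (nat_lit 10831852282) (nat_lit 449) (nat_lit 5) (nat_lit 472) (nat_lit 5) (nat_lit 473) (nat_lit 5) (nat_lit 386) (nat_lit 382) (nat_lit 252)))) (XT.nd (nat_lit 78) (nat_lit 0) (nat_lit 76) (XT.lf (nat_lit 0) (nat_lit 4887554166) (nat_lit 1748) (nat_lit 4325117088) (nat_lit 1824) (nat_lit 6152686601) (nat_lit 450) (nat_lit 5) (nat_lit 473) (nat_lit 5) (nat_lit 474) (nat_lit 5) (nat_lit 387) (nat_lit 382) (nat_lit 251)) (XT.nd (nat_lit 78) (nat_lit 0) (nat_lit 0) (XT.lf (nat_lit 0) (nat_lit 5960438207) (nat_lit 1748) (nat_lit 8313797240) (nat_lit 1824) (nat_lit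 1318625356) (nat_lit 451) (nat_lit 5) (nat_lit 474) (nat_lit 5) (nat_lit 475) (nat_lit 5) (nat_lit 388) (nat_lit 382) (nat_lit 250)) (XT.lf (nat_lit 76) (nat_lit 3436628505) (nat_lit 0) (nat_lit 3725862829) (nat_lit 1824) (nat_lit 8662761473) (nat_lit 452) (nat_lit 5) (nat_lit 451) (nat_lit 5) (nat_lit 475) (nat_lit 5) (nat_lit 389) (nat_lit 382) (nat_lit 249))))))))
noncomputable def xc109 : XT := (XT.nd (nat_lit 1716) (nat_lit 8056) (nat_lit 0) (XT.nd (nat_lit 858) (nat_lit 7600) (nat_lit 0) (XT.nd (nat_lit 390) (nat_lit 2812) (nat_lit 0) (XT.nd (nat_lit 156) (nat_lit 0) (nat_lit 76) (XT.nd (nat_lit 78) (nat_lit 0) (nat_lit 76) (XT.lf (nat_lit 0) (nat_lit 8487672393) (nat_lit 1748) (nat_lit 467644542) (nat_lit 1824) (nat_lit 7107561822) (nat_lit 452) (nat_lit 5) (nat_lit 475) (nat_lit 5) (nat_lit 476) (nat_lit 5) (nat_lit 390) (nat_lit 382) (nat_lit 248)) (XT.lf (nat_lit 0) (nat_lit 9952404718) (nat_lit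 1748) (nat_lit 4386781586) (nat_lit 1824) (nat_lit 1966454675) (nat_lit 453) (nat_lit 5) (nat_lit 476) (nat_lit 5) (nat_lit 477) (nat_lit 5) (nat_lit 391) (nat_lit 382) (nat_lit 247))) (XT.nd (nat_lit 78) (nat_lit 0) (nat_lit 76) (XT.lf (nat_lit 76) (nat_lit 8164252152) (nat_lit 0) (nat_lit 3397800672) (nat_lit 1824) (nat_lit 4991617080) (nat_lit 454) (nat_lit 5) (nat_lit 453) (nat_lit 5) (nat_lit 477) (nat_lit 5) (nat_lit 392) (nat_lit 382) (nat_lit 246)) (XT.nd (nat_lit 78) (nat_lit 0) (nat_lit 76) (XT.lf (nat_lit 76) (nat_lit 4338103567) (nat_lit 0) (nat_lit 8976372645) (nat_lit 1824) (nat_lit 3492776981) (nat_lit 455) (nat_lit 5) (nat_lit 454) (nat_lit 5) (nat_lit 478) (nat_lit 5) (nat_lit 393) (nat_lit 382) (nat_lit 245)) (XT.lf (nat_lit 76) (nat_lit 452198329) (nat_lit 0) (nat_lit 14750499085) (nat_lit 1824) (nat_lit 1864085186) (nat_lit 456) (nat_lit 5) (nat_lit 455) (nat_lit 5) (nat_lit 479)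 (nat_lit 5) (nat_lit 394) (nat_lit 382) (nat_lit 244))))) (XT.nd (nat_lit 234) (nat_lit 1292) (nat_lit 0) (XT.nd (nat_lit 78) (nat_lit 1748) (nat_lit 0) (XT.lf (nat_lit 76) (nat_lit 13860274000) (nat_lit 0) (nat_lit 3417439113) (nat_lit 1824) (nat_lit 53784849) (nat_lit 456) (nat_lit 5) (nat_lit 455) (nat_lit 5) (nat_lit 479) (nat_lit 5) (nat_lit 395) (nat_lit 382) (nat_lit 243)) (XT.nd (nat_lit 78) (nat_lit 0) (nat_lit 76) (XT.lf (nat_lit 0) (nat_lit 1893623831) (nat_lit 1824) (nat_lit 7479486825) (nat_lit 1900) (nat_lit 8228680900) (nat_lit 432) (nat_lit 5) (nat_lit 456) (nat_lit 5) (nat_lit 457) (nat_lit 5) (nat_lit 396) (nat_lit 382) (nat_lit 242)) (XT.lf (nat_lit 0) (nat_lit 3988479081) (nat_lit 1824) (nat_lit 11553607256) (nat_lit 1900) (nat_lit 2336308209) (nat_lit 433) (nat_lit 5) (nat_lit 457) (nat_lit 5) (nat_lit 458) (nat_lit 5) (nat_lit 397) (nat_lit 382) (nat_lit 241)))) (XT.nd (nat_lit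 78) (nat_lit 1368) (nat_lit 0) (XT.lf (nat_lit 76) (nat_lit 2441433913) (nat_lit 0) (nat_lit 3821315686) (nat_lit 1900) (nat_lit 11898217355) (nat_lit 434) (nat_lit 5) (nat_lit 433) (nat_lit 5) (nat_lit 458) (nat_lit 5) (nat_lit 398) (nat_lit 382) (nat_lit 240)) (XT.nd (nat_lit 78) (nat_lit 1444) (nat_lit 0) (XT.lf (nat_lit 0) (nat_lit 8724967866) (nat_lit 1824) (nat_lit 1501015896) (nat_lit 76) (nat_lit 8223641016) (nat_lit 434) (nat_lit 5) (nat_lit 458) (nat_lit 5) (nat_lit 435) (nat_lit 5) (nat_lit 399) (nat_lit 382) (nat_lit 239)) (XT.lf (nat_lit 0) (nat_lit 11373026839) (nat_lit 1520) (nat_lit 5475362291) (nat_lit 76) (nat_lit 1896316290) (nat_lit 415) (nat_lit 5) (nat_lit 435) (nat_lit 5) (nat_lit 416) (nat_lit 5) (nat_lit 400) (nat_lit 382) (nat_lit 238)))))) (XT.nd (nat_lit 390) (nat_lit 3952) (nat_lit 0) (XT.nd (nat_lit 156) (nat_lit 1824) (nat_lit 0) (XT.nd (nat_lit 78) (nat_lit 912) (nat_lit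 0) (XT.lf (nat_lit 0) (nat_lit 9500359558) (nat_lit 912) (nat_lit 4728482784) (nat_lit 988) (nat_lit 4817232329) (nat_lit 403) (nat_lit 5) (nat_lit 415) (nat_lit 5) (nat_lit 416) (nat_lit 5) (nat_lit 401) (nat_lit 382) (nat_lit 237)) (XT.lf (nat_lit 0) (nat_lit 5657377973) (nat_lit 912) (nat_lit 11625681256) (nat_lit 988) (nat_lit 2071173649) (nat_lit 391) (nat_lit 5) (nat_lit 403) (nat_lit 5) (nat_lit 404) (nat_lit 5) (nat_lit 402) (nat_lit 382) (nat_lit 236))) (XT.nd (nat_lit 78) (nat_lit 836) (nat_lit 0) (XT.lf (nat_lit 0) (nat_lit 849832628) (nat_lit 988) (nat_lit 17923367571) (nat_lit 76) (nat_lit 896289647) (nat_lit 378) (nat_lit 5) (nat_lit 391) (nat_lit 5) (nat_lit 379) (nat_lit 5) (nat_lit 403) (nat_lit 382) (nat_lit 235)) (XT.nd (nat_lit 78) (nat_lit 836) (nat_lit 0) (XT.lf (nat_lit 0) (nat_lit 3990426325) (nat_lit 988) (nat_lit 2255504326) (nat_lit 76) (nat_lit 13744800368) (nat_lit 378)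 (nat_lit 5) (nat_lit 391) (nat_lit 5) (nat_lit 379) (nat_lit 5) (nat_lit 404) (nat_lit 382) (nat_lit 234)) (XT.lf (nat_lit 0) (nat_lit 7349418348) (nat_lit 912) (nat_lit 6307592224) (nat_lit 76) (nat_lit 6662117412) (nat_lit 367) (nat_lit 5) (nat_lit 379) (nat_lit 5) (nat_lit 368) (nat_lit 5) (nat_lit 405) (nat_lit 382) (nat_lit 233))))) (XT.nd (nat_lit 234) (nat_lit 1596) (nat_lit 0) (XT.nd (nat_lit 78) (nat_lit 1520) (nat_lit 0) (XT.lf (nat_lit 0) (nat_lit 10222032904) (nat_lit 836) (nat_lit 700011190) (nat_lit 912) (nat_lit 9733077589) (nat_lit 356) (nat_lit 5) (nat_lit 367) (nat_lit 5) (nat_lit 368) (nat_lit 5) (nat_lit 406) (nat_lit 382) (nat_lit 232)) (XT.nd (nat_lit 78) (nat_lit 760) (nat_lit 0) (XT.lf (nat_lit 0) (nat_lit 6323502934) (nat_lit 760) (nat_lit 8434116128) (nat_lit 836) (nat_lit 6240462765) (nat_lit 346) (nat_lit 5) (nat_lit 356) (nat_lit 5) (nat_lit 357) (nat_lit 5) (nat_lit 407)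 (nat_lit 382) (nat_lit 231)) (XT.lf (nat_lit 0) (nat_lit 2359299997) (nat_lit 760) (nat_lit 16461502405) (nat_lit 836) (nat_lit 2528279534) (nat_lit 336) (nat_lit 5) (nat_lit 346) (nat_lit 5) (nat_lit 347) (nat_lit 5) (nat_lit 408) (nat_lit 382) (nat_lit 230)))) (XT.nd (nat_lit 78) (nat_lit 1520) (nat_lit 0) (XT.lf (nat_lit 0) (nat_lit 1424761883) (nat_lit 836) (nat_lit 1679615352) (nat_lit 76) (nat_lit 18603138899) (nat_lit 335) (nat_lit 5) (nat_lit 346) (nat_lit 5) (nat_lit 336) (nat_lit 5) (nat_lit 409) (nat_lit 382) (nat_lit 229)) (XT.nd (nat_lit 78) (nat_lit 760) (nat_lit 0) (XT.lf (nat_lit 0) (nat_lit 5628562799) (nat_lit 836) (nat_lit 5807486134) (nat_lit 76) (nat_lit 10636991664) (nat_lit 325) (nat_lit 5) (nat_lit 336) (nat_lit 5) (nat_lit 326) (nat_lit 5) (nat_lit 410) (nat_lit 382) (nat_lit 228)) (XT.lf (nat_lit 0) (nat_lit 10077582889) (nat_lit 836) (nat_lit 10008014518) (nat_lit 76) (nat_lit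 2361553066) (nat_lit 315) (nat_lit 5) (nat_lit 326) (nat_lit 5) (nat_lit 316) (nat_lit 5) (nat_lit 411) (nat_lit 382) (nat_lit 227))))))) (XT.nd (nat_lit 858) (nat_lit 2204) (nat_lit 0) (XT.nd (nat_lit 390) (nat_lit 3040) (nat_lit 0) (XT.nd (nat_lit 156) (nat_lit 1444) (nat_lit 0) (XT.nd (nat_lit 78) (nat_lit 684) (nat_lit 0) (XT.lf (nat_lit 0) (nat_lit 8505453101) (nat_lit 684) (nat_lit 6316626687) (nat_lit 760) (nat_lit 8007165458) (nat_lit 306) (nat_lit 5) (nat_lit 315) (nat_lit 5) (nat_lit 316) (nat_lit 5) (nat_lit 412) (nat_lit 382) (nat_lit 226)) (XT.lf (nat_lit 0) (nat_lit 4486876624) (nat_lit 684) (nat_lit 15361390571) (nat_lit 760) (nat_lit 3371750235) (nat_lit 297) (nat_lit 5) (nat_lit 306) (nat_lit 5) (nat_lit 307) (nat_lit 5) (nat_lit 413) (nat_lit 382) (nat_lit 225))) (XT.nd (nat_lit 78) (nat_lit 684) (nat_lit 0) (XT.lf (nat_lit 0) (nat_lit 380076881) (nat_lit 684) (nat_lit 1137697217)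 (nat_lit 760) (nat_lit 22101889255) (nat_lit 287) (nat_lit 5) (nat_lit 296) (nat_lit 5) (nat_lit 297) (nat_lit 5) (nat_lit 414) (nat_lit 382) (nat_lit 224)) (XT.nd (nat_lit 78) (nat_lit 684) (nat_lit 0) (XT.lf (nat_lit 0) (nat_lit 6715167784) (nat_lit 760) (nat_lit 3827046582) (nat_lit 76) (nat_lit 13484500242) (nat_lit 287) (nat_lit 5) (nat_lit 297) (nat_lit 5) (nat_lit 288) (nat_lit 5) (nat_lit 415) (nat_lit 382) (nat_lit 223)) (XT.lf (nat_lit 0) (nat_lit 12201026224) (nat_lit 760) (nat_lit 8106171863) (nat_lit 76) (nat_lit 4136129959) (nat_lit 278) (nat_lit 5) (nat_lit 288) (nat_lit 5) (nat_lit 279) (nat_lit 5) (nat_lit 416) (nat_lit 382) (nat_lit 222))))) (XT.nd (nat_lit 234) (nat_lit 1140) (nat_lit 0) (XT.nd (nat_lit 78) (nat_lit 1292) (nat_lit 0) (XT.lf (nat_lit 0) (nat_lit 12368314409) (nat_lit 608) (nat_lit 5651701316) (nat_lit 684) (nat_lit 6849054518) (nat_lit 270) (nat_lit 5) (nat_lit 278)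 (nat_lit 5) (nat_lit 279) (nat_lit 5) (nat_lit 417) (nat_lit 382) (nat_lit 221)) (XT.nd (nat_lit 78) (nat_lit 684) (nat_lit 0) (XT.lf (nat_lit 0) (nat_lit 8298702212) (nat_lit 608) (nat_lit 15877175818) (nat_lit 684) (nat_lit 1128462032) (nat_lit 262) (nat_lit 5) (nat_lit 270) (nat_lit 5) (nat_lit 271) (nat_lit 5) (nat_lit 418) (nat_lit 382) (nat_lit 220)) (XT.lf (nat_lit 0) (nat_lit 4117078610) (nat_lit 608) (nat_lit 725924284) (nat_lit 684) (nat_lit 20906213203) (nat_lit 253) (nat_lit 5) (nat_lit 261) (nat_lit 5) (nat_lit 262) (nat_lit 5) (nat_lit 419) (nat_lit 382) (nat_lit 219)))) (XT.nd (nat_lit 78) (nat_lit 1140) (nat_lit 0) (XT.lf (nat_lit 0) (nat_lit 11183071722) (nat_lit 684) (nat_lit 213701449) (nat_lit 76) (nat_lit 14806421541) (nat_lit 253) (nat_lit 5) (nat_lit 262) (nat_lit 5) (nat_lit 254) (nat_lit 5) (nat_lit 420) (nat_lit 382) (nat_lit 218)) (XT.nd (nat_lit 78) (nat_lit 532) (nat_lit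 0) (XT.lf (nat_lit 0) (nat_lit 17881875601) (nat_lit 684) (nat_lit 4572725940) (nat_lit 76) (nat_lit 4212821759) (nat_lit 245) (nat_lit 5) (nat_lit 254) (nat_lit 5) (nat_lit 246) (nat_lit 5) (nat_lit 421) (nat_lit 382) (nat_lit 217)) (XT.lf (nat_lit 0) (nat_lit 18081039659) (nat_lit 532) (nat_lit 6888146020) (nat_lit 608) (nat_lit 2172643460) (nat_lit 238) (nat_lit 5) (nat_lit 245) (nat_lit 5) (nat_lit 246) (nat_lit 5) (nat_lit 422) (nat_lit 382) (nat_lit 216)))))) (XT.nd (nat_lit 50076) (nat_lit 0) (nat_lit 18088) (XT.nd (nat_lit 156) (nat_lit 988) (nat_lit 0) (XT.nd (nat_lit 78) (nat_lit 532) (nat_lit 0) (XT.lf (nat_lit 0) (nat_lit 4752794265) (nat_lit 684) (nat_lit 13697151731) (nat_lit 76) (nat_lit 9176420330) (nat_lit 229) (nat_lit 5) (nat_lit 238) (nat_lit 5) (nat_lit 230) (nat_lit 5) (nat_lit 423) (nat_lit 382) (nat_lit 215)) (XT.lf (nat_lit 0) (nat_lit 9664973383) (nat_lit 532) (nat_lit 2355017424)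 (nat_lit 608) (nat_lit 16101892470) (nat_lit 222) (nat_lit 5) (nat_lit 229) (nat_lit 5) (nat_lit 230) (nat_lit 5) (nat_lit 424) (nat_lit 382) (nat_lit 214))) (XT.nd (nat_lit 78) (nat_lit 456) (nat_lit 0) (XT.lf (nat_lit 0) (nat_lit 5251465588) (nat_lit 532) (nat_lit 14466468985) (nat_lit 608) (nat_lit 8910077646) (nat_lit 215) (nat_lit 5) (nat_lit 222) (nat_lit 5) (nat_lit 223) (nat_lit 5) (nat_lit 425) (nat_lit 382) (nat_lit 213)) (XT.nd (nat_lit 49764) (nat_lit 0) (nat_lit 18088) (XT.lf (nat_lit 0) (nat_lit 747843068) (nat_lit 456) (nat_lit 27051303307) (nat_lit 532) (nat_lit 1347133137) (nat_lit 209) (nat_lit 5) (nat_lit 215) (nat_lit 5) (nat_lit 216) (nat_lit 5) (nat_lit 426) (nat_lit 382) (nat_lit 212)) (XT.lf (nat_lit 0) (nat_lit 528077319) (nat_lit 0) (nat_lit 528077319) (nat_lit 1748) (nat_lit 6298959042) (nat_lit 447) (nat_lit 5) (nat_lit 447) (nat_lit 3) (nat_lit 470) (nat_lit 3) (nat_lit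 383) (nat_lit 383) (nat_lit 254))))) (XT.nd (nat_lit 234) (nat_lit 0) (nat_lit 152) (XT.nd (nat_lit 78) (nat_lit 0) (nat_lit 76) (XT.lf (nat_lit 0) (nat_lit 2665002918) (nat_lit 1748) (nat_lit 2988310327) (nat_lit 1824) (nat_lit 9267046041) (nat_lit 447) (nat_lit 5) (nat_lit 470) (nat_lit 3) (nat_lit 471) (nat_lit 5) (nat_lit 384) (nat_lit 383) (nat_lit 253)) (XT.nd (nat_lit 78) (nat_lit 0) (nat_lit 76) (XT.lf (nat_lit 0) (nat_lit 3307187522) (nat_lit 1748) (nat_lit 7080175963) (nat_lit 1824) (nat_lit 4747977433) (nat_lit 448) (nat_lit 5) (nat_lit 471) (nat_lit 5) (nat_lit 472) (nat_lit 5) (nat_lit 385) (nat_lit 383) (nat_lit 252)) (XT.lf (nat_lit 0) (nat_lit 4036752246) (nat_lit 1748) (nat_lit 11235037846) (nat_lit 1824) (nat_lit 83623453) (nat_lit 449) (nat_lit 5) (nat_lit 472) (nat_lit 5) (nat_lit 473) (nat_lit 5) (nat_lit 386) (nat_lit 383) (nat_lit 251)))) (XT.nd (nat_lit 78) (nat_lit 0) (nat_lit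 76) (XT.lf (nat_lit 76) (nat_lit 94297972) (nat_lit 0) (nat_lit 4795389777) (nat_lit 1824) (nat_lit 10690374653) (nat_lit 450) (nat_lit 5) (nat_lit 449) (nat_lit 5) (nat_lit 473) (nat_lit 5) (nat_lit 387) (nat_lit 383) (nat_lit 250)) (XT.nd (nat_lit 78) (nat_lit 0) (nat_lit 76) (XT.lf (nat_lit 0) (nat_lit 5867357078) (nat_lit 1748) (nat_lit 3942158869) (nat_lit 1824) (nat_lit 5999955480) (nat_lit 450) (nat_lit 5) (nat_lit 473) (nat_lit 5) (nat_lit 474) (nat_lit 5) (nat_lit 388) (nat_lit 383) (nat_lit 249)) (XT.lf (nat_lit 0) (nat_lit 6949436849) (nat_lit 1748) (nat_lit 8040397218) (nat_lit 1824) (nat_lit 1054430561) (nat_lit 451) (nat_lit 5) (nat_lit 474) (nat_lit 5) (nat_lit 475) (nat_lit 5) (nat_lit 389) (nat_lit 383) (nat_lit 248))))))))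
noncomputable def xc110 : XT := (XT.nd (nat_lit 1716) (nat_lit 8360) (nat_lit 0) (XT.nd (nat_lit 858) (nat_lit 8056) (nat_lit 0) (XT.nd (nat_lit 390) (nat_lit 1520) (nat_lit 0) (XT.nd (nat_lit 156) (nat_lit 0) (nat_lit 152) (XT.nd (nat_lit 78) (nat_lit 0) (nat_lit 76) (XT.lf (nat_lit 76) (nat_lit 4054059264) (nat_lit 0) (nat_lit 4113234053) (nat_lit 1824) (nat_lit 8116745432) (nat_lit 452) (nat_lit 5) (nat_lit 451) (nat_lit 5) (nat_lit 475) (nat_lit 5) (nat_lit 390) (nat_lit 383) (nat_lit 247)) (XT.lf (nat_lit 76) (nat_lit 35385247) (nat_lit 0) (nat_lit 9472329485) (nat_lit 1824) (nat_lit 7021574090) (nat_lit 453) (nat_lit 5) (nat_lit 452) (nat_lit 5) (nat_lit 476) (nat_lit 5) (nat_lit 391) (nat_lit 383) (nat_lit 246))) (XT.nd (nat_lit 78) (nat_lit 0) (nat_lit 0) (XT.lf (nat_lit 0) (nat_lit 10995626944) (nat_lit 1748) (nat_lit 3993538935) (nat_lit 1824) (nat_lit 1790588167) (nat_lit 453) (nat_lit 5)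 (nat_lit 476) (nat_lit 5) (nat_lit 477) (nat_lit 5) (nat_lit 392) (nat_lit 383) (nat_lit 245)) (XT.nd (nat_lit 78) (nat_lit 0) (nat_lit 76) (XT.lf (nat_lit 76) (nat_lit 8925510811) (nat_lit 0) (nat_lit 3709717209) (nat_lit 1824) (nat_lit 4400367300) (nat_lit 454) (nat_lit 5) (nat_lit 453) (nat_lit 5) (nat_lit 477) (nat_lit 5) (nat_lit 393) (nat_lit 383) (nat_lit 244)) (XT.lf (nat_lit 76) (nat_lit 4991988577) (nat_lit 0) (nat_lit 9429157612) (nat_lit 1824) (nat_lit 2876026092) (nat_lit 455) (nat_lit 5) (nat_lit 454) (nat_lit 5) (nat_lit 478) (nat_lit 5) (nat_lit 394) (nat_lit 383) (nat_lit 243))))) (XT.nd (nat_lit 234) (nat_lit 0) (nat_lit 152) (XT.nd (nat_lit 78) (nat_lit 1824) (nat_lit 0) (XT.lf (nat_lit 76) (nat_lit 996247658) (nat_lit 0) (nat_lit 15351454857) (nat_lit 1824) (nat_lit 1217155765) (nat_lit 456) (nat_lit 5) (nat_lit 455) (nat_lit 5) (nat_lit 479) (nat_lit 5) (nat_lit 395) (nat_lit 383)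 (nat_lit 242)) (XT.nd (nat_lit 78) (nat_lit 0) (nat_lit 76) (XT.lf (nat_lit 0) (nat_lit 618759181) (nat_lit 1824) (nat_lit 3050876924) (nat_lit 1900) (nat_lit 14168203246) (nat_lit 431) (nat_lit 5) (nat_lit 455) (nat_lit 5) (nat_lit 456) (nat_lit 5) (nat_lit 396) (nat_lit 383) (nat_lit 241)) (XT.lf (nat_lit 0) (nat_lit 2606677824) (nat_lit 1824) (nat_lit 7174050382) (nat_lit 1900) (nat_lit 8335854206) (nat_lit 432) (nat_lit 5) (nat_lit 456) (nat_lit 5) (nat_lit 457) (nat_lit 5) (nat_lit 397) (nat_lit 383) (nat_lit 240)))) (XT.nd (nat_lit 78) (nat_lit 0) (nat_lit 0) (XT.lf (nat_lit 0) (nat_lit 4747874422) (nat_lit 1824) (nat_lit 11365271358) (nat_lit 1900) (nat_lit 2288671819) (nat_lit 433) (nat_lit 5) (nat_lit 457) (nat_lit 5) (nat_lit 458) (nat_lit 5) (nat_lit 398) (nat_lit 383) (nat_lit 239)) (XT.nd (nat_lit 78) (nat_lit 0) (nat_lit 76) (XT.lf (nat_lit 76) (nat_lit 3040942213) (nat_lit 0) (nat_lit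 4034214473) (nat_lit 1900) (nat_lit 11618018721) (nat_lit 434) (nat_lit 5) (nat_lit 433) (nat_lit 5) (nat_lit 458) (nat_lit 5) (nat_lit 399) (nat_lit 383) (nat_lit 238)) (XT.lf (nat_lit 0) (nat_lit 9592432082) (nat_lit 1824) (nat_lit 1022236856) (nat_lit 76) (nat_lit 8376204007) (nat_lit 434) (nat_lit 5) (nat_lit 458) (nat_lit 5) (nat_lit 435) (nat_lit 5) (nat_lit 400) (nat_lit 383) (nat_lit 237)))))) (XT.nd (nat_lit 390) (nat_lit 4028) (nat_lit 0) (XT.nd (nat_lit 156) (nat_lit 1900) (nat_lit 0) (XT.nd (nat_lit 78) (nat_lit 912) (nat_lit 0) (XT.lf (nat_lit 0) (nat_lit 12305142237) (nat_lit 1520) (nat_lit 5111866718) (nat_lit 76) (nat_lit 1878096538) (nat_lit 415) (nat_lit 5) (nat_lit 435) (nat_lit 5) (nat_lit 416) (nat_lit 5) (nat_lit 401) (nat_lit 383) (nat_lit 236)) (XT.lf (nat_lit 0) (nat_lit 10304564566) (nat_lit 912) (nat_lit 4928227198) (nat_lit 988) (nat_lit 4373004439) (nat_lit 403) (nat_lit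 5) (nat_lit 415) (nat_lit 5) (nat_lit 416) (nat_lit 5) (nat_lit 402) (nat_lit 383) (nat_lit 235))) (XT.nd (nat_lit 78) (nat_lit 988) (nat_lit 0) (XT.lf (nat_lit 0) (nat_lit 6349711513) (nat_lit 912) (nat_lit 12015143599) (nat_lit 988) (nat_lit 1558623110) (nat_lit 391) (nat_lit 5) (nat_lit 403) (nat_lit 5) (nat_lit 404) (nat_lit 5) (nat_lit 403) (nat_lit 383) (nat_lit 234)) (XT.nd (nat_lit 78) (nat_lit 0) (nat_lit 0) (XT.lf (nat_lit 0) (nat_lit 1429134234) (nat_lit 988) (nat_lit 17928008466) (nat_lit 76) (nat_lit 891245715) (nat_lit 378) (nat_lit 5) (nat_lit 391) (nat_lit 5) (nat_lit 379) (nat_lit 5) (nat_lit 404) (nat_lit 383) (nat_lit 233)) (XT.lf (nat_lit 0) (nat_lit 4647815451) (nat_lit 988) (nat_lit 1805635347) (nat_lit 76) (nat_lit 14126141835) (nat_lit 378) (nat_lit 5) (nat_lit 391) (nat_lit 5) (nat_lit 379) (nat_lit 5) (nat_lit 405) (nat_lit 383) (nat_lit 232))))) (XT.nd (nat_lit 234) (nat_lit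 1596) (nat_lit 0) (XT.nd (nat_lit 78) (nat_lit 1596) (nat_lit 0) (XT.lf (nat_lit 0) (nat_lit 8095117343) (nat_lit 912) (nat_lit 5976967072) (nat_lit 76) (nat_lit 6846009400) (nat_lit 367) (nat_lit 5) (nat_lit 379) (nat_lit 5) (nat_lit 368) (nat_lit 5) (nat_lit 406) (nat_lit 383) (nat_lit 231)) (XT.nd (nat_lit 78) (nat_lit 760) (nat_lit 0) (XT.lf (nat_lit 0) (nat_lit 11040112814) (nat_lit 836) (nat_lit 722831953) (nat_lit 912) (nat_lit 9501465121) (nat_lit 356) (nat_lit 5) (nat_lit 367) (nat_lit 5) (nat_lit 368) (nat_lit 5) (nat_lit 407) (nat_lit 383) (nat_lit 230)) (XT.lf (nat_lit 0) (nat_lit 7026538688) (nat_lit 760) (nat_lit 8675420984) (nat_lit 836) (nat_lit 5915934641) (nat_lit 346) (nat_lit 5) (nat_lit 356) (nat_lit 5) (nat_lit 357) (nat_lit 5) (nat_lit 408) (nat_lit 383) (nat_lit 229)))) (XT.nd (nat_lit 78) (nat_lit 836) (nat_lit 0) (XT.lf (nat_lit 0) (nat_lit 2944972254) (nat_lit 760) (nat_lit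 16930873097) (nat_lit 836) (nat_lit 2103805784) (nat_lit 336) (nat_lit 5) (nat_lit 346) (nat_lit 5) (nat_lit 347) (nat_lit 5) (nat_lit 409) (nat_lit 383) (nat_lit 228)) (XT.nd (nat_lit 78) (nat_lit 760) (nat_lit 0) (XT.lf (nat_lit 0) (nat_lit 1946883692) (nat_lit 836) (nat_lit 1223646440) (nat_lit 76) (nat_lit 19178533594) (nat_lit 335) (nat_lit 5) (nat_lit 346) (nat_lit 5) (nat_lit 336) (nat_lit 5) (nat_lit 410) (nat_lit 383) (nat_lit 227)) (XT.lf (nat_lit 0) (nat_lit 6266261891) (nat_lit 836) (nat_lit 5474299176) (nat_lit 76) (nat_lit 10985206223) (nat_lit 325) (nat_lit 5) (nat_lit 336) (nat_lit 5) (nat_lit 326) (nat_lit 5) (nat_lit 411) (nat_lit 383) (nat_lit 226))))))) (XT.nd (nat_lit 858) (nat_lit 2280) (nat_lit 0) (XT.nd (nat_lit 390) (nat_lit 3192) (nat_lit 0) (XT.nd (nat_lit 156) (nat_lit 1444) (nat_lit 0) (XT.nd (nat_lit 78) (nat_lit 684) (nat_lit 0) (XT.lf (nat_lit 0) (nat_lit 10838602576)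 (nat_lit 836) (nat_lit 9800086469) (nat_lit 76) (nat_lit 2472616970) (nat_lit 315) (nat_lit 5) (nat_lit 326) (nat_lit 5) (nat_lit 316) (nat_lit 5) (nat_lit 412) (nat_lit 383) (nat_lit 225)) (XT.lf (nat_lit 0) (nat_lit 9260540749) (nat_lit 684) (nat_lit 6454779506) (nat_lit 760) (nat_lit 7789748140) (nat_lit 306) (nat_lit 5) (nat_lit 315) (nat_lit 5) (nat_lit 316) (nat_lit 5) (nat_lit 413) (nat_lit 383) (nat_lit 224))) (XT.nd (nat_lit 78) (nat_lit 760) (nat_lit 0) (XT.lf (nat_lit 0) (nat_lit 5121875656) (nat_lit 684) (nat_lit 15760924790) (nat_lit 760) (nat_lit 3024955560) (nat_lit 297) (nat_lit 5) (nat_lit 306) (nat_lit 5) (nat_lit 307) (nat_lit 5) (nat_lit 414) (nat_lit 383) (nat_lit 223)) (XT.nd (nat_lit 78) (nat_lit 0) (nat_lit 0) (XT.lf (nat_lit 0) (nat_lit 889610629) (nat_lit 684) (nat_lit 1106127274) (nat_lit 760) (nat_lit 22323790363) (nat_lit 287) (nat_lit 5) (nat_lit 296) (nat_lit 5) (nat_lit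 297) (nat_lit 5) (nat_lit 415) (nat_lit 383) (nat_lit 222)) (XT.lf (nat_lit 0) (nat_lit 7336872482) (nat_lit 760) (nat_lit 3450178508) (nat_lit 76) (nat_lit 13951985911) (nat_lit 287) (nat_lit 5) (nat_lit 297) (nat_lit 5) (nat_lit 288) (nat_lit 5) (nat_lit 416) (nat_lit 383) (nat_lit 221))))) (XT.nd (nat_lit 234) (nat_lit 1292) (nat_lit 0) (XT.nd (nat_lit 78) (nat_lit 1216) (nat_lit 0) (XT.lf (nat_lit 0) (nat_lit 12978677973) (nat_lit 760) (nat_lit 7857830533) (nat_lit 76) (nat_lit 4331814971) (nat_lit 278) (nat_lit 5) (nat_lit 288) (nat_lit 5) (nat_lit 279) (nat_lit 5) (nat_lit 417) (nat_lit 383) (nat_lit 220)) (XT.nd (nat_lit 78) (nat_lit 608) (nat_lit 0) (XT.lf (nat_lit 0) (nat_lit 13222915895) (nat_lit 608) (nat_lit 5740471845) (nat_lit 684) (nat_lit 6643629285) (nat_lit 270) (nat_lit 5) (nat_lit 278) (nat_lit 5) (nat_lit 279) (nat_lit 5) (nat_lit 418) (nat_lit 383) (nat_lit 219)) (XT.lf (nat_lit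 0) (nat_lit 9030847804) (nat_lit 608) (nat_lit 16264993258) (nat_lit 684) (nat_lit 759667609) (nat_lit 262) (nat_lit 5) (nat_lit 270) (nat_lit 5) (nat_lit 271) (nat_lit 5) (nat_lit 419) (nat_lit 383) (nat_lit 218)))) (XT.nd (nat_lit 78) (nat_lit 608) (nat_lit 0) (XT.lf (nat_lit 0) (nat_lit 4721196978) (nat_lit 608) (nat_lit 656010084) (nat_lit 684) (nat_lit 21136642644) (nat_lit 253) (nat_lit 5) (nat_lit 261) (nat_lit 5) (nat_lit 262) (nat_lit 5) (nat_lit 420) (nat_lit 383) (nat_lit 217)) (XT.nd (nat_lit 78) (nat_lit 0) (nat_lit 0) (XT.lf (nat_lit 0) (nat_lit 256901041) (nat_lit 608) (nat_lit 11641495277) (nat_lit 684) (nat_lit 15083234877) (nat_lit 245) (nat_lit 5) (nat_lit 253) (nat_lit 5) (nat_lit 254) (nat_lit 5) (nat_lit 421) (nat_lit 383) (nat_lit 216)) (XT.lf (nat_lit 0) (nat_lit 18789129061) (nat_lit 684) (nat_lit 4237105310) (nat_lit 76) (nat_lit 4433734801) (nat_lit 245) (nat_lit 5) (nat_lit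 254) (nat_lit 5) (nat_lit 246) (nat_lit 5) (nat_lit 422) (nat_lit 383) (nat_lit 215)))))) (XT.nd (nat_lit 50154) (nat_lit 0) (nat_lit 17632) (XT.nd (nat_lit 156) (nat_lit 1064) (nat_lit 0) (XT.nd (nat_lit 78) (nat_lit 684) (nat_lit 0) (XT.lf (nat_lit 0) (nat_lit 19088602600) (nat_lit 532) (nat_lit 6992675867) (nat_lit 608) (nat_lit 1867486092) (nat_lit 238) (nat_lit 5) (nat_lit 245) (nat_lit 5) (nat_lit 246) (nat_lit 5) (nat_lit 423) (nat_lit 383) (nat_lit 214)) (XT.lf (nat_lit 0) (nat_lit 5253894065) (nat_lit 684) (nat_lit 13639111525) (nat_lit 76) (nat_lit 9554925143) (nat_lit 229) (nat_lit 5) (nat_lit 238) (nat_lit 5) (nat_lit 230) (nat_lit 5) (nat_lit 424) (nat_lit 383) (nat_lit 213))) (XT.nd (nat_lit 78) (nat_lit 532) (nat_lit 0) (XT.lf (nat_lit 0) (nat_lit 10416269109) (nat_lit 532) (nat_lit 2315390549) (nat_lit 608) (nat_lit 16226804110) (nat_lit 222) (nat_lit 5) (nat_lit 229) (nat_lit 5) (nat_lit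 230) (nat_lit 5) (nat_lit 425) (nat_lit 383) (nat_lit 212)) (XT.nd (nat_lit 49842) (nat_lit 0) (nat_lit 17632) (XT.lf (nat_lit 0) (nat_lit 5869128110) (nat_lit 532) (nat_lit 14784870848) (nat_lit 608) (nat_lit 8825910068) (nat_lit 215) (nat_lit 5) (nat_lit 222) (nat_lit 5) (nat_lit 223) (nat_lit 5) (nat_lit 426) (nat_lit 383) (nat_lit 211)) (XT.lf (nat_lit 0) (nat_lit 771729334) (nat_lit 0) (nat_lit 771729334) (nat_lit 1748) (nat_lit 6023095701) (nat_lit 447) (nat_lit 5) (nat_lit 447) (nat_lit 3) (nat_lit 470) (nat_lit 3) (nat_lit 384) (nat_lit 384) (nat_lit 252))))) (XT.nd (nat_lit 234) (nat_lit 0) (nat_lit 152) (XT.nd (nat_lit 78) (nat_lit 0) (nat_lit 76) (XT.lf (nat_lit 0) (nat_lit 3626778830) (nat_lit 1748) (nat_lit 2614849912) (nat_lit 1824) (nat_lit 9108509985) (nat_lit 447) (nat_lit 5) (nat_lit 470) (nat_lit 3) (nat_lit 471) (nat_lit 5) (nat_lit 385) (nat_lit 384) (nat_lit 251)) (XT.nd (nat_lit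 78) (nat_lit 0) (nat_lit 0) (XT.lf (nat_lit 0) (nat_lit 4262882947) (nat_lit 1748) (nat_lit 6816993971) (nat_lit 1824) (nat_lit 4492205484) (nat_lit 448) (nat_lit 5) (nat_lit 471) (nat_lit 5) (nat_lit 472) (nat_lit 5) (nat_lit 386) (nat_lit 384) (nat_lit 250)) (XT.lf (nat_lit 76) (nat_lit 4712436396) (nat_lit 0) (nat_lit 279423276) (nat_lit 1824) (nat_lit 10807352544) (nat_lit 449) (nat_lit 5) (nat_lit 448) (nat_lit 5) (nat_lit 472) (nat_lit 5) (nat_lit 387) (nat_lit 384) (nat_lit 249)))) (XT.nd (nat_lit 78) (nat_lit 0) (nat_lit 76) (XT.lf (nat_lit 76) (nat_lit 576351211) (nat_lit 0) (nat_lit 5271090707) (nat_lit 1824) (nat_lit 10183622795) (nat_lit 450) (nat_lit 5) (nat_lit 449) (nat_lit 5) (nat_lit 473) (nat_lit 5) (nat_lit 388) (nat_lit 384) (nat_lit 248)) (XT.nd (nat_lit 78) (nat_lit 0) (nat_lit 76) (XT.lf (nat_lit 0) (nat_lit 6828726349) (nat_lit 1748) (nat_lit 3577143655) (nat_lit 1824) (nat_lit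 5862005498) (nat_lit 450) (nat_lit 5) (nat_lit 473) (nat_lit 5) (nat_lit 474) (nat_lit 5) (nat_lit 389) (nat_lit 384) (nat_lit 247)) (XT.lf (nat_lit 0) (nat_lit 7921597487) (nat_lit 1748) (nat_lit 7788806855) (nat_lit 1824) (nat_lit 799746619) (nat_lit 451) (nat_lit 5) (nat_lit 474) (nat_lit 5) (nat_lit 475) (nat_lit 5) (nat_lit 390) (nat_lit 384) (nat_lit 246))))))))
noncomputable def xc111 : XT := (XT.nd (nat_lit 1716) (nat_lit 8360) (nat_lit 0) (XT.nd (nat_lit 858) (nat_lit 8056) (nat_lit 0) (XT.nd (nat_lit 390) (nat_lit 1520) (nat_lit 0) (XT.nd (nat_lit 156) (nat_lit 0) (nat_lit 152) (XT.nd (nat_lit 78) (nat_lit 0) (nat_lit 76) (XT.lf (nat_lit 76) (nat_lit 4660488191) (nat_lit 0) (nat_lit 4496406114) (nat_lit 1824) (nat_lit 7600610803) (nat_lit 452) (nat_lit 5) (nat_lit 451) (nat_lit 5) (nat_lit 475) (nat_lit 5) (nat_lit 391) (nat_lit 384) (nat_lit 245)) (XT.lf (nat_lit 76) (nat_lit 529858359)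 (nat_lit 0) (nat_lit 9987549191) (nat_lit 1824) (nat_lit 6493112301) (nat_lit 453) (nat_lit 5) (nat_lit 452) (nat_lit 5) (nat_lit 476) (nat_lit 5) (nat_lit 392) (nat_lit 384) (nat_lit 244))) (XT.nd (nat_lit 78) (nat_lit 0) (nat_lit 0) (XT.lf (nat_lit 0) (nat_lit 12027399877) (nat_lit 1748) (nat_lit 3618627317) (nat_lit 1824) (nat_lit 1622927597) (nat_lit 453) (nat_lit 5) (nat_lit 476) (nat_lit 5) (nat_lit 477) (nat_lit 5) (nat_lit 393) (nat_lit 384) (nat_lit 243)) (XT.nd (nat_lit 78) (nat_lit 0) (nat_lit 76) (XT.lf (nat_lit 76) (nat_lit 9679967713) (nat_lit 0) (nat_lit 4018937387) (nat_lit 1824) (nat_lit 3833916360) (nat_lit 454) (nat_lit 5) (nat_lit 453) (nat_lit 5) (nat_lit 477) (nat_lit 5) (nat_lit 394) (nat_lit 384) (nat_lit 242)) (XT.lf (nat_lit 76) (nat_lit 5635425208) (nat_lit 0) (nat_lit 9884992833) (nat_lit 1824) (nat_lit 2282191692) (nat_lit 455) (nat_lit 5) (nat_lit 454) (nat_lit 5) (nat_lit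 478) (nat_lit 5) (nat_lit 395) (nat_lit 384) (nat_lit 241))))) (XT.nd (nat_lit 234) (nat_lit 0) (nat_lit 152) (XT.nd (nat_lit 78) (nat_lit 1824) (nat_lit 0) (XT.lf (nat_lit 76) (nat_lit 1526166551) (nat_lit 0) (nat_lit 15961344152) (nat_lit 1824) (nat_lit 591165040) (nat_lit 456) (nat_lit 5) (nat_lit 455) (nat_lit 5) (nat_lit 479) (nat_lit 5) (nat_lit 396) (nat_lit 384) (nat_lit 240)) (XT.nd (nat_lit 78) (nat_lit 0) (nat_lit 76) (XT.lf (nat_lit 0) (nat_lit 1272095277) (nat_lit 1824) (nat_lit 2648366024) (nat_lit 1900) (nat_lit 14439683799) (nat_lit 431) (nat_lit 5) (nat_lit 455) (nat_lit 5) (nat_lit 456) (nat_lit 5) (nat_lit 397) (nat_lit 384) (nat_lit 239)) (XT.lf (nat_lit 0) (nat_lit 3303452274) (nat_lit 1824) (nat_lit 6889864742) (nat_lit 1900) (nat_lit 8454261324) (nat_lit 432) (nat_lit 5) (nat_lit 456) (nat_lit 5) (nat_lit 457) (nat_lit 5) (nat_lit 398) (nat_lit 384) (nat_lit 238)))) (XT.nd (nat_lit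 78) (nat_lit 0) (nat_lit 0) (XT.lf (nat_lit 0) (nat_lit 5493327874) (nat_lit 1824) (nat_lit 11201993363) (nat_lit 1900) (nat_lit 2246364270) (nat_lit 433) (nat_lit 5) (nat_lit 457) (nat_lit 5) (nat_lit 458) (nat_lit 5) (nat_lit 399) (nat_lit 384) (nat_lit 237)) (XT.nd (nat_lit 78) (nat_lit 0) (nat_lit 76) (XT.lf (nat_lit 76) (nat_lit 3628225983) (nat_lit 0) (nat_lit 4247859736) (nat_lit 1900) (nat_lit 11365988867) (nat_lit 434) (nat_lit 5) (nat_lit 433) (nat_lit 5) (nat_lit 458) (nat_lit 5) (nat_lit 400) (nat_lit 384) (nat_lit 236)) (XT.lf (nat_lit 0) (nat_lit 10451149694) (nat_lit 1824) (nat_lit 559163253) (nat_lit 76) (nat_lit 8538748266) (nat_lit 434) (nat_lit 5) (nat_lit 458) (nat_lit 5) (nat_lit 435) (nat_lit 5) (nat_lit 401) (nat_lit 384) (nat_lit 235)))))) (XT.nd (nat_lit 390) (nat_lit 4028) (nat_lit 0) (XT.nd (nat_lit 156) (nat_lit 1900) (nat_lit 0) (XT.nd (nat_lit 78) (nat_lit 912) (nat_lit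 0) (XT.lf (nat_lit 0) (nat_lit 13231299608) (nat_lit 1520) (nat_lit 4767761656) (nat_lit 76) (nat_lit 1863641772) (nat_lit 415) (nat_lit 5) (nat_lit 435) (nat_lit 5) (nat_lit 416) (nat_lit 5) (nat_lit 402) (nat_lit 384) (nat_lit 234)) (XT.lf (nat_lit 0) (nat_lit 11103091851) (nat_lit 912) (nat_lit 5130640824) (nat_lit 988) (nat_lit 3949246076) (nat_lit 403) (nat_lit 5) (nat_lit 415) (nat_lit 5) (nat_lit 416) (nat_lit 5) (nat_lit 403) (nat_lit 384) (nat_lit 233))) (XT.nd (nat_lit 78) (nat_lit 988) (nat_lit 0) (XT.lf (nat_lit 0) (nat_lit 7032814982) (nat_lit 912) (nat_lit 12413953931) (nat_lit 988) (nat_lit 1063685368) (nat_lit 391) (nat_lit 5) (nat_lit 403) (nat_lit 5) (nat_lit 404) (nat_lit 5) (nat_lit 404) (nat_lit 384) (nat_lit 232)) (XT.nd (nat_lit 78) (nat_lit 0) (nat_lit 0) (XT.lf (nat_lit 0) (nat_lit 1994024122) (nat_lit 988) (nat_lit 17963388420) (nat_lit 76) (nat_lit 887883529) (nat_lit 378)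 (nat_lit 5) (nat_lit 391) (nat_lit 5) (nat_lit 379) (nat_lit 5) (nat_lit 405) (nat_lit 384) (nat_lit 231)) (XT.lf (nat_lit 0) (nat_lit 5294061430) (nat_lit 988) (nat_lit 1371978874) (nat_lit 76) (nat_lit 14520703218) (nat_lit 378) (nat_lit 5) (nat_lit 391) (nat_lit 5) (nat_lit 379) (nat_lit 5) (nat_lit 406) (nat_lit 384) (nat_lit 230))))) (XT.nd (nat_lit 234) (nat_lit 1596) (nat_lit 0) (XT.nd (nat_lit 78) (nat_lit 1596) (nat_lit 0) (XT.lf (nat_lit 0) (nat_lit 8833037736) (nat_lit 912) (nat_lit 5666264850) (nat_lit 76) (nat_lit 7036334979) (nat_lit 367) (nat_lit 5) (nat_lit 379) (nat_lit 5) (nat_lit 368) (nat_lit 5) (nat_lit 407) (nat_lit 384) (nat_lit 229)) (XT.nd (nat_lit 78) (nat_lit 760) (nat_lit 0) (XT.lf (nat_lit 0) (nat_lit 11853377583) (nat_lit 836) (nat_lit 746232838) (nat_lit 912) (nat_lit 9292961335) (nat_lit 356) (nat_lit 5) (nat_lit 367) (nat_lit 5) (nat_lit 368) (nat_lit 5) (nat_lit 408)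 (nat_lit 384) (nat_lit 228)) (XT.lf (nat_lit 0) (nat_lit 7721198234) (nat_lit 760) (nat_lit 8924637684) (nat_lit 836) (nat_lit 5611046758) (nat_lit 346) (nat_lit 5) (nat_lit 356) (nat_lit 5) (nat_lit 357) (nat_lit 5) (nat_lit 409) (nat_lit 384) (nat_lit 227)))) (XT.nd (nat_lit 78) (nat_lit 836) (nat_lit 0) (XT.lf (nat_lit 0) (nat_lit 3518657699) (nat_lit 760) (nat_lit 17415729839) (nat_lit 836) (nat_lit 1695318359) (nat_lit 336) (nat_lit 5) (nat_lit 346) (nat_lit 5) (nat_lit 347) (nat_lit 5) (nat_lit 410) (nat_lit 384) (nat_lit 226)) (XT.nd (nat_lit 78) (nat_lit 760) (nat_lit 0) (XT.lf (nat_lit 0) (nat_lit 2457150842) (nat_lit 836) (nat_lit 783065446) (nat_lit 76) (nat_lit 19770197010) (nat_lit 335) (nat_lit 5) (nat_lit 346) (nat_lit 5) (nat_lit 336) (nat_lit 5) (nat_lit 411) (nat_lit 384) (nat_lit 225)) (XT.lf (nat_lit 0) (nat_lit 6896178495) (nat_lit 836) (nat_lit 5160244108) (nat_lit 76) (nat_lit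 11342196483) (nat_lit 325) (nat_lit 5) (nat_lit 336) (nat_lit 5) (nat_lit 326) (nat_lit 5) (nat_lit 412) (nat_lit 384) (nat_lit 224))))))) (XT.nd (nat_lit 858) (nat_lit 2280) (nat_lit 0) (XT.nd (nat_lit 390) (nat_lit 3192) (nat_lit 0) (XT.nd (nat_lit 156) (nat_lit 1444) (nat_lit 0) (XT.nd (nat_lit 78) (nat_lit 684) (nat_lit 0) (XT.lf (nat_lit 0) (nat_lit 11596122046) (nat_lit 836) (nat_lit 9615091528) (nat_lit 76) (nat_lit 2584704153) (nat_lit 315) (nat_lit 5) (nat_lit 326) (nat_lit 5) (nat_lit 316) (nat_lit 5) (nat_lit 413) (nat_lit 384) (nat_lit 223)) (XT.lf (nat_lit 0) (nat_lit 10009583341) (nat_lit 684) (nat_lit 6600024378) (nat_lit 760) (nat_lit 7592078267) (nat_lit 306) (nat_lit 5) (nat_lit 315) (nat_lit 5) (nat_lit 316) (nat_lit 5) (nat_lit 414) (nat_lit 384) (nat_lit 222))) (XT.nd (nat_lit 78) (nat_lit 760) (nat_lit 0) (XT.lf (nat_lit 0) (nat_lit 5747200069) (nat_lit 684) (nat_lit 16175964338)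 (nat_lit 760) (nat_lit 2693471047) (nat_lit 297) (nat_lit 5) (nat_lit 306) (nat_lit 5) (nat_lit 307) (nat_lit 5) (nat_lit 415) (nat_lit 384) (nat_lit 221)) (XT.nd (nat_lit 78) (nat_lit 0) (nat_lit 0) (XT.lf (nat_lit 0) (nat_lit 1385835606) (nat_lit 684) (nat_lit 1077381730) (nat_lit 760) (nat_lit 22577672639) (nat_lit 287) (nat_lit 5) (nat_lit 296) (nat_lit 5) (nat_lit 297) (nat_lit 5) (nat_lit 416) (nat_lit 384) (nat_lit 220)) (XT.lf (nat_lit 0) (nat_lit 7953104272) (nat_lit 760) (nat_lit 3090228805) (nat_lit 76) (nat_lit 14429882524) (nat_lit 287) (nat_lit 5) (nat_lit 297) (nat_lit 5) (nat_lit 288) (nat_lit 5) (nat_lit 417) (nat_lit 384) (nat_lit 219))))) (XT.nd (nat_lit 234) (nat_lit 1292) (nat_lit 0) (XT.nd (nat_lit 78) (nat_lit 1216) (nat_lit 0) (XT.lf (nat_lit 0) (nat_lit 13756030546) (nat_lit 760) (nat_lit 7630254594) (nat_lit 76) (nat_lit 4529260337) (nat_lit 278) (nat_lit 5) (nat_lit 288)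 (nat_lit 5) (nat_lit 279) (nat_lit 5) (nat_lit 418) (nat_lit 384) (nat_lit 218)) (XT.nd (nat_lit 78) (nat_lit 608) (nat_lit 0) (XT.lf (nat_lit 0) (nat_lit 14075397558) (nat_lit 608) (nat_lit 5836542621) (nat_lit 684) (nat_lit 6455628457) (nat_lit 270) (nat_lit 5) (nat_lit 278) (nat_lit 5) (nat_lit 279) (nat_lit 5) (nat_lit 419) (nat_lit 384) (nat_lit 217)) (XT.lf (nat_lit 0) (nat_lit 9757220996) (nat_lit 608) (nat_lit 16669525359) (nat_lit 684) (nat_lit 402923012) (nat_lit 262) (nat_lit 5) (nat_lit 270) (nat_lit 5) (nat_lit 271) (nat_lit 5) (nat_lit 420) (nat_lit 384) (nat_lit 216)))) (XT.nd (nat_lit 78) (nat_lit 608) (nat_lit 0) (XT.lf (nat_lit 0) (nat_lit 5315850147) (nat_lit 608) (nat_lit 589261951) (nat_lit 684) (nat_lit 21396760440) (nat_lit 253) (nat_lit 5) (nat_lit 261) (nat_lit 5) (nat_lit 262) (nat_lit 5) (nat_lit 421) (nat_lit 384) (nat_lit 215)) (XT.nd (nat_lit 78) (nat_lit 0) (nat_lit 0)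 (XT.lf (nat_lit 0) (nat_lit 716996340) (nat_lit 608) (nat_lit 11897745358) (nat_lit 684) (nat_lit 15169091453) (nat_lit 245) (nat_lit 5) (nat_lit 253) (nat_lit 5) (nat_lit 254) (nat_lit 5) (nat_lit 422) (nat_lit 384) (nat_lit 214)) (XT.lf (nat_lit 0) (nat_lit 19702314849) (nat_lit 684) (nat_lit 3918556854) (nat_lit 76) (nat_lit 4655848917) (nat_lit 245) (nat_lit 5) (nat_lit 254) (nat_lit 5) (nat_lit 246) (nat_lit 5) (nat_lit 423) (nat_lit 384) (nat_lit 213)))))) (XT.nd (nat_lit 50232) (nat_lit 0) (nat_lit 17708) (XT.nd (nat_lit 234) (nat_lit 532) (nat_lit 0) (XT.nd (nat_lit 78) (nat_lit 1216) (nat_lit 0) (XT.lf (nat_lit 0) (nat_lit 20099691963) (nat_lit 532) (nat_lit 7106203402) (nat_lit 608) (nat_lit 1574432843) (nat_lit 238) (nat_lit 5) (nat_lit 245) (nat_lit 5) (nat_lit 246) (nat_lit 5) (nat_lit 424) (nat_lit 384) (nat_lit 212)) (XT.nd (nat_lit 78) (nat_lit 532) (nat_lit 0) (XT.lf (nat_lit 0) (nat_lit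 5749446575) (nat_lit 684) (nat_lit 13606250034) (nat_lit 76) (nat_lit 9938860299) (nat_lit 229) (nat_lit 5) (nat_lit 238) (nat_lit 5) (nat_lit 230) (nat_lit 5) (nat_lit 425) (nat_lit 384) (nat_lit 211)) (XT.lf (nat_lit 0) (nat_lit 11163620529) (nat_lit 532) (nat_lit 2280905242) (nat_lit 608) (nat_lit 16376022095) (nat_lit 222) (nat_lit 5) (nat_lit 229) (nat_lit 5) (nat_lit 230) (nat_lit 5) (nat_lit 426) (nat_lit 384) (nat_lit 210)))) (XT.nd (nat_lit 49842) (nat_lit 0) (nat_lit 17632) (XT.lf (nat_lit 0) (nat_lit 6478907821) (nat_lit 532) (nat_lit 15119460231) (nat_lit 608) (nat_lit 8759393273) (nat_lit 215) (nat_lit 5) (nat_lit 222) (nat_lit 5) (nat_lit 223) (nat_lit 5) (nat_lit 427) (nat_lit 384) (nat_lit 209)) (XT.nd (nat_lit 78) (nat_lit 0) (nat_lit 0) (XT.lf (nat_lit 0) (nat_lit 1009613701) (nat_lit 0) (nat_lit 1009613701) (nat_lit 1748) (nat_lit 5765639725) (nat_lit 447) (nat_lit 5) (nat_lit 447)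 (nat_lit 3) (nat_lit 470) (nat_lit 3) (nat_lit 385) (nat_lit 385) (nat_lit 250)) (XT.lf (nat_lit 0) (nat_lit 4566787609) (nat_lit 1748) (nat_lit 2256770077) (nat_lit 1824) (nat_lit 8970277456) (nat_lit 447) (nat_lit 5) (nat_lit 470) (nat_lit 3) (nat_lit 471) (nat_lit 5) (nat_lit 386) (nat_lit 385) (nat_lit 249))))) (XT.nd (nat_lit 234) (nat_lit 0) (nat_lit 152) (XT.nd (nat_lit 78) (nat_lit 0) (nat_lit 0) (XT.lf (nat_lit 0) (nat_lit 5198083790) (nat_lit 1748) (nat_lit 6573217174) (nat_lit 1824) (nat_lit 4251619332) (nat_lit 448) (nat_lit 5) (nat_lit 471) (nat_lit 5) (nat_lit 472) (nat_lit 5) (nat_lit 387) (nat_lit 385) (nat_lit 248)) (XT.nd (nat_lit 78) (nat_lit 0) (nat_lit 76) (XT.lf (nat_lit 76) (nat_lit 5294823186) (nat_lit 0) (nat_lit 633455974) (nat_lit 1824) (nat_lit 10329003051) (nat_lit 449) (nat_lit 5) (nat_lit 448) (nat_lit 5) (nat_lit 472) (nat_lit 5) (nat_lit 388) (nat_lit 385) (nat_lit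 247)) (XT.lf (nat_lit 76) (nat_lit 1045356611) (nat_lit 0) (nat_lit 5742013736) (nat_lit 1824) (nat_lit 9709168149) (nat_lit 450) (nat_lit 5) (nat_lit 449) (nat_lit 5) (nat_lit 473) (nat_lit 5) (nat_lit 389) (nat_lit 385) (nat_lit 246)))) (XT.nd (nat_lit 78) (nat_lit 0) (nat_lit 76) (XT.lf (nat_lit 0) (nat_lit 7773854479) (nat_lit 1748) (nat_lit 3228920231) (nat_lit 1824) (nat_lit 5738168569) (nat_lit 450) (nat_lit 5) (nat_lit 473) (nat_lit 5) (nat_lit 474) (nat_lit 5) (nat_lit 390) (nat_lit 385) (nat_lit 245)) (XT.nd (nat_lit 78) (nat_lit 0) (nat_lit 0) (XT.lf (nat_lit 0) (nat_lit 8879084731) (nat_lit 1748) (nat_lit 7557957647) (nat_lit 1824) (nat_lit 553857917) (nat_lit 451) (nat_lit 5) (nat_lit 474) (nat_lit 5) (nat_lit 475) (nat_lit 5) (nat_lit 391) (nat_lit 385) (nat_lit 244)) (XT.lf (nat_lit 76) (nat_lit 5257280072) (nat_lit 0) (nat_lit 4876161186) (nat_lit 1824) (nat_lit 7112598406) (nat_lit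 452) (nat_lit 5) (nat_lit 451) (nat_lit 5) (nat_lit 475) (nat_lit 5) (nat_lit 392) (nat_lit 385) (nat_lit 243))))))))
noncomputable def xc112 : XT := (XT.nd (nat_lit 1716) (nat_lit 7068) (nat_lit 0) (XT.nd (nat_lit 858) (nat_lit 7600) (nat_lit 0) (XT.nd (nat_lit 390) (nat_lit 1216) (nat_lit 0) (XT.nd (nat_lit 156) (nat_lit 1596) (nat_lit 0) (XT.nd (nat_lit 78) (nat_lit 0) (nat_lit 76) (XT.lf (nat_lit 76) (nat_lit 1010841823) (nat_lit 0) (nat_lit 10504962283) (nat_lit 1824) (nat_lit 5991224538) (nat_lit 453) (nat_lit 5) (nat_lit 452) (nat_lit 5) (nat_lit 476) (nat_lit 5) (nat_lit 393) (nat_lit 385) (nat_lit 242)) (XT.lf (nat_lit 0) (nat_lit 13049833829) (nat_lit 1748) (nat_lit 3260867176) (nat_lit 1824) (nat_lit 1462945225) (nat_lit 453) (nat_lit 5) (nat_lit 476) (nat_lit 5) (nat_lit 477) (nat_lit 5) (nat_lit 394) (nat_lit 385) (nat_lit 241))) (XT.nd (nat_lit 78) (nat_lit 1672) (nat_lit 0) (XT.lf (nat_lit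 76) (nat_lit 10429120234) (nat_lit 0) (nat_lit 4326072255) (nat_lit 1824) (nat_lit 3290566466) (nat_lit 454) (nat_lit 5) (nat_lit 453) (nat_lit 5) (nat_lit 477) (nat_lit 5) (nat_lit 395) (nat_lit 385) (nat_lit 240)) (XT.nd (nat_lit 78) (nat_lit 1748) (nat_lit 0) (XT.lf (nat_lit 76) (nat_lit 6269825861) (nat_lit 0) (nat_lit 10344574472) (nat_lit 1824) (nat_lit 1709583653) (nat_lit 455) (nat_lit 5) (nat_lit 454) (nat_lit 5) (nat_lit 478) (nat_lit 5) (nat_lit 396) (nat_lit 385) (nat_lit 239)) (XT.lf (nat_lit 0) (nat_lit 15370619) (nat_lit 1824) (nat_lit 16565483310) (nat_lit 1900) (nat_lit 2027805394) (nat_lit 431) (nat_lit 5) (nat_lit 455) (nat_lit 5) (nat_lit 456) (nat_lit 5) (nat_lit 397) (nat_lit 385) (nat_lit 238))))) (XT.nd (nat_lit 234) (nat_lit 1216) (nat_lit 0) (XT.nd (nat_lit 78) (nat_lit 0) (nat_lit 76) (XT.lf (nat_lit 0) (nat_lit 1908592871) (nat_lit 1824) (nat_lit 2262139553) (nat_lit 1900)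 (nat_lit 14728124059) (nat_lit 431) (nat_lit 5) (nat_lit 455) (nat_lit 5) (nat_lit 456) (nat_lit 5) (nat_lit 398) (nat_lit 385) (nat_lit 237)) (XT.nd (nat_lit 78) (nat_lit 0) (nat_lit 76) (XT.lf (nat_lit 0) (nat_lit 3985621272) (nat_lit 1824) (nat_lit 6625821546) (nat_lit 1900) (nat_lit 8583778966) (nat_lit 432) (nat_lit 5) (nat_lit 456) (nat_lit 5) (nat_lit 457) (nat_lit 5) (nat_lit 399) (nat_lit 385) (nat_lit 236)) (XT.lf (nat_lit 0) (nat_lit 6226529275) (nat_lit 1824) (nat_lit 11062762246) (nat_lit 1900) (nat_lit 2209157494) (nat_lit 433) (nat_lit 5) (nat_lit 457) (nat_lit 5) (nat_lit 458) (nat_lit 5) (nat_lit 400) (nat_lit 385) (nat_lit 235)))) (XT.nd (nat_lit 78) (nat_lit 1368) (nat_lit 0) (XT.lf (nat_lit 76) (nat_lit 4204652650) (nat_lit 0) (nat_lit 4462597658) (nat_lit 1900) (nat_lit 11140873315) (nat_lit 434) (nat_lit 5) (nat_lit 433) (nat_lit 5) (nat_lit 458) (nat_lit 5) (nat_lit 401) (nat_lit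 385) (nat_lit 234)) (XT.nd (nat_lit 78) (nat_lit 1444) (nat_lit 0) (XT.lf (nat_lit 0) (nat_lit 11302854277) (nat_lit 1824) (nat_lit 110540179) (nat_lit 76) (nat_lit 8711262998) (nat_lit 434) (nat_lit 5) (nat_lit 458) (nat_lit 5) (nat_lit 435) (nat_lit 5) (nat_lit 402) (nat_lit 385) (nat_lit 233)) (XT.lf (nat_lit 0) (nat_lit 14153267443) (nat_lit 1520) (nat_lit 4441889743) (nat_lit 76) (nat_lit 1852817438) (nat_lit 415) (nat_lit 5) (nat_lit 435) (nat_lit 5) (nat_lit 416) (nat_lit 5) (nat_lit 403) (nat_lit 385) (nat_lit 232)))))) (XT.nd (nat_lit 390) (nat_lit 3952) (nat_lit 0) (XT.nd (nat_lit 156) (nat_lit 1824) (nat_lit 0) (XT.nd (nat_lit 78) (nat_lit 912) (nat_lit 0) (XT.lf (nat_lit 0) (nat_lit 11897481947) (nat_lit 912) (nat_lit 5335994502) (nat_lit 988) (nat_lit 3544631276) (nat_lit 403) (nat_lit 5) (nat_lit 415) (nat_lit 5) (nat_lit 416) (nat_lit 5) (nat_lit 404) (nat_lit 385) (nat_lit 231)) (XT.lf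 (nat_lit 0) (nat_lit 7708133603) (nat_lit 912) (nat_lit 12822526780) (nat_lit 988) (nat_lit 584995085) (nat_lit 391) (nat_lit 5) (nat_lit 403) (nat_lit 5) (nat_lit 404) (nat_lit 5) (nat_lit 405) (nat_lit 385) (nat_lit 230))) (XT.nd (nat_lit 78) (nat_lit 836) (nat_lit 0) (XT.lf (nat_lit 0) (nat_lit 2545894860) (nat_lit 988) (nat_lit 18028673050) (nat_lit 76) (nat_lit 886148315) (nat_lit 378) (nat_lit 5) (nat_lit 391) (nat_lit 5) (nat_lit 379) (nat_lit 5) (nat_lit 406) (nat_lit 385) (nat_lit 229)) (XT.nd (nat_lit 78) (nat_lit 836) (nat_lit 0) (XT.lf (nat_lit 0) (nat_lit 5930601734) (nat_lit 988) (nat_lit 953315887) (nat_lit 76) (nat_lit 14928778955) (nat_lit 378) (nat_lit 5) (nat_lit 391) (nat_lit 5) (nat_lit 379) (nat_lit 5) (nat_lit 407) (nat_lit 385) (nat_lit 228)) (XT.lf (nat_lit 0) (nat_lit 9564676876) (nat_lit 912) (nat_lit 5374370210) (nat_lit 76) (nat_lit 7233234526) (nat_lit 367) (nat_lit 5)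 (nat_lit 379) (nat_lit 5) (nat_lit 368) (nat_lit 5) (nat_lit 408) (nat_lit 385) (nat_lit 227))))) (XT.nd (nat_lit 234) (nat_lit 1596) (nat_lit 0) (XT.nd (nat_lit 78) (nat_lit 1520) (nat_lit 0) (XT.lf (nat_lit 0) (nat_lit 12663367999) (nat_lit 836) (nat_lit 770237248) (nat_lit 912) (nat_lit 9106534096) (nat_lit 356) (nat_lit 5) (nat_lit 367) (nat_lit 5) (nat_lit 368) (nat_lit 5) (nat_lit 409) (nat_lit 385) (nat_lit 226)) (XT.nd (nat_lit 78) (nat_lit 760) (nat_lit 0) (XT.lf (nat_lit 0) (nat_lit 8408921829) (nat_lit 760) (nat_lit 9181964965) (nat_lit 836) (nat_lit 5324702015) (nat_lit 346) (nat_lit 5) (nat_lit 356) (nat_lit 5) (nat_lit 357) (nat_lit 5) (nat_lit 410) (nat_lit 385) (nat_lit 225)) (XT.lf (nat_lit 0) (nat_lit 4081693420) (nat_lit 760) (nat_lit 17916456564) (nat_lit 836) (nat_lit 1301648173) (nat_lit 336) (nat_lit 5) (nat_lit 346) (nat_lit 5) (nat_lit 347) (nat_lit 5) (nat_lit 411) (nat_lit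 385) (nat_lit 224)))) (XT.nd (nat_lit 78) (nat_lit 1520) (nat_lit 0) (XT.lf (nat_lit 0) (nat_lit 2956787357) (nat_lit 836) (nat_lit 356665443) (nat_lit 76) (nat_lit 20378674216) (nat_lit 335) (nat_lit 5) (nat_lit 346) (nat_lit 5) (nat_lit 336) (nat_lit 5) (nat_lit 412) (nat_lit 385) (nat_lit 223)) (XT.nd (nat_lit 78) (nat_lit 760) (nat_lit 0) (XT.lf (nat_lit 0) (nat_lit 7519624079) (nat_lit 836) (nat_lit 4864222848) (nat_lit 76) (nat_lit 11708321623) (nat_lit 325) (nat_lit 5) (nat_lit 336) (nat_lit 5) (nat_lit 326) (nat_lit 5) (nat_lit 413) (nat_lit 385) (nat_lit 222)) (XT.lf (nat_lit 0) (nat_lit 12351547787) (nat_lit 836) (nat_lit 9452043157) (nat_lit 76) (nat_lit 2697977838) (nat_lit 315) (nat_lit 5) (nat_lit 326) (nat_lit 5) (nat_lit 316) (nat_lit 5) (nat_lit 414) (nat_lit 385) (nat_lit 221))))))) (XT.nd (nat_lit 858) (nat_lit 1216) (nat_lit 0) (XT.nd (nat_lit 390) (nat_lit 3040) (nat_lit 0) (XT.nd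 (nat_lit 156) (nat_lit 1444) (nat_lit 0) (XT.nd (nat_lit 78) (nat_lit 684) (nat_lit 0) (XT.lf (nat_lit 0) (nat_lit 10754046889) (nat_lit 684) (nat_lit 6752404869) (nat_lit 760) (nat_lit 7413240259) (nat_lit 306) (nat_lit 5) (nat_lit 315) (nat_lit 5) (nat_lit 316) (nat_lit 5) (nat_lit 415) (nat_lit 385) (nat_lit 220)) (XT.lf (nat_lit 0) (nat_lit 6364208534) (nat_lit 684) (nat_lit 16606772350) (nat_lit 760) (nat_lit 2376279909) (nat_lit 297) (nat_lit 5) (nat_lit 306) (nat_lit 5) (nat_lit 307) (nat_lit 5) (nat_lit 416) (nat_lit 385) (nat_lit 219))) (XT.nd (nat_lit 78) (nat_lit 684) (nat_lit 0) (XT.lf (nat_lit 0) (nat_lit 1869994008) (nat_lit 684) (nat_lit 1051328820) (nat_lit 760) (nat_lit 22863041808) (nat_lit 287) (nat_lit 5) (nat_lit 296) (nat_lit 5) (nat_lit 297) (nat_lit 5) (nat_lit 417) (nat_lit 385) (nat_lit 218)) (XT.nd (nat_lit 78) (nat_lit 684) (nat_lit 0) (XT.lf (nat_lit 0) (nat_lit 8565083785)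 (nat_lit 760) (nat_lit 2746084827) (nat_lit 76) (nat_lit 14918709847) (nat_lit 287) (nat_lit 5) (nat_lit 297) (nat_lit 5) (nat_lit 288) (nat_lit 5) (nat_lit 418) (nat_lit 385) (nat_lit 217)) (XT.lf (nat_lit 0) (nat_lit 14534431356) (nat_lit 760) (nat_lit 7422447315) (nat_lit 76) (nat_lit 4728754809) (nat_lit 278) (nat_lit 5) (nat_lit 288) (nat_lit 5) (nat_lit 279) (nat_lit 5) (nat_lit 419) (nat_lit 385) (nat_lit 216))))) (XT.nd (nat_lit 234) (nat_lit 1140) (nat_lit 0) (XT.nd (nat_lit 78) (nat_lit 1292) (nat_lit 0) (XT.lf (nat_lit 0) (nat_lit 14927289221) (nat_lit 608) (nat_lit 5939866463) (nat_lit 684) (nat_lit 6284220765) (nat_lit 270) (nat_lit 5) (nat_lit 278) (nat_lit 5) (nat_lit 279) (nat_lit 5) (nat_lit 420) (nat_lit 385) (nat_lit 215)) (XT.nd (nat_lit 78) (nat_lit 684) (nat_lit 0) (XT.lf (nat_lit 0) (nat_lit 10479240819) (nat_lit 608) (nat_lit 17090981939) (nat_lit 684) (nat_lit 57262917) (nat_lit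 262) (nat_lit 5) (nat_lit 270) (nat_lit 5) (nat_lit 271) (nat_lit 5) (nat_lit 421) (nat_lit 385) (nat_lit 214)) (XT.lf (nat_lit 0) (nat_lit 5902337867) (nat_lit 608) (nat_lit 525472719) (nat_lit 684) (nat_lit 21686149837) (nat_lit 253) (nat_lit 5) (nat_lit 261) (nat_lit 5) (nat_lit 262) (nat_lit 5) (nat_lit 422) (nat_lit 385) (nat_lit 213)))) (XT.nd (nat_lit 78) (nat_lit 532) (nat_lit 0) (XT.lf (nat_lit 0) (nat_lit 1164925561) (nat_lit 608) (nat_lit 12167021221) (nat_lit 684) (nat_lit 15278570390) (nat_lit 245) (nat_lit 5) (nat_lit 253) (nat_lit 5) (nat_lit 254) (nat_lit 5) (nat_lit 423) (nat_lit 385) (nat_lit 212)) (XT.nd (nat_lit 78) (nat_lit 532) (nat_lit 0) (XT.lf (nat_lit 0) (nat_lit 20622832797) (nat_lit 684) (nat_lit 3616034744) (nat_lit 76) (nat_lit 4879511634) (nat_lit 245) (nat_lit 5) (nat_lit 254) (nat_lit 5) (nat_lit 246) (nat_lit 5) (nat_lit 424) (nat_lit 385) (nat_lit 211)) (XT.lf (nat_lit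 0) (nat_lit 21115946258) (nat_lit 532) (nat_lit 7228662064) (nat_lit 608) (nat_lit 1292626492) (nat_lit 238) (nat_lit 5) (nat_lit 245) (nat_lit 5) (nat_lit 246) (nat_lit 5) (nat_lit 425) (nat_lit 385) (nat_lit 210)))))) (XT.nd (nat_lit 50232) (nat_lit 0) (nat_lit 17176) (XT.nd (nat_lit 49998) (nat_lit 0) (nat_lit 17100) (XT.nd (nat_lit 78) (nat_lit 532) (nat_lit 0) (XT.lf (nat_lit 0) (nat_lit 6240466770) (nat_lit 684) (nat_lit 13597777306) (nat_lit 76) (nat_lit 10328728814) (nat_lit 229) (nat_lit 5) (nat_lit 238) (nat_lit 5) (nat_lit 230) (nat_lit 5) (nat_lit 426) (nat_lit 385) (nat_lit 209)) (XT.lf (nat_lit 0) (nat_lit 11908429556) (nat_lit 532) (nat_lit 2251352360) (nat_lit 608) (nat_lit 16549095446) (nat_lit 222) (nat_lit 5) (nat_lit 229) (nat_lit 5) (nat_lit 230) (nat_lit 5) (nat_lit 427) (nat_lit 385) (nat_lit 208))) (XT.nd (nat_lit 78) (nat_lit 0) (nat_lit 0) (XT.lf (nat_lit 0) (nat_lit 1242308076)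 (nat_lit 0) (nat_lit 1242308076) (nat_lit 1748) (nat_lit 5525611606) (nat_lit 447) (nat_lit 5) (nat_lit 447) (nat_lit 3) (nat_lit 470) (nat_lit 3) (nat_lit 386) (nat_lit 386) (nat_lit 248)) (XT.nd (nat_lit 78) (nat_lit 0) (nat_lit 76) (XT.lf (nat_lit 0) (nat_lit 5487282060) (nat_lit 1748) (nat_lit 1913006187) (nat_lit 1824) (nat_lit 8851519035) (nat_lit 447) (nat_lit 5) (nat_lit 470) (nat_lit 3) (nat_lit 471) (nat_lit 5) (nat_lit 387) (nat_lit 386) (nat_lit 247)) (XT.lf (nat_lit 0) (nat_lit 6114997513) (nat_lit 1748) (nat_lit 6347860559) (nat_lit 1824) (nat_lit 4025362355) (nat_lit 448) (nat_lit 5) (nat_lit 471) (nat_lit 5) (nat_lit 472) (nat_lit 5) (nat_lit 388) (nat_lit 386) (nat_lit 246))))) (XT.nd (nat_lit 234) (nat_lit 0) (nat_lit 228) (XT.nd (nat_lit 78) (nat_lit 0) (nat_lit 76) (XT.lf (nat_lit 76) (nat_lit 5869365590) (nat_lit 0) (nat_lit 978267929) (nat_lit 1824) (nat_lit 9882373879) (nat_lit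 449) (nat_lit 5) (nat_lit 448) (nat_lit 5) (nat_lit 472) (nat_lit 5) (nat_lit 389) (nat_lit 386) (nat_lit 245)) (XT.nd (nat_lit 78) (nat_lit 0) (nat_lit 76) (XT.lf (nat_lit 76) (nat_lit 1502501892) (nat_lit 0) (nat_lit 6209109012) (nat_lit 1824) (nat_lit 9265252949) (nat_lit 450) (nat_lit 5) (nat_lit 449) (nat_lit 5) (nat_lit 473) (nat_lit 5) (nat_lit 390) (nat_lit 386) (nat_lit 244)) (XT.lf (nat_lit 0) (nat_lit 8704842136) (nat_lit 1748) (nat_lit 2896399835) (nat_lit 1824) (nat_lit 5627820372) (nat_lit 450) (nat_lit 5) (nat_lit 473) (nat_lit 5) (nat_lit 474) (nat_lit 5) (nat_lit 391) (nat_lit 386) (nat_lit 243)))) (XT.nd (nat_lit 78) (nat_lit 0) (nat_lit 0) (XT.lf (nat_lit 0) (nat_lit 9823974870) (nat_lit 1748) (nat_lit 7346847933) (nat_lit 1824) (nat_lit 316084834) (nat_lit 451) (nat_lit 5) (nat_lit 474) (nat_lit 5) (nat_lit 475) (nat_lit 5) (nat_lit 392) (nat_lit 386) (nat_lit 242)) (XT.nd (nat_lit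 78) (nat_lit 0) (nat_lit 76) (XT.lf (nat_lit 76) (nat_lit 5845743346) (nat_lit 0) (nat_lit 5253252780) (nat_lit 1824) (nat_lit 6651048730) (nat_lit 452) (nat_lit 5) (nat_lit 451) (nat_lit 5) (nat_lit 475) (nat_lit 5) (nat_lit 393) (nat_lit 386) (nat_lit 241)) (XT.lf (nat_lit 76) (nat_lit 1479556853) (nat_lit 0) (nat_lit 11025395925) (nat_lit 1824) (nat_lit 5514272490) (nat_lit 453) (nat_lit 5) (nat_lit 452) (nat_lit 5) (nat_lit 476) (nat_lit 5) (nat_lit 394) (nat_lit 386) (nat_lit 240))))))))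
noncomputable def xc113 : XT := (XT.nd (nat_lit 1716) (nat_lit 5852) (nat_lit 0) (XT.nd (nat_lit 858) (nat_lit 7372) (nat_lit 0) (XT.nd (nat_lit 390) (nat_lit 2128) (nat_lit 0) (XT.nd (nat_lit 156) (nat_lit 1672) (nat_lit 0) (XT.nd (nat_lit 78) (nat_lit 0) (nat_lit 0) (XT.lf (nat_lit 0) (nat_lit 14064961567) (nat_lit 1748) (nat_lit 2919142846) (nat_lit 1824) (nat_lit 1310141905) (nat_lit 453) (nat_lit 5) (nat_lit 476) (nat_lit 5) (nat_lit 477) (nat_lit 5) (nat_lit 395) (nat_lit 386) (nat_lit 239)) (XT.lf (nat_lit 76) (nat_lit 11174413004) (nat_lit 0) (nat_lit 4631711475) (nat_lit 1824) (nat_lit 2768709056) (nat_lit 454) (nat_lit 5) (nat_lit 453) (nat_lit 5) (nat_lit 477) (nat_lit 5) (nat_lit 396) (nat_lit 386) (nat_lit 238))) (XT.nd (nat_lit 78) (nat_lit 1748) (nat_lit 0) (XT.lf (nat_lit 76) (nat_lit 6896546235) (nat_lit 0) (nat_lit 10808584864) (nat_lit 1824) (nat_lit 1156597632) (nat_lit 455) (nat_lit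 5) (nat_lit 454) (nat_lit 5) (nat_lit 478) (nat_lit 5) (nat_lit 397) (nat_lit 386) (nat_lit 237)) (XT.nd (nat_lit 78) (nat_lit 0) (nat_lit 0) (XT.lf (nat_lit 0) (nat_lit 596739247) (nat_lit 1824) (nat_lit 16610333779) (nat_lit 1900) (nat_lit 1948105329) (nat_lit 431) (nat_lit 5) (nat_lit 455) (nat_lit 5) (nat_lit 456) (nat_lit 5) (nat_lit 398) (nat_lit 386) (nat_lit 236)) (XT.lf (nat_lit 0) (nat_lit 2529838531) (nat_lit 1824) (nat_lit 1891058079) (nat_lit 1900) (nat_lit 15033526784) (nat_lit 431) (nat_lit 5) (nat_lit 455) (nat_lit 5) (nat_lit 456) (nat_lit 5) (nat_lit 399) (nat_lit 386) (nat_lit 235))))) (XT.nd (nat_lit 234) (nat_lit 2204) (nat_lit 0) (XT.nd (nat_lit 78) (nat_lit 0) (nat_lit 76) (XT.lf (nat_lit 0) (nat_lit 4654785000) (nat_lit 1824) (nat_lit 6380879406) (nat_lit 1900) (nat_lit 8724306571) (nat_lit 432) (nat_lit 5) (nat_lit 456) (nat_lit 5) (nat_lit 457) (nat_lit 5) (nat_lit 400) (nat_lit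 386) (nat_lit 234)) (XT.nd (nat_lit 78) (nat_lit 0) (nat_lit 0) (XT.lf (nat_lit 0) (nat_lit 6949098142) (nat_lit 1824) (nat_lit 10946637838) (nat_lit 1900) (nat_lit 2176838852) (nat_lit 433) (nat_lit 5) (nat_lit 457) (nat_lit 5) (nat_lit 458) (nat_lit 5) (nat_lit 401) (nat_lit 386) (nat_lit 233)) (XT.lf (nat_lit 76) (nat_lit 4771531119) (nat_lit 0) (nat_lit 4678766218) (nat_lit 1900) (nat_lit 10941500478) (nat_lit 434) (nat_lit 5) (nat_lit 433) (nat_lit 5) (nat_lit 458) (nat_lit 5) (nat_lit 402) (nat_lit 386) (nat_lit 232)))) (XT.nd (nat_lit 78) (nat_lit 912) (nat_lit 0) (XT.lf (nat_lit 0) (nat_lit 329142604) (nat_lit 1444) (nat_lit 11822211240) (nat_lit 1520) (nat_lit 8566749302) (nat_lit 415) (nat_lit 5) (nat_lit 434) (nat_lit 5) (nat_lit 435) (nat_lit 5) (nat_lit 403) (nat_lit 386) (nat_lit 231)) (XT.nd (nat_lit 78) (nat_lit 912) (nat_lit 0) (XT.lf (nat_lit 0) (nat_lit 15072755510) (nat_lit 1520)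 (nat_lit 4133158724) (nat_lit 76) (nat_lit 1845499156) (nat_lit 415) (nat_lit 5) (nat_lit 435) (nat_lit 5) (nat_lit 416) (nat_lit 5) (nat_lit 404) (nat_lit 386) (nat_lit 230)) (XT.lf (nat_lit 0) (nat_lit 12689223391) (nat_lit 912) (nat_lit 5544556242) (nat_lit 988) (nat_lit 3157905663) (nat_lit 403) (nat_lit 5) (nat_lit 415) (nat_lit 5) (nat_lit 416) (nat_lit 5) (nat_lit 405) (nat_lit 386) (nat_lit 229)))))) (XT.nd (nat_lit 390) (nat_lit 3800) (nat_lit 0) (XT.nd (nat_lit 156) (nat_lit 1672) (nat_lit 0) (XT.nd (nat_lit 78) (nat_lit 988) (nat_lit 0) (XT.lf (nat_lit 0) (nat_lit 8377057102) (nat_lit 912) (nat_lit 13241281413) (nat_lit 988) (nat_lit 121254671) (nat_lit 391) (nat_lit 5) (nat_lit 403) (nat_lit 5) (nat_lit 404) (nat_lit 5) (nat_lit 406) (nat_lit 386) (nat_lit 228)) (XT.lf (nat_lit 0) (nat_lit 3086076037) (nat_lit 988) (nat_lit 18123103773) (nat_lit 76) (nat_lit 885989697) (nat_lit 378) (nat_lit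 5) (nat_lit 391) (nat_lit 5) (nat_lit 379) (nat_lit 5) (nat_lit 407) (nat_lit 386) (nat_lit 227))) (XT.nd (nat_lit 78) (nat_lit 1672) (nat_lit 0) (XT.lf (nat_lit 0) (nat_lit 6558815253) (nat_lit 988) (nat_lit 548488696) (nat_lit 76) (nat_lit 15350678181) (nat_lit 378) (nat_lit 5) (nat_lit 391) (nat_lit 5) (nat_lit 379) (nat_lit 5) (nat_lit 408) (nat_lit 386) (nat_lit 226)) (XT.nd (nat_lit 78) (nat_lit 836) (nat_lit 0) (XT.lf (nat_lit 0) (nat_lit 10291477687) (nat_lit 912) (nat_lit 5100232681) (nat_lit 76) (nat_lit 7436855653) (nat_lit 367) (nat_lit 5) (nat_lit 379) (nat_lit 5) (nat_lit 368) (nat_lit 5) (nat_lit 409) (nat_lit 386) (nat_lit 225)) (XT.lf (nat_lit 0) (nat_lit 13471574335) (nat_lit 836) (nat_lit 794868944) (nat_lit 912) (nat_lit 8941219345) (nat_lit 356) (nat_lit 5) (nat_lit 367) (nat_lit 5) (nat_lit 368) (nat_lit 5) (nat_lit 410) (nat_lit 386) (nat_lit 224))))) (XT.nd (nat_lit 234) (nat_lit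 1444) (nat_lit 0) (XT.nd (nat_lit 78) (nat_lit 1596) (nat_lit 0) (XT.lf (nat_lit 0) (nat_lit 9091095835) (nat_lit 760) (nat_lit 9447609748) (nat_lit 836) (nat_lit 5055867201) (nat_lit 346) (nat_lit 5) (nat_lit 356) (nat_lit 5) (nat_lit 357) (nat_lit 5) (nat_lit 411) (nat_lit 386) (nat_lit 223)) (XT.nd (nat_lit 78) (nat_lit 836) (nat_lit 0) (XT.lf (nat_lit 0) (nat_lit 4635359219) (nat_lit 760) (nat_lit 18433453353) (nat_lit 836) (nat_lit 921685706) (nat_lit 336) (nat_lit 5) (nat_lit 346) (nat_lit 5) (nat_lit 347) (nat_lit 5) (nat_lit 412) (nat_lit 386) (nat_lit 222)) (XT.lf (nat_lit 0) (nat_lit 57454445) (nat_lit 760) (nat_lit 3389881891) (nat_lit 836) (nat_lit 20947441949) (nat_lit 325) (nat_lit 5) (nat_lit 335) (nat_lit 5) (nat_lit 336) (nat_lit 5) (nat_lit 413) (nat_lit 386) (nat_lit 221)))) (XT.nd (nat_lit 78) (nat_lit 1444) (nat_lit 0) (XT.lf (nat_lit 0) (nat_lit 8137860770) (nat_lit 836) (nat_lit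 4585200355) (nat_lit 76) (nat_lit 12083946090) (nat_lit 325) (nat_lit 5) (nat_lit 336) (nat_lit 5) (nat_lit 326) (nat_lit 5) (nat_lit 414) (nat_lit 386) (nat_lit 220)) (XT.nd (nat_lit 78) (nat_lit 684) (nat_lit 0) (XT.lf (nat_lit 0) (nat_lit 13106241717) (nat_lit 836) (nat_lit 9310021346) (nat_lit 76) (nat_lit 2812598539) (nat_lit 315) (nat_lit 5) (nat_lit 326) (nat_lit 5) (nat_lit 316) (nat_lit 5) (nat_lit 415) (nat_lit 386) (nat_lit 219)) (XT.lf (nat_lit 0) (nat_lit 11495346821) (nat_lit 684) (nat_lit 6911975563) (nat_lit 760) (nat_lit 7252377636) (nat_lit 306) (nat_lit 5) (nat_lit 315) (nat_lit 5) (nat_lit 316) (nat_lit 5) (nat_lit 416) (nat_lit 386) (nat_lit 218))))))) (XT.nd (nat_lit 50778) (nat_lit 0) (nat_lit 16568) (XT.nd (nat_lit 390) (nat_lit 3116) (nat_lit 0) (XT.nd (nat_lit 156) (nat_lit 1292) (nat_lit 0) (XT.nd (nat_lit 78) (nat_lit 760) (nat_lit 0) (XT.lf (nat_lit 0) (nat_lit 6974205826)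 (nat_lit 684) (nat_lit 17053631457) (nat_lit 760) (nat_lit 2072419595) (nat_lit 297) (nat_lit 5) (nat_lit 306) (nat_lit 5) (nat_lit 307) (nat_lit 5) (nat_lit 417) (nat_lit 386) (nat_lit 217)) (XT.lf (nat_lit 0) (nat_lit 2343271068) (nat_lit 684) (nat_lit 1027845249) (nat_lit 760) (nat_lit 23179472218) (nat_lit 287) (nat_lit 5) (nat_lit 296) (nat_lit 5) (nat_lit 297) (nat_lit 5) (nat_lit 418) (nat_lit 386) (nat_lit 216))) (XT.nd (nat_lit 78) (nat_lit 1292) (nat_lit 0) (XT.lf (nat_lit 0) (nat_lit 9173988777) (nat_lit 760) (nat_lit 2416693555) (nat_lit 76) (nat_lit 15418991330) (nat_lit 287) (nat_lit 5) (nat_lit 297) (nat_lit 5) (nat_lit 288) (nat_lit 5) (nat_lit 419) (nat_lit 386) (nat_lit 215)) (XT.nd (nat_lit 78) (nat_lit 608) (nat_lit 0) (XT.lf (nat_lit 0) (nat_lit 15315190371) (nat_lit 760) (nat_lit 7233475040) (nat_lit 76) (nat_lit 4930582259) (nat_lit 278) (nat_lit 5) (nat_lit 288) (nat_lit 5)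 (nat_lit 279) (nat_lit 5) (nat_lit 420) (nat_lit 386) (nat_lit 214)) (XT.lf (nat_lit 0) (nat_lit 15780075130) (nat_lit 608) (nat_lit 6050410050) (nat_lit 684) (nat_lit 6128627730) (nat_lit 270) (nat_lit 5) (nat_lit 278) (nat_lit 5) (nat_lit 279) (nat_lit 5) (nat_lit 421) (nat_lit 386) (nat_lit 213))))) (XT.nd (nat_lit 234) (nat_lit 1216) (nat_lit 0) (XT.nd (nat_lit 78) (nat_lit 1216) (nat_lit 0) (XT.lf (nat_lit 0) (nat_lit 274581747) (nat_lit 684) (nat_lit 17253171519) (nat_lit 76) (nat_lit 10921853141) (nat_lit 261) (nat_lit 5) (nat_lit 270) (nat_lit 5) (nat_lit 262) (nat_lit 5) (nat_lit 422) (nat_lit 386) (nat_lit 212)) (XT.nd (nat_lit 78) (nat_lit 608) (nat_lit 0) (XT.lf (nat_lit 0) (nat_lit 6481907970) (nat_lit 608) (nat_lit 464446355) (nat_lit 684) (nat_lit 22004456629) (nat_lit 253) (nat_lit 5) (nat_lit 261) (nat_lit 5) (nat_lit 262) (nat_lit 5) (nat_lit 423) (nat_lit 386) (nat_lit 211)) (XT.lf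 (nat_lit 0) (nat_lit 1601814445) (nat_lit 608) (nat_lit 12449407202) (nat_lit 684) (nat_lit 15411172193) (nat_lit 245) (nat_lit 5) (nat_lit 253) (nat_lit 5) (nat_lit 254) (nat_lit 5) (nat_lit 424) (nat_lit 386) (nat_lit 210)))) (XT.nd (nat_lit 78) (nat_lit 1216) (nat_lit 0) (XT.lf (nat_lit 0) (nat_lit 21552054592) (nat_lit 684) (nat_lit 3328551213) (nat_lit 76) (nat_lit 5105063021) (nat_lit 245) (nat_lit 5) (nat_lit 254) (nat_lit 5) (nat_lit 246) (nat_lit 5) (nat_lit 425) (nat_lit 386) (nat_lit 209)) (XT.nd (nat_lit 78) (nat_lit 684) (nat_lit 0) (XT.lf (nat_lit 0) (nat_lit 22138965165) (nat_lit 532) (nat_lit 7360002612) (nat_lit 608) (nat_lit 1021254154) (nat_lit 238) (nat_lit 5) (nat_lit 245) (nat_lit 5) (nat_lit 246) (nat_lit 5) (nat_lit 426) (nat_lit 386) (nat_lit 208)) (XT.lf (nat_lit 0) (nat_lit 6727932255) (nat_lit 684) (nat_lit 13612968398) (nat_lit 76) (nat_lit 10725029274) (nat_lit 229) (nat_lit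 5) (nat_lit 238) (nat_lit 5) (nat_lit 230) (nat_lit 5) (nat_lit 427) (nat_lit 386) (nat_lit 207)))))) (XT.nd (nat_lit 390) (nat_lit 0) (nat_lit 228) (XT.nd (nat_lit 156) (nat_lit 0) (nat_lit 76) (XT.nd (nat_lit 78) (nat_lit 0) (nat_lit 0) (XT.lf (nat_lit 0) (nat_lit 1470364352) (nat_lit 0) (nat_lit 1470364352) (nat_lit 1748) (nat_lit 5302090378) (nat_lit 447) (nat_lit 5) (nat_lit 447) (nat_lit 3) (nat_lit 470) (nat_lit 3) (nat_lit 387) (nat_lit 387) (nat_lit 246)) (XT.lf (nat_lit 0) (nat_lit 6390415767) (nat_lit 1748) (nat_lit 1582549268) (nat_lit 1824) (nat_lit 8751463000) (nat_lit 447) (nat_lit 5) (nat_lit 470) (nat_lit 3) (nat_lit 471) (nat_lit 5) (nat_lit 388) (nat_lit 387) (nat_lit 245))) (XT.nd (nat_lit 78) (nat_lit 0) (nat_lit 0) (XT.lf (nat_lit 0) (nat_lit 7015735786) (nat_lit 1748) (nat_lit 6139999523) (nat_lit 1824) (nat_lit 3812627554) (nat_lit 448) (nat_lit 5) (nat_lit 471) (nat_lit 5)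 (nat_lit 472) (nat_lit 5) (nat_lit 389) (nat_lit 387) (nat_lit 244)) (XT.nd (nat_lit 78) (nat_lit 0) (nat_lit 76) (XT.lf (nat_lit 76) (nat_lit 6437281517) (nat_lit 0) (nat_lit 1314721514) (nat_lit 1824) (nat_lit 9465771984) (nat_lit 449) (nat_lit 5) (nat_lit 448) (nat_lit 5) (nat_lit 472) (nat_lit 5) (nat_lit 390) (nat_lit 387) (nat_lit 243)) (XT.lf (nat_lit 76) (nat_lit 1948919755) (nat_lit 0) (nat_lit 6673292420) (nat_lit 1824) (nat_lit 8850223221) (nat_lit 450) (nat_lit 5) (nat_lit 449) (nat_lit 5) (nat_lit 473) (nat_lit 5) (nat_lit 391) (nat_lit 387) (nat_lit 242))))) (XT.nd (nat_lit 234) (nat_lit 0) (nat_lit 152) (XT.nd (nat_lit 78) (nat_lit 0) (nat_lit 76) (XT.lf (nat_lit 0) (nat_lit 9623704454) (nat_lit 1748) (nat_lit 2578552454) (nat_lit 1824) (nat_lit 5530377997) (nat_lit 450) (nat_lit 5) (nat_lit 473) (nat_lit 5) (nat_lit 474) (nat_lit 5) (nat_lit 392) (nat_lit 387) (nat_lit 241)) (XT.nd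 (nat_lit 78) (nat_lit 0) (nat_lit 0) (XT.lf (nat_lit 0) (nat_lit 10758262027) (nat_lit 1748) (nat_lit 7154539220) (nat_lit 1824) (nat_lit 85781517) (nat_lit 451) (nat_lit 5) (nat_lit 474) (nat_lit 5) (nat_lit 475) (nat_lit 5) (nat_lit 393) (nat_lit 387) (nat_lit 240)) (XT.lf (nat_lit 76) (nat_lit 6427134001) (nat_lit 0) (nat_lit 5628407869) (nat_lit 1824) (nat_lit 6214396170) (nat_lit 452) (nat_lit 5) (nat_lit 451) (nat_lit 5) (nat_lit 475) (nat_lit 5) (nat_lit 394) (nat_lit 387) (nat_lit 239)))) (XT.nd (nat_lit 78) (nat_lit 0) (nat_lit 76) (XT.lf (nat_lit 76) (nat_lit 1937167968) (nat_lit 0) (nat_lit 11549658391) (nat_lit 1824) (nat_lit 5060708503) (nat_lit 453) (nat_lit 5) (nat_lit 452) (nat_lit 5) (nat_lit 476) (nat_lit 5) (nat_lit 395) (nat_lit 387) (nat_lit 238)) (XT.nd (nat_lit 78) (nat_lit 0) (nat_lit 0) (XT.lf (nat_lit 0) (nat_lit 15074744068) (nat_lit 1748) (nat_lit 2592398774) (nat_lit 1824)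 (nat_lit 1164045392) (nat_lit 453) (nat_lit 5) (nat_lit 476) (nat_lit 5) (nat_lit 477) (nat_lit 5) (nat_lit 396) (nat_lit 387) (nat_lit 237)) (XT.lf (nat_lit 76) (nat_lit 11917241928) (nat_lit 0) (nat_lit 4936424958) (nat_lit 1824) (nat_lit 2266819433) (nat_lit 454) (nat_lit 5) (nat_lit 453) (nat_lit 5) (nat_lit 477) (nat_lit 5) (nat_lit 397) (nat_lit 387) (nat_lit 236))))))))
noncomputable def xc114 : XT := (XT.nd (nat_lit 1716) (nat_lit 3724) (nat_lit 0) (XT.nd (nat_lit 858) (nat_lit 6916) (nat_lit 0) (XT.nd (nat_lit 390) (nat_lit 4028) (nat_lit 0) (XT.nd (nat_lit 156) (nat_lit 0) (nat_lit 0) (XT.nd (nat_lit 78) (nat_lit 1748) (nat_lit 0) (XT.lf (nat_lit 76) (nat_lit 7516889316) (nat_lit 0) (nat_lit 11277694100) (nat_lit 1824) (nat_lit 621709802) (nat_lit 455) (nat_lit 5) (nat_lit 454) (nat_lit 5) (nat_lit 478) (nat_lit 5) (nat_lit 398) (nat_lit 387) (nat_lit 235)) (XT.lf (nat_lit 0) (nat_lit 1162202468)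 (nat_lit 1824) (nat_lit 16682482957) (nat_lit 1900) (nat_lit 1874081501) (nat_lit 431) (nat_lit 5) (nat_lit 455) (nat_lit 5) (nat_lit 456) (nat_lit 5) (nat_lit 399) (nat_lit 387) (nat_lit 234))) (XT.nd (nat_lit 78) (nat_lit 0) (nat_lit 76) (XT.lf (nat_lit 0) (nat_lit 3137346350) (nat_lit 1824) (nat_lit 1534041438) (nat_lit 1900) (nat_lit 15355923862) (nat_lit 431) (nat_lit 5) (nat_lit 455) (nat_lit 5) (nat_lit 456) (nat_lit 5) (nat_lit 400) (nat_lit 387) (nat_lit 233)) (XT.nd (nat_lit 78) (nat_lit 0) (nat_lit 76) (XT.lf (nat_lit 0) (nat_lit 5312474633) (nat_lit 1824) (nat_lit 6154060161) (nat_lit 1900) (nat_lit 8875765465) (nat_lit 432) (nat_lit 5) (nat_lit 456) (nat_lit 5) (nat_lit 457) (nat_lit 5) (nat_lit 401) (nat_lit 387) (nat_lit 232)) (XT.lf (nat_lit 0) (nat_lit 7662588514) (nat_lit 1824) (nat_lit 10852747148) (nat_lit 1900) (nat_lit 2149210313) (nat_lit 433) (nat_lit 5) (nat_lit 457) (nat_lit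 5) (nat_lit 458) (nat_lit 5) (nat_lit 402) (nat_lit 387) (nat_lit 231))))) (XT.nd (nat_lit 234) (nat_lit 2812) (nat_lit 0) (XT.nd (nat_lit 78) (nat_lit 1368) (nat_lit 0) (XT.lf (nat_lit 76) (nat_lit 5330115727) (nat_lit 0) (nat_lit 4896696017) (nat_lit 1900) (nat_lit 10766777224) (nat_lit 434) (nat_lit 5) (nat_lit 433) (nat_lit 5) (nat_lit 458) (nat_lit 5) (nat_lit 403) (nat_lit 387) (nat_lit 230)) (XT.nd (nat_lit 78) (nat_lit 0) (nat_lit 0) (XT.lf (nat_lit 0) (nat_lit 758012150) (nat_lit 1444) (nat_lit 12238759860) (nat_lit 1520) (nat_lit 8333156997) (nat_lit 415) (nat_lit 5) (nat_lit 434) (nat_lit 5) (nat_lit 435) (nat_lit 5) (nat_lit 404) (nat_lit 387) (nat_lit 229)) (XT.lf (nat_lit 0) (nat_lit 15991419506) (nat_lit 1520) (nat_lit 3840537677) (nat_lit 76) (nat_lit 1841572203) (nat_lit 415) (nat_lit 5) (nat_lit 435) (nat_lit 5) (nat_lit 416) (nat_lit 5) (nat_lit 405) (nat_lit 387) (nat_lit 228))))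 (XT.nd (nat_lit 78) (nat_lit 1900) (nat_lit 0) (XT.lf (nat_lit 0) (nat_lit 13479756805) (nat_lit 912) (nat_lit 5756591774) (nat_lit 988) (nat_lit 2787882205) (nat_lit 403) (nat_lit 5) (nat_lit 415) (nat_lit 5) (nat_lit 416) (nat_lit 5) (nat_lit 406) (nat_lit 387) (nat_lit 227)) (XT.nd (nat_lit 78) (nat_lit 912) (nat_lit 0) (XT.lf (nat_lit 0) (nat_lit 324458048) (nat_lit 988) (nat_lit 13344007089) (nat_lit 76) (nat_lit 8714288380) (nat_lit 390) (nat_lit 5) (nat_lit 403) (nat_lit 5) (nat_lit 391) (nat_lit 5) (nat_lit 407) (nat_lit 387) (nat_lit 226)) (XT.lf (nat_lit 0) (nat_lit 3615838383) (nat_lit 988) (nat_lit 18245994296) (nat_lit 76) (nat_lit 887361482) (nat_lit 378) (nat_lit 5) (nat_lit 391) (nat_lit 5) (nat_lit 379) (nat_lit 5) (nat_lit 408) (nat_lit 387) (nat_lit 225)))))) (XT.nd (nat_lit 390) (nat_lit 3724) (nat_lit 0) (XT.nd (nat_lit 156) (nat_lit 2356) (nat_lit 0) (XT.nd (nat_lit 78) (nat_lit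 836) (nat_lit 0) (XT.lf (nat_lit 0) (nat_lit 7180026376) (nat_lit 988) (nat_lit 156397152) (nat_lit 76) (nat_lit 15786724831) (nat_lit 378) (nat_lit 5) (nat_lit 391) (nat_lit 5) (nat_lit 379) (nat_lit 5) (nat_lit 409) (nat_lit 387) (nat_lit 224)) (XT.lf (nat_lit 0) (nat_lit 11014832729) (nat_lit 912) (nat_lit 4842862967) (nat_lit 76) (nat_lit 7647353246) (nat_lit 367) (nat_lit 5) (nat_lit 379) (nat_lit 5) (nat_lit 368) (nat_lit 5) (nat_lit 410) (nat_lit 387) (nat_lit 223))) (XT.nd (nat_lit 78) (nat_lit 1520) (nat_lit 0) (XT.lf (nat_lit 0) (nat_lit 14279440386) (nat_lit 836) (nat_lit 820152074) (nat_lit 912) (nat_lit 8796117464) (nat_lit 356) (nat_lit 5) (nat_lit 367) (nat_lit 5) (nat_lit 368) (nat_lit 5) (nat_lit 411) (nat_lit 387) (nat_lit 222)) (XT.nd (nat_lit 78) (nat_lit 760) (nat_lit 0) (XT.lf (nat_lit 0) (nat_lit 9769056678) (nat_lit 760) (nat_lit 9721787248) (nat_lit 836) (nat_lit 4803569351)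 (nat_lit 346) (nat_lit 5) (nat_lit 356) (nat_lit 5) (nat_lit 357) (nat_lit 5) (nat_lit 412) (nat_lit 387) (nat_lit 221)) (XT.lf (nat_lit 0) (nat_lit 5180881488) (nat_lit 760) (nat_lit 18967136652) (nat_lit 836) (nat_lit 554377363) (nat_lit 336) (nat_lit 5) (nat_lit 346) (nat_lit 5) (nat_lit 347) (nat_lit 5) (nat_lit 413) (nat_lit 387) (nat_lit 220))))) (XT.nd (nat_lit 234) (nat_lit 2128) (nat_lit 0) (XT.nd (nat_lit 78) (nat_lit 760) (nat_lit 0) (XT.lf (nat_lit 0) (nat_lit 464213374) (nat_lit 760) (nat_lit 3467598981) (nat_lit 836) (nat_lit 21187116867) (nat_lit 325) (nat_lit 5) (nat_lit 335) (nat_lit 5) (nat_lit 336) (nat_lit 5) (nat_lit 414) (nat_lit 387) (nat_lit 219)) (XT.nd (nat_lit 78) (nat_lit 760) (nat_lit 0) (XT.lf (nat_lit 0) (nat_lit 8752104961) (nat_lit 836) (nat_lit 4322201009) (nat_lit 76) (nat_lit 12469440077) (nat_lit 325) (nat_lit 5) (nat_lit 336) (nat_lit 5) (nat_lit 326) (nat_lit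 5) (nat_lit 415) (nat_lit 387) (nat_lit 218)) (XT.lf (nat_lit 0) (nat_lit 13861524828) (nat_lit 836) (nat_lit 9188169092) (nat_lit 76) (nat_lit 2928724413) (nat_lit 315) (nat_lit 5) (nat_lit 326) (nat_lit 5) (nat_lit 316) (nat_lit 5) (nat_lit 416) (nat_lit 387) (nat_lit 217)))) (XT.nd (nat_lit 78) (nat_lit 1444) (nat_lit 0) (XT.lf (nat_lit 0) (nat_lit 12234851891) (nat_lit 684) (nat_lit 7078801838) (nat_lit 760) (nat_lit 7108689815) (nat_lit 306) (nat_lit 5) (nat_lit 315) (nat_lit 5) (nat_lit 316) (nat_lit 5) (nat_lit 417) (nat_lit 387) (nat_lit 216)) (XT.nd (nat_lit 78) (nat_lit 760) (nat_lit 0) (XT.lf (nat_lit 0) (nat_lit 7578446645) (nat_lit 684) (nat_lit 17516843696) (nat_lit 760) (nat_lit 1780978541) (nat_lit 297) (nat_lit 5) (nat_lit 306) (nat_lit 5) (nat_lit 307) (nat_lit 5) (nat_lit 418) (nat_lit 387) (nat_lit 215)) (XT.lf (nat_lit 0) (nat_lit 2806798760) (nat_lit 684) (nat_lit 1006815741)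 (nat_lit 760) (nat_lit 23526604104) (nat_lit 287) (nat_lit 5) (nat_lit 296) (nat_lit 5) (nat_lit 297) (nat_lit 5) (nat_lit 419) (nat_lit 387) (nat_lit 214))))))) (XT.nd (nat_lit 50856) (nat_lit 0) (nat_lit 14668) (XT.nd (nat_lit 390) (nat_lit 1140) (nat_lit 0) (XT.nd (nat_lit 156) (nat_lit 1900) (nat_lit 0) (XT.nd (nat_lit 78) (nat_lit 684) (nat_lit 0) (XT.lf (nat_lit 0) (nat_lit 9780957407) (nat_lit 760) (nat_lit 2101058046) (nat_lit 76) (nat_lit 15931254903) (nat_lit 287) (nat_lit 5) (nat_lit 297) (nat_lit 5) (nat_lit 288) (nat_lit 5) (nat_lit 420) (nat_lit 387) (nat_lit 213)) (XT.lf (nat_lit 0) (nat_lit 16099583471) (nat_lit 760) (nat_lit 7062463744) (nat_lit 76) (nat_lit 5135022307) (nat_lit 278) (nat_lit 5) (nat_lit 288) (nat_lit 5) (nat_lit 279) (nat_lit 5) (nat_lit 421) (nat_lit 387) (nat_lit 212))) (XT.nd (nat_lit 78) (nat_lit 1292) (nat_lit 0) (XT.lf (nat_lit 0) (nat_lit 16635197839) (nat_lit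 608) (nat_lit 6168153471) (nat_lit 684) (nat_lit 5988120780) (nat_lit 270) (nat_lit 5) (nat_lit 278) (nat_lit 5) (nat_lit 279) (nat_lit 5) (nat_lit 422) (nat_lit 387) (nat_lit 211)) (XT.nd (nat_lit 78) (nat_lit 608) (nat_lit 0) (XT.lf (nat_lit 0) (nat_lit 596504757) (nat_lit 684) (nat_lit 17385115103) (nat_lit 76) (nat_lit 11315148509) (nat_lit 261) (nat_lit 5) (nat_lit 270) (nat_lit 5) (nat_lit 262) (nat_lit 5) (nat_lit 423) (nat_lit 387) (nat_lit 210)) (XT.lf (nat_lit 0) (nat_lit 7055760032) (nat_lit 608) (nat_lit 405997291) (nat_lit 684) (nat_lit 22351386723) (nat_lit 253) (nat_lit 5) (nat_lit 261) (nat_lit 5) (nat_lit 262) (nat_lit 5) (nat_lit 424) (nat_lit 387) (nat_lit 209))))) (XT.nd (nat_lit 50232) (nat_lit 0) (nat_lit 15884) (XT.nd (nat_lit 78) (nat_lit 532) (nat_lit 0) (XT.lf (nat_lit 0) (nat_lit 2028736931) (nat_lit 608) (nat_lit 12745007755) (nat_lit 684) (nat_lit 15566451738) (nat_lit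 245) (nat_lit 5) (nat_lit 253) (nat_lit 5) (nat_lit 254) (nat_lit 5) (nat_lit 425) (nat_lit 387) (nat_lit 208)) (XT.nd (nat_lit 78) (nat_lit 532) (nat_lit 0) (XT.lf (nat_lit 0) (nat_lit 22491326957) (nat_lit 684) (nat_lit 3055173162) (nat_lit 76) (nat_lit 5332836495) (nat_lit 245) (nat_lit 5) (nat_lit 254) (nat_lit 5) (nat_lit 246) (nat_lit 5) (nat_lit 426) (nat_lit 387) (nat_lit 207)) (XT.lf (nat_lit 0) (nat_lit 23170313419) (nat_lit 532) (nat_lit 7500192535) (nat_lit 608) (nat_lit 759544590) (nat_lit 238) (nat_lit 5) (nat_lit 245) (nat_lit 5) (nat_lit 246) (nat_lit 5) (nat_lit 427) (nat_lit 387) (nat_lit 206)))) (XT.nd (nat_lit 78) (nat_lit 0) (nat_lit 0) (XT.lf (nat_lit 0) (nat_lit 1694310360) (nat_lit 0) (nat_lit 1694310360) (nat_lit 1748) (nat_lit 5094210327) (nat_lit 447) (nat_lit 5) (nat_lit 447) (nat_lit 3) (nat_lit 470) (nat_lit 3) (nat_lit 388) (nat_lit 388) (nat_lit 244)) (XT.nd (nat_lit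 78) (nat_lit 0) (nat_lit 76) (XT.lf (nat_lit 0) (nat_lit 7278249688) (nat_lit 1748) (nat_lit 1264442653) (nat_lit 1824) (nat_lit 8669392312) (nat_lit 447) (nat_lit 5) (nat_lit 470) (nat_lit 3) (nat_lit 471) (nat_lit 5) (nat_lit 389) (nat_lit 388) (nat_lit 243)) (XT.lf (nat_lit 0) (nat_lit 7902320922) (nat_lit 1748) (nat_lit 5948766526) (nat_lit 1824) (nat_lit 3612654726) (nat_lit 448) (nat_lit 5) (nat_lit 471) (nat_lit 5) (nat_lit 472) (nat_lit 5) (nat_lit 390) (nat_lit 388) (nat_lit 242)))))) (XT.nd (nat_lit 390) (nat_lit 1292) (nat_lit 0) (XT.nd (nat_lit 156) (nat_lit 0) (nat_lit 152) (XT.nd (nat_lit 78) (nat_lit 0) (nat_lit 76) (XT.lf (nat_lit 76) (nat_lit 6999741992) (nat_lit 0) (nat_lit 1643639593) (nat_lit 1824) (nat_lit 9077605346) (nat_lit 449) (nat_lit 5) (nat_lit 448) (nat_lit 5) (nat_lit 472) (nat_lit 5) (nat_lit 391) (nat_lit 388) (nat_lit 241)) (XT.lf (nat_lit 76) (nat_lit 2385691434)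 (nat_lit 0) (nat_lit 7135448150) (nat_lit 1824) (nat_lit 8462522908) (nat_lit 450) (nat_lit 5) (nat_lit 449) (nat_lit 5) (nat_lit 473) (nat_lit 5) (nat_lit 392) (nat_lit 388) (nat_lit 240))) (XT.nd (nat_lit 78) (nat_lit 0) (nat_lit 0) (XT.lf (nat_lit 0) (nat_lit 10532376993) (nat_lit 1748) (nat_lit 2274403349) (nat_lit 1824) (nat_lit 5445297739) (nat_lit 450) (nat_lit 5) (nat_lit 473) (nat_lit 5) (nat_lit 474) (nat_lit 5) (nat_lit 393) (nat_lit 388) (nat_lit 239)) (XT.nd (nat_lit 78) (nat_lit 0) (nat_lit 76) (XT.lf (nat_lit 76) (nat_lit 11545273962) (nat_lit 0) (nat_lit 139495721) (nat_lit 1824) (nat_lit 6841562704) (nat_lit 451) (nat_lit 5) (nat_lit 450) (nat_lit 5) (nat_lit 474) (nat_lit 5) (nat_lit 394) (nat_lit 388) (nat_lit 238)) (XT.lf (nat_lit 76) (nat_lit 7002659261) (nat_lit 0) (nat_lit 6002328920) (nat_lit 1824) (nat_lit 5801163598) (nat_lit 452) (nat_lit 5) (nat_lit 451) (nat_lit 5) (nat_lit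 475) (nat_lit 5) (nat_lit 395) (nat_lit 388) (nat_lit 237))))) (XT.nd (nat_lit 234) (nat_lit 1596) (nat_lit 0) (XT.nd (nat_lit 78) (nat_lit 0) (nat_lit 76) (XT.lf (nat_lit 76) (nat_lit 2384786645) (nat_lit 0) (nat_lit 12078541006) (nat_lit 1824) (nat_lit 4629070278) (nat_lit 453) (nat_lit 5) (nat_lit 452) (nat_lit 5) (nat_lit 476) (nat_lit 5) (nat_lit 396) (nat_lit 388) (nat_lit 236)) (XT.nd (nat_lit 78) (nat_lit 0) (nat_lit 0) (XT.lf (nat_lit 0) (nat_lit 16081075987) (nat_lit 1748) (nat_lit 2279635949) (nat_lit 1824) (nat_lit 1024208747) (nat_lit 453) (nat_lit 5) (nat_lit 476) (nat_lit 5) (nat_lit 477) (nat_lit 5) (nat_lit 397) (nat_lit 388) (nat_lit 235)) (XT.lf (nat_lit 76) (nat_lit 12658958012) (nat_lit 0) (nat_lit 5240764420) (nat_lit 1824) (nat_lit 1783451696) (nat_lit 454) (nat_lit 5) (nat_lit 453) (nat_lit 5) (nat_lit 477) (nat_lit 5) (nat_lit 398) (nat_lit 388) (nat_lit 234)))) (XT.nd (nat_lit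 78) (nat_lit 1748) (nat_lit 0) (XT.lf (nat_lit 76) (nat_lit 8132109158) (nat_lit 0) (nat_lit 11752561533) (nat_lit 1824) (nat_lit 103471890) (nat_lit 455) (nat_lit 5) (nat_lit 454) (nat_lit 5) (nat_lit 478) (nat_lit 5) (nat_lit 399) (nat_lit 388) (nat_lit 233)) (XT.nd (nat_lit 78) (nat_lit 0) (nat_lit 0) (XT.lf (nat_lit 0) (nat_lit 1713197341) (nat_lit 1824) (nat_lit 16781259985) (nat_lit 1900) (nat_lit 1805441106) (nat_lit 431) (nat_lit 5) (nat_lit 455) (nat_lit 5) (nat_lit 456) (nat_lit 5) (nat_lit 400) (nat_lit 388) (nat_lit 232)) (XT.lf (nat_lit 0) (nat_lit 3732562662) (nat_lit 1824) (nat_lit 1190065147) (nat_lit 1900) (nat_lit 15695375519) (nat_lit 431) (nat_lit 5) (nat_lit 455) (nat_lit 5) (nat_lit 456) (nat_lit 5) (nat_lit 401) (nat_lit 388) (nat_lit 231))))))))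
noncomputable def xc115 : XT := (XT.nd (nat_lit 1716) (nat_lit 1900) (nat_lit 0) (XT.nd (nat_lit 858) (nat_lit 6536) (nat_lit 0) (XT.nd (nat_lit 390) (nat_lit 4484) (nat_lit 0) (XT.nd (nat_lit 156) (nat_lit 1292) (nat_lit 0) (XT.nd (nat_lit 78) (nat_lit 0) (nat_lit 76) (XT.lf (nat_lit 0) (nat_lit 5960156990) (nat_lit 1824) (nat_lit 5944445349) (nat_lit 1900) (nat_lit 9038098092) (nat_lit 432) (nat_lit 5) (nat_lit 456) (nat_lit 5) (nat_lit 457) (nat_lit 5) (nat_lit 402) (nat_lit 388) (nat_lit 230)) (XT.lf (nat_lit 0) (nat_lit 8368493531) (nat_lit 1824) (nat_lit 10780280901) (nat_lit 1900) (nat_lit 2126087692) (nat_lit 433) (nat_lit 5) (nat_lit 457) (nat_lit 5) (nat_lit 458) (nat_lit 5) (nat_lit 403) (nat_lit 388) (nat_lit 229))) (XT.nd (nat_lit 78) (nat_lit 1368) (nat_lit 0) (XT.lf (nat_lit 76) (nat_lit 5881609993) (nat_lit 0) (nat_lit 5116711056) (nat_lit 1900) (nat_lit 10615684708) (nat_lit 434) (nat_lit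 5) (nat_lit 433) (nat_lit 5) (nat_lit 458) (nat_lit 5) (nat_lit 404) (nat_lit 388) (nat_lit 228)) (XT.nd (nat_lit 78) (nat_lit 0) (nat_lit 0) (XT.lf (nat_lit 0) (nat_lit 1175695741) (nat_lit 1444) (nat_lit 12664252642) (nat_lit 1520) (nat_lit 8120719069) (nat_lit 415) (nat_lit 5) (nat_lit 434) (nat_lit 5) (nat_lit 435) (nat_lit 5) (nat_lit 405) (nat_lit 388) (nat_lit 227)) (XT.lf (nat_lit 0) (nat_lit 16910865485) (nat_lit 1520) (nat_lit 3563053450) (nat_lit 76) (nat_lit 1840931040) (nat_lit 415) (nat_lit 5) (nat_lit 435) (nat_lit 5) (nat_lit 416) (nat_lit 5) (nat_lit 406) (nat_lit 388) (nat_lit 226))))) (XT.nd (nat_lit 234) (nat_lit 1672) (nat_lit 0) (XT.nd (nat_lit 78) (nat_lit 1900) (nat_lit 0) (XT.lf (nat_lit 0) (nat_lit 14270478769) (nat_lit 912) (nat_lit 5972365072) (nat_lit 988) (nat_lit 2433437203) (nat_lit 403) (nat_lit 5) (nat_lit 415) (nat_lit 5) (nat_lit 416) (nat_lit 5) (nat_lit 407) (nat_lit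 388) (nat_lit 225)) (XT.nd (nat_lit 78) (nat_lit 912) (nat_lit 0) (XT.lf (nat_lit 0) (nat_lit 756203642) (nat_lit 988) (nat_lit 13349762127) (nat_lit 76) (nat_lit 8939745816) (nat_lit 390) (nat_lit 5) (nat_lit 403) (nat_lit 5) (nat_lit 391) (nat_lit 5) (nat_lit 408) (nat_lit 388) (nat_lit 224)) (XT.lf (nat_lit 0) (nat_lit 4136397676) (nat_lit 988) (nat_lit 18396727324) (nat_lit 76) (nat_lit 890221457) (nat_lit 378) (nat_lit 5) (nat_lit 391) (nat_lit 5) (nat_lit 379) (nat_lit 5) (nat_lit 409) (nat_lit 388) (nat_lit 223)))) (XT.nd (nat_lit 78) (nat_lit 836) (nat_lit 0) (XT.lf (nat_lit 0) (nat_lit 226981821) (nat_lit 836) (nat_lit 7570000753) (nat_lit 912) (nat_lit 16011749666) (nat_lit 367) (nat_lit 5) (nat_lit 378) (nat_lit 5) (nat_lit 379) (nat_lit 5) (nat_lit 410) (nat_lit 388) (nat_lit 222)) (XT.nd (nat_lit 78) (nat_lit 836) (nat_lit 0) (XT.lf (nat_lit 0) (nat_lit 11736088071) (nat_lit 912) (nat_lit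 4601329463) (nat_lit 76) (nat_lit 7864889522) (nat_lit 367) (nat_lit 5) (nat_lit 379) (nat_lit 5) (nat_lit 368) (nat_lit 5) (nat_lit 411) (nat_lit 388) (nat_lit 221)) (XT.lf (nat_lit 0) (nat_lit 15088367306) (nat_lit 836) (nat_lit 846111205) (nat_lit 912) (nat_lit 8670389846) (nat_lit 356) (nat_lit 5) (nat_lit 367) (nat_lit 5) (nat_lit 368) (nat_lit 5) (nat_lit 412) (nat_lit 388) (nat_lit 220)))))) (XT.nd (nat_lit 390) (nat_lit 3420) (nat_lit 0) (XT.nd (nat_lit 156) (nat_lit 1596) (nat_lit 0) (XT.nd (nat_lit 78) (nat_lit 760) (nat_lit 0) (XT.lf (nat_lit 0) (nat_lit 10444094603) (nat_lit 760) (nat_lit 10004721106) (nat_lit 836) (nat_lit 4566892318) (nat_lit 346) (nat_lit 5) (nat_lit 356) (nat_lit 5) (nat_lit 357) (nat_lit 5) (nat_lit 413) (nat_lit 388) (nat_lit 219)) (XT.lf (nat_lit 0) (nat_lit 5719436872) (nat_lit 760) (nat_lit 19517939514) (nat_lit 836) (nat_lit 198722027) (nat_lit 336) (nat_lit 5)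 (nat_lit 346) (nat_lit 5) (nat_lit 347) (nat_lit 5) (nat_lit 414) (nat_lit 388) (nat_lit 218))) (XT.nd (nat_lit 78) (nat_lit 760) (nat_lit 0) (XT.lf (nat_lit 0) (nat_lit 859924388) (nat_lit 760) (nat_lit 3549024098) (nat_lit 836) (nat_lit 21456297777) (nat_lit 325) (nat_lit 5) (nat_lit 335) (nat_lit 5) (nat_lit 336) (nat_lit 5) (nat_lit 415) (nat_lit 388) (nat_lit 217)) (XT.nd (nat_lit 78) (nat_lit 760) (nat_lit 0) (XT.lf (nat_lit 0) (nat_lit 9363530744) (nat_lit 836) (nat_lit 4074305199) (nat_lit 76) (nat_lit 12865179991) (nat_lit 325) (nat_lit 5) (nat_lit 336) (nat_lit 5) (nat_lit 326) (nat_lit 5) (nat_lit 416) (nat_lit 388) (nat_lit 216)) (XT.lf (nat_lit 0) (nat_lit 14618680649) (nat_lit 836) (nat_lit 9085689087) (nat_lit 76) (nat_lit 3046511603) (nat_lit 315) (nat_lit 5) (nat_lit 326) (nat_lit 5) (nat_lit 316) (nat_lit 5) (nat_lit 417) (nat_lit 388) (nat_lit 215))))) (XT.nd (nat_lit 234) (nat_lit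 1292) (nat_lit 0) (XT.nd (nat_lit 78) (nat_lit 1444) (nat_lit 0) (XT.lf (nat_lit 0) (nat_lit 12973887895) (nat_lit 684) (nat_lit 7252959660) (nat_lit 760) (nat_lit 6981429113) (nat_lit 306) (nat_lit 5) (nat_lit 315) (nat_lit 5) (nat_lit 316) (nat_lit 5) (nat_lit 418) (nat_lit 388) (nat_lit 214)) (XT.nd (nat_lit 78) (nat_lit 760) (nat_lit 0) (XT.lf (nat_lit 0) (nat_lit 8178139232) (nat_lit 684) (nat_lit 17996730471) (nat_lit 760) (nat_lit 1501093126) (nat_lit 297) (nat_lit 5) (nat_lit 306) (nat_lit 5) (nat_lit 307) (nat_lit 5) (nat_lit 419) (nat_lit 388) (nat_lit 213)) (XT.lf (nat_lit 0) (nat_lit 3261659297) (nat_lit 684) (nat_lit 988132603) (nat_lit 760) (nat_lit 23904141053) (nat_lit 287) (nat_lit 5) (nat_lit 296) (nat_lit 5) (nat_lit 297) (nat_lit 5) (nat_lit 420) (nat_lit 388) (nat_lit 212)))) (XT.nd (nat_lit 78) (nat_lit 1292) (nat_lit 0) (XT.lf (nat_lit 0) (nat_lit 10387091348) (nat_lit 760) (nat_lit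 1798234085) (nat_lit 76) (nat_lit 16456033754) (nat_lit 287) (nat_lit 5) (nat_lit 297) (nat_lit 5) (nat_lit 288) (nat_lit 5) (nat_lit 421) (nat_lit 388) (nat_lit 211)) (XT.nd (nat_lit 78) (nat_lit 608) (nat_lit 0) (XT.lf (nat_lit 0) (nat_lit 16888855628) (nat_lit 760) (nat_lit 6908595789) (nat_lit 76) (nat_lit 5342350929) (nat_lit 278) (nat_lit 5) (nat_lit 288) (nat_lit 5) (nat_lit 279) (nat_lit 5) (nat_lit 422) (nat_lit 388) (nat_lit 210)) (XT.lf (nat_lit 0) (nat_lit 17494061915) (nat_lit 608) (nat_lit 6293089788) (nat_lit 684) (nat_lit 5862018544) (nat_lit 270) (nat_lit 5) (nat_lit 278) (nat_lit 5) (nat_lit 279) (nat_lit 5) (nat_lit 423) (nat_lit 388) (nat_lit 209))))))) (XT.nd (nat_lit 51012) (nat_lit 0) (nat_lit 12920) (XT.nd (nat_lit 50544) (nat_lit 0) (nat_lit 15428) (XT.nd (nat_lit 156) (nat_lit 608) (nat_lit 0) (XT.nd (nat_lit 78) (nat_lit 608) (nat_lit 0) (XT.lf (nat_lit 0) (nat_lit 910078624)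 (nat_lit 684) (nat_lit 17543154972) (nat_lit 76) (nat_lit 11716474747) (nat_lit 261) (nat_lit 5) (nat_lit 270) (nat_lit 5) (nat_lit 262) (nat_lit 5) (nat_lit 424) (nat_lit 388) (nat_lit 208)) (XT.lf (nat_lit 0) (nat_lit 7625048840) (nat_lit 608) (nat_lit 349949804) (nat_lit 684) (nat_lit 22726703889) (nat_lit 253) (nat_lit 5) (nat_lit 261) (nat_lit 5) (nat_lit 262) (nat_lit 5) (nat_lit 425) (nat_lit 388) (nat_lit 207))) (XT.nd (nat_lit 50232) (nat_lit 0) (nat_lit 15352) (XT.lf (nat_lit 0) (nat_lit 2446718516) (nat_lit 608) (nat_lit 13053947051) (nat_lit 684) (nat_lit 15744015917) (nat_lit 245) (nat_lit 5) (nat_lit 253) (nat_lit 5) (nat_lit 254) (nat_lit 5) (nat_lit 426) (nat_lit 388) (nat_lit 206)) (XT.nd (nat_lit 78) (nat_lit 0) (nat_lit 0) (XT.lf (nat_lit 0) (nat_lit 1914651479) (nat_lit 0) (nat_lit 1914651479) (nat_lit 1748) (nat_lit 4901157891) (nat_lit 447) (nat_lit 5) (nat_lit 447) (nat_lit 3)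 (nat_lit 470) (nat_lit 3) (nat_lit 389) (nat_lit 389) (nat_lit 242)) (XT.lf (nat_lit 0) (nat_lit 8152758409) (nat_lit 1748) (nat_lit 957778804) (nat_lit 1824) (nat_lit 8604641789) (nat_lit 447) (nat_lit 5) (nat_lit 470) (nat_lit 3) (nat_lit 471) (nat_lit 5) (nat_lit 390) (nat_lit 389) (nat_lit 241))))) (XT.nd (nat_lit 234) (nat_lit 0) (nat_lit 152) (XT.nd (nat_lit 78) (nat_lit 0) (nat_lit 0) (XT.lf (nat_lit 0) (nat_lit 8776691957) (nat_lit 1748) (nat_lit 5773347927) (nat_lit 1824) (nat_lit 3424727783) (nat_lit 448) (nat_lit 5) (nat_lit 471) (nat_lit 5) (nat_lit 472) (nat_lit 5) (nat_lit 391) (nat_lit 389) (nat_lit 240)) (XT.nd (nat_lit 78) (nat_lit 0) (nat_lit 76) (XT.lf (nat_lit 76) (nat_lit 7557874537) (nat_lit 0) (nat_lit 1965808082) (nat_lit 1824) (nat_lit 8716377282) (nat_lit 449) (nat_lit 5) (nat_lit 448) (nat_lit 5) (nat_lit 472) (nat_lit 5) (nat_lit 392) (nat_lit 389) (nat_lit 239)) (XT.lf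 (nat_lit 76) (nat_lit 2813850062) (nat_lit 0) (nat_lit 7596431152) (nat_lit 1824) (nat_lit 8100688340) (nat_lit 450) (nat_lit 5) (nat_lit 449) (nat_lit 5) (nat_lit 473) (nat_lit 5) (nat_lit 393) (nat_lit 389) (nat_lit 238)))) (XT.nd (nat_lit 78) (nat_lit 0) (nat_lit 0) (XT.lf (nat_lit 0) (nat_lit 11432721386) (nat_lit 1748) (nat_lit 1983029756) (nat_lit 1824) (nat_lit 5372073018) (nat_lit 450) (nat_lit 5) (nat_lit 473) (nat_lit 5) (nat_lit 474) (nat_lit 5) (nat_lit 394) (nat_lit 389) (nat_lit 237)) (XT.nd (nat_lit 78) (nat_lit 0) (nat_lit 76) (XT.lf (nat_lit 76) (nat_lit 12245403699) (nat_lit 0) (nat_lit 359558502) (nat_lit 1824) (nat_lit 6465642119) (nat_lit 451) (nat_lit 5) (nat_lit 450) (nat_lit 5) (nat_lit 474) (nat_lit 5) (nat_lit 395) (nat_lit 389) (nat_lit 236)) (XT.lf (nat_lit 76) (nat_lit 7573481088) (nat_lit 0) (nat_lit 6375695813) (nat_lit 1824) (nat_lit 5409957243) (nat_lit 452) (nat_lit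 5) (nat_lit 451) (nat_lit 5) (nat_lit 475) (nat_lit 5) (nat_lit 396) (nat_lit 389) (nat_lit 235)))))) (XT.nd (nat_lit 390) (nat_lit 1140) (nat_lit 0) (XT.nd (nat_lit 156) (nat_lit 1672) (nat_lit 0) (XT.nd (nat_lit 78) (nat_lit 0) (nat_lit 76) (XT.lf (nat_lit 76) (nat_lit 2823474780) (nat_lit 0) (nat_lit 12612820002) (nat_lit 1824) (nat_lit 4217975868) (nat_lit 453) (nat_lit 5) (nat_lit 452) (nat_lit 5) (nat_lit 476) (nat_lit 5) (nat_lit 397) (nat_lit 389) (nat_lit 234)) (XT.lf (nat_lit 0) (nat_lit 17085790854) (nat_lit 1748) (nat_lit 1979908533) (nat_lit 1824) (nat_lit 890208826) (nat_lit 453) (nat_lit 5) (nat_lit 476) (nat_lit 5) (nat_lit 477) (nat_lit 5) (nat_lit 398) (nat_lit 389) (nat_lit 233))) (XT.nd (nat_lit 78) (nat_lit 1748) (nat_lit 0) (XT.lf (nat_lit 76) (nat_lit 13400870993) (nat_lit 0) (nat_lit 5545264865) (nat_lit 1824) (nat_lit 1317233953) (nat_lit 454) (nat_lit 5) (nat_lit 453) (nat_lit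 5) (nat_lit 477) (nat_lit 5) (nat_lit 399) (nat_lit 389) (nat_lit 232)) (XT.nd (nat_lit 78) (nat_lit 0) (nat_lit 76) (XT.lf (nat_lit 0) (nat_lit 394254092) (nat_lit 1824) (nat_lit 11836937485) (nat_lit 1900) (nat_lit 8346514720) (nat_lit 430) (nat_lit 5) (nat_lit 454) (nat_lit 5) (nat_lit 455) (nat_lit 5) (nat_lit 400) (nat_lit 389) (nat_lit 231)) (XT.lf (nat_lit 0) (nat_lit 2251094155) (nat_lit 1824) (nat_lit 16906059402) (nat_lit 1900) (nat_lit 1741909136) (nat_lit 431) (nat_lit 5) (nat_lit 455) (nat_lit 5) (nat_lit 456) (nat_lit 5) (nat_lit 401) (nat_lit 389) (nat_lit 230))))) (XT.nd (nat_lit 234) (nat_lit 1216) (nat_lit 0) (XT.nd (nat_lit 78) (nat_lit 0) (nat_lit 76) (XT.lf (nat_lit 0) (nat_lit 4316870507) (nat_lit 1824) (nat_lit 858157021) (nat_lit 1900) (nat_lit 16051969597) (nat_lit 431) (nat_lit 5) (nat_lit 455) (nat_lit 5) (nat_lit 456) (nat_lit 5) (nat_lit 402) (nat_lit 389) (nat_lit 229))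 (XT.nd (nat_lit 78) (nat_lit 0) (nat_lit 76) (XT.lf (nat_lit 0) (nat_lit 6599238935) (nat_lit 1824) (nat_lit 5751172886) (nat_lit 1900) (nat_lit 9211267299) (nat_lit 432) (nat_lit 5) (nat_lit 456) (nat_lit 5) (nat_lit 457) (nat_lit 5) (nat_lit 403) (nat_lit 389) (nat_lit 228)) (XT.lf (nat_lit 0) (nat_lit 9068249781) (nat_lit 1824) (nat_lit 10728490288) (nat_lit 1900) (nat_lit 2107299930) (nat_lit 433) (nat_lit 5) (nat_lit 457) (nat_lit 5) (nat_lit 458) (nat_lit 5) (nat_lit 404) (nat_lit 389) (nat_lit 227)))) (XT.nd (nat_lit 78) (nat_lit 1368) (nat_lit 0) (XT.lf (nat_lit 76) (nat_lit 6427170174) (nat_lit 0) (nat_lit 5339129496) (nat_lit 1900) (nat_lit 10487274458) (nat_lit 434) (nat_lit 5) (nat_lit 433) (nat_lit 5) (nat_lit 458) (nat_lit 5) (nat_lit 405) (nat_lit 389) (nat_lit 226)) (XT.nd (nat_lit 78) (nat_lit 0) (nat_lit 0) (XT.lf (nat_lit 0) (nat_lit 1583238482) (nat_lit 1444) (nat_lit 13099161828)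 (nat_lit 1520) (nat_lit 7928453529) (nat_lit 415) (nat_lit 5) (nat_lit 434) (nat_lit 5) (nat_lit 435) (nat_lit 5) (nat_lit 406) (nat_lit 389) (nat_lit 225)) (XT.lf (nat_lit 0) (nat_lit 17832654069) (nat_lit 1520) (nat_lit 3299787304) (nat_lit 76) (nat_lit 1843478862) (nat_lit 415) (nat_lit 5) (nat_lit 435) (nat_lit 5) (nat_lit 416) (nat_lit 5) (nat_lit 407) (nat_lit 389) (nat_lit 224))))))))
noncomputable def xc116 : XT := (XT.nd (nat_lit 51948) (nat_lit 0) (nat_lit 7828) (XT.nd (nat_lit 858) (nat_lit 4712) (nat_lit 0) (XT.nd (nat_lit 390) (nat_lit 3952) (nat_lit 0) (XT.nd (nat_lit 156) (nat_lit 1748) (nat_lit 0) (XT.nd (nat_lit 78) (nat_lit 988) (nat_lit 0) (XT.lf (nat_lit 0) (nat_lit 15062745513) (nat_lit 912) (nat_lit 6192138856) (nat_lit 988) (nat_lit 2093506521) (nat_lit 403) (nat_lit 5) (nat_lit 415) (nat_lit 5) (nat_lit 416) (nat_lit 5) (nat_lit 408) (nat_lit 389) (nat_lit 223)) (XT.lf (nat_lit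 0) (nat_lit 1176676397) (nat_lit 988) (nat_lit 13378339471) (nat_lit 76) (nat_lit 9174031870) (nat_lit 390) (nat_lit 5) (nat_lit 403) (nat_lit 5) (nat_lit 391) (nat_lit 5) (nat_lit 409) (nat_lit 389) (nat_lit 222))) (XT.nd (nat_lit 78) (nat_lit 836) (nat_lit 0) (XT.lf (nat_lit 0) (nat_lit 4648918432) (nat_lit 988) (nat_lit 18574751492) (nat_lit 76) (nat_lit 894531203) (nat_lit 378) (nat_lit 5) (nat_lit 391) (nat_lit 5) (nat_lit 379) (nat_lit 5) (nat_lit 410) (nat_lit 389) (nat_lit 221)) (XT.nd (nat_lit 78) (nat_lit 0) (nat_lit 0) (XT.lf (nat_lit 0) (nat_lit 601603206) (nat_lit 836) (nat_lit 7808792288) (nat_lit 912) (nat_lit 16104933743) (nat_lit 367) (nat_lit 5) (nat_lit 378) (nat_lit 5) (nat_lit 379) (nat_lit 5) (nat_lit 411) (nat_lit 389) (nat_lit 220)) (XT.lf (nat_lit 0) (nat_lit 12456546960) (nat_lit 912) (nat_lit 4374754969) (nat_lit 76) (nat_lit 8089634094) (nat_lit 367) (nat_lit 5) (nat_lit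 379) (nat_lit 5) (nat_lit 368) (nat_lit 5) (nat_lit 412) (nat_lit 389) (nat_lit 219))))) (XT.nd (nat_lit 234) (nat_lit 1520) (nat_lit 0) (XT.nd (nat_lit 78) (nat_lit 1596) (nat_lit 0) (XT.lf (nat_lit 0) (nat_lit 15899717268) (nat_lit 836) (nat_lit 872771352) (nat_lit 912) (nat_lit 8563255672) (nat_lit 356) (nat_lit 5) (nat_lit 367) (nat_lit 5) (nat_lit 368) (nat_lit 5) (nat_lit 413) (nat_lit 389) (nat_lit 218)) (XT.nd (nat_lit 78) (nat_lit 836) (nat_lit 0) (XT.lf (nat_lit 0) (nat_lit 11117457242) (nat_lit 760) (nat_lit 10296643530) (nat_lit 836) (nat_lit 4344973540) (nat_lit 346) (nat_lit 5) (nat_lit 356) (nat_lit 5) (nat_lit 357) (nat_lit 5) (nat_lit 414) (nat_lit 389) (nat_lit 217)) (XT.lf (nat_lit 0) (nat_lit 144314329) (nat_lit 836) (nat_lit 19941029106) (nat_lit 76) (nat_lit 6106872994) (nat_lit 335) (nat_lit 5) (nat_lit 346) (nat_lit 5) (nat_lit 336) (nat_lit 5) (nat_lit 415) (nat_lit 389) (nat_lit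 216)))) (XT.nd (nat_lit 78) (nat_lit 760) (nat_lit 0) (XT.lf (nat_lit 0) (nat_lit 1245590734) (nat_lit 760) (nat_lit 3634189464) (nat_lit 836) (nat_lit 21754588844) (nat_lit 325) (nat_lit 5) (nat_lit 335) (nat_lit 5) (nat_lit 336) (nat_lit 5) (nat_lit 416) (nat_lit 389) (nat_lit 215)) (XT.nd (nat_lit 78) (nat_lit 760) (nat_lit 0) (XT.lf (nat_lit 0) (nat_lit 9973273158) (nat_lit 836) (nat_lit 3840646108) (nat_lit 76) (nat_lit 13271548917) (nat_lit 325) (nat_lit 5) (nat_lit 336) (nat_lit 5) (nat_lit 326) (nat_lit 5) (nat_lit 417) (nat_lit 389) (nat_lit 214)) (XT.lf (nat_lit 0) (nat_lit 15378958549) (nat_lit 836) (nat_lit 9001840609) (nat_lit 76) (nat_lit 3166114565) (nat_lit 315) (nat_lit 5) (nat_lit 326) (nat_lit 5) (nat_lit 316) (nat_lit 5) (nat_lit 418) (nat_lit 389) (nat_lit 213)))))) (XT.nd (nat_lit 390) (nat_lit 1900) (nat_lit 0) (XT.nd (nat_lit 156) (nat_lit 1444) (nat_lit 0) (XT.nd (nat_lit 78)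 (nat_lit 684) (nat_lit 0) (XT.lf (nat_lit 0) (nat_lit 13713741205) (nat_lit 684) (nat_lit 7434535411) (nat_lit 760) (nat_lit 6869897912) (nat_lit 306) (nat_lit 5) (nat_lit 315) (nat_lit 5) (nat_lit 316) (nat_lit 5) (nat_lit 419) (nat_lit 389) (nat_lit 212)) (XT.lf (nat_lit 0) (nat_lit 8774448805) (nat_lit 684) (nat_lit 18493632539) (nat_lit 760) (nat_lit 1231944779) (nat_lit 297) (nat_lit 5) (nat_lit 306) (nat_lit 5) (nat_lit 307) (nat_lit 5) (nat_lit 420) (nat_lit 389) (nat_lit 211))) (XT.nd (nat_lit 78) (nat_lit 684) (nat_lit 0) (XT.lf (nat_lit 0) (nat_lit 3708888447) (nat_lit 684) (nat_lit 971695320) (nat_lit 760) (nat_lit 24311847644) (nat_lit 287) (nat_lit 5) (nat_lit 296) (nat_lit 5) (nat_lit 297) (nat_lit 5) (nat_lit 421) (nat_lit 389) (nat_lit 210)) (XT.nd (nat_lit 78) (nat_lit 684) (nat_lit 0) (XT.lf (nat_lit 0) (nat_lit 10993458748) (nat_lit 760) (nat_lit 1507327019) (nat_lit 76) (nat_lit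 16993867094) (nat_lit 287) (nat_lit 5) (nat_lit 297) (nat_lit 5) (nat_lit 288) (nat_lit 5) (nat_lit 422) (nat_lit 389) (nat_lit 209)) (XT.lf (nat_lit 0) (nat_lit 17684223957) (nat_lit 760) (nat_lit 6771106875) (nat_lit 76) (nat_lit 5552841037) (nat_lit 278) (nat_lit 5) (nat_lit 288) (nat_lit 5) (nat_lit 279) (nat_lit 5) (nat_lit 423) (nat_lit 389) (nat_lit 208))))) (XT.nd (nat_lit 50466) (nat_lit 0) (nat_lit 14744) (XT.nd (nat_lit 78) (nat_lit 1292) (nat_lit 0) (XT.lf (nat_lit 0) (nat_lit 18358037453) (nat_lit 608) (nat_lit 6425224657) (nat_lit 684) (nat_lit 5749684304) (nat_lit 270) (nat_lit 5) (nat_lit 278) (nat_lit 5) (nat_lit 279) (nat_lit 5) (nat_lit 424) (nat_lit 389) (nat_lit 207)) (XT.nd (nat_lit 78) (nat_lit 608) (nat_lit 0) (XT.lf (nat_lit 0) (nat_lit 1216086538) (nat_lit 684) (nat_lit 17726803205) (nat_lit 76) (nat_lit 12126289078) (nat_lit 261) (nat_lit 5) (nat_lit 270) (nat_lit 5) (nat_lit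 262) (nat_lit 5) (nat_lit 425) (nat_lit 389) (nat_lit 206)) (XT.lf (nat_lit 0) (nat_lit 8190887692) (nat_lit 608) (nat_lit 296137425) (nat_lit 684) (nat_lit 23130227660) (nat_lit 253) (nat_lit 5) (nat_lit 261) (nat_lit 5) (nat_lit 262) (nat_lit 5) (nat_lit 426) (nat_lit 389) (nat_lit 205)))) (XT.nd (nat_lit 78) (nat_lit 0) (nat_lit 0) (XT.lf (nat_lit 0) (nat_lit 2131872160) (nat_lit 0) (nat_lit 2131872160) (nat_lit 1748) (nat_lit 4722168736) (nat_lit 447) (nat_lit 5) (nat_lit 447) (nat_lit 3) (nat_lit 470) (nat_lit 3) (nat_lit 390) (nat_lit 390) (nat_lit 240)) (XT.nd (nat_lit 78) (nat_lit 0) (nat_lit 76) (XT.lf (nat_lit 0) (nat_lit 9015836052) (nat_lit 1748) (nat_lit 661696325) (nat_lit 1824) (nat_lit 8556595453) (nat_lit 447) (nat_lit 5) (nat_lit 470) (nat_lit 3) (nat_lit 471) (nat_lit 5) (nat_lit 391) (nat_lit 390) (nat_lit 239)) (XT.lf (nat_lit 0) (nat_lit 9640710414) (nat_lit 1748) (nat_lit 5612981022)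 (nat_lit 1824) (nat_lit 3248172243) (nat_lit 448) (nat_lit 5) (nat_lit 471) (nat_lit 5) (nat_lit 472) (nat_lit 5) (nat_lit 392) (nat_lit 390) (nat_lit 238))))))) (XT.nd (nat_lit 858) (nat_lit 5624) (nat_lit 0) (XT.nd (nat_lit 390) (nat_lit 1368) (nat_lit 0) (XT.nd (nat_lit 156) (nat_lit 0) (nat_lit 152) (XT.nd (nat_lit 78) (nat_lit 0) (nat_lit 76) (XT.lf (nat_lit 76) (nat_lit 8112766383) (nat_lit 0) (nat_lit 2281978386) (nat_lit 1824) (nat_lit 8380681096) (nat_lit 449) (nat_lit 5) (nat_lit 448) (nat_lit 5) (nat_lit 472) (nat_lit 5) (nat_lit 393) (nat_lit 390) (nat_lit 237)) (XT.lf (nat_lit 76) (nat_lit 3234383845) (nat_lit 0) (nat_lit 8057069451) (nat_lit 1824) (nat_lit 7763343022) (nat_lit 450) (nat_lit 5) (nat_lit 449) (nat_lit 5) (nat_lit 473) (nat_lit 5) (nat_lit 394) (nat_lit 390) (nat_lit 236))) (XT.nd (nat_lit 78) (nat_lit 0) (nat_lit 0) (XT.lf (nat_lit 0) (nat_lit 12326530706) (nat_lit 1748)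 (nat_lit 1703557794) (nat_lit 1824) (nat_lit 5310232425) (nat_lit 450) (nat_lit 5) (nat_lit 473) (nat_lit 5) (nat_lit 474) (nat_lit 5) (nat_lit 395) (nat_lit 390) (nat_lit 235)) (XT.nd (nat_lit 78) (nat_lit 0) (nat_lit 76) (XT.lf (nat_lit 76) (nat_lit 12946229395) (nat_lit 0) (nat_lit 573830893) (nat_lit 1824) (nat_lit 6111805307) (nat_lit 451) (nat_lit 5) (nat_lit 450) (nat_lit 5) (nat_lit 474) (nat_lit 5) (nat_lit 396) (nat_lit 390) (nat_lit 234)) (XT.lf (nat_lit 76) (nat_lit 8140719501) (nat_lit 0) (nat_lit 6749167673) (nat_lit 1824) (nat_lit 5039461858) (nat_lit 452) (nat_lit 5) (nat_lit 451) (nat_lit 5) (nat_lit 475) (nat_lit 5) (nat_lit 397) (nat_lit 390) (nat_lit 233))))) (XT.nd (nat_lit 234) (nat_lit 1672) (nat_lit 0) (XT.nd (nat_lit 78) (nat_lit 0) (nat_lit 76) (XT.lf (nat_lit 76) (nat_lit 3254247961) (nat_lit 0) (nat_lit 13153258298) (nat_lit 1824) (nat_lit 3826118954) (nat_lit 453) (nat_lit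 5) (nat_lit 452) (nat_lit 5) (nat_lit 476) (nat_lit 5) (nat_lit 398) (nat_lit 390) (nat_lit 232)) (XT.nd (nat_lit 78) (nat_lit 0) (nat_lit 0) (XT.lf (nat_lit 0) (nat_lit 18090666010) (nat_lit 1748) (nat_lit 1692320688) (nat_lit 1824) (nat_lit 761644865) (nat_lit 453) (nat_lit 5) (nat_lit 476) (nat_lit 5) (nat_lit 477) (nat_lit 5) (nat_lit 399) (nat_lit 390) (nat_lit 231)) (XT.lf (nat_lit 76) (nat_lit 14144252804) (nat_lit 0) (nat_lit 5850445992) (nat_lit 1824) (nat_lit 866863807) (nat_lit 454) (nat_lit 5) (nat_lit 453) (nat_lit 5) (nat_lit 477) (nat_lit 5) (nat_lit 400) (nat_lit 390) (nat_lit 230)))) (XT.nd (nat_lit 78) (nat_lit 0) (nat_lit 76) (XT.lf (nat_lit 0) (nat_lit 876844629) (nat_lit 1824) (nat_lit 11839434639) (nat_lit 1900) (nat_lit 8469243278) (nat_lit 430) (nat_lit 5) (nat_lit 454) (nat_lit 5) (nat_lit 455) (nat_lit 5) (nat_lit 401) (nat_lit 390) (nat_lit 229)) (XT.nd (nat_lit 78) (nat_lit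 0) (nat_lit 0) (XT.lf (nat_lit 0) (nat_lit 2777200733) (nat_lit 1824) (nat_lit 17056338194) (nat_lit 1900) (nat_lit 1683227394) (nat_lit 431) (nat_lit 5) (nat_lit 455) (nat_lit 5) (nat_lit 456) (nat_lit 5) (nat_lit 402) (nat_lit 390) (nat_lit 228)) (XT.lf (nat_lit 0) (nat_lit 4891593858) (nat_lit 1824) (nat_lit 537393974) (nat_lit 1900) (nat_lit 16425820902) (nat_lit 431) (nat_lit 5) (nat_lit 455) (nat_lit 5) (nat_lit 456) (nat_lit 5) (nat_lit 403) (nat_lit 390) (nat_lit 227)))))) (XT.nd (nat_lit 390) (nat_lit 4484) (nat_lit 0) (XT.nd (nat_lit 156) (nat_lit 1292) (nat_lit 0) (XT.nd (nat_lit 78) (nat_lit 0) (nat_lit 76) (XT.lf (nat_lit 0) (nat_lit 7231071541) (nat_lit 1824) (nat_lit 5573433944) (nat_lit 1900) (nat_lit 9395255675) (nat_lit 432) (nat_lit 5) (nat_lit 456) (nat_lit 5) (nat_lit 457) (nat_lit 5) (nat_lit 404) (nat_lit 390) (nat_lit 226)) (XT.lf (nat_lit 0) (nat_lit 9763241419) (nat_lit 1824)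 (nat_lit 10696683917) (nat_lit 1900) (nat_lit 2092688413) (nat_lit 433) (nat_lit 5) (nat_lit 457) (nat_lit 5) (nat_lit 458) (nat_lit 5) (nat_lit 405) (nat_lit 390) (nat_lit 225))) (XT.nd (nat_lit 78) (nat_lit 1368) (nat_lit 0) (XT.lf (nat_lit 76) (nat_lit 6967908629) (nat_lit 0) (nat_lit 5564264364) (nat_lit 1900) (nat_lit 10380664685) (nat_lit 434) (nat_lit 5) (nat_lit 433) (nat_lit 5) (nat_lit 458) (nat_lit 5) (nat_lit 406) (nat_lit 390) (nat_lit 224)) (XT.nd (nat_lit 78) (nat_lit 0) (nat_lit 0) (XT.lf (nat_lit 0) (nat_lit 1981637577) (nat_lit 1444) (nat_lit 13543962121) (nat_lit 1520) (nat_lit 7755441727) (nat_lit 415) (nat_lit 5) (nat_lit 434) (nat_lit 5) (nat_lit 435) (nat_lit 5) (nat_lit 407) (nat_lit 390) (nat_lit 223)) (XT.lf (nat_lit 0) (nat_lit 18758304462) (nat_lit 1520) (nat_lit 3049871742) (nat_lit 76) (nat_lit 1849127172) (nat_lit 415) (nat_lit 5) (nat_lit 435) (nat_lit 5) (nat_lit 416)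 (nat_lit 5) (nat_lit 408) (nat_lit 390) (nat_lit 222))))) (XT.nd (nat_lit 234) (nat_lit 1672) (nat_lit 0) (XT.nd (nat_lit 78) (nat_lit 1900) (nat_lit 0) (XT.lf (nat_lit 0) (nat_lit 15857876422) (nat_lit 912) (nat_lit 6416175085) (nat_lit 988) (nat_lit 1767082006) (nat_lit 403) (nat_lit 5) (nat_lit 415) (nat_lit 5) (nat_lit 416) (nat_lit 5) (nat_lit 409) (nat_lit 390) (nat_lit 221)) (XT.nd (nat_lit 78) (nat_lit 912) (nat_lit 0) (XT.lf (nat_lit 0) (nat_lit 1586928754) (nat_lit 988) (nat_lit 13429123607) (nat_lit 76) (nat_lit 9417292867) (nat_lit 390) (nat_lit 5) (nat_lit 403) (nat_lit 5) (nat_lit 391) (nat_lit 5) (nat_lit 410) (nat_lit 390) (nat_lit 220)) (XT.lf (nat_lit 0) (nat_lit 5154517406) (nat_lit 988) (nat_lit 18779578492) (nat_lit 76) (nat_lit 900255915) (nat_lit 378) (nat_lit 5) (nat_lit 391) (nat_lit 5) (nat_lit 379) (nat_lit 5) (nat_lit 411) (nat_lit 390) (nat_lit 219)))) (XT.nd (nat_lit 78)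 (nat_lit 836) (nat_lit 0) (XT.lf (nat_lit 0) (nat_lit 966349324) (nat_lit 836) (nat_lit 8054076429) (nat_lit 912) (nat_lit 16223138394) (nat_lit 367) (nat_lit 5) (nat_lit 378) (nat_lit 5) (nat_lit 379) (nat_lit 5) (nat_lit 412) (nat_lit 390) (nat_lit 218)) (XT.nd (nat_lit 78) (nat_lit 836) (nat_lit 0) (XT.lf (nat_lit 0) (nat_lit 13177473313) (nat_lit 912) (nat_lit 4162313597) (nat_lit 76) (nat_lit 8321764051) (nat_lit 367) (nat_lit 5) (nat_lit 379) (nat_lit 5) (nat_lit 368) (nat_lit 5) (nat_lit 413) (nat_lit 390) (nat_lit 217)) (XT.lf (nat_lit 0) (nat_lit 16714816942) (nat_lit 836) (nat_lit 900158009) (nat_lit 912) (nat_lit 8473988888) (nat_lit 356) (nat_lit 5) (nat_lit 367) (nat_lit 5) (nat_lit 368) (nat_lit 5) (nat_lit 414) (nat_lit 390) (nat_lit 216))))))))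
noncomputable def xc117 : XT := (XT.nd (nat_lit 52026) (nat_lit 0) (nat_lit 2736) (XT.nd (nat_lit 858) (nat_lit 684) (nat_lit 0) (XT.nd (nat_lit 390) (nat_lit 3420) (nat_lit 0) (XT.nd (nat_lit 156) (nat_lit 1520) (nat_lit 0) (XT.nd (nat_lit 78) (nat_lit 836) (nat_lit 0) (XT.lf (nat_lit 0) (nat_lit 11790353002) (nat_lit 760) (nat_lit 10597795443) (nat_lit 836) (nat_lit 4137000993) (nat_lit 346) (nat_lit 5) (nat_lit 356) (nat_lit 5) (nat_lit 357) (nat_lit 5) (nat_lit 415) (nat_lit 390) (nat_lit 215)) (XT.lf (nat_lit 0) (nat_lit 475077499) (nat_lit 836) (nat_lit 20194455249) (nat_lit 76) (nat_lit 6301860002) (nat_lit 335) (nat_lit 5) (nat_lit 346) (nat_lit 5) (nat_lit 336) (nat_lit 5) (nat_lit 416) (nat_lit 390) (nat_lit 214))) (XT.nd (nat_lit 78) (nat_lit 760) (nat_lit 0) (XT.lf (nat_lit 0) (nat_lit 1622169140) (nat_lit 760) (nat_lit 3723132806) (nat_lit 836) (nat_lit 22081655894) (nat_lit 325) (nat_lit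 5) (nat_lit 335) (nat_lit 5) (nat_lit 336) (nat_lit 5) (nat_lit 417) (nat_lit 390) (nat_lit 213)) (XT.nd (nat_lit 78) (nat_lit 760) (nat_lit 0) (XT.lf (nat_lit 0) (nat_lit 10582431285) (nat_lit 836) (nat_lit 3620406686) (nat_lit 76) (nat_lit 13688937092) (nat_lit 325) (nat_lit 5) (nat_lit 336) (nat_lit 5) (nat_lit 326) (nat_lit 5) (nat_lit 418) (nat_lit 390) (nat_lit 212)) (XT.lf (nat_lit 0) (nat_lit 16143576887) (nat_lit 836) (nat_lit 8935936593) (nat_lit 76) (nat_lit 3287686383) (nat_lit 315) (nat_lit 5) (nat_lit 326) (nat_lit 5) (nat_lit 316) (nat_lit 5) (nat_lit 419) (nat_lit 390) (nat_lit 211))))) (XT.nd (nat_lit 234) (nat_lit 1292) (nat_lit 0) (XT.nd (nat_lit 78) (nat_lit 1444) (nat_lit 0) (XT.lf (nat_lit 0) (nat_lit 14455662136) (nat_lit 684) (nat_lit 7623625730) (nat_lit 760) (nat_lit 6773445999) (nat_lit 306) (nat_lit 5) (nat_lit 315) (nat_lit 5) (nat_lit 316) (nat_lit 5) (nat_lit 420) (nat_lit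 390) (nat_lit 210)) (XT.nd (nat_lit 78) (nat_lit 760) (nat_lit 0) (XT.lf (nat_lit 0) (nat_lit 9368500815) (nat_lit 684) (nat_lit 19007910037) (nat_lit 760) (nat_lit 972757265) (nat_lit 297) (nat_lit 5) (nat_lit 306) (nat_lit 5) (nat_lit 307) (nat_lit 5) (nat_lit 421) (nat_lit 390) (nat_lit 209)) (XT.lf (nat_lit 0) (nat_lit 4149478666) (nat_lit 684) (nat_lit 957410172) (nat_lit 760) (nat_lit 24749547271) (nat_lit 287) (nat_lit 5) (nat_lit 296) (nat_lit 5) (nat_lit 297) (nat_lit 5) (nat_lit 422) (nat_lit 390) (nat_lit 208)))) (XT.nd (nat_lit 78) (nat_lit 1292) (nat_lit 0) (XT.lf (nat_lit 0) (nat_lit 11601097047) (nat_lit 760) (nat_lit 1227488776) (nat_lit 76) (nat_lit 17545300910) (nat_lit 287) (nat_lit 5) (nat_lit 297) (nat_lit 5) (nat_lit 288) (nat_lit 5) (nat_lit 423) (nat_lit 390) (nat_lit 207)) (XT.nd (nat_lit 78) (nat_lit 608) (nat_lit 0) (XT.lf (nat_lit 0) (nat_lit 18486880623) (nat_lit 760) (nat_lit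 6649283169) (nat_lit 76) (nat_lit 5766763039) (nat_lit 278) (nat_lit 5) (nat_lit 288) (nat_lit 5) (nat_lit 279) (nat_lit 5) (nat_lit 424) (nat_lit 390) (nat_lit 206)) (XT.lf (nat_lit 0) (nat_lit 19228463449) (nat_lit 608) (nat_lit 6564575963) (nat_lit 684) (nat_lit 5650523597) (nat_lit 270) (nat_lit 5) (nat_lit 278) (nat_lit 5) (nat_lit 279) (nat_lit 5) (nat_lit 425) (nat_lit 390) (nat_lit 205)))))) (XT.nd (nat_lit 50700) (nat_lit 0) (nat_lit 14288) (XT.nd (nat_lit 50466) (nat_lit 0) (nat_lit 14136) (XT.nd (nat_lit 50388) (nat_lit 0) (nat_lit 14136) (XT.lf (nat_lit 0) (nat_lit 1515275850) (nat_lit 684) (nat_lit 17935630190) (nat_lit 76) (nat_lit 12545050027) (nat_lit 261) (nat_lit 5) (nat_lit 270) (nat_lit 5) (nat_lit 262) (nat_lit 5) (nat_lit 426) (nat_lit 390) (nat_lit 204)) (XT.lf (nat_lit 0) (nat_lit 2346437371) (nat_lit 0) (nat_lit 2346437371) (nat_lit 1748) (nat_lit 4556525012) (nat_lit 447)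 (nat_lit 5) (nat_lit 447) (nat_lit 3) (nat_lit 470) (nat_lit 3) (nat_lit 391) (nat_lit 391) (nat_lit 238))) (XT.nd (nat_lit 78) (nat_lit 0) (nat_lit 76) (XT.lf (nat_lit 0) (nat_lit 9869301887) (nat_lit 1748) (nat_lit 375377129) (nat_lit 1824) (nat_lit 8524684033) (nat_lit 447) (nat_lit 5) (nat_lit 470) (nat_lit 3) (nat_lit 471) (nat_lit 5) (nat_lit 392) (nat_lit 391) (nat_lit 237)) (XT.nd (nat_lit 78) (nat_lit 0) (nat_lit 0) (XT.lf (nat_lit 0) (nat_lit 10496165772) (nat_lit 1748) (nat_lit 5466951239) (nat_lit 1824) (nat_lit 3082352847) (nat_lit 448) (nat_lit 5) (nat_lit 471) (nat_lit 5) (nat_lit 472) (nat_lit 5) (nat_lit 393) (nat_lit 391) (nat_lit 236)) (XT.lf (nat_lit 76) (nat_lit 8665467509) (nat_lit 0) (nat_lit 2592869693) (nat_lit 1824) (nat_lit 8069195030) (nat_lit 449) (nat_lit 5) (nat_lit 448) (nat_lit 5) (nat_lit 472) (nat_lit 5) (nat_lit 394) (nat_lit 391) (nat_lit 235))))) (XT.nd (nat_lit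 234) (nat_lit 0) (nat_lit 152) (XT.nd (nat_lit 78) (nat_lit 0) (nat_lit 76) (XT.lf (nat_lit 76) (nat_lit 3648239078) (nat_lit 0) (nat_lit 8518166363) (nat_lit 1824) (nat_lit 7449192725) (nat_lit 450) (nat_lit 5) (nat_lit 449) (nat_lit 5) (nat_lit 473) (nat_lit 5) (nat_lit 395) (nat_lit 391) (nat_lit 234)) (XT.nd (nat_lit 78) (nat_lit 0) (nat_lit 0) (XT.lf (nat_lit 0) (nat_lit 13215534544) (nat_lit 1748) (nat_lit 1435159527) (nat_lit 1824) (nat_lit 5259337886) (nat_lit 450) (nat_lit 5) (nat_lit 473) (nat_lit 5) (nat_lit 474) (nat_lit 5) (nat_lit 396) (nat_lit 391) (nat_lit 233)) (XT.lf (nat_lit 76) (nat_lit 13648937688) (nat_lit 0) (nat_lit 782850547) (nat_lit 1824) (nat_lit 5778799701) (nat_lit 451) (nat_lit 5) (nat_lit 450) (nat_lit 5) (nat_lit 474) (nat_lit 5) (nat_lit 397) (nat_lit 391) (nat_lit 232)))) (XT.nd (nat_lit 78) (nat_lit 0) (nat_lit 76) (XT.lf (nat_lit 76) (nat_lit 8705455724) (nat_lit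 0) (nat_lit 7123384608) (nat_lit 1824) (nat_lit 4688436172) (nat_lit 452) (nat_lit 5) (nat_lit 451) (nat_lit 5) (nat_lit 475) (nat_lit 5) (nat_lit 398) (nat_lit 391) (nat_lit 231)) (XT.nd (nat_lit 78) (nat_lit 0) (nat_lit 76) (XT.lf (nat_lit 76) (nat_lit 3678078564) (nat_lit 0) (nat_lit 13700607198) (nat_lit 1824) (nat_lit 3452264394) (nat_lit 453) (nat_lit 5) (nat_lit 452) (nat_lit 5) (nat_lit 476) (nat_lit 5) (nat_lit 399) (nat_lit 391) (nat_lit 230)) (XT.lf (nat_lit 0) (nat_lit 19097427305) (nat_lit 1748) (nat_lit 1416023571) (nat_lit 1824) (nat_lit 638137131) (nat_lit 453) (nat_lit 5) (nat_lit 476) (nat_lit 5) (nat_lit 477) (nat_lit 5) (nat_lit 400) (nat_lit 391) (nat_lit 229))))))) (XT.nd (nat_lit 858) (nat_lit 7068) (nat_lit 0) (XT.nd (nat_lit 390) (nat_lit 3040) (nat_lit 0) (XT.nd (nat_lit 156) (nat_lit 0) (nat_lit 76) (XT.nd (nat_lit 78) (nat_lit 1748) (nat_lit 0) (XT.lf (nat_lit 76) (nat_lit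 14890340855) (nat_lit 0) (nat_lit 6156813534) (nat_lit 1824) (nat_lit 431104083) (nat_lit 454) (nat_lit 5) (nat_lit 453) (nat_lit 5) (nat_lit 477) (nat_lit 5) (nat_lit 401) (nat_lit 391) (nat_lit 228)) (XT.lf (nat_lit 0) (nat_lit 1346889165) (nat_lit 1824) (nat_lit 11862248019) (nat_lit 1900) (nat_lit 8602982294) (nat_lit 430) (nat_lit 5) (nat_lit 454) (nat_lit 5) (nat_lit 455) (nat_lit 5) (nat_lit 402) (nat_lit 391) (nat_lit 227))) (XT.nd (nat_lit 78) (nat_lit 0) (nat_lit 0) (XT.lf (nat_lit 0) (nat_lit 3292766498) (nat_lit 1824) (nat_lit 17231613041) (nat_lit 1900) (nat_lit 1629153553) (nat_lit 431) (nat_lit 5) (nat_lit 455) (nat_lit 5) (nat_lit 456) (nat_lit 5) (nat_lit 403) (nat_lit 391) (nat_lit 226)) (XT.nd (nat_lit 78) (nat_lit 0) (nat_lit 76) (XT.lf (nat_lit 0) (nat_lit 5458001619) (nat_lit 1824) (nat_lit 226898998) (nat_lit 1900) (nat_lit 16817070613) (nat_lit 431) (nat_lit 5) (nat_lit 455)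 (nat_lit 5) (nat_lit 456) (nat_lit 5) (nat_lit 404) (nat_lit 391) (nat_lit 225)) (XT.lf (nat_lit 0) (nat_lit 7856954049) (nat_lit 1824) (nat_lit 5410470002) (nat_lit 1900) (nat_lit 9590064950) (nat_lit 432) (nat_lit 5) (nat_lit 456) (nat_lit 5) (nat_lit 457) (nat_lit 5) (nat_lit 405) (nat_lit 391) (nat_lit 224))))) (XT.nd (nat_lit 234) (nat_lit 1900) (nat_lit 0) (XT.nd (nat_lit 78) (nat_lit 1368) (nat_lit 0) (XT.lf (nat_lit 0) (nat_lit 10454804083) (nat_lit 1824) (nat_lit 10684224947) (nat_lit 1900) (nat_lit 2082106341) (nat_lit 433) (nat_lit 5) (nat_lit 457) (nat_lit 5) (nat_lit 458) (nat_lit 5) (nat_lit 406) (nat_lit 391) (nat_lit 223)) (XT.nd (nat_lit 78) (nat_lit 1368) (nat_lit 0) (XT.lf (nat_lit 76) (nat_lit 7504897013) (nat_lit 0) (nat_lit 5792424252) (nat_lit 1900) (nat_lit 10295036829) (nat_lit 434) (nat_lit 5) (nat_lit 433) (nat_lit 5) (nat_lit 458) (nat_lit 5) (nat_lit 407) (nat_lit 391)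 (nat_lit 222)) (XT.lf (nat_lit 0) (nat_lit 2371845439) (nat_lit 1444) (nat_lit 13999131430) (nat_lit 1520) (nat_lit 7600824925) (nat_lit 415) (nat_lit 5) (nat_lit 434) (nat_lit 5) (nat_lit 435) (nat_lit 5) (nat_lit 408) (nat_lit 391) (nat_lit 221)))) (XT.nd (nat_lit 78) (nat_lit 1900) (nat_lit 0) (XT.lf (nat_lit 0) (nat_lit 19689298265) (nat_lit 1520) (nat_lit 2812487528) (nat_lit 76) (nat_lit 1857795392) (nat_lit 415) (nat_lit 5) (nat_lit 435) (nat_lit 5) (nat_lit 416) (nat_lit 5) (nat_lit 409) (nat_lit 391) (nat_lit 220)) (XT.nd (nat_lit 78) (nat_lit 988) (nat_lit 0) (XT.lf (nat_lit 0) (nat_lit 16657157388) (nat_lit 912) (nat_lit 6644735428) (nat_lit 988) (nat_lit 1453208135) (nat_lit 403) (nat_lit 5) (nat_lit 415) (nat_lit 5) (nat_lit 416) (nat_lit 5) (nat_lit 410) (nat_lit 391) (nat_lit 219)) (XT.lf (nat_lit 0) (nat_lit 1987964900) (nat_lit 988) (nat_lit 13501555193) (nat_lit 76) (nat_lit 9669686326)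 (nat_lit 390) (nat_lit 5) (nat_lit 403) (nat_lit 5) (nat_lit 391) (nat_lit 5) (nat_lit 411) (nat_lit 391) (nat_lit 218)))))) (XT.nd (nat_lit 390) (nat_lit 3724) (nat_lit 0) (XT.nd (nat_lit 156) (nat_lit 1596) (nat_lit 0) (XT.nd (nat_lit 78) (nat_lit 836) (nat_lit 0) (XT.lf (nat_lit 0) (nat_lit 5654266909) (nat_lit 988) (nat_lit 19010780396) (nat_lit 76) (nat_lit 907364239) (nat_lit 378) (nat_lit 5) (nat_lit 391) (nat_lit 5) (nat_lit 379) (nat_lit 5) (nat_lit 412) (nat_lit 391) (nat_lit 217)) (XT.lf (nat_lit 0) (nat_lit 1322135940) (nat_lit 836) (nat_lit 8306086480) (nat_lit 912) (nat_lit 16365838425) (nat_lit 367) (nat_lit 5) (nat_lit 378) (nat_lit 5) (nat_lit 379) (nat_lit 5) (nat_lit 413) (nat_lit 391) (nat_lit 216))) (XT.nd (nat_lit 78) (nat_lit 1596) (nat_lit 0) (XT.lf (nat_lit 0) (nat_lit 13900095036) (nat_lit 912) (nat_lit 3963227853) (nat_lit 76) (nat_lit 8561464040) (nat_lit 367) (nat_lit 5)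 (nat_lit 379) (nat_lit 5) (nat_lit 368) (nat_lit 5) (nat_lit 414) (nat_lit 391) (nat_lit 215)) (XT.nd (nat_lit 78) (nat_lit 760) (nat_lit 0) (XT.lf (nat_lit 0) (nat_lit 17534960815) (nat_lit 836) (nat_lit 928297178) (nat_lit 912) (nat_lit 8401915356) (nat_lit 356) (nat_lit 5) (nat_lit 367) (nat_lit 5) (nat_lit 368) (nat_lit 5) (nat_lit 415) (nat_lit 391) (nat_lit 214)) (XT.lf (nat_lit 0) (nat_lit 12463954292) (nat_lit 760) (nat_lit 10908426645) (nat_lit 836) (nat_lit 3942210323) (nat_lit 346) (nat_lit 5) (nat_lit 356) (nat_lit 5) (nat_lit 357) (nat_lit 5) (nat_lit 416) (nat_lit 391) (nat_lit 213))))) (XT.nd (nat_lit 234) (nat_lit 2128) (nat_lit 0) (XT.nd (nat_lit 78) (nat_lit 760) (nat_lit 0) (XT.lf (nat_lit 0) (nat_lit 797024932) (nat_lit 836) (nat_lit 20475277377) (nat_lit 76) (nat_lit 6502020353) (nat_lit 335) (nat_lit 5) (nat_lit 346) (nat_lit 5) (nat_lit 336) (nat_lit 5) (nat_lit 417) (nat_lit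 391) (nat_lit 212)) (XT.nd (nat_lit 78) (nat_lit 0) (nat_lit 0) (XT.lf (nat_lit 0) (nat_lit 1990572817) (nat_lit 760) (nat_lit 3815897257) (nat_lit 836) (nat_lit 22437224040) (nat_lit 325) (nat_lit 5) (nat_lit 335) (nat_lit 5) (nat_lit 336) (nat_lit 5) (nat_lit 418) (nat_lit 391) (nat_lit 211)) (XT.lf (nat_lit 0) (nat_lit 11192071187) (nat_lit 836) (nat_lit 3412816789) (nat_lit 76) (nat_lit 14117742359) (nat_lit 325) (nat_lit 5) (nat_lit 336) (nat_lit 5) (nat_lit 326) (nat_lit 5) (nat_lit 419) (nat_lit 391) (nat_lit 210)))) (XT.nd (nat_lit 78) (nat_lit 1368) (nat_lit 0) (XT.lf (nat_lit 0) (nat_lit 16913726009) (nat_lit 836) (nat_lit 8887340892) (nat_lit 76) (nat_lit 3411379074) (nat_lit 315) (nat_lit 5) (nat_lit 326) (nat_lit 5) (nat_lit 316) (nat_lit 5) (nat_lit 420) (nat_lit 391) (nat_lit 209)) (XT.nd (nat_lit 78) (nat_lit 684) (nat_lit 0) (XT.lf (nat_lit 0) (nat_lit 15200868143) (nat_lit 684) (nat_lit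 7820337383) (nat_lit 760) (nat_lit 6691468070) (nat_lit 306) (nat_lit 5) (nat_lit 315) (nat_lit 5) (nat_lit 316) (nat_lit 5) (nat_lit 421) (nat_lit 391) (nat_lit 208)) (XT.lf (nat_lit 0) (nat_lit 9961384047) (nat_lit 684) (nat_lit 19539942533) (nat_lit 760) (nat_lit 722794109) (nat_lit 297) (nat_lit 5) (nat_lit 306) (nat_lit 5) (nat_lit 307) (nat_lit 5) (nat_lit 422) (nat_lit 391) (nat_lit 207))))))))
noncomputable def xc118 : XT := (XT.nd (nat_lit 52104) (nat_lit 0) (nat_lit 1292) (XT.nd (nat_lit 51246) (nat_lit 0) (nat_lit 11020) (XT.nd (nat_lit 50778) (nat_lit 0) (nat_lit 13452) (XT.nd (nat_lit 156) (nat_lit 1292) (nat_lit 0) (XT.nd (nat_lit 78) (nat_lit 0) (nat_lit 0) (XT.lf (nat_lit 0) (nat_lit 4584382071) (nat_lit 684) (nat_lit 945189873) (nat_lit 760) (nat_lit 25217120123) (nat_lit 287) (nat_lit 5) (nat_lit 296) (nat_lit 5) (nat_lit 297) (nat_lit 5) (nat_lit 423) (nat_lit 391) (nat_lit 206))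 (XT.lf (nat_lit 0) (nat_lit 12211015656) (nat_lit 760) (nat_lit 957915048) (nat_lit 76) (nat_lit 18110888708) (nat_lit 287) (nat_lit 5) (nat_lit 297) (nat_lit 5) (nat_lit 288) (nat_lit 5) (nat_lit 424) (nat_lit 391) (nat_lit 205))) (XT.nd (nat_lit 78) (nat_lit 608) (nat_lit 0) (XT.lf (nat_lit 0) (nat_lit 19297995616) (nat_lit 760) (nat_lit 6542458608) (nat_lit 76) (nat_lit 5984385377) (nat_lit 278) (nat_lit 5) (nat_lit 288) (nat_lit 5) (nat_lit 279) (nat_lit 5) (nat_lit 425) (nat_lit 391) (nat_lit 204)) (XT.nd (nat_lit 50466) (nat_lit 0) (nat_lit 13452) (XT.lf (nat_lit 0) (nat_lit 20106651005) (nat_lit 608) (nat_lit 6711173498) (nat_lit 684) (nat_lit 5563981962) (nat_lit 270) (nat_lit 5) (nat_lit 278) (nat_lit 5) (nat_lit 279) (nat_lit 5) (nat_lit 426) (nat_lit 391) (nat_lit 203)) (XT.lf (nat_lit 0) (nat_lit 2558793963) (nat_lit 0) (nat_lit 2558793963) (nat_lit 1748) (nat_lit 4403552758) (nat_lit 447)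 (nat_lit 5) (nat_lit 447) (nat_lit 3) (nat_lit 470) (nat_lit 3) (nat_lit 392) (nat_lit 392) (nat_lit 236))))) (XT.nd (nat_lit 234) (nat_lit 0) (nat_lit 152) (XT.nd (nat_lit 78) (nat_lit 0) (nat_lit 76) (XT.lf (nat_lit 0) (nat_lit 10714905643) (nat_lit 1748) (nat_lit 98043773) (nat_lit 1824) (nat_lit 8508382623) (nat_lit 447) (nat_lit 5) (nat_lit 470) (nat_lit 3) (nat_lit 471) (nat_lit 5) (nat_lit 393) (nat_lit 392) (nat_lit 235)) (XT.nd (nat_lit 78) (nat_lit 0) (nat_lit 0) (XT.lf (nat_lit 0) (nat_lit 11344780640) (nat_lit 1748) (nat_lit 5334589512) (nat_lit 1824) (nat_lit 2926671333) (nat_lit 448) (nat_lit 5) (nat_lit 471) (nat_lit 5) (nat_lit 472) (nat_lit 5) (nat_lit 394) (nat_lit 392) (nat_lit 234)) (XT.lf (nat_lit 76) (nat_lit 9216993543) (nat_lit 0) (nat_lit 2899171153) (nat_lit 1824) (nat_lit 7780677518) (nat_lit 449) (nat_lit 5) (nat_lit 448) (nat_lit 5) (nat_lit 472) (nat_lit 5) (nat_lit 395)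 (nat_lit 392) (nat_lit 233)))) (XT.nd (nat_lit 78) (nat_lit 0) (nat_lit 76) (XT.lf (nat_lit 76) (nat_lit 4056322990) (nat_lit 0) (nat_lit 8980502596) (nat_lit 1824) (nat_lit 7157020862) (nat_lit 450) (nat_lit 5) (nat_lit 449) (nat_lit 5) (nat_lit 473) (nat_lit 5) (nat_lit 396) (nat_lit 392) (nat_lit 232)) (XT.nd (nat_lit 78) (nat_lit 0) (nat_lit 0) (XT.lf (nat_lit 0) (nat_lit 14101403838) (nat_lit 1748) (nat_lit 1177050206) (nat_lit 1824) (nat_lit 5218982938) (nat_lit 450) (nat_lit 5) (nat_lit 473) (nat_lit 5) (nat_lit 474) (nat_lit 5) (nat_lit 397) (nat_lit 392) (nat_lit 231)) (XT.lf (nat_lit 76) (nat_lit 14354683896) (nat_lit 0) (nat_lit 987130414) (nat_lit 1824) (nat_lit 5465445089) (nat_lit 451) (nat_lit 5) (nat_lit 450) (nat_lit 5) (nat_lit 474) (nat_lit 5) (nat_lit 398) (nat_lit 392) (nat_lit 230)))))) (XT.nd (nat_lit 390) (nat_lit 1140) (nat_lit 0) (XT.nd (nat_lit 156) (nat_lit 1596) (nat_lit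 0) (XT.nd (nat_lit 78) (nat_lit 0) (nat_lit 76) (XT.lf (nat_lit 76) (nat_lit 9268735183) (nat_lit 0) (nat_lit 7498969362) (nat_lit 1824) (nat_lit 4355708598) (nat_lit 452) (nat_lit 5) (nat_lit 451) (nat_lit 5) (nat_lit 475) (nat_lit 5) (nat_lit 399) (nat_lit 392) (nat_lit 229)) (XT.lf (nat_lit 76) (nat_lit 4095898689) (nat_lit 0) (nat_lit 14255608024) (nat_lit 1824) (nat_lit 3095244025) (nat_lit 453) (nat_lit 5) (nat_lit 452) (nat_lit 5) (nat_lit 476) (nat_lit 5) (nat_lit 400) (nat_lit 392) (nat_lit 228))) (XT.nd (nat_lit 78) (nat_lit 1748) (nat_lit 0) (XT.lf (nat_lit 0) (nat_lit 20107753568) (nat_lit 1748) (nat_lit 1150212510) (nat_lit 1824) (nat_lit 519325661) (nat_lit 453) (nat_lit 5) (nat_lit 476) (nat_lit 5) (nat_lit 477) (nat_lit 5) (nat_lit 401) (nat_lit 392) (nat_lit 227)) (XT.nd (nat_lit 78) (nat_lit 1748) (nat_lit 0) (XT.lf (nat_lit 76) (nat_lit 15640341182) (nat_lit 0) (nat_lit 6464860538)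 (nat_lit 1824) (nat_lit 8778804) (nat_lit 454) (nat_lit 5) (nat_lit 453) (nat_lit 5) (nat_lit 477) (nat_lit 5) (nat_lit 402) (nat_lit 392) (nat_lit 226)) (XT.lf (nat_lit 0) (nat_lit 1805562592) (nat_lit 1824) (nat_lit 11904825178) (nat_lit 1900) (nat_lit 8747641390) (nat_lit 430) (nat_lit 5) (nat_lit 454) (nat_lit 5) (nat_lit 455) (nat_lit 5) (nat_lit 403) (nat_lit 392) (nat_lit 225))))) (XT.nd (nat_lit 234) (nat_lit 1216) (nat_lit 0) (XT.nd (nat_lit 78) (nat_lit 0) (nat_lit 0) (XT.lf (nat_lit 0) (nat_lit 3798986333) (nat_lit 1824) (nat_lit 17431457747) (nat_lit 1900) (nat_lit 1579460280) (nat_lit 431) (nat_lit 5) (nat_lit 455) (nat_lit 5) (nat_lit 456) (nat_lit 5) (nat_lit 404) (nat_lit 392) (nat_lit 224)) (XT.nd (nat_lit 78) (nat_lit 0) (nat_lit 76) (XT.lf (nat_lit 76) (nat_lit 75147256) (nat_lit 0) (nat_lit 5942652065) (nat_lit 1900) (nat_lit 17151226411) (nat_lit 432) (nat_lit 5) (nat_lit 431)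 (nat_lit 5) (nat_lit 456) (nat_lit 5) (nat_lit 405) (nat_lit 392) (nat_lit 223)) (XT.lf (nat_lit 0) (nat_lit 8478137609) (nat_lit 1824) (nat_lit 5261570076) (nat_lit 1900) (nat_lit 9795715437) (nat_lit 432) (nat_lit 5) (nat_lit 456) (nat_lit 5) (nat_lit 457) (nat_lit 5) (nat_lit 406) (nat_lit 392) (nat_lit 222)))) (XT.nd (nat_lit 78) (nat_lit 1368) (nat_lit 0) (XT.lf (nat_lit 0) (nat_lit 11144228601) (nat_lit 1824) (nat_lit 10690528406) (nat_lit 1900) (nat_lit 2075418127) (nat_lit 433) (nat_lit 5) (nat_lit 457) (nat_lit 5) (nat_lit 458) (nat_lit 5) (nat_lit 407) (nat_lit 392) (nat_lit 221)) (XT.nd (nat_lit 78) (nat_lit 1368) (nat_lit 0) (XT.lf (nat_lit 76) (nat_lit 8039169313) (nat_lit 0) (nat_lit 6023913972) (nat_lit 1900) (nat_lit 10229632306) (nat_lit 434) (nat_lit 5) (nat_lit 433) (nat_lit 5) (nat_lit 458) (nat_lit 5) (nat_lit 408) (nat_lit 392) (nat_lit 220)) (XT.lf (nat_lit 0) (nat_lit 2754772631)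 (nat_lit 1444) (nat_lit 14465151603) (nat_lit 1520) (nat_lit 7463801079) (nat_lit 415) (nat_lit 5) (nat_lit 434) (nat_lit 5) (nat_lit 435) (nat_lit 5) (nat_lit 409) (nat_lit 392) (nat_lit 219))))))) (XT.nd (nat_lit 858) (nat_lit 2888) (nat_lit 0) (XT.nd (nat_lit 390) (nat_lit 3192) (nat_lit 0) (XT.nd (nat_lit 156) (nat_lit 2736) (nat_lit 0) (XT.nd (nat_lit 78) (nat_lit 912) (nat_lit 0) (XT.lf (nat_lit 0) (nat_lit 20627083133) (nat_lit 1520) (nat_lit 2586860866) (nat_lit 76) (nat_lit 1869410491) (nat_lit 415) (nat_lit 5) (nat_lit 435) (nat_lit 5) (nat_lit 416) (nat_lit 5) (nat_lit 410) (nat_lit 392) (nat_lit 218)) (XT.lf (nat_lit 0) (nat_lit 17461843995) (nat_lit 912) (nat_lit 6878081723) (nat_lit 988) (nat_lit 1150978823) (nat_lit 403) (nat_lit 5) (nat_lit 415) (nat_lit 5) (nat_lit 416) (nat_lit 5) (nat_lit 411) (nat_lit 392) (nat_lit 217))) (XT.nd (nat_lit 78) (nat_lit 1748) (nat_lit 0) (XT.lf (nat_lit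 0) (nat_lit 2380743900) (nat_lit 988) (nat_lit 13595128456) (nat_lit 76) (nat_lit 9931380906) (nat_lit 390) (nat_lit 5) (nat_lit 403) (nat_lit 5) (nat_lit 391) (nat_lit 5) (nat_lit 412) (nat_lit 392) (nat_lit 216)) (XT.nd (nat_lit 78) (nat_lit 836) (nat_lit 0) (XT.lf (nat_lit 0) (nat_lit 6149197943) (nat_lit 988) (nat_lit 19267987161) (nat_lit 76) (nat_lit 915828116) (nat_lit 378) (nat_lit 5) (nat_lit 391) (nat_lit 5) (nat_lit 379) (nat_lit 5) (nat_lit 413) (nat_lit 392) (nat_lit 215)) (XT.lf (nat_lit 0) (nat_lit 1669836720) (nat_lit 836) (nat_lit 8565060532) (nat_lit 912) (nat_lit 16532566128) (nat_lit 367) (nat_lit 5) (nat_lit 378) (nat_lit 5) (nat_lit 379) (nat_lit 5) (nat_lit 414) (nat_lit 392) (nat_lit 214))))) (XT.nd (nat_lit 234) (nat_lit 1596) (nat_lit 0) (XT.nd (nat_lit 78) (nat_lit 1596) (nat_lit 0) (XT.lf (nat_lit 0) (nat_lit 14625607195) (nat_lit 912) (nat_lit 3776765887) (nat_lit 76) (nat_lit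 8808926368) (nat_lit 367) (nat_lit 5) (nat_lit 379) (nat_lit 5) (nat_lit 368) (nat_lit 5) (nat_lit 415) (nat_lit 392) (nat_lit 213)) (XT.nd (nat_lit 78) (nat_lit 760) (nat_lit 0) (XT.lf (nat_lit 0) (nat_lit 18361414356) (nat_lit 836) (nat_lit 957215403) (nat_lit 912) (nat_lit 8346410183) (nat_lit 356) (nat_lit 5) (nat_lit 367) (nat_lit 5) (nat_lit 368) (nat_lit 5) (nat_lit 416) (nat_lit 392) (nat_lit 212)) (XT.lf (nat_lit 0) (nat_lit 13139400586) (nat_lit 760) (nat_lit 11228795986) (nat_lit 836) (nat_lit 3759882137) (nat_lit 346) (nat_lit 5) (nat_lit 356) (nat_lit 5) (nat_lit 357) (nat_lit 5) (nat_lit 417) (nat_lit 392) (nat_lit 211)))) (XT.nd (nat_lit 78) (nat_lit 760) (nat_lit 0) (XT.lf (nat_lit 0) (nat_lit 1110967830) (nat_lit 836) (nat_lit 20783181161) (nat_lit 76) (nat_lit 6707548068) (nat_lit 335) (nat_lit 5) (nat_lit 346) (nat_lit 5) (nat_lit 336) (nat_lit 5) (nat_lit 418) (nat_lit 392) (nat_lit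 210)) (XT.nd (nat_lit 78) (nat_lit 0) (nat_lit 0) (XT.lf (nat_lit 0) (nat_lit 2351674301) (nat_lit 760) (nat_lit 3912531274) (nat_lit 836) (nat_lit 22821075487) (nat_lit 325) (nat_lit 5) (nat_lit 335) (nat_lit 5) (nat_lit 336) (nat_lit 5) (nat_lit 419) (nat_lit 392) (nat_lit 209)) (XT.lf (nat_lit 0) (nat_lit 11803228708) (nat_lit 836) (nat_lit 3217150489) (nat_lit 76) (nat_lit 14558370638) (nat_lit 325) (nat_lit 5) (nat_lit 336) (nat_lit 5) (nat_lit 326) (nat_lit 5) (nat_lit 420) (nat_lit 392) (nat_lit 208)))))) (XT.nd (nat_lit 50934) (nat_lit 0) (nat_lit 12160) (XT.nd (nat_lit 156) (nat_lit 1444) (nat_lit 0) (XT.nd (nat_lit 78) (nat_lit 684) (nat_lit 0) (XT.lf (nat_lit 0) (nat_lit 17690571114) (nat_lit 836) (nat_lit 8855465691) (nat_lit 76) (nat_lit 3537343878) (nat_lit 315) (nat_lit 5) (nat_lit 326) (nat_lit 5) (nat_lit 316) (nat_lit 5) (nat_lit 421) (nat_lit 392) (nat_lit 207)) (XT.lf (nat_lit 0)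 (nat_lit 15950546881) (nat_lit 684) (nat_lit 8024787151) (nat_lit 760) (nat_lit 6623401377) (nat_lit 306) (nat_lit 5) (nat_lit 315) (nat_lit 5) (nat_lit 316) (nat_lit 5) (nat_lit 422) (nat_lit 392) (nat_lit 206))) (XT.nd (nat_lit 78) (nat_lit 760) (nat_lit 0) (XT.lf (nat_lit 0) (nat_lit 10554153562) (nat_lit 684) (nat_lit 20090129115) (nat_lit 760) (nat_lit 481356174) (nat_lit 297) (nat_lit 5) (nat_lit 306) (nat_lit 5) (nat_lit 307) (nat_lit 5) (nat_lit 423) (nat_lit 392) (nat_lit 205)) (XT.nd (nat_lit 78) (nat_lit 0) (nat_lit 0) (XT.lf (nat_lit 0) (nat_lit 5014513256) (nat_lit 684) (nat_lit 934953239) (nat_lit 760) (nat_lit 25714501324) (nat_lit 287) (nat_lit 5) (nat_lit 296) (nat_lit 5) (nat_lit 297) (nat_lit 5) (nat_lit 424) (nat_lit 392) (nat_lit 204)) (XT.lf (nat_lit 0) (nat_lit 12824198513) (nat_lit 760) (nat_lit 697842629) (nat_lit 76) (nat_lit 18691192248) (nat_lit 287) (nat_lit 5) (nat_lit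 297) (nat_lit 5) (nat_lit 288) (nat_lit 5) (nat_lit 425) (nat_lit 392) (nat_lit 203))))) (XT.nd (nat_lit 234) (nat_lit 0) (nat_lit 76) (XT.nd (nat_lit 78) (nat_lit 0) (nat_lit 0) (XT.lf (nat_lit 0) (nat_lit 2769371969) (nat_lit 0) (nat_lit 2769371969) (nat_lit 1748) (nat_lit 4262619464) (nat_lit 447) (nat_lit 5) (nat_lit 447) (nat_lit 3) (nat_lit 470) (nat_lit 3) (nat_lit 393) (nat_lit 393) (nat_lit 234)) (XT.nd (nat_lit 78) (nat_lit 0) (nat_lit 76) (XT.lf (nat_lit 76) (nat_lit 173316140) (nat_lit 0) (nat_lit 11382141689) (nat_lit 1824) (nat_lit 8335017633) (nat_lit 448) (nat_lit 5) (nat_lit 447) (nat_lit 5) (nat_lit 471) (nat_lit 5) (nat_lit 394) (nat_lit 393) (nat_lit 233)) (XT.lf (nat_lit 0) (nat_lit 12188215675) (nat_lit 1748) (nat_lit 5215269799) (nat_lit 1824) (nat_lit 2780564320) (nat_lit 448) (nat_lit 5) (nat_lit 471) (nat_lit 5) (nat_lit 472) (nat_lit 5) (nat_lit 395) (nat_lit 393) (nat_lit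 232)))) (XT.nd (nat_lit 78) (nat_lit 0) (nat_lit 76) (XT.lf (nat_lit 76) (nat_lit 9768328506) (nat_lit 0) (nat_lit 3201543940) (nat_lit 1824) (nat_lit 7513962710) (nat_lit 449) (nat_lit 5) (nat_lit 448) (nat_lit 5) (nat_lit 472) (nat_lit 5) (nat_lit 396) (nat_lit 393) (nat_lit 231)) (XT.nd (nat_lit 78) (nat_lit 0) (nat_lit 76) (XT.lf (nat_lit 76) (nat_lit 4459506449) (nat_lit 0) (nat_lit 9444838252) (nat_lit 1824) (nat_lit 6885684126) (nat_lit 450) (nat_lit 5) (nat_lit 449) (nat_lit 5) (nat_lit 473) (nat_lit 5) (nat_lit 397) (nat_lit 393) (nat_lit 230)) (XT.lf (nat_lit 0) (nat_lit 14985755462) (nat_lit 1748) (nat_lit 928485658) (nat_lit 1824) (nat_lit 5188791106) (nat_lit 450) (nat_lit 5) (nat_lit 473) (nat_lit 5) (nat_lit 474) (nat_lit 5) (nat_lit 398) (nat_lit 393) (nat_lit 229))))))))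
noncomputable def xc119 : XT := (XT.nd (nat_lit 1716) (nat_lit 2888) (nat_lit 0) (XT.nd (nat_lit 858) (nat_lit 7904) (nat_lit 0) (XT.nd (nat_lit 390) (nat_lit 0) (nat_lit 76) (XT.nd (nat_lit 156) (nat_lit 1596) (nat_lit 0) (XT.nd (nat_lit 78) (nat_lit 0) (nat_lit 76) (XT.lf (nat_lit 76) (nat_lit 15064594916) (nat_lit 0) (nat_lit 1187160342) (nat_lit 1824) (nat_lit 5170629478) (nat_lit 451) (nat_lit 5) (nat_lit 450) (nat_lit 5) (nat_lit 474) (nat_lit 5) (nat_lit 399) (nat_lit 393) (nat_lit 228)) (XT.lf (nat_lit 76) (nat_lit 9831570343) (nat_lit 0) (nat_lit 7876528900) (nat_lit 1824) (nat_lit 4040173183) (nat_lit 452) (nat_lit 5) (nat_lit 451) (nat_lit 5) (nat_lit 475) (nat_lit 5) (nat_lit 400) (nat_lit 393) (nat_lit 227))) (XT.nd (nat_lit 78) (nat_lit 1748) (nat_lit 0) (XT.lf (nat_lit 76) (nat_lit 4508602937) (nat_lit 0) (nat_lit 14818993684) (nat_lit 1824) (nat_lit 2753952697) (nat_lit 453) (nat_lit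 5) (nat_lit 452) (nat_lit 5) (nat_lit 476) (nat_lit 5) (nat_lit 401) (nat_lit 393) (nat_lit 226)) (XT.nd (nat_lit 78) (nat_lit 1824) (nat_lit 0) (XT.lf (nat_lit 0) (nat_lit 21123280873) (nat_lit 1748) (nat_lit 894124326) (nat_lit 1824) (nat_lit 404869061) (nat_lit 453) (nat_lit 5) (nat_lit 476) (nat_lit 5) (nat_lit 477) (nat_lit 5) (nat_lit 402) (nat_lit 393) (nat_lit 225)) (XT.lf (nat_lit 0) (nat_lit 395968407) (nat_lit 1824) (nat_lit 6376443019) (nat_lit 1900) (nat_lit 15996805862) (nat_lit 429) (nat_lit 5) (nat_lit 453) (nat_lit 5) (nat_lit 454) (nat_lit 5) (nat_lit 403) (nat_lit 393) (nat_lit 224))))) (XT.nd (nat_lit 234) (nat_lit 0) (nat_lit 152) (XT.nd (nat_lit 78) (nat_lit 0) (nat_lit 76) (XT.lf (nat_lit 0) (nat_lit 2253985999) (nat_lit 1824) (nat_lit 11966663797) (nat_lit 1900) (nat_lit 8903151626) (nat_lit 430) (nat_lit 5) (nat_lit 454) (nat_lit 5) (nat_lit 455) (nat_lit 5) (nat_lit 404) (nat_lit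 393) (nat_lit 223)) (XT.nd (nat_lit 78) (nat_lit 0) (nat_lit 0) (XT.lf (nat_lit 0) (nat_lit 4297004222) (nat_lit 1824) (nat_lit 17655500844) (nat_lit 1900) (nat_lit 1533934408) (nat_lit 431) (nat_lit 5) (nat_lit 455) (nat_lit 5) (nat_lit 456) (nat_lit 5) (nat_lit 405) (nat_lit 393) (nat_lit 222)) (XT.lf (nat_lit 76) (nat_lit 371453002) (nat_lit 0) (nat_lit 6201651900) (nat_lit 1900) (nat_lit 17283417479) (nat_lit 432) (nat_lit 5) (nat_lit 431) (nat_lit 5) (nat_lit 456) (nat_lit 5) (nat_lit 406) (nat_lit 393) (nat_lit 221)))) (XT.nd (nat_lit 78) (nat_lit 0) (nat_lit 76) (XT.lf (nat_lit 0) (nat_lit 9095828836) (nat_lit 1824) (nat_lit 5126068110) (nat_lit 1900) (nat_lit 10012245528) (nat_lit 432) (nat_lit 5) (nat_lit 456) (nat_lit 5) (nat_lit 457) (nat_lit 5) (nat_lit 407) (nat_lit 393) (nat_lit 220)) (XT.nd (nat_lit 78) (nat_lit 0) (nat_lit 0) (XT.lf (nat_lit 0) (nat_lit 11832764522) (nat_lit 1824) (nat_lit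 10715058672) (nat_lit 1900) (nat_lit 2072498840) (nat_lit 433) (nat_lit 5) (nat_lit 457) (nat_lit 5) (nat_lit 458) (nat_lit 5) (nat_lit 408) (nat_lit 393) (nat_lit 219)) (XT.lf (nat_lit 76) (nat_lit 8571724720) (nat_lit 0) (nat_lit 6259035193) (nat_lit 1900) (nat_lit 10183749452) (nat_lit 434) (nat_lit 5) (nat_lit 433) (nat_lit 5) (nat_lit 458) (nat_lit 5) (nat_lit 409) (nat_lit 393) (nat_lit 218)))))) (XT.nd (nat_lit 390) (nat_lit 4028) (nat_lit 0) (XT.nd (nat_lit 156) (nat_lit 2812) (nat_lit 0) (XT.nd (nat_lit 78) (nat_lit 0) (nat_lit 0) (XT.lf (nat_lit 0) (nat_lit 3131290662) (nat_lit 1444) (nat_lit 14942509139) (nat_lit 1520) (nat_lit 7343621800) (nat_lit 415) (nat_lit 5) (nat_lit 434) (nat_lit 5) (nat_lit 435) (nat_lit 5) (nat_lit 410) (nat_lit 393) (nat_lit 217)) (XT.lf (nat_lit 0) (nat_lit 21573076246) (nat_lit 1520) (nat_lit 2372260746) (nat_lit 76) (nat_lit 1883906641) (nat_lit 415) (nat_lit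 5) (nat_lit 435) (nat_lit 5) (nat_lit 416) (nat_lit 5) (nat_lit 411) (nat_lit 393) (nat_lit 216))) (XT.nd (nat_lit 78) (nat_lit 1900) (nat_lit 0) (XT.lf (nat_lit 0) (nat_lit 18273164566) (nat_lit 912) (nat_lit 7116476425) (nat_lit 988) (nat_lit 859534434) (nat_lit 403) (nat_lit 5) (nat_lit 415) (nat_lit 5) (nat_lit 416) (nat_lit 5) (nat_lit 412) (nat_lit 393) (nat_lit 215)) (XT.nd (nat_lit 78) (nat_lit 912) (nat_lit 0) (XT.lf (nat_lit 0) (nat_lit 2766182669) (nat_lit 988) (nat_lit 13709388763) (nat_lit 76) (nat_lit 10202556370) (nat_lit 390) (nat_lit 5) (nat_lit 403) (nat_lit 5) (nat_lit 391) (nat_lit 5) (nat_lit 413) (nat_lit 393) (nat_lit 214)) (XT.lf (nat_lit 0) (nat_lit 6640303183) (nat_lit 988) (nat_lit 19550884305) (nat_lit 76) (nat_lit 925622642) (nat_lit 378) (nat_lit 5) (nat_lit 391) (nat_lit 5) (nat_lit 379) (nat_lit 5) (nat_lit 414) (nat_lit 393) (nat_lit 213))))) (XT.nd (nat_lit 234) (nat_lit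 2356) (nat_lit 0) (XT.nd (nat_lit 78) (nat_lit 836) (nat_lit 0) (XT.lf (nat_lit 0) (nat_lit 2010285956) (nat_lit 836) (nat_lit 8831241736) (nat_lit 912) (nat_lit 16722908791) (nat_lit 367) (nat_lit 5) (nat_lit 378) (nat_lit 5) (nat_lit 379) (nat_lit 5) (nat_lit 415) (nat_lit 393) (nat_lit 212)) (XT.nd (nat_lit 78) (nat_lit 836) (nat_lit 0) (XT.lf (nat_lit 0) (nat_lit 15355175022) (nat_lit 912) (nat_lit 3602238907) (nat_lit 76) (nat_lit 9064351108) (nat_lit 367) (nat_lit 5) (nat_lit 379) (nat_lit 5) (nat_lit 368) (nat_lit 5) (nat_lit 416) (nat_lit 393) (nat_lit 211)) (XT.lf (nat_lit 0) (nat_lit 19195417045) (nat_lit 836) (nat_lit 986939791) (nat_lit 912) (nat_lit 8306895208) (nat_lit 356) (nat_lit 5) (nat_lit 367) (nat_lit 5) (nat_lit 368) (nat_lit 5) (nat_lit 417) (nat_lit 393) (nat_lit 210)))) (XT.nd (nat_lit 78) (nat_lit 1596) (nat_lit 0) (XT.lf (nat_lit 0) (nat_lit 13817801347) (nat_lit 760) (nat_lit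 11559171545) (nat_lit 836) (nat_lit 3589339459) (nat_lit 346) (nat_lit 5) (nat_lit 356) (nat_lit 5) (nat_lit 357) (nat_lit 5) (nat_lit 418) (nat_lit 393) (nat_lit 209)) (XT.nd (nat_lit 78) (nat_lit 760) (nat_lit 0) (XT.lf (nat_lit 0) (nat_lit 1417679983) (nat_lit 836) (nat_lit 21117908062) (nat_lit 76) (nat_lit 6918640760) (nat_lit 335) (nat_lit 5) (nat_lit 346) (nat_lit 5) (nat_lit 336) (nat_lit 5) (nat_lit 419) (nat_lit 393) (nat_lit 208)) (XT.lf (nat_lit 0) (nat_lit 2706308137) (nat_lit 760) (nat_lit 4013088567) (nat_lit 836) (nat_lit 23233047486) (nat_lit 325) (nat_lit 5) (nat_lit 335) (nat_lit 5) (nat_lit 336) (nat_lit 5) (nat_lit 420) (nat_lit 393) (nat_lit 207))))))) (XT.nd (nat_lit 51480) (nat_lit 0) (nat_lit 10792) (XT.nd (nat_lit 51012) (nat_lit 0) (nat_lit 12160) (XT.nd (nat_lit 156) (nat_lit 2128) (nat_lit 0) (XT.nd (nat_lit 78) (nat_lit 760) (nat_lit 0) (XT.lf (nat_lit 0) (nat_lit 12416912132)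 (nat_lit 836) (nat_lit 3032723536) (nat_lit 76) (nat_lit 15011236383) (nat_lit 325) (nat_lit 5) (nat_lit 336) (nat_lit 5) (nat_lit 326) (nat_lit 5) (nat_lit 421) (nat_lit 393) (nat_lit 206)) (XT.lf (nat_lit 0) (nat_lit 18475254998) (nat_lit 836) (nat_lit 8839769093) (nat_lit 76) (nat_lit 3665731545) (nat_lit 315) (nat_lit 5) (nat_lit 326) (nat_lit 5) (nat_lit 316) (nat_lit 5) (nat_lit 422) (nat_lit 393) (nat_lit 205))) (XT.nd (nat_lit 78) (nat_lit 1444) (nat_lit 0) (XT.lf (nat_lit 0) (nat_lit 16705859116) (nat_lit 684) (nat_lit 8237101740) (nat_lit 760) (nat_lit 6568723520) (nat_lit 306) (nat_lit 5) (nat_lit 315) (nat_lit 5) (nat_lit 316) (nat_lit 5) (nat_lit 423) (nat_lit 393) (nat_lit 204)) (XT.nd (nat_lit 78) (nat_lit 760) (nat_lit 0) (XT.lf (nat_lit 0) (nat_lit 11147833493) (nat_lit 684) (nat_lit 20658888514) (nat_lit 760) (nat_lit 247779365) (nat_lit 297) (nat_lit 5) (nat_lit 306) (nat_lit 5)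 (nat_lit 307) (nat_lit 5) (nat_lit 424) (nat_lit 393) (nat_lit 203)) (XT.lf (nat_lit 0) (nat_lit 5440751955) (nat_lit 684) (nat_lit 926624863) (nat_lit 760) (nat_lit 26241679221) (nat_lit 287) (nat_lit 5) (nat_lit 296) (nat_lit 5) (nat_lit 297) (nat_lit 5) (nat_lit 425) (nat_lit 393) (nat_lit 202))))) (XT.nd (nat_lit 234) (nat_lit 0) (nat_lit 76) (XT.nd (nat_lit 78) (nat_lit 0) (nat_lit 0) (XT.lf (nat_lit 0) (nat_lit 2978585833) (nat_lit 0) (nat_lit 2978585833) (nat_lit 1748) (nat_lit 4133131778) (nat_lit 447) (nat_lit 5) (nat_lit 447) (nat_lit 3) (nat_lit 470) (nat_lit 3) (nat_lit 394) (nat_lit 394) (nat_lit 232)) (XT.nd (nat_lit 78) (nat_lit 0) (nat_lit 76) (XT.lf (nat_lit 76) (nat_lit 438335840) (nat_lit 0) (nat_lit 11953718228) (nat_lit 1824) (nat_lit 8085229141) (nat_lit 448) (nat_lit 5) (nat_lit 447) (nat_lit 5) (nat_lit 471) (nat_lit 5) (nat_lit 395) (nat_lit 394) (nat_lit 231)) (XT.lf (nat_lit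 0) (nat_lit 13028074244) (nat_lit 1748) (nat_lit 5108406752) (nat_lit 1824) (nat_lit 2643501323) (nat_lit 448) (nat_lit 5) (nat_lit 471) (nat_lit 5) (nat_lit 472) (nat_lit 5) (nat_lit 396) (nat_lit 394) (nat_lit 230)))) (XT.nd (nat_lit 78) (nat_lit 0) (nat_lit 76) (XT.lf (nat_lit 76) (nat_lit 10320427429) (nat_lit 0) (nat_lit 3500623205) (nat_lit 1824) (nat_lit 7267956260) (nat_lit 449) (nat_lit 5) (nat_lit 448) (nat_lit 5) (nat_lit 472) (nat_lit 5) (nat_lit 397) (nat_lit 394) (nat_lit 229)) (XT.nd (nat_lit 78) (nat_lit 0) (nat_lit 76) (XT.lf (nat_lit 76) (nat_lit 4858626517) (nat_lit 0) (nat_lit 9911914740) (nat_lit 1824) (nat_lit 6634108396) (nat_lit 450) (nat_lit 5) (nat_lit 449) (nat_lit 5) (nat_lit 473) (nat_lit 5) (nat_lit 398) (nat_lit 394) (nat_lit 228)) (XT.lf (nat_lit 0) (nat_lit 15870156581) (nat_lit 1748) (nat_lit 688759820) (nat_lit 1824) (nat_lit 5168414382) (nat_lit 450) (nat_lit 5)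 (nat_lit 473) (nat_lit 5) (nat_lit 474) (nat_lit 5) (nat_lit 399) (nat_lit 394) (nat_lit 227)))))) (XT.nd (nat_lit 390) (nat_lit 0) (nat_lit 76) (XT.nd (nat_lit 156) (nat_lit 1596) (nat_lit 0) (XT.nd (nat_lit 78) (nat_lit 0) (nat_lit 76) (XT.lf (nat_lit 76) (nat_lit 15779771997) (nat_lit 0) (nat_lit 1383408592) (nat_lit 1824) (nat_lit 4893305187) (nat_lit 451) (nat_lit 5) (nat_lit 450) (nat_lit 5) (nat_lit 474) (nat_lit 5) (nat_lit 400) (nat_lit 394) (nat_lit 226)) (XT.lf (nat_lit 76) (nat_lit 10394943417) (nat_lit 0) (nat_lit 8256655908) (nat_lit 1824) (nat_lit 3740785794) (nat_lit 452) (nat_lit 5) (nat_lit 451) (nat_lit 5) (nat_lit 475) (nat_lit 5) (nat_lit 401) (nat_lit 394) (nat_lit 225))) (XT.nd (nat_lit 78) (nat_lit 1748) (nat_lit 0) (XT.lf (nat_lit 76) (nat_lit 4917051040) (nat_lit 0) (nat_lit 15391490179) (nat_lit 1824) (nat_lit 2427344539) (nat_lit 453) (nat_lit 5) (nat_lit 452) (nat_lit 5)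 (nat_lit 476) (nat_lit 5) (nat_lit 402) (nat_lit 394) (nat_lit 224)) (XT.nd (nat_lit 78) (nat_lit 1824) (nat_lit 0) (XT.lf (nat_lit 0) (nat_lit 22145606594) (nat_lit 1748) (nat_lit 647034812) (nat_lit 1824) (nat_lit 294443382) (nat_lit 453) (nat_lit 5) (nat_lit 476) (nat_lit 5) (nat_lit 477) (nat_lit 5) (nat_lit 403) (nat_lit 394) (nat_lit 223)) (XT.lf (nat_lit 0) (nat_lit 789496990) (nat_lit 1824) (nat_lit 6293114011) (nat_lit 1900) (nat_lit 16361968764) (nat_lit 429) (nat_lit 5) (nat_lit 453) (nat_lit 5) (nat_lit 454) (nat_lit 5) (nat_lit 404) (nat_lit 394) (nat_lit 222))))) (XT.nd (nat_lit 234) (nat_lit 0) (nat_lit 152) (XT.nd (nat_lit 78) (nat_lit 0) (nat_lit 76) (XT.lf (nat_lit 0) (nat_lit 2693230170) (nat_lit 1824) (nat_lit 12047309354) (nat_lit 1900) (nat_lit 9069464758) (nat_lit 430) (nat_lit 5) (nat_lit 454) (nat_lit 5) (nat_lit 455) (nat_lit 5) (nat_lit 405) (nat_lit 394) (nat_lit 221)) (XT.nd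 (nat_lit 78) (nat_lit 0) (nat_lit 0) (XT.lf (nat_lit 0) (nat_lit 4787916704) (nat_lit 1824) (nat_lit 17903423353) (nat_lit 1900) (nat_lit 1492376156) (nat_lit 431) (nat_lit 5) (nat_lit 455) (nat_lit 5) (nat_lit 456) (nat_lit 5) (nat_lit 406) (nat_lit 394) (nat_lit 220)) (XT.lf (nat_lit 76) (nat_lit 659768171) (nat_lit 0) (nat_lit 6463788058) (nat_lit 1900) (nat_lit 17441522487) (nat_lit 432) (nat_lit 5) (nat_lit 431) (nat_lit 5) (nat_lit 456) (nat_lit 5) (nat_lit 407) (nat_lit 394) (nat_lit 219)))) (XT.nd (nat_lit 78) (nat_lit 0) (nat_lit 76) (XT.lf (nat_lit 0) (nat_lit 9711193191) (nat_lit 1824) (nat_lit 5003340522) (nat_lit 1900) (nat_lit 10239711234) (nat_lit 432) (nat_lit 5) (nat_lit 456) (nat_lit 5) (nat_lit 457) (nat_lit 5) (nat_lit 408) (nat_lit 394) (nat_lit 218)) (XT.nd (nat_lit 78) (nat_lit 0) (nat_lit 0) (XT.lf (nat_lit 0) (nat_lit 12521623471) (nat_lit 1824) (nat_lit 10757327110) (nat_lit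 1900) (nat_lit 2073233678) (nat_lit 433) (nat_lit 5) (nat_lit 457) (nat_lit 5) (nat_lit 458) (nat_lit 5) (nat_lit 409) (nat_lit 394) (nat_lit 217)) (XT.lf (nat_lit 76) (nat_lit 9103530366) (nat_lit 0) (nat_lit 6498087049) (nat_lit 1900) (nat_lit 10156740657) (nat_lit 434) (nat_lit 5) (nat_lit 433) (nat_lit 5) (nat_lit 458) (nat_lit 5) (nat_lit 410) (nat_lit 394) (nat_lit 216))))))))
noncomputable def xc120 : XT := (XT.nd (nat_lit 52416) (nat_lit 0) (nat_lit 2128) (XT.nd (nat_lit 858) (nat_lit 2128) (nat_lit 0) (XT.nd (nat_lit 390) (nat_lit 4028) (nat_lit 0) (XT.nd (nat_lit 156) (nat_lit 2812) (nat_lit 0) (XT.nd (nat_lit 78) (nat_lit 0) (nat_lit 0) (XT.lf (nat_lit 0) (nat_lit 3502234614) (nat_lit 1444) (nat_lit 15431695892) (nat_lit 1520) (nat_lit 7239589506) (nat_lit 415) (nat_lit 5) (nat_lit 434) (nat_lit 5) (nat_lit 435) (nat_lit 5) (nat_lit 411) (nat_lit 394) (nat_lit 215)) (XT.lf (nat_lit 0) (nat_lit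 22528667647) (nat_lit 1520) (nat_lit 2167996439) (nat_lit 76) (nat_lit 1901224891) (nat_lit 415) (nat_lit 5) (nat_lit 435) (nat_lit 5) (nat_lit 416) (nat_lit 5) (nat_lit 412) (nat_lit 394) (nat_lit 214))) (XT.nd (nat_lit 78) (nat_lit 1900) (nat_lit 0) (XT.lf (nat_lit 0) (nat_lit 19092323074) (nat_lit 912) (nat_lit 7360183038) (nat_lit 988) (nat_lit 578058939) (nat_lit 403) (nat_lit 5) (nat_lit 415) (nat_lit 5) (nat_lit 416) (nat_lit 5) (nat_lit 413) (nat_lit 394) (nat_lit 213)) (XT.nd (nat_lit 78) (nat_lit 912) (nat_lit 0) (XT.lf (nat_lit 0) (nat_lit 3145158772) (nat_lit 988) (nat_lit 13843930351) (nat_lit 76) (nat_lit 10483403575) (nat_lit 390) (nat_lit 5) (nat_lit 403) (nat_lit 5) (nat_lit 391) (nat_lit 5) (nat_lit 414) (nat_lit 394) (nat_lit 212)) (XT.lf (nat_lit 0) (nat_lit 7128539804) (nat_lit 988) (nat_lit 19859210749) (nat_lit 76) (nat_lit 936725926) (nat_lit 378) (nat_lit 5) (nat_lit 391) (nat_lit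 5) (nat_lit 379) (nat_lit 5) (nat_lit 415) (nat_lit 394) (nat_lit 211))))) (XT.nd (nat_lit 234) (nat_lit 2356) (nat_lit 0) (XT.nd (nat_lit 78) (nat_lit 836) (nat_lit 0) (XT.lf (nat_lit 0) (nat_lit 2344281155) (nat_lit 836) (nat_lit 9104878571) (nat_lit 912) (nat_lit 16936506395) (nat_lit 367) (nat_lit 5) (nat_lit 378) (nat_lit 5) (nat_lit 379) (nat_lit 5) (nat_lit 416) (nat_lit 394) (nat_lit 210)) (XT.nd (nat_lit 78) (nat_lit 836) (nat_lit 0) (XT.lf (nat_lit 0) (nat_lit 16089936797) (nat_lit 912) (nat_lit 3438998734) (nat_lit 76) (nat_lit 9327946217) (nat_lit 367) (nat_lit 5) (nat_lit 379) (nat_lit 5) (nat_lit 368) (nat_lit 5) (nat_lit 417) (nat_lit 394) (nat_lit 209)) (XT.lf (nat_lit 0) (nat_lit 20038185257) (nat_lit 836) (nat_lit 1017498051) (nat_lit 912) (nat_lit 8282836648) (nat_lit 356) (nat_lit 5) (nat_lit 367) (nat_lit 5) (nat_lit 368) (nat_lit 5) (nat_lit 418) (nat_lit 394) (nat_lit 208))))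 (XT.nd (nat_lit 78) (nat_lit 1596) (nat_lit 0) (XT.lf (nat_lit 0) (nat_lit 14500238813) (nat_lit 760) (nat_lit 11899830828) (nat_lit 836) (nat_lit 3429945327) (nat_lit 346) (nat_lit 5) (nat_lit 356) (nat_lit 5) (nat_lit 357) (nat_lit 5) (nat_lit 419) (nat_lit 394) (nat_lit 207)) (XT.nd (nat_lit 78) (nat_lit 760) (nat_lit 0) (XT.lf (nat_lit 0) (nat_lit 1717900191) (nat_lit 836) (nat_lit 21479253266) (nat_lit 76) (nat_lit 7135499869) (nat_lit 335) (nat_lit 5) (nat_lit 346) (nat_lit 5) (nat_lit 336) (nat_lit 5) (nat_lit 420) (nat_lit 394) (nat_lit 206)) (XT.lf (nat_lit 0) (nat_lit 3055273427) (nat_lit 760) (nat_lit 4117628038) (nat_lit 836) (nat_lit 23673030461) (nat_lit 325) (nat_lit 5) (nat_lit 335) (nat_lit 5) (nat_lit 336) (nat_lit 5) (nat_lit 421) (nat_lit 394) (nat_lit 205)))))) (XT.nd (nat_lit 51090) (nat_lit 0) (nat_lit 11400) (XT.nd (nat_lit 156) (nat_lit 1368) (nat_lit 0) (XT.nd (nat_lit 78)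 (nat_lit 760) (nat_lit 0) (XT.lf (nat_lit 0) (nat_lit 13034104728) (nat_lit 836) (nat_lit 2858890963) (nat_lit 76) (nat_lit 15476763056) (nat_lit 325) (nat_lit 5) (nat_lit 336) (nat_lit 5) (nat_lit 326) (nat_lit 5) (nat_lit 422) (nat_lit 394) (nat_lit 204)) (XT.lf (nat_lit 0) (nat_lit 19268900668) (nat_lit 836) (nat_lit 8839752844) (nat_lit 76) (nat_lit 3796692605) (nat_lit 315) (nat_lit 5) (nat_lit 326) (nat_lit 5) (nat_lit 316) (nat_lit 5) (nat_lit 423) (nat_lit 394) (nat_lit 203))) (XT.nd (nat_lit 78) (nat_lit 684) (nat_lit 0) (XT.lf (nat_lit 0) (nat_lit 17467941505) (nat_lit 684) (nat_lit 8457417710) (nat_lit 760) (nat_lit 6526950369) (nat_lit 306) (nat_lit 5) (nat_lit 315) (nat_lit 5) (nat_lit 316) (nat_lit 5) (nat_lit 424) (nat_lit 394) (nat_lit 202)) (XT.nd (nat_lit 50778) (nat_lit 0) (nat_lit 11400) (XT.lf (nat_lit 0) (nat_lit 11743419712) (nat_lit 684) (nat_lit 21246659246) (nat_lit 760) (nat_lit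 21432472) (nat_lit 297) (nat_lit 5) (nat_lit 306) (nat_lit 5) (nat_lit 307) (nat_lit 5) (nat_lit 425) (nat_lit 394) (nat_lit 201)) (XT.lf (nat_lit 0) (nat_lit 3186835579) (nat_lit 0) (nat_lit 3186835579) (nat_lit 1748) (nat_lit 4014533338) (nat_lit 447) (nat_lit 5) (nat_lit 447) (nat_lit 3) (nat_lit 470) (nat_lit 3) (nat_lit 395) (nat_lit 395) (nat_lit 230))))) (XT.nd (nat_lit 234) (nat_lit 0) (nat_lit 152) (XT.nd (nat_lit 78) (nat_lit 0) (nat_lit 76) (XT.lf (nat_lit 76) (nat_lit 696391387) (nat_lit 0) (nat_lit 12529232676) (nat_lit 1824) (nat_lit 7856639798) (nat_lit 448) (nat_lit 5) (nat_lit 447) (nat_lit 5) (nat_lit 471) (nat_lit 5) (nat_lit 396) (nat_lit 395) (nat_lit 229)) (XT.nd (nat_lit 78) (nat_lit 0) (nat_lit 0) (XT.lf (nat_lit 0) (nat_lit 13865906856) (nat_lit 1748) (nat_lit 5013453524) (nat_lit 1824) (nat_lit 2514982886) (nat_lit 448) (nat_lit 5) (nat_lit 471) (nat_lit 5) (nat_lit 472) (nat_lit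 5) (nat_lit 397) (nat_lit 395) (nat_lit 228)) (XT.lf (nat_lit 76) (nat_lit 10874218844) (nat_lit 0) (nat_lit 3797019925) (nat_lit 1824) (nat_lit 7041631360) (nat_lit 449) (nat_lit 5) (nat_lit 448) (nat_lit 5) (nat_lit 472) (nat_lit 5) (nat_lit 398) (nat_lit 395) (nat_lit 227)))) (XT.nd (nat_lit 78) (nat_lit 0) (nat_lit 76) (XT.lf (nat_lit 76) (nat_lit 5254488881) (nat_lit 0) (nat_lit 10382456591) (nat_lit 1824) (nat_lit 6401284863) (nat_lit 450) (nat_lit 5) (nat_lit 449) (nat_lit 5) (nat_lit 473) (nat_lit 5) (nat_lit 399) (nat_lit 395) (nat_lit 226)) (XT.nd (nat_lit 78) (nat_lit 0) (nat_lit 0) (XT.lf (nat_lit 0) (nat_lit 16756128802) (nat_lit 1748) (nat_lit 457202417) (nat_lit 1824) (nat_lit 5157531799) (nat_lit 450) (nat_lit 5) (nat_lit 473) (nat_lit 5) (nat_lit 474) (nat_lit 5) (nat_lit 400) (nat_lit 395) (nat_lit 225)) (XT.lf (nat_lit 76) (nat_lit 16501293381) (nat_lit 0) (nat_lit 1576323273) (nat_lit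 1824) (nat_lit 4632485176) (nat_lit 451) (nat_lit 5) (nat_lit 450) (nat_lit 5) (nat_lit 474) (nat_lit 5) (nat_lit 401) (nat_lit 395) (nat_lit 224))))))) (XT.nd (nat_lit 858) (nat_lit 6840) (nat_lit 0) (XT.nd (nat_lit 390) (nat_lit 1064) (nat_lit 0) (XT.nd (nat_lit 156) (nat_lit 1672) (nat_lit 0) (XT.nd (nat_lit 78) (nat_lit 0) (nat_lit 76) (XT.lf (nat_lit 76) (nat_lit 10959808935) (nat_lit 0) (nat_lit 8639930230) (nat_lit 1824) (nat_lit 3456560518) (nat_lit 452) (nat_lit 5) (nat_lit 451) (nat_lit 5) (nat_lit 475) (nat_lit 5) (nat_lit 402) (nat_lit 395) (nat_lit 223)) (XT.lf (nat_lit 76) (nat_lit 5322070361) (nat_lit 0) (nat_lit 15973818054) (nat_lit 1824) (nat_lit 2114429424) (nat_lit 453) (nat_lit 5) (nat_lit 452) (nat_lit 5) (nat_lit 476) (nat_lit 5) (nat_lit 403) (nat_lit 395) (nat_lit 222))) (XT.nd (nat_lit 78) (nat_lit 1824) (nat_lit 0) (XT.lf (nat_lit 0) (nat_lit 23176293291) (nat_lit 1748) (nat_lit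 408256354) (nat_lit 1824) (nat_lit 187741053) (nat_lit 453) (nat_lit 5) (nat_lit 476) (nat_lit 5) (nat_lit 477) (nat_lit 5) (nat_lit 404) (nat_lit 395) (nat_lit 221)) (XT.nd (nat_lit 78) (nat_lit 0) (nat_lit 76) (XT.lf (nat_lit 0) (nat_lit 1172923186) (nat_lit 1824) (nat_lit 6223049576) (nat_lit 1900) (nat_lit 16744673172) (nat_lit 429) (nat_lit 5) (nat_lit 453) (nat_lit 5) (nat_lit 454) (nat_lit 5) (nat_lit 405) (nat_lit 395) (nat_lit 220)) (XT.lf (nat_lit 0) (nat_lit 3124318895) (nat_lit 1824) (nat_lit 12146352956) (nat_lit 1900) (nat_lit 9246552549) (nat_lit 430) (nat_lit 5) (nat_lit 454) (nat_lit 5) (nat_lit 455) (nat_lit 5) (nat_lit 406) (nat_lit 395) (nat_lit 219))))) (XT.nd (nat_lit 234) (nat_lit 1216) (nat_lit 0) (XT.nd (nat_lit 78) (nat_lit 0) (nat_lit 0) (XT.lf (nat_lit 0) (nat_lit 5272776144) (nat_lit 1824) (nat_lit 18174956710) (nat_lit 1900) (nat_lit 1454598394) (nat_lit 431) (nat_lit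 5) (nat_lit 455) (nat_lit 5) (nat_lit 456) (nat_lit 5) (nat_lit 407) (nat_lit 395) (nat_lit 218)) (XT.nd (nat_lit 78) (nat_lit 0) (nat_lit 76) (XT.lf (nat_lit 76) (nat_lit 940822012) (nat_lit 0) (nat_lit 6729420617) (nat_lit 1900) (nat_lit 17625058938) (nat_lit 432) (nat_lit 5) (nat_lit 431) (nat_lit 5) (nat_lit 456) (nat_lit 5) (nat_lit 408) (nat_lit 395) (nat_lit 217)) (XT.lf (nat_lit 0) (nat_lit 10325358179) (nat_lit 1824) (nat_lit 4892803890) (nat_lit 1900) (nat_lit 10478185763) (nat_lit 432) (nat_lit 5) (nat_lit 456) (nat_lit 5) (nat_lit 457) (nat_lit 5) (nat_lit 409) (nat_lit 395) (nat_lit 216)))) (XT.nd (nat_lit 78) (nat_lit 1368) (nat_lit 0) (XT.lf (nat_lit 0) (nat_lit 13211982340) (nat_lit 1824) (nat_lit 10816889865) (nat_lit 1900) (nat_lit 2077517476) (nat_lit 433) (nat_lit 5) (nat_lit 457) (nat_lit 5) (nat_lit 458) (nat_lit 5) (nat_lit 410) (nat_lit 395) (nat_lit 215)) (XT.nd (nat_lit 78)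 (nat_lit 1368) (nat_lit 0) (XT.lf (nat_lit 76) (nat_lit 9635523925) (nat_lit 0) (nat_lit 6741366733) (nat_lit 1900) (nat_lit 10148009680) (nat_lit 434) (nat_lit 5) (nat_lit 433) (nat_lit 5) (nat_lit 458) (nat_lit 5) (nat_lit 411) (nat_lit 395) (nat_lit 214)) (XT.lf (nat_lit 0) (nat_lit 3868405651) (nat_lit 1444) (nat_lit 15933209761) (nat_lit 1520) (nat_lit 7151054741) (nat_lit 415) (nat_lit 5) (nat_lit 434) (nat_lit 5) (nat_lit 435) (nat_lit 5) (nat_lit 412) (nat_lit 395) (nat_lit 213)))))) (XT.nd (nat_lit 390) (nat_lit 3192) (nat_lit 0) (XT.nd (nat_lit 156) (nat_lit 2736) (nat_lit 0) (XT.nd (nat_lit 78) (nat_lit 912) (nat_lit 0) (XT.lf (nat_lit 0) (nat_lit 23495223420) (nat_lit 1520) (nat_lit 1973415134) (nat_lit 76) (nat_lit 1921312868) (nat_lit 415) (nat_lit 5) (nat_lit 435) (nat_lit 5) (nat_lit 416) (nat_lit 5) (nat_lit 413) (nat_lit 395) (nat_lit 212)) (XT.lf (nat_lit 0) (nat_lit 19920501919)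 (nat_lit 912) (nat_lit 7609466539) (nat_lit 988) (nat_lit 305777249) (nat_lit 403) (nat_lit 5) (nat_lit 415) (nat_lit 5) (nat_lit 416) (nat_lit 5) (nat_lit 414) (nat_lit 395) (nat_lit 211))) (XT.nd (nat_lit 78) (nat_lit 1748) (nat_lit 0) (XT.lf (nat_lit 0) (nat_lit 3518513085) (nat_lit 988) (nat_lit 13998394199) (nat_lit 76) (nat_lit 10774124471) (nat_lit 390) (nat_lit 5) (nat_lit 403) (nat_lit 5) (nat_lit 391) (nat_lit 5) (nat_lit 415) (nat_lit 395) (nat_lit 210)) (XT.nd (nat_lit 78) (nat_lit 836) (nat_lit 0) (XT.lf (nat_lit 0) (nat_lit 7614832161) (nat_lit 988) (nat_lit 20192756809) (nat_lit 76) (nat_lit 949118970) (nat_lit 378) (nat_lit 5) (nat_lit 391) (nat_lit 5) (nat_lit 379) (nat_lit 5) (nat_lit 416) (nat_lit 395) (nat_lit 209)) (XT.lf (nat_lit 0) (nat_lit 2672585477) (nat_lit 836) (nat_lit 9386225120) (nat_lit 912) (nat_lit 17173049452) (nat_lit 367) (nat_lit 5) (nat_lit 378) (nat_lit 5) (nat_lit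 379) (nat_lit 5) (nat_lit 417) (nat_lit 395) (nat_lit 208))))) (XT.nd (nat_lit 234) (nat_lit 1596) (nat_lit 0) (XT.nd (nat_lit 78) (nat_lit 1596) (nat_lit 0) (XT.lf (nat_lit 0) (nat_lit 16831006589) (nat_lit 912) (nat_lit 3286435508) (nat_lit 76) (nat_lit 9599927667) (nat_lit 367) (nat_lit 5) (nat_lit 379) (nat_lit 5) (nat_lit 368) (nat_lit 5) (nat_lit 418) (nat_lit 395) (nat_lit 207)) (XT.nd (nat_lit 78) (nat_lit 760) (nat_lit 0) (XT.lf (nat_lit 0) (nat_lit 20890915036) (nat_lit 836) (nat_lit 1048918522) (nat_lit 912) (nat_lit 8273742884) (nat_lit 356) (nat_lit 5) (nat_lit 367) (nat_lit 5) (nat_lit 368) (nat_lit 5) (nat_lit 419) (nat_lit 395) (nat_lit 206)) (XT.lf (nat_lit 0) (nat_lit 15187770649) (nat_lit 760) (nat_lit 12251060965) (nat_lit 836) (nat_lit 3281100529) (nat_lit 346) (nat_lit 5) (nat_lit 356) (nat_lit 5) (nat_lit 357) (nat_lit 5) (nat_lit 420) (nat_lit 395) (nat_lit 205)))) (XT.nd (nat_lit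 78) (nat_lit 760) (nat_lit 0) (XT.lf (nat_lit 0) (nat_lit 2012334556) (nat_lit 836) (nat_lit 21867063762) (nat_lit 76) (nat_lit 7358330900) (nat_lit 335) (nat_lit 5) (nat_lit 346) (nat_lit 5) (nat_lit 336) (nat_lit 5) (nat_lit 421) (nat_lit 395) (nat_lit 204)) (XT.nd (nat_lit 78) (nat_lit 0) (nat_lit 0) (XT.lf (nat_lit 0) (nat_lit 3399336236) (nat_lit 760) (nat_lit 4226213731) (nat_lit 836) (nat_lit 24140966261) (nat_lit 325) (nat_lit 5) (nat_lit 335) (nat_lit 5) (nat_lit 336) (nat_lit 5) (nat_lit 422) (nat_lit 395) (nat_lit 203)) (XT.lf (nat_lit 0) (nat_lit 13655767169) (nat_lit 836) (nat_lit 2695044836) (nat_lit 76) (nat_lit 15955383585) (nat_lit 325) (nat_lit 5) (nat_lit 336) (nat_lit 5) (nat_lit 326) (nat_lit 5) (nat_lit 423) (nat_lit 395) (nat_lit 202))))))))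
noncomputable def xc121 : XT := (XT.nd (nat_lit 52494) (nat_lit 0) (nat_lit 1444) (XT.nd (nat_lit 51636) (nat_lit 0) (nat_lit 7372) (XT.nd (nat_lit 51168) (nat_lit 0) (nat_lit 10792) (XT.nd (nat_lit 50934) (nat_lit 0) (nat_lit 10716) (XT.nd (nat_lit 78) (nat_lit 684) (nat_lit 0) (XT.lf (nat_lit 0) (nat_lit 20072613856) (nat_lit 836) (nat_lit 8854960208) (nat_lit 76) (nat_lit 3930377636) (nat_lit 315) (nat_lit 5) (nat_lit 326) (nat_lit 5) (nat_lit 316) (nat_lit 5) (nat_lit 424) (nat_lit 395) (nat_lit 201)) (XT.lf (nat_lit 0) (nat_lit 18237909258) (nat_lit 684) (nat_lit 8685881420) (nat_lit 760) (nat_lit 6497634122) (nat_lit 306) (nat_lit 5) (nat_lit 315) (nat_lit 5) (nat_lit 316) (nat_lit 5) (nat_lit 425) (nat_lit 395) (nat_lit 200))) (XT.nd (nat_lit 78) (nat_lit 0) (nat_lit 0) (XT.lf (nat_lit 0) (nat_lit 3394507921) (nat_lit 0) (nat_lit 3394507921) (nat_lit 1748) (nat_lit 3906302740) (nat_lit 447)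 (nat_lit 5) (nat_lit 447) (nat_lit 3) (nat_lit 470) (nat_lit 3) (nat_lit 396) (nat_lit 396) (nat_lit 228)) (XT.nd (nat_lit 78) (nat_lit 0) (nat_lit 76) (XT.lf (nat_lit 76) (nat_lit 948130025) (nat_lit 0) (nat_lit 13109561444) (nat_lit 1824) (nat_lit 7648238495) (nat_lit 448) (nat_lit 5) (nat_lit 447) (nat_lit 5) (nat_lit 471) (nat_lit 5) (nat_lit 397) (nat_lit 396) (nat_lit 227)) (XT.lf (nat_lit 0) (nat_lit 14703215369) (nat_lit 1748) (nat_lit 4929899707) (nat_lit 1824) (nat_lit 2394538814) (nat_lit 448) (nat_lit 5) (nat_lit 471) (nat_lit 5) (nat_lit 472) (nat_lit 5) (nat_lit 398) (nat_lit 396) (nat_lit 226))))) (XT.nd (nat_lit 234) (nat_lit 0) (nat_lit 152) (XT.nd (nat_lit 78) (nat_lit 0) (nat_lit 76) (XT.lf (nat_lit 76) (nat_lit 11430607152) (nat_lit 0) (nat_lit 4091322666) (nat_lit 1824) (nat_lit 6834025000) (nat_lit 449) (nat_lit 5) (nat_lit 448) (nat_lit 5) (nat_lit 472) (nat_lit 5) (nat_lit 399)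 (nat_lit 396) (nat_lit 225)) (XT.nd (nat_lit 78) (nat_lit 0) (nat_lit 76) (XT.lf (nat_lit 76) (nat_lit 5647870147) (nat_lit 0) (nat_lit 10857173205) (nat_lit 1824) (nat_lit 6186266396) (nat_lit 450) (nat_lit 5) (nat_lit 449) (nat_lit 5) (nat_lit 473) (nat_lit 5) (nat_lit 400) (nat_lit 396) (nat_lit 224)) (XT.lf (nat_lit 0) (nat_lit 17645152117) (nat_lit 1748) (nat_lit 233176763) (nat_lit 1824) (nat_lit 5155848088) (nat_lit 450) (nat_lit 5) (nat_lit 473) (nat_lit 5) (nat_lit 474) (nat_lit 5) (nat_lit 401) (nat_lit 396) (nat_lit 223)))) (XT.nd (nat_lit 78) (nat_lit 0) (nat_lit 76) (XT.lf (nat_lit 76) (nat_lit 17230216832) (nat_lit 0) (nat_lit 1766333701) (nat_lit 1824) (nat_lit 4387239571) (nat_lit 451) (nat_lit 5) (nat_lit 450) (nat_lit 5) (nat_lit 474) (nat_lit 5) (nat_lit 402) (nat_lit 396) (nat_lit 222)) (XT.nd (nat_lit 78) (nat_lit 0) (nat_lit 76) (XT.lf (nat_lit 76) (nat_lit 11527096195) (nat_lit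 0) (nat_lit 9026920243) (nat_lit 1824) (nat_lit 3186566270) (nat_lit 452) (nat_lit 5) (nat_lit 451) (nat_lit 5) (nat_lit 475) (nat_lit 5) (nat_lit 403) (nat_lit 396) (nat_lit 221)) (XT.lf (nat_lit 76) (nat_lit 5724458262) (nat_lit 0) (nat_lit 16566693797) (nat_lit 1824) (nat_lit 1814269649) (nat_lit 453) (nat_lit 5) (nat_lit 452) (nat_lit 5) (nat_lit 476) (nat_lit 5) (nat_lit 404) (nat_lit 396) (nat_lit 220)))))) (XT.nd (nat_lit 390) (nat_lit 1976) (nat_lit 0) (XT.nd (nat_lit 156) (nat_lit 0) (nat_lit 76) (XT.nd (nat_lit 78) (nat_lit 1824) (nat_lit 0) (XT.lf (nat_lit 0) (nat_lit 24216872408) (nat_lit 1748) (nat_lit 177135676) (nat_lit 1824) (nat_lit 84469872) (nat_lit 453) (nat_lit 5) (nat_lit 476) (nat_lit 5) (nat_lit 477) (nat_lit 5) (nat_lit 405) (nat_lit 396) (nat_lit 219)) (XT.lf (nat_lit 0) (nat_lit 1547201546) (nat_lit 1824) (nat_lit 6165742708) (nat_lit 1900) (nat_lit 17145067232) (nat_lit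 429) (nat_lit 5) (nat_lit 453) (nat_lit 5) (nat_lit 454) (nat_lit 5) (nat_lit 406) (nat_lit 396) (nat_lit 218))) (XT.nd (nat_lit 78) (nat_lit 0) (nat_lit 76) (XT.lf (nat_lit 0) (nat_lit 3548232099) (nat_lit 1824) (nat_lit 12263429304) (nat_lit 1900) (nat_lit 9434406142) (nat_lit 430) (nat_lit 5) (nat_lit 454) (nat_lit 5) (nat_lit 455) (nat_lit 5) (nat_lit 407) (nat_lit 396) (nat_lit 217)) (XT.nd (nat_lit 78) (nat_lit 0) (nat_lit 0) (XT.lf (nat_lit 0) (nat_lit 5752593832) (nat_lit 1824) (nat_lit 18469880834) (nat_lit 1900) (nat_lit 1420425952) (nat_lit 431) (nat_lit 5) (nat_lit 455) (nat_lit 5) (nat_lit 456) (nat_lit 5) (nat_lit 408) (nat_lit 396) (nat_lit 216)) (XT.lf (nat_lit 76) (nat_lit 1215310031) (nat_lit 0) (nat_lit 6998905194) (nat_lit 1900) (nat_lit 17833602181) (nat_lit 432) (nat_lit 5) (nat_lit 431) (nat_lit 5) (nat_lit 456) (nat_lit 5) (nat_lit 409) (nat_lit 396) (nat_lit 215))))) (XT.nd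 (nat_lit 234) (nat_lit 2204) (nat_lit 0) (XT.nd (nat_lit 78) (nat_lit 0) (nat_lit 76) (XT.lf (nat_lit 0) (nat_lit 10939416400) (nat_lit 1824) (nat_lit 4793912781) (nat_lit 1900) (nat_lit 10727759155) (nat_lit 432) (nat_lit 5) (nat_lit 456) (nat_lit 5) (nat_lit 457) (nat_lit 5) (nat_lit 410) (nat_lit 396) (nat_lit 214)) (XT.nd (nat_lit 78) (nat_lit 0) (nat_lit 0) (XT.lf (nat_lit 0) (nat_lit 13904986324) (nat_lit 1824) (nat_lit 10893345795) (nat_lit 1900) (nat_lit 2085254243) (nat_lit 433) (nat_lit 5) (nat_lit 457) (nat_lit 5) (nat_lit 458) (nat_lit 5) (nat_lit 411) (nat_lit 396) (nat_lit 213)) (XT.lf (nat_lit 76) (nat_lit 10168616079) (nat_lit 0) (nat_lit 6989170062) (nat_lit 1900) (nat_lit 10157009122) (nat_lit 434) (nat_lit 5) (nat_lit 433) (nat_lit 5) (nat_lit 458) (nat_lit 5) (nat_lit 412) (nat_lit 396) (nat_lit 212)))) (XT.nd (nat_lit 78) (nat_lit 912) (nat_lit 0) (XT.lf (nat_lit 0) (nat_lit 4230573382)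 (nat_lit 1444) (nat_lit 16447555373) (nat_lit 1520) (nat_lit 7077413652) (nat_lit 415) (nat_lit 5) (nat_lit 434) (nat_lit 5) (nat_lit 435) (nat_lit 5) (nat_lit 413) (nat_lit 396) (nat_lit 211)) (XT.nd (nat_lit 78) (nat_lit 912) (nat_lit 0) (XT.lf (nat_lit 0) (nat_lit 24474088740) (nat_lit 1520) (nat_lit 1787899708) (nat_lit 76) (nat_lit 1944124496) (nat_lit 415) (nat_lit 5) (nat_lit 435) (nat_lit 5) (nat_lit 416) (nat_lit 5) (nat_lit 414) (nat_lit 396) (nat_lit 210)) (XT.lf (nat_lit 0) (nat_lit 20758864599) (nat_lit 912) (nat_lit 7864593790) (nat_lit 988) (nat_lit 41952680) (nat_lit 403) (nat_lit 5) (nat_lit 415) (nat_lit 5) (nat_lit 416) (nat_lit 5) (nat_lit 415) (nat_lit 396) (nat_lit 209))))))) (XT.nd (nat_lit 51792) (nat_lit 0) (nat_lit 7828) (XT.nd (nat_lit 390) (nat_lit 2356) (nat_lit 0) (XT.nd (nat_lit 156) (nat_lit 1672) (nat_lit 0) (XT.nd (nat_lit 78) (nat_lit 912) (nat_lit 0) (XT.lf (nat_lit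 0) (nat_lit 3887052313) (nat_lit 988) (nat_lit 14172466052) (nat_lit 76) (nat_lit 11074932132) (nat_lit 390) (nat_lit 5) (nat_lit 403) (nat_lit 5) (nat_lit 391) (nat_lit 5) (nat_lit 416) (nat_lit 396) (nat_lit 208)) (XT.lf (nat_lit 0) (nat_lit 8100074338) (nat_lit 988) (nat_lit 20551362340) (nat_lit 76) (nat_lit 962785551) (nat_lit 378) (nat_lit 5) (nat_lit 391) (nat_lit 5) (nat_lit 379) (nat_lit 5) (nat_lit 417) (nat_lit 396) (nat_lit 207))) (XT.nd (nat_lit 78) (nat_lit 836) (nat_lit 0) (XT.lf (nat_lit 0) (nat_lit 2995930058) (nat_lit 836) (nat_lit 9675541341) (nat_lit 912) (nat_lit 17432277004) (nat_lit 367) (nat_lit 5) (nat_lit 378) (nat_lit 5) (nat_lit 379) (nat_lit 5) (nat_lit 418) (nat_lit 396) (nat_lit 206)) (XT.nd (nat_lit 78) (nat_lit 836) (nat_lit 0) (XT.lf (nat_lit 0) (nat_lit 17579476882) (nat_lit 912) (nat_lit 3143975516) (nat_lit 76) (nat_lit 9880519580) (nat_lit 367) (nat_lit 5) (nat_lit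 379) (nat_lit 5) (nat_lit 368) (nat_lit 5) (nat_lit 419) (nat_lit 396) (nat_lit 205)) (XT.lf (nat_lit 0) (nat_lit 21754784745) (nat_lit 836) (nat_lit 1081230200) (nat_lit 912) (nat_lit 8279162387) (nat_lit 356) (nat_lit 5) (nat_lit 367) (nat_lit 5) (nat_lit 368) (nat_lit 5) (nat_lit 420) (nat_lit 396) (nat_lit 204))))) (XT.nd (nat_lit 234) (nat_lit 0) (nat_lit 0) (XT.nd (nat_lit 78) (nat_lit 1596) (nat_lit 0) (XT.lf (nat_lit 0) (nat_lit 15881432492) (nat_lit 760) (nat_lit 12613158928) (nat_lit 836) (nat_lit 3142241475) (nat_lit 346) (nat_lit 5) (nat_lit 356) (nat_lit 5) (nat_lit 357) (nat_lit 5) (nat_lit 421) (nat_lit 396) (nat_lit 203)) (XT.nd (nat_lit 78) (nat_lit 760) (nat_lit 0) (XT.lf (nat_lit 0) (nat_lit 2301658650) (nat_lit 836) (nat_lit 22281236574) (nat_lit 76) (nat_lit 7587343656) (nat_lit 335) (nat_lit 5) (nat_lit 346) (nat_lit 5) (nat_lit 336) (nat_lit 5) (nat_lit 422) (nat_lit 396) (nat_lit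 202)) (XT.lf (nat_lit 0) (nat_lit 3739231872) (nat_lit 760) (nat_lit 4338914793) (nat_lit 836) (nat_lit 24636846569) (nat_lit 325) (nat_lit 5) (nat_lit 335) (nat_lit 5) (nat_lit 336) (nat_lit 5) (nat_lit 423) (nat_lit 396) (nat_lit 201)))) (XT.nd (nat_lit 51012) (nat_lit 0) (nat_lit 9272) (XT.lf (nat_lit 0) (nat_lit 14282839844) (nat_lit 836) (nat_lit 2540612125) (nat_lit 76) (nat_lit 16447540839) (nat_lit 325) (nat_lit 5) (nat_lit 336) (nat_lit 5) (nat_lit 326) (nat_lit 5) (nat_lit 424) (nat_lit 396) (nat_lit 200)) (XT.nd (nat_lit 78) (nat_lit 0) (nat_lit 0) (XT.lf (nat_lit 0) (nat_lit 3601977314) (nat_lit 0) (nat_lit 3601977314) (nat_lit 1748) (nat_lit 3807951623) (nat_lit 447) (nat_lit 5) (nat_lit 447) (nat_lit 3) (nat_lit 470) (nat_lit 3) (nat_lit 397) (nat_lit 397) (nat_lit 226)) (XT.lf (nat_lit 76) (nat_lit 1194169265) (nat_lit 0) (nat_lit 13695563706) (nat_lit 1824) (nat_lit 7459078338) (nat_lit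 448) (nat_lit 5) (nat_lit 447) (nat_lit 5) (nat_lit 471) (nat_lit 5) (nat_lit 398) (nat_lit 397) (nat_lit 225)))))) (XT.nd (nat_lit 390) (nat_lit 1520) (nat_lit 0) (XT.nd (nat_lit 156) (nat_lit 0) (nat_lit 76) (XT.nd (nat_lit 78) (nat_lit 0) (nat_lit 0) (XT.lf (nat_lit 0) (nat_lit 15541456998) (nat_lit 1748) (nat_lit 4857269388) (nat_lit 1824) (nat_lit 2281726511) (nat_lit 448) (nat_lit 5) (nat_lit 471) (nat_lit 5) (nat_lit 472) (nat_lit 5) (nat_lit 399) (nat_lit 397) (nat_lit 224)) (XT.lf (nat_lit 76) (nat_lit 11990474883) (nat_lit 0) (nat_lit 4384099241) (nat_lit 1824) (nat_lit 6644234457) (nat_lit 449) (nat_lit 5) (nat_lit 448) (nat_lit 5) (nat_lit 472) (nat_lit 5) (nat_lit 400) (nat_lit 397) (nat_lit 223))) (XT.nd (nat_lit 78) (nat_lit 0) (nat_lit 76) (XT.lf (nat_lit 76) (nat_lit 6039520033) (nat_lit 0) (nat_lit 11336760506) (nat_lit 1824) (nat_lit 5988164112) (nat_lit 450) (nat_lit 5) (nat_lit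 449) (nat_lit 5) (nat_lit 473) (nat_lit 5) (nat_lit 401) (nat_lit 397) (nat_lit 222)) (XT.nd (nat_lit 78) (nat_lit 0) (nat_lit 0) (XT.lf (nat_lit 0) (nat_lit 18538668667) (nat_lit 1748) (nat_lit 16077686) (nat_lit 1824) (nat_lit 5163092419) (nat_lit 450) (nat_lit 5) (nat_lit 473) (nat_lit 5) (nat_lit 474) (nat_lit 5) (nat_lit 402) (nat_lit 397) (nat_lit 221)) (XT.lf (nat_lit 76) (nat_lit 17967582051) (nat_lit 0) (nat_lit 1953851689) (nat_lit 1824) (nat_lit 4156692408) (nat_lit 451) (nat_lit 5) (nat_lit 450) (nat_lit 5) (nat_lit 474) (nat_lit 5) (nat_lit 403) (nat_lit 397) (nat_lit 220))))) (XT.nd (nat_lit 234) (nat_lit 0) (nat_lit 76) (XT.nd (nat_lit 78) (nat_lit 1748) (nat_lit 0) (XT.lf (nat_lit 76) (nat_lit 12097711599) (nat_lit 0) (nat_lit 9418184166) (nat_lit 1824) (nat_lit 2929923590) (nat_lit 452) (nat_lit 5) (nat_lit 451) (nat_lit 5) (nat_lit 475) (nat_lit 5) (nat_lit 404) (nat_lit 397) (nat_lit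 219)) (XT.nd (nat_lit 78) (nat_lit 1824) (nat_lit 0) (XT.lf (nat_lit 76) (nat_lit 6124984346) (nat_lit 0) (nat_lit 17170831195) (nat_lit 1824) (nat_lit 1525976786) (nat_lit 453) (nat_lit 5) (nat_lit 452) (nat_lit 5) (nat_lit 476) (nat_lit 5) (nat_lit 405) (nat_lit 397) (nat_lit 218)) (XT.lf (nat_lit 76) (nat_lit 47055377) (nat_lit 0) (nat_lit 15129029) (nat_lit 1900) (nat_lit 25144050879) (nat_lit 429) (nat_lit 5) (nat_lit 428) (nat_lit 5) (nat_lit 453) (nat_lit 5) (nat_lit 406) (nat_lit 397) (nat_lit 217)))) (XT.nd (nat_lit 78) (nat_lit 0) (nat_lit 76) (XT.lf (nat_lit 0) (nat_lit 1913243066) (nat_lit 1824) (nat_lit 6120723137) (nat_lit 1900) (nat_lit 17563325239) (nat_lit 429) (nat_lit 5) (nat_lit 453) (nat_lit 5) (nat_lit 454) (nat_lit 5) (nat_lit 407) (nat_lit 397) (nat_lit 216)) (XT.nd (nat_lit 78) (nat_lit 0) (nat_lit 76) (XT.lf (nat_lit 0) (nat_lit 3965908807) (nat_lit 1824) (nat_lit 12398214792)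 (nat_lit 1900) (nat_lit 9633035476) (nat_lit 430) (nat_lit 5) (nat_lit 454) (nat_lit 5) (nat_lit 455) (nat_lit 5) (nat_lit 408) (nat_lit 397) (nat_lit 215)) (XT.lf (nat_lit 0) (nat_lit 6228342920) (nat_lit 1824) (nat_lit 18788022337) (nat_lit 1900) (nat_lit 1389694971) (nat_lit 431) (nat_lit 5) (nat_lit 455) (nat_lit 5) (nat_lit 456) (nat_lit 5) (nat_lit 409) (nat_lit 397) (nat_lit 214))))))))
noncomputable def xc122 : XT := (XT.nd (nat_lit 52728) (nat_lit 0) (nat_lit 760) (XT.nd (nat_lit 858) (nat_lit 3192) (nat_lit 0) (XT.nd (nat_lit 390) (nat_lit 3648) (nat_lit 0) (XT.nd (nat_lit 156) (nat_lit 1216) (nat_lit 0) (XT.nd (nat_lit 78) (nat_lit 0) (nat_lit 76) (XT.lf (nat_lit 76) (nat_lit 1483896165) (nat_lit 0) (nat_lit 7272593680) (nat_lit 1900) (nat_lit 18066783001) (nat_lit 432) (nat_lit 5) (nat_lit 431) (nat_lit 5) (nat_lit 456) (nat_lit 5) (nat_lit 410) (nat_lit 397) (nat_lit 213)) (XT.lf (nat_lit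 0) (nat_lit 11554428447) (nat_lit 1824) (nat_lit 4706157701) (nat_lit 1900) (nat_lit 10988537936) (nat_lit 432) (nat_lit 5) (nat_lit 456) (nat_lit 5) (nat_lit 457) (nat_lit 5) (nat_lit 411) (nat_lit 397) (nat_lit 212))) (XT.nd (nat_lit 78) (nat_lit 1368) (nat_lit 0) (XT.lf (nat_lit 0) (nat_lit 14601751819) (nat_lit 1824) (nat_lit 10986334532) (nat_lit 1900) (nat_lit 2096356731) (nat_lit 433) (nat_lit 5) (nat_lit 457) (nat_lit 5) (nat_lit 458) (nat_lit 5) (nat_lit 412) (nat_lit 397) (nat_lit 211)) (XT.nd (nat_lit 78) (nat_lit 1368) (nat_lit 0) (XT.lf (nat_lit 76) (nat_lit 10703692883) (nat_lit 0) (nat_lit 7241792026) (nat_lit 1900) (nat_lit 10183238060) (nat_lit 434) (nat_lit 5) (nat_lit 433) (nat_lit 5) (nat_lit 458) (nat_lit 5) (nat_lit 413) (nat_lit 397) (nat_lit 210)) (XT.lf (nat_lit 0) (nat_lit 4589478105) (nat_lit 1444) (nat_lit 16975244754) (nat_lit 1520) (nat_lit 7018105624) (nat_lit 415) (nat_lit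 5) (nat_lit 434) (nat_lit 5) (nat_lit 435) (nat_lit 5) (nat_lit 414) (nat_lit 397) (nat_lit 209))))) (XT.nd (nat_lit 234) (nat_lit 1748) (nat_lit 0) (XT.nd (nat_lit 78) (nat_lit 1900) (nat_lit 0) (XT.lf (nat_lit 0) (nat_lit 25466590805) (nat_lit 1520) (nat_lit 1610866628) (nat_lit 76) (nat_lit 1969619728) (nat_lit 415) (nat_lit 5) (nat_lit 435) (nat_lit 5) (nat_lit 416) (nat_lit 5) (nat_lit 415) (nat_lit 397) (nat_lit 208)) (XT.nd (nat_lit 78) (nat_lit 912) (nat_lit 0) (XT.lf (nat_lit 0) (nat_lit 211307268) (nat_lit 988) (nat_lit 7913108695) (nat_lit 76) (nat_lit 21395833009) (nat_lit 402) (nat_lit 5) (nat_lit 415) (nat_lit 5) (nat_lit 403) (nat_lit 5) (nat_lit 416) (nat_lit 397) (nat_lit 207)) (XT.lf (nat_lit 0) (nat_lit 4251551369) (nat_lit 988) (nat_lit 14365874577) (nat_lit 76) (nat_lit 11386050798) (nat_lit 390) (nat_lit 5) (nat_lit 403) (nat_lit 5) (nat_lit 391) (nat_lit 5) (nat_lit 417) (nat_lit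 397) (nat_lit 206)))) (XT.nd (nat_lit 78) (nat_lit 836) (nat_lit 0) (XT.lf (nat_lit 0) (nat_lit 8585132571) (nat_lit 988) (nat_lit 20934915019) (nat_lit 76) (nat_lit 977712111) (nat_lit 378) (nat_lit 5) (nat_lit 391) (nat_lit 5) (nat_lit 379) (nat_lit 5) (nat_lit 418) (nat_lit 397) (nat_lit 205)) (XT.nd (nat_lit 78) (nat_lit 0) (nat_lit 0) (XT.lf (nat_lit 0) (nat_lit 3315016195) (nat_lit 836) (nat_lit 9973093346) (nat_lit 912) (nat_lit 17713974759) (nat_lit 367) (nat_lit 5) (nat_lit 378) (nat_lit 5) (nat_lit 379) (nat_lit 5) (nat_lit 419) (nat_lit 397) (nat_lit 204)) (XT.lf (nat_lit 0) (nat_lit 18336421087) (nat_lit 912) (nat_lit 3011079155) (nat_lit 76) (nat_lit 10169954381) (nat_lit 367) (nat_lit 5) (nat_lit 379) (nat_lit 5) (nat_lit 368) (nat_lit 5) (nat_lit 420) (nat_lit 397) (nat_lit 203)))))) (XT.nd (nat_lit 51402) (nat_lit 0) (nat_lit 9272) (XT.nd (nat_lit 156) (nat_lit 1596) (nat_lit 0) (XT.nd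 (nat_lit 78) (nat_lit 760) (nat_lit 0) (XT.lf (nat_lit 0) (nat_lit 22630957610) (nat_lit 836) (nat_lit 1114462772) (nat_lit 912) (nat_lit 8298681775) (nat_lit 356) (nat_lit 5) (nat_lit 367) (nat_lit 5) (nat_lit 368) (nat_lit 5) (nat_lit 421) (nat_lit 397) (nat_lit 202)) (XT.lf (nat_lit 0) (nat_lit 16582240367) (nat_lit 760) (nat_lit 12986431756) (nat_lit 836) (nat_lit 3012838184) (nat_lit 346) (nat_lit 5) (nat_lit 356) (nat_lit 5) (nat_lit 357) (nat_lit 5) (nat_lit 422) (nat_lit 397) (nat_lit 201))) (XT.nd (nat_lit 78) (nat_lit 760) (nat_lit 0) (XT.lf (nat_lit 0) (nat_lit 2586519568) (nat_lit 836) (nat_lit 22721717124) (nat_lit 76) (nat_lit 7822752474) (nat_lit 335) (nat_lit 5) (nat_lit 346) (nat_lit 5) (nat_lit 336) (nat_lit 5) (nat_lit 423) (nat_lit 397) (nat_lit 200)) (XT.nd (nat_lit 51090) (nat_lit 0) (nat_lit 9272) (XT.lf (nat_lit 0) (nat_lit 4075667051) (nat_lit 760) (nat_lit 4455805443) (nat_lit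 836) (nat_lit 25160711435) (nat_lit 325) (nat_lit 5) (nat_lit 335) (nat_lit 5) (nat_lit 336) (nat_lit 5) (nat_lit 424) (nat_lit 397) (nat_lit 199)) (XT.lf (nat_lit 0) (nat_lit 3809606955) (nat_lit 0) (nat_lit 3809606955) (nat_lit 1748) (nat_lit 3719022861) (nat_lit 447) (nat_lit 5) (nat_lit 447) (nat_lit 3) (nat_lit 470) (nat_lit 3) (nat_lit 398) (nat_lit 398) (nat_lit 224))))) (XT.nd (nat_lit 234) (nat_lit 0) (nat_lit 152) (XT.nd (nat_lit 78) (nat_lit 0) (nat_lit 76) (XT.lf (nat_lit 76) (nat_lit 1435098820) (nat_lit 0) (nat_lit 14288083383) (nat_lit 1824) (nat_lit 7288273149) (nat_lit 448) (nat_lit 5) (nat_lit 447) (nat_lit 5) (nat_lit 471) (nat_lit 5) (nat_lit 399) (nat_lit 398) (nat_lit 223)) (XT.nd (nat_lit 78) (nat_lit 0) (nat_lit 0) (XT.lf (nat_lit 0) (nat_lit 16382048117) (nat_lit 1748) (nat_lit 4795119330) (nat_lit 1824) (nat_lit 2176129416) (nat_lit 448) (nat_lit 5) (nat_lit 471) (nat_lit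 5) (nat_lit 472) (nat_lit 5) (nat_lit 400) (nat_lit 398) (nat_lit 222)) (XT.lf (nat_lit 76) (nat_lit 12554684856) (nat_lit 0) (nat_lit 4675898301) (nat_lit 1824) (nat_lit 6471413982) (nat_lit 449) (nat_lit 5) (nat_lit 448) (nat_lit 5) (nat_lit 472) (nat_lit 5) (nat_lit 401) (nat_lit 398) (nat_lit 221)))) (XT.nd (nat_lit 78) (nat_lit 0) (nat_lit 76) (XT.lf (nat_lit 76) (nat_lit 6430163434) (nat_lit 0) (nat_lit 11821902537) (nat_lit 1824) (nat_lit 5806144152) (nat_lit 450) (nat_lit 5) (nat_lit 449) (nat_lit 5) (nat_lit 473) (nat_lit 5) (nat_lit 402) (nat_lit 398) (nat_lit 220)) (XT.nd (nat_lit 78) (nat_lit 0) (nat_lit 0) (XT.lf (nat_lit 76) (nat_lit 197257494) (nat_lit 0) (nat_lit 19242109557) (nat_lit 1824) (nat_lit 4983040462) (nat_lit 451) (nat_lit 5) (nat_lit 450) (nat_lit 5) (nat_lit 474) (nat_lit 5) (nat_lit 403) (nat_lit 398) (nat_lit 219)) (XT.lf (nat_lit 76) (nat_lit 18714412995) (nat_lit 0)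 (nat_lit 2139272760) (nat_lit 1824) (nat_lit 3940018545) (nat_lit 451) (nat_lit 5) (nat_lit 450) (nat_lit 5) (nat_lit 474) (nat_lit 5) (nat_lit 404) (nat_lit 398) (nat_lit 218))))))) (XT.nd (nat_lit 858) (nat_lit 6080) (nat_lit 0) (XT.nd (nat_lit 390) (nat_lit 988) (nat_lit 0) (XT.nd (nat_lit 156) (nat_lit 1748) (nat_lit 0) (XT.nd (nat_lit 78) (nat_lit 0) (nat_lit 76) (XT.lf (nat_lit 76) (nat_lit 12672540882) (nat_lit 0) (nat_lit 9814271322) (nat_lit 1824) (nat_lit 2685801627) (nat_lit 452) (nat_lit 5) (nat_lit 451) (nat_lit 5) (nat_lit 475) (nat_lit 5) (nat_lit 405) (nat_lit 398) (nat_lit 217)) (XT.lf (nat_lit 76) (nat_lit 6524392597) (nat_lit 0) (nat_lit 17786942637) (nat_lit 1824) (nat_lit 1248708722) (nat_lit 453) (nat_lit 5) (nat_lit 452) (nat_lit 5) (nat_lit 476) (nat_lit 5) (nat_lit 406) (nat_lit 398) (nat_lit 216))) (XT.nd (nat_lit 78) (nat_lit 0) (nat_lit 76) (XT.lf (nat_lit 76) (nat_lit 264861816)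 (nat_lit 0) (nat_lit 110117899) (nat_lit 1900) (nat_lit 25581158131) (nat_lit 429) (nat_lit 5) (nat_lit 428) (nat_lit 5) (nat_lit 453) (nat_lit 5) (nat_lit 407) (nat_lit 398) (nat_lit 215)) (XT.nd (nat_lit 78) (nat_lit 0) (nat_lit 76) (XT.lf (nat_lit 0) (nat_lit 2271918021) (nat_lit 1824) (nat_lit 6087555453) (nat_lit 1900) (nat_lit 17999647175) (nat_lit 429) (nat_lit 5) (nat_lit 453) (nat_lit 5) (nat_lit 454) (nat_lit 5) (nat_lit 408) (nat_lit 398) (nat_lit 214)) (XT.lf (nat_lit 0) (nat_lit 4378249955) (nat_lit 1824) (nat_lit 12550425736) (nat_lit 1900) (nat_lit 9842468759) (nat_lit 430) (nat_lit 5) (nat_lit 454) (nat_lit 5) (nat_lit 455) (nat_lit 5) (nat_lit 409) (nat_lit 398) (nat_lit 213))))) (XT.nd (nat_lit 234) (nat_lit 1216) (nat_lit 0) (XT.nd (nat_lit 78) (nat_lit 0) (nat_lit 0) (XT.lf (nat_lit 0) (nat_lit 6700961210) (nat_lit 1824) (nat_lit 19129252863) (nat_lit 1900) (nat_lit 1362252293)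 (nat_lit 431) (nat_lit 5) (nat_lit 455) (nat_lit 5) (nat_lit 456) (nat_lit 5) (nat_lit 410) (nat_lit 398) (nat_lit 212)) (XT.nd (nat_lit 78) (nat_lit 0) (nat_lit 76) (XT.lf (nat_lit 76) (nat_lit 1747214854) (nat_lit 0) (nat_lit 7550834955) (nat_lit 1900) (nat_lit 18324285364) (nat_lit 432) (nat_lit 5) (nat_lit 431) (nat_lit 5) (nat_lit 456) (nat_lit 5) (nat_lit 411) (nat_lit 398) (nat_lit 211)) (XT.lf (nat_lit 0) (nat_lit 12171425666) (nat_lit 1824) (nat_lit 4629063176) (nat_lit 1900) (nat_lit 11260644830) (nat_lit 432) (nat_lit 5) (nat_lit 456) (nat_lit 5) (nat_lit 457) (nat_lit 5) (nat_lit 412) (nat_lit 398) (nat_lit 210)))) (XT.nd (nat_lit 78) (nat_lit 1368) (nat_lit 0) (XT.lf (nat_lit 0) (nat_lit 15303369182) (nat_lit 1824) (nat_lit 11095534675) (nat_lit 1900) (nat_lit 2110746030) (nat_lit 433) (nat_lit 5) (nat_lit 457) (nat_lit 5) (nat_lit 458) (nat_lit 5) (nat_lit 413) (nat_lit 398) (nat_lit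 209)) (XT.nd (nat_lit 78) (nat_lit 1368) (nat_lit 0) (XT.lf (nat_lit 76) (nat_lit 11241617998) (nat_lit 0) (nat_lit 7499527324) (nat_lit 1900) (nat_lit 10226239834) (nat_lit 434) (nat_lit 5) (nat_lit 433) (nat_lit 5) (nat_lit 458) (nat_lit 5) (nat_lit 414) (nat_lit 398) (nat_lit 208)) (XT.lf (nat_lit 0) (nat_lit 4945832937) (nat_lit 1444) (nat_lit 17516797996) (nat_lit 1520) (nat_lit 6972611054) (nat_lit 415) (nat_lit 5) (nat_lit 434) (nat_lit 5) (nat_lit 435) (nat_lit 5) (nat_lit 415) (nat_lit 398) (nat_lit 207)))))) (XT.nd (nat_lit 390) (nat_lit 2432) (nat_lit 0) (XT.nd (nat_lit 156) (nat_lit 2660) (nat_lit 0) (XT.nd (nat_lit 78) (nat_lit 988) (nat_lit 0) (XT.lf (nat_lit 0) (nat_lit 26474041637) (nat_lit 1520) (nat_lit 1441763960) (nat_lit 76) (nat_lit 1997764307) (nat_lit 415) (nat_lit 5) (nat_lit 435) (nat_lit 5) (nat_lit 416) (nat_lit 5) (nat_lit 416) (nat_lit 398) (nat_lit 206)) (XT.lf (nat_lit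 0) (nat_lit 457020420) (nat_lit 988) (nat_lit 7933371582) (nat_lit 76) (nat_lit 22010628885) (nat_lit 402) (nat_lit 5) (nat_lit 415) (nat_lit 5) (nat_lit 403) (nat_lit 5) (nat_lit 417) (nat_lit 398) (nat_lit 205))) (XT.nd (nat_lit 78) (nat_lit 1748) (nat_lit 0) (XT.lf (nat_lit 0) (nat_lit 4612755641) (nat_lit 988) (nat_lit 14578389644) (nat_lit 76) (nat_lit 11707715932) (nat_lit 390) (nat_lit 5) (nat_lit 403) (nat_lit 5) (nat_lit 391) (nat_lit 5) (nat_lit 418) (nat_lit 398) (nat_lit 204)) (XT.nd (nat_lit 78) (nat_lit 836) (nat_lit 0) (XT.lf (nat_lit 0) (nat_lit 9070847546) (nat_lit 988) (nat_lit 21343348753) (nat_lit 76) (nat_lit 993887658) (nat_lit 378) (nat_lit 5) (nat_lit 391) (nat_lit 5) (nat_lit 379) (nat_lit 5) (nat_lit 419) (nat_lit 398) (nat_lit 203)) (XT.lf (nat_lit 0) (nat_lit 3630517426) (nat_lit 836) (nat_lit 10279153678) (nat_lit 912) (nat_lit 18017973364) (nat_lit 367) (nat_lit 5) (nat_lit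 378) (nat_lit 5) (nat_lit 379) (nat_lit 5) (nat_lit 420) (nat_lit 398) (nat_lit 202))))) (XT.nd (nat_lit 234) (nat_lit 836) (nat_lit 0) (XT.nd (nat_lit 78) (nat_lit 1596) (nat_lit 0) (XT.lf (nat_lit 0) (nat_lit 19102895941) (nat_lit 912) (nat_lit 2887239011) (nat_lit 76) (nat_lit 10468472952) (nat_lit 367) (nat_lit 5) (nat_lit 379) (nat_lit 5) (nat_lit 368) (nat_lit 5) (nat_lit 421) (nat_lit 398) (nat_lit 201)) (XT.nd (nat_lit 78) (nat_lit 760) (nat_lit 0) (XT.lf (nat_lit 0) (nat_lit 23520584163) (nat_lit 836) (nat_lit 1148646647) (nat_lit 912) (nat_lit 8331923985) (nat_lit 356) (nat_lit 5) (nat_lit 367) (nat_lit 5) (nat_lit 368) (nat_lit 5) (nat_lit 422) (nat_lit 398) (nat_lit 200)) (XT.lf (nat_lit 0) (nat_lit 17291193016) (nat_lit 760) (nat_lit 13371196790) (nat_lit 836) (nat_lit 2892392398) (nat_lit 346) (nat_lit 5) (nat_lit 356) (nat_lit 5) (nat_lit 357) (nat_lit 5) (nat_lit 423) (nat_lit 398)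 (nat_lit 199)))) (XT.nd (nat_lit 51168) (nat_lit 0) (nat_lit 8512) (XT.lf (nat_lit 0) (nat_lit 2867537870) (nat_lit 836) (nat_lit 23188497729) (nat_lit 76) (nat_lit 8064776465) (nat_lit 335) (nat_lit 5) (nat_lit 346) (nat_lit 5) (nat_lit 336) (nat_lit 5) (nat_lit 424) (nat_lit 398) (nat_lit 198)) (XT.nd (nat_lit 78) (nat_lit 0) (nat_lit 0) (XT.lf (nat_lit 0) (nat_lit 4017749742) (nat_lit 0) (nat_lit 4017749742) (nat_lit 1748) (nat_lit 3639088871) (nat_lit 447) (nat_lit 5) (nat_lit 447) (nat_lit 3) (nat_lit 470) (nat_lit 3) (nat_lit 399) (nat_lit 399) (nat_lit 222)) (XT.lf (nat_lit 76) (nat_lit 1671482426) (nat_lit 0) (nat_lit 14887951037) (nat_lit 1824) (nat_lit 7134994169) (nat_lit 448) (nat_lit 5) (nat_lit 447) (nat_lit 5) (nat_lit 471) (nat_lit 5) (nat_lit 400) (nat_lit 399) (nat_lit 221))))))))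
noncomputable def xc123 : XT := (XT.nd (nat_lit 1716) (nat_lit 836) (nat_lit 0) (XT.nd (nat_lit 858) (nat_lit 4636) (nat_lit 0) (XT.nd (nat_lit 390) (nat_lit 1520) (nat_lit 0) (XT.nd (nat_lit 156) (nat_lit 0) (nat_lit 76) (XT.nd (nat_lit 78) (nat_lit 0) (nat_lit 0) (XT.lf (nat_lit 0) (nat_lit 17226367898) (nat_lit 1748) (nat_lit 4743037251) (nat_lit 1824) (nat_lit 2077355527) (nat_lit 448) (nat_lit 5) (nat_lit 471) (nat_lit 5) (nat_lit 472) (nat_lit 5) (nat_lit 401) (nat_lit 399) (nat_lit 220)) (XT.lf (nat_lit 76) (nat_lit 13124082237) (nat_lit 0) (nat_lit 4967250830) (nat_lit 1824) (nat_lit 6314771681) (nat_lit 449) (nat_lit 5) (nat_lit 448) (nat_lit 5) (nat_lit 472) (nat_lit 5) (nat_lit 402) (nat_lit 399) (nat_lit 219))) (XT.nd (nat_lit 78) (nat_lit 0) (nat_lit 76) (XT.lf (nat_lit 76) (nat_lit 6820502403) (nat_lit 0) (nat_lit 12313272986) (nat_lit 1824) (nat_lit 5639424636) (nat_lit 450) (nat_lit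 5) (nat_lit 449) (nat_lit 5) (nat_lit 473) (nat_lit 5) (nat_lit 403) (nat_lit 399) (nat_lit 218)) (XT.nd (nat_lit 78) (nat_lit 0) (nat_lit 0) (XT.lf (nat_lit 76) (nat_lit 404926172) (nat_lit 0) (nat_lit 19942484999) (nat_lit 1824) (nat_lit 4801099991) (nat_lit 451) (nat_lit 5) (nat_lit 450) (nat_lit 5) (nat_lit 474) (nat_lit 5) (nat_lit 404) (nat_lit 399) (nat_lit 217)) (XT.lf (nat_lit 76) (nat_lit 19471720096) (nat_lit 0) (nat_lit 2322977307) (nat_lit 1824) (nat_lit 3736440766) (nat_lit 451) (nat_lit 5) (nat_lit 450) (nat_lit 5) (nat_lit 474) (nat_lit 5) (nat_lit 405) (nat_lit 399) (nat_lit 216))))) (XT.nd (nat_lit 234) (nat_lit 0) (nat_lit 76) (XT.nd (nat_lit 78) (nat_lit 1748) (nat_lit 0) (XT.lf (nat_lit 76) (nat_lit 13252451234) (nat_lit 0) (nat_lit 10215723338) (nat_lit 1824) (nat_lit 2453415293) (nat_lit 452) (nat_lit 5) (nat_lit 451) (nat_lit 5) (nat_lit 475) (nat_lit 5) (nat_lit 406) (nat_lit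 399) (nat_lit 215)) (XT.nd (nat_lit 78) (nat_lit 1824) (nat_lit 0) (XT.lf (nat_lit 76) (nat_lit 6923403402) (nat_lit 0) (nat_lit 18415740383) (nat_lit 1824) (nat_lit 981666857) (nat_lit 453) (nat_lit 5) (nat_lit 452) (nat_lit 5) (nat_lit 476) (nat_lit 5) (nat_lit 407) (nat_lit 399) (nat_lit 214)) (XT.lf (nat_lit 76) (nat_lit 476780504) (nat_lit 0) (nat_lit 202529740) (nat_lit 1900) (nat_lit 26049587997) (nat_lit 429) (nat_lit 5) (nat_lit 428) (nat_lit 5) (nat_lit 453) (nat_lit 5) (nat_lit 408) (nat_lit 399) (nat_lit 213)))) (XT.nd (nat_lit 78) (nat_lit 0) (nat_lit 76) (XT.lf (nat_lit 0) (nat_lit 2624058655) (nat_lit 1824) (nat_lit 6065837335) (nat_lit 1900) (nat_lit 18454258307) (nat_lit 429) (nat_lit 5) (nat_lit 453) (nat_lit 5) (nat_lit 454) (nat_lit 5) (nat_lit 409) (nat_lit 399) (nat_lit 212)) (XT.nd (nat_lit 78) (nat_lit 0) (nat_lit 76) (XT.lf (nat_lit 0) (nat_lit 4786121051) (nat_lit 1824) (nat_lit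 12719816725) (nat_lit 1900) (nat_lit 10062751982) (nat_lit 430) (nat_lit 5) (nat_lit 454) (nat_lit 5) (nat_lit 455) (nat_lit 5) (nat_lit 410) (nat_lit 399) (nat_lit 211)) (XT.lf (nat_lit 0) (nat_lit 7171353796) (nat_lit 1824) (nat_lit 19493487557) (nat_lit 1900) (nat_lit 1337954881) (nat_lit 431) (nat_lit 5) (nat_lit 455) (nat_lit 5) (nat_lit 456) (nat_lit 5) (nat_lit 411) (nat_lit 399) (nat_lit 210)))))) (XT.nd (nat_lit 390) (nat_lit 3648) (nat_lit 0) (XT.nd (nat_lit 156) (nat_lit 1216) (nat_lit 0) (XT.nd (nat_lit 78) (nat_lit 0) (nat_lit 76) (XT.lf (nat_lit 76) (nat_lit 2005872985) (nat_lit 0) (nat_lit 7833975580) (nat_lit 1900) (nat_lit 18605844327) (nat_lit 432) (nat_lit 5) (nat_lit 431) (nat_lit 5) (nat_lit 456) (nat_lit 5) (nat_lit 412) (nat_lit 399) (nat_lit 209)) (XT.lf (nat_lit 0) (nat_lit 12791412782) (nat_lit 1824) (nat_lit 4562185937) (nat_lit 1900) (nat_lit 11544218493) (nat_lit 432) (nat_lit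 5) (nat_lit 456) (nat_lit 5) (nat_lit 457) (nat_lit 5) (nat_lit 413) (nat_lit 399) (nat_lit 208))) (XT.nd (nat_lit 78) (nat_lit 1368) (nat_lit 0) (XT.lf (nat_lit 0) (nat_lit 16010905368) (nat_lit 1824) (nat_lit 11220662104) (nat_lit 1900) (nat_lit 2128351186) (nat_lit 433) (nat_lit 5) (nat_lit 457) (nat_lit 5) (nat_lit 458) (nat_lit 5) (nat_lit 414) (nat_lit 399) (nat_lit 207)) (XT.nd (nat_lit 78) (nat_lit 1368) (nat_lit 0) (XT.lf (nat_lit 76) (nat_lit 11783234837) (nat_lit 0) (nat_lit 7762670876) (nat_lit 1900) (nat_lit 10285599970) (nat_lit 434) (nat_lit 5) (nat_lit 433) (nat_lit 5) (nat_lit 458) (nat_lit 5) (nat_lit 415) (nat_lit 399) (nat_lit 206)) (XT.lf (nat_lit 0) (nat_lit 5300325833) (nat_lit 1444) (nat_lit 18072743919) (nat_lit 1520) (nat_lit 6940449260) (nat_lit 415) (nat_lit 5) (nat_lit 434) (nat_lit 5) (nat_lit 435) (nat_lit 5) (nat_lit 416) (nat_lit 399) (nat_lit 205))))) (XT.nd (nat_lit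 234) (nat_lit 1748) (nat_lit 0) (XT.nd (nat_lit 78) (nat_lit 1900) (nat_lit 0) (XT.lf (nat_lit 0) (nat_lit 27497740790) (nat_lit 1520) (nat_lit 1280069508) (nat_lit 76) (nat_lit 2028529537) (nat_lit 415) (nat_lit 5) (nat_lit 435) (nat_lit 5) (nat_lit 416) (nat_lit 5) (nat_lit 417) (nat_lit 399) (nat_lit 204)) (XT.nd (nat_lit 78) (nat_lit 912) (nat_lit 0) (XT.lf (nat_lit 0) (nat_lit 696363923) (nat_lit 988) (nat_lit 7966706527) (nat_lit 76) (nat_lit 22645423090) (nat_lit 402) (nat_lit 5) (nat_lit 415) (nat_lit 5) (nat_lit 403) (nat_lit 5) (nat_lit 418) (nat_lit 399) (nat_lit 203)) (XT.lf (nat_lit 0) (nat_lit 4971383131) (nat_lit 988) (nat_lit 14809820727) (nat_lit 76) (nat_lit 12040174302) (nat_lit 390) (nat_lit 5) (nat_lit 403) (nat_lit 5) (nat_lit 391) (nat_lit 5) (nat_lit 419) (nat_lit 399) (nat_lit 202)))) (XT.nd (nat_lit 78) (nat_lit 836) (nat_lit 0) (XT.lf (nat_lit 0) (nat_lit 9558036595) (nat_lit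 988) (nat_lit 21776642225) (nat_lit 76) (nat_lit 1011303668) (nat_lit 378) (nat_lit 5) (nat_lit 391) (nat_lit 5) (nat_lit 379) (nat_lit 5) (nat_lit 420) (nat_lit 399) (nat_lit 201)) (XT.nd (nat_lit 78) (nat_lit 0) (nat_lit 0) (XT.lf (nat_lit 0) (nat_lit 3943081497) (nat_lit 836) (nat_lit 10594001595) (nat_lit 912) (nat_lit 18344146802) (nat_lit 367) (nat_lit 5) (nat_lit 378) (nat_lit 5) (nat_lit 379) (nat_lit 5) (nat_lit 421) (nat_lit 399) (nat_lit 200)) (XT.lf (nat_lit 0) (nat_lit 19879943816) (nat_lit 912) (nat_lit 2771978040) (nat_lit 76) (nat_lit 10776324802) (nat_lit 367) (nat_lit 5) (nat_lit 379) (nat_lit 5) (nat_lit 368) (nat_lit 5) (nat_lit 422) (nat_lit 399) (nat_lit 199))))))) (XT.nd (nat_lit 52104) (nat_lit 0) (nat_lit 2584) (XT.nd (nat_lit 51636) (nat_lit 0) (nat_lit 5472) (XT.nd (nat_lit 51402) (nat_lit 0) (nat_lit 6916) (XT.nd (nat_lit 51324) (nat_lit 0) (nat_lit 6916) (XT.lf (nat_lit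 0) (nat_lit 24424804595) (nat_lit 836) (nat_lit 1183812986) (nat_lit 912) (nat_lit 8378546571) (nat_lit 356) (nat_lit 5) (nat_lit 367) (nat_lit 5) (nat_lit 368) (nat_lit 5) (nat_lit 423) (nat_lit 399) (nat_lit 198)) (XT.lf (nat_lit 0) (nat_lit 4226749176) (nat_lit 0) (nat_lit 4226749176) (nat_lit 1748) (nat_lit 3567750014) (nat_lit 447) (nat_lit 5) (nat_lit 447) (nat_lit 3) (nat_lit 470) (nat_lit 3) (nat_lit 400) (nat_lit 400) (nat_lit 220))) (XT.nd (nat_lit 78) (nat_lit 0) (nat_lit 76) (XT.lf (nat_lit 76) (nat_lit 1903859570) (nat_lit 0) (nat_lit 15495985698) (nat_lit 1824) (nat_lit 6998466961) (nat_lit 448) (nat_lit 5) (nat_lit 447) (nat_lit 5) (nat_lit 471) (nat_lit 5) (nat_lit 401) (nat_lit 400) (nat_lit 219)) (XT.nd (nat_lit 78) (nat_lit 0) (nat_lit 0) (XT.lf (nat_lit 0) (nat_lit 18075761760) (nat_lit 1748) (nat_lit 4700640218) (nat_lit 1824) (nat_lit 1985036009) (nat_lit 448) (nat_lit 5) (nat_lit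 471) (nat_lit 5) (nat_lit 472) (nat_lit 5) (nat_lit 402) (nat_lit 400) (nat_lit 218)) (XT.lf (nat_lit 76) (nat_lit 13699496509) (nat_lit 0) (nat_lit 5258671578) (nat_lit 1824) (nat_lit 6173566590) (nat_lit 449) (nat_lit 5) (nat_lit 448) (nat_lit 5) (nat_lit 472) (nat_lit 5) (nat_lit 403) (nat_lit 400) (nat_lit 217))))) (XT.nd (nat_lit 234) (nat_lit 1596) (nat_lit 0) (XT.nd (nat_lit 78) (nat_lit 0) (nat_lit 76) (XT.lf (nat_lit 76) (nat_lit 7211218018) (nat_lit 0) (nat_lit 12811536640) (nat_lit 1824) (nat_lit 5487272811) (nat_lit 450) (nat_lit 5) (nat_lit 449) (nat_lit 5) (nat_lit 473) (nat_lit 5) (nat_lit 404) (nat_lit 400) (nat_lit 216)) (XT.nd (nat_lit 78) (nat_lit 0) (nat_lit 0) (XT.lf (nat_lit 76) (nat_lit 607243581) (nat_lit 0) (nat_lit 20656804564) (nat_lit 1824) (nat_lit 4632726840) (nat_lit 451) (nat_lit 5) (nat_lit 450) (nat_lit 5) (nat_lit 474) (nat_lit 5) (nat_lit 405) (nat_lit 400) (nat_lit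 215)) (XT.lf (nat_lit 76) (nat_lit 20240502402) (nat_lit 0) (nat_lit 2505331689) (nat_lit 1824) (nat_lit 3545227047) (nat_lit 451) (nat_lit 5) (nat_lit 450) (nat_lit 5) (nat_lit 474) (nat_lit 5) (nat_lit 406) (nat_lit 400) (nat_lit 214)))) (XT.nd (nat_lit 78) (nat_lit 1748) (nat_lit 0) (XT.lf (nat_lit 76) (nat_lit 13838293342) (nat_lit 0) (nat_lit 10623075306) (nat_lit 1824) (nat_lit 2232022576) (nat_lit 452) (nat_lit 5) (nat_lit 451) (nat_lit 5) (nat_lit 475) (nat_lit 5) (nat_lit 407) (nat_lit 400) (nat_lit 213)) (XT.nd (nat_lit 78) (nat_lit 1824) (nat_lit 0) (XT.lf (nat_lit 76) (nat_lit 7322715484) (nat_lit 0) (nat_lit 19057937797) (nat_lit 1824) (nat_lit 724093461) (nat_lit 453) (nat_lit 5) (nat_lit 452) (nat_lit 5) (nat_lit 476) (nat_lit 5) (nat_lit 408) (nat_lit 400) (nat_lit 212)) (XT.lf (nat_lit 76) (nat_lit 683347877) (nat_lit 0) (nat_lit 292598754) (nat_lit 1900) (nat_lit 26549234862) (nat_lit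 429) (nat_lit 5) (nat_lit 428) (nat_lit 5) (nat_lit 453) (nat_lit 5) (nat_lit 409) (nat_lit 400) (nat_lit 211)))))) (XT.nd (nat_lit 390) (nat_lit 2964) (nat_lit 0) (XT.nd (nat_lit 156) (nat_lit 0) (nat_lit 152) (XT.nd (nat_lit 78) (nat_lit 0) (nat_lit 76) (XT.lf (nat_lit 0) (nat_lit 2970461717) (nat_lit 1824) (nat_lit 6055197900) (nat_lit 1900) (nat_lit 18927408836) (nat_lit 429) (nat_lit 5) (nat_lit 453) (nat_lit 5) (nat_lit 454) (nat_lit 5) (nat_lit 410) (nat_lit 400) (nat_lit 210)) (XT.lf (nat_lit 0) (nat_lit 5190354694) (nat_lit 1824) (nat_lit 12906179082) (nat_lit 1900) (nat_lit 10293948484) (nat_lit 430) (nat_lit 5) (nat_lit 454) (nat_lit 5) (nat_lit 455) (nat_lit 5) (nat_lit 411) (nat_lit 400) (nat_lit 209))) (XT.nd (nat_lit 78) (nat_lit 0) (nat_lit 0) (XT.lf (nat_lit 0) (nat_lit 7640395578) (nat_lit 1824) (nat_lit 19880683651) (nat_lit 1900) (nat_lit 1316669284) (nat_lit 431) (nat_lit 5) (nat_lit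 455) (nat_lit 5) (nat_lit 456) (nat_lit 5) (nat_lit 412) (nat_lit 400) (nat_lit 208)) (XT.nd (nat_lit 78) (nat_lit 0) (nat_lit 76) (XT.lf (nat_lit 76) (nat_lit 2260451743) (nat_lit 0) (nat_lit 8122360458) (nat_lit 1900) (nat_lit 18911244090) (nat_lit 432) (nat_lit 5) (nat_lit 431) (nat_lit 5) (nat_lit 456) (nat_lit 5) (nat_lit 413) (nat_lit 400) (nat_lit 207)) (XT.lf (nat_lit 0) (nat_lit 13415370402) (nat_lit 1824) (nat_lit 4505113223) (nat_lit 1900) (nat_lit 11839413290) (nat_lit 432) (nat_lit 5) (nat_lit 456) (nat_lit 5) (nat_lit 457) (nat_lit 5) (nat_lit 414) (nat_lit 400) (nat_lit 206))))) (XT.nd (nat_lit 234) (nat_lit 1900) (nat_lit 0) (XT.nd (nat_lit 78) (nat_lit 1368) (nat_lit 0) (XT.lf (nat_lit 0) (nat_lit 16725406447) (nat_lit 1824) (nat_lit 11361468402) (nat_lit 1900) (nat_lit 2149108853) (nat_lit 433) (nat_lit 5) (nat_lit 457) (nat_lit 5) (nat_lit 458) (nat_lit 5) (nat_lit 415) (nat_lit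 400) (nat_lit 205)) (XT.nd (nat_lit 78) (nat_lit 1368) (nat_lit 0) (XT.lf (nat_lit 76) (nat_lit 12329368605) (nat_lit 0) (nat_lit 8031518323) (nat_lit 1900) (nat_lit 10360944235) (nat_lit 434) (nat_lit 5) (nat_lit 433) (nat_lit 5) (nat_lit 458) (nat_lit 5) (nat_lit 416) (nat_lit 400) (nat_lit 204)) (XT.lf (nat_lit 0) (nat_lit 5653621504) (nat_lit 1444) (nat_lit 18643620724) (nat_lit 1520) (nat_lit 6921176522) (nat_lit 415) (nat_lit 5) (nat_lit 434) (nat_lit 5) (nat_lit 435) (nat_lit 5) (nat_lit 417) (nat_lit 400) (nat_lit 203)))) (XT.nd (nat_lit 78) (nat_lit 1900) (nat_lit 0) (XT.lf (nat_lit 0) (nat_lit 28538977947) (nat_lit 1520) (nat_lit 1125289039) (nat_lit 76) (nat_lit 2061892069) (nat_lit 415) (nat_lit 5) (nat_lit 435) (nat_lit 5) (nat_lit 416) (nat_lit 5) (nat_lit 418) (nat_lit 400) (nat_lit 202)) (XT.nd (nat_lit 78) (nat_lit 912) (nat_lit 0) (XT.lf (nat_lit 0) (nat_lit 929935480) (nat_lit 988)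 (nat_lit 8012790198) (nat_lit 76) (nat_lit 23300726341) (nat_lit 402) (nat_lit 5) (nat_lit 415) (nat_lit 5) (nat_lit 403) (nat_lit 5) (nat_lit 419) (nat_lit 400) (nat_lit 201)) (XT.lf (nat_lit 0) (nat_lit 5328126493) (nat_lit 988) (nat_lit 15060015428) (nat_lit 76) (nat_lit 12383684077) (nat_lit 390) (nat_lit 5) (nat_lit 403) (nat_lit 5) (nat_lit 391) (nat_lit 5) (nat_lit 420) (nat_lit 400) (nat_lit 200))))))))
noncomputable def xc124 : XT := (XT.nd (nat_lit 53040) (nat_lit 0) (nat_lit 0) (XT.nd (nat_lit 52182) (nat_lit 0) (nat_lit 3648) (XT.nd (nat_lit 51714) (nat_lit 0) (nat_lit 6156) (XT.nd (nat_lit 156) (nat_lit 0) (nat_lit 0) (XT.nd (nat_lit 78) (nat_lit 836) (nat_lit 0) (XT.lf (nat_lit 0) (nat_lit 10047495784) (nat_lit 988) (nat_lit 22234817549) (nat_lit 76) (nat_lit 1029954005) (nat_lit 378) (nat_lit 5) (nat_lit 391) (nat_lit 5) (nat_lit 379) (nat_lit 5) (nat_lit 421) (nat_lit 400) (nat_lit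 199)) (XT.lf (nat_lit 0) (nat_lit 4253332230) (nat_lit 836) (nat_lit 10917923356) (nat_lit 912) (nat_lit 18692410914) (nat_lit 367) (nat_lit 5) (nat_lit 378) (nat_lit 5) (nat_lit 379) (nat_lit 5) (nat_lit 422) (nat_lit 400) (nat_lit 198))) (XT.nd (nat_lit 51402) (nat_lit 0) (nat_lit 6080) (XT.lf (nat_lit 0) (nat_lit 20668594931) (nat_lit 912) (nat_lit 2664847872) (nat_lit 76) (nat_lit 11093768247) (nat_lit 367) (nat_lit 5) (nat_lit 379) (nat_lit 5) (nat_lit 368) (nat_lit 5) (nat_lit 423) (nat_lit 400) (nat_lit 197)) (XT.nd (nat_lit 78) (nat_lit 0) (nat_lit 0) (XT.lf (nat_lit 0) (nat_lit 4436940228) (nat_lit 0) (nat_lit 4436940228) (nat_lit 1748) (nat_lit 3504633090) (nat_lit 447) (nat_lit 5) (nat_lit 447) (nat_lit 3) (nat_lit 470) (nat_lit 3) (nat_lit 401) (nat_lit 401) (nat_lit 218)) (XT.lf (nat_lit 76) (nat_lit 2132747128) (nat_lit 0) (nat_lit 16112996600) (nat_lit 1824) (nat_lit 6877968492) (nat_lit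 448) (nat_lit 5) (nat_lit 447) (nat_lit 5) (nat_lit 471) (nat_lit 5) (nat_lit 402) (nat_lit 401) (nat_lit 217))))) (XT.nd (nat_lit 234) (nat_lit 0) (nat_lit 152) (XT.nd (nat_lit 78) (nat_lit 0) (nat_lit 0) (XT.lf (nat_lit 0) (nat_lit 18931544675) (nat_lit 1748) (nat_lit 4667573130) (nat_lit 1824) (nat_lit 1898823884) (nat_lit 448) (nat_lit 5) (nat_lit 471) (nat_lit 5) (nat_lit 472) (nat_lit 5) (nat_lit 403) (nat_lit 401) (nat_lit 216)) (XT.nd (nat_lit 78) (nat_lit 0) (nat_lit 76) (XT.lf (nat_lit 76) (nat_lit 14281743356) (nat_lit 0) (nat_lit 5550660421) (nat_lit 1824) (nat_lit 6047105907) (nat_lit 449) (nat_lit 5) (nat_lit 448) (nat_lit 5) (nat_lit 472) (nat_lit 5) (nat_lit 404) (nat_lit 401) (nat_lit 215)) (XT.lf (nat_lit 76) (nat_lit 7602972170) (nat_lit 0) (nat_lit 13317350800) (nat_lit 1824) (nat_lit 5349002349) (nat_lit 450) (nat_lit 5) (nat_lit 449) (nat_lit 5) (nat_lit 473) (nat_lit 5) (nat_lit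 405) (nat_lit 401) (nat_lit 214)))) (XT.nd (nat_lit 78) (nat_lit 0) (nat_lit 0) (XT.lf (nat_lit 76) (nat_lit 804713997) (nat_lit 0) (nat_lit 21385892256) (nat_lit 1824) (nat_lit 4477235886) (nat_lit 451) (nat_lit 5) (nat_lit 450) (nat_lit 5) (nat_lit 474) (nat_lit 5) (nat_lit 406) (nat_lit 401) (nat_lit 213)) (XT.nd (nat_lit 78) (nat_lit 0) (nat_lit 76) (XT.lf (nat_lit 76) (nat_lit 21021749618) (nat_lit 0) (nat_lit 2686689267) (nat_lit 1824) (nat_lit 3365687976) (nat_lit 451) (nat_lit 5) (nat_lit 450) (nat_lit 5) (nat_lit 474) (nat_lit 5) (nat_lit 407) (nat_lit 401) (nat_lit 212)) (XT.lf (nat_lit 76) (nat_lit 14430903326) (nat_lit 0) (nat_lit 11036856894) (nat_lit 1824) (nat_lit 2020922006) (nat_lit 452) (nat_lit 5) (nat_lit 451) (nat_lit 5) (nat_lit 475) (nat_lit 5) (nat_lit 408) (nat_lit 401) (nat_lit 211)))))) (XT.nd (nat_lit 390) (nat_lit 988) (nat_lit 0) (XT.nd (nat_lit 156) (nat_lit 0) (nat_lit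 76) (XT.nd (nat_lit 78) (nat_lit 1824) (nat_lit 0) (XT.lf (nat_lit 76) (nat_lit 7723007732) (nat_lit 0) (nat_lit 19714250540) (nat_lit 1824) (nat_lit 475269181) (nat_lit 453) (nat_lit 5) (nat_lit 452) (nat_lit 5) (nat_lit 476) (nat_lit 5) (nat_lit 409) (nat_lit 401) (nat_lit 210)) (XT.lf (nat_lit 76) (nat_lit 885075533) (nat_lit 0) (nat_lit 380548290) (nat_lit 1900) (nat_lit 27080049946) (nat_lit 429) (nat_lit 5) (nat_lit 428) (nat_lit 5) (nat_lit 453) (nat_lit 5) (nat_lit 410) (nat_lit 401) (nat_lit 209))) (XT.nd (nat_lit 78) (nat_lit 0) (nat_lit 76) (XT.lf (nat_lit 0) (nat_lit 3311890868) (nat_lit 1824) (nat_lit 6055296145) (nat_lit 1900) (nat_lit 19419373602) (nat_lit 429) (nat_lit 5) (nat_lit 453) (nat_lit 5) (nat_lit 454) (nat_lit 5) (nat_lit 411) (nat_lit 401) (nat_lit 208)) (XT.nd (nat_lit 78) (nat_lit 0) (nat_lit 76) (XT.lf (nat_lit 0) (nat_lit 5591752970) (nat_lit 1824) (nat_lit 13109339432)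 (nat_lit 1900) (nat_lit 10536138549) (nat_lit 430) (nat_lit 5) (nat_lit 454) (nat_lit 5) (nat_lit 455) (nat_lit 5) (nat_lit 412) (nat_lit 401) (nat_lit 207)) (XT.lf (nat_lit 0) (nat_lit 8108933648) (nat_lit 1824) (nat_lit 20290839167) (nat_lit 1900) (nat_lit 1298271122) (nat_lit 431) (nat_lit 5) (nat_lit 455) (nat_lit 5) (nat_lit 456) (nat_lit 5) (nat_lit 413) (nat_lit 401) (nat_lit 206))))) (XT.nd (nat_lit 234) (nat_lit 1216) (nat_lit 0) (XT.nd (nat_lit 78) (nat_lit 0) (nat_lit 76) (XT.lf (nat_lit 76) (nat_lit 2511508362) (nat_lit 0) (nat_lit 8416333477) (nat_lit 1900) (nat_lit 19240316198) (nat_lit 432) (nat_lit 5) (nat_lit 431) (nat_lit 5) (nat_lit 456) (nat_lit 5) (nat_lit 414) (nat_lit 401) (nat_lit 205)) (XT.nd (nat_lit 78) (nat_lit 0) (nat_lit 76) (XT.lf (nat_lit 0) (nat_lit 14044257414) (nat_lit 1824) (nat_lit 4457461179) (nat_lit 1900) (nat_lit 12146399102) (nat_lit 432) (nat_lit 5) (nat_lit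 456) (nat_lit 5) (nat_lit 457) (nat_lit 5) (nat_lit 415) (nat_lit 401) (nat_lit 204)) (XT.lf (nat_lit 0) (nat_lit 17447900018) (nat_lit 1824) (nat_lit 11517739388) (nat_lit 1900) (nat_lit 2172962956) (nat_lit 433) (nat_lit 5) (nat_lit 457) (nat_lit 5) (nat_lit 458) (nat_lit 5) (nat_lit 416) (nat_lit 401) (nat_lit 203)))) (XT.nd (nat_lit 78) (nat_lit 1368) (nat_lit 0) (XT.lf (nat_lit 76) (nat_lit 12880828250) (nat_lit 0) (nat_lit 8306366523) (nat_lit 1900) (nat_lit 10451936824) (nat_lit 434) (nat_lit 5) (nat_lit 433) (nat_lit 5) (nat_lit 458) (nat_lit 5) (nat_lit 417) (nat_lit 401) (nat_lit 202)) (XT.nd (nat_lit 78) (nat_lit 0) (nat_lit 0) (XT.lf (nat_lit 0) (nat_lit 6006363241) (nat_lit 1444) (nat_lit 19229976653) (nat_lit 1520) (nat_lit 6914384243) (nat_lit 415) (nat_lit 5) (nat_lit 434) (nat_lit 5) (nat_lit 435) (nat_lit 5) (nat_lit 418) (nat_lit 401) (nat_lit 201)) (XT.lf (nat_lit 0) (nat_lit 29599035431)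 (nat_lit 1520) (nat_lit 976954625) (nat_lit 76) (nat_lit 2097833708) (nat_lit 415) (nat_lit 5) (nat_lit 435) (nat_lit 5) (nat_lit 416) (nat_lit 5) (nat_lit 419) (nat_lit 401) (nat_lit 200))))))) (XT.nd (nat_lit 52260) (nat_lit 0) (nat_lit 3648) (XT.nd (nat_lit 51792) (nat_lit 0) (nat_lit 6080) (XT.nd (nat_lit 156) (nat_lit 1748) (nat_lit 0) (XT.nd (nat_lit 78) (nat_lit 912) (nat_lit 0) (XT.lf (nat_lit 0) (nat_lit 1158305444) (nat_lit 988) (nat_lit 8071330634) (nat_lit 76) (nat_lit 23977069800) (nat_lit 402) (nat_lit 5) (nat_lit 415) (nat_lit 5) (nat_lit 403) (nat_lit 5) (nat_lit 420) (nat_lit 401) (nat_lit 199)) (XT.lf (nat_lit 0) (nat_lit 5683654958) (nat_lit 988) (nat_lit 15328858099) (nat_lit 76) (nat_lit 12738514936) (nat_lit 390) (nat_lit 5) (nat_lit 403) (nat_lit 5) (nat_lit 391) (nat_lit 5) (nat_lit 421) (nat_lit 401) (nat_lit 198))) (XT.nd (nat_lit 78) (nat_lit 836) (nat_lit 0) (XT.lf (nat_lit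 0) (nat_lit 10540001901) (nat_lit 988) (nat_lit 22717939045) (nat_lit 76) (nat_lit 1049834836) (nat_lit 378) (nat_lit 5) (nat_lit 391) (nat_lit 5) (nat_lit 379) (nat_lit 5) (nat_lit 422) (nat_lit 401) (nat_lit 197)) (XT.nd (nat_lit 51480) (nat_lit 0) (nat_lit 6080) (XT.lf (nat_lit 0) (nat_lit 4561871294) (nat_lit 836) (nat_lit 11251212506) (nat_lit 912) (nat_lit 19062722038) (nat_lit 367) (nat_lit 5) (nat_lit 378) (nat_lit 5) (nat_lit 379) (nat_lit 5) (nat_lit 423) (nat_lit 401) (nat_lit 196)) (XT.lf (nat_lit 0) (nat_lit 4648650167) (nat_lit 0) (nat_lit 4648650167) (nat_lit 1748) (nat_lit 3449389932) (nat_lit 447) (nat_lit 5) (nat_lit 447) (nat_lit 3) (nat_lit 470) (nat_lit 3) (nat_lit 402) (nat_lit 402) (nat_lit 216))))) (XT.nd (nat_lit 234) (nat_lit 0) (nat_lit 152) (XT.nd (nat_lit 78) (nat_lit 0) (nat_lit 76) (XT.lf (nat_lit 76) (nat_lit 2358640910) (nat_lit 0) (nat_lit 16739784868) (nat_lit 1824)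 (nat_lit 6772824394) (nat_lit 448) (nat_lit 5) (nat_lit 447) (nat_lit 5) (nat_lit 471) (nat_lit 5) (nat_lit 403) (nat_lit 402) (nat_lit 215)) (XT.nd (nat_lit 78) (nat_lit 0) (nat_lit 0) (XT.lf (nat_lit 0) (nat_lit 19795004317) (nat_lit 1748) (nat_lit 4643507294) (nat_lit 1824) (nat_lit 1818392800) (nat_lit 448) (nat_lit 5) (nat_lit 471) (nat_lit 5) (nat_lit 472) (nat_lit 5) (nat_lit 404) (nat_lit 402) (nat_lit 214)) (XT.lf (nat_lit 76) (nat_lit 14871626471) (nat_lit 0) (nat_lit 5843703653) (nat_lit 1824) (nat_lit 5934742404) (nat_lit 449) (nat_lit 5) (nat_lit 448) (nat_lit 5) (nat_lit 472) (nat_lit 5) (nat_lit 405) (nat_lit 402) (nat_lit 213)))) (XT.nd (nat_lit 78) (nat_lit 0) (nat_lit 76) (XT.lf (nat_lit 76) (nat_lit 7996409257) (nat_lit 0) (nat_lit 13831366621) (nat_lit 1824) (nat_lit 5223970820) (nat_lit 450) (nat_lit 5) (nat_lit 449) (nat_lit 5) (nat_lit 473) (nat_lit 5) (nat_lit 406) (nat_lit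 402) (nat_lit 212)) (XT.nd (nat_lit 78) (nat_lit 0) (nat_lit 0) (XT.lf (nat_lit 76) (nat_lit 997818664) (nat_lit 0) (nat_lit 22130573516) (nat_lit 1824) (nat_lit 4333984144) (nat_lit 451) (nat_lit 5) (nat_lit 450) (nat_lit 5) (nat_lit 474) (nat_lit 5) (nat_lit 407) (nat_lit 402) (nat_lit 211)) (XT.lf (nat_lit 76) (nat_lit 21816444094) (nat_lit 0) (nat_lit 2867391394) (nat_lit 1824) (nat_lit 3197174326) (nat_lit 451) (nat_lit 5) (nat_lit 450) (nat_lit 5) (nat_lit 474) (nat_lit 5) (nat_lit 408) (nat_lit 402) (nat_lit 210)))))) (XT.nd (nat_lit 390) (nat_lit 988) (nat_lit 0) (XT.nd (nat_lit 156) (nat_lit 1748) (nat_lit 0) (XT.nd (nat_lit 78) (nat_lit 0) (nat_lit 76) (XT.lf (nat_lit 76) (nat_lit 15031104612) (nat_lit 0) (nat_lit 11457593412) (nat_lit 1824) (nat_lit 1819450273) (nat_lit 452) (nat_lit 5) (nat_lit 451) (nat_lit 5) (nat_lit 475) (nat_lit 5) (nat_lit 409) (nat_lit 402) (nat_lit 209)) (XT.lf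 (nat_lit 76) (nat_lit 8124940949) (nat_lit 0) (nat_lit 20385397737) (nat_lit 1824) (nat_lit 234510681) (nat_lit 453) (nat_lit 5) (nat_lit 452) (nat_lit 5) (nat_lit 476) (nat_lit 5) (nat_lit 410) (nat_lit 402) (nat_lit 208))) (XT.nd (nat_lit 78) (nat_lit 0) (nat_lit 76) (XT.lf (nat_lit 76) (nat_lit 1082451836) (nat_lit 0) (nat_lit 466591540) (nat_lit 1900) (nat_lit 27642039567) (nat_lit 429) (nat_lit 5) (nat_lit 428) (nat_lit 5) (nat_lit 453) (nat_lit 5) (nat_lit 411) (nat_lit 402) (nat_lit 207)) (XT.nd (nat_lit 78) (nat_lit 0) (nat_lit 76) (XT.lf (nat_lit 0) (nat_lit 3649078964) (nat_lit 1824) (nat_lit 6065819492) (nat_lit 1900) (nat_lit 19930451842) (nat_lit 429) (nat_lit 5) (nat_lit 453) (nat_lit 5) (nat_lit 454) (nat_lit 5) (nat_lit 412) (nat_lit 402) (nat_lit 206)) (XT.lf (nat_lit 0) (nat_lit 5991089718) (nat_lit 1824) (nat_lit 13329158383) (nat_lit 1900) (nat_lit 10789419058) (nat_lit 430) (nat_lit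 5) (nat_lit 454) (nat_lit 5) (nat_lit 455) (nat_lit 5) (nat_lit 413) (nat_lit 402) (nat_lit 205))))) (XT.nd (nat_lit 234) (nat_lit 1216) (nat_lit 0) (XT.nd (nat_lit 78) (nat_lit 0) (nat_lit 0) (XT.lf (nat_lit 0) (nat_lit 8577789558) (nat_lit 1824) (nat_lit 20723991720) (nat_lit 1900) (nat_lit 1282644611) (nat_lit 431) (nat_lit 5) (nat_lit 455) (nat_lit 5) (nat_lit 456) (nat_lit 5) (nat_lit 414) (nat_lit 402) (nat_lit 204)) (XT.nd (nat_lit 78) (nat_lit 0) (nat_lit 76) (XT.lf (nat_lit 76) (nat_lit 2759577777) (nat_lit 0) (nat_lit 8716238135) (nat_lit 1900) (nat_lit 19592937867) (nat_lit 432) (nat_lit 5) (nat_lit 431) (nat_lit 5) (nat_lit 456) (nat_lit 5) (nat_lit 415) (nat_lit 402) (nat_lit 203)) (XT.lf (nat_lit 0) (nat_lit 14679013264) (nat_lit 1824) (nat_lit 4418873353) (nat_lit 1900) (nat_lit 12465361171) (nat_lit 432) (nat_lit 5) (nat_lit 456) (nat_lit 5) (nat_lit 457) (nat_lit 5) (nat_lit 416) (nat_lit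 402) (nat_lit 202)))) (XT.nd (nat_lit 78) (nat_lit 1368) (nat_lit 0) (XT.lf (nat_lit 0) (nat_lit 18179397513) (nat_lit 1824) (nat_lit 11689293753) (nat_lit 1900) (nat_lit 2199864389) (nat_lit 433) (nat_lit 5) (nat_lit 457) (nat_lit 5) (nat_lit 458) (nat_lit 5) (nat_lit 417) (nat_lit 402) (nat_lit 201)) (XT.nd (nat_lit 78) (nat_lit 1368) (nat_lit 0) (XT.lf (nat_lit 76) (nat_lit 13438408331) (nat_lit 0) (nat_lit 8587514018) (nat_lit 1900) (nat_lit 10558278661) (nat_lit 434) (nat_lit 5) (nat_lit 433) (nat_lit 5) (nat_lit 458) (nat_lit 5) (nat_lit 418) (nat_lit 402) (nat_lit 200)) (XT.lf (nat_lit 0) (nat_lit 6359174641) (nat_lit 1444) (nat_lit 19832370634) (nat_lit 1520) (nat_lit 6919697214) (nat_lit 415) (nat_lit 5) (nat_lit 434) (nat_lit 5) (nat_lit 435) (nat_lit 5) (nat_lit 419) (nat_lit 402) (nat_lit 199))))))))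
noncomputable def xc125 : XT := (XT.nd (nat_lit 53274) (nat_lit 0) (nat_lit 912) (XT.nd (nat_lit 52416) (nat_lit 0) (nat_lit 1900) (XT.nd (nat_lit 51948) (nat_lit 0) (nat_lit 4408) (XT.nd (nat_lit 156) (nat_lit 912) (nat_lit 0) (XT.nd (nat_lit 78) (nat_lit 988) (nat_lit 0) (XT.lf (nat_lit 0) (nat_lit 30679190626) (nat_lit 1520) (nat_lit 834623067) (nat_lit 76) (nat_lit 2136341230) (nat_lit 415) (nat_lit 5) (nat_lit 435) (nat_lit 5) (nat_lit 416) (nat_lit 5) (nat_lit 420) (nat_lit 402) (nat_lit 198)) (XT.lf (nat_lit 0) (nat_lit 1382018601) (nat_lit 988) (nat_lit 8142065831) (nat_lit 76) (nat_lit 24675005391) (nat_lit 402) (nat_lit 5) (nat_lit 415) (nat_lit 5) (nat_lit 403) (nat_lit 5) (nat_lit 421) (nat_lit 402) (nat_lit 197))) (XT.nd (nat_lit 51636) (nat_lit 0) (nat_lit 4332) (XT.lf (nat_lit 0) (nat_lit 6038616178) (nat_lit 988) (nat_lit 15616268576) (nat_lit 76) (nat_lit 13104948202) (nat_lit 390)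 (nat_lit 5) (nat_lit 403) (nat_lit 5) (nat_lit 391) (nat_lit 5) (nat_lit 422) (nat_lit 402) (nat_lit 196)) (XT.nd (nat_lit 78) (nat_lit 0) (nat_lit 0) (XT.lf (nat_lit 0) (nat_lit 4862199343) (nat_lit 0) (nat_lit 4862199343) (nat_lit 1748) (nat_lit 3401696070) (nat_lit 447) (nat_lit 5) (nat_lit 447) (nat_lit 3) (nat_lit 470) (nat_lit 3) (nat_lit 403) (nat_lit 403) (nat_lit 214)) (XT.lf (nat_lit 76) (nat_lit 2582017131) (nat_lit 0) (nat_lit 17377145131) (nat_lit 1824) (nat_lit 6682406379) (nat_lit 448) (nat_lit 5) (nat_lit 447) (nat_lit 5) (nat_lit 471) (nat_lit 5) (nat_lit 404) (nat_lit 403) (nat_lit 213))))) (XT.nd (nat_lit 234) (nat_lit 0) (nat_lit 152) (XT.nd (nat_lit 78) (nat_lit 0) (nat_lit 0) (XT.lf (nat_lit 0) (nat_lit 20667404076) (nat_lit 1748) (nat_lit 4628139095) (nat_lit 1824) (nat_lit 1743435864) (nat_lit 448) (nat_lit 5) (nat_lit 471) (nat_lit 5) (nat_lit 472) (nat_lit 5) (nat_lit 405)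 (nat_lit 403) (nat_lit 212)) (XT.nd (nat_lit 78) (nat_lit 0) (nat_lit 76) (XT.lf (nat_lit 76) (nat_lit 15469939291) (nat_lit 0) (nat_lit 6138275220) (nat_lit 1824) (nat_lit 5835871979) (nat_lit 449) (nat_lit 5) (nat_lit 448) (nat_lit 5) (nat_lit 472) (nat_lit 5) (nat_lit 406) (nat_lit 403) (nat_lit 211)) (XT.lf (nat_lit 76) (nat_lit 8392157809) (nat_lit 0) (nat_lit 14354230418) (nat_lit 1824) (nat_lit 5111577305) (nat_lit 450) (nat_lit 5) (nat_lit 449) (nat_lit 5) (nat_lit 473) (nat_lit 5) (nat_lit 407) (nat_lit 403) (nat_lit 210)))) (XT.nd (nat_lit 78) (nat_lit 0) (nat_lit 0) (XT.lf (nat_lit 76) (nat_lit 1187017290) (nat_lit 0) (nat_lit 22891676594) (nat_lit 1824) (nat_lit 4202368436) (nat_lit 451) (nat_lit 5) (nat_lit 450) (nat_lit 5) (nat_lit 474) (nat_lit 5) (nat_lit 408) (nat_lit 403) (nat_lit 209)) (XT.nd (nat_lit 78) (nat_lit 0) (nat_lit 76) (XT.lf (nat_lit 76) (nat_lit 22625562723) (nat_lit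 0) (nat_lit 3047768351) (nat_lit 1824) (nat_lit 3039074766) (nat_lit 451) (nat_lit 5) (nat_lit 450) (nat_lit 5) (nat_lit 474) (nat_lit 5) (nat_lit 409) (nat_lit 403) (nat_lit 208)) (XT.lf (nat_lit 76) (nat_lit 15639709714) (nat_lit 0) (nat_lit 11885806851) (nat_lit 1824) (nat_lit 1626979965) (nat_lit 452) (nat_lit 5) (nat_lit 451) (nat_lit 5) (nat_lit 475) (nat_lit 5) (nat_lit 410) (nat_lit 403) (nat_lit 207)))))) (XT.nd (nat_lit 390) (nat_lit 988) (nat_lit 0) (XT.nd (nat_lit 156) (nat_lit 0) (nat_lit 76) (XT.nd (nat_lit 78) (nat_lit 1824) (nat_lit 0) (XT.lf (nat_lit 76) (nat_lit 8529159519) (nat_lit 0) (nat_lit 21072103113) (nat_lit 1824) (nat_lit 1168421) (nat_lit 453) (nat_lit 5) (nat_lit 452) (nat_lit 5) (nat_lit 476) (nat_lit 5) (nat_lit 411) (nat_lit 403) (nat_lit 206)) (XT.lf (nat_lit 76) (nat_lit 1275943429) (nat_lit 0) (nat_lit 550932204) (nat_lit 1900) (nat_lit 28235263542) (nat_lit 429)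 (nat_lit 5) (nat_lit 428) (nat_lit 5) (nat_lit 453) (nat_lit 5) (nat_lit 412) (nat_lit 403) (nat_lit 205))) (XT.nd (nat_lit 78) (nat_lit 0) (nat_lit 76) (XT.lf (nat_lit 0) (nat_lit 3982730210) (nat_lit 1824) (nat_lit 6086482420) (nat_lit 1900) (nat_lit 20460966992) (nat_lit 429) (nat_lit 5) (nat_lit 453) (nat_lit 5) (nat_lit 454) (nat_lit 5) (nat_lit 413) (nat_lit 403) (nat_lit 204)) (XT.nd (nat_lit 78) (nat_lit 0) (nat_lit 76) (XT.lf (nat_lit 0) (nat_lit 6389112691) (nat_lit 1824) (nat_lit 13565529286) (nat_lit 1900) (nat_lit 11053903169) (nat_lit 430) (nat_lit 5) (nat_lit 454) (nat_lit 5) (nat_lit 455) (nat_lit 5) (nat_lit 414) (nat_lit 403) (nat_lit 203)) (XT.lf (nat_lit 0) (nat_lit 9047761476) (nat_lit 1824) (nat_lit 21180217437) (nat_lit 1900) (nat_lit 1269682112) (nat_lit 431) (nat_lit 5) (nat_lit 455) (nat_lit 5) (nat_lit 456) (nat_lit 5) (nat_lit 415) (nat_lit 403) (nat_lit 202))))) (XT.nd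 (nat_lit 234) (nat_lit 1216) (nat_lit 0) (XT.nd (nat_lit 78) (nat_lit 0) (nat_lit 76) (XT.lf (nat_lit 76) (nat_lit 3005174201) (nat_lit 0) (nat_lit 9022418138) (nat_lit 1900) (nat_lit 19969030446) (nat_lit 432) (nat_lit 5) (nat_lit 431) (nat_lit 5) (nat_lit 456) (nat_lit 5) (nat_lit 416) (nat_lit 403) (nat_lit 201)) (XT.nd (nat_lit 78) (nat_lit 0) (nat_lit 76) (XT.lf (nat_lit 0) (nat_lit 15320560141) (nat_lit 1824) (nat_lit 4389019288) (nat_lit 1900) (nat_lit 12796499963) (nat_lit 432) (nat_lit 5) (nat_lit 456) (nat_lit 5) (nat_lit 457) (nat_lit 5) (nat_lit 417) (nat_lit 403) (nat_lit 200)) (XT.lf (nat_lit 0) (nat_lit 18920896408) (nat_lit 1824) (nat_lit 11875981788) (nat_lit 1900) (nat_lit 2229770722) (nat_lit 433) (nat_lit 5) (nat_lit 457) (nat_lit 5) (nat_lit 458) (nat_lit 5) (nat_lit 418) (nat_lit 403) (nat_lit 199)))) (XT.nd (nat_lit 78) (nat_lit 1368) (nat_lit 0) (XT.lf (nat_lit 76) (nat_lit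 14002890803) (nat_lit 0) (nat_lit 8875261505) (nat_lit 1900) (nat_lit 10679705816) (nat_lit 434) (nat_lit 5) (nat_lit 433) (nat_lit 5) (nat_lit 458) (nat_lit 5) (nat_lit 419) (nat_lit 403) (nat_lit 198)) (XT.nd (nat_lit 78) (nat_lit 0) (nat_lit 0) (XT.lf (nat_lit 0) (nat_lit 6712661260) (nat_lit 1444) (nat_lit 20451372935) (nat_lit 1520) (nat_lit 6936772007) (nat_lit 415) (nat_lit 5) (nat_lit 434) (nat_lit 5) (nat_lit 435) (nat_lit 5) (nat_lit 420) (nat_lit 403) (nat_lit 197)) (XT.lf (nat_lit 0) (nat_lit 31780718321) (nat_lit 1520) (nat_lit 697874412) (nat_lit 76) (nat_lit 2177406216) (nat_lit 415) (nat_lit 5) (nat_lit 435) (nat_lit 5) (nat_lit 416) (nat_lit 5) (nat_lit 421) (nat_lit 403) (nat_lit 196))))))) (XT.nd (nat_lit 52494) (nat_lit 0) (nat_lit 988) (XT.nd (nat_lit 52026) (nat_lit 0) (nat_lit 1976) (XT.nd (nat_lit 51792) (nat_lit 0) (nat_lit 3420) (XT.nd (nat_lit 51714) (nat_lit 0) (nat_lit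 3420) (XT.lf (nat_lit 0) (nat_lit 1601595846) (nat_lit 988) (nat_lit 8224762416) (nat_lit 76) (nat_lit 25395106149) (nat_lit 402) (nat_lit 5) (nat_lit 415) (nat_lit 5) (nat_lit 403) (nat_lit 5) (nat_lit 422) (nat_lit 403) (nat_lit 195)) (XT.lf (nat_lit 0) (nat_lit 5077901944) (nat_lit 0) (nat_lit 5077901944) (nat_lit 1748) (nat_lit 3361249489) (nat_lit 447) (nat_lit 5) (nat_lit 447) (nat_lit 3) (nat_lit 470) (nat_lit 3) (nat_lit 404) (nat_lit 404) (nat_lit 212))) (XT.nd (nat_lit 78) (nat_lit 0) (nat_lit 76) (XT.lf (nat_lit 76) (nat_lit 2803333798) (nat_lit 0) (nat_lit 18025867080) (nat_lit 1824) (nat_lit 6606129823) (nat_lit 448) (nat_lit 5) (nat_lit 447) (nat_lit 5) (nat_lit 471) (nat_lit 5) (nat_lit 405) (nat_lit 404) (nat_lit 211)) (XT.nd (nat_lit 78) (nat_lit 0) (nat_lit 0) (XT.lf (nat_lit 0) (nat_lit 21549985940) (nat_lit 1748) (nat_lit 4621188736) (nat_lit 1824) (nat_lit 1673664550) (nat_lit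 448) (nat_lit 5) (nat_lit 471) (nat_lit 5) (nat_lit 472) (nat_lit 5) (nat_lit 406) (nat_lit 404) (nat_lit 210)) (XT.lf (nat_lit 76) (nat_lit 16077466658) (nat_lit 0) (nat_lit 6434837897) (nat_lit 1824) (nat_lit 5749931362) (nat_lit 449) (nat_lit 5) (nat_lit 448) (nat_lit 5) (nat_lit 472) (nat_lit 5) (nat_lit 407) (nat_lit 404) (nat_lit 209))))) (XT.nd (nat_lit 234) (nat_lit 1596) (nat_lit 0) (XT.nd (nat_lit 78) (nat_lit 0) (nat_lit 76) (XT.lf (nat_lit 76) (nat_lit 8790832031) (nat_lit 0) (nat_lit 14886584918) (nat_lit 1824) (nat_lit 5011260152) (nat_lit 450) (nat_lit 5) (nat_lit 449) (nat_lit 5) (nat_lit 473) (nat_lit 5) (nat_lit 408) (nat_lit 404) (nat_lit 208)) (XT.nd (nat_lit 78) (nat_lit 0) (nat_lit 0) (XT.lf (nat_lit 76) (nat_lit 1372749465) (nat_lit 0) (nat_lit 23670033898) (nat_lit 1824) (nat_lit 4081823189) (nat_lit 451) (nat_lit 5) (nat_lit 450) (nat_lit 5) (nat_lit 474) (nat_lit 5) (nat_lit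 409) (nat_lit 404) (nat_lit 207)) (XT.lf (nat_lit 76) (nat_lit 23450078786) (nat_lit 0) (nat_lit 3228140243) (nat_lit 1824) (nat_lit 2890813709) (nat_lit 451) (nat_lit 5) (nat_lit 450) (nat_lit 5) (nat_lit 474) (nat_lit 5) (nat_lit 410) (nat_lit 404) (nat_lit 206)))) (XT.nd (nat_lit 78) (nat_lit 1748) (nat_lit 0) (XT.lf (nat_lit 76) (nat_lit 16257521953) (nat_lit 0) (nat_lit 12322016872) (nat_lit 1824) (nat_lit 1442917447) (nat_lit 452) (nat_lit 5) (nat_lit 451) (nat_lit 5) (nat_lit 475) (nat_lit 5) (nat_lit 411) (nat_lit 404) (nat_lit 205)) (XT.nd (nat_lit 78) (nat_lit 0) (nat_lit 0) (XT.lf (nat_lit 0) (nat_lit 222419609) (nat_lit 1824) (nat_lit 21551183948) (nat_lit 1900) (nat_lit 8712380830) (nat_lit 428) (nat_lit 5) (nat_lit 452) (nat_lit 5) (nat_lit 453) (nat_lit 5) (nat_lit 412) (nat_lit 404) (nat_lit 204)) (XT.lf (nat_lit 76) (nat_lit 1465996676) (nat_lit 0) (nat_lit 633765116) (nat_lit 1900)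 (nat_lit 28859833738) (nat_lit 429) (nat_lit 5) (nat_lit 428) (nat_lit 5) (nat_lit 453) (nat_lit 5) (nat_lit 413) (nat_lit 404) (nat_lit 203)))))) (XT.nd (nat_lit 390) (nat_lit 1064) (nat_lit 0) (XT.nd (nat_lit 156) (nat_lit 0) (nat_lit 152) (XT.nd (nat_lit 78) (nat_lit 0) (nat_lit 76) (XT.lf (nat_lit 0) (nat_lit 4313522207) (nat_lit 1824) (nat_lit 6117025184) (nat_lit 1900) (nat_lit 21011266540) (nat_lit 429) (nat_lit 5) (nat_lit 453) (nat_lit 5) (nat_lit 454) (nat_lit 5) (nat_lit 414) (nat_lit 404) (nat_lit 202)) (XT.lf (nat_lit 0) (nat_lit 6786545598) (nat_lit 1824) (nat_lit 13818377106) (nat_lit 1900) (nat_lit 11329720037) (nat_lit 430) (nat_lit 5) (nat_lit 454) (nat_lit 5) (nat_lit 455) (nat_lit 5) (nat_lit 415) (nat_lit 404) (nat_lit 201))) (XT.nd (nat_lit 78) (nat_lit 0) (nat_lit 0) (XT.lf (nat_lit 0) (nat_lit 9519626247) (nat_lit 1824) (nat_lit 21659629959) (nat_lit 1900) (nat_lit 1259283710)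 (nat_lit 431) (nat_lit 5) (nat_lit 455) (nat_lit 5) (nat_lit 456) (nat_lit 5) (nat_lit 416) (nat_lit 404) (nat_lit 200)) (XT.nd (nat_lit 78) (nat_lit 0) (nat_lit 76) (XT.lf (nat_lit 76) (nat_lit 3248792610) (nat_lit 0) (nat_lit 9335217988) (nat_lit 1900) (nat_lit 20368557993) (nat_lit 432) (nat_lit 5) (nat_lit 431) (nat_lit 5) (nat_lit 456) (nat_lit 5) (nat_lit 417) (nat_lit 404) (nat_lit 199)) (XT.lf (nat_lit 0) (nat_lit 15969805072) (nat_lit 1824) (nat_lit 4367593187) (nat_lit 1900) (nat_lit 13140031080) (nat_lit 432) (nat_lit 5) (nat_lit 456) (nat_lit 5) (nat_lit 457) (nat_lit 5) (nat_lit 418) (nat_lit 404) (nat_lit 198))))) (XT.nd (nat_lit 52026) (nat_lit 0) (nat_lit 2432) (XT.nd (nat_lit 78) (nat_lit 1368) (nat_lit 0) (XT.lf (nat_lit 0) (nat_lit 19673382354) (nat_lit 1824) (nat_lit 12077684205) (nat_lit 1900) (nat_lit 2262645935) (nat_lit 433) (nat_lit 5) (nat_lit 457) (nat_lit 5) (nat_lit 458)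 (nat_lit 5) (nat_lit 419) (nat_lit 404) (nat_lit 197)) (XT.nd (nat_lit 78) (nat_lit 1368) (nat_lit 0) (XT.lf (nat_lit 76) (nat_lit 14575046735) (nat_lit 0) (nat_lit 9169912286) (nat_lit 1900) (nat_lit 10815988021) (nat_lit 434) (nat_lit 5) (nat_lit 433) (nat_lit 5) (nat_lit 458) (nat_lit 5) (nat_lit 420) (nat_lit 404) (nat_lit 196)) (XT.lf (nat_lit 0) (nat_lit 7067412179) (nat_lit 1444) (nat_lit 21087565817) (nat_lit 1520) (nat_lit 6965295448) (nat_lit 415) (nat_lit 5) (nat_lit 434) (nat_lit 5) (nat_lit 435) (nat_lit 5) (nat_lit 421) (nat_lit 404) (nat_lit 195)))) (XT.nd (nat_lit 78) (nat_lit 0) (nat_lit 0) (XT.lf (nat_lit 0) (nat_lit 5296066715) (nat_lit 0) (nat_lit 5296066715) (nat_lit 1748) (nat_lit 3327769447) (nat_lit 447) (nat_lit 5) (nat_lit 447) (nat_lit 3) (nat_lit 470) (nat_lit 3) (nat_lit 405) (nat_lit 405) (nat_lit 210)) (XT.nd (nat_lit 78) (nat_lit 0) (nat_lit 76) (XT.lf (nat_lit 76) (nat_lit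 3023032034) (nat_lit 0) (nat_lit 18686736970) (nat_lit 1824) (nat_lit 6543451481) (nat_lit 448) (nat_lit 5) (nat_lit 447) (nat_lit 5) (nat_lit 471) (nat_lit 5) (nat_lit 406) (nat_lit 405) (nat_lit 209)) (XT.lf (nat_lit 0) (nat_lit 22443973257) (nat_lit 1748) (nat_lit 4622399069) (nat_lit 1824) (nat_lit 1608807667) (nat_lit 448) (nat_lit 5) (nat_lit 471) (nat_lit 5) (nat_lit 472) (nat_lit 5) (nat_lit 407) (nat_lit 405) (nat_lit 208))))))))
noncomputable def xc126 : XT := (XT.nd (nat_lit 53586) (nat_lit 0) (nat_lit 0) (XT.nd (nat_lit 858) (nat_lit 0) (nat_lit 304) (XT.nd (nat_lit 390) (nat_lit 1520) (nat_lit 0) (XT.nd (nat_lit 156) (nat_lit 0) (nat_lit 152) (XT.nd (nat_lit 78) (nat_lit 0) (nat_lit 76) (XT.lf (nat_lit 76) (nat_lit 16694986424) (nat_lit 0) (nat_lit 6733844405) (nat_lit 1824) (nat_lit 5676395958) (nat_lit 449) (nat_lit 5) (nat_lit 448) (nat_lit 5) (nat_lit 472) (nat_lit 5) (nat_lit 408)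 (nat_lit 405) (nat_lit 207)) (XT.lf (nat_lit 76) (nat_lit 9193033273) (nat_lit 0) (nat_lit 15429070474) (nat_lit 1824) (nat_lit 4922494862) (nat_lit 450) (nat_lit 5) (nat_lit 449) (nat_lit 5) (nat_lit 473) (nat_lit 5) (nat_lit 409) (nat_lit 405) (nat_lit 206))) (XT.nd (nat_lit 78) (nat_lit 0) (nat_lit 0) (XT.lf (nat_lit 76) (nat_lit 1555436008) (nat_lit 0) (nat_lit 24466483304) (nat_lit 1824) (nat_lit 3971818370) (nat_lit 451) (nat_lit 5) (nat_lit 450) (nat_lit 5) (nat_lit 474) (nat_lit 5) (nat_lit 410) (nat_lit 405) (nat_lit 205)) (XT.nd (nat_lit 78) (nat_lit 0) (nat_lit 76) (XT.lf (nat_lit 76) (nat_lit 24290963732) (nat_lit 0) (nat_lit 3408817837) (nat_lit 1824) (nat_lit 2751849270) (nat_lit 451) (nat_lit 5) (nat_lit 450) (nat_lit 5) (nat_lit 474) (nat_lit 5) (nat_lit 411) (nat_lit 405) (nat_lit 204)) (XT.lf (nat_lit 76) (nat_lit 16885337109) (nat_lit 0) (nat_lit 12766741772) (nat_lit 1824) (nat_lit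 1266700855) (nat_lit 452) (nat_lit 5) (nat_lit 451) (nat_lit 5) (nat_lit 475) (nat_lit 5) (nat_lit 412) (nat_lit 405) (nat_lit 203))))) (XT.nd (nat_lit 234) (nat_lit 0) (nat_lit 152) (XT.nd (nat_lit 78) (nat_lit 0) (nat_lit 0) (XT.lf (nat_lit 0) (nat_lit 439863524) (nat_lit 1824) (nat_lit 22052297730) (nat_lit 1900) (nat_lit 8904142362) (nat_lit 428) (nat_lit 5) (nat_lit 452) (nat_lit 5) (nat_lit 453) (nat_lit 5) (nat_lit 413) (nat_lit 405) (nat_lit 202)) (XT.nd (nat_lit 78) (nat_lit 0) (nat_lit 76) (XT.lf (nat_lit 76) (nat_lit 1653039017) (nat_lit 0) (nat_lit 715276840) (nat_lit 1900) (nat_lit 29515912745) (nat_lit 429) (nat_lit 5) (nat_lit 428) (nat_lit 5) (nat_lit 453) (nat_lit 5) (nat_lit 414) (nat_lit 405) (nat_lit 201)) (XT.lf (nat_lit 0) (nat_lit 4642107902) (nat_lit 1824) (nat_lit 6157212621) (nat_lit 1900) (nat_lit 21581721926) (nat_lit 429) (nat_lit 5) (nat_lit 453) (nat_lit 5) (nat_lit 454)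 (nat_lit 5) (nat_lit 415) (nat_lit 405) (nat_lit 200)))) (XT.nd (nat_lit 78) (nat_lit 0) (nat_lit 76) (XT.lf (nat_lit 0) (nat_lit 7184090053) (nat_lit 1824) (nat_lit 14087657368) (nat_lit 1900) (nat_lit 11617014572) (nat_lit 430) (nat_lit 5) (nat_lit 454) (nat_lit 5) (nat_lit 455) (nat_lit 5) (nat_lit 416) (nat_lit 405) (nat_lit 199)) (XT.nd (nat_lit 78) (nat_lit 0) (nat_lit 0) (XT.lf (nat_lit 0) (nat_lit 9994141349) (nat_lit 1824) (nat_lit 22162379552) (nat_lit 1900) (nat_lit 1251356816) (nat_lit 431) (nat_lit 5) (nat_lit 455) (nat_lit 5) (nat_lit 456) (nat_lit 5) (nat_lit 417) (nat_lit 405) (nat_lit 198)) (XT.lf (nat_lit 76) (nat_lit 3490910157) (nat_lit 0) (nat_lit 9654983553) (nat_lit 1900) (nat_lit 20791525972) (nat_lit 432) (nat_lit 5) (nat_lit 431) (nat_lit 5) (nat_lit 456) (nat_lit 5) (nat_lit 418) (nat_lit 405) (nat_lit 197)))))) (XT.nd (nat_lit 52260) (nat_lit 0) (nat_lit 1216) (XT.nd (nat_lit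 156) (nat_lit 0) (nat_lit 76) (XT.nd (nat_lit 78) (nat_lit 0) (nat_lit 76) (XT.lf (nat_lit 0) (nat_lit 16627641920) (nat_lit 1824) (nat_lit 4354312680) (nat_lit 1900) (nat_lit 13496185183) (nat_lit 432) (nat_lit 5) (nat_lit 456) (nat_lit 5) (nat_lit 457) (nat_lit 5) (nat_lit 419) (nat_lit 405) (nat_lit 196)) (XT.lf (nat_lit 0) (nat_lit 20437831213) (nat_lit 1824) (nat_lit 12294311049) (nat_lit 1900) (nat_lit 2298460171) (nat_lit 433) (nat_lit 5) (nat_lit 457) (nat_lit 5) (nat_lit 458) (nat_lit 5) (nat_lit 420) (nat_lit 405) (nat_lit 195))) (XT.nd (nat_lit 51948) (nat_lit 0) (nat_lit 1064) (XT.lf (nat_lit 76) (nat_lit 15155637951) (nat_lit 0) (nat_lit 9471772719) (nat_lit 1900) (nat_lit 10966927300) (nat_lit 434) (nat_lit 5) (nat_lit 433) (nat_lit 5) (nat_lit 458) (nat_lit 5) (nat_lit 421) (nat_lit 405) (nat_lit 194)) (XT.nd (nat_lit 78) (nat_lit 0) (nat_lit 0) (XT.lf (nat_lit 0) (nat_lit 5516997649)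 (nat_lit 0) (nat_lit 5516997649) (nat_lit 1748) (nat_lit 3300995379) (nat_lit 447) (nat_lit 5) (nat_lit 447) (nat_lit 3) (nat_lit 470) (nat_lit 3) (nat_lit 406) (nat_lit 406) (nat_lit 208)) (XT.lf (nat_lit 76) (nat_lit 3241537324) (nat_lit 0) (nat_lit 19360539077) (nat_lit 1824) (nat_lit 6493867348) (nat_lit 448) (nat_lit 5) (nat_lit 447) (nat_lit 5) (nat_lit 471) (nat_lit 5) (nat_lit 407) (nat_lit 406) (nat_lit 207))))) (XT.nd (nat_lit 234) (nat_lit 0) (nat_lit 152) (XT.nd (nat_lit 78) (nat_lit 0) (nat_lit 0) (XT.lf (nat_lit 0) (nat_lit 23350573384) (nat_lit 1748) (nat_lit 4631534489) (nat_lit 1824) (nat_lit 1548610383) (nat_lit 448) (nat_lit 5) (nat_lit 471) (nat_lit 5) (nat_lit 472) (nat_lit 5) (nat_lit 408) (nat_lit 406) (nat_lit 206)) (XT.nd (nat_lit 78) (nat_lit 0) (nat_lit 76) (XT.lf (nat_lit 76) (nat_lit 17323270993) (nat_lit 0) (nat_lit 7035738493) (nat_lit 1824) (nat_lit 5614777813) (nat_lit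 449) (nat_lit 5) (nat_lit 448) (nat_lit 5) (nat_lit 472) (nat_lit 5) (nat_lit 409) (nat_lit 406) (nat_lit 205)) (XT.lf (nat_lit 76) (nat_lit 9599351448) (nat_lit 0) (nat_lit 15982326233) (nat_lit 1824) (nat_lit 4844792109) (nat_lit 450) (nat_lit 5) (nat_lit 449) (nat_lit 5) (nat_lit 473) (nat_lit 5) (nat_lit 410) (nat_lit 406) (nat_lit 204)))) (XT.nd (nat_lit 78) (nat_lit 0) (nat_lit 0) (XT.lf (nat_lit 76) (nat_lit 1735480236) (nat_lit 0) (nat_lit 25281869441) (nat_lit 1824) (nat_lit 3871857533) (nat_lit 451) (nat_lit 5) (nat_lit 450) (nat_lit 5) (nat_lit 474) (nat_lit 5) (nat_lit 411) (nat_lit 406) (nat_lit 203)) (XT.nd (nat_lit 78) (nat_lit 0) (nat_lit 76) (XT.lf (nat_lit 76) (nat_lit 25149188904) (nat_lit 0) (nat_lit 3590103381) (nat_lit 1824) (nat_lit 2621671361) (nat_lit 451) (nat_lit 5) (nat_lit 450) (nat_lit 5) (nat_lit 474) (nat_lit 5) (nat_lit 412) (nat_lit 406) (nat_lit 202)) (XT.lf (nat_lit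 76) (nat_lit 17523945010) (nat_lit 0) (nat_lit 13220499416) (nat_lit 1824) (nat_lit 1097798199) (nat_lit 452) (nat_lit 5) (nat_lit 451) (nat_lit 5) (nat_lit 475) (nat_lit 5) (nat_lit 413) (nat_lit 406) (nat_lit 201))))))) (XT.nd (nat_lit 52884) (nat_lit 0) (nat_lit 0) (XT.nd (nat_lit 390) (nat_lit 0) (nat_lit 228) (XT.nd (nat_lit 156) (nat_lit 0) (nat_lit 76) (XT.nd (nat_lit 78) (nat_lit 0) (nat_lit 0) (XT.lf (nat_lit 0) (nat_lit 651731620) (nat_lit 1824) (nat_lit 22576792728) (nat_lit 1900) (nat_lit 9105652632) (nat_lit 428) (nat_lit 5) (nat_lit 452) (nat_lit 5) (nat_lit 453) (nat_lit 5) (nat_lit 414) (nat_lit 406) (nat_lit 200)) (XT.lf (nat_lit 76) (nat_lit 1837480259) (nat_lit 0) (nat_lit 795646232) (nat_lit 1900) (nat_lit 30203712679) (nat_lit 429) (nat_lit 5) (nat_lit 428) (nat_lit 5) (nat_lit 453) (nat_lit 5) (nat_lit 415) (nat_lit 406) (nat_lit 199))) (XT.nd (nat_lit 78) (nat_lit 0) (nat_lit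 76) (XT.lf (nat_lit 0) (nat_lit 4969117418) (nat_lit 1824) (nat_lit 6206833026) (nat_lit 1900) (nat_lit 22172728481) (nat_lit 429) (nat_lit 5) (nat_lit 453) (nat_lit 5) (nat_lit 454) (nat_lit 5) (nat_lit 416) (nat_lit 406) (nat_lit 198)) (XT.nd (nat_lit 78) (nat_lit 0) (nat_lit 76) (XT.lf (nat_lit 0) (nat_lit 7582427429) (nat_lit 1824) (nat_lit 14373355190) (nat_lit 1900) (nat_lit 11915947230) (nat_lit 430) (nat_lit 5) (nat_lit 454) (nat_lit 5) (nat_lit 455) (nat_lit 5) (nat_lit 417) (nat_lit 406) (nat_lit 197)) (XT.lf (nat_lit 0) (nat_lit 10472046760) (nat_lit 1824) (nat_lit 22688652289) (nat_lit 1900) (nat_lit 1245815791) (nat_lit 431) (nat_lit 5) (nat_lit 455) (nat_lit 5) (nat_lit 456) (nat_lit 5) (nat_lit 418) (nat_lit 406) (nat_lit 196))))) (XT.nd (nat_lit 52260) (nat_lit 0) (nat_lit 1216) (XT.nd (nat_lit 78) (nat_lit 0) (nat_lit 76) (XT.lf (nat_lit 76) (nat_lit 3731987512) (nat_lit 0) (nat_lit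 9982062625) (nat_lit 1900) (nat_lit 21237980054) (nat_lit 432) (nat_lit 5) (nat_lit 431) (nat_lit 5) (nat_lit 456) (nat_lit 5) (nat_lit 419) (nat_lit 406) (nat_lit 195)) (XT.nd (nat_lit 52104) (nat_lit 0) (nat_lit 1140) (XT.lf (nat_lit 0) (nat_lit 17294953312) (nat_lit 1824) (nat_lit 4348917644) (nat_lit 1900) (nat_lit 13865207952) (nat_lit 432) (nat_lit 5) (nat_lit 456) (nat_lit 5) (nat_lit 457) (nat_lit 5) (nat_lit 420) (nat_lit 406) (nat_lit 194)) (XT.lf (nat_lit 0) (nat_lit 5740994649) (nat_lit 0) (nat_lit 5740994649) (nat_lit 1748) (nat_lit 3280685858) (nat_lit 447) (nat_lit 5) (nat_lit 447) (nat_lit 3) (nat_lit 470) (nat_lit 3) (nat_lit 407) (nat_lit 407) (nat_lit 206)))) (XT.nd (nat_lit 78) (nat_lit 0) (nat_lit 76) (XT.lf (nat_lit 76) (nat_lit 3459260708) (nat_lit 0) (nat_lit 20048057104) (nat_lit 1824) (nat_lit 6456910649) (nat_lit 448) (nat_lit 5) (nat_lit 447) (nat_lit 5) (nat_lit 471) (nat_lit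 5) (nat_lit 408) (nat_lit 407) (nat_lit 205)) (XT.nd (nat_lit 78) (nat_lit 0) (nat_lit 0) (XT.lf (nat_lit 0) (nat_lit 24270980235) (nat_lit 1748) (nat_lit 4648379899) (nat_lit 1824) (nat_lit 1492833315) (nat_lit 448) (nat_lit 5) (nat_lit 471) (nat_lit 5) (nat_lit 472) (nat_lit 5) (nat_lit 409) (nat_lit 407) (nat_lit 204)) (XT.lf (nat_lit 76) (nat_lit 17963088810) (nat_lit 0) (nat_lit 7340955955) (nat_lit 1824) (nat_lit 5564623707) (nat_lit 449) (nat_lit 5) (nat_lit 448) (nat_lit 5) (nat_lit 472) (nat_lit 5) (nat_lit 410) (nat_lit 407) (nat_lit 203)))))) (XT.nd (nat_lit 390) (nat_lit 0) (nat_lit 0) (XT.nd (nat_lit 156) (nat_lit 1596) (nat_lit 0) (XT.nd (nat_lit 78) (nat_lit 0) (nat_lit 76) (XT.lf (nat_lit 76) (nat_lit 10010366374) (nat_lit 0) (nat_lit 16546991274) (nat_lit 1824) (nat_lit 4777695870) (nat_lit 450) (nat_lit 5) (nat_lit 449) (nat_lit 5) (nat_lit 473) (nat_lit 5) (nat_lit 411) (nat_lit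 407) (nat_lit 202)) (XT.lf (nat_lit 76) (nat_lit 1913269167) (nat_lit 0) (nat_lit 26117044950) (nat_lit 1824) (nat_lit 3781475990) (nat_lit 451) (nat_lit 5) (nat_lit 450) (nat_lit 5) (nat_lit 474) (nat_lit 5) (nat_lit 412) (nat_lit 407) (nat_lit 201))) (XT.nd (nat_lit 78) (nat_lit 1672) (nat_lit 0) (XT.lf (nat_lit 76) (nat_lit 26025727215) (nat_lit 0) (nat_lit 3772291361) (nat_lit 1824) (nat_lit 2499799882) (nat_lit 451) (nat_lit 5) (nat_lit 450) (nat_lit 5) (nat_lit 474) (nat_lit 5) (nat_lit 413) (nat_lit 407) (nat_lit 200)) (XT.nd (nat_lit 78) (nat_lit 1748) (nat_lit 0) (XT.lf (nat_lit 76) (nat_lit 18174131064) (nat_lit 0) (nat_lit 13683808140) (nat_lit 1824) (nat_lit 935705581) (nat_lit 452) (nat_lit 5) (nat_lit 451) (nat_lit 5) (nat_lit 475) (nat_lit 5) (nat_lit 414) (nat_lit 407) (nat_lit 199)) (XT.lf (nat_lit 0) (nat_lit 858551163) (nat_lit 1824) (nat_lit 23124891181) (nat_lit 1900) (nat_lit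 9316974723) (nat_lit 428) (nat_lit 5) (nat_lit 452) (nat_lit 5) (nat_lit 453) (nat_lit 5) (nat_lit 415) (nat_lit 407) (nat_lit 198))))) (XT.nd (nat_lit 234) (nat_lit 0) (nat_lit 228) (XT.nd (nat_lit 78) (nat_lit 0) (nat_lit 76) (XT.lf (nat_lit 76) (nat_lit 2019713793) (nat_lit 0) (nat_lit 875044967) (nat_lit 1900) (nat_lit 30923494104) (nat_lit 429) (nat_lit 5) (nat_lit 428) (nat_lit 5) (nat_lit 453) (nat_lit 5) (nat_lit 416) (nat_lit 407) (nat_lit 197)) (XT.nd (nat_lit 78) (nat_lit 0) (nat_lit 76) (XT.lf (nat_lit 0) (nat_lit 5295159816) (nat_lit 1824) (nat_lit 6265697105) (nat_lit 1900) (nat_lit 22784705412) (nat_lit 429) (nat_lit 5) (nat_lit 453) (nat_lit 5) (nat_lit 454) (nat_lit 5) (nat_lit 417) (nat_lit 407) (nat_lit 196)) (XT.lf (nat_lit 0) (nat_lit 7982220615) (nat_lit 1824) (nat_lit 14675484399) (nat_lit 1900) (nat_lit 12226693835) (nat_lit 430) (nat_lit 5) (nat_lit 454) (nat_lit 5) (nat_lit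 455) (nat_lit 5) (nat_lit 418) (nat_lit 407) (nat_lit 195)))) (XT.nd (nat_lit 78) (nat_lit 0) (nat_lit 0) (XT.lf (nat_lit 0) (nat_lit 10954066747) (nat_lit 1824) (nat_lit 23238669339) (nat_lit 1900) (nat_lit 1242581604) (nat_lit 431) (nat_lit 5) (nat_lit 455) (nat_lit 5) (nat_lit 456) (nat_lit 5) (nat_lit 419) (nat_lit 407) (nat_lit 194)) (XT.nd (nat_lit 52182) (nat_lit 0) (nat_lit 1216) (XT.lf (nat_lit 76) (nat_lit 3972470138) (nat_lit 0) (nat_lit 10316805460) (nat_lit 1900) (nat_lit 21708005028) (nat_lit 432) (nat_lit 5) (nat_lit 431) (nat_lit 5) (nat_lit 456) (nat_lit 5) (nat_lit 420) (nat_lit 407) (nat_lit 193)) (XT.lf (nat_lit 0) (nat_lit 5968354161) (nat_lit 0) (nat_lit 5968354161) (nat_lit 1748) (nat_lit 3266617620) (nat_lit 447) (nat_lit 5) (nat_lit 447) (nat_lit 3) (nat_lit 470) (nat_lit 3) (nat_lit 408) (nat_lit 408) (nat_lit 204))))))))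
noncomputable def xc127 : XT := (XT.nd (nat_lit 106392) (nat_lit 0) (nat_lit 0) (XT.nd (nat_lit 53118) (nat_lit 0) (nat_lit 0) (XT.nd (nat_lit 390) (nat_lit 1444) (nat_lit 0) (XT.nd (nat_lit 156) (nat_lit 0) (nat_lit 76) (XT.nd (nat_lit 78) (nat_lit 0) (nat_lit 76) (XT.lf (nat_lit 76) (nat_lit 3676599905) (nat_lit 0) (nat_lit 20750075549) (nat_lit 1824) (nat_lit 6432149952) (nat_lit 448) (nat_lit 5) (nat_lit 447) (nat_lit 5) (nat_lit 471) (nat_lit 5) (nat_lit 409) (nat_lit 408) (nat_lit 203)) (XT.lf (nat_lit 0) (nat_lit 25206376727) (nat_lit 1748) (nat_lit 4672739746) (nat_lit 1824) (nat_lit 1441251664) (nat_lit 448) (nat_lit 5) (nat_lit 471) (nat_lit 5) (nat_lit 472) (nat_lit 5) (nat_lit 410) (nat_lit 408) (nat_lit 202))) (XT.nd (nat_lit 78) (nat_lit 0) (nat_lit 76) (XT.lf (nat_lit 76) (nat_lit 18615205800) (nat_lit 0) (nat_lit 7649925614) (nat_lit 1824) (nat_lit 5525513365) (nat_lit 449) (nat_lit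 5) (nat_lit 448) (nat_lit 5) (nat_lit 472) (nat_lit 5) (nat_lit 411) (nat_lit 408) (nat_lit 201)) (XT.nd (nat_lit 78) (nat_lit 0) (nat_lit 76) (XT.lf (nat_lit 76) (nat_lit 10426649071) (nat_lit 0) (nat_lit 17123705710) (nat_lit 1824) (nat_lit 4720781669) (nat_lit 450) (nat_lit 5) (nat_lit 449) (nat_lit 5) (nat_lit 473) (nat_lit 5) (nat_lit 412) (nat_lit 408) (nat_lit 200)) (XT.lf (nat_lit 76) (nat_lit 2089174664) (nat_lit 0) (nat_lit 26972871715) (nat_lit 1824) (nat_lit 3700239085) (nat_lit 451) (nat_lit 5) (nat_lit 450) (nat_lit 5) (nat_lit 474) (nat_lit 5) (nat_lit 413) (nat_lit 408) (nat_lit 199))))) (XT.nd (nat_lit 234) (nat_lit 0) (nat_lit 0) (XT.nd (nat_lit 78) (nat_lit 1672) (nat_lit 0) (XT.lf (nat_lit 76) (nat_lit 26921554781) (nat_lit 0) (nat_lit 3955669244) (nat_lit 1824) (nat_lit 2385783020) (nat_lit 451) (nat_lit 5) (nat_lit 450) (nat_lit 5) (nat_lit 474) (nat_lit 5) (nat_lit 414) (nat_lit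 408) (nat_lit 198)) (XT.nd (nat_lit 78) (nat_lit 1748) (nat_lit 0) (XT.lf (nat_lit 76) (nat_lit 18836677745) (nat_lit 0) (nat_lit 14157187632) (nat_lit 1824) (nat_lit 779945507) (nat_lit 452) (nat_lit 5) (nat_lit 451) (nat_lit 5) (nat_lit 475) (nat_lit 5) (nat_lit 415) (nat_lit 408) (nat_lit 197)) (XT.lf (nat_lit 0) (nat_lit 1060825365) (nat_lit 1824) (nat_lit 23696849502) (nat_lit 1900) (nat_lit 9538186775) (nat_lit 428) (nat_lit 5) (nat_lit 452) (nat_lit 5) (nat_lit 453) (nat_lit 5) (nat_lit 416) (nat_lit 408) (nat_lit 196)))) (XT.nd (nat_lit 78) (nat_lit 0) (nat_lit 76) (XT.lf (nat_lit 76) (nat_lit 2200117749) (nat_lit 0) (nat_lit 953638053) (nat_lit 1900) (nat_lit 31675565075) (nat_lit 429) (nat_lit 5) (nat_lit 428) (nat_lit 5) (nat_lit 453) (nat_lit 5) (nat_lit 417) (nat_lit 408) (nat_lit 195)) (XT.nd (nat_lit 78) (nat_lit 0) (nat_lit 76) (XT.lf (nat_lit 0) (nat_lit 5620824748) (nat_lit 1824)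 (nat_lit 6333636996) (nat_lit 1900) (nat_lit 23418095831) (nat_lit 429) (nat_lit 5) (nat_lit 453) (nat_lit 5) (nat_lit 454) (nat_lit 5) (nat_lit 418) (nat_lit 408) (nat_lit 194)) (XT.lf (nat_lit 0) (nat_lit 8384115704) (nat_lit 1824) (nat_lit 14994086712) (nat_lit 1900) (nat_lit 12549445436) (nat_lit 430) (nat_lit 5) (nat_lit 454) (nat_lit 5) (nat_lit 455) (nat_lit 5) (nat_lit 419) (nat_lit 408) (nat_lit 193)))))) (XT.nd (nat_lit 390) (nat_lit 1444) (nat_lit 0) (XT.nd (nat_lit 156) (nat_lit 0) (nat_lit 76) (XT.nd (nat_lit 78) (nat_lit 0) (nat_lit 0) (XT.lf (nat_lit 0) (nat_lit 6199369791) (nat_lit 0) (nat_lit 6199369791) (nat_lit 1748) (nat_lit 3258584653) (nat_lit 447) (nat_lit 5) (nat_lit 447) (nat_lit 3) (nat_lit 470) (nat_lit 3) (nat_lit 409) (nat_lit 409) (nat_lit 202)) (XT.lf (nat_lit 76) (nat_lit 3893940391) (nat_lit 0) (nat_lit 21467381031) (nat_lit 1824) (nat_lit 6419187392) (nat_lit 448)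 (nat_lit 5) (nat_lit 447) (nat_lit 5) (nat_lit 471) (nat_lit 5) (nat_lit 410) (nat_lit 409) (nat_lit 201))) (XT.nd (nat_lit 78) (nat_lit 0) (nat_lit 0) (XT.lf (nat_lit 0) (nat_lit 26157937135) (nat_lit 1748) (nat_lit 4704437115) (nat_lit 1824) (nat_lit 1393654404) (nat_lit 448) (nat_lit 5) (nat_lit 471) (nat_lit 5) (nat_lit 472) (nat_lit 5) (nat_lit 411) (nat_lit 409) (nat_lit 200)) (XT.nd (nat_lit 78) (nat_lit 0) (nat_lit 76) (XT.lf (nat_lit 76) (nat_lit 19280386760) (nat_lit 0) (nat_lit 7963070268) (nat_lit 1824) (nat_lit 5497057772) (nat_lit 449) (nat_lit 5) (nat_lit 448) (nat_lit 5) (nat_lit 472) (nat_lit 5) (nat_lit 412) (nat_lit 409) (nat_lit 199)) (XT.lf (nat_lit 76) (nat_lit 10848762999) (nat_lit 0) (nat_lit 17713111760) (nat_lit 1824) (nat_lit 4673654928) (nat_lit 450) (nat_lit 5) (nat_lit 449) (nat_lit 5) (nat_lit 473) (nat_lit 5) (nat_lit 413) (nat_lit 409) (nat_lit 198))))) (XT.nd (nat_lit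 234) (nat_lit 1672) (nat_lit 0) (XT.nd (nat_lit 78) (nat_lit 0) (nat_lit 0) (XT.lf (nat_lit 76) (nat_lit 2263554516) (nat_lit 0) (nat_lit 27850222082) (nat_lit 1824) (nat_lit 3627740570) (nat_lit 451) (nat_lit 5) (nat_lit 450) (nat_lit 5) (nat_lit 474) (nat_lit 5) (nat_lit 414) (nat_lit 409) (nat_lit 197)) (XT.nd (nat_lit 78) (nat_lit 0) (nat_lit 76) (XT.lf (nat_lit 76) (nat_lit 27837652504) (nat_lit 0) (nat_lit 4140518171) (nat_lit 1824) (nat_lit 2279195648) (nat_lit 451) (nat_lit 5) (nat_lit 450) (nat_lit 5) (nat_lit 474) (nat_lit 5) (nat_lit 415) (nat_lit 409) (nat_lit 196)) (XT.lf (nat_lit 76) (nat_lit 19512366020) (nat_lit 0) (nat_lit 14641159786) (nat_lit 1824) (nat_lit 630065297) (nat_lit 452) (nat_lit 5) (nat_lit 451) (nat_lit 5) (nat_lit 475) (nat_lit 5) (nat_lit 416) (nat_lit 409) (nat_lit 195)))) (XT.nd (nat_lit 78) (nat_lit 0) (nat_lit 0) (XT.lf (nat_lit 0) (nat_lit 1259034958) (nat_lit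 1824) (nat_lit 24292957726) (nat_lit 1900) (nat_lit 9769381686) (nat_lit 428) (nat_lit 5) (nat_lit 452) (nat_lit 5) (nat_lit 453) (nat_lit 5) (nat_lit 417) (nat_lit 409) (nat_lit 194)) (XT.nd (nat_lit 52494) (nat_lit 0) (nat_lit 1444) (XT.lf (nat_lit 76) (nat_lit 2379056094) (nat_lit 0) (nat_lit 1031584302) (nat_lit 1900) (nat_lit 32460280276) (nat_lit 429) (nat_lit 5) (nat_lit 428) (nat_lit 5) (nat_lit 453) (nat_lit 5) (nat_lit 418) (nat_lit 409) (nat_lit 193)) (XT.lf (nat_lit 0) (nat_lit 6434332885) (nat_lit 0) (nat_lit 6434332885) (nat_lit 1748) (nat_lit 3256397338) (nat_lit 447) (nat_lit 5) (nat_lit 447) (nat_lit 3) (nat_lit 470) (nat_lit 3) (nat_lit 410) (nat_lit 410) (nat_lit 200))))))) (XT.nd (nat_lit 53352) (nat_lit 0) (nat_lit 1444) (XT.nd (nat_lit 390) (nat_lit 1444) (nat_lit 0) (XT.nd (nat_lit 156) (nat_lit 0) (nat_lit 76) (XT.nd (nat_lit 78) (nat_lit 0) (nat_lit 76) (XT.lf (nat_lit 76)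 (nat_lit 4111656414) (nat_lit 0) (nat_lit 22200763585) (nat_lit 1824) (nat_lit 6417657010) (nat_lit 448) (nat_lit 5) (nat_lit 447) (nat_lit 5) (nat_lit 471) (nat_lit 5) (nat_lit 411) (nat_lit 410) (nat_lit 199)) (XT.lf (nat_lit 0) (nat_lit 27126829369) (nat_lit 1748) (nat_lit 4743312878) (nat_lit 1824) (nat_lit 1349843515) (nat_lit 448) (nat_lit 5) (nat_lit 471) (nat_lit 5) (nat_lit 472) (nat_lit 5) (nat_lit 412) (nat_lit 410) (nat_lit 198))) (XT.nd (nat_lit 78) (nat_lit 0) (nat_lit 76) (XT.lf (nat_lit 76) (nat_lit 19959396710) (nat_lit 0) (nat_lit 8280807588) (nat_lit 1824) (nat_lit 5478897590) (nat_lit 449) (nat_lit 5) (nat_lit 448) (nat_lit 5) (nat_lit 472) (nat_lit 5) (nat_lit 413) (nat_lit 410) (nat_lit 197)) (XT.nd (nat_lit 78) (nat_lit 0) (nat_lit 76) (XT.lf (nat_lit 76) (nat_lit 11277265247) (nat_lit 0) (nat_lit 18315854797) (nat_lit 1824) (nat_lit 4635949418) (nat_lit 450) (nat_lit 5) (nat_lit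 449) (nat_lit 5) (nat_lit 473) (nat_lit 5) (nat_lit 414) (nat_lit 410) (nat_lit 196)) (XT.lf (nat_lit 76) (nat_lit 2436753461) (nat_lit 0) (nat_lit 28749980055) (nat_lit 1824) (nat_lit 3563601076) (nat_lit 451) (nat_lit 5) (nat_lit 450) (nat_lit 5) (nat_lit 474) (nat_lit 5) (nat_lit 415) (nat_lit 410) (nat_lit 195))))) (XT.nd (nat_lit 52728) (nat_lit 0) (nat_lit 1444) (XT.nd (nat_lit 78) (nat_lit 1672) (nat_lit 0) (XT.lf (nat_lit 76) (nat_lit 28775007622) (nat_lit 0) (nat_lit 4327113630) (nat_lit 1824) (nat_lit 2179637818) (nat_lit 451) (nat_lit 5) (nat_lit 450) (nat_lit 5) (nat_lit 474) (nat_lit 5) (nat_lit 416) (nat_lit 410) (nat_lit 194)) (XT.nd (nat_lit 78) (nat_lit 1748) (nat_lit 0) (XT.lf (nat_lit 76) (nat_lit 20201976744) (nat_lit 0) (nat_lit 15136249539) (nat_lit 1824) (nat_lit 485635579) (nat_lit 452) (nat_lit 5) (nat_lit 451) (nat_lit 5) (nat_lit 475) (nat_lit 5) (nat_lit 417) (nat_lit 410)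 (nat_lit 193)) (XT.lf (nat_lit 0) (nat_lit 1453639668) (nat_lit 1824) (nat_lit 24913539029) (nat_lit 1900) (nat_lit 10010666838) (nat_lit 428) (nat_lit 5) (nat_lit 452) (nat_lit 5) (nat_lit 453) (nat_lit 5) (nat_lit 418) (nat_lit 410) (nat_lit 192)))) (XT.nd (nat_lit 78) (nat_lit 0) (nat_lit 0) (XT.lf (nat_lit 0) (nat_lit 6673533105) (nat_lit 0) (nat_lit 6673533105) (nat_lit 1748) (nat_lit 3259881648) (nat_lit 447) (nat_lit 5) (nat_lit 447) (nat_lit 3) (nat_lit 470) (nat_lit 3) (nat_lit 411) (nat_lit 411) (nat_lit 198)) (XT.nd (nat_lit 78) (nat_lit 0) (nat_lit 76) (XT.lf (nat_lit 76) (nat_lit 4330111971) (nat_lit 0) (nat_lit 22951017922) (nat_lit 1824) (nat_lit 6427223196) (nat_lit 448) (nat_lit 5) (nat_lit 447) (nat_lit 5) (nat_lit 471) (nat_lit 5) (nat_lit 412) (nat_lit 411) (nat_lit 197)) (XT.lf (nat_lit 0) (nat_lit 28114217170) (nat_lit 1748) (nat_lit 4789224903) (nat_lit 1824) (nat_lit 1309633268)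 (nat_lit 448) (nat_lit 5) (nat_lit 471) (nat_lit 5) (nat_lit 472) (nat_lit 5) (nat_lit 413) (nat_lit 411) (nat_lit 196)))))) (XT.nd (nat_lit 53118) (nat_lit 0) (nat_lit 0) (XT.nd (nat_lit 234) (nat_lit 76) (nat_lit 0) (XT.nd (nat_lit 78) (nat_lit 0) (nat_lit 76) (XT.lf (nat_lit 76) (nat_lit 20653002201) (nat_lit 0) (nat_lit 8603550990) (nat_lit 1824) (nat_lit 5470701680) (nat_lit 449) (nat_lit 5) (nat_lit 448) (nat_lit 5) (nat_lit 472) (nat_lit 5) (nat_lit 414) (nat_lit 411) (nat_lit 195)) (XT.nd (nat_lit 78) (nat_lit 0) (nat_lit 76) (XT.lf (nat_lit 76) (nat_lit 11712707683) (nat_lit 0) (nat_lit 18932584361) (nat_lit 1824) (nat_lit 4607325801) (nat_lit 450) (nat_lit 5) (nat_lit 449) (nat_lit 5) (nat_lit 473) (nat_lit 5) (nat_lit 415) (nat_lit 411) (nat_lit 194)) (XT.lf (nat_lit 76) (nat_lit 2609104165) (nat_lit 0) (nat_lit 29673042480) (nat_lit 1824) (nat_lit 3507466681) (nat_lit 451) (nat_lit 5) (nat_lit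 450) (nat_lit 5) (nat_lit 474) (nat_lit 5) (nat_lit 416) (nat_lit 411) (nat_lit 193)))) (XT.nd (nat_lit 52728) (nat_lit 228) (nat_lit 0) (XT.lf (nat_lit 76) (nat_lit 29734615230) (nat_lit 0) (nat_lit 4515726090) (nat_lit 1824) (nat_lit 2086733334) (nat_lit 451) (nat_lit 5) (nat_lit 450) (nat_lit 5) (nat_lit 474) (nat_lit 5) (nat_lit 417) (nat_lit 411) (nat_lit 192)) (XT.nd (nat_lit 78) (nat_lit 0) (nat_lit 0) (XT.lf (nat_lit 0) (nat_lit 6917258971) (nat_lit 0) (nat_lit 6917258971) (nat_lit 1748) (nat_lit 3268878389) (nat_lit 447) (nat_lit 5) (nat_lit 447) (nat_lit 3) (nat_lit 470) (nat_lit 3) (nat_lit 412) (nat_lit 412) (nat_lit 196)) (XT.lf (nat_lit 76) (nat_lit 4549661729) (nat_lit 0) (nat_lit 23718944661) (nat_lit 1824) (nat_lit 6447579222) (nat_lit 448) (nat_lit 5) (nat_lit 447) (nat_lit 5) (nat_lit 471) (nat_lit 5) (nat_lit 413) (nat_lit 412) (nat_lit 195))))) (XT.nd (nat_lit 53118) (nat_lit 76)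 (nat_lit 0) (XT.nd (nat_lit 78) (nat_lit 0) (nat_lit 0) (XT.lf (nat_lit 0) (nat_lit 29121262235) (nat_lit 1748) (nat_lit 4842047319) (nat_lit 1824) (nat_lit 1272849542) (nat_lit 448) (nat_lit 5) (nat_lit 471) (nat_lit 5) (nat_lit 472) (nat_lit 5) (nat_lit 414) (nat_lit 412) (nat_lit 194)) (XT.nd (nat_lit 78) (nat_lit 0) (nat_lit 76) (XT.lf (nat_lit 76) (nat_lit 21361972596) (nat_lit 0) (nat_lit 8931710470) (nat_lit 1824) (nat_lit 5472165705) (nat_lit 449) (nat_lit 5) (nat_lit 448) (nat_lit 5) (nat_lit 472) (nat_lit 5) (nat_lit 415) (nat_lit 412) (nat_lit 193)) (XT.lf (nat_lit 76) (nat_lit 12155638048) (nat_lit 0) (nat_lit 19563955161) (nat_lit 1824) (nat_lit 4587470262) (nat_lit 450) (nat_lit 5) (nat_lit 449) (nat_lit 5) (nat_lit 473) (nat_lit 5) (nat_lit 416) (nat_lit 412) (nat_lit 192)))) (XT.nd (nat_lit 78) (nat_lit 0) (nat_lit 0) (XT.lf (nat_lit 76) (nat_lit 4770651910) (nat_lit 0) (nat_lit 24505351535)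 (nat_lit 1824) (nat_lit 6478445877) (nat_lit 448) (nat_lit 5) (nat_lit 447) (nat_lit 5) (nat_lit 471) (nat_lit 5) (nat_lit 414) (nat_lit 413) (nat_lit 193)) (XT.nd (nat_lit 53118) (nat_lit 76) (nat_lit 0) (XT.lf (nat_lit 0) (nat_lit 30149126279) (nat_lit 1748) (nat_lit 4901669817) (nat_lit 1824) (nat_lit 1239329191) (nat_lit 448) (nat_lit 5) (nat_lit 471) (nat_lit 5) (nat_lit 472) (nat_lit 5) (nat_lit 415) (nat_lit 413) (nat_lit 192)) (XT.lf (nat_lit 76) (nat_lit 4993421132) (nat_lit 0) (nat_lit 25311054577) (nat_lit 1824) (nat_lit 6519570182) (nat_lit 448) (nat_lit 5) (nat_lit 447) (nat_lit 5) (nat_lit 471) (nat_lit 5) (nat_lit 415) (nat_lit 414) (nat_lit 191))))))))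

set_option maxRecDepth 10000000 in
noncomputable def Tp : PT := (PT.nd (nat_lit 9309144) (PT.nd (nat_lit 8459490) (PT.nd (nat_lit 7662954) (PT.nd (nat_lit 6920394) (PT.nd (nat_lit 6389292) pc0 pc1) (PT.nd (nat_lit 424242) pc2 pc3)) (PT.nd (nat_lit 477360) (PT.nd (nat_lit 265200) pc4 pc5) (PT.nd (nat_lit 159900) pc6 pc7))) (PT.nd (nat_lit 478452) (PT.nd (nat_lit 265512) (PT.nd (nat_lit 158574) pc8 pc9) (PT.nd (nat_lit 106626) pc10 pc11)) (PT.nd (nat_lit 211302) (PT.nd (nat_lit 105924) pc12 pc13) (PT.nd (nat_lit 105066) pc14 pc15)))) (PT.nd (nat_lit 530088) (PT.nd (nat_lit 266916) (PT.nd (nat_lit 158652) (PT.nd (nat_lit 104286) pc16 pc17) (PT.nd (nat_lit 54210) pc18 pc19)) (PT.nd (nat_lit 156390) (PT.nd (nat_lit 102804) pc20 pc21) (PT.nd (nat_lit 53430) pc22 pc23))) (PT.nd (nat_lit 268086) (PT.nd (nat_lit 107328) (PT.nd (nat_lit 53118) pc24 pc25) (PT.nd (nat_lit 102648) pc26 pc27)) (PT.nd (nat_lit 265902)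 (PT.nd (nat_lit 153894) pc28 pc29) (PT.nd (nat_lit 206310) pc30 pc31)))))

set_option maxRecDepth 10000000 in
noncomputable def Tx : XT := (XT.nd (nat_lit 15756390) (nat_lit 0) (nat_lit 684) XT.nil (XT.nd (nat_lit 6266910) (nat_lit 0) (nat_lit 0) (XT.nd (nat_lit 2866110) (nat_lit 0) (nat_lit 5168) (XT.nd (nat_lit 1962246) (nat_lit 0) (nat_lit 2356) (XT.nd (nat_lit 1378338) (nat_lit 0) (nat_lit 1064) (XT.nd (nat_lit 954642) (nat_lit 0) (nat_lit 456) (XT.nd (nat_lit 637182) (nat_lit 0) (nat_lit 228) (XT.nd (nat_lit 424944) (nat_lit 0) (nat_lit 76) (XT.nd (nat_lit 317928) (nat_lit 0) (nat_lit 0) xc0 xc1) (XT.nd (nat_lit 157638) (nat_lit 0) (nat_lit 76) xc2 xc3)) (XT.nd (nat_lit 159432) (nat_lit 0) (nat_lit 152) (XT.nd (nat_lit 105300) (nat_lit 0) (nat_lit 152) xc4 xc5) (XT.nd (nat_lit 104364) (nat_lit 0) (nat_lit 76) xc6 xc7))) (XT.nd (nat_lit 213096) (nat_lit 0) (nat_lit 304) (XT.nd (nat_lit 106860)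 (nat_lit 0) (nat_lit 228) (XT.nd (nat_lit 53508) (nat_lit 0) (nat_lit 152) xc8 xc9) (XT.nd (nat_lit 53196) (nat_lit 0) (nat_lit 0) xc10 xc11)) (XT.nd (nat_lit 105612) (nat_lit 0) (nat_lit 152) (XT.nd (nat_lit 52884) (nat_lit 0) (nat_lit 0) xc12 xc13) (XT.nd (nat_lit 52572) (nat_lit 0) (nat_lit 76) xc14 xc15)))) (XT.nd (nat_lit 318084) (nat_lit 0) (nat_lit 760) (XT.nd (nat_lit 159744) (nat_lit 0) (nat_lit 152) (XT.nd (nat_lit 55692) (nat_lit 0) (nat_lit 0) (XT.nd (nat_lit 52260) (nat_lit 0) (nat_lit 380) xc16 xc17) (XT.nd (nat_lit 52104) (nat_lit 0) (nat_lit 152) xc18 xc19)) (XT.nd (nat_lit 55224) (nat_lit 0) (nat_lit 228) (XT.nd (nat_lit 51792) (nat_lit 0) (nat_lit 608) xc20 xc21) (XT.nd (nat_lit 51636) (nat_lit 0) (nat_lit 0) xc22 xc23))) (XT.nd (nat_lit 157170) (nat_lit 0) (nat_lit 152) (XT.nd (nat_lit 54834) (nat_lit 0) (nat_lit 0) (XT.nd (nat_lit 51402) (nat_lit 0) (nat_lit 4636) xc24 xc25) (XT.nd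 (nat_lit 51246) (nat_lit 0) (nat_lit 152) xc26 xc27)) (XT.nd (nat_lit 54366) (nat_lit 0) (nat_lit 228) (XT.nd (nat_lit 3432) (nat_lit 6764) (nat_lit 0) xc28 xc29) (XT.nd (nat_lit 3432) (nat_lit 1976) (nat_lit 0) xc30 xc31))))) (XT.nd (nat_lit 474786) (nat_lit 0) (nat_lit 1292) (XT.nd (nat_lit 215280) (nat_lit 0) (nat_lit 456) (XT.nd (nat_lit 107952) (nat_lit 0) (nat_lit 152) (XT.nd (nat_lit 54054) (nat_lit 0) (nat_lit 0) (XT.nd (nat_lit 50622) (nat_lit 0) (nat_lit 7524) xc32 xc33) (XT.nd (nat_lit 50466) (nat_lit 0) (nat_lit 4256) xc34 xc35)) (XT.nd (nat_lit 53742) (nat_lit 0) (nat_lit 304) (XT.nd (nat_lit 50310) (nat_lit 0) (nat_lit 2128) xc36 xc37) (XT.nd (nat_lit 50154) (nat_lit 0) (nat_lit 608) xc38 xc39))) (XT.nd (nat_lit 152958) (nat_lit 0) (nat_lit 456) (XT.nd (nat_lit 99840) (nat_lit 0) (nat_lit 380) (XT.nd (nat_lit 49998) (nat_lit 0) (nat_lit 152) xc40 xc41) (XT.nd (nat_lit 3432) (nat_lit 14440)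 (nat_lit 0) xc42 xc43)) (XT.nd (nat_lit 53196) (nat_lit 0) (nat_lit 152) (XT.nd (nat_lit 3432) (nat_lit 14896) (nat_lit 0) xc44 xc45) (XT.nd (nat_lit 3432) (nat_lit 14136) (nat_lit 0) xc46 xc47)))) (XT.nd (nat_lit 213876) (nat_lit 0) (nat_lit 760) (XT.nd (nat_lit 106782) (nat_lit 0) (nat_lit 228) (XT.nd (nat_lit 53352) (nat_lit 0) (nat_lit 76) (XT.nd (nat_lit 3432) (nat_lit 12692) (nat_lit 0) xc48 xc49) (XT.nd (nat_lit 3432) (nat_lit 11552) (nat_lit 0) xc50 xc51)) (XT.nd (nat_lit 53508) (nat_lit 0) (nat_lit 228) (XT.nd (nat_lit 3432) (nat_lit 9880) (nat_lit 0) xc52 xc53) (XT.nd (nat_lit 3432) (nat_lit 7752) (nat_lit 0) xc54 xc55))) (XT.nd (nat_lit 107406) (nat_lit 0) (nat_lit 228) (XT.nd (nat_lit 53664) (nat_lit 0) (nat_lit 0) (XT.nd (nat_lit 3432) (nat_lit 5396) (nat_lit 0) xc56 xc57) (XT.nd (nat_lit 3432) (nat_lit 3192) (nat_lit 0) xc58 xc59)) (XT.nd (nat_lit 53820) (nat_lit 0) (nat_lit 228) (XT.nd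 (nat_lit 3432) (nat_lit 1140) (nat_lit 0) xc60 xc61) (XT.nd (nat_lit 50466) (nat_lit 0) (nat_lit 9804) xc62 xc63)))))) (XT.nd (nat_lit 1114152) (nat_lit 0) (nat_lit 5396) (XT.nd (nat_lit 528918) (nat_lit 0) (nat_lit 2128) (XT.nd (nat_lit 263562) (nat_lit 0) (nat_lit 836) (XT.nd (nat_lit 108030) (nat_lit 0) (nat_lit 0) (XT.nd (nat_lit 53976) (nat_lit 0) (nat_lit 0) (XT.nd (nat_lit 50544) (nat_lit 0) (nat_lit 5016) xc64 xc65) (XT.nd (nat_lit 50622) (nat_lit 0) (nat_lit 1748) xc66 xc67)) (XT.nd (nat_lit 101322) (nat_lit 0) (nat_lit 608) (XT.nd (nat_lit 50622) (nat_lit 0) (nat_lit 228) xc68 xc69) (XT.nd (nat_lit 3432) (nat_lit 8360) (nat_lit 0) xc70 xc71))) (XT.nd (nat_lit 108654) (nat_lit 0) (nat_lit 380) (XT.nd (nat_lit 54288) (nat_lit 0) (nat_lit 0) (XT.nd (nat_lit 3432) (nat_lit 3040) (nat_lit 0) xc72 xc73) (XT.nd (nat_lit 50934) (nat_lit 0) (nat_lit 8664) xc74 xc75)) (XT.nd (nat_lit 54444) (nat_lit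 0) (nat_lit 228) (XT.nd (nat_lit 51012) (nat_lit 0) (nat_lit 2204) xc76 xc77) (XT.nd (nat_lit 51090) (nat_lit 0) (nat_lit 304) xc78 xc79)))) (XT.nd (nat_lit 267306) (nat_lit 0) (nat_lit 1292) (XT.nd (nat_lit 109434) (nat_lit 0) (nat_lit 304) (XT.nd (nat_lit 54678) (nat_lit 0) (nat_lit 0) (XT.nd (nat_lit 3432) (nat_lit 4484) (nat_lit 0) xc80 xc81) (XT.nd (nat_lit 51324) (nat_lit 0) (nat_lit 6384) xc82 xc83)) (XT.nd (nat_lit 102882) (nat_lit 0) (nat_lit 684) (XT.nd (nat_lit 51402) (nat_lit 0) (nat_lit 304) xc84 xc85) (XT.nd (nat_lit 3432) (nat_lit 5852) (nat_lit 0) xc86 xc87))) (XT.nd (nat_lit 158574) (nat_lit 0) (nat_lit 760) (XT.nd (nat_lit 55068) (nat_lit 0) (nat_lit 380) (XT.nd (nat_lit 51636) (nat_lit 0) (nat_lit 4104) xc88 xc89) (XT.nd (nat_lit 51714) (nat_lit 0) (nat_lit 76) xc90 xc91)) (XT.nd (nat_lit 55302) (nat_lit 0) (nat_lit 380) (XT.nd (nat_lit 3432) (nat_lit 836) (nat_lit 0) xc92 xc93)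 (XT.nd (nat_lit 51948) (nat_lit 0) (nat_lit 456) xc94 xc95))))) (XT.nd (nat_lit 744432) (nat_lit 0) (nat_lit 5624) (XT.nd (nat_lit 320970) (nat_lit 0) (nat_lit 2128) (XT.nd (nat_lit 160056) (nat_lit 0) (nat_lit 1216) (XT.nd (nat_lit 55536) (nat_lit 0) (nat_lit 0) (XT.nd (nat_lit 3432) (nat_lit 456) (nat_lit 0) xc96 xc97) (XT.nd (nat_lit 52182) (nat_lit 0) (nat_lit 836) xc98 xc99)) (XT.nd (nat_lit 55848) (nat_lit 0) (nat_lit 456) (XT.nd (nat_lit 52416) (nat_lit 0) (nat_lit 912) xc100 xc101) (XT.nd (nat_lit 52494) (nat_lit 0) (nat_lit 456) xc102 xc103))) (XT.nd (nat_lit 210990) (nat_lit 0) (nat_lit 1444) (XT.nd (nat_lit 105378) (nat_lit 0) (nat_lit 912) (XT.nd (nat_lit 52650) (nat_lit 0) (nat_lit 456) xc104 xc105) (XT.nd (nat_lit 52806) (nat_lit 0) (nat_lit 0) xc106 xc107)) (XT.nd (nat_lit 106002) (nat_lit 0) (nat_lit 1520) (XT.nd (nat_lit 52884) (nat_lit 0) (nat_lit 1064) xc108 xc109) (XT.nd (nat_lit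 53196) (nat_lit 0) (nat_lit 0) xc110 xc111)))) (XT.nd (nat_lit 479466) (nat_lit 0) (nat_lit 5700) (XT.nd (nat_lit 213642) (nat_lit 0) (nat_lit 2356) (XT.nd (nat_lit 106626) (nat_lit 0) (nat_lit 1216) (XT.nd (nat_lit 53274) (nat_lit 0) (nat_lit 532) xc112 xc113) (XT.nd (nat_lit 53430) (nat_lit 0) (nat_lit 532) xc114 xc115)) (XT.nd (nat_lit 107406) (nat_lit 0) (nat_lit 1292) (XT.nd (nat_lit 53664) (nat_lit 0) (nat_lit 608) xc116 xc117) (XT.nd (nat_lit 104364) (nat_lit 0) (nat_lit 1292) xc118 xc119))) (XT.nd (nat_lit 319488) (nat_lit 0) (nat_lit 5320) (XT.nd (nat_lit 159276) (nat_lit 0) (nat_lit 2128) (XT.nd (nat_lit 54132) (nat_lit 0) (nat_lit 684) xc120 xc121) (XT.nd (nat_lit 105534) (nat_lit 0) (nat_lit 2356) xc122 xc123)) (XT.nd (nat_lit 264576) (nat_lit 0) (nat_lit 4636) (XT.nd (nat_lit 106158) (nat_lit 0) (nat_lit 1748) xc124 xc125) (XT.nd (nat_lit 159432) (nat_lit 0) (nat_lit 0) xc126 xc127)))))))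 XT.nil))

set_option maxRecDepth 10000000 in
noncomputable def Te : XT := XT.nil

set_option maxRecDepth 10000000 in
noncomputable def Tz : ZL := (ZL.cons (nat_lit 76) (nat_lit 6) (nat_lit 311577645506037209726) (ZL.cons (nat_lit 152) (nat_lit 3) (nat_lit 153533490144197272849) (ZL.cons (nat_lit 3420) (nat_lit 6) (nat_lit 203735030557587475082) (ZL.cons (nat_lit 3496) (nat_lit 6) (nat_lit 201037665490983607078) (ZL.cons (nat_lit 3572) (nat_lit 3) (nat_lit 100476081042185332159) (ZL.cons (nat_lit 3724) (nat_lit 6) (nat_lit 198259379472381623032) (ZL.cons (nat_lit 3800) (nat_lit 6) (nat_lit 195654329804774923902) (ZL.cons (nat_lit 3876) (nat_lit 3) (nat_lit 97785658394322926633) (ZL.cons (nat_lit 4028) (nat_lit 6) (nat_lit 192971128647140023798) (ZL.cons (nat_lit 4104) (nat_lit 6) (nat_lit 190456543038808449926) (ZL.cons (nat_lit 4180) (nat_lit 3) (nat_lit 95187973938759045042) (ZL.cons (nat_lit 4256)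 (nat_lit 6) (nat_lit 188025362752925405034) (ZL.cons (nat_lit 4332) (nat_lit 6) (nat_lit 187866519862226928838) (ZL.cons (nat_lit 4408) (nat_lit 6) (nat_lit 185440651897175508952) (ZL.cons (nat_lit 4484) (nat_lit 3) (nat_lit 92681202083883696299) (ZL.cons (nat_lit 4560) (nat_lit 6) (nat_lit 183096224291908931122) (ZL.cons (nat_lit 4636) (nat_lit 6) (nat_lit 182942007893172546468) (ZL.cons (nat_lit 4788) (nat_lit 6) (nat_lit 180603216129076239606) (ZL.cons (nat_lit 4864) (nat_lit 3) (nat_lit 90263623729873985653) (ZL.cons (nat_lit 4940) (nat_lit 6) (nat_lit 178343985271024407282) (ZL.cons (nat_lit 5016) (nat_lit 6) (nat_lit 178194260612057043540) (ZL.cons (nat_lit 5168) (nat_lit 6) (nat_lit 175941008817902751688) (ZL.cons (nat_lit 5244) (nat_lit 3) (nat_lit 87933626414131828123) (ZL.cons (nat_lit 5320) (nat_lit 6) (nat_lit 173765523216494087140) (ZL.cons (nat_lit 5396) (nat_lit 6) (nat_lit 173620159469923831076)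 (ZL.cons (nat_lit 5472) (nat_lit 6) (nat_lit 171665902898082246210) (ZL.cons (nat_lit 5548) (nat_lit 6) (nat_lit 171451017057404067214) (ZL.cons (nat_lit 5624) (nat_lit 3) (nat_lit 85689704650236453296) (ZL.cons (nat_lit 5700) (nat_lit 6) (nat_lit 169357930223547793990) (ZL.cons (nat_lit 5776) (nat_lit 6) (nat_lit 169216800372508710436) (ZL.cons (nat_lit 5852) (nat_lit 6) (nat_lit 167339070057529311744) (ZL.cons (nat_lit 5928) (nat_lit 6) (nat_lit 167130443027744671946) (ZL.cons (nat_lit 6004) (nat_lit 3) (nat_lit 83530460466818374507) (ZL.cons (nat_lit 6080) (nat_lit 6) (nat_lit 165118514235491191480) (ZL.cons (nat_lit 6156) (nat_lit 6) (nat_lit 164981494962637712304) (ZL.cons (nat_lit 6232) (nat_lit 6) (nat_lit 163179255999716202892) (ZL.cons (nat_lit 6308) (nat_lit 6) (nat_lit 162976705485362183670) (ZL.cons (nat_lit 6384) (nat_lit 3) (nat_lit 81454604153308313713) (ZL.cons (nat_lit 6536) (nat_lit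 6) (nat_lit 161044800744014485468) (ZL.cons (nat_lit 6612) (nat_lit 6) (nat_lit 160911772323768389178) (ZL.cons (nat_lit 6688) (nat_lit 6) (nat_lit 159184092666490527478) (ZL.cons (nat_lit 6764) (nat_lit 6) (nat_lit 158987441681680800076) (ZL.cons (nat_lit 6840) (nat_lit 3) (nat_lit 79460955220090130015) (ZL.cons (nat_lit 6916) (nat_lit 6) (nat_lit 157392955391363347014) (ZL.cons (nat_lit 6992) (nat_lit 6) (nat_lit 157134534926394754456) (ZL.cons (nat_lit 7068) (nat_lit 6) (nat_lit 157005381120330583298) (ZL.cons (nat_lit 7144) (nat_lit 6) (nat_lit 155351433013172623734) (ZL.cons (nat_lit 7220) (nat_lit 6) (nat_lit 155160509726949587420) (ZL.cons (nat_lit 7296) (nat_lit 3) (nat_lit 77548443581192978154) (ZL.cons (nat_lit 7372) (nat_lit 6) (nat_lit 153636577891798971098) (ZL.cons (nat_lit 7448) (nat_lit 6) (nat_lit 153385684236489657934) (ZL.cons (nat_lit 7524) (nat_lit 6) (nat_lit 153260292191767161666)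 (ZL.cons (nat_lit 7600) (nat_lit 6) (nat_lit 151988471145177450636) (ZL.cons (nat_lit 7676) (nat_lit 6) (nat_lit 151679353830561072568) (ZL.cons (nat_lit 7752) (nat_lit 6) (nat_lit 151493991416752299450) (ZL.cons (nat_lit 7828) (nat_lit 3) (nat_lit 75716110968296717147) (ZL.cons (nat_lit 7904) (nat_lit 6) (nat_lit 150040027540847971398) (ZL.cons (nat_lit 7980) (nat_lit 6) (nat_lit 149796441467732133376) (ZL.cons (nat_lit 8056) (nat_lit 6) (nat_lit 149674701618486991370) (ZL.cons (nat_lit 8132) (nat_lit 6) (nat_lit 148466272946320508022) (ZL.cons (nat_lit 8208) (nat_lit 6) (nat_lit 148166159048634704074) (ZL.cons (nat_lit 8284) (nat_lit 6) (nat_lit 147986195540082497164) (ZL.cons (nat_lit 8360) (nat_lit 3) (nat_lit 73963112585498110157) (ZL.cons (nat_lit 8436) (nat_lit 6) (nat_lit 146601719640841382722) (ZL.cons (nat_lit 8512) (nat_lit 6) (nat_lit 146365228307719209886) (ZL.cons (nat_lit 8588) (nat_lit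 6) (nat_lit 146247034279325868132) (ZL.cons (nat_lit 8664) (nat_lit 6) (nat_lit 145101756258461864478) (ZL.cons (nat_lit 8740) (nat_lit 6) (nat_lit 144810383542262054820) (ZL.cons (nat_lit 8816) (nat_lit 6) (nat_lit 144635661689298747140) (ZL.cons (nat_lit 8892) (nat_lit 3) (nat_lit 72288719014995841118) (ZL.cons (nat_lit 8968) (nat_lit 6) (nat_lit 143664958253880477918) (ZL.cons (nat_lit 9044) (nat_lit 6) (nat_lit 143320302641488787850) (ZL.cons (nat_lit 9120) (nat_lit 6) (nat_lit 143090699405447843348) (ZL.cons (nat_lit 9196) (nat_lit 6) (nat_lit 142975947921570812518) (ZL.cons (nat_lit 9272) (nat_lit 6) (nat_lit 141893683592961840102) (ZL.cons (nat_lit 9348) (nat_lit 6) (nat_lit 141610797460729015190) (ZL.cons (nat_lit 9424) (nat_lit 6) (nat_lit 141441164593774347538) (ZL.cons (nat_lit 9500) (nat_lit 3) (nat_lit 70692318384602190806) (ZL.cons (nat_lit 9576) (nat_lit 6) (nat_lit 140529279836347547252)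 (ZL.cons (nat_lit 9652) (nat_lit 6) (nat_lit 140194662736938139420) (ZL.cons (nat_lit 9728) (nat_lit 6) (nat_lit 139971746973791591358) (ZL.cons (nat_lit 9804) (nat_lit 6) (nat_lit 139860337766143988610) (ZL.cons (nat_lit 9880) (nat_lit 6) (nat_lit 139225899174188673508) (ZL.cons (nat_lit 9956) (nat_lit 6) (nat_lit 138841057834802000704) (ZL.cons (nat_lit 10032) (nat_lit 6) (nat_lit 138566411104478869722) (ZL.cons (nat_lit 10108) (nat_lit 6) (nat_lit 138401719000639386564) (ZL.cons (nat_lit 10184) (nat_lit 3) (nat_lit 69173418808780874871) (ZL.cons (nat_lit 10260) (nat_lit 6) (nat_lit 137548799992755625720) (ZL.cons (nat_lit 10336) (nat_lit 6) (nat_lit 137223929022455229766) (ZL.cons (nat_lit 10412) (nat_lit 6) (nat_lit 137007505951439163688) (ZL.cons (nat_lit 10488) (nat_lit 6) (nat_lit 136899341672169646456) (ZL.cons (nat_lit 10564) (nat_lit 6) (nat_lit 136316760053461304044) (ZL.cons (nat_lit 10640)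 (nat_lit 6) (nat_lit 135943127685124728506) (ZL.cons (nat_lit 10716) (nat_lit 6) (nat_lit 135676480374131397456) (ZL.cons (nat_lit 10792) (nat_lit 6) (nat_lit 135516585127685297304) (ZL.cons (nat_lit 10868) (nat_lit 3) (nat_lit 67731651115746708447) (ZL.cons (nat_lit 10944) (nat_lit 6) (nat_lit 135143861477166254230) (ZL.cons (nat_lit 11020) (nat_lit 6) (nat_lit 134722887945687756764) (ZL.cons (nat_lit 11096) (nat_lit 6) (nat_lit 134407479236658246130) (ZL.cons (nat_lit 11172) (nat_lit 6) (nat_lit 134197359750234881006) (ZL.cons (nat_lit 11248) (nat_lit 6) (nat_lit 134092345886866417676) (ZL.cons (nat_lit 11324) (nat_lit 6) (nat_lit 133562143575245777382) (ZL.cons (nat_lit 11400) (nat_lit 6) (nat_lit 133199393703074344820) (ZL.cons (nat_lit 11476) (nat_lit 6) (nat_lit 132940512818614800112) (ZL.cons (nat_lit 11552) (nat_lit 6) (nat_lit 132785274715269071810) (ZL.cons (nat_lit 11628) (nat_lit 3) (nat_lit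 66366771874046244445) (ZL.cons (nat_lit 11704) (nat_lit 6) (nat_lit 132459880331145006108) (ZL.cons (nat_lit 11780) (nat_lit 6) (nat_lit 132051168164661027984) (ZL.cons (nat_lit 11856) (nat_lit 6) (nat_lit 131744946117059561348) (ZL.cons (nat_lit 11932) (nat_lit 6) (nat_lit 131540946615677653462) (ZL.cons (nat_lit 12008) (nat_lit 6) (nat_lit 131438991408523805570) (ZL.cons (nat_lit 12084) (nat_lit 6) (nat_lit 131415135070744966534) (ZL.cons (nat_lit 12160) (nat_lit 6) (nat_lit 130961799317549779132) (ZL.cons (nat_lit 12236) (nat_lit 6) (nat_lit 130609614975635766934) (ZL.cons (nat_lit 12312) (nat_lit 6) (nat_lit 130358274311111937120) (ZL.cons (nat_lit 12388) (nat_lit 6) (nat_lit 130207557705921909644) (ZL.cons (nat_lit 12464) (nat_lit 3) (nat_lit 65078666732972322336) (ZL.cons (nat_lit 12540) (nat_lit 6) (nat_lit 129930335286048947652) (ZL.cons (nat_lit 12616) (nat_lit 6) (nat_lit 129533527357423726176)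 (ZL.cons (nat_lit 12692) (nat_lit 6) (nat_lit 129236224398587350800) (ZL.cons (nat_lit 12768) (nat_lit 6) (nat_lit 129038166630255401396) (ZL.cons (nat_lit 12844) (nat_lit 6) (nat_lit 128939180992241956840) (ZL.cons (nat_lit 12920) (nat_lit 6) (nat_lit 128955874790907707582) (ZL.cons (nat_lit 12996) (nat_lit 6) (nat_lit 128515742991689079034) (ZL.cons (nat_lit 13072) (nat_lit 6) (nat_lit 128173816446141494380) (ZL.cons (nat_lit 13148) (nat_lit 6) (nat_lit 127929796383496999414) (ZL.cons (nat_lit 13224) (nat_lit 6) (nat_lit 127783469582341632930) (ZL.cons (nat_lit 13300) (nat_lit 3) (nat_lit 63867354092152726673) (ZL.cons (nat_lit 13376) (nat_lit 6) (nat_lit 128037566361790498612) (ZL.cons (nat_lit 13452) (nat_lit 6) (nat_lit 127555372552287008832) (ZL.cons (nat_lit 13528) (nat_lit 6) (nat_lit 127170122136146017106) (ZL.cons (nat_lit 13604) (nat_lit 6) (nat_lit 126881478486790312862) (ZL.cons (nat_lit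 13680) (nat_lit 6) (nat_lit 126689189391322400816) (ZL.cons (nat_lit 13756) (nat_lit 6) (nat_lit 126593086830144299304) (ZL.cons (nat_lit 13908) (nat_lit 6) (nat_lit 126651576880581144824) (ZL.cons (nat_lit 13984) (nat_lit 6) (nat_lit 126224264454155291866) (ZL.cons (nat_lit 14060) (nat_lit 6) (nat_lit 125892296934206180550) (ZL.cons (nat_lit 14136) (nat_lit 6) (nat_lit 125655384252027059226) (ZL.cons (nat_lit 14212) (nat_lit 6) (nat_lit 125513319396536412152) (ZL.cons (nat_lit 14288) (nat_lit 3) (nat_lit 62732989116697245112) (ZL.cons (nat_lit 14364) (nat_lit 6) (nat_lit 125803566252198151792) (ZL.cons (nat_lit 14440) (nat_lit 6) (nat_lit 125335416922583113172) (ZL.cons (nat_lit 14516) (nat_lit 6) (nat_lit 124961387392349140624) (ZL.cons (nat_lit 14592) (nat_lit 6) (nat_lit 124681150839576612228) (ZL.cons (nat_lit 14668) (nat_lit 6) (nat_lit 124494462397374755876) (ZL.cons (nat_lit 14744) (nat_lit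 6) (nat_lit 124401158939920288386) (ZL.cons (nat_lit 14820) (nat_lit 6) (nat_lit 125010599686977306732) (ZL.cons (nat_lit 14896) (nat_lit 6) (nat_lit 124502802878537816010) (ZL.cons (nat_lit 14972) (nat_lit 6) (nat_lit 124087936445114657800) (ZL.cons (nat_lit 15048) (nat_lit 6) (nat_lit 123765637882057268172) (ZL.cons (nat_lit 15124) (nat_lit 6) (nat_lit 123535625569262004748) (ZL.cons (nat_lit 15200) (nat_lit 6) (nat_lit 123397698525096327980) (ZL.cons (nat_lit 15276) (nat_lit 3) (nat_lit 61675868115391891209) (ZL.cons (nat_lit 15352) (nat_lit 6) (nat_lit 124271984301512105990) (ZL.cons (nat_lit 15428) (nat_lit 6) (nat_lit 123725694795184797698) (ZL.cons (nat_lit 15504) (nat_lit 6) (nat_lit 123271180882937187386) (ZL.cons (nat_lit 15580) (nat_lit 6) (nat_lit 122908045416690612096) (ZL.cons (nat_lit 15656) (nat_lit 6) (nat_lit 122635971093610487440) (ZL.cons (nat_lit 15732) (nat_lit 6) (nat_lit 122454720178851403600)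 (ZL.cons (nat_lit 15808) (nat_lit 6) (nat_lit 122364134297827648760) (ZL.cons (nat_lit 15884) (nat_lit 6) (nat_lit 123003413646043458508) (ZL.cons (nat_lit 15960) (nat_lit 6) (nat_lit 122510407035908030626) (ZL.cons (nat_lit 16036) (nat_lit 6) (nat_lit 122107624090837003234) (ZL.cons (nat_lit 16112) (nat_lit 6) (nat_lit 121794712864567692916) (ZL.cons (nat_lit 16188) (nat_lit 6) (nat_lit 121571399939523747844) (ZL.cons (nat_lit 16264) (nat_lit 6) (nat_lit 121437490187906585932) (ZL.cons (nat_lit 16340) (nat_lit 3) (nat_lit 60696433300597688327) (ZL.cons (nat_lit 16416) (nat_lit 6) (nat_lit 122335328311663092414) (ZL.cons (nat_lit 16492) (nat_lit 6) (nat_lit 121804950150180268830) (ZL.cons (nat_lit 16568) (nat_lit 6) (nat_lit 121363674507221423868) (ZL.cons (nat_lit 16644) (nat_lit 6) (nat_lit 121011115802127661448) (ZL.cons (nat_lit 16720) (nat_lit 6) (nat_lit 120746965973894530714) (ZL.cons (nat_lit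 16796) (nat_lit 6) (nat_lit 120570994211992507570) (ZL.cons (nat_lit 16872) (nat_lit 6) (nat_lit 120483046754687891220) (ZL.cons (nat_lit 16948) (nat_lit 6) (nat_lit 121720855028159289394) (ZL.cons (nat_lit 17024) (nat_lit 6) (nat_lit 121154193807115887458) (ZL.cons (nat_lit 17100) (nat_lit 6) (nat_lit 120675546612809646794) (ZL.cons (nat_lit 17176) (nat_lit 6) (nat_lit 120284495209828066804) (ZL.cons (nat_lit 17252) (nat_lit 6) (nat_lit 119980697902770483968) (ZL.cons (nat_lit 17328) (nat_lit 6) (nat_lit 119763889237679275162) (ZL.cons (nat_lit 17404) (nat_lit 6) (nat_lit 119633879770089797580) (ZL.cons (nat_lit 17480) (nat_lit 3) (nat_lit 59795277949748195254) (ZL.cons (nat_lit 17556) (nat_lit 6) (nat_lit 121159456877128987866) (ZL.cons (nat_lit 17632) (nat_lit 6) (nat_lit 120557569384667548696) (ZL.cons (nat_lit 17708) (nat_lit 6) (nat_lit 120042639130800729680) (ZL.cons (nat_lit 17784) (nat_lit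 6) (nat_lit 119614216176471753988) (ZL.cons (nat_lit 17860) (nat_lit 6) (nat_lit 119271926171526353582) (ZL.cons (nat_lit 17936) (nat_lit 6) (nat_lit 119015470027610692674) (ZL.cons (nat_lit 18012) (nat_lit 6) (nat_lit 118844623656832029430) (ZL.cons (nat_lit 18088) (nat_lit 6) (nat_lit 118759237775953761126) (ZL.cons (nat_lit 18164) (nat_lit 6) (nat_lit 120650643316498472036) (ZL.cons (nat_lit 18240) (nat_lit 6) (nat_lit 120014555560524375358) (ZL.cons (nat_lit 18316) (nat_lit 6) (nat_lit 119464399035239519108) (ZL.cons (nat_lit 18392) (nat_lit 6) (nat_lit 118999693021349965064) (ZL.cons (nat_lit 18468) (nat_lit 6) (nat_lit 118620031465057168956) (ZL.cons (nat_lit 18544) (nat_lit 6) (nat_lit 118325082623253690478) (ZL.cons (nat_lit 18620) (nat_lit 6) (nat_lit 118114588773650575132) (ZL.cons (nat_lit 18696) (nat_lit 6) (nat_lit 117988365989583121166) (ZL.cons (nat_lit 18772) (nat_lit 3) (nat_lit 58973151989649129967)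 (ZL.cons (nat_lit 18848) (nat_lit 6) (nat_lit 120193969751894375432) (ZL.cons (nat_lit 18924) (nat_lit 6) (nat_lit 119524677856587601560) (ZL.cons (nat_lit 19000) (nat_lit 6) (nat_lit 118940321067790087802) (ZL.cons (nat_lit 19076) (nat_lit 6) (nat_lit 118440388782482496524) (ZL.cons (nat_lit 19152) (nat_lit 6) (nat_lit 118024444166629122064) (ZL.cons (nat_lit 19228) (nat_lit 6) (nat_lit 117692123773478247884) (ZL.cons (nat_lit 19304) (nat_lit 6) (nat_lit 117443137225987314968) (ZL.cons (nat_lit 19380) (nat_lit 6) (nat_lit 117277266963095408900) (ZL.cons (nat_lit 19456) (nat_lit 6) (nat_lit 117194368049621362006) (ZL.cons (nat_lit 19532) (nat_lit 3) (nat_lit 58725669225113491530) (ZL.cons (nat_lit 19608) (nat_lit 6) (nat_lit 117476786658194616008) (ZL.cons (nat_lit 19684) (nat_lit 6) (nat_lit 117553153518395739002) (ZL.cons (nat_lit 19760) (nat_lit 6) (nat_lit 117680505759154799622) (ZL.cons (nat_lit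 19836) (nat_lit 6) (nat_lit 117858954659128771804) (ZL.cons (nat_lit 19912) (nat_lit 6) (nat_lit 118088656144540933782) (ZL.cons (nat_lit 19988) (nat_lit 6) (nat_lit 118369810925427082586) (ZL.cons (nat_lit 20064) (nat_lit 6) (nat_lit 118702664671013235236) (ZL.cons (nat_lit 20140) (nat_lit 6) (nat_lit 119087508224378059252) (ZL.cons (nat_lit 20216) (nat_lit 6) (nat_lit 118469947296247868300) (ZL.cons (nat_lit 20292) (nat_lit 6) (nat_lit 117935814747427619514) (ZL.cons (nat_lit 20368) (nat_lit 6) (nat_lit 117484643860156207820) (ZL.cons (nat_lit 20444) (nat_lit 6) (nat_lit 117116040407444755288) (ZL.cons (nat_lit 20520) (nat_lit 6) (nat_lit 116829682308606426670) (ZL.cons (nat_lit 20596) (nat_lit 6) (nat_lit 116625319347826703032) (ZL.cons (nat_lit 20672) (nat_lit 6) (nat_lit 116502772955528204036) (ZL.cons (nat_lit 20748) (nat_lit 3) (nat_lit 58230968026169509187) (ZL.cons (nat_lit 20824) (nat_lit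 6) (nat_lit 116600694684562950272) (ZL.cons (nat_lit 20900) (nat_lit 6) (nat_lit 116652354546737245160) (ZL.cons (nat_lit 20976) (nat_lit 6) (nat_lit 116755719410771229948) (ZL.cons (nat_lit 21052) (nat_lit 6) (nat_lit 116910879595478138218) (ZL.cons (nat_lit 21128) (nat_lit 6) (nat_lit 117117970677718393482) (ZL.cons (nat_lit 21204) (nat_lit 6) (nat_lit 117377173610864827030) (ZL.cons (nat_lit 21280) (nat_lit 6) (nat_lit 117688714882917275552) (ZL.cons (nat_lit 21356) (nat_lit 6) (nat_lit 118052866714404716914) (ZL.cons (nat_lit 21432) (nat_lit 6) (nat_lit 117485530026251790934) (ZL.cons (nat_lit 21508) (nat_lit 6) (nat_lit 117000158875467721732) (ZL.cons (nat_lit 21584) (nat_lit 6) (nat_lit 116596329151338231966) (ZL.cons (nat_lit 21660) (nat_lit 6) (nat_lit 116273687992939324996) (ZL.cons (nat_lit 21736) (nat_lit 6) (nat_lit 116031953480812205656) (ZL.cons (nat_lit 21812) (nat_lit 6) (nat_lit 115870914390625889090)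 (ZL.cons (nat_lit 21888) (nat_lit 6) (nat_lit 115790430008612251326) (ZL.cons (nat_lit 21964) (nat_lit 3) (nat_lit 57900137579438091228) (ZL.cons (nat_lit 22040) (nat_lit 6) (nat_lit 115826486813082844396) (ZL.cons (nat_lit 22116) (nat_lit 6) (nat_lit 115905144679090001078) (ZL.cons (nat_lit 22192) (nat_lit 6) (nat_lit 116036317487071833516) (ZL.cons (nat_lit 22268) (nat_lit 6) (nat_lit 116220119854045024868) (ZL.cons (nat_lit 22344) (nat_lit 6) (nat_lit 116456712384019551702) (ZL.cons (nat_lit 22420) (nat_lit 6) (nat_lit 116746301808332284968) (ZL.cons (nat_lit 22496) (nat_lit 6) (nat_lit 117089141166286022202) (ZL.cons (nat_lit 22572) (nat_lit 6) (nat_lit 116570565876169275806) (ZL.cons (nat_lit 22648) (nat_lit 6) (nat_lit 116132535888527128532) (ZL.cons (nat_lit 22724) (nat_lit 6) (nat_lit 115774668458710184328) (ZL.cons (nat_lit 22800) (nat_lit 6) (nat_lit 115496650887022486636) (ZL.cons (nat_lit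 22876) (nat_lit 6) (nat_lit 115298240245488774368) (ZL.cons (nat_lit 22952) (nat_lit 6) (nat_lit 115179263165587319034) (ZL.cons (nat_lit 23028) (nat_lit 3) (nat_lit 57569807843381433466) (ZL.cons (nat_lit 23104) (nat_lit 6) (nat_lit 115074828685432256164) (ZL.cons (nat_lit 23180) (nat_lit 6) (nat_lit 115128038343471779898) (ZL.cons (nat_lit 23256) (nat_lit 6) (nat_lit 115234504153426784230) (ZL.cons (nat_lit 23332) (nat_lit 6) (nat_lit 115394319143674899750) (ZL.cons (nat_lit 23408) (nat_lit 6) (nat_lit 115607622958382362672) (ZL.cons (nat_lit 23484) (nat_lit 6) (nat_lit 115874601979523189224) (ZL.cons (nat_lit 23560) (nat_lit 6) (nat_lit 116195489489737211202) (ZL.cons (nat_lit 23636) (nat_lit 6) (nat_lit 115724255362762386734) (ZL.cons (nat_lit 23712) (nat_lit 6) (nat_lit 115332187669432785022) (ZL.cons (nat_lit 23788) (nat_lit 6) (nat_lit 115018943826327050096) (ZL.cons (nat_lit 23864) (nat_lit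 6) (nat_lit 114784250125232759476) (ZL.cons (nat_lit 23940) (nat_lit 6) (nat_lit 114627901493983908440) (ZL.cons (nat_lit 24016) (nat_lit 6) (nat_lit 114549761317271638768) (ZL.cons (nat_lit 24092) (nat_lit 3) (nat_lit 57198361687565125900) (ZL.cons (nat_lit 24168) (nat_lit 6) (nat_lit 114423721378963113594) (ZL.cons (nat_lit 24244) (nat_lit 6) (nat_lit 114504738980950484978) (ZL.cons (nat_lit 24320) (nat_lit 6) (nat_lit 114639846973171772392) (ZL.cons (nat_lit 24396) (nat_lit 6) (nat_lit 114829163411154159482) (ZL.cons (nat_lit 24472) (nat_lit 6) (nat_lit 115072853717027922122) (ZL.cons (nat_lit 24548) (nat_lit 6) (nat_lit 115371130824070037386) (ZL.cons (nat_lit 24624) (nat_lit 6) (nat_lit 114945858991407758480) (ZL.cons (nat_lit 24700) (nat_lit 6) (nat_lit 114598414884789366046) (ZL.cons (nat_lit 24776) (nat_lit 6) (nat_lit 114328494912277038192) (ZL.cons (nat_lit 24852) (nat_lit 6) (nat_lit 114135863221467608804)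 (ZL.cons (nat_lit 24928) (nat_lit 6) (nat_lit 114020351493407943430) (ZL.cons (nat_lit 25004) (nat_lit 3) (nat_lit 56990929397760062930) (ZL.cons (nat_lit 25080) (nat_lit 6) (nat_lit 113791578362973654792) (ZL.cons (nat_lit 25156) (nat_lit 6) (nat_lit 113846384310754364236) (ZL.cons (nat_lit 25232) (nat_lit 6) (nat_lit 113956044095008018702) (ZL.cons (nat_lit 25308) (nat_lit 6) (nat_lit 114120653534963577686) (ZL.cons (nat_lit 25384) (nat_lit 6) (nat_lit 114340356464112264494) (ZL.cons (nat_lit 25460) (nat_lit 6) (nat_lit 114615344855887315846) (ZL.cons (nat_lit 25536) (nat_lit 6) (nat_lit 114234696609936246218) (ZL.cons (nat_lit 25612) (nat_lit 6) (nat_lit 113930576373911260856) (ZL.cons (nat_lit 25688) (nat_lit 6) (nat_lit 113702718411683794234) (ZL.cons (nat_lit 25764) (nat_lit 6) (nat_lit 113550923624063550508) (ZL.cons (nat_lit 25840) (nat_lit 6) (nat_lit 113475059374828337236) (ZL.cons (nat_lit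 25916) (nat_lit 3) (nat_lit 56615528468764133531) (ZL.cons (nat_lit 25992) (nat_lit 6) (nat_lit 113258864881476114712) (ZL.cons (nat_lit 26068) (nat_lit 6) (nat_lit 113342313011523107238) (ZL.cons (nat_lit 26144) (nat_lit 6) (nat_lit 113481474243511033274) (ZL.cons (nat_lit 26220) (nat_lit 6) (nat_lit 113676470174632891976) (ZL.cons (nat_lit 26296) (nat_lit 6) (nat_lit 113927471189682867496) (ZL.cons (nat_lit 26372) (nat_lit 6) (nat_lit 113590146814325204940) (ZL.cons (nat_lit 26448) (nat_lit 6) (nat_lit 113328088588585080810) (ZL.cons (nat_lit 26524) (nat_lit 6) (nat_lit 113141067529546799850) (ZL.cons (nat_lit 26600) (nat_lit 6) (nat_lit 113028920220751008226) (ZL.cons (nat_lit 26676) (nat_lit 3) (nat_lit 56495774334701806262) (ZL.cons (nat_lit 26752) (nat_lit 6) (nat_lit 112741667326624134054) (ZL.cons (nat_lit 26828) (nat_lit 6) (nat_lit 112798117452838264786) (ZL.cons (nat_lit 26904) (nat_lit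 6) (nat_lit 112911067030619528882) (ZL.cons (nat_lit 26980) (nat_lit 6) (nat_lit 113080614753773754636) (ZL.cons (nat_lit 27056) (nat_lit 6) (nat_lit 113306908770796902050) (ZL.cons (nat_lit 27132) (nat_lit 6) (nat_lit 113011646405724100726) (ZL.cons (nat_lit 27208) (nat_lit 6) (nat_lit 112790425083173162258) (ZL.cons (nat_lit 27284) (nat_lit 6) (nat_lit 112643051502959333400) (ZL.cons (nat_lit 27360) (nat_lit 6) (nat_lit 112569396892051359346) (ZL.cons (nat_lit 27436) (nat_lit 3) (nat_lit 56147169863002431139) (ZL.cons (nat_lit 27512) (nat_lit 6) (nat_lit 112322981908271145360) (ZL.cons (nat_lit 27588) (nat_lit 6) (nat_lit 112408933482219547662) (ZL.cons (nat_lit 27664) (nat_lit 6) (nat_lit 112552269551167111476) (ZL.cons (nat_lit 27740) (nat_lit 6) (nat_lit 112753115360222625942) (ZL.cons (nat_lit 27816) (nat_lit 6) (nat_lit 112498689898339010280) (ZL.cons (nat_lit 27892) (nat_lit 6) (nat_lit 112317116054612523914)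 (ZL.cons (nat_lit 27968) (nat_lit 6) (nat_lit 112208235172286512626) (ZL.cons (nat_lit 28044) (nat_lit 3) (nat_lit 56085976056362967137) (ZL.cons (nat_lit 28120) (nat_lit 6) (nat_lit 111916491210841059246) (ZL.cons (nat_lit 28196) (nat_lit 6) (nat_lit 111974634840841613898) (ZL.cons (nat_lit 28272) (nat_lit 6) (nat_lit 112090972905956315918) (ZL.cons (nat_lit 28348) (nat_lit 6) (nat_lit 112265607060805168444) (ZL.cons (nat_lit 28424) (nat_lit 6) (nat_lit 112050829077746004884) (ZL.cons (nat_lit 28500) (nat_lit 6) (nat_lit 111907747931907336088) (ZL.cons (nat_lit 28576) (nat_lit 6) (nat_lit 111836238600928720502) (ZL.cons (nat_lit 28652) (nat_lit 3) (nat_lit 55789145087250854158) (ZL.cons (nat_lit 28728) (nat_lit 6) (nat_lit 111607791622235979886) (ZL.cons (nat_lit 28804) (nat_lit 6) (nat_lit 111696321743402834256) (ZL.cons (nat_lit 28880) (nat_lit 6) (nat_lit 111843957894418824988) (ZL.cons (nat_lit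 28956) (nat_lit 6) (nat_lit 111667672609247478998) (ZL.cons (nat_lit 29032) (nat_lit 6) (nat_lit 111561963014756205904) (ZL.cons (nat_lit 29108) (nat_lit 3) (nat_lit 55763368371669084335) (ZL.cons (nat_lit 29184) (nat_lit 6) (nat_lit 111308083283784446526) (ZL.cons (nat_lit 29260) (nat_lit 6) (nat_lit 111367971222685017814) (ZL.cons (nat_lit 29336) (nat_lit 6) (nat_lit 111487799429753160896) (ZL.cons (nat_lit 29412) (nat_lit 6) (nat_lit 111348885695929210608) (ZL.cons (nat_lit 29488) (nat_lit 6) (nat_lit 111279459160998515866) (ZL.cons (nat_lit 29564) (nat_lit 3) (nat_lit 55537623972207290219) (ZL.cons (nat_lit 29640) (nat_lit 6) (nat_lit 111105634435580880156) (ZL.cons (nat_lit 29716) (nat_lit 6) (nat_lit 111196820460382740156) (ZL.cons (nat_lit 29792) (nat_lit 6) (nat_lit 111094189786119368220) (ZL.cons (nat_lit 29868) (nat_lit 3) (nat_lit 55529994761303355356) (ZL.cons (nat_lit 29944) (nat_lit 6)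 (nat_lit 110909082155771592420) (ZL.cons (nat_lit 30020) (nat_lit 6) (nat_lit 110970766732839180850) (ZL.cons (nat_lit 30096) (nat_lit 6) (nat_lit 110903362329993846148) (ZL.cons (nat_lit 30172) (nat_lit 3) (nat_lit 55389071319273320818) (ZL.cons (nat_lit 30248) (nat_lit 6) (nat_lit 110809440724447930348) (ZL.cons (nat_lit 30324) (nat_lit 3) (nat_lit 55388118292557626577) (ZL.cons (nat_lit 30400) (nat_lit 6) (nat_lit 110712701470735637072) (ZL.cons (nat_lit 30476) (nat_lit 1) (nat_lit 18446744073709551617) ZL.nil)))))))))))))))))))))))))))))))))))))))))))))))))))))))))))))))))))))))))))))))))))))))))))))))))))))))))))))))))))))))))))))))))))))))))))))))))))))))))))))))))))))))))))))))))))))))))))))))))))))))))))))))))))))))))))))))))))))))))))))))))))))))))))))))))))))))))))))))))))))))))))))))))))))))))))))))))))))))))))))))))))))))))))))))))))))))))))))))))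

noncomputable def vl : XL := ⟨(nat_lit 0), (nat_lit 76), (nat_lit 182362646), (nat_lit 152), (nat_lit 101994117), (nat_lit 152), (nat_lit 101994117), (nat_lit 1), (nat_lit 4), (nat_lit 2), (nat_lit 5), (nat_lit 2), (nat_lit 4), (nat_lit 0), (nat_lit 0), (nat_lit 0)⟩

noncomputable def cp0 : Nat := (nat_lit 1059010966486594495836882746280966110744174957516043010286217058935230603403442798931476564100108857922745706112117427057182264258448451229299421809927585975009339864176192745220506461424183859157009538935928779740080447254449429137321158361278255336858552645609234678437155218556531084886179657621830743524151728008672389329308059626651254450059123881536001781281848743256986543266710298424077276615592067751008395285157577885969495892795029289894866523138644560684827341576492931388492894269763753304517902203259636230908548918179070520095718578794174465930391591184218138960563910194840231306535125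25417159972982614353070358363116728727520444747991140133884843759724410550636897054776331285746575513744837021645187497659270415191328744035167848084931905827941156471802560392672700763105219432044001823256924134852905576068070740749162066168497118353350051017480047610312272382112193184774861857782444513383748365069378438410766048760456355409539547702935228738678523205588615966936812542499680772566608611310235109331125606964688497451195795454898062697391854020048775777728930065658650761192306393493505070645620576270467691897226765828473076660635830408166444042472378834742780582727368706282842346829617307752271130670322807438733144413994954013708381422941868893888997061708958221699607365993459421700677462110786936597614014253761186650952541230228967837219612606562211130863899651072508783977033136096383568986728445037036818576802287247778533266503240802202578603022480724019099116464673332312157703815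27667527701957770012138742716416327941681507074900905586244359820181586652861179155689444991016337258082806684084675567390264920552344343657718255253063914160826107757799883331528793770472965884272425733943555780926542737178501910345385160172092337894406588982326810730827048008440299904144637931974227361703174520548801320190749396815247216924408970073790054889502195600810612510044593439084163728203308524128102316625034941936396846786292184681325797834408389905826583724166116304814767213259312749506404207516312229456230387128639386883494126391217895832124618037587662761491365918235177490521110861467208858166569963141474258449295004827239153538514287943381861895624884987844196497085578423167574904344753518653991306536919260962605262667422073690712680930403054839214307721558612570293574122266037478756196303002074255957177501458147135945346702821168701995974380261528766422505152542504809591154811690414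95692953861930054894233982139145360851300048062131913788583981981145670542597898135294986283233142833794589399730203957639114790140180745910340890785313434862025157299989298423320754031034730208369602646412423572290303278789383130759603001756655038224194752353072592009673844407063906906520008174821702183046974798357633088543797788467790653404688356628557123897988917624337680178854230036781366008666004213774372708587349185038854324188863478044218432383860185753268612050153696262532037877554651853861589792308349335165092839290793868819218613848920831448743209215291249456968832628705167592284362548124717028574340019235930696456485864697264120573012478901829158406692204840743518380720553237252832881179962484633282309135543636986545652310890845568079710160117563802251492571644087457531886475718479881216154710228488926860230303635664229866953635441232165179987698954435584006405096042739727003712044787963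33882021479624453202703697163024447829553998906745616786929618753773044394666016040948557609440677933964189716448894216452882294030672999710686647009199685657430234634273328518361983284290417908635558976668237154981387577341428228345769240040195246837735788757934386190188948173112520920418322921017970818316213000305487513665201821840382262391065878631729794873894003547229490262743472104929812267568435111170754800935313381036733063360427538099915019592716609386482162952010422709132201416245529478193077295486659095733585063323913252268337096569830490212150971059534140086591818042892406614487139386813551787180940450315890655578824384302915842460636674847881612386041966877421037981244436509600636668659195044971557409640058102631841742493194904938192536717659797511318198270996408524952849815280374956667773026772388497741282021895751706177261149259285089530703625136807983132761095211846311976577430811396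42278170757812044092237301598051177116854583240539077671918028442869673789257732551104147671271809050388114881453309916809283985302197750030913972515756538248483059361593935930610035284421579259899424745397891407025750174285120849990221324485818027876994313657013137446792946285603462095540600488061793820085808507897322229855637294334367716458678710427438233251673432823551466712023820700953807289183474587040782542457055903088613718769511126311712591629410995378229304257352414233175705725489730438447837043268723798213417583795223748960095589047520073174963915840050502259706754643064773254369255721600514081777914471765226895709830140048431786779830315037687054763523066583814827026500272048482742156694841227438914582275593687313783859043328704102440578002940585086817327425406746861239541293886998316088587861150429588672158699490015745332914398118581176343288032305925073299223142976544999359365045178650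99578835864423152710175874287036443129167092139834879727179610443106687880325041117984981272463989358876080235638256213921926078299867857765271829382870917968374103030536526648456765165753807459706249836071071797014293401838844793600037003992049284813928442137628296072732039407165391303218877748618429707661668595491387743130109610813300131105243902950420526034135921940801126342141558647171140306781476394965221839063073146433920372205513184902195248076478701957988294429852699343058450651427678050029074227302713756666002200831529629366282803401656953332747983850741251139549984398783399534384344551344384157904382927104895386441834630251449329523031835519639401443854541062372086937937808133591552529358357557799814243833235217664723859057531366457313184821132265974606833770769119099716094858334187466720204456558292916526643457912539973905257647605891265379185610093363606890368701419975601168558295910170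24962713778929544185087503019925090800320606890958546235958492432716307789320372338806308210710393676149221712999759563333671665989369255204428537862262839765338513908631494300316538446138575463158786682888467538242019639542389535879087983300515065795880918593492013257623208897501042433111844535698164541055796935514866930784103472229589981893436705073601058420283414893341012608686455599836814465891978476182945478900453213571670698803119366006051109256879612946235405340589292852607197248356686554182110444305737707045372246217041190249749453797356460321811971146627367763697264247384899188020067350348933801781382976946593521681623361007694887696855557123456952319772163322408989078152915183432688825298496203288195608855102203247053953918199825308687240310736269430812559820121469923505004783397558820063595302012084798809452977249518710243514985496089788361093847705057540978399947252298381021662744113230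76901806376789883883117126926854458153413467728891285522524505441401260907842327326026031290275001340523587813416582828774509294047279325872456906420775301504762154978608532349046984611069862610815990279927370624595656849219814529189888956509318784722383748569241653124921411921722741267785307287166357527994272861420585293027220899436416635064878534270187238750529955377704785350814254573566439458445010503877480788943019857303254341789804108708247530312020503157512374169030528571775306013377101642831377637980596500411774921925639036829809533633496948583828530414236296900562120214680197236473380965154583383040970813484130284439114267416593607972199392715447406964749259251320726892984783945348603467509883152885606359281031900603517871596962961674420420097181898527648379464941731556030568051517238034647212581425604768897457508633881825772585891888499710811558414938535431884017738391438972992277541567244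435429481442113009040807299153612728161703390215059400482414294613960787527672088179270839085361869949823043238199551278878456624307157095554988150150942986561460888423974381424528933498697558654793264096314371062515352104820111144311394345829552118644370715784313620201049244877554279960306525807526438759771938760414810424601846539762932180053781989065487804533368037945169530298318202100482210837747954668091151222107391283345280834500296230969959586951490087471716413184458417670180210273848645903038762074781683138870818620237667630667581782912430320394277255246841548270946026521962362560236690476404861789450661674316703045981781434518541551684640516347980548896351630494961397937699801881919911015496120338988327236148742966208063165764055745261542559350144991563651390157218319935923575775407063045662719438172045548840653156679365781520292181022556549827987175727682909477875961170668879465153727434222481619276497988709621712551327108642461884150505884054247957866651790926658257909991549940229668854909973122288386445146310482197540862421099001031321289348825412185580738965732180457670065887407719634689102659801784162264504191968329982305763422083964475072190900984733643304123347512778507164480043838801248054072448459255774683242019288242646081322049029802589325500863570077902501515886592)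

noncomputable def cp1 : Nat := (nat_lit 27482991643525619363713030987823744042005510220373437571761650306948500130684103918537463839130403295361168425380170877190739080715973997701089640702920109147079673684462952660558568548034899881944382962390119239494351144680543366109727671487728765653671455337090349439583048798826479494201554333587449688593143104012828483383096802523554639833382754299046250231544433715393863369954845891298076758817907479395837621257326147295133570367388060285437669295087063015964749689985061200160729815472203219675667526906672895354956706653404773916255615505782304700093533217954032363411713054040937082737087105734109092183290142023619918267004342480677318545302711193072379724946817290594012775001917674805439009673556842422540197026364516441275678497226600756318702380007587183018062922492679832783914206559199847483332108656553896427786371678161789959585309642358381170134205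92378299737247852413820893363588389098396996275724737252310915190243870469680124924394598014073352317031586715317093657332820978066143768815200690800574507000013870310032306032043862865405603213361332943260012274193047090159163010850753352845082636563841965016952271573398542632763388375736122785094238281293673594801207999125792443562248193508530822837057645931898790019966781977576076815880242012167885166408999499442836013945306605773546721670679520509676730505892222644186973186689988261806460230876617906127375028538651894347298122429634791946179073281081868003962662877712412549984199494120512976481899668387120211609443248926717139815052370926334991586780604466868795875222134287504896992711287056465570933535580909895627497278899291751411271723664662229346707838250490283550842922534238020958763553910282230692728810598780399910527552941307860589352339519560635091158160770581278953423896514608222687709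11833589934334865857419915740333437598524965064147088913446304812545955015081821631405831768548493452975773930172579005469358076805530862368788948960376769458293923315194580224941034174964454487760522931522047241316050314834985862744235919699973737114615526512595672183982552082354005794872241057771707975753648627089558958479105189907764826445023664991495881962019301977326869847367912277109775378699580037548701528368626955803536053725259518953929611501621658350981451304197121615311368497483952180905543830823687745772436890799255269785877845293581104504410740030897896050763958701823985360684294917115054556423258894290026970045612530728542659011474302254974979817025106266094001254632459462685637637220093347967951307409055498437198267916526969645335428433463005311572890060781192086911445847148844438141866995147392841938400031204030353967714802989227903443009337382953083295805604428414079416940751769097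02464376453363041818513337746748897667357528815893254492489994914806961353002077530152431006408242452105950634245089012557086908424961605961366454498246705733562158358330949699228152203080223906492130467829158454368134719136153043412291571124425662886407030801666754774154256888119776999731432841324153289963008892711592821435926955365171766879271783369322975636504768849969310022478619740139510893267671353987705239470253734811528015591280421256329211848213958540345632590296699601219361713337947216077640865664629341485931821480789682755384140876928563839789984513457026787301291194854616301890138280944054009091731292220073748945243927050367798015980168720715310661348748106595192884314226537134751899341637212564612225305815484885962071790641096498270056985425165573051022166049366976441911897971092578627728067996677960000505662225883878890449454412600128771680819056438047788987881689237392973134716337016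76158105155046022155495751763257289616898747896872140922297677964524235722764019289131113477266593218300362574145227083728318168193809961427740150770955484356890104647038757607517419132120128748868061396921527186859132304825125441366507558122983021647323777149352192790204807688931532427167568317330588661525537871211149461793867603343892183186470554036603127876096308679757608149781186441052198722467713411127414013023980618178770379452303850662845508254063518880335931655926914421742473562405043742906219840284785211920089713033341364856561810066323503677607468989864159018606402392886089838245120602976533973956978382705496728879064597255856484876114938173908035919357051493155179319583642254183220352505009064276039348720637342221032935457583299713163956359660799047009383935381664837346420134917382520979955644721569327176297393576368099404235673401066048780603886186234672600446691119037938135153999919804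94159483837968800707613850351167194415720053140631187351087501452429020776973154146492598855203008845857347339775114158714634864903924188629695041453408604571552866090333886179795647248315033447074269318763865442013615074419174451432834219826826831701807222354188734338370296536221689235586840844364631455567051258808946549567891679217545270606506512538841011227561142301678412431885882182446586280467023864253772436495576161454810165509072851944825171575819219587816729454317098686194910609831167023321793067317135846786673848449161008235865951537871883364512120955598724901581701638367800961053570284068806559142599034847467220330866694572121180475861368153945867859145106106529870213613003928546194633915759390110007086198159629012911010525461399094017744140459962066300173590662105530126909891632566346858227495455313767542101085443750980502692126391012453761318472079080399212597644259148119856357768035878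25932198886663968525178826284115974151852965201221988306773044204721544653538144795725480835259316918129445876575919248600748468487191343462190803223073556420595054055030953454449500662108181013252047738934132591825775959142118375313505284455154201258549512433332125802542351768892061545038862650732677038866018858882562661450741158907439436922542857289908678551228448408055027094169524331657963729591234318381060326560896533183124232528749276902522677659181722043868342340882970379648812411415163411953909937562874113367894375193838246554032513534546072358027841820438710857269416965639816567928440530659194834580574676311648145289156891061314097714965232684495324433930697567991794662458323930307043641805542987849188761301974079559706669466987853452443811628752032930417380863418961076988903904999282534803663725776550981091030902344689804482887726024814811479522311877169832765284740535818922920132289428730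70118431642622277903835893780635445244898984924097063969239173747302471568337848569281276503210718412341889863309669275275971325138039905816823316640316757894451823222736662472947780704044015606734826590941708498315805970995333971205701016173875446182958234423674843146949422847766929170240607243083814616565137692645217492319633998302857101434174514176933359846362400761966634228223450456785643370741549412237304127405736757899631226636066374503823445426880415598443012770669766275822604403981707216820030707991174971110779858933502647974779397421584895944068491415636398650553648475481908141431753005303936233574483118445890101685004577434653366245813953164432313233220713831234060911396986342164213622236367917794398245135821857192176548731172027778862437385580245356293700257626849621032054748091630040246745209441329117160546228513592353380813905802353830276425041856801833091930869301311481601545088234304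78214914480832222650104101833419786585278459465176636159710375497350196633481201725385915780849785495600642974536846565435855174287305868136501781459980749714994700605071989233148199202079169279894788777878824936896689909379329680020905589864076451328489643303449542352059144092581679906732264443741246319079034542205078460660008135257795371384764960313786421602217449976763898635398608735296778752649166909147382515274706688614023979352700784384609962882037282909449330864610214960755827291033944317385744368557739714305983034674247766753127333460577730958373170162219624723787679643784169105146124432058228740239692860229501642842837263996226211637211658373415384662927068045997207134995592277798869549359156239838504828785822584624423742498106058601948395861260540742969715434842305912909974584123300252287233011540323155930951268056084567246156809474170348277766451500926860369385621406410731139410179586459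78435748110809442230530776541890810218154189270111366743513053128107076976520767217307950004873681746789981735400448908949286243937405021877022884918852236305757264566403368128030054311100397167002276345739747222107413103639471894439561681629818427815448585673093407290368714034410342347431695138405270570137534895104973367749332563650681349212204024030485230904567781069540011138016075287174302379186138785431174587315634470407117346652934372942042852996962826322812474489132381934295255111417233259649559553426808664161156728917898785912881849513922985187965145103322843217445330815349334414580410959515117506553330219543880486960107316626072379223682194592611966727828585056765853174736448707915800937806741754101910852970154907286818052172544200559886750252309547158770930410554399473198087971374417681856387773867221163394971576422146570804718921513665234755466929488487946513212474750519769038391121117032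13753702387186229441041253525778188579012371332261519206606547555167754431228760356771032582246052961173903303644777812627156028566630038461932285136427688342610871065152034160318254396045791494367840657304034859412927484538866124699027878534497435653623064236313811545936720389117301881653539543795910030906239265826374648647473428714736782460169452195718925763113682793930457176149352340709072979312788951281802362251257724156342740502834477623352676687630226372957778160867443313584375365169745324669174317890329246023527730123713332678478041826774035178608664051752253058724963555497593438287516059565293272022056522419249113722761061280064455232749346426820384228631051825029117619459433661336437951889075229262616477207360207349828328212621697855187557820243869807831413310883246358040291363959644420701749935516053161382682018923371624549068569148730165895321045116712975653656219217258098733383047295135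68203258663839526543618960520571169073855405659868956984991586780769536724819414897107665547818764215575570384317958360368832945776718633589220716027723027033645399462560632859371670234447319702898461797872557791646937871068875886963324780749870697503958485397655945837184349049545120453086216607857738173051360345959759231509921670275977175283394424376913610876689706186441688618278195813563692498108481776383806627459783034492851747833732871377873478110149917667120949867849682279134115038393140783664895741834946651573546879096821052410588606917468386730054665822939245342162879647767715168777327405758842535682271597964377550970292275200867081687844522373468845447678604536837429486143864352813502720566852983483334879379473355716536728253406564285898796111124464563269433073330636151490940899967066788456814220405569759285989122825342976851594384357883358990667623008292167590891707022898916270728711881799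61164517197883100376721402582544906293892776192873644942650866261345553520498945762338923805704791831390758964497796751176412815656736050612636959069087535792258577388153822454671328690281961204607591278058774116375265128231439104385710910152399257127313947138806980497364383002931270936537497955028159038956943220914062957210560420234812622945995881965757507868788365656747111985050026482104793488346113980720811920434062305437455515822093854344324348860186232025047554065510545776444961157369206849686718595161634891875021923120524245113884924384034744834408714706341140953972916467310043708287104001673090681396907456992404905400866105568707129559345147339301177064900653183565394935311533711282026158243892417231899290658680972749818189298239918034609238534062175369025244148230498131500233494164621881021800368458587364716218557557167204033412474449372323114224286081404630687179908459669605864897477856131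30760963133092828637638669696066155061237767406088400937495730689633470936838704683174861047148735130062057773991399819755178678278304968609782591902924123964747108921808072671895753532284722474294976233487327246526515979581306011688697825549843244328535801437959266023637506095766437264074255548994672820552898115046042767164274822134323369163815358574943812861628133904909847675867669755554111310770514056125374884073487504934616943961488944511407215844183095042527777778674402964235726373843835830627306467994888526795437233900213585540514882460803184598388270601029416298595487947022259656317997321353179189486840181530829661418044363819644345761537538403866484730365131206137025933433753163166416379772255587035718144067641966434798680086319145840830273832892941269564349275999260562988195871603463257246056654192960610951407721226031791148235826883665176229665291586219709428295532295790065491995686691647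76205560594905323155036971590461592611081368380065797505989382433206386713409724637084629111368413931980768734860856266912561595724578853797198499208246536350229881467738451862309471465577934319940413127299059975215511581328730843379919690080914479906667947343440252801442302499605095833140718490943753767254037240217664140966257037105221919886820430734185729307240123209501559281454833149007708123416424852384725230008777089782319895235960622668474087812471534275405628023078838902797506350135858382459306706465673823149537912099144026630757064860298059898294620371524357020425731119945046972607056339558837784387766723553912313101137554158018307497923074191206578747612136029800320880111798791789825454609101722181739212895000804316483323716272933270347828493860363724782266946633399802267473456479032194682144457105436494827578526375255249399324758530283300737013123535401265771813682817396687394474477577328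10877956424233932407070801546124832210076437863288860123816983971778554034405803399844394748810278659535195596067916259087195305502908057678444368553047408706983865039427906973945740426543420070813627665900891800352857261124366631153671480685296760858833722163926581132772077788008370559224087104523375337462818204733397553424097281564420148734879832940835340800311039786204229941559690676724457167038803096063591119125690693440404262450936519995595020286599562792749799253764845985280940998897864376205681006226608322940602601319184502048812393941746863534689645688782389995402741175965977255593153862354501529327484366643084279795907876705744578150939763778117828864188241434498401424479052862482395257138701011272492461602597606750924892864864823425345822533900054275651045396189615626122418961877095157976424337131268653707839282724491642867040059639826592412985451139440163269957004206307782318025875488203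76639067257872755569413662461629802684659847393055678240420011264419733352013658317944350180089223560203648864259220735536031201134184561270216897367833283133752033858229870213469622831263340605939103549920068616143607890070229157329280726282586238739079651942019140305264742961971530861624588084010586206275406849411966211104807512146797917624681753082649036238736198130553678297658011679503662471346316126956276816215797834624336224101221107622818568093585360472078183480319066078648768738910486316795904993556454261774091315185450046957817826350007548068406131598412597165110090912875945650399103182735447181671172215840309509977578878987757502969871266095349788554839536367597271920215733090838915822125673358236787576411686931808837744559851313775214231338324979570069629875655221104397294580630847743895569065961581379105977664921025621226798237072318129591344731130716293408955749872177495857812461086534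95631548084227895228848766971007283678687272050232286677050358224123641926882436515790949794058866443447806423287812659301231556109176361003219195588177328075133253404666158504100715277197204983971965075476637792891176542704731940235266648739177032424916070781636990468436227247104502338083166414456213929239649878824517221415294783903372171685921328316046480745682057842017268310131538122419457099592781717084494577725173851675794036115730750733220364190169641064631738797983642983500961571584116319570172077650888528742805635936679551897390655166957534167764440393484831739856559906996949124988239938424409444707642388207375581719651985489796151644132572070819361750195840469011251583006281345837130387054979881493205802540905331584364071774174623792384902252466733390759327348091486208152447054312190644804526575403485597722864318843950625845675471651652471739357512376143739603727679854453860319737198599005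578908461683745494597513030945383883770020994780077646922135506077037826140300500684840100805724105228653679044352730801316066378023771095057598643728903228016650151047686807256973522257064093395911368986686609375977006198488634894840711697106915417845417918697749504428311603112804627863127534442915115922872217929445804500691992918245503862564701986308871309702048799821628727247526996729523347049268637081288137292034903533323768408761042242960262955008)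

noncomputable def rc0 : Nat := (nat_lit 27482991643525619363713030987823744042005510220373437571761650306948500130684103918537463839130403295361168425380170877190739080715973997701089640702920109147079673684462952660558568548034899881944382962390119239494351144680543366109727671487728765653671455337090349439583048798826479494201554333587449688593143104012828483383096802523554639833382754299046250231544433715393863369954845891298076758817907479395837621257326147295133570367388060285437669295087063015964749689985061200160729815472203219675667526906672895354956706653404773916255615505782304700093533217954032363411713054040937082737087105734109092183290142023619918267004342480677318545302711193072379724946817290594012775001917674805439009673556842422540197026364516441275678497226600756318702380007587183018062922492679832783914206559199847483332108656553896427786371678161789959585309642358381170134205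92378299737247852413820893363588389098396996275724737252310915190243870469680124924394598014073352317031586715317093657332820978066143768815200690800574507000013870310032306032043862865405603213361332943260012274193047090159163010850753352845082636563841965016952271573398542632763388375736122785094238281293673594801207999125792443562248193508530822837057645931898790019966781977576076815880242012167885166408999499442836013945306605773546721670679520509676730505892222644186973186689988261806460230876617906127375028538651894347298122429634791946179073281081868003962662877712412549984199494120512976481899668387120211609443248926717139815052370926334991586780604466868795875222134287504896992711287056465570933535580909895627497278899291751411271723664662229346707838250490283550842922534238020958763553910282230692728810598780399910527552941307860589352339519560635091158160770581278953423896514608222687709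11833589934334865857419915740333437598524965064147088913446304812545955015081821631405831768548493452975773930172579005469358076805530862368788948960376769458293923315194580224941034174964454487760522931522047241316050314834985862744235919699973737114615526512595672183982552082354005794872241057771707975753648627089558958479105189907764826445023664991495881962019301977326869847367912277109775378699580037548701528368626955803536053725259518953929611501621658350981451304197121615311368497483952180905543830823687745772436890799255269785877845293581104504410740030897896050763958701823985360684294917115054556423258894290026970045612530728542659011474302254974979817025106266094001254632459462685637637220093347967951307409055498437198267916526969645335428433463005311572890060781192086911445847148844438141866995147392841938400031204030353967714802989227903443009337382953083295805604428414079416940751769097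02464376453363041818513337746748897667357528815893254492489994914806961353002077530152431006408242452105950634245089012557086908424961605961366454498246705733562158358330949699228152203080223906492130467829158454368134719136153043412291571124425662886407030801666754774154256888119776999731432841324153289963008892711592821435926955365171766879271783369322975636504768849969310022478619740139510893267671353987705239470253734811528015591280421256329211848213958540345632590296699601219361713337947216077640865664629341485931821480789682755384140876928563839789984513457026787301291194854616301890138280944054009091731292220073748945243927050367798015980168720715310661348748106595192884314226537134751899341637212564612225305815484885962071790641096498270056985425165573051022166049366976441911897971092578627728067996677960000505662225883878890449454412600128771680819056438047788987881689237392973134716337016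76158105155046022155495751763257289616898747896872140922297677964524235722764019289131113477266593218300362574145227083728318168193809961427740150770955484356890104647038757607517419132120128748868061396921527186859132304825125441366507558122983021647323777149352192790204807688931532427167568317330588661525537871211149461793867603343892183186470554036603127876096308679757608149781186441052198722467713411127414013023980618178770379452303850662845508254063518880335931655926914421742473562405043742906219840284785211920089713033341364856561810066323503677607468989864159018606402392886089838245120602976533973956978382705496728879064597255856484876114938173908035919357051493155179319583642254183220352505009064276039348720637342221032935457583299713163956359660799047009383935381664837346420134917382520979955644721569327176297393576368099404235673401066048780603886186234672600446691119037938135153999919804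94159483837968800707613850351167194415720053140631187351087501452429020776973154146492598855203008845857347339775114158714634864903924188629695041453408604571552866090333886179795647248315033447074269318763865442013615074419174451432834219826826831701807222354188734338370296536221689235586840844364631455567051258808946549567891679217545270606506512538841011227561142301678412431885882182446586280467023864253772436495576161454810165509072851944825171575819219587816729454317098686194910609831167023321793067317135846786673848449161008235865951537871883364512120955598724901581701638367800961053570284068806559142599034847467220330866694572121180475861368153945867859145106106529870213613003928546194633915759390110007086198159629012911010525461399094017744140459962066300173590662105530126909891632566346858227495455313767542101085443750980502692126391012453761318472079080399212597644259148119856357768035878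25932198886663968525178826284115974151852965201221988306773044204721544653538144795725480835259316918129445876575919248600748468487191343462190803223073556420595054055030953454449500662108181013252047738934132591825775959142118375313505284455154201258549512433332125802542351768892061545038862650732677038866018858882562661450741158907439436922542857289908678551228448408055027094169524331657963729591234318381060326560896533183124232528749276902522677659181722043868342340882970379648812411415163411953909937562874113367894375193838246554032513534546072358027841820438710857269416965639816567928440530659194834580574676311648145289156891061314097714965232684495324433930697567991794662458323930307043641805542987849188761301974079559706669466987853452443811628752032930417380863418961076988903904999282534803663725776550981091030902344689804482887726024814811479522311877169832765284740535818922920132289428730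70118431642622277903835893780635445244898984924097063969239173747302471568337848569281276503210718412341889863309669275275971325138039905816823316640316757894451823222736662472947780704044015606734826590941708498315805970995333971205701016173875446182958234423674843146949422847766929170240607243083814616565137692645217492319633998302857101434174514176933359846362400761966634228223450456785643370741549412237304127405736757899631226636066374503823445426880415598443012770669766275822604403981707216820030707991174971110779858933502647974779397421584895944068491415636398650553648475481908141431753005303936233574483118445890101685004577434653366245813953164432313233220713831234060911396986342164213622236367917794398245135821857192176548731172027778862437385580245356293700257626849621032054748091630040246745209441329117160546228513592353380813905802353830276425041856801833091930869301311481601545088234304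78214914480832222650104101833419786585278459465176636159710375497350196633481201725385915780849785495600642974536846565435855174287305868136501781459980749714994700605071989233148199202079169279894788777878824936896689909379329680020905589864076451328489643303449542352059144092581679906732264443741246319079034542205078460660008135257795371384764960313786421602217449976763898635398608735296778752649166909147382515274706688614023979352700784384609962882037282909449330864610214960755827291033944317385744368557739714305983034674247766753127333460577730958373170162219624723787679643784169105146124432058228740239692860229501642842837263996226211637211658373415384662927068045997207134995592277798869549359156239838504828785822584624423742498106058601948395861260540742969715434842305912909974584123300252287233011540323155930951268056084567246156809474170348277766451500926860369385621406410731139410179586459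78435748110809442230530776541890810218154189270111366743513053128107076976520767217307950004873681746789981735400448908949286243937405021877022884918852236305757264566403368128030054311100397167002276345739747222107413103639471894439561681629818427815448585673093407290368714034410342347431695138405270570137534895104973367749332563650681349212204024030485230904567781069540011138016075287174302379186138785431174587315634470407117346652934372942042852996962826322812474489132381934295255111417233259649559553426808664161156728917898785912881849513922985187965145103322843217445330815349334414580410959515117506553330219543880486960107316626072379223682194592611966727828585056765853174736448707915800937806741754101910852970154907286818052172544200559886750252309547158770930410554399473198087971374417681856387773867221163394971576422146570804718921513665234755466929488487946513212474750519769038391121117032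13753702387186229441041253525778188579012371332261519206606547555167754431228760356771032582246052961173903303644777812627156028566630038461932285136427688342610871065152034160318254396045791494367840657304034859412927484538866124699027878534497435653623064236313811545936720389117301881653539543795910030906239265826374648647473428714736782460169452195718925763113682793930457176149352340709072979312788951281802362251257724156342740502834477623352676687630226372957778160867443313584375365169745324669174317890329246023527730123713332678478041826774035178608664051752253058724963555497593438287516059565293272022056522419249113722761061280064455232749346426820384228631051825029117619459433661336437951889075229262616477207360207349828328212621697855187557820243869807831413310883246358040291363959644420701749935516053161382682018923371624549068569148730165895321045116712975653656219217258098733383047295135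68203258663839526543618960520571169073855405659868956984991586780769536724819414897107665547818764215575570384317958360368832945776718633589220716027723027033645399462560632859371670234447319702898461797872557791646937871068875886963324780749870697503958485397655945837184349049545120453086216607857738173051360345959759231509921670275977175283394424376913610876689706186441688618278195813563692498108481776383806627459783034492851747833732871377873478110149917667120949867849682279134115038393140783664895741834946651573546879096821052410588606917468386730054665822939245342162879647767715168777327405758842535682271597964377550970292275200867081687844522373468845447678604536837429486143864352813502720566852983483334879379473355716536728253406564285898796111124464563269433073330636151490940899967066788456814220405569759285989122825342976851594384357883358990667623008292167590891707022898916270728711881799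61164517197883100376721402582544906293892776192873644942650866261345553520498945762338923805704791831390758964497796751176412815656736050612636959069087535792258577388153822454671328690281961204607591278058774116375265128231439104385710910152399257127313947138806980497364383002931270936537497955028159038956943220914062957210560420234812622945995881965757507868788365656747111985050026482104793488346113980720811920434062305437455515822093854344324348860186232025047554065510545776444961157369206849686718595161634891875021923120524245113884924384034744834408714706341140953972916467310043708287104001673090681396907456992404905400866105568707129559345147339301177064900653183565394935311533711282026158243892417231899290658680972749818189298239918034609238534062175369025244148230498131500233494164621881021800368458587364716218557557167204033412474449372323114224286081404630687179908459669605864897477856131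30760963133092828637638669696066155061237767406088400937495730689633470936838704683174861047148735130062057773991399819755178678278304968609782591902924123964747108921808072671895753532284722474294976233487327246526515979581306011688697825549843244328535801437959266023637506095766437264074255548994672820552898115046042767164274822134323369163815358574943812861628133904909847675867669755554111310770514056125374884073487504934616943961488944511407215844183095042527777778674402964235726373843835830627306467994888526795437233900213585540514882460803184598388270601029416298595487947022259656317997321353179189486840181530829661418044363819644345761537538403866484730365131206137025933433753163166416379772255587035718144067641966434798680086319145840830273832892941269564349275999260562988195871603463257246056654192960610951407721226031791148235826883665176229665291586219709428295532295790065491995686691647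76205560594905323155036971590461592611081368380065797505989382433206386713409724637084629111368413931980768734860856266912561595724578853797198499208246536350229881467738451862309471465577934319940413127299059975215511581328730843379919690080914479906667947343440252801442302499605095833140718490943753767254037240217664140966257037105221919886820430734185729307240123209501559281454833149007708123416424852384725230008777089782319895235960622668474087812471534275405628023078838902797506350135858382459306706465673823149537912099144026630757064860298059898294620371524357020425731119945046972607056339558837784387766723553912313101137554158018307497923074191206578747612136029800320880111798791789825454609101722181739212895000804316483323716272933270347828493860363724782266946633399802267473456479032194682144457105436494827578526375255249399324758530283300737013123535401265771813682817396687394474477577328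10877956424233932407070801546124832210076437863288860123816983971778554034405803399844394748810278659535195596067916259087195305502908057678444368553047408706983865039427906973945740426543420070813627665900891800352857261124366631153671480685296760858833722163926581132772077788008370559224087104523375337462818204733397553424097281564420148734879832940835340800311039786204229941559690676724457167038803096063591119125690693440404262450936519995595020286599562792749799253764845985280940998897864376205681006226608322940602601319184502048812393941746863534689645688782389995402741175965977255593153862354501529327484366643084279795907876705744578150939763778117828864188241434498401424479052862482395257138701011272492461602597606750924892864864823425345822533900054275651045396189615626122418961877095157976424337131268653707839282724491642867040059639826592412985451139440163269957004206307782318025875488203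76639067257872755569413662461629802684659847393055678240420011264419733352013658317944350180089223560203648864259220735536031201134184561270216897367833283133752033858229870213469622831263340605939103549920068616143607890070229157329280726282586238739079651942019140305264742961971530861624588084010586206275406849411966211104807512146797917624681753082649036238736198130553678297658011679503662471346316126956276816215797834624336224101221107622818568093585360472078183480319066078648768738910486316795904993556454261774091315185450046957817826350007548068406131598412597165110090912875945650399103182735447181671172215840309509977578878987757502969871266095349788554839536367597271920215733090838915822125673358236787576411686931808837744559851313775214231338324979570069629875655221104397294580630847743895569065961581379105977664921025621226798237072318129591344731130716293408955749872177495857812461086534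95631548084227895228848766971007283678687272050232286677050358224123641926882436515790949794058866443447806423287812659301231556109176361003219195588177328075133253404666158504100715277197204983971965075476637792891176542704731940235266648739177032424916070781636990468436227247104502338083166414456213929239649878824517221415294783903372171685921328316046480745682057842017268310131538122419457099592781717084494577725173851675794036115730750733220364190169641064631738797983642983500961571584116319570172077650888528742805635936679551897390655166957534167764440393484831739856559906996949124988239938424409444707642388207375581719651985489796151644132572070819361750195840469011251583006281345837130387054979881493205802540905331584364071774174623792384902252466733390759327348091486208152447054312190644804526575403485597722864318843950625845675471651652471739357512376143739603727679854453860319737198599005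578908461683745494597513030945383883770020994780077646922135506077037826140300500684840100805724105228653679044352730801316066378023771095057598643728903228016650151047686807256973522257064093395911368986686609375977006198488634894840711697106915417845417918697749504428311603112804627863127534442915115922872217929445804500691992918245503862564701986308871309702048799821628727247526996729523347049268637081288137292034903533323768408761042242960262955008)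

end Vale.Agent.Lib.P154.PChain.BF.S7
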